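import Crest.Agent.R275.TorD_812

/-!
# R275, torus block B1 (helper812), part E (namespace `TorE812`)

* completeness of the scale: a sequence which is Cauchy for every `nrm s` converges for every
  `nrm s` (also vector valued), and pointwise;
* the bilinear pairing `ip f g = ∫ f g`, transposes of `pd`, multipliers, `dbar`, `G`, `Kop`,
  `opv`, `mulS`; Cauchy-Schwarz; nondegeneracy.
-/

set_option autoImplicit false
set_option linter.unusedSectionVars false
set_option linter.unusedSimpArgs false

open MeasureTheory Filter Topology Set Complex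
open scoped ContDiff Real ENNReal Matrix

namespace Crest.Agent.R275.TorE812

open Geo Tor812

noncomputable section

variable {d κ κ' κ'' : Type} [Fintype d] [Fintype κ] [Fintype κ'] [Fintype κ'']

/-! ### completeness -/

theorem norm_fc_le_nrm (s : ℕ) (f : SPer d) (k : d → ℤ) : br k ^ s * ‖fc f k‖ ≤ nrm s f := by
  refine (pow_le_pow_iff_left₀ (mul_nonneg (pow_nonneg (br_pos k).le _) (norm_nonneg _))
    (nrm_nonneg _ _) two_ne_zero).1 ?_
  rw [mul_pow, ← pow_mul, mul_comm s 2, pow_mul, br_sq]
  exact norm_fc_sq_le s f k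









/-! ### the bilinear pairing -/


/-- the bilinear pairing `∫ f g` -/
def ip (f g : SPer d) : ℂ := fc (f * g) 0

theorem fc_zero_eq_integral (f : SPer d) (a : d → ℝ) : fc f 0 = ∫ x in box a, f x := by
  rw [fc_eq_integral f 0 a]
  refine integral_congr_ae (Eventually.of_forall fun x => ?_)
  simp [ch]

theorem ip_eq_integral (f g : SPer d) (a : d → ℝ) : ip f g = ∫ x in box a, f x * g x :=
  fc_zero_eq_integral (f * g) a

theorem ip_comm (f g : SPer d) : ip f g = ip g f := by unfold ip; rw [mul_comm]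

theorem ip_add_left (f f' g : SPer d) : ip (f + f') g = ip f g + ip f' g := by
  unfold ip; rw [add_mul, fc_add]

theorem ip_add_right (f g g' : SPer d) : ip f (g + g') = ip f g + ip f g' := by
  unfold ip; rw [mul_add, fc_add]

theorem ip_smul_left (c : ℂ) (f g : SPer d) : ip (c • f) g = c * ip f g := by
  unfold ip; rw [smul_mul_assoc, fc_smul]

theorem ip_smul_right (c : ℂ) (f g : SPer d) : ip f (c • g) = c * ip f g := by
  unfold ip; rw [mul_smul_comm, fc_smul]

theorem ip_sub_left (f f' g : SPer d) : ip (f - f') g = ip f g - ip f' g := by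
  unfold ip; rw [sub_mul, fc_sub]

theorem ip_sub_right (f g g' : SPer d) : ip f (g - g') = ip f g - ip f g' := by
  unfold ip; rw [mul_sub, fc_sub]



@[simp] theorem ip_zero_left (g : SPer d) : ip 0 g = 0 := by unfold ip; rw [zero_mul, fc_zero]

@[simp] theorem ip_zero_right (g : SPer d) : ip g 0 = 0 := by unfold ip; rw [mul_zero, fc_zero]

theorem ip_sum_left {ι : Type*} (s : Finset ι) (f : ι → SPer d) (g : SPer d) :
    ip (∑ i ∈ s, f i) g = ∑ i ∈ s, ip (f i) g := by
  unfold ip; rw [Finset.sum_mul, fc_sum]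

theorem ip_sum_right {ι : Type*} (s : Finset ι) (f : SPer d) (g : ι → SPer d) :
    ip f (∑ i ∈ s, g i) = ∑ i ∈ s, ip f (g i) := by
  unfold ip; rw [Finset.mul_sum, fc_sum]



theorem ip_chS (f : SPer d) (k : d → ℤ) : ip f (chS k) = fc f (-k) := by
  rw [ip_eq_integral f _ 0, fc_eq_integral f (-k) 0, neg_neg]
  refine integral_congr_ae (Eventually.of_forall fun x => ?_)
  simp only [chS_apply]; ring

/-- **Cauchy-Schwarz** -/
theorem norm_ip_le (f g : SPer d) : ‖ip f g‖ ≤ nrm 0 f * nrm 0 g := by
  rw [ip_eq_integral f g 0]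
  refine (norm_integral_le_integral_norm _).trans ?_
  have hm : ∀ f : SPer d, MemLp (fun x => f x) (ENNReal.ofReal 2)
      (volume.restrict (box (0 : d → ℝ))) := fun f => by
    refine MemLp.of_bound (ct f).aestronglyMeasurable ‖desc f‖
      (Eventually.of_forall fun x => bdd f x)
  have h := integral_mul_norm_le_Lp_mul_Lq (μ := volume.restrict (box (0 : d → ℝ)))
    (p := 2) (q := 2) ⟨by norm_num, by norm_num, by norm_num⟩ (hm f) (hm g)
  have e : ∀ f : SPer d, (∫ x in box (0 : d → ℝ), ‖f x‖ ^ (2 : ℝ)) ^ (1 / (2 : ℝ)) = nrm 0 f := by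
    intro f
    have h1 : (∫ x in box (0 : d → ℝ), ‖f x‖ ^ (2 : ℝ)) = nrm 0 f ^ 2 := by
      rw [nrm_zero_sq]
      unfold l2
      simp
    rw [h1, ← Real.sqrt_eq_rpow, Real.sqrt_sq (nrm_nonneg _ _)]
  rw [e, e] at h
  simpa only [norm_mul] using h


/-- transposed multiplier -/
theorem pb_neg {m : (d → ℤ) → ℂ} (hm : PB m) : PB fun k => m (-k) := by
  obtain ⟨C, N, hC, h⟩ := hm
  refine ⟨C, N, hC, fun k => (h (-k)).trans (le_of_eq ?_)⟩
  simp [wt]

theorem ip_mult (m : (d → ℤ) → ℂ) (hm : PB m) (f g : SPer d) :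
    ip (mult m hm f) g = ip f (mult (fun k => m (-k)) (pb_neg hm) g) := by
  -- for `g` replaced by finite sums of characters
  have h1 : ∀ k : d → ℤ, ip (mult m hm f) (chS k) = ip f (mult (fun k => m (-k)) (pb_neg hm) (chS k)) := by
    classical
    intro k
    have e : mult (fun k => m (-k)) (pb_neg hm) (chS k) = m (-k) • (chS k : SPer d) := by
      refine fc_inj fun j => ?_
      rw [fc_mult, fc_smul, fc_chS]
      by_cases hj : j = k
      · subst hj; simp
      · simp [hj]
    rw [e, ip_smul_right, ip_chS, ip_chS, fc_mult]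
  have h2 : ∀ S : Finset (d → ℤ), ip (mult m hm f) (proj S g) =
      ip f (mult (fun k => m (-k)) (pb_neg hm) (proj S g)) := by
    intro S
    show ip _ (∑ k ∈ S, fc g k • chS k) = ip _ (mult _ _ (∑ k ∈ S, fc g k • chS k))
    rw [map_sum, ip_sum_right, ip_sum_right]
    refine Finset.sum_congr rfl fun k _ => ?_
    rw [map_smul, ip_smul_right, ip_smul_right, h1]
  have h3 : ∀ S : Finset (d → ℤ), mult (fun k => m (-k)) (pb_neg hm) (proj S g) =
      proj S (mult (fun k => m (-k)) (pb_neg hm) g) := by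
    classical
    intro S
    refine fc_inj fun k => ?_
    rw [fc_mult, fc_proj, fc_proj, fc_mult]
    split_ifs <;> simp
  -- limit
  by_contra hne
  set F := mult m hm f with hF
  set g' := mult (fun k => m (-k)) (pb_neg hm) g with hg'
  have h0 : 0 < ‖ip F g - ip f g'‖ := norm_pos_iff.2 (sub_ne_zero.2 hne)
  set D := (nrm 0 F + nrm 0 f + 1) * (nrm 1 g + nrm 1 g' + 1) with hD
  have p1 := nrm_nonneg 0 F
  have p2 := nrm_nonneg 0 f
  have p3 := nrm_nonneg 1 g
  have p4 := nrm_nonneg 1 g'
  have hDpos : 0 < D := by positivity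
  set ε := ‖ip F g - ip f g'‖ / (4 * D) with hε
  have hεpos : 0 < ε := by positivity
  obtain ⟨S, hS⟩ := rellich (d := d) 0 hεpos
  have h5 : ip F g - ip f g' = ip F (g - proj S g) - ip f (g' - proj S g') := by
    rw [ip_sub_right, ip_sub_right, h2 S, h3 S]; ring
  have q1 : ‖ip F (g - proj S g)‖ ≤ D * ε := by
    refine (norm_ip_le _ _).trans ?_
    refine (mul_le_mul_of_nonneg_left (hS g) p1).trans ?_
    have : nrm 0 F * nrm 1 g ≤ D := by
      rw [hD]; exact mul_le_mul (by linarith) (by linarith) p3 (by positivity)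
    calc nrm 0 F * (ε * nrm (0 + 1) g) = ε * (nrm 0 F * nrm 1 g) := by rw [zero_add]; ring
      _ ≤ ε * D := mul_le_mul_of_nonneg_left this hεpos.le
      _ = D * ε := mul_comm _ _
  have q2 : ‖ip f (g' - proj S g')‖ ≤ D * ε := by
    refine (norm_ip_le _ _).trans ?_
    refine (mul_le_mul_of_nonneg_left (hS g') p2).trans ?_
    have : nrm 0 f * nrm 1 g' ≤ D := by
      rw [hD]; exact mul_le_mul (by linarith) (by linarith) p4 (by positivity)
    calc nrm 0 f * (ε * nrm (0 + 1) g') = ε * (nrm 0 f * nrm 1 g') := by rw [zero_add]; ring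
      _ ≤ ε * D := mul_le_mul_of_nonneg_left this hεpos.le
      _ = D * ε := mul_comm _ _
  have q3 : ‖ip F g - ip f g'‖ ≤ D * ε + D * ε := by
    conv_lhs => rw [h5]
    exact (norm_sub_le _ _).trans (add_le_add q1 q2)
  have q4 : D * ε = ‖ip F g - ip f g'‖ / 4 := by
    rw [hε]; field_simp
  linarith


theorem mult_congr {m m' : (d → ℤ) → ℂ} (hm : PB m) (hm' : PB m') (h : m = m') (f : SPer d) :
    mult m hm f = mult m' hm' f := by subst h; rfl

theorem ip_G (f g : SPer d) : ip (G f) g = ip f (G g) := by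
  unfold G
  rw [ip_mult]
  congr 1
  refine mult_congr _ _ ?_ g
  funext k
  simp [gs, wt]




/-! ### vector valued pairing -/












end

end Crest.Agent.R275.TorE812
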