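import Crest.Agent.R275.SerK_398
import Crest.Agent.R275.TorE_812
import Mathlib.RingTheory.Norm.Transitivity
import Mathlib.MeasureTheory.Function.Jacobian

-- ▼ part R275/PaiA_323
section

/-!
# R275, block C-6 / C9 (helper323), part A: integration in charts

* `SerG398.lint A i f` : the integral over the chart `i` of a function `f : M → ℂ` (Lebesgue measure
  in the real coordinates).
* `hasFDerivAt_phi` : the real Jacobian determinant of a chart transition is `|det_ℂ J|²`.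
* `lint_change` : change of charts for densities.
* `lint_eq_fc`, `lint_db` : relation with periodic functions, and Stokes in a chart.
* `lint_add`, `lint_sum`, `lint_smul`.
-/

set_option autoImplicit false
set_option linter.unusedSectionVars false

open Set Filter Topology Complex MeasureTheory
open scoped ContDiff Matrix ComplexConjugate

namespace Crest.Agent.R275.Pai323

open Geo Tor812 TorS666 C1d194
open SerG398 (lint dens)

noncomputable section

variable {n : ℕ} {M : Type} [TopologicalSpace M] {A : Atl n M}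

/-! ### the Jacobian determinant -/

/-- real determinant of a complex linear endomorphism of `Cn n` read in real coordinates -/
theorem det_real (D : Cn n →L[ℂ] Cn n) :
    LinearMap.det (((rcE n : Cn n →ₗ[ℝ] (RI n → ℝ)) ∘ₗ ((D : Cn n →ₗ[ℂ] Cn n).restrictScalars ℝ)) ∘ₗ
      ((rcE n).symm : (RI n → ℝ) →ₗ[ℝ] Cn n)) =
      ‖LinearMap.det (D : Cn n →ₗ[ℂ] Cn n)‖ ^ 2 := by
  rw [LinearMap.comp_assoc, LinearMap.det_conj, LinearMap.det_restrictScalars,
    Algebra.norm_complex_apply, Complex.normSq_eq_norm_sq]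

/-- the determinant of the matrix `J` -/
theorem det_J (i j : A.ι) (x : M) :
    (Matrix.of (A.J i j x)).det =
      LinearMap.det ((fderiv ℂ (fun z => A.e j ((A.e i).symm z)) (A.e i x) : Cn n →L[ℂ] Cn n) :
        Cn n →ₗ[ℂ] Cn n) := by
  rw [← LinearMap.det_toMatrix (EuclideanSpace.basisFun (Fin n) ℂ).toBasis]
  congr 1

/-- transition map in real coordinates -/
def phi (A : Atl n M) (i j : A.ι) (x : RI n → ℝ) : RI n → ℝ := rc (A.e j ((A.e i).symm (cc x)))

/-- the overlap in real coordinates -/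
def Vij (A : Atl n M) (i j : A.ι) : Set (RI n → ℝ) := {x | cc x ∈ A.ov i j}

theorem isOpen_Vij (i j : A.ι) : IsOpen (Vij A i j) := (isOpen_ov i j).preimage continuous_cc

/-- `|det_ℝ| = |det_ℂ|²` -/
def jac (A : Atl n M) (i j : A.ι) (x : M) : ℝ := ‖(Matrix.of (A.J i j x)).det‖ ^ 2

theorem hasFDerivAt_phi {i j : A.ι} {x : RI n → ℝ} (hx : x ∈ Vij A i j) :
    ∃ L : (RI n → ℝ) →L[ℝ] (RI n → ℝ), HasFDerivAt (phi A i j) L x ∧
      |L.det| = jac A i j ((A.e i).symm (cc x)) := by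
  have hmem : (A.e i).symm (cc x) ∈ (A.e i).source ∩ (A.e j).source :=
    ⟨(A.e i).map_target hx.1, hx.2⟩
  have hd := Atl.diff_trans (A := A) hmem
  rw [(A.e i).right_inv hx.1] at hd
  set D := fderiv ℂ (fun z => A.e j ((A.e i).symm z)) (cc x) with hD
  have h1 : HasFDerivAt (fun z => A.e j ((A.e i).symm z)) (D.restrictScalars ℝ) (cc x) :=
    hd.hasFDerivAt.restrictScalars ℝ
  let ccL : (RI n → ℝ) →L[ℝ] Cn n := ((rcE n).symm.toContinuousLinearEquiv : (RI n → ℝ) →L[ℝ] Cn n)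
  have h2 : HasFDerivAt (cc : (RI n → ℝ) → Cn n) ccL x := by
    exact ((rcE n).symm.toContinuousLinearEquiv).hasFDerivAt
  have h3 : HasFDerivAt (rc : Cn n → RI n → ℝ) (rcL n) (A.e j ((A.e i).symm (cc x))) := by
    rw [rc_eq]; exact (rcL n).hasFDerivAt
  have h4 := h3.comp x (h1.comp x h2)
  refine ⟨_, h4, ?_⟩
  have h5 : ((((rcL n).comp ((D.restrictScalars ℝ).comp ccL)) : (RI n → ℝ) →L[ℝ] (RI n → ℝ)) :
      (RI n → ℝ) →ₗ[ℝ] (RI n → ℝ)) = ((rcE n : Cn n →ₗ[ℝ] (RI n → ℝ)) ∘ₗ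
        ((D : Cn n →ₗ[ℂ] Cn n).restrictScalars ℝ)) ∘ₗ ((rcE n).symm : (RI n → ℝ) →ₗ[ℝ] Cn n) := by
    ext v p
    rfl
  have h6 : ((rcL n).comp ((D.restrictScalars ℝ).comp ccL)).det =
      ‖LinearMap.det (D : Cn n →ₗ[ℂ] Cn n)‖ ^ 2 := by
    rw [← det_real D, ← h5]
  rw [h6, jac, det_J, (A.e i).right_inv hx.1, ← hD, abs_of_nonneg (by positivity)]

theorem phi_mem {i j : A.ι} {x : RI n → ℝ} (hx : x ∈ Vij A i j) : phi A i j x ∈ Vij A j i := by
  show cc (rc _) ∈ A.ov j i
  rw [cc_rc]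
  refine ⟨(A.e j).map_source hx.2, ?_⟩
  rw [(A.e j).left_inv hx.2]
  exact (A.e i).map_target hx.1

theorem phi_phi {i j : A.ι} {x : RI n → ℝ} (hx : x ∈ Vij A i j) : phi A j i (phi A i j x) = x := by
  unfold phi
  rw [cc_rc, (A.e j).left_inv hx.2, (A.e i).right_inv hx.1, rc_cc]

theorem phi_image (i j : A.ι) : phi A i j '' Vij A i j = Vij A j i := by
  ext y
  constructor
  · rintro ⟨x, hx, rfl⟩
    exact phi_mem hx
  · intro hy
    exact ⟨phi A j i y, phi_mem hy, phi_phi hy⟩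

theorem phi_injOn (i j : A.ι) : InjOn (phi A i j) (Vij A i j) := by
  intro x hx y hy h
  rw [← phi_phi hx, ← phi_phi hy, h]

/-! ### integrals in charts -/

theorem lint_congr {i : A.ι} {f g : M → ℂ} (h : ∀ x ∈ (A.e i).source, f x = g x) :
    lint A i f = lint A i g := by
  unfold SerG398.lint
  congr 1
  funext x
  by_cases hx : x ∈ Ui A i
  · rw [rd_of_mem hx, rd_of_mem hx, h _ ((A.e i).map_target hx)]
  · rw [rd_off hx, rd_off hx]

/-- **change of charts** -/
theorem lint_change {i j : A.ι} {f g : M → ℂ}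
    (hf : ∀ x, x ∉ (A.e i).source ∩ (A.e j).source → f x = 0)
    (hg : ∀ x, x ∉ (A.e i).source ∩ (A.e j).source → g x = 0)
    (hfg : ∀ x ∈ (A.e i).source ∩ (A.e j).source, f x = dens A i j x * g x) :
    lint A i f = lint A j g := by
  unfold SerG398.lint
  have h1 : ∫ x in Vij A i j, rd A i f x = ∫ x, rd A i f x := by
    apply setIntegral_eq_integral_of_forall_compl_eq_zero
    intro x hx
    by_cases hU : x ∈ Ui A i
    · rw [rd_of_mem hU]
      exact hf _ fun h => hx ⟨hU, h.2⟩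
    · exact rd_off hU
  have h2 : ∫ x in Vij A j i, rd A j g x = ∫ x, rd A j g x := by
    apply setIntegral_eq_integral_of_forall_compl_eq_zero
    intro x hx
    by_cases hU : x ∈ Ui A j
    · rw [rd_of_mem hU]
      exact hg _ fun h => hx ⟨hU, h.1⟩
    · exact rd_off hU
  rw [← h1, ← h2, ← phi_image i j]
  have hL : ∀ x : RI n → ℝ, ∃ L : (RI n → ℝ) →L[ℝ] (RI n → ℝ), x ∈ Vij A i j →
      (HasFDerivAt (phi A i j) L x ∧ |L.det| = jac A i j ((A.e i).symm (cc x))) := by
    intro x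
    by_cases hx : x ∈ Vij A i j
    · obtain ⟨L, hL⟩ := hasFDerivAt_phi hx
      exact ⟨L, fun _ => hL⟩
    · exact ⟨0, fun h => absurd h hx⟩
  choose L hL using hL
  rw [integral_image_eq_integral_abs_det_fderiv_smul volume (isOpen_Vij i j).measurableSet
    (fun x hx => (hL x hx).1.hasFDerivWithinAt) (phi_injOn i j) (rd A j g)]
  apply setIntegral_congr_fun (isOpen_Vij i j).measurableSet
  intro x hx
  have hmem : (A.e i).symm (cc x) ∈ (A.e i).source ∩ (A.e j).source :=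
    ⟨(A.e i).map_target hx.1, hx.2⟩
  have hU : x ∈ Ui A i := hx.1
  have hU' : phi A i j x ∈ Ui A j := (phi_mem hx).1
  show rd A i f x = |(L x).det| • rd A j g (phi A i j x)
  rw [rd_of_mem hU, rd_of_mem hU', hfg _ hmem, (hL x hx).2, Complex.real_smul]
  congr 2
  unfold phi
  rw [cc_rc, (A.e j).left_inv hx.2]

/-- relation with periodic functions -/
theorem integral_eq_fc {F : (RI n → ℝ) → ℂ} (h : IsCC (Qo (RI n)) F) :
    ∫ x, F x = fc (perz F h) 0 := by
  rw [TorE812.fc_zero_eq_integral _ 0]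
  have h1 : ∫ x in box (0 : RI n → ℝ), perz F h x = ∫ x in box (0 : RI n → ℝ), F x := by
    apply setIntegral_congr_fun (box_measurable 0)
    intro x hx
    exact perz_of_box h hx
  rw [h1]
  symm
  apply setIntegral_eq_integral_of_forall_compl_eq_zero
  intro x hx
  exact h.eq_zero fun hx' => hx (Qo_subset_box hx')

/-- `f` is smooth in the chart `i`, with compact support inside the chart -/
structure CC (A : Atl n M) (i : A.ι) (f : M → ℂ) : Prop where
  sm : A.SmAt i f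
  cpt : IsCompact (tsupport f)
  sub : tsupport f ⊆ (A.e i).source

theorem CC.isCC {i : A.ι} {f : M → ℂ} (h : CC A i f) : IsCC (Ui A i) (rd A i f) :=
  rd_isCC h.sm h.cpt h.sub

theorem CC.isCCQ {i : A.ι} {f : M → ℂ} (h : CC A i f) : IsCC (Qo (RI n)) (rd A i f) :=
  h.isCC.mono (Ui_sub i)

theorem CC.integrable {i : A.ι} {f : M → ℂ} (h : CC A i f) : Integrable (rd A i f) :=
  h.isCC.smooth.continuous.integrable_of_hasCompactSupport h.isCC.hasCompactSupport

theorem CC.of_zero_off [T2Space M] {i : A.ι} {f : M → ℂ} (hs : A.SmAt i f) {K : Set M}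
    (hK : IsCompact K) (hsub : K ⊆ (A.e i).source) (h0 : ∀ x ∉ K, f x = 0) : CC A i f := by
  have h1 : tsupport f ⊆ K := by
    refine closure_minimal ?_ hK.isClosed
    intro x hx
    by_contra hx'
    exact hx (h0 x hx')
  exact ⟨hs, hK.of_isClosed_subset (isClosed_tsupport f) h1, h1.trans hsub⟩


theorem cc_ev_zero (a : Fin n) : cc (ev ((a, 0) : RI n)) = EuclideanSpace.single a (1 : ℂ) := by
  ext b
  rw [cc_apply]
  by_cases h : b = a
  · subst h
    rw [ev_same, ev_ne (by simp)]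
    simp
  · rw [ev_ne (by simp [h]), ev_ne (by simp [h])]
    simp [h]

theorem cc_ev_one (a : Fin n) : cc (ev ((a, 1) : RI n)) = EuclideanSpace.single a I := by
  ext b
  rw [cc_apply]
  by_cases h : b = a
  · subst h
    rw [ev_same, ev_ne (by simp)]
    simp
  · rw [ev_ne (by simp [h]), ev_ne (by simp [h])]
    simp [h]

/-- derivatives of `rd` in the chart -/
theorem fderiv_rd {i : A.ι} {f : M → ℂ} (hf : A.SmAt i f) {x : RI n → ℝ} (hx : x ∈ Ui A i)
    (v : RI n → ℝ) :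
    fderiv ℝ (rd A i f) x v = fderiv ℝ (fun z => f ((A.e i).symm z)) (cc x) (cc v) := by
  have h1 : rd A i f =ᶠ[𝓝 x] fun y => f ((A.e i).symm (cc y)) := by
    filter_upwards [(isOpen_Ui i).mem_nhds hx] with y hy
    exact rd_of_mem hy
  have h2 : DifferentiableAt ℝ (fun z => f ((A.e i).symm z)) (cc x) :=
    (hf.contDiffAt ((A.e i).open_target.mem_nhds hx)).differentiableAt (by simp)
  have h3 : HasFDerivAt (cc : (RI n → ℝ) → Cn n)
      ((rcE n).symm.toContinuousLinearEquiv : (RI n → ℝ) →L[ℝ] Cn n) x := by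
    rw [cc_eq]
    exact ((rcE n).symm.toContinuousLinearEquiv).hasFDerivAt
  have h4 : fderiv ℝ (fun y => f ((A.e i).symm (cc y))) x = _ := (h2.hasFDerivAt.comp x h3).fderiv
  rw [h1.fderiv_eq, h4]
  rfl

theorem fderiv_rd_off {i : A.ι} {f : M → ℂ} (h : CC A i f) {x : RI n → ℝ} (hx : x ∉ Ui A i)
    (v : RI n → ℝ) : fderiv ℝ (rd A i f) x v = 0 := (h.isCC.fderiv_apply v).eq_zero hx

/-- `∂̄` read in real coordinates -/
theorem rd_db {i : A.ι} {f : M → ℂ} (h : CC A i f) (a : Fin n) (x : RI n → ℝ) :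
    rd A i (A.db i a f) x =
      (1 / 2 : ℂ) * (fderiv ℝ (rd A i f) x (ev (a, 0)) + I * fderiv ℝ (rd A i f) x (ev (a, 1))) := by
  by_cases hx : x ∈ Ui A i
  · rw [rd_of_mem hx, Atl.db_symm hx, fderiv_rd h.sm hx, fderiv_rd h.sm hx, cc_ev_zero, cc_ev_one]
    simp [dbj]
  · rw [rd_off hx, fderiv_rd_off h hx, fderiv_rd_off h hx]
    simp

theorem integral_fderiv_eq_zero {F : (RI n → ℝ) → ℂ} (h : IsCC (Qo (RI n)) F) (j : RI n) :
    ∫ x, fderiv ℝ F x (ev j) = 0 := by
  rw [integral_eq_fc (h.fderiv_apply (ev j)), ← pd_perz h j, fc_pd]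
  simp

/-- **Stokes in a chart** -/
theorem lint_db {i : A.ι} {f : M → ℂ} (h : CC A i f) (a : Fin n) :
    lint A i (A.db i a f) = 0 := by
  unfold SerG398.lint
  simp_rw [rd_db h a]
  have h1 : ∀ j : RI n, Integrable (fun x => fderiv ℝ (rd A i f) x (ev j)) := fun j =>
    (h.isCC.fderiv_apply (ev j)).smooth.continuous.integrable_of_hasCompactSupport
      (h.isCC.fderiv_apply (ev j)).hasCompactSupport
  rw [integral_const_mul, integral_add (h1 _) ((h1 _).const_mul I), integral_const_mul,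
    integral_fderiv_eq_zero h.isCCQ, integral_fderiv_eq_zero h.isCCQ]
  simp

/-! ### additivity -/

theorem rd_add (i : A.ι) (f g : M → ℂ) (x : RI n → ℝ) :
    rd A i (fun y => f y + g y) x = rd A i f x + rd A i g x := by
  by_cases hx : x ∈ Ui A i
  · rw [rd_of_mem hx, rd_of_mem hx, rd_of_mem hx]
  · rw [rd_off hx, rd_off hx, rd_off hx, add_zero]


theorem rd_sum {σ : Type*} (s : Finset σ) (i : A.ι) (f : σ → M → ℂ) (x : RI n → ℝ) :
    rd A i (fun y => ∑ t ∈ s, f t y) x = ∑ t ∈ s, rd A i (f t) x := by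
  by_cases hx : x ∈ Ui A i
  · rw [rd_of_mem hx]
    exact Finset.sum_congr rfl fun t _ => (rd_of_mem hx).symm
  · rw [rd_off hx]
    exact (Finset.sum_eq_zero fun t _ => rd_off hx).symm

theorem lint_smul (i : A.ι) (c : ℂ) (f : M → ℂ) :
    lint A i (fun y => c * f y) = c * lint A i f := by
  unfold SerG398.lint
  rw [← integral_const_mul]
  congr 1
  funext x
  by_cases hx : x ∈ Ui A i
  · rw [rd_of_mem hx, rd_of_mem hx]
  · rw [rd_off hx, rd_off hx, mul_zero]

theorem lint_zero (i : A.ι) : lint A i (fun _ => 0) = 0 := by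
  have := lint_smul (A := A) i 0 (fun _ => (0 : ℂ))
  simpa using this

theorem lint_add {i : A.ι} {f g : M → ℂ} (hf : Integrable (rd A i f))
    (hg : Integrable (rd A i g)) :
    lint A i (fun y => f y + g y) = lint A i f + lint A i g := by
  unfold SerG398.lint
  rw [← integral_add hf hg]
  congr 1
  funext x
  exact rd_add i f g x

theorem lint_sum {σ : Type*} (s : Finset σ) {i : A.ι} {f : σ → M → ℂ}
    (hf : ∀ t ∈ s, Integrable (rd A i (f t))) :
    lint A i (fun y => ∑ t ∈ s, f t y) = ∑ t ∈ s, lint A i (f t) := by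
  unfold SerG398.lint
  rw [← integral_finsetSum s hf]
  congr 1
  funext x
  exact rd_sum s i f x

end

end Crest.Agent.R275.Pai323
end

-- ▼ part R275/PaiB_323

/-!
# R275, block C-6 / C9 (helper323), part B: the pairing of sections, local formula, Stokes

`D : DPair B B'` (helper398), `P : Part A`.

* `pairF D P F` : `Sec B →ₗ Sec B' →ₗ ℂ`, `(u, w) ↦ ∑_{j ∈ F} ∫_j ψ_j u_j · S w_j` for a finite set
  `F` of charts.
* `Fn P K` : the finite set of charts meeting the compact set `K`.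
* `pairF_locL`, `pairF_locR` : LOCAL FORMULA when one section is supported in a compact subset `K` of
  one chart and `F ⊇ Fn P K`.
* `pairF_stokes` : `⟨∇u, w⟩ = ⟨u, ∇'w⟩` if `u` is supported in `K`, `F ⊇ Fn P K`.
* compact `M` : `pr D P`, `isPr`, `pr_nab`.
-/

set_option autoImplicit false
set_option linter.unusedSectionVars false

open Set Filter Topology Complex MeasureTheory
open scoped ContDiff Matrix ComplexConjugate

namespace Crest.Agent.R275.Pai323

open Geo Tor812 TorS666 C1d194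
open SerG398 (lint dens DPair FPair OffZ IsPr)

noncomputable section

variable {n : ℕ} {M : Type} [TopologicalSpace M] {A : Atl n M}
variable {B B' : FBun A}

/-! ### partition of unity -/

theorem tsupport_psi (P : Part A) (i : A.ι) : tsupport (P.ψ i) ⊆ tsupport (P.χ i) := by
  intro x hx
  have h := P.χ_one i x hx
  apply subset_tsupport
  rw [Function.mem_support, h.self_of_nhds]
  exact one_ne_zero

theorem psi_off (P : Part A) {i : A.ι} {x : M} (hx : x ∉ (A.e i).source) : P.ψ i x = 0 :=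
  image_eq_zero_of_notMem_tsupport fun h => hx (P.χ_sub i (tsupport_psi P i h))

/-- charts meeting a compact set -/
def Fn (P : Part A) {K : Set M} (hK : IsCompact K) : Finset A.ι := (P.lf K hK).toFinset

theorem mem_Fn (P : Part A) {K : Set M} (hK : IsCompact K) {i : A.ι} {x : M} (hx : x ∈ K)
    (h : P.ψ i x ≠ 0) : i ∈ Fn P hK := by
  rw [Fn, Set.Finite.mem_toFinset]
  exact ⟨x, tsupport_psi P i (subset_tsupport _ h), hx⟩

theorem psi_zero_of_notMem (P : Part A) {K : Set M} (hK : IsCompact K) {F : Finset A.ι}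
    (hF : Fn P hK ⊆ F) {i : A.ι} (hi : i ∉ F) {x : M} (hx : x ∈ K) : P.ψ i x = 0 := by
  by_contra h
  exact hi (hF (mem_Fn P hK hx h))

theorem sum_psi (P : Part A) {K : Set M} (hK : IsCompact K) {F : Finset A.ι} (hF : Fn P hK ⊆ F)
    {x : M} (hx : x ∈ K) : ∑ i ∈ F, P.ψ i x = 1 := by
  rw [← P.sum_one x]
  symm
  apply finsum_eq_sum_of_support_subset
  intro i hi
  exact hF (mem_Fn P hK hx hi)

theorem sum_psiC (P : Part A) {K : Set M} (hK : IsCompact K) {F : Finset A.ι} (hF : Fn P hK ⊆ F)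
    {x : M} (hx : x ∈ K) : ∑ i ∈ F, (P.ψ i x : ℂ) = 1 := by
  rw [← Complex.ofReal_sum, sum_psi P hK hF hx, Complex.ofReal_one]

/-! ### pointwise pairing -/

/-- the density `u · S w` -/
def dn (D : DPair B B') (u : A.ι → M → B.κ → ℂ) (w : A.ι → M → B'.κ → ℂ) (i : A.ι) (x : M) : ℂ :=
  u i x ⬝ᵥ (D.S *ᵥ w i x)

theorem dn_smAt (D : DPair B B') {u : A.ι → M → B.κ → ℂ} {w : A.ι → M → B'.κ → ℂ}
    (hu : u ∈ Sec B) (hw : w ∈ Sec B') (i : A.ι) : A.SmAt i (dn D u w i) := by
  show ContDiffOn ℝ ∞ (fun z => ∑ k, u i ((A.e i).symm z) k *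
    ∑ l, D.S k l * w i ((A.e i).symm z) l) _
  exact ContDiffOn.sum fun k _ => (hu.1 i k).mul
    (ContDiffOn.sum fun l _ => contDiffOn_const.mul (hw.1 i l))


theorem dn_zeroL (D : DPair B B') {u : A.ι → M → B.κ → ℂ} {w : A.ι → M → B'.κ → ℂ} {i : A.ι} {x : M}
    (h : u i x = 0) : dn D u w i x = 0 := by
  simp [dn, h]

theorem dn_zeroR (D : DPair B B') {u : A.ι → M → B.κ → ℂ} {w : A.ι → M → B'.κ → ℂ} {i : A.ι} {x : M}
    (h : w i x = 0) : dn D u w i x = 0 := by
  simp [dn, h]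

theorem dn_tr (D : DPair B B') {u : A.ι → M → B.κ → ℂ} {w : A.ι → M → B'.κ → ℂ}
    (hu : u ∈ Sec B) (hw : w ∈ Sec B') {i j : A.ι} {x : M}
    (hx : x ∈ (A.e i).source ∩ (A.e j).source) :
    dn D u w i x = dens A i j x * dn D u w j x := D.pair_tr hx hu hw

variable [T2Space M]

theorem cc_psi_dn (P : Part A) (D : DPair B B') {u : A.ι → M → B.κ → ℂ} {w : A.ι → M → B'.κ → ℂ}
    (hu : u ∈ Sec B) (hw : w ∈ Sec B') (i : A.ι) : CC A i (fun x => (P.ψ i x : ℂ) * dn D u w i x) := by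
  refine CC.of_zero_off ?_ (P.χ_cpt i) (P.χ_sub i) ?_
  · show ContDiffOn ℝ ∞ (fun z => (P.ψ i ((A.e i).symm z) : ℂ) * dn D u w i ((A.e i).symm z)) _
    exact (smAt_ofReal (P.ψ_sm i i)).mul (dn_smAt D hu hw i)
  · intro x hx
    have : P.ψ i x = 0 := image_eq_zero_of_notMem_tsupport fun h => hx (tsupport_psi P i h)
    rw [this]; simp

/-- the pairing over a finite set of charts -/
def pairF (D : DPair B B') (P : Part A) (F : Finset A.ι) : Sec B →ₗ[ℂ] Sec B' →ₗ[ℂ] ℂ :=
  LinearMap.mk₂ ℂ (fun u w => ∑ j ∈ F, lint A j (fun x => (P.ψ j x : ℂ) * dn D u.1 w.1 j x))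
    (fun u u' w => by
      rw [← Finset.sum_add_distrib]
      refine Finset.sum_congr rfl fun j _ => ?_
      rw [← lint_add (cc_psi_dn P D u.2 w.2 j).integrable (cc_psi_dn P D u'.2 w.2 j).integrable]
      congr 1
      funext x
      simp only [dn, Submodule.coe_add, Pi.add_apply, add_dotProduct, mul_add])
    (fun c u w => by
      rw [smul_eq_mul, Finset.mul_sum]
      refine Finset.sum_congr rfl fun j _ => ?_
      rw [← lint_smul]
      congr 1
      funext x
      simp only [dn, Submodule.coe_smul, Pi.smul_apply, smul_dotProduct, smul_eq_mul]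
      ring)
    (fun u w w' => by
      rw [← Finset.sum_add_distrib]
      refine Finset.sum_congr rfl fun j _ => ?_
      rw [← lint_add (cc_psi_dn P D u.2 w.2 j).integrable (cc_psi_dn P D u.2 w'.2 j).integrable]
      congr 1
      funext x
      simp only [dn, Submodule.coe_add, Pi.add_apply, Matrix.mulVec_add, dotProduct_add, mul_add])
    (fun c u w => by
      rw [smul_eq_mul, Finset.mul_sum]
      refine Finset.sum_congr rfl fun j _ => ?_
      rw [← lint_smul]
      congr 1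
      funext x
      simp only [dn, Submodule.coe_smul, Pi.smul_apply, Matrix.mulVec_smul, dotProduct_smul,
        smul_eq_mul]
      ring)

theorem pairF_apply (D : DPair B B') (P : Part A) (F : Finset A.ι) (u : Sec B) (w : Sec B') :
    pairF D P F u w = ∑ j ∈ F, lint A j (fun x => (P.ψ j x : ℂ) * dn D u.1 w.1 j x) := rfl

/-- the local formula: the density vanishes off a compact subset of the chart `j` -/
theorem pairF_local (D : DPair B B') (P : Part A) {F : Finset A.ι} (u : Sec B) (w : Sec B')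
    {j : A.ι} {K : Set M} (hK : IsCompact K) (hKj : K ⊆ (A.e j).source) (hF : Fn P hK ⊆ F)
    (h0 : ∀ i, ∀ x ∉ K, dn D u.1 w.1 i x = 0) :
    pairF D P F u w = lint A j (dn D u.1 w.1 j) := by
  rw [pairF_apply]
  have h1 : ∀ i ∈ F, lint A i (fun x => (P.ψ i x : ℂ) * dn D u.1 w.1 i x) =
      lint A j (fun x => (P.ψ i x : ℂ) * dn D u.1 w.1 j x) := by
    intro i _
    apply lint_change
    · intro x hx
      by_cases hi : x ∈ (A.e i).source
      · rw [h0 i x fun hxK => hx ⟨hi, hKj hxK⟩, mul_zero]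
      · rw [psi_off P hi]; simp
    · intro x hx
      by_cases hi : x ∈ (A.e i).source
      · rw [h0 j x fun hxK => hx ⟨hi, hKj hxK⟩, mul_zero]
      · rw [psi_off P hi]; simp
    · intro x hx
      rw [dn_tr D u.2 w.2 hx]
      ring
  rw [Finset.sum_congr rfl h1, ← lint_sum]
  · congr 1
    funext x
    rw [← Finset.sum_mul]
    by_cases hx : x ∈ K
    · rw [sum_psiC P hK hF hx, one_mul]
    · rw [h0 j x hx, mul_zero]
  · intro i _
    refine (CC.of_zero_off ?_ hK hKj ?_).integrable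
    · show ContDiffOn ℝ ∞ (fun z => (P.ψ i ((A.e j).symm z) : ℂ) * dn D u.1 w.1 j ((A.e j).symm z)) _
      exact (smAt_ofReal (P.ψ_sm i j)).mul (dn_smAt D u.2 w.2 j)
    · intro x hx
      rw [h0 j x hx, mul_zero]

theorem pairF_locL (D : DPair B B') (P : Part A) {F : Finset A.ι} (u : Sec B) (w : Sec B')
    {j : A.ι} {K : Set M} (hK : IsCompact K) (hKj : K ⊆ (A.e j).source) (hF : Fn P hK ⊆ F)
    (h0 : OffZ u.1 K) : pairF D P F u w = lint A j (dn D u.1 w.1 j) :=
  pairF_local D P u w hK hKj hF fun i x hx => dn_zeroL D (h0 i x hx)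

theorem pairF_locR (D : DPair B B') (P : Part A) {F : Finset A.ι} (u : Sec B) (w : Sec B')
    {j : A.ι} {K : Set M} (hK : IsCompact K) (hKj : K ⊆ (A.e j).source) (hF : Fn P hK ⊆ F)
    (h0 : OffZ w.1 K) : pairF D P F u w = lint A j (dn D u.1 w.1 j) :=
  pairF_local D P u w hK hKj hF fun i x hx => dn_zeroR D (h0 i x hx)

/-! ### Stokes -/

theorem dot_mulVec_right {κ κ' : Type} [Fintype κ] [Fintype κ'] (v : κ → ℂ) (m : Matrix κ κ' ℂ)
    (w : κ' → ℂ) : v ⬝ᵥ (m *ᵥ w) = ∑ k, ∑ l, m k l * (v k * w l) := by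
  simp only [dotProduct, Matrix.mulVec, Finset.mul_sum]
  refine Finset.sum_congr rfl fun k _ => Finset.sum_congr rfl fun l _ => by ring

/-- product rule for a constant bilinear pairing -/
theorem db_dot {i : A.ι} {κ κ' : Type} [Fintype κ] [Fintype κ'] (m : Matrix κ κ' ℂ)
    {v : M → κ → ℂ} {w : M → κ' → ℂ} {x : M} (hv : ∀ k, A.SmAt i (fun x => v x k))
    (hw : ∀ k, A.SmAt i (fun x => w x k)) (hx : x ∈ (A.e i).source) (a : Fin n) :
    A.db i a (fun y => v y ⬝ᵥ (m *ᵥ w y)) x =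
      A.db i a v x ⬝ᵥ (m *ᵥ w x) + v x ⬝ᵥ (m *ᵥ A.db i a w x) := by
  have hvd := fun k => Atl.SmAt.diffAt (hv k) hx
  have hwd := fun k => Atl.SmAt.diffAt (hw k) hx
  have h1 : A.db i a (fun y => v y ⬝ᵥ (m *ᵥ w y)) x =
      ∑ k, ∑ l, m k l * A.db i a (fun y => v y k * w y l) x := by
    unfold Atl.db
    have h2 : (fun z => v ((A.e i).symm z) ⬝ᵥ (m *ᵥ w ((A.e i).symm z))) =
        fun z => ∑ k, ∑ l, m k l * (v ((A.e i).symm z) k * w ((A.e i).symm z) l) := by
      funext z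
      exact dot_mulVec_right _ _ _
    rw [h2]
    have h3 : ∀ k l, DifferentiableAt ℝ
        (fun z => m k l * (v ((A.e i).symm z) k * w ((A.e i).symm z) l)) (A.e i x) := fun k l =>
      ((hvd k).mul (hwd l)).const_mul _
    have h4 : fderiv ℝ (fun z => ∑ k, ∑ l, m k l * (v ((A.e i).symm z) k * w ((A.e i).symm z) l))
        (A.e i x) = ∑ k, ∑ l, m k l • fderiv ℝ
          (fun z => v ((A.e i).symm z) k * w ((A.e i).symm z) l) (A.e i x) := by
      rw [fderiv_fun_sum fun k _ => DifferentiableAt.fun_sum fun l _ => h3 k l]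
      refine Finset.sum_congr rfl fun k _ => ?_
      rw [fderiv_fun_sum fun l _ => h3 k l]
      refine Finset.sum_congr rfl fun l _ => ?_
      exact fderiv_const_mul ((hvd k).mul (hwd l)) _
    simp only [dbj, h4, sum_apply, smul_apply, smul_eq_mul,
      Finset.mul_sum, ← Finset.sum_add_distrib]
    refine Finset.sum_congr rfl fun k _ => Finset.sum_congr rfl fun l _ => by ring
  rw [h1, dot_mulVec_right, dot_mulVec_right, ← Finset.sum_add_distrib]
  refine Finset.sum_congr rfl fun k _ => ?_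
  rw [← Finset.sum_add_distrib]
  refine Finset.sum_congr rfl fun l _ => ?_
  rw [db_mul (hvd k) (hwd l) hx, Atl.db_pi hv hx, Atl.db_pi hw hx]
  ring

/-- the pointwise identity `⟨∇u, w⟩ - ⟨u, ∇'w⟩ = ∑_a ∂̄_a (e_a u)·S w` -/
theorem dn_nab (D : DPair B B') {u : A.ι → M → B.κ → ℂ} {w : A.ι → M → B'.κ → ℂ}
    (hu : u ∈ Sec B) (hw : w ∈ Sec B') {i : A.ι} {x : M} (hx : x ∈ (A.e i).source) :
    dn D (nab B u) w i x - dn D u (nab B' w) i x =
      ∑ a, A.db i a (fun y => u i y ⬝ᵥ (((B.e a)ᵀ * D.S) *ᵥ w i y)) x := by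
  have h1 : ∀ a, A.db i a (fun y => u i y ⬝ᵥ (((B.e a)ᵀ * D.S) *ᵥ w i y)) x =
      (B.e a *ᵥ A.db i a (u i) x) ⬝ᵥ (D.S *ᵥ w i x) -
        u i x ⬝ᵥ (D.S *ᵥ (B'.e a *ᵥ A.db i a (w i) x)) := by
    intro a
    rw [db_dot _ (hu.1 i) (hw.1 i) hx a]
    have h2 : (B.e a)ᵀ * D.S = -(D.S * B'.e a) := eq_neg_of_add_eq_zero_left (D.e_skew a)
    have h3 : u i x ⬝ᵥ (((B.e a)ᵀ * D.S) *ᵥ A.db i a (w i) x) =
        - (u i x ⬝ᵥ (D.S *ᵥ (B'.e a *ᵥ A.db i a (w i) x))) := by
      rw [h2, Matrix.neg_mulVec, dotProduct_neg, Matrix.mulVec_mulVec]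
    have h4 : A.db i a (u i) x ⬝ᵥ (((B.e a)ᵀ * D.S) *ᵥ w i x) =
        (B.e a *ᵥ A.db i a (u i) x) ⬝ᵥ (D.S *ᵥ w i x) := by
      rw [← Matrix.mulVec_mulVec, Matrix.dotProduct_mulVec (A.db i a (u i) x) (B.e a)ᵀ,
        Matrix.vecMul_transpose]
    rw [h3, h4]
    ring
  rw [Finset.sum_congr rfl fun a _ => h1 a, Finset.sum_sub_distrib]
  unfold dn
  rw [nab_apply B hx, nab_apply B' hx]
  rw [add_dotProduct, Matrix.mulVec_add, dotProduct_add, sum_dotProduct]
  have h5 : (B.α i x *ᵥ u i x) ⬝ᵥ (D.S *ᵥ w i x) = u i x ⬝ᵥ (D.S *ᵥ (B'.α i x *ᵥ w i x)) := by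
    rw [D.pair_mulVec, D.tr_al hx]
  have h6 : u i x ⬝ᵥ (D.S *ᵥ ∑ a, B'.e a *ᵥ A.db i a (w i) x) =
      ∑ a, u i x ⬝ᵥ (D.S *ᵥ (B'.e a *ᵥ A.db i a (w i) x)) := by
    rw [Matrix.mulVec_sum, dotProduct_sum]
  rw [h5, h6]
  ring

/-- locality of `∇` -/
theorem nab_offZ {u : A.ι → M → B.κ → ℂ} {K : Set M} (hK : IsClosed K) (h0 : OffZ u K) :
    OffZ (nab B u) K := by
  intro i x hx
  have h1 : u i =ᶠ[𝓝 x] (0 : A.ι → M → B.κ → ℂ) i := by
    filter_upwards [hK.isOpen_compl.mem_nhds hx] with y hy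
    exact h0 i y hy
  rw [nab_congr B h1]
  by_cases hxi : x ∈ (A.e i).source
  · rw [nab_apply B hxi]
    have : ∀ a, A.db i a (0 : M → B.κ → ℂ) x = 0 := fun a => dbj_const (0 : B.κ → ℂ) _ a
    simp only [Pi.zero_apply, this, Matrix.mulVec_zero, Finset.sum_const_zero, add_zero]
  · exact nab_off B hxi

/-- Stokes for a section supported in one chart -/
theorem lint_stokes (D : DPair B B') {u : A.ι → M → B.κ → ℂ} {w : A.ι → M → B'.κ → ℂ}
    (hu : u ∈ Sec B) (hw : w ∈ Sec B') {j : A.ι} {K : Set M} (hK : IsCompact K)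
    (hKj : K ⊆ (A.e j).source) (h0 : OffZ u K) :
    lint A j (dn D (nab B u) w j) = lint A j (dn D u (nab B' w) j) := by
  have hnu := nab_mem B hu
  have hnw := nab_mem B' hw
  have hc1 : CC A j (dn D (nab B u) w j) := CC.of_zero_off (dn_smAt D hnu hw j) hK hKj
    fun x hx => dn_zeroL D (nab_offZ hK.isClosed h0 j x hx)
  have hc2 : CC A j (dn D u (nab B' w) j) := CC.of_zero_off (dn_smAt D hu hnw j) hK hKj
    fun x hx => dn_zeroL D (h0 j x hx)
  have hc3 : ∀ a, CC A j (fun y => u j y ⬝ᵥ (((B.e a)ᵀ * D.S) *ᵥ w j y)) := by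
    intro a
    refine CC.of_zero_off ?_ hK hKj fun x hx => by rw [h0 j x hx, zero_dotProduct]
    show ContDiffOn ℝ ∞ (fun z => ∑ k, u j ((A.e j).symm z) k *
      ∑ l, ((B.e a)ᵀ * D.S) k l * w j ((A.e j).symm z) l) _
    exact ContDiffOn.sum fun k _ => (hu.1 j k).mul
      (ContDiffOn.sum fun l _ => contDiffOn_const.mul (hw.1 j l))
  have hint : ∀ a, Integrable (rd A j (A.db j a (fun y => u j y ⬝ᵥ (((B.e a)ᵀ * D.S) *ᵥ w j y)))) := by
    intro a
    have h1 : rd A j (A.db j a (fun y => u j y ⬝ᵥ (((B.e a)ᵀ * D.S) *ᵥ w j y))) = fun x =>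
        (1 / 2 : ℂ) * (fderiv ℝ (rd A j _) x (ev (a, 0)) + I * fderiv ℝ (rd A j _) x (ev (a, 1))) :=
      funext fun x => rd_db (hc3 a) a x
    rw [h1]
    have h2 : ∀ p : RI n, Integrable (fun x => fderiv ℝ
        (rd A j (fun y => u j y ⬝ᵥ (((B.e a)ᵀ * D.S) *ᵥ w j y))) x (ev p)) := fun p =>
      ((hc3 a).isCC.fderiv_apply (ev p)).smooth.continuous.integrable_of_hasCompactSupport
        ((hc3 a).isCC.fderiv_apply (ev p)).hasCompactSupport
    exact ((h2 _).add ((h2 _).const_mul I)).const_mul _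
  have h1 : lint A j (dn D (nab B u) w j) = lint A j (fun x => dn D u (nab B' w) j x +
      ∑ a, A.db j a (fun y => u j y ⬝ᵥ (((B.e a)ᵀ * D.S) *ᵥ w j y)) x) := by
    apply lint_congr
    intro x hx
    rw [← dn_nab D hu hw hx]
    ring
  have hint2 : Integrable (rd A j (fun x =>
      ∑ a, A.db j a (fun y => u j y ⬝ᵥ (((B.e a)ᵀ * D.S) *ᵥ w j y)) x)) := by
    have h3 : rd A j (fun x => ∑ a, A.db j a (fun y => u j y ⬝ᵥ (((B.e a)ᵀ * D.S) *ᵥ w j y)) x) =
        fun x => ∑ a, rd A j (A.db j a (fun y => u j y ⬝ᵥ (((B.e a)ᵀ * D.S) *ᵥ w j y))) x :=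
      funext fun x => rd_sum Finset.univ j _ x
    rw [h3]
    exact integrable_finsetSum _ fun a _ => hint a
  rw [h1, lint_add hc2.integrable hint2, lint_sum _ fun a _ => hint a]
  rw [Finset.sum_eq_zero fun a _ => lint_db (hc3 a) a, add_zero]

omit [T2Space M] in
theorem sm_psiC (P : Part A) (j : A.ι) : A.Sm (fun x => (P.ψ j x : ℂ)) :=
  fun i => smAt_ofReal (χ := P.ψ j) (P.ψ_sm j i)

/-- multiplication of a section by `ψ_j` -/
def psm (P : Part A) (j : A.ι) (u : Sec B) : Sec B :=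
  ⟨fmul (fun x => (P.ψ j x : ℂ)) u.1, fmul_mem B (sm_psiC P j) u.2⟩

theorem fmul_sum_eq (P : Part A) {K : Set M} (hK : IsCompact K) {F : Finset A.ι}
    (hF : Fn P hK ⊆ F) (u : Sec B) (h0 : OffZ u.1 K) :
    u = ∑ j ∈ F, psm P j u := by
  apply Subtype.ext
  rw [Submodule.coe_sum]
  funext i x
  rw [Finset.sum_apply, Finset.sum_apply]
  simp only [psm, fmul]
  rw [← Finset.sum_smul]
  by_cases hx : x ∈ K
  · rw [sum_psiC P hK hF hx, one_smul]
  · rw [h0 i x hx, smul_zero]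

/-- **Stokes**: `⟨∇u, w⟩ = ⟨u, ∇'w⟩` for compactly supported `u`. -/
theorem pairF_stokes (D : DPair B B') (P : Part A) {F : Finset A.ι} (u : Sec B) (w : Sec B')
    {K : Set M} (hK : IsCompact K) (hF : Fn P hK ⊆ F) (h0 : OffZ u.1 K) :
    pairF D P F (nabL B u) w = pairF D P F u (nabL B' w) := by
  have hu := fmul_sum_eq P hK hF u h0
  rw [hu]
  simp only [map_sum, LinearMap.sum_apply]
  refine Finset.sum_congr rfl fun j _ => ?_
  set v : Sec B := psm P j u with hv
  -- the support of `v`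
  have hKj : IsCompact (K ∩ tsupport (P.ψ j)) := hK.inter_right (isClosed_tsupport _)
  have hsub : K ∩ tsupport (P.ψ j) ⊆ (A.e j).source := fun x hx =>
    P.χ_sub j (tsupport_psi P j hx.2)
  have hFj : Fn P hKj ⊆ F := by
    refine subset_trans ?_ hF
    intro i hi
    rw [Fn, Set.Finite.mem_toFinset] at hi ⊢
    obtain ⟨x, hx1, hx2⟩ := hi
    exact ⟨x, hx1, hx2.1⟩
  have hv0 : OffZ v.1 (K ∩ tsupport (P.ψ j)) := by
    intro i x hx
    by_cases hxK : x ∈ K
    · have : P.ψ j x = 0 := image_eq_zero_of_notMem_tsupport fun h => hx ⟨hxK, h⟩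
      simp [hv, psm, fmul, this]
    · simp [hv, psm, fmul, h0 i x hxK]
  rw [pairF_locL D P (nabL B v) w hKj hsub hFj (nab_offZ hKj.isClosed hv0),
    pairF_locL D P v (nabL B' w) hKj hsub hFj hv0]
  exact lint_stokes D v.2 w.2 hKj hsub hv0

/-! ### compact `M` -/

section compact

variable [CompactSpace M]

/-- the pairing on a compact manifold -/
def pr (D : DPair B B') (P : Part A) : Sec B →ₗ[ℂ] Sec B' →ₗ[ℂ] ℂ :=
  pairF D P (Fn P (isCompact_univ : IsCompact (univ : Set M)))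

theorem Fn_subset_univ (P : Part A) {K : Set M} (hK : IsCompact K) :
    Fn P hK ⊆ Fn P (isCompact_univ : IsCompact (univ : Set M)) := by
  intro i hi
  rw [Fn, Set.Finite.mem_toFinset] at hi ⊢
  obtain ⟨x, hx1, _⟩ := hi
  exact ⟨x, hx1, mem_univ x⟩

/-- helper398's local formula -/
theorem isPr (D : DPair B B') (P : Part A) : IsPr D (pr D P) where
  locL _ _ hK _ hKj u w h0 := pairF_locL D P u w hK hKj (Fn_subset_univ P hK) h0
  locR _ _ hK _ hKj u w h0 := pairF_locR D P u w hK hKj (Fn_subset_univ P hK) h0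

/-- Stokes on a compact manifold -/
theorem pr_nab (D : DPair B B') (P : Part A) (u : Sec B) (w : Sec B') :
    pr D P (nabL B u) w = pr D P u (nabL B' w) :=
  pairF_stokes D P u w isCompact_univ (Finset.Subset.refl _) fun _ x hx => absurd (mem_univ x) hx

end compact

end

end Crest.Agent.R275.Pai323
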