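import Mathlib

-- ▼ part R275/StkR_627
section

set_option autoImplicit false
set_option linter.unusedSectionVars false

open Set Filter Topology MeasureTheory
open scoped ContDiff

namespace Crest.Agent.R275.StkR627

noncomputable section

abbrev Rn (n : ℕ) : Type := Fin n → ℝ

variable {n : ℕ}

/-- partial derivative -/
def pd (b : Fin n) (f : Rn n → ℝ) (y : Rn n) : ℝ := fderiv ℝ f y (Pi.single b 1)

theorem pd_symm {f : Rn n → ℝ} {y : Rn n} (hf : ContDiffAt ℝ ∞ f y) (b c : Fin n) :
    pd b (pd c f) y = pd c (pd b f) y := by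
  have h2 : ContDiffAt ℝ 2 f y := hf.of_le (by norm_cast)
  have hd : DifferentiableAt ℝ (fderiv ℝ f) y :=
    (h2.fderiv_right (m := 1) (by norm_num)).differentiableAt (by norm_num)
  have e : ∀ v w : Rn n, fderiv ℝ (fun z => fderiv ℝ f z v) y w = fderiv ℝ (fderiv ℝ f) y w v := by
    intro v w
    have := (hd.hasFDerivAt.clm_apply (hasFDerivAt_const v y)).fderiv
    rw [this]
    simp
  unfold pd
  rw [e, e]
  have hs : IsSymmSndFDerivAt ℝ f y := h2.isSymmSndFDerivAt (by simp)
  exact hs _ _

theorem contDiffAt_pd {f : Rn n → ℝ} {y : Rn n} (hf : ContDiffAt ℝ ∞ f y) (b : Fin n) :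
    ContDiffAt ℝ ∞ (pd b f) y := by
  have := hf.fderiv_right (m := ∞) (by simp)
  exact this.clm_apply contDiffAt_const

theorem pd_congr {f g : Rn n → ℝ} {y : Rn n} (h : f =ᶠ[𝓝 y] g) (b : Fin n) : pd b f y = pd b g y := by
  unfold pd
  rw [h.fderiv_eq]

theorem pd_prod {ι : Type*} [DecidableEq ι] (s : Finset ι) (f : ι → Rn n → ℝ) {y : Rn n}
    (hf : ∀ i ∈ s, DifferentiableAt ℝ (f i) y) (b : Fin n) :
    pd b (fun z => ∏ i ∈ s, f i z) y = ∑ i ∈ s, (∏ j ∈ s.erase i, f j y) * pd b (f i) y := by
  unfold pd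
  rw [fderiv_finsetProd hf]
  simp

theorem continuous_mul_of_tsupport {G P : Rn n → ℝ} (hG : Continuous G)
    (hP : ∀ x ∈ tsupport G, ContinuousAt P x) : Continuous fun x => G x * P x := by
  rw [continuous_iff_continuousAt]
  intro x
  by_cases hx : x ∈ tsupport G
  · exact hG.continuousAt.mul (hP x hx)
  · have h0 : G =ᶠ[𝓝 x] 0 := notMem_tsupport_iff_eventuallyEq.1 hx
    have : (fun x => G x * P x) =ᶠ[𝓝 x] fun _ => 0 := by
      filter_upwards [h0] with z hz
      simp [hz]
    exact (continuousAt_const.congr this.symm)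

theorem integrable_mul_of_tsupport {G P : Rn n → ℝ} (hG : Continuous G)
    (hc : HasCompactSupport G) (hP : ∀ x ∈ tsupport G, ContinuousAt P x) :
    Integrable fun x => G x * P x :=
  (continuous_mul_of_tsupport hG hP).integrable_of_hasCompactSupport hc.mul_right

theorem tsupport_pd_subset (G : Rn n → ℝ) (b : Fin n) : tsupport (pd b G) ⊆ tsupport G := by
  intro x hx
  by_contra h
  rw [notMem_tsupport_iff_eventuallyEq] at h
  refine (notMem_tsupport_iff_eventuallyEq.2 ?_) hx
  have h' := h.eventuallyEq_nhds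
  filter_upwards [h'] with z hz
  rw [pd_congr hz b]
  simp [pd]

/-- integration by parts -/
theorem ibp {G P : Rn n → ℝ} (hG : ContDiff ℝ ∞ G) (hc : HasCompactSupport G)
    (hP : ∀ x ∈ tsupport G, ContDiffAt ℝ ∞ P x) (b : Fin n) :
    ∫ y, pd b G y * P y = - ∫ y, G y * pd b P y := by
  have hGc : Continuous (pd b G) :=
    (contDiff_iff_contDiffAt.2 fun x => contDiffAt_pd hG.contDiffAt b).continuous
  have hcb : HasCompactSupport (pd b G) := hc.of_isClosed_subset (isClosed_tsupport _)
    (tsupport_pd_subset G b)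
  have h1 : Integrable fun y => pd b G y * P y :=
    integrable_mul_of_tsupport hGc hcb fun x hx => (hP x (tsupport_pd_subset G b hx)).continuousAt
  have h2 : Integrable fun y => G y * pd b P y :=
    integrable_mul_of_tsupport hG.continuous hc fun x hx => (contDiffAt_pd (hP x hx) b).continuousAt
  have h3 : Integrable fun y => G y * P y :=
    integrable_mul_of_tsupport hG.continuous hc fun x hx => (hP x hx).continuousAt
  have := integral_mul_fderiv_eq_neg_fderiv_mul_of_integrable (μ := volume) (f := G) (g := P)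
    (v := Pi.single b (1 : ℝ)) h1 h2 h3 (fun x _ => (hG.differentiable (by simp)) x)
    (fun x hx => (hP x hx).differentiableAt (by simp))
  have e : ∫ y, G y * pd b P y = - ∫ y, pd b G y * P y := this
  rw [e, neg_neg]

/-- the cancellation behind Piola's identity -/
theorem alt_sum_zero {m : ℕ} (a : Fin m) (X : Equiv.Perm (Fin (m + 1)) → ℝ)
    (hX : ∀ σ, X (σ * Equiv.swap 0 a.succ) = X σ) :
    ∑ σ, ((Equiv.Perm.sign σ : ℤ) : ℝ) * X σ = 0 := by
  have h : ∑ σ, ((Equiv.Perm.sign σ : ℤ) : ℝ) * X σ =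
      ∑ σ, ((Equiv.Perm.sign (σ * Equiv.swap 0 a.succ) : ℤ) : ℝ) * X (σ * Equiv.swap 0 a.succ) :=
    (Equiv.sum_comp (Equiv.mulRight (Equiv.swap 0 a.succ))
      (fun σ => ((Equiv.Perm.sign σ : ℤ) : ℝ) * X σ)).symm
  have h2 : ∀ σ : Equiv.Perm (Fin (m + 1)),
      ((Equiv.Perm.sign (σ * Equiv.swap 0 a.succ) : ℤ) : ℝ) * X (σ * Equiv.swap 0 a.succ) =
        -(((Equiv.Perm.sign σ : ℤ) : ℝ) * X σ) := by
    intro σ
    rw [hX, Equiv.Perm.sign_mul, Equiv.Perm.sign_swap (Fin.succ_ne_zero a).symm]
    simp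
  rw [Finset.sum_congr rfl fun σ _ => h2 σ, Finset.sum_neg_distrib] at h
  linarith

/-- **Stokes** -/
theorem stokes {m : ℕ} {G : Rn (m + 1) → ℝ} {F : Fin m → Rn (m + 1) → ℝ}
    (hG : ContDiff ℝ ∞ G) (hc : HasCompactSupport G)
    (hF : ∀ a, ∀ x ∈ tsupport G, ContDiffAt ℝ ∞ (F a) x) :
    ∫ y, Matrix.det (Matrix.of fun a b => pd b (Fin.cons (α := fun _ => Rn (m + 1) → ℝ) G F a) y) = 0 := by
  classical
  have hdet : ∀ y, Matrix.det (Matrix.of fun a b => pd b (Fin.cons (α := fun _ => Rn (m + 1) → ℝ) G F a) y) =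
      ∑ σ : Equiv.Perm (Fin (m + 1)), ((Equiv.Perm.sign σ : ℤ) : ℝ) *
        (pd (σ 0) G y * ∏ a : Fin m, pd (σ a.succ) (F a) y) := by
    intro y
    rw [← Matrix.det_transpose, Matrix.det_apply']
    refine Finset.sum_congr rfl fun σ _ => ?_
    rw [Fin.prod_univ_succ]
    simp
  have hP : ∀ σ : Equiv.Perm (Fin (m + 1)), ∀ x ∈ tsupport G,
      ContDiffAt ℝ ∞ (fun y => ∏ a : Fin m, pd (σ a.succ) (F a) y) x := by
    intro σ x hx
    exact contDiffAt_prod fun a _ => contDiffAt_pd (hF a x hx) _
  have hint : ∀ σ : Equiv.Perm (Fin (m + 1)),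
      Integrable fun y => pd (σ 0) G y * ∏ a : Fin m, pd (σ a.succ) (F a) y := by
    intro σ
    have hGc : Continuous (pd (σ 0) G) :=
      (contDiff_iff_contDiffAt.2 fun x => contDiffAt_pd hG.contDiffAt (σ 0)).continuous
    exact integrable_mul_of_tsupport hGc (hc.of_isClosed_subset (isClosed_tsupport _)
      (tsupport_pd_subset G _)) fun x hx => (hP σ x (tsupport_pd_subset G _ hx)).continuousAt
  simp_rw [hdet]
  rw [integral_finsetSum _ fun σ _ => (hint σ).const_mul _]
  have h1 : ∀ σ : Equiv.Perm (Fin (m + 1)),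
      ∫ y, ((Equiv.Perm.sign σ : ℤ) : ℝ) * (pd (σ 0) G y * ∏ a : Fin m, pd (σ a.succ) (F a) y) =
        - ∑ a : Fin m, ((Equiv.Perm.sign σ : ℤ) : ℝ) *
          ∫ y, G y * ((∏ c ∈ Finset.univ.erase a, pd (σ c.succ) (F c) y) *
            pd (σ 0) (pd (σ a.succ) (F a)) y) := by
    intro σ
    rw [integral_const_mul, ibp hG hc (hP σ), ← Finset.mul_sum, mul_neg]
    congr 2
    have h3 : ∀ a ∈ (Finset.univ : Finset (Fin m)), Integrable fun y =>
        G y * ((∏ c ∈ Finset.univ.erase a, pd (σ c.succ) (F c) y) *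
            pd (σ 0) (pd (σ a.succ) (F a)) y) := by
      intro a _
      refine integrable_mul_of_tsupport hG.continuous hc fun x hx => ContinuousAt.mul ?_ ?_
      · exact (contDiffAt_prod fun c _ => contDiffAt_pd (hF c x hx) _).continuousAt
      · exact (contDiffAt_pd (contDiffAt_pd (hF a x hx) _) _).continuousAt
    rw [← integral_finsetSum _ h3]
    refine integral_congr_ae (Filter.Eventually.of_forall fun y => ?_)
    beta_reduce
    by_cases hy : y ∈ tsupport G
    · rw [← Finset.mul_sum]
      congr 1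
      exact pd_prod _ _ (fun a _ => (contDiffAt_pd (hF a y hy) _).differentiableAt (by simp)) _
    · have : G y = 0 := image_eq_zero_of_notMem_tsupport hy
      simp [this]
  rw [Finset.sum_congr rfl fun σ _ => h1 σ, Finset.sum_neg_distrib, Finset.sum_comm, neg_eq_zero]
  refine Finset.sum_eq_zero fun a _ => alt_sum_zero a _ fun σ => ?_
  refine integral_congr_ae (Filter.Eventually.of_forall fun y => ?_)
  beta_reduce
  by_cases hy : y ∈ tsupport G
  · have e1 : (σ * Equiv.swap 0 a.succ) 0 = σ a.succ := by simp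
    have e2 : (σ * Equiv.swap 0 a.succ) a.succ = σ 0 := by simp
    rw [e1, e2, pd_symm (hF a y hy)]
    congr 2
    refine Finset.prod_congr rfl fun c hc' => ?_
    have hca : c ≠ a := Finset.ne_of_mem_erase hc'
    rw [Equiv.Perm.mul_apply, Equiv.swap_apply_of_ne_of_ne (Fin.succ_ne_zero c)
      (fun h => hca (Fin.succ_injective _ h))]
  · have : G y = 0 := image_eq_zero_of_notMem_tsupport hy
    simp [this]

end

end Crest.Agent.R275.StkR627
end

-- ▼ part R275/OAt_627
section

set_option autoImplicit false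
set_option linter.unusedSectionVars false

open Set Filter Topology MeasureTheory
open scoped ContDiff

namespace Crest.Agent.R275.OAt627

open StkR627

noncomputable section

variable {n : ℕ} {M : Type*} [TopologicalSpace M]

/-- real charts -/
abbrev Ch (n : ℕ) (M : Type*) [TopologicalSpace M] := OpenPartialHomeomorph M (Rn n)

/-- smooth in the chart `e` -/
def SmO (e : Ch n M) (f : M → ℝ) : Prop := ContDiffOn ℝ ∞ (fun z => f (e.symm z)) e.target

variable {e e' : Ch n M} {f g : M → ℝ}

theorem SmO.contDiffAt (h : SmO e f) {y : Rn n} (hy : y ∈ e.target) :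
    ContDiffAt ℝ ∞ (fun z => f (e.symm z)) y :=
  ContDiffOn.contDiffAt h (e.open_target.mem_nhds hy)

theorem smO_const (e : Ch n M) (c : ℝ) : SmO e (fun _ => c) := contDiffOn_const

theorem SmO.add (hf : SmO e f) (hg : SmO e g) : SmO e (fun x => f x + g x) :=
  ContDiffOn.add hf hg

theorem SmO.sub (hf : SmO e f) (hg : SmO e g) : SmO e (fun x => f x - g x) :=
  ContDiffOn.sub hf hg

theorem SmO.mul (hf : SmO e f) (hg : SmO e g) : SmO e (fun x => f x * g x) :=
  ContDiffOn.mul hf hg

theorem SmO.const_mul (c : ℝ) (hf : SmO e f) : SmO e (fun x => c * f x) :=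
  (smO_const e c).mul hf

theorem SmO.sum {ι : Type*} (s : Finset ι) {f : ι → M → ℝ} (hf : ∀ i ∈ s, SmO e (f i)) :
    SmO e (fun x => ∑ i ∈ s, f i x) :=
  ContDiffOn.sum hf

theorem SmO.continuousOn (hf : SmO e f) : ContinuousOn f e.source := by
  have h1 : ContinuousOn (fun x => f (e.symm (e x))) e.source :=
    (ContDiffOn.continuousOn hf).comp e.continuousOn fun x hx => e.map_source hx
  exact h1.congr fun x hx => by simp only [e.left_inv hx]

/-- coordinate derivative -/
def der (e : Ch n M) (f : M → ℝ) (y : Rn n) : Rn n := fun b => pd b (fun z => f (e.symm z)) y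

theorem der_congr {y : Rn n} (hy : y ∈ e.target) (h : f =ᶠ[𝓝 (e.symm y)] g) :
    der e f y = der e g y := by
  funext b
  exact pd_congr ((e.continuousAt_symm hy).eventually h) b

theorem der_const (e : Ch n M) (c : ℝ) (y : Rn n) : der e (fun _ => c) y = 0 := by
  funext b
  simp [der, pd]

theorem der_eq_zero {y : Rn n} (hy : y ∈ e.target) {c : ℝ}
    (h : ∀ᶠ x in 𝓝 (e.symm y), f x = c) : der e f y = 0 := by
  rw [der_congr hy (g := fun _ => c) h, der_const]

theorem der_eq_zero_of_notMem {y : Rn n} (hy : y ∈ e.target) (h : e.symm y ∉ tsupport f) :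
    der e f y = 0 :=
  der_eq_zero (c := 0) hy (notMem_tsupport_iff_eventuallyEq.1 h)

theorem der_add (hf : SmO e f) (hg : SmO e g) {y : Rn n} (hy : y ∈ e.target) :
    der e (fun x => f x + g x) y = der e f y + der e g y := by
  funext b
  have h1 := (hf.contDiffAt hy).differentiableAt (by simp)
  have h2 := (hg.contDiffAt hy).differentiableAt (by simp)
  simp only [der, pd, Pi.add_apply]
  rw [fderiv_fun_add h1 h2]
  rfl

theorem der_mul (hf : SmO e f) (hg : SmO e g) {y : Rn n} (hy : y ∈ e.target) :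
    der e (fun x => f x * g x) y = f (e.symm y) • der e g y + g (e.symm y) • der e f y := by
  funext b
  have h1 := (hf.contDiffAt hy).differentiableAt (by simp)
  have h2 := (hg.contDiffAt hy).differentiableAt (by simp)
  simp only [der, pd, Pi.add_apply, Pi.smul_apply]
  rw [fderiv_fun_mul h1 h2]
  rfl

theorem der_const_mul (c : ℝ) (hf : SmO e f) {y : Rn n} (hy : y ∈ e.target) :
    der e (fun x => c * f x) y = c • der e f y := by
  rw [der_mul (smO_const e c) hf hy, der_const]
  simp

theorem der_sum {ι : Type*} (s : Finset ι) {f : ι → M → ℝ} (hf : ∀ i ∈ s, SmO e (f i)) {y : Rn n}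
    (hy : y ∈ e.target) : der e (fun x => ∑ i ∈ s, f i x) y = ∑ i ∈ s, der e (f i) y := by
  classical
  induction s using Finset.induction_on with
  | empty => simpa using der_const e 0 y
  | insert a s ha ih =>
    simp only [Finset.sum_insert ha]
    rw [der_add (hf a (Finset.mem_insert_self a s))
      (SmO.sum s fun i hi => hf i (Finset.mem_insert_of_mem hi)) hy,
      ih fun i hi => hf i (Finset.mem_insert_of_mem hi)]

theorem continuousOn_der (hf : SmO e f) : ContinuousOn (der e f) e.target := by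
  rw [continuousOn_pi]
  intro b
  have := ContDiffOn.continuousOn_fderiv_of_isOpen hf e.open_target (by simp)
  exact this.clm_apply continuousOn_const

/-- coordinate determinant -/
def Dt (e : Ch n M) (f : Fin n → M → ℝ) (y : Rn n) : ℝ :=
  Matrix.detRowAlternating (fun a => der e (f a) y)

theorem Dt_eq (e : Ch n M) (f : Fin n → M → ℝ) (y : Rn n) :
    Dt e f y = Matrix.det (Matrix.of fun a b => der e (f a) y b) := rfl

theorem Dt_update (e : Ch n M) (f : Fin n → M → ℝ) (a : Fin n) (u : M → ℝ) (y : Rn n) :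
    Dt e (Function.update f a u) y =
      Matrix.detRowAlternating (Function.update (fun a => der e (f a) y) a (der e u y)) := by
  unfold Dt
  congr 1
  funext a'
  by_cases h : a' = a
  · subst h; simp
  · simp [Function.update_of_ne h]

theorem Dt_congr {f g : Fin n → M → ℝ} {y : Rn n} (h : ∀ a, der e (f a) y = der e (g a) y) :
    Dt e f y = Dt e g y := by
  unfold Dt
  congr 1
  funext a
  exact h a

theorem Dt_eq_zero {f : Fin n → M → ℝ} {y : Rn n} {a : Fin n} (h : der e (f a) y = 0) :
    Dt e f y = 0 := by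
  unfold Dt
  exact AlternatingMap.map_coord_zero _ a h

theorem continuousOn_Dt {f : Fin n → M → ℝ} (hf : ∀ a, SmO e (f a)) :
    ContinuousOn (Dt e f) e.target := by
  have h1 : ContinuousOn (fun y => Matrix.of fun a b => der e (f a) y b) e.target := by
    refine continuousOn_pi.2 fun a => continuousOn_pi.2 fun b => ?_
    exact continuousOn_pi.1 (continuousOn_der (hf a)) b
  exact (Continuous.matrix_det continuous_id).comp_continuousOn h1

/-! ### integrability -/

theorem intOn {w : Rn n → ℝ} (hw : ContinuousOn w e.target) {K : Set M} (hK : IsCompact K)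
    (hKs : K ⊆ e.source) (h0 : ∀ y ∈ e.target, e.symm y ∉ K → w y = 0) :
    IntegrableOn w e.target := by
  have hK' : IsCompact (e '' K) := hK.image_of_continuousOn (e.continuousOn.mono hKs)
  have hsub : e '' K ⊆ e.target := by
    rintro _ ⟨x, hx, rfl⟩
    exact e.map_source (hKs hx)
  have h1 : IntegrableOn w (e '' K) := (hw.mono hsub).integrableOn_compact hK'
  refine h1.of_forall_sdiff_eq_zero e.open_target.measurableSet fun y hy => ?_
  refine h0 y hy.1 fun h => hy.2 ⟨e.symm y, h, e.right_inv hy.1⟩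

/-! ### change of variables -/

/-- the pair of charts is compatible: smooth transition with positive determinant -/
structure Cpt (e e' : Ch n M) : Prop where
  sm : ContDiffOn ℝ ∞ (fun z => e' (e.symm z)) (e.target ∩ e.symm ⁻¹' e'.source)
  pos : ∀ z ∈ e.target ∩ e.symm ⁻¹' e'.source,
    0 < (fderiv ℝ (fun z => e' (e.symm z)) z).det

theorem isOpen_ov (e e' : Ch n M) : IsOpen (e.target ∩ e.symm ⁻¹' e'.source) :=
  e.isOpen_inter_preimage_symm e'.open_source

theorem Cpt.contDiffAt (h : Cpt e e') {z : Rn n} (hz : z ∈ e.target ∩ e.symm ⁻¹' e'.source) :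
    ContDiffAt ℝ ∞ (fun z => e' (e.symm z)) z :=
  h.sm.contDiffAt ((isOpen_ov e e').mem_nhds hz)

/-- smoothness is transported by compatible charts -/
theorem Cpt.smO_at (h : Cpt e e') (hf : SmO e' f) {z : Rn n}
    (hz : z ∈ e.target ∩ e.symm ⁻¹' e'.source) : ContDiffAt ℝ ∞ (fun z => f (e.symm z)) z := by
  have h1 := h.contDiffAt hz
  have h2 : ContDiffAt ℝ ∞ (fun z => f (e'.symm z)) (e' (e.symm z)) :=
    hf.contDiffAt (e'.map_source hz.2)
  have h3 : ContDiffAt ℝ ∞ ((fun z => f (e'.symm z)) ∘ fun z => e' (e.symm z)) z := h2.comp z h1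
  refine h3.congr_of_eventuallyEq ?_
  filter_upwards [(isOpen_ov e e').mem_nhds hz] with w hw
  simp only [Function.comp_apply, e'.left_inv hw.2]

theorem Cpt.der (h : Cpt e e') (hf : SmO e' f) {z : Rn n}
    (hz : z ∈ e.target ∩ e.symm ⁻¹' e'.source) (b : Fin n) :
    OAt627.der e f z b = ∑ c, OAt627.der e' f (e' (e.symm z)) c *
      (fderiv ℝ (fun z => e' (e.symm z)) z (Pi.single b 1)) c := by
  have h1 := (h.contDiffAt hz).differentiableAt (by simp)
  have h2 : DifferentiableAt ℝ (fun z => f (e'.symm z)) (e' (e.symm z)) :=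
    (hf.contDiffAt (e'.map_source hz.2)).differentiableAt (by simp)
  have h3 : (fun z => f (e.symm z)) =ᶠ[𝓝 z] (fun z => f (e'.symm z)) ∘ fun z => e' (e.symm z) := by
    filter_upwards [(isOpen_ov e e').mem_nhds hz] with w hw
    simp only [Function.comp_apply, e'.left_inv hw.2]
  unfold OAt627.der pd
  rw [h3.fderiv_eq, fderiv_comp z h2 h1]
  simp only [ContinuousLinearMap.comp_apply]
  set v := fderiv ℝ (fun z => e' (e.symm z)) z (Pi.single b 1)
  have hv : v = ∑ c, v c • (Pi.single c 1 : Rn n) := by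
    funext a
    simp [Finset.sum_apply, Pi.single_apply]
  conv_lhs => rw [hv]
  rw [map_sum]
  refine Finset.sum_congr rfl fun c _ => ?_
  rw [map_smul, smul_eq_mul, mul_comm]

theorem Cpt.Dt (h : Cpt e e') {f : Fin n → M → ℝ} (hf : ∀ a, SmO e' (f a)) {z : Rn n}
    (hz : z ∈ e.target ∩ e.symm ⁻¹' e'.source) :
    OAt627.Dt e f z = OAt627.Dt e' f (e' (e.symm z)) *
      (fderiv ℝ (fun z => e' (e.symm z)) z).det := by
  have h1 : (Matrix.of fun a b => OAt627.der e (f a) z b) =
      (Matrix.of fun a b => OAt627.der e' (f a) (e' (e.symm z)) b) *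
        LinearMap.toMatrix' (fderiv ℝ (fun z => e' (e.symm z)) z : Rn n →ₗ[ℝ] Rn n) := by
    ext a b
    rw [Matrix.mul_apply]
    simp only [Matrix.of_apply, LinearMap.toMatrix'_apply]
    exact h.der (hf a) hz b
  rw [Dt_eq, Dt_eq, h1, Matrix.det_mul, LinearMap.det_toMatrix']

/-- integral of `g df1 ... dfn` over the chart `e` -/
def I (e : Ch n M) (g : M → ℝ) (f : Fin n → M → ℝ) : ℝ :=
  ∫ y in e.target, g (e.symm y) * Dt e f y

/-- change of variables -/
theorem I_cv (h : Cpt e e') {f : Fin n → M → ℝ} (hf : ∀ a, SmO e' (f a))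
    (hsub : ∀ x, g x ≠ 0 → (∀ a, x ∈ tsupport (f a)) → x ∈ e.source ∨ x ∈ e'.source →
      x ∈ e.source ∩ e'.source) : I e g f = I e' g f := by
  set T : Rn n → Rn n := fun z => e' (e.symm z) with hT
  set ov := e.target ∩ e.symm ⁻¹' e'.source with hov
  set ov' := e'.target ∩ e'.symm ⁻¹' e.source with hov'
  have himg : T '' ov = ov' := by
    ext y
    constructor
    · rintro ⟨z, hz, rfl⟩
      refine ⟨e'.map_source hz.2, ?_⟩
      simp only [hT, mem_preimage, e'.left_inv hz.2]
      exact e.map_target hz.1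
    · rintro ⟨h1, h2⟩
      refine ⟨e (e'.symm y), ⟨e.map_source h2, ?_⟩, ?_⟩
      · simp only [mem_preimage, e.left_inv h2]
        exact e'.map_target h1
      · simp only [hT, e.left_inv h2, e'.right_inv h1]
  have hinj : InjOn T ov := by
    intro z hz w hw hzw
    have h1 : e.symm z = e.symm w := by
      have := congrArg e'.symm hzw
      simpa only [hT, e'.left_inv hz.2, e'.left_inv hw.2] using this
    rw [← e.right_inv hz.1, ← e.right_inv hw.1, h1]
  have h1 : I e' g f = ∫ y in ov', g (e'.symm y) * OAt627.Dt e' f y := by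
    refine setIntegral_eq_of_subset_of_forall_sdiff_eq_zero e'.open_target.measurableSet
      inter_subset_left fun y hy => ?_
    by_contra hne
    refine hy.2 ⟨hy.1, ?_⟩
    have hg : g (e'.symm y) ≠ 0 := left_ne_zero_of_mul hne
    have hD : OAt627.Dt e' f y ≠ 0 := right_ne_zero_of_mul hne
    refine (hsub _ hg (fun a => ?_) (Or.inr (e'.map_target hy.1))).1
    by_contra hc
    exact hD (Dt_eq_zero (der_eq_zero_of_notMem hy.1 hc))
  have h2 : I e g f = ∫ y in ov, g (e.symm y) * OAt627.Dt e f y := by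
    refine setIntegral_eq_of_subset_of_forall_sdiff_eq_zero e.open_target.measurableSet
      inter_subset_left fun y hy => ?_
    by_contra hne
    refine hy.2 ⟨hy.1, ?_⟩
    have hg : g (e.symm y) ≠ 0 := left_ne_zero_of_mul hne
    have hD : OAt627.Dt e f y ≠ 0 := right_ne_zero_of_mul hne
    refine (hsub _ hg (fun a => ?_) (Or.inl (e.map_target hy.1))).2
    by_contra hc
    exact hD (Dt_eq_zero (der_eq_zero_of_notMem hy.1 hc))
  rw [h1, h2, ← himg, integral_image_eq_integral_abs_det_fderiv_smul volume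
    (isOpen_ov e e').measurableSet
    (fun z hz => ((h.contDiffAt hz).differentiableAt (by simp)).hasFDerivAt.hasFDerivWithinAt) hinj]
  refine setIntegral_congr_fun (isOpen_ov e e').measurableSet fun z hz => ?_
  rw [h.Dt hf hz, abs_of_pos (h.pos z hz), smul_eq_mul]
  simp only [e'.left_inv hz.2]
  ring

/-! ### Stokes in a chart -/

theorem stokes_chart {m : ℕ} {e : Ch (m + 1) M} {g : M → ℝ} {f : Fin m → M → ℝ} (hg : SmO e g)
    (hf : ∀ a, SmO e (f a)) {K : Set M} (hK : IsCompact K) (hKs : K ⊆ e.source)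
    (h0 : ∀ x ∈ e.source, x ∉ K → g x = 0) :
    ∫ y in e.target, Dt e (Fin.cons (α := fun _ => M → ℝ) g f) y = 0 := by
  classical
  set G : Rn (m + 1) → ℝ := fun y => if y ∈ e.target then g (e.symm y) else 0 with hG
  have hK' : IsCompact (e '' K) := hK.image_of_continuousOn (e.continuousOn.mono hKs)
  have hsub : e '' K ⊆ e.target := by
    rintro _ ⟨x, hx, rfl⟩
    exact e.map_source (hKs hx)
  have hG0 : ∀ y, y ∉ e '' K → G y = 0 := by
    intro y hy
    by_cases hyt : y ∈ e.target
    · simp only [hG, if_pos hyt]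
      exact h0 _ (e.map_target hyt) fun h => hy ⟨_, h, e.right_inv hyt⟩
    · simp only [hG, if_neg hyt]
  have hGt : ∀ y ∈ e.target, G =ᶠ[𝓝 y] fun z => g (e.symm z) := by
    intro y hy
    filter_upwards [e.open_target.mem_nhds hy] with z hz
    simp only [hG, if_pos hz]
  have hGn : ∀ y, y ∉ e '' K → G =ᶠ[𝓝 y] fun _ => 0 := by
    intro y hy
    filter_upwards [hK'.isClosed.isOpen_compl.mem_nhds hy] with z hz
    exact hG0 z hz
  have hGs : ContDiff ℝ ∞ G := by
    rw [contDiff_iff_contDiffAt]
    intro y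
    by_cases hy : y ∈ e.target
    · exact (hg.contDiffAt hy).congr_of_eventuallyEq (hGt y hy)
    · exact contDiffAt_const.congr_of_eventuallyEq (hGn y fun h => hy (hsub h))
  have hGc : HasCompactSupport G := HasCompactSupport.intro hK' hG0
  have hts : tsupport G ⊆ e.target := by
    refine (closure_minimal ?_ hK'.isClosed).trans hsub
    intro y hy
    by_contra h
    exact hy (hG0 y h)
  have hst := stokes (G := G) (F := fun a z => f a (e.symm z)) hGs hGc fun a x hx =>
    (hf a).contDiffAt (hts hx)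
  rw [← hst]
  have h2 : ∀ y ∉ e.target, Matrix.det (Matrix.of fun a b =>
      pd b (Fin.cons (α := fun _ => Rn (m + 1) → ℝ) G (fun a z => f a (e.symm z)) a) y) = 0 := by
    intro y hy
    refine Matrix.det_eq_zero_of_row_eq_zero 0 fun b => ?_
    simp only [Matrix.of_apply, Fin.cons_zero]
    rw [pd_congr (hGn y fun h => hy (hsub h))]
    simp [pd]
  rw [← setIntegral_eq_integral_of_forall_compl_eq_zero h2]
  refine setIntegral_congr_fun e.open_target.measurableSet fun y hy => ?_
  rw [Dt_eq]
  congr 1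
  ext a b
  simp only [Matrix.of_apply]
  refine Fin.cases ?_ (fun a => ?_) a
  · simp only [Fin.cons_zero, der]
    exact (pd_congr (hGt y hy) b).symm
  · simp only [Fin.cons_succ, der]

end

end Crest.Agent.R275.OAt627
end

-- ▼ part R275/OAJ_627

set_option autoImplicit false
set_option linter.unusedSectionVars false

open Set Filter Topology MeasureTheory
open scoped ContDiff

namespace Crest.Agent.R275.OAJ627

open StkR627 OAt627

noncomputable section

/-- oriented smooth atlas with a locally finite partition of unity -/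
structure OA (n : ℕ) (M : Type*) [TopologicalSpace M] where
  ι : Type
  e : ι → Ch n M
  cpt : ∀ i j, Cpt (e i) (e j)
  θ : ι → M → ℝ
  θ_sm : ∀ i j, SmO (e j) (θ i)
  θ_cpt : ∀ i, IsCompact (tsupport (θ i))
  θ_sub : ∀ i, tsupport (θ i) ⊆ (e i).source
  lf : ∀ K, IsCompact K → {i | (tsupport (θ i) ∩ K).Nonempty}.Finite
  sum : ∀ x, ∑ᶠ i, θ i x = 1

variable {n : ℕ} {M : Type*} [TopologicalSpace M]

namespace OA

variable (A : OA n M)

/-- smooth functions -/
def Sm (f : M → ℝ) : Prop := ∀ i, SmO (A.e i) f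

/-- a chart compatible with all charts of the atlas -/
def Ok (e' : Ch n M) : Prop := ∀ i, Cpt (A.e i) e' ∧ Cpt e' (A.e i)

theorem ok_e (i : A.ι) : A.Ok (A.e i) := fun j => ⟨A.cpt j i, A.cpt i j⟩

theorem exists_mem (x : M) : ∃ i, x ∈ (A.e i).source := by
  by_contra h
  push Not at h
  have h0 : ∀ i, A.θ i x = 0 := fun i =>
    image_eq_zero_of_notMem_tsupport fun hx => h i (A.θ_sub i hx)
  have := A.sum x
  simp [h0] at this

variable {A}

theorem Sm.continuous {f : M → ℝ} (hf : A.Sm f) : Continuous f := by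
  rw [continuous_iff_continuousAt]
  intro x
  obtain ⟨i, hi⟩ := A.exists_mem x
  exact (hf i).continuousOn.continuousAt ((A.e i).open_source.mem_nhds hi)

theorem Sm.smO {f : M → ℝ} (hf : A.Sm f) {e' : Ch n M} (he : A.Ok e') : SmO e' f := by
  intro y hy
  obtain ⟨i, hi⟩ := A.exists_mem (e'.symm y)
  exact ((he i).2.smO_at (hf i) ⟨hy, hi⟩).contDiffWithinAt

theorem sm_const (c : ℝ) : A.Sm (fun _ => c) := fun _ => smO_const _ c

theorem Sm.add {f g : M → ℝ} (hf : A.Sm f) (hg : A.Sm g) : A.Sm (fun x => f x + g x) :=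
  fun i => (hf i).add (hg i)

theorem Sm.sub {f g : M → ℝ} (hf : A.Sm f) (hg : A.Sm g) : A.Sm (fun x => f x - g x) :=
  fun i => (hf i).sub (hg i)

theorem Sm.mul {f g : M → ℝ} (hf : A.Sm f) (hg : A.Sm g) : A.Sm (fun x => f x * g x) :=
  fun i => (hf i).mul (hg i)

theorem Sm.sum {κ : Type*} (s : Finset κ) {f : κ → M → ℝ} (hf : ∀ i ∈ s, A.Sm (f i)) :
    A.Sm (fun x => ∑ i ∈ s, f i x) := fun j => SmO.sum s fun i hi => hf i hi j

theorem sm_θ (i : A.ι) : A.Sm (A.θ i) := fun j => A.θ_sm i j

variable (A)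

/-- smooth functions which are constant off a compact set -/
def F : Subalgebra ℝ (M → ℝ) where
  carrier := {f | A.Sm f ∧ ∃ c : ℝ, ∃ K, IsCompact K ∧ ∀ x ∉ K, f x = c}
  mul_mem' := by
    rintro f g ⟨h1, c, K, hK, h2⟩ ⟨k1, d, L, hL, k2⟩
    refine ⟨h1.mul k1, c * d, K ∪ L, hK.union hL, fun x hx => ?_⟩
    simp only [mem_union, not_or] at hx
    simp [h2 x hx.1, k2 x hx.2]
  add_mem' := by
    rintro f g ⟨h1, c, K, hK, h2⟩ ⟨k1, d, L, hL, k2⟩
    refine ⟨h1.add k1, c + d, K ∪ L, hK.union hL, fun x hx => ?_⟩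
    simp only [mem_union, not_or] at hx
    simp [h2 x hx.1, k2 x hx.2]
  algebraMap_mem' := fun r => ⟨sm_const r, r, ∅, isCompact_empty, fun x _ => rfl⟩

variable {A}

theorem mem_F {f : M → ℝ} : f ∈ A.F ↔ A.Sm f ∧ ∃ c : ℝ, ∃ K, IsCompact K ∧ ∀ x ∉ K, f x = c :=
  Iff.rfl

theorem mem_F_of_compact {f : M → ℝ} (hf : A.Sm f) {K : Set M} (hK : IsCompact K)
    (h0 : ∀ x ∉ K, f x = 0) : f ∈ A.F := ⟨hf, 0, K, hK, h0⟩

/-- the integrand -/
def W {m : ℕ} (e : Ch (m + 1) M) (f : Fin (m + 2) → M → ℝ) (y : Rn (m + 1)) : ℝ :=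
  f 0 (e.symm y) * Dt e (fun a => f a.succ) y

section W

variable {m : ℕ} {e : Ch (m + 1) M} {f : Fin (m + 2) → M → ℝ} {y : Rn (m + 1)}

theorem W_eq_zero (hy : y ∈ e.target) {k : Fin (m + 2)} (h : e.symm y ∉ tsupport (f k)) :
    W e f y = 0 := by
  unfold W
  refine Fin.cases (fun h => ?_) (fun a h => ?_) k h
  · rw [image_eq_zero_of_notMem_tsupport h, zero_mul]
  · rw [Dt_eq_zero (a := a) (der_eq_zero_of_notMem hy h), mul_zero]

theorem W_eq_zero' (hy : y ∈ e.target) {a : Fin (m + 1)} {c : ℝ}
    (h : ∀ᶠ x in 𝓝 (e.symm y), f a.succ x = c) : W e f y = 0 := by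
  unfold W
  rw [Dt_eq_zero (a := a) (der_eq_zero hy h), mul_zero]

theorem continuousOn_W (hf : ∀ k, SmO e (f k)) : ContinuousOn (W e f) e.target :=
  (ContDiffOn.continuousOn (hf 0)).mul (continuousOn_Dt fun a => hf a.succ)

theorem W_update_add (hy : y ∈ e.target) (k : Fin (m + 2)) {u v : M → ℝ}
    (hu : SmO e u) (hv : SmO e v) :
    W e (Function.update f k fun x => u x + v x) y =
      W e (Function.update f k u) y + W e (Function.update f k v) y := by
  unfold W
  refine Fin.cases ?_ (fun a => ?_) k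
  · simp only [Function.update_self]
    have : ∀ w : M → ℝ, (fun a : Fin (m + 1) => Function.update f 0 w a.succ) =
        fun a => f a.succ := fun w => by
      funext a
      rw [Function.update_of_ne (Fin.succ_ne_zero a)]
    rw [this, this, this, add_mul]
  · have h0 : ∀ w : M → ℝ, Function.update f a.succ w 0 = f 0 := fun w => by
      rw [Function.update_of_ne (Fin.succ_ne_zero a).symm]
    have : ∀ w : M → ℝ, (fun b : Fin (m + 1) => Function.update f a.succ w b.succ) =
        Function.update (fun b => f b.succ) a w := fun w => by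
      funext b
      by_cases hb : b = a
      · subst hb; simp
      · rw [Function.update_of_ne hb, Function.update_of_ne fun h => hb (Fin.succ_injective _ h)]
    rw [h0, h0, h0, this, this, this, Dt_update, Dt_update, Dt_update, der_add hu hv hy,
      AlternatingMap.map_update_add, mul_add]

theorem W_update_smul (hy : y ∈ e.target) (k : Fin (m + 2)) {u : M → ℝ}
    (hu : SmO e u) (c : ℝ) :
    W e (Function.update f k fun x => c * u x) y = c * W e (Function.update f k u) y := by
  unfold W
  refine Fin.cases ?_ (fun a => ?_) k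
  · simp only [Function.update_self]
    have : ∀ w : M → ℝ, (fun a : Fin (m + 1) => Function.update f 0 w a.succ) =
        fun a => f a.succ := fun w => by
      funext a
      rw [Function.update_of_ne (Fin.succ_ne_zero a)]
    rw [this, this, mul_assoc]
  · have h0 : ∀ w : M → ℝ, Function.update f a.succ w 0 = f 0 := fun w => by
      rw [Function.update_of_ne (Fin.succ_ne_zero a).symm]
    have : ∀ w : M → ℝ, (fun b : Fin (m + 1) => Function.update f a.succ w b.succ) =
        Function.update (fun b => f b.succ) a w := fun w => by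
      funext b
      by_cases hb : b = a
      · subst hb; simp
      · rw [Function.update_of_ne hb, Function.update_of_ne fun h => hb (Fin.succ_injective _ h)]
    rw [h0, h0, this, this, Dt_update, Dt_update, der_const_mul c hu hy,
      AlternatingMap.map_update_smul, smul_eq_mul]
    ring

/-- equality of two of the derived entries gives zero -/
theorem W_alt {a b : Fin (m + 1)} (hab : a ≠ b) (h : f a.succ = f b.succ) : W e f y = 0 := by
  unfold W Dt
  rw [AlternatingMap.map_eq_zero_of_eq _ _ (i := a) (j := b) (by simp only [h]) hab, mul_zero]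

end W


/-! ### the integral -/

/-- contribution of the chart `i` -/
def Jt {m : ℕ} (A : OA (m + 1) M) (f : Fin (m + 2) → M → ℝ) (i : A.ι) : ℝ :=
  ∫ y in (A.e i).target, A.θ i ((A.e i).symm y) * W (A.e i) f y

/-- `∫ f0 df1 ... dfn` -/
def Jf {m : ℕ} (A : OA (m + 1) M) (f : Fin (m + 2) → M → ℝ) : ℝ := ∑ᶠ i, Jt A f i

section J

variable {m : ℕ} {A : OA (m + 1) M} {f : Fin (m + 2) → M → ℝ}

theorem integrableOn_gW {e : Ch (m + 1) M} (hf : ∀ k, SmO e (f k)) {g : M → ℝ} (hg : SmO e g)
    {K : Set M} (hK : IsCompact K) (hKs : K ⊆ e.source) (h0 : ∀ x ∈ e.source, x ∉ K → g x = 0) :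
    IntegrableOn (fun y => g (e.symm y) * W e f y) e.target :=
  intOn ((ContDiffOn.continuousOn hg).mul (continuousOn_W hf)) hK hKs fun y hy hyK => by
    rw [h0 _ (e.map_target hy) hyK, zero_mul]

theorem integrableOn_Jt (hf : ∀ k, A.Sm (f k)) (i : A.ι) :
    IntegrableOn (fun y => A.θ i ((A.e i).symm y) * W (A.e i) f y) (A.e i).target :=
  integrableOn_gW (fun k => hf k i) (A.θ_sm i i) (A.θ_cpt i) (A.θ_sub i) fun _ _ hx =>
    image_eq_zero_of_notMem_tsupport hx

theorem Jt_eq_zero {i : A.ι} {a : Fin (m + 1)} {c : ℝ} {K : Set M} (hK : IsClosed K)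
    (hc : ∀ x ∉ K, f a.succ x = c) (h : ¬ (tsupport (A.θ i) ∩ K).Nonempty) : Jt A f i = 0 := by
  refine setIntegral_eq_zero_of_forall_eq_zero fun y hy => ?_
  by_cases hx : (A.e i).symm y ∈ tsupport (A.θ i)
  · have hxK : (A.e i).symm y ∉ K := fun hK => h ⟨_, hx, hK⟩
    rw [W_eq_zero' (a := a) (c := c) hy, mul_zero]
    filter_upwards [hK.isOpen_compl.mem_nhds hxK] with x hx
    exact hc x hx
  · rw [image_eq_zero_of_notMem_tsupport hx, zero_mul]

theorem Jf_eq_sum {S : Finset A.ι} (h : ∀ i ∉ S, Jt A f i = 0) : Jf A f = ∑ i ∈ S, Jt A f i :=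
  finsum_eq_sum_of_support_subset _ fun i hi => by
    by_contra hc
    exact hi (h i hc)

variable [T2Space M]

theorem exists_finset (hf : f 1 ∈ A.F) : ∃ S : Finset A.ι, ∀ i ∉ S, Jt A f i = 0 := by
  obtain ⟨c, K, hK, hc⟩ := hf.2
  refine ⟨(A.lf K hK).toFinset, fun i hi => ?_⟩
  have hi' : ¬ (tsupport (A.θ i) ∩ K).Nonempty := by simpa using hi
  exact Jt_eq_zero (a := 0) hK.isClosed hc hi'

theorem Jf_update_add (hf : ∀ k, f k ∈ A.F) (k : Fin (m + 2)) {u v : M → ℝ} (hu : u ∈ A.F)
    (hv : v ∈ A.F) :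
    Jf A (Function.update f k fun x => u x + v x) =
      Jf A (Function.update f k u) + Jf A (Function.update f k v) := by
  classical
  have hF : ∀ w ∈ A.F, ∀ j, Function.update f k w j ∈ A.F := by
    intro w hw j
    by_cases h : j = k
    · subst h; simpa using hw
    · rw [Function.update_of_ne h]; exact hf j
  have huv : (fun x => u x + v x) ∈ A.F := A.F.add_mem hu hv
  obtain ⟨S1, h1⟩ := exists_finset (A := A) (hF _ huv 1)
  obtain ⟨S2, h2⟩ := exists_finset (A := A) (hF _ hu 1)
  obtain ⟨S3, h3⟩ := exists_finset (A := A) (hF _ hv 1)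
  rw [Jf_eq_sum (S := S1 ∪ S2 ∪ S3) fun i hi => h1 i fun h => hi (by simp [h]),
    Jf_eq_sum (S := S1 ∪ S2 ∪ S3) fun i hi => h2 i fun h => hi (by simp [h]),
    Jf_eq_sum (S := S1 ∪ S2 ∪ S3) fun i hi => h3 i fun h => hi (by simp [h]),
    ← Finset.sum_add_distrib]
  refine Finset.sum_congr rfl fun i _ => ?_
  unfold Jt
  rw [← integral_add (integrableOn_Jt (fun j => (hF u hu j).1) i)
    (integrableOn_Jt (fun j => (hF v hv j).1) i)]
  refine setIntegral_congr_fun (A.e i).open_target.measurableSet fun y hy => ?_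
  rw [W_update_add hy k (hu.1 i) (hv.1 i)]
  ring

theorem Jf_update_smul (hf : ∀ k, f k ∈ A.F) (k : Fin (m + 2)) {u : M → ℝ} (hu : u ∈ A.F)
    (c : ℝ) :
    Jf A (Function.update f k fun x => c * u x) = c * Jf A (Function.update f k u) := by
  classical
  have hF : ∀ w ∈ A.F, ∀ j, Function.update f k w j ∈ A.F := by
    intro w hw j
    by_cases h : j = k
    · subst h; simpa using hw
    · rw [Function.update_of_ne h]; exact hf j
  have huv : (fun x => c * u x) ∈ A.F := A.F.smul_mem hu c
  obtain ⟨S1, h1⟩ := exists_finset (A := A) (hF _ huv 1)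
  obtain ⟨S2, h2⟩ := exists_finset (A := A) (hF _ hu 1)
  rw [Jf_eq_sum (S := S1 ∪ S2) fun i hi => h1 i fun h => hi (by simp [h]),
    Jf_eq_sum (S := S1 ∪ S2) fun i hi => h2 i fun h => hi (by simp [h]), Finset.mul_sum]
  refine Finset.sum_congr rfl fun i _ => ?_
  unfold Jt
  rw [← integral_const_mul]
  refine setIntegral_congr_fun (A.e i).open_target.measurableSet fun y hy => ?_
  rw [W_update_smul hy k (hu.1 i)]
  ring

theorem Dt_cons {k : ℕ} {e : Ch (k + 1) M} (u : M → ℝ) (f' : Fin k → M → ℝ) (y : Rn (k + 1)) :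
    Dt e (Fin.cons (α := fun _ => M → ℝ) u f') y =
      Matrix.detRowAlternating (Matrix.vecCons (der e u y) fun a => der e (f' a) y) := by
  unfold Dt
  congr 1
  funext a
  refine Fin.cases ?_ (fun a => ?_) a <;> rfl


theorem Dt_cons_mul {k : ℕ} {e : Ch (k + 1) M} {u v : M → ℝ} (hu : SmO e u) (hv : SmO e v)
    (f' : Fin k → M → ℝ) {y : Rn (k + 1)} (hy : y ∈ e.target) :
    Dt e (Fin.cons (α := fun _ => M → ℝ) (fun x => u x * v x) f') y =
      u (e.symm y) * Dt e (Fin.cons (α := fun _ => M → ℝ) v f') y +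
        v (e.symm y) * Dt e (Fin.cons (α := fun _ => M → ℝ) u f') y := by
  rw [Dt_cons, Dt_cons, Dt_cons, der_mul hu hv hy, AlternatingMap.map_vecCons_add,
    AlternatingMap.map_vecCons_smul, AlternatingMap.map_vecCons_smul, smul_eq_mul, smul_eq_mul]

theorem Dt_cons_sum {k : ℕ} {e : Ch (k + 1) M} {κ : Type*} (s : Finset κ) {u : κ → M → ℝ}
    (hu : ∀ i ∈ s, SmO e (u i)) (f' : Fin k → M → ℝ) {y : Rn (k + 1)} (hy : y ∈ e.target) :
    Dt e (Fin.cons (α := fun _ => M → ℝ) (fun x => ∑ i ∈ s, u i x) f') y =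
      ∑ i ∈ s, Dt e (Fin.cons (α := fun _ => M → ℝ) (u i) f') y := by
  classical
  induction s using Finset.induction_on with
  | empty =>
    simp only [Finset.sum_empty]
    exact Dt_eq_zero (a := 0) (by simpa using der_const e 0 y)
  | insert a s ha ih =>
    simp only [Finset.sum_insert ha]
    rw [← ih fun i hi => hu i (Finset.mem_insert_of_mem hi), Dt_cons, Dt_cons, Dt_cons,
      der_add (hu a (Finset.mem_insert_self a s))
        (SmO.sum s fun i hi => hu i (Finset.mem_insert_of_mem hi)) hy,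
      AlternatingMap.map_vecCons_add]

variable [LocallyCompactSpace M]

/-- **Stokes**: `∫ df1 ... dfn = 0` -/
theorem Jf_one (hf : ∀ k, f k ∈ A.F) (h0 : f 0 = fun _ => 1) : Jf A f = 0 := by
  classical
  obtain ⟨c, K, hK, hc⟩ := (hf 1).2
  obtain ⟨K', hK', hKK'⟩ := exists_compact_superset hK
  set S : Finset A.ι := (A.lf K' hK').toFinset with hS
  have hSmem : ∀ i, i ∉ S → ¬ (tsupport (A.θ i) ∩ K').Nonempty := fun i hi => by
    simpa [hS] using hi
  have hΘ : ∀ x ∈ K', ∑ i ∈ S, A.θ i x = 1 := by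
    intro x hx
    rw [← A.sum x]
    refine (finsum_eq_sum_of_support_subset _ fun i hi => ?_).symm
    by_contra h
    exact hSmem i h ⟨x, subset_tsupport _ hi, hx⟩
  set g : M → ℝ := fun x => f 1 x - c with hg
  have hgs : A.Sm g := (hf 1).1.sub (sm_const c)
  have hg0 : ∀ x ∉ K, g x = 0 := fun x hx => by simp [hg, hc x hx]
  set f' : Fin m → M → ℝ := fun a => f a.succ.succ with hf'
  have hf's : ∀ a, A.Sm (f' a) := fun a => (hf a.succ.succ).1
  have hW : ∀ i, ∀ y ∈ (A.e i).target, W (A.e i) f y =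
      Dt (A.e i) (Fin.cons (α := fun _ => M → ℝ) g f') y := by
    intro i y hy
    unfold W
    rw [h0, one_mul]
    refine Dt_congr fun a => ?_
    refine Fin.cases ?_ (fun a => ?_) a
    · simp only [Fin.cons_zero]
      have h1 : f (Fin.succ 0) = fun x => g x + c := by
        funext x; simp [hg]
      rw [h1, der_add (hgs i) (smO_const _ c) hy, der_const, add_zero]
    · simp only [Fin.cons_succ, hf']
  have hin : ∀ i k : A.ι, IntegrableOn (fun y => (A.θ k ((A.e i).symm y) * g ((A.e i).symm y)) *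
      Dt (A.e i) (Fin.cons (α := fun _ => M → ℝ) (A.θ i) f') y) (A.e i).target := by
    intro i k
    refine intOn (K := tsupport (A.θ i)) ?_ (A.θ_cpt i) (A.θ_sub i) fun y hy hyK => ?_
    · refine ((ContDiffOn.continuousOn (A.θ_sm k i)).mul
        (ContDiffOn.continuousOn (hgs i))).mul (continuousOn_Dt fun a => ?_)
      refine Fin.cases ?_ (fun a => ?_) a
      · exact A.θ_sm i i
      · exact hf's a i
    · rw [Dt_eq_zero (a := 0) (by simpa using der_eq_zero_of_notMem hy hyK), mul_zero]
  have hin2 : ∀ i k : A.ι, IntegrableOn (fun y => (A.θ k ((A.e k).symm y) * g ((A.e k).symm y)) *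
      Dt (A.e k) (Fin.cons (α := fun _ => M → ℝ) (A.θ i) f') y) (A.e k).target := by
    intro i k
    refine intOn (K := tsupport (A.θ k)) ?_ (A.θ_cpt k) (A.θ_sub k) fun y hy hyK => ?_
    · refine ((ContDiffOn.continuousOn (A.θ_sm k k)).mul
        (ContDiffOn.continuousOn (hgs k))).mul (continuousOn_Dt fun a => ?_)
      refine Fin.cases ?_ (fun a => ?_) a
      · exact A.θ_sm i k
      · exact hf's a k
    · rw [image_eq_zero_of_notMem_tsupport hyK, zero_mul, zero_mul]
  have h1 : ∀ i, Jt A f i =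
      - ∑ k ∈ S, I (A.e i) (fun x => A.θ k x * g x)
        (Fin.cons (α := fun _ => M → ℝ) (A.θ i) f') := by
    intro i
    have hst := stokes_chart (e := A.e i) (g := fun x => A.θ i x * g x) (f := f')
      ((A.θ_sm i i).mul (hgs i)) (fun a => hf's a i) (A.θ_cpt i) (A.θ_sub i)
      (fun x _ hx => by simp [image_eq_zero_of_notMem_tsupport hx])
    have e1 : ∫ y in (A.e i).target, Dt (A.e i)
        (Fin.cons (α := fun _ => M → ℝ) (fun x => A.θ i x * g x) f') y =
        Jt A f i + ∫ y in (A.e i).target, g ((A.e i).symm y) *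
          Dt (A.e i) (Fin.cons (α := fun _ => M → ℝ) (A.θ i) f') y := by
      unfold Jt
      rw [← integral_add (integrableOn_Jt (fun k => (hf k).1) i)]
      · refine setIntegral_congr_fun (A.e i).open_target.measurableSet fun y hy => ?_
        rw [Dt_cons_mul (A.θ_sm i i) (hgs i) f' hy, hW i y hy]
      · refine intOn (K := tsupport (A.θ i)) ?_ (A.θ_cpt i) (A.θ_sub i) fun y hy hyK => ?_
        · refine (ContDiffOn.continuousOn (hgs i)).mul (continuousOn_Dt fun a => ?_)
          refine Fin.cases ?_ (fun a => ?_) a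
          · exact A.θ_sm i i
          · exact hf's a i
        · rw [Dt_eq_zero (a := 0) (by simpa using der_eq_zero_of_notMem hy hyK), mul_zero]
    have e2 : ∫ y in (A.e i).target, g ((A.e i).symm y) *
          Dt (A.e i) (Fin.cons (α := fun _ => M → ℝ) (A.θ i) f') y =
        ∑ k ∈ S, I (A.e i) (fun x => A.θ k x * g x)
          (Fin.cons (α := fun _ => M → ℝ) (A.θ i) f') := by
      unfold I
      rw [← integral_finsetSum _ fun k _ => hin i k]
      refine setIntegral_congr_fun (A.e i).open_target.measurableSet fun y hy => ?_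
      rw [← Finset.sum_mul, ← Finset.sum_mul]
      by_cases hx : (A.e i).symm y ∈ K
      · rw [hΘ _ (interior_subset (hKK' hx)), one_mul]
      · rw [hg0 _ hx, mul_zero]
    rw [e1, e2] at hst
    linarith
  rw [Jf_eq_sum (S := S) fun i hi => Jt_eq_zero (a := 0) hK.isClosed hc fun h =>
    hSmem i hi (h.mono (inter_subset_inter_right _ (hKK'.trans interior_subset))),
    Finset.sum_congr rfl fun i _ => h1 i, Finset.sum_neg_distrib, neg_eq_zero]
  have h2 : ∀ i k, I (A.e i) (fun x => A.θ k x * g x)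
        (Fin.cons (α := fun _ => M → ℝ) (A.θ i) f') =
      I (A.e k) (fun x => A.θ k x * g x) (Fin.cons (α := fun _ => M → ℝ) (A.θ i) f') := by
    intro i k
    refine I_cv (A.cpt i k) (fun a => ?_) fun x hx ht _ => ⟨?_, ?_⟩
    · refine Fin.cases ?_ (fun a => ?_) a
      · exact A.θ_sm i k
      · exact hf's a k
    · have := ht 0
      simp only [Fin.cons_zero] at this
      exact A.θ_sub i this
    · refine A.θ_sub k (subset_tsupport _ ?_)
      exact left_ne_zero_of_mul hx
  rw [Finset.sum_congr rfl fun i _ => Finset.sum_congr rfl fun k _ => h2 i k, Finset.sum_comm]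
  refine Finset.sum_eq_zero fun k _ => ?_
  unfold I
  rw [← integral_finsetSum _ fun i _ => hin2 i k]
  refine setIntegral_eq_zero_of_forall_eq_zero fun y hy => ?_
  rw [← Finset.mul_sum, ← Dt_cons_sum S (fun i _ => A.θ_sm i k) f' hy]
  by_cases hx : (A.e k).symm y ∈ K
  · rw [Dt_eq_zero (a := 0), mul_zero]
    refine der_eq_zero (c := 1) hy ?_
    filter_upwards [mem_interior_iff_mem_nhds.1 (hKK' hx)] with x hx
    exact hΘ x hx
  · rw [hg0 _ hx, mul_zero, zero_mul]

theorem Jf_zero_of_const (hf : ∀ k, f k ∈ A.F) {k : Fin (m + 2)} (h : f k = fun _ => 1) :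
    Jf A f = 0 := by
  revert h
  refine Fin.cases (fun h => Jf_one hf h) (fun a h => ?_) k
  rw [Jf_eq_sum (S := ∅), Finset.sum_empty]
  intro i _
  refine setIntegral_eq_zero_of_forall_eq_zero fun y hy => ?_
  rw [W_eq_zero' (a := a) (c := 1) hy (by simp [h]), mul_zero]

/-- locality -/
theorem Jf_loc (h : ∀ x, ∃ k, x ∉ tsupport (f k)) : Jf A f = 0 := by
  rw [Jf_eq_sum (S := ∅), Finset.sum_empty]
  intro i _
  refine setIntegral_eq_zero_of_forall_eq_zero fun y hy => ?_
  obtain ⟨k, hk⟩ := h ((A.e i).symm y)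
  rw [W_eq_zero hy hk, mul_zero]

/-- alternating -/
theorem Jf_alt (hf : ∀ k, f k ∈ A.F) {k l : Fin (m + 2)} (hkl : k ≠ l) (h : f k = f l) :
    Jf A f = 0 := by
  have key : ∀ a : Fin (m + 1), f 0 = f a.succ → Jf A f = 0 := by
    intro a ha
    classical
    set u : M → ℝ := f 0 with hu
    have hus : A.Sm u := (hf 0).1
    set f2 : Fin (m + 2) → M → ℝ :=
      Function.update (Function.update f 0 fun _ => 1) a.succ fun x => u x * u x with hf2
    have hf2F : ∀ j, f2 j ∈ A.F := by
      intro j
      by_cases hj : j = a.succ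
      · subst hj
        simp only [hf2, Function.update_self]
        exact A.F.mul_mem (hf 0) (hf 0)
      · simp only [hf2, Function.update_of_ne hj]
        by_cases hj0 : j = 0
        · subst hj0
          simp only [Function.update_self]
          exact A.F.one_mem
        · rw [Function.update_of_ne hj0]; exact hf j
    have h20 : f2 0 = fun _ => 1 := by
      simp only [hf2, Function.update_of_ne (Fin.succ_ne_zero a).symm, Function.update_self]
    have hz := Jf_one hf2F h20
    have hW : ∀ i, ∀ y ∈ (A.e i).target, W (A.e i) f2 y = 2 * W (A.e i) f y := by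
      intro i y hy
      unfold W
      rw [h20, one_mul]
      have e1 : (fun b : Fin (m + 1) => f2 b.succ) =
          Function.update (fun b => f b.succ) a fun x => u x * u x := by
        funext b
        by_cases hb : b = a
        · subst hb; simp [hf2]
        · rw [Function.update_of_ne hb]
          simp only [hf2]
          rw [Function.update_of_ne fun h => hb (Fin.succ_injective _ h),
            Function.update_of_ne (Fin.succ_ne_zero b)]
      have e2 : Matrix.detRowAlternating (Function.update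
          (fun b => der (A.e i) ((fun b : Fin (m + 1) => f b.succ) b) y) a (der (A.e i) u y)) =
          Dt (A.e i) (fun b : Fin (m + 1) => f b.succ) y := by
        rw [← Dt_update]
        congr 1
        funext b
        by_cases hb : b = a
        · subst hb; rw [Function.update_self]; exact ha
        · rw [Function.update_of_ne hb]
      rw [e1, Dt_update, der_mul (hus i) (hus i) hy, AlternatingMap.map_update_add,
        AlternatingMap.map_update_smul, e2, smul_eq_mul]
      ring
    have h2 : Jf A f2 = 2 * Jf A f := by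
      obtain ⟨S1, h1⟩ := exists_finset (A := A) (hf2F 1)
      obtain ⟨S2, h2⟩ := exists_finset (A := A) (hf 1)
      rw [Jf_eq_sum (S := S1 ∪ S2) fun i hi => h1 i fun h => hi (by simp [h]),
        Jf_eq_sum (S := S1 ∪ S2) fun i hi => h2 i fun h => hi (by simp [h]), Finset.mul_sum]
      refine Finset.sum_congr rfl fun i _ => ?_
      unfold Jt
      rw [← integral_const_mul]
      refine setIntegral_congr_fun (A.e i).open_target.measurableSet fun y hy => ?_
      rw [hW i y hy]
      ring
    rw [hz] at h2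
    linarith
  rcases Fin.eq_zero_or_eq_succ k with rfl | ⟨a, rfl⟩
  · rcases Fin.eq_zero_or_eq_succ l with rfl | ⟨b, rfl⟩
    · exact absurd rfl hkl
    · exact key b h
  · rcases Fin.eq_zero_or_eq_succ l with rfl | ⟨b, rfl⟩
    · exact key a h.symm
    · rw [Jf_eq_sum (S := ∅), Finset.sum_empty]
      intro i _
      refine setIntegral_eq_zero_of_forall_eq_zero fun y hy => ?_
      rw [W_alt (a := a) (b := b) (fun hab => hkl (by rw [hab])) h, mul_zero]

/-- **chart formula**: if the common support of the functions is contained in a compact subset of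
the domain of a compatible chart, the integral can be computed in this chart -/
theorem Jf_chart {e' : Ch (m + 1) M} (he : A.Ok e') (hf : ∀ k, f k ∈ A.F) {K : Set M}
    (hK : IsCompact K) (hKs : K ⊆ e'.source) (h0 : ∀ x ∉ K, ∃ k, x ∉ tsupport (f k)) :
    Jf A f = ∫ y in e'.target, W e' f y := by
  classical
  set S : Finset A.ι := (A.lf K hK).toFinset with hS
  have hSmem : ∀ i, i ∉ S → ¬ (tsupport (A.θ i) ∩ K).Nonempty := fun i hi => by
    simpa [hS] using hi
  have hΘ : ∀ x ∈ K, ∑ i ∈ S, A.θ i x = 1 := by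
    intro x hx
    rw [← A.sum x]
    refine (finsum_eq_sum_of_support_subset _ fun i hi => ?_).symm
    by_contra h
    exact hSmem i h ⟨x, subset_tsupport _ hi, hx⟩
  have hfs : ∀ k, SmO e' (f k) := fun k => (hf k).1.smO he
  have h1 : ∀ i, Jt A f i = ∫ y in e'.target, A.θ i (e'.symm y) * W e' f y := by
    intro i
    have e1 : Jt A f i = I (A.e i) (fun x => A.θ i x * f 0 x) (fun a => f a.succ) := by
      unfold Jt I W
      simp only [mul_assoc]
    have e2 : ∫ y in e'.target, A.θ i (e'.symm y) * W e' f y =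
        I e' (fun x => A.θ i x * f 0 x) (fun a => f a.succ) := by
      unfold I W
      simp only [mul_assoc]
    rw [e1, e2]
    refine I_cv (he i).1 (fun a => hfs a.succ) fun x hx ht _ => ⟨?_, hKs ?_⟩
    · exact A.θ_sub i (subset_tsupport _ (left_ne_zero_of_mul hx))
    · by_contra hc
      obtain ⟨k, hk⟩ := h0 x hc
      revert hk
      refine Fin.cases (fun hk => ?_) (fun a hk => hk (ht a)) k
      exact hk (subset_tsupport _ (right_ne_zero_of_mul hx))
  have hW0 : ∀ y ∈ e'.target, e'.symm y ∉ K → W e' f y = 0 := by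
    intro y hy hx
    obtain ⟨k, hk⟩ := h0 _ hx
    exact W_eq_zero hy hk
  rw [Jf_eq_sum (S := S), Finset.sum_congr rfl fun i _ => h1 i, ← integral_finsetSum]
  · refine setIntegral_congr_fun e'.open_target.measurableSet fun y hy => ?_
    rw [← Finset.sum_mul]
    by_cases hx : e'.symm y ∈ K
    · rw [hΘ _ hx, one_mul]
    · rw [hW0 y hy hx, mul_zero]
  · intro i _
    refine intOn (K := K) ?_ hK hKs fun y hy hx => by rw [hW0 y hy hx, mul_zero]
    exact (ContDiffOn.continuousOn ((sm_θ i).smO he)).mul (continuousOn_W hfs)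
  · intro i hi
    rw [h1]
    refine setIntegral_eq_zero_of_forall_eq_zero fun y hy => ?_
    by_cases hx : e'.symm y ∈ K
    · have : e'.symm y ∉ tsupport (A.θ i) := fun h => hSmem i hi ⟨_, h, hx⟩
      rw [image_eq_zero_of_notMem_tsupport this, zero_mul]
    · rw [hW0 y hy hx, mul_zero]



variable (A) in
/-- the alternating form `J(f0,...,fn) = ∫ f0 df1 ... dfn` on `A.F` -/
def J : A.F [⋀^Fin (m + 2)]→ₗ[ℝ] ℝ where
  toFun v := Jf A (fun k => (v k : M → ℝ))
  map_update_add' := by
    intro inst v k x y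
    obtain rfl : inst = instDecidableEqFin (m + 2) := Subsingleton.elim _ _
    have h : ∀ z : A.F, (fun l => (Function.update v k z l : M → ℝ)) =
        Function.update (fun l => (v l : M → ℝ)) k (z : M → ℝ) := by
      intro z
      funext l
      by_cases hl : l = k
      · subst hl; simp
      · simp [Function.update_of_ne hl]
    rw [h, h, h]
    exact Jf_update_add (fun l => (v l).2) k x.2 y.2
  map_update_smul' := by
    intro inst v k c x
    obtain rfl : inst = instDecidableEqFin (m + 2) := Subsingleton.elim _ _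
    have h : ∀ z : A.F, (fun l => (Function.update v k z l : M → ℝ)) =
        Function.update (fun l => (v l : M → ℝ)) k (z : M → ℝ) := by
      intro z
      funext l
      by_cases hl : l = k
      · subst hl; simp
      · simp [Function.update_of_ne hl]
    rw [h, h]
    exact Jf_update_smul (fun l => (v l).2) k x.2 c
  map_eq_zero_of_eq' v k l hkl hne := Jf_alt (fun k => (v k).2) hne (by rw [hkl])


theorem J_one {v : Fin (m + 2) → A.F} {k : Fin (m + 2)} (h : v k = 1) : A.J v = 0 :=
  Jf_zero_of_const (fun k => (v k).2) (k := k) (by rw [h]; rfl)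

theorem J_loc {v : Fin (m + 2) → A.F} (h : ∀ x, ∃ k, x ∉ tsupport (v k : M → ℝ)) : A.J v = 0 :=
  Jf_loc h

theorem J_chart {e' : Ch (m + 1) M} (he : A.Ok e') {v : Fin (m + 2) → A.F} {K : Set M}
    (hK : IsCompact K) (hKs : K ⊆ e'.source) (h0 : ∀ x ∉ K, ∃ k, x ∉ tsupport (v k : M → ℝ)) :
    A.J v = ∫ y in e'.target, W e' (fun k => (v k : M → ℝ)) y :=
  Jf_chart he (fun k => (v k).2) hK hKs h0

end J

end OA

end

end Crest.Agent.R275.OAJ627
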