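/-
R275 (S0418), block K (topology): Alexander-Spanier cochains as functions on lists of points, with
coefficients in an additive group and SIGNS (the signed version of R224/T/LC.lean).

* `dl c` coboundary; `pr f g c` prism operator; `cup p c d` cup product (`c` of degree `p`).
-/
import Mathlib.Algebra.BigOperators.Fin
import Mathlib.Data.List.OfFn
import Mathlib.Data.List.Sublists
import Mathlib.Algebra.Ring.Basic
import Mathlib.Tactic.LinearCombination
import Mathlib.Tactic.Abel
import Mathlib.Tactic.Ring
import Mathlib.Tactic.NoncommRing
import Mathlib.Algebra.Module.Basic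

set_option autoImplicit false

namespace Crest.Agent.R275.ASZ627

variable {X Y W : Type*} {A : Type*} [AddCommGroup A]

/-- coboundary (augmented, signed) -/
def dl : (List X → A) → List X → A
  | _, [] => 0
  | c, x :: l => c l - dl (fun m => c (x :: m)) l

/-- prism operator: alternating sum of `c (f x₀, …, f xⱼ, g xⱼ, …, g x_q)` -/
def pr (f g : X → Y) : (List Y → A) → List X → A
  | _, [] => 0
  | c, x :: l => c (f x :: g x :: l.map g) - pr f g (fun m => c (f x :: m)) l

@[simp] theorem dl_nil (c : List X → A) : dl c [] = 0 := by simp [dl]

@[simp] theorem dl_cons (c : List X → A) (x : X) (l : List X) :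
    dl c (x :: l) = c l - dl (fun m => c (x :: m)) l := by simp [dl]

@[simp] theorem pr_nil (f g : X → Y) (c : List Y → A) : pr f g c [] = 0 := by simp [pr]

@[simp] theorem pr_cons (f g : X → Y) (c : List Y → A) (x : X) (l : List X) :
    pr f g c (x :: l) = c (f x :: g x :: l.map g) - pr f g (fun m => c (f x :: m)) l := by
  simp [pr]

theorem dl_add (c d : List X → A) (l : List X) :
    dl (fun m => c m + d m) l = dl c l + dl d l := by
  induction l generalizing c d with
  | nil => simp
  | cons x l ih =>
    simp only [dl_cons]
    rw [ih (fun m => c (x :: m)) (fun m => d (x :: m))]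
    abel

theorem dl_neg (c : List X → A) (l : List X) : dl (fun m => -c m) l = -dl c l := by
  induction l generalizing c with
  | nil => simp
  | cons x l ih =>
    simp only [dl_cons]
    rw [ih (fun m => c (x :: m))]
    abel

theorem dl_sub (c d : List X → A) (l : List X) :
    dl (fun m => c m - d m) l = dl c l - dl d l := by
  have := dl_add c (fun m => -d m) l
  rw [dl_neg] at this
  simpa [sub_eq_add_neg] using this

theorem dl_zero (l : List X) : dl (fun _ => (0 : A)) l = 0 := by
  induction l with
  | nil => simp
  | cons x l ih => simp only [dl_cons]; rw [ih]; simp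

theorem dl_map_hom {B : Type*} [AddCommGroup B] (φ : A →+ B) (c : List X → A) (l : List X) :
    dl (fun m => φ (c m)) l = φ (dl c l) := by
  induction l generalizing c with
  | nil => simp
  | cons x l ih => simp only [dl_cons, map_sub, ih (fun m => c (x :: m))]

theorem dl_sum {ι : Type*} (s : Finset ι) (c : ι → List X → A) (l : List X) :
    dl (fun m => ∑ k ∈ s, c k m) l = ∑ k ∈ s, dl (c k) l := by
  classical
  induction s using Finset.induction_on with
  | empty => simp [dl_zero]
  | insert a s ha ih =>
    rw [Finset.sum_insert ha, ← ih, ← dl_add]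
    congr 1
    funext m
    rw [Finset.sum_insert ha]

theorem dl_zsmul (n : ℤ) (c : List X → A) (l : List X) :
    dl (fun m => n • c m) l = n • dl c l :=
  dl_map_hom (zsmulAddGroupHom n) c l

theorem pr_add (f g : X → Y) (c d : List Y → A) (l : List X) :
    pr f g (fun m => c m + d m) l = pr f g c l + pr f g d l := by
  induction l generalizing c d with
  | nil => simp
  | cons x l ih =>
    simp only [pr_cons]
    rw [ih (fun m => c (f x :: m)) (fun m => d (f x :: m))]
    abel

theorem pr_neg (f g : X → Y) (c : List Y → A) (l : List X) :
    pr f g (fun m => -c m) l = -pr f g c l := by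
  induction l generalizing c with
  | nil => simp
  | cons x l ih =>
    simp only [pr_cons]
    rw [ih (fun m => c (f x :: m))]
    abel

theorem pr_sub (f g : X → Y) (c d : List Y → A) (l : List X) :
    pr f g (fun m => c m - d m) l = pr f g c l - pr f g d l := by
  have := pr_add f g c (fun m => -d m) l
  rw [pr_neg] at this
  simpa [sub_eq_add_neg] using this

theorem pr_zero (f g : X → Y) (l : List X) : pr f g (fun _ => (0 : A)) l = 0 := by
  induction l with
  | nil => simp
  | cons x l ih => simp only [pr_cons]; rw [ih]; simp

/-- the value of `dl c` on `l` only depends on the values of `c` on sublists of length one less -/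
theorem dl_congr {c d : List X → A} {l : List X}
    (h : ∀ m, m.Sublist l → m.length + 1 = l.length → c m = d m) : dl c l = dl d l := by
  induction l generalizing c d with
  | nil => simp
  | cons x l ih =>
    simp only [dl_cons]
    rw [h l (List.sublist_cons_self x l) rfl, ih]
    intro m hm hl
    exact h _ (hm.cons_cons x) (by simp only [List.length_cons]; omega)

theorem dl_eq_zero {c : List X → A} {l : List X}
    (h : ∀ m, m.Sublist l → m.length + 1 = l.length → c m = 0) : dl c l = 0 := by
  rw [dl_congr (d := fun _ => 0) h, dl_zero]

/-- the value of `pr f g c` on `l` only depends on the values of `c` on the prism lists -/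
theorem pr_congr {f g : X → Y} {c d : List Y → A} {l : List X}
    (h : ∀ m, (∀ y ∈ m, ∃ x ∈ l, y = f x ∨ y = g x) → (∀ x ∈ l, f x ∈ m ∨ g x ∈ m) →
      m.length = l.length + 1 → c m = d m) : pr f g c l = pr f g d l := by
  induction l generalizing c d with
  | nil => simp
  | cons x l ih =>
    simp only [pr_cons]
    rw [h, ih]
    · intro m h1 h2 h3
      apply h
      · intro y hy
        rcases List.mem_cons.1 hy with rfl | hy
        · exact ⟨x, by simp, Or.inl rfl⟩
        · obtain ⟨z, hz, hz'⟩ := h1 y hy
          exact ⟨z, by simp [hz], hz'⟩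
      · intro z hz
        rcases List.mem_cons.1 hz with rfl | hz
        · exact Or.inl (by simp)
        · rcases h2 z hz with h | h
          · exact Or.inl (by simp [h])
          · exact Or.inr (by simp [h])
      · simp [h3]
    · intro y hy
      simp only [List.mem_cons, List.mem_map] at hy
      rcases hy with rfl | rfl | ⟨z, hz, rfl⟩
      · exact ⟨x, by simp, Or.inl rfl⟩
      · exact ⟨x, by simp, Or.inr rfl⟩
      · exact ⟨z, by simp [hz], Or.inr rfl⟩
    · intro z hz
      rcases List.mem_cons.1 hz with rfl | hz
      · exact Or.inl (by simp)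
      · exact Or.inr (by simp only [List.mem_cons, List.mem_map]; exact Or.inr (Or.inr ⟨z, hz, rfl⟩))
    · simp

theorem pr_eq_zero {f g : X → Y} {c : List Y → A} {l : List X}
    (h : ∀ m, (∀ y ∈ m, ∃ x ∈ l, y = f x ∨ y = g x) → (∀ x ∈ l, f x ∈ m ∨ g x ∈ m) →
      m.length = l.length + 1 → c m = 0) : pr f g c l = 0 := by
  rw [pr_congr (d := fun _ => 0) h, pr_zero]

/-- pull-back commutes with the coboundary -/
theorem dl_map (g : X → Y) (c : List Y → A) (l : List X) :
    dl (fun m => c (m.map g)) l = dl c (l.map g) := by
  induction l generalizing c with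
  | nil => simp
  | cons x l ih =>
    simp only [dl_cons, List.map_cons]
    rw [← ih]



/-- `δδ = 0` -/
theorem dl_dl (c : List X → A) (l : List X) : dl (dl c) l = 0 := by
  induction l generalizing c with
  | nil => simp
  | cons x l ih =>
    have e : (fun m => dl c (x :: m)) = fun m => c m - dl (fun m' => c (x :: m')) m := by
      funext m; simp
    rw [dl_cons, e, dl_sub, ih]
    simp

/-- the homotopy formula (holds identically) -/
theorem homotopy (f g : X → Y) (c : List Y → A) (l : List X) :
    dl (pr f g c) l + pr f g (dl c) l = c (l.map g) - c (l.map f) := by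
  induction l generalizing c with
  | nil => simp
  | cons x l ih =>
    have e1 : (fun m => pr f g c (x :: m)) =
        fun m => c (f x :: g x :: m.map g) - pr f g (fun m => c (f x :: m)) m := by
      funext m; simp
    have e2 : (fun m => dl c (f x :: m)) = fun m => c m - dl (fun m => c (f x :: m)) m := by
      funext m; simp
    rw [dl_cons, e1, dl_sub, pr_cons, e2, pr_sub]
    have e3 := ih (fun m => c (f x :: m))
    have e4 := dl_map g (fun m => c (f x :: g x :: m)) l
    beta_reduce at e3 e4
    rw [e4]
    simp only [dl_cons, List.map_cons]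
    have e5 : dl (pr f g fun m => c (f x :: m)) l =
        (c (f x :: l.map g) - c (f x :: l.map f)) - pr f g (dl fun m => c (f x :: m)) l := by
      rw [← e3]; abel
    rw [e5]
    abel

/-! ### the coboundary as an alternating sum -/

theorem dl_ofFn {n : ℕ} (c : List X → A) (v : Fin (n + 1) → X) :
    dl c (List.ofFn v) =
      ∑ k : Fin (n + 1), (-1 : ℤ) ^ (k : ℕ) • c (List.ofFn fun i => v (k.succAbove i)) := by
  induction n generalizing c with
  | zero => simp
  | succ n ih =>
    rw [List.ofFn_succ, dl_cons, ih]
    conv_rhs => rw [Fin.sum_univ_succ]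
    rw [sub_eq_add_neg, ← Finset.sum_neg_distrib]
    simp only [Fin.val_zero, pow_zero, one_smul, Fin.zero_succAbove]
    congr 1
    refine Finset.sum_congr rfl fun k _ => ?_
    rw [Fin.val_succ, pow_succ, mul_neg_one, neg_smul]
    congr 3
    rw [List.ofFn_succ]
    simp

/-! ### cup product -/

section cup

variable {R : Type*} [Ring R]

/-- cup product of a `p`-cochain and a cochain -/
def cup (p : ℕ) (c d : List X → R) : List X → R := fun l => c (l.take (p + 1)) * d (l.drop p)


theorem dl_mul_left (a : R) (c : List X → R) (l : List X) :
    dl (fun m => a * c m) l = a * dl c l :=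
  dl_map_hom (AddMonoidHom.mulLeft a) c l


/-- Leibniz rule, on lists of length at least `p + 2`, degree `p = 0` -/
theorem dl_cup_zero (c d : List X → R) (x y : X) (l : List X) :
    dl (cup 0 c d) (x :: y :: l) =
      cup 1 (dl c) d (x :: y :: l) + cup 0 c (dl d) (x :: y :: l) := by
  have e1 : (fun m => cup 0 c d (x :: m)) = fun m => c [x] * d (x :: m) := by
    funext m; simp [cup]
  rw [dl_cons, e1, dl_mul_left]
  simp only [cup, List.take_succ_cons, List.drop_zero, List.take_zero, dl_cons, dl_nil,
    List.drop_succ_cons, sub_zero]
  noncomm_ring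

/-- **Leibniz rule** -/
theorem dl_cup (p : ℕ) (c d : List X → R) (l : List X) (hl : p + 2 ≤ l.length) :
    dl (cup p c d) l = cup (p + 1) (dl c) d l + (-1) ^ p * cup p c (dl d) l := by
  induction p generalizing c l with
  | zero =>
    match l, hl with
    | x :: y :: l, _ =>
      rw [dl_cup_zero]; simp
  | succ p ih =>
    match l, hl with
    | x :: l, hl =>
      have hl' : p + 2 ≤ l.length := by simp at hl; omega
      have e1 : (fun m => cup (p + 1) c d (x :: m)) = cup p (fun m => c (x :: m)) d := by
        funext m; simp [cup]
      rw [dl_cons, e1, ih _ _ hl']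
      have e2 : cup (p + 1 + 1) (dl c) d (x :: l) =
          cup (p + 1) c d l - cup (p + 1) (dl fun m => c (x :: m)) d l := by
        simp only [cup, List.take_succ_cons, List.drop_succ_cons, dl_cons]
        rw [sub_mul]
      have e3 : cup (p + 1) c (dl d) (x :: l) = cup p (fun m => c (x :: m)) (dl d) l := by
        simp only [cup, List.take_succ_cons, List.drop_succ_cons]
      rw [e2, e3, pow_succ]
      noncomm_ring

end cup

end Crest.Agent.R275.ASZ627
private theorem rz_d3e67c5d76 : type_of% @_root_.Crest.Agent.R275.ASZ627.dl.eq_def := @_root_.Crest.Agent.R275.ASZ627.dl.eq_def -- L24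
private theorem rz_0c94ca1500 : type_of% @_root_.Crest.Agent.R275.ASZ627.dl.eq_1 := @_root_.Crest.Agent.R275.ASZ627.dl.eq_1 -- L24
private theorem rz_1bfb1a8e08 : type_of% @_root_.Crest.Agent.R275.ASZ627.pr.eq_def := @_root_.Crest.Agent.R275.ASZ627.pr.eq_def -- L29
private theorem rz_fcf255a8f8 : type_of% @_root_.Crest.Agent.R275.ASZ627.pr.eq_1 := @_root_.Crest.Agent.R275.ASZ627.pr.eq_1 -- L29
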