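import Mathlib
import Crest.Prelude.Def_ComplexSurface
import Crest.Agent.R275.ASN_627
import Crest.Agent.R275.Zig2_470
import Crest.Agent.R275.GC2_293

-- ▼ part R275/PDL0_412
section

set_option autoImplicit false

noncomputable section

open Set Topology Filter

namespace Crest.Agent.R275.PD412

variable {X Y Z : Type*}

/-- coboundary (augmented: `dl φ [v] = φ []`) -/
def dl {X : Type*} (φ : List X → ℤ) : List X → ℤ
  | [] => 0
  | v :: l => φ l - dl (fun l' => φ (v :: l')) l

@[simp] theorem dl_nil (φ : List X → ℤ) : dl φ [] = 0 := rfl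

@[simp] theorem dl_cons (φ : List X → ℤ) (v : X) (l : List X) :
    dl φ (v :: l) = φ l - dl (fun l' => φ (v :: l')) l := rfl

theorem dl_single (φ : List X → ℤ) (v : X) : dl φ [v] = φ [] := by simp

theorem dl_pair (φ : List X → ℤ) (v w : X) : dl φ [v, w] = φ [w] - φ [v] := by simp


theorem dl_zero (l : List X) : dl (fun _ => 0) l = 0 := by
  induction l with
  | nil => rfl
  | cons v l ih => simp [ih]

theorem dl_add (φ ψ : List X → ℤ) (l : List X) :
    dl (fun l' => φ l' + ψ l') l = dl φ l + dl ψ l := by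
  induction l generalizing φ ψ with
  | nil => simp
  | cons v l ih => simp only [dl_cons, ih]; ring

theorem dl_neg (φ : List X → ℤ) (l : List X) :
    dl (fun l' => - φ l') l = - dl φ l := by
  induction l generalizing φ with
  | nil => simp
  | cons v l ih => simp only [dl_cons, ih]; ring

theorem dl_sub (φ ψ : List X → ℤ) (l : List X) :
    dl (fun l' => φ l' - ψ l') l = dl φ l - dl ψ l := by
  induction l generalizing φ ψ with
  | nil => simp
  | cons v l ih => simp only [dl_cons, ih]; ring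

theorem dl_mul (k : ℤ) (φ : List X → ℤ) (l : List X) :
    dl (fun l' => k * φ l') l = k * dl φ l := by
  induction l generalizing φ with
  | nil => simp
  | cons v l ih => simp only [dl_cons, ih]; ring

theorem dl_sum {ι : Type*} (s : Finset ι) (φ : ι → List X → ℤ) (l : List X) :
    dl (fun l' => ∑ i ∈ s, φ i l') l = ∑ i ∈ s, dl (φ i) l := by
  classical
  induction s using Finset.induction_on with
  | empty => simp [dl_zero]
  | insert a s ha ih => simp only [Finset.sum_insert ha, dl_add, ih]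

/-- the coboundary only looks at the faces -/
theorem dl_congr {φ ψ : List X → ℤ} {l : List X}
    (h : ∀ l' : List X, l'.Sublist l → l'.length + 1 = l.length → φ l' = ψ l') :
    dl φ l = dl ψ l := by
  induction l generalizing φ ψ with
  | nil => rfl
  | cons v l ih =>
    rw [dl_cons, dl_cons, h l (List.sublist_cons_self v l) (by simp)]
    congr 1
    exact ih fun l' h1 h2 => h (v :: l') (h1.cons_cons v) (by simpa using h2)

theorem dl_eq_zero {φ : List X → ℤ} {l : List X}
    (h : ∀ l' : List X, l'.Sublist l → l'.length + 1 = l.length → φ l' = 0) : dl φ l = 0 := by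
  rw [dl_congr h (ψ := fun _ => 0), dl_zero]

theorem dl_dl (φ : List X → ℤ) (l : List X) : dl (dl φ) l = 0 := by
  induction l generalizing φ with
  | nil => rfl
  | cons v l ih =>
    rw [dl_cons]
    have : dl (fun l' => dl φ (v :: l')) l = dl φ l - dl (dl fun l' => φ (v :: l')) l := by
      simp only [dl_cons]
      rw [dl_sub]
    rw [this, ih, sub_zero, sub_self]

/-- naturality -/
theorem dl_map (f : X → Y) (φ : List Y → ℤ) (l : List X) :
    dl (fun l' => φ (l'.map f)) l = dl φ (l.map f) := by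
  induction l generalizing φ with
  | nil => rfl
  | cons v l ih =>
    simp only [dl_cons, List.map_cons]
    rw [ih (fun l' => φ (f v :: l'))]

/-! ### prism operator -/

/-- prism operator between two maps -/
def pr (f g : X → Y) (φ : List Y → ℤ) : List X → ℤ
  | [] => 0
  | v :: l => φ (f v :: g v :: l.map g) - pr f g (fun l' => φ (f v :: l')) l

@[simp] theorem pr_nil (f g : X → Y) (φ : List Y → ℤ) : pr f g φ [] = 0 := rfl

@[simp] theorem pr_cons (f g : X → Y) (φ : List Y → ℤ) (v : X) (l : List X) :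
    pr f g φ (v :: l) = φ (f v :: g v :: l.map g) - pr f g (fun l' => φ (f v :: l')) l := rfl

theorem pr_sub (f g : X → Y) (φ ψ : List Y → ℤ) (l : List X) :
    pr f g (fun l' => φ l' - ψ l') l = pr f g φ l - pr f g ψ l := by
  induction l generalizing φ ψ with
  | nil => simp
  | cons v l ih => simp only [pr_cons, ih]; ring


theorem pr_zero (f g : X → Y) (l : List X) : pr f g (fun _ => 0) l = 0 := by
  induction l with
  | nil => rfl
  | cons v l ih => simp [ih]

/-- the lists on which the prism operator evaluates: `f v₀ … f vᵢ, g vᵢ … g vₙ` -/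
theorem pr_congr {f g : X → Y} {φ ψ : List Y → ℤ} {l : List X}
    (h : ∀ l₁ l₂ : List X, ∀ v : X, l = l₁ ++ v :: l₂ →
      φ (l₁.map f ++ f v :: g v :: l₂.map g) = ψ (l₁.map f ++ f v :: g v :: l₂.map g)) :
    pr f g φ l = pr f g ψ l := by
  induction l generalizing φ ψ with
  | nil => rfl
  | cons v l ih =>
    rw [pr_cons, pr_cons]
    have h0 := h [] l v rfl
    simp only [List.map_nil, List.nil_append] at h0
    rw [h0]
    congr 1
    refine ih fun l₁ l₂ w hw => ?_
    have := h (v :: l₁) l₂ w (by rw [hw]; rfl)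
    simpa using this

/-- mixed lists: `l'` has one element more than `l` and consists of values of `f`, `g` on `l` -/
theorem pr_eq_zero {f g : X → Y} {φ : List Y → ℤ} {l : List X}
    (h : ∀ l' : List Y, l'.length = l.length + 1 → (∀ z ∈ l', ∃ y ∈ l, z = f y ∨ z = g y) →
      φ l' = 0) :
    pr f g φ l = 0 := by
  rw [pr_congr (ψ := fun _ => 0), pr_zero]
  intro l₁ l₂ v hl
  apply h
  · subst hl; simp; omega
  · subst hl
    intro z hz
    simp only [List.mem_append, List.mem_cons, List.mem_map] at hz ⊢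
    rcases hz with ⟨a, ha, rfl⟩ | rfl | rfl | ⟨a, ha, rfl⟩
    · exact ⟨a, Or.inl ha, Or.inl rfl⟩
    · exact ⟨v, Or.inr (Or.inl rfl), Or.inl rfl⟩
    · exact ⟨v, Or.inr (Or.inl rfl), Or.inr rfl⟩
    · exact ⟨a, Or.inr (Or.inr ha), Or.inr rfl⟩

/-- congruence in the maps -/
theorem pr_congr_map {f g f' g' : X → Y} (φ : List Y → ℤ) {l : List X}
    (hf : ∀ y ∈ l, f y = f' y) (hg : ∀ y ∈ l, g y = g' y) :
    pr f g φ l = pr f' g' φ l := by
  induction l generalizing φ with
  | nil => rfl
  | cons v l ih =>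
    rw [pr_cons, pr_cons, ih _ (fun y hy => hf y (List.mem_cons_of_mem _ hy))
      (fun y hy => hg y (List.mem_cons_of_mem _ hy)), hf v List.mem_cons_self,
      hg v List.mem_cons_self,
      List.map_congr_left (fun y hy => hg y (List.mem_cons_of_mem _ hy))]

theorem pr_map {p : Z → X} (f g : X → Y) (φ : List Y → ℤ) (l : List Z) :
    pr f g φ (l.map p) = pr (f ∘ p) (g ∘ p) φ l := by
  induction l generalizing φ with
  | nil => rfl
  | cons v l ih =>
    rw [List.map_cons, pr_cons, pr_cons, ih, List.map_map]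
    rfl

/-- the prism identity -/
theorem dl_pr (f g : X → Y) (φ : List Y → ℤ) (l : List X) :
    dl (pr f g φ) l + pr f g (dl φ) l = φ (l.map g) - φ (l.map f) := by
  induction l generalizing φ with
  | nil => simp
  | cons v l ih =>
    have h1 : dl (fun l' => pr f g φ (v :: l')) l
        = dl (fun l' => φ (f v :: g v :: l'.map g)) l
          - dl (pr f g fun l' => φ (f v :: l')) l := by
      simp only [pr_cons]
      rw [dl_sub]
    have h2 : pr f g (fun l' => dl φ (f v :: l')) l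
        = pr f g φ l - pr f g (dl fun l' => φ (f v :: l')) l := by
      simp only [dl_cons]
      rw [pr_sub]
    have h3 : dl (fun l' => φ (f v :: g v :: l'.map g)) l
        = dl (fun l' => φ (f v :: g v :: l')) (l.map g) :=
      dl_map g (fun l' => φ (f v :: g v :: l')) l
    have ih' := ih (fun l' => φ (f v :: l'))
    rw [dl_cons, pr_cons, h1, h2, h3]
    simp only [dl_cons, List.map_cons]
    linarith

/-! ### cup product -/

/-- cup product of a `p`-cochain (`p + 1` points) with a cochain -/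
def cup (p : ℕ) (φ ψ : List X → ℤ) (l : List X) : ℤ := φ (l.take (p + 1)) * ψ (l.drop p)

theorem cup_succ (p : ℕ) (φ ψ : List X → ℤ) (v : X) (l : List X) :
    cup (p + 1) φ ψ (v :: l) = cup p (fun m => φ (v :: m)) ψ l := rfl

theorem cup_zero_cons (φ ψ : List X → ℤ) (v : X) (l : List X) :
    cup 0 φ ψ (v :: l) = φ [v] * ψ (v :: l) := by simp [cup]

theorem cup_sub_left (p : ℕ) (φ φ' ψ : List X → ℤ) (l : List X) :
    cup p (fun m => φ m - φ' m) ψ l = cup p φ ψ l - cup p φ' ψ l := by simp [cup, sub_mul]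


/-- Leibniz rule -/
theorem dl_cup (p : ℕ) (φ ψ : List X → ℤ) (l : List X) (hl : p + 2 ≤ l.length) :
    dl (cup p φ ψ) l = cup (p + 1) (dl φ) ψ l + (-1) ^ p * cup p φ (dl ψ) l := by
  induction p generalizing φ l with
  | zero =>
    match l, hl with
    | v :: w :: l, _ =>
      have h1 : (fun l' => cup 0 φ ψ (v :: l')) = fun l' => φ [v] * ψ (v :: l') := by
        funext l'; exact cup_zero_cons φ ψ v l'
      rw [dl_cons, h1, dl_mul, cup_succ, cup_zero_cons, cup_zero_cons, cup_zero_cons]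
      simp only [dl_cons, dl_nil]
      ring
  | succ p ih =>
    match l, hl with
    | v :: l, hl =>
      have hl' : p + 2 ≤ l.length := by simpa using hl
      have h1 : (fun l' => cup (p + 1) φ ψ (v :: l')) = cup p (fun m => φ (v :: m)) ψ := by
        funext l'; exact cup_succ p φ ψ v l'
      have h2 : (fun m => dl φ (v :: m)) = fun m => φ m - dl (fun m' => φ (v :: m')) m := rfl
      rw [dl_cons, h1, ih _ l hl', cup_succ, cup_succ, h2, cup_sub_left]
      ring

end Crest.Agent.R275.PD412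
end
end

-- ▼ part R275/PDL1_412
section

set_option autoImplicit false

noncomputable section

open Set Topology Filter

namespace Crest.Agent.R275.PD412

section germ

variable {X Y : Type*} [TopologicalSpace X] [TopologicalSpace Y]

/-- the filter of lists near `x` -/
def nl (x : X) : Filter (List X) := (𝓝 x).lift' fun V => {l : List X | ∀ y ∈ l, y ∈ V}

theorem ev_iff {x : X} {P : List X → Prop} :
    (∀ᶠ l in nl x, P l) ↔ ∃ V ∈ 𝓝 x, ∀ l : List X, (∀ y ∈ l, y ∈ V) → P l := by
  unfold nl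
  rw [Filter.Eventually, mem_lift'_sets]
  · rfl
  · intro V W h l hl y hy
    exact h (hl y hy)


theorem ev_mem {x : X} {V : Set X} (hV : V ∈ 𝓝 x) : ∀ᶠ l in nl x, ∀ y ∈ l, y ∈ V :=
  ev_iff.2 ⟨V, hV, fun _ h => h⟩

theorem ev_sub {x : X} {P : List X → Prop} (h : ∀ᶠ l in nl x, P l) :
    ∀ᶠ l in nl x, ∀ l' : List X, (∀ y ∈ l', y ∈ l) → P l' := by
  obtain ⟨V, hV, h⟩ := ev_iff.1 h
  exact ev_iff.2 ⟨V, hV, fun l hl l' hl' => h l' fun y hy => hl y (hl' y hy)⟩


theorem tendsto_map {f : X → Y} {x : X} (hf : ContinuousAt f x) :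
    Tendsto (List.map f) (nl x) (nl (f x)) := by
  intro S hS
  obtain ⟨V, hV, h⟩ := ev_iff.1 (show ∀ᶠ l in nl (f x), l ∈ S from hS)
  refine ev_iff.2 ⟨f ⁻¹' V, hf hV, fun l hl => ?_⟩
  apply h
  intro y hy
  obtain ⟨z, hz, rfl⟩ := List.mem_map.1 hy
  exact hl z hz

theorem ev_map {f : X → Y} {x : X} (hf : ContinuousAt f x) {P : List Y → Prop}
    (h : ∀ᶠ l in nl (f x), P l) : ∀ᶠ l in nl x, P (l.map f) := tendsto_map hf h

/-- `f = g` near the diagonal, on lists with `r` elements -/
def Eqn (r : ℕ) (f g : List X → ℤ) : Prop := ∀ x : X, ∀ᶠ l in nl x, l.length = r → f l = g l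

theorem Eqn.refl (r : ℕ) (f : List X → ℤ) : Eqn r f f := fun _ => Eventually.of_forall fun _ _ => rfl

theorem Eqn.of_forall {r : ℕ} {f g : List X → ℤ} (h : ∀ l : List X, l.length = r → f l = g l) :
    Eqn r f g := fun _ => Eventually.of_forall h

theorem Eqn.symm {r : ℕ} {f g : List X → ℤ} (h : Eqn r f g) : Eqn r g f := fun x =>
  (h x).mono fun _ hl h1 => (hl h1).symm

theorem Eqn.trans {r : ℕ} {f g k : List X → ℤ} (h : Eqn r f g) (h' : Eqn r g k) : Eqn r f k :=
  fun x => ((h x).and (h' x)).mono fun _ hl h1 => (hl.1 h1).trans (hl.2 h1)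

theorem Eqn.add {r : ℕ} {f g f' g' : List X → ℤ} (h : Eqn r f g) (h' : Eqn r f' g') :
    Eqn r (fun l => f l + f' l) (fun l => g l + g' l) :=
  fun x => ((h x).and (h' x)).mono fun l hl h1 => by simp only [hl.1 h1, hl.2 h1]

theorem Eqn.sub {r : ℕ} {f g f' g' : List X → ℤ} (h : Eqn r f g) (h' : Eqn r f' g') :
    Eqn r (fun l => f l - f' l) (fun l => g l - g' l) :=
  fun x => ((h x).and (h' x)).mono fun l hl h1 => by simp only [hl.1 h1, hl.2 h1]

theorem Eqn.mul_left {r : ℕ} {f g : List X → ℤ} (k : ℤ) (h : Eqn r f g) :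
    Eqn r (fun l => k * f l) (fun l => k * g l) :=
  fun x => (h x).mono fun l hl h1 => by simp only [hl h1]

theorem Eqn.neg {r : ℕ} {f g : List X → ℤ} (h : Eqn r f g) :
    Eqn r (fun l => - f l) (fun l => - g l) :=
  fun x => (h x).mono fun l hl h1 => by simp only [hl h1]

theorem ev_dl_congr {r : ℕ} {f g : List X → ℤ} {x : X}
    (h : ∀ᶠ l in nl x, l.length = r → f l = g l) :
    ∀ᶠ l in nl x, l.length = r + 1 → dl f l = dl g l := by
  filter_upwards [ev_sub h] with l hl h1
  exact dl_congr fun l' hs hlen => hl l' (fun y hy => hs.subset hy) (by omega)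

theorem Eqn.dl {r : ℕ} {f g : List X → ℤ} (h : Eqn r f g) : Eqn (r + 1) (dl f) (dl g) :=
  fun x => ev_dl_congr (h x)

theorem Eqn.comp {r : ℕ} {f g : List Y → ℤ} (h : Eqn r f g) {p : X → Y} (hp : Continuous p) :
    Eqn r (fun l => f (l.map p)) (fun l => g (l.map p)) := fun x => by
  filter_upwards [ev_map hp.continuousAt (h (p x))] with l hl h1
  exact hl (by simpa using h1)

/-! ### supports -/

/-- the `r`-point cochain `f` has compact support in `W` (unaugmented: `f [] = 0`) -/
def Sp (r : ℕ) (W : Set X) (f : List X → ℤ) : Prop :=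
  (r = 0 → f [] = 0) ∧ ∃ K : Set X, IsCompact K ∧ K ⊆ W ∧
    ∀ x ∉ K, ∀ᶠ l in nl x, l.length = r → f l = 0

/-- cocycles with compact support in `W` -/
def Zc (r : ℕ) (W : Set X) (f : List X → ℤ) : Prop := Sp r W f ∧ Eqn (r + 1) (dl f) fun _ => 0

/-- coboundaries of cochains with compact support in `W` -/
def Bc : ℕ → Set X → (List X → ℤ) → Prop
  | 0, _, f => f [] = 0
  | r + 1, W, f => ∃ g, Sp r W g ∧ Eqn (r + 1) f (dl g)

theorem Sp.mono {r : ℕ} {W W' : Set X} {f : List X → ℤ} (h : Sp r W f) (hW : W ⊆ W') :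
    Sp r W' f := by
  obtain ⟨h0, K, hK, hKW, h1⟩ := h
  exact ⟨h0, K, hK, hKW.trans hW, h1⟩

theorem Sp.zero (r : ℕ) (W : Set X) : Sp r W fun _ => 0 :=
  ⟨fun _ => rfl, ∅, isCompact_empty, empty_subset _, fun _ _ => Eventually.of_forall fun _ _ => rfl⟩

theorem Sp.op₂ {r : ℕ} {W : Set X} {f g : List X → ℤ} (hf : Sp r W f) (hg : Sp r W g)
    (op : ℤ → ℤ → ℤ) (hop : op 0 0 = 0) : Sp r W fun l => op (f l) (g l) := by
  obtain ⟨h0, K, hK, hKW, h1⟩ := hf
  obtain ⟨h0', K', hK', hKW', h1'⟩ := hg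
  refine ⟨fun h => by simp only [h0 h, h0' h, hop], K ∪ K', hK.union hK', union_subset hKW hKW',
    fun x hx => ?_⟩
  filter_upwards [h1 x fun h => hx (Or.inl h), h1' x fun h => hx (Or.inr h)] with l hl hl' hr
  simp only [hl hr, hl' hr, hop]

theorem Sp.add {r : ℕ} {W : Set X} {f g : List X → ℤ} (hf : Sp r W f) (hg : Sp r W g) :
    Sp r W fun l => f l + g l := hf.op₂ hg (· + ·) (by simp)

theorem Sp.sub {r : ℕ} {W : Set X} {f g : List X → ℤ} (hf : Sp r W f) (hg : Sp r W g) :
    Sp r W fun l => f l - g l := hf.op₂ hg (· - ·) (by simp)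

theorem Sp.mul_left {r : ℕ} {W : Set X} {f : List X → ℤ} (hf : Sp r W f) (k : ℤ) :
    Sp r W fun l => k * f l := hf.op₂ hf (fun a _ => k * a) (by simp)

theorem Sp.neg {r : ℕ} {W : Set X} {f : List X → ℤ} (hf : Sp r W f) :
    Sp r W fun l => - f l := hf.op₂ hf (fun a _ => - a) (by simp)

theorem Sp.sum {ι : Type*} {r : ℕ} {W : Set X} (s : Finset ι) {f : ι → List X → ℤ}
    (hf : ∀ i ∈ s, Sp r W (f i)) : Sp r W fun l => ∑ i ∈ s, f i l := by
  classical
  induction s using Finset.induction_on with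
  | empty => simpa using Sp.zero r W
  | insert a s ha ih =>
    have h := (hf a (Finset.mem_insert_self a s)).add
      (ih fun i hi => hf i (Finset.mem_insert_of_mem hi))
    simpa only [Finset.sum_insert ha] using h

theorem Sp.congr {r : ℕ} {W : Set X} {f g : List X → ℤ} (hf : Sp (r + 1) W f)
    (h : Eqn (r + 1) f g) : Sp (r + 1) W g := by
  obtain ⟨h0, K, hK, hKW, h1⟩ := hf
  refine ⟨fun h => absurd h (Nat.succ_ne_zero r), K, hK, hKW, fun x hx => ?_⟩
  filter_upwards [h1 x hx, h x] with l hl hl' hr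
  rw [← hl' hr, hl hr]

theorem ev_dl_zero {r : ℕ} {f : List X → ℤ} {x : X}
    (h : ∀ᶠ l in nl x, l.length = r → f l = 0) :
    ∀ᶠ l in nl x, l.length = r + 1 → dl f l = 0 := by
  filter_upwards [ev_sub h] with l hl h1
  exact dl_eq_zero fun l' hs hlen => hl l' (fun y hy => hs.subset hy) (by omega)

theorem Sp.dl {r : ℕ} {W : Set X} {f : List X → ℤ} (hf : Sp r W f) : Sp (r + 1) W (dl f) := by
  obtain ⟨h0, K, hK, hKW, h1⟩ := hf
  exact ⟨fun _ => rfl, K, hK, hKW, fun x hx => ev_dl_zero (h1 x hx)⟩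



theorem Eqn.cup {p s : ℕ} {f f' g g' : List X → ℤ} (hf : Eqn (p + 1) f f')
    (hg : Eqn (s + 1) g g') : Eqn (p + 1 + s) (cup p f g) (cup p f' g') := fun x => by
  filter_upwards [ev_sub (hf x), ev_sub (hg x)] with l hl hl' hr
  unfold PD412.cup
  rw [hl (l.take (p + 1)) (fun y hy => (List.take_sublist _ _).subset hy)
    (by rw [List.length_take]; omega), hl' (l.drop p) (fun y hy => (List.drop_sublist _ _).subset hy)
    (by rw [List.length_drop]; omega)]

/-! ### cocycles -/

theorem Zc.sp {r : ℕ} {W : Set X} {f : List X → ℤ} (h : Zc r W f) : Sp r W f := h.1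

theorem Zc.mono {r : ℕ} {W W' : Set X} {f : List X → ℤ} (h : Zc r W f) (hW : W ⊆ W') :
    Zc r W' f := ⟨h.1.mono hW, h.2⟩

theorem Zc.zero (r : ℕ) (W : Set X) : Zc r W fun _ => 0 :=
  ⟨Sp.zero r W, Eqn.of_forall fun l _ => dl_zero l⟩

theorem Zc.add {r : ℕ} {W : Set X} {f g : List X → ℤ} (hf : Zc r W f) (hg : Zc r W g) :
    Zc r W fun l => f l + g l :=
  ⟨hf.1.add hg.1, by simpa [funext (dl_add f g)] using hf.2.add hg.2⟩

theorem Zc.sub {r : ℕ} {W : Set X} {f g : List X → ℤ} (hf : Zc r W f) (hg : Zc r W g) :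
    Zc r W fun l => f l - g l :=
  ⟨hf.1.sub hg.1, by simpa [funext (dl_sub f g)] using hf.2.sub hg.2⟩

theorem Zc.mul_left {r : ℕ} {W : Set X} {f : List X → ℤ} (hf : Zc r W f) (k : ℤ) :
    Zc r W fun l => k * f l :=
  ⟨hf.1.mul_left k, by simpa [funext (dl_mul k f)] using hf.2.mul_left k⟩

theorem Zc.neg {r : ℕ} {W : Set X} {f : List X → ℤ} (hf : Zc r W f) :
    Zc r W fun l => - f l :=
  ⟨hf.1.neg, by simpa [funext (dl_neg f)] using hf.2.neg⟩

theorem Zc.congr {r : ℕ} {W : Set X} {f g : List X → ℤ} (hf : Zc (r + 1) W f)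
    (h : Eqn (r + 1) f g) : Zc (r + 1) W g :=
  ⟨hf.1.congr h, h.dl.symm.trans hf.2⟩

theorem Zc.of_dl {r : ℕ} {W : Set X} {f : List X → ℤ} (hf : Sp r W f) : Zc (r + 1) W (dl f) :=
  ⟨hf.dl, Eqn.of_forall fun l _ => dl_dl f l⟩

/-! ### coboundaries -/

theorem Bc.mono {r : ℕ} {W W' : Set X} {f : List X → ℤ} (h : Bc r W f) (hW : W ⊆ W') :
    Bc r W' f := by
  cases r with
  | zero => exact h
  | succ r =>
    obtain ⟨g, hg, h⟩ := h
    exact ⟨g, hg.mono hW, h⟩

theorem Bc.zero (r : ℕ) (W : Set X) : Bc r W fun _ => 0 := by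
  cases r with
  | zero => rfl
  | succ r => exact ⟨fun _ => 0, Sp.zero r W, Eqn.of_forall fun l _ => (dl_zero l).symm⟩

theorem Bc.add {r : ℕ} {W : Set X} {f g : List X → ℤ} (hf : Bc r W f) (hg : Bc r W g) :
    Bc r W fun l => f l + g l := by
  cases r with
  | zero =>
    change f [] = 0 at hf
    change g [] = 0 at hg
    change f [] + g [] = 0
    rw [hf, hg, add_zero]
  | succ r =>
    obtain ⟨a, ha, h⟩ := hf
    obtain ⟨b, hb, h'⟩ := hg
    exact ⟨_, ha.add hb, by simpa [funext (dl_add a b)] using h.add h'⟩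

theorem Bc.sub {r : ℕ} {W : Set X} {f g : List X → ℤ} (hf : Bc r W f) (hg : Bc r W g) :
    Bc r W fun l => f l - g l := by
  cases r with
  | zero =>
    change f [] = 0 at hf
    change g [] = 0 at hg
    change f [] - g [] = 0
    rw [hf, hg, sub_zero]
  | succ r =>
    obtain ⟨a, ha, h⟩ := hf
    obtain ⟨b, hb, h'⟩ := hg
    exact ⟨_, ha.sub hb, by simpa [funext (dl_sub a b)] using h.sub h'⟩

theorem Bc.mul_left {r : ℕ} {W : Set X} {f : List X → ℤ} (hf : Bc r W f) (k : ℤ) :
    Bc r W fun l => k * f l := by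
  cases r with
  | zero =>
    change f [] = 0 at hf
    change k * f [] = 0
    rw [hf, mul_zero]
  | succ r =>
    obtain ⟨a, ha, h⟩ := hf
    exact ⟨_, ha.mul_left k, by simpa [funext (dl_mul k a)] using h.mul_left k⟩

theorem Bc.neg {r : ℕ} {W : Set X} {f : List X → ℤ} (hf : Bc r W f) :
    Bc r W fun l => - f l := by
  simpa using hf.mul_left (-1)

theorem Bc.congr {r : ℕ} {W : Set X} {f g : List X → ℤ} (hf : Bc (r + 1) W f)
    (h : Eqn (r + 1) f g) : Bc (r + 1) W g := by
  obtain ⟨a, ha, h'⟩ := hf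
  exact ⟨a, ha, h.symm.trans h'⟩

theorem Bc.zc {r : ℕ} {W : Set X} {f : List X → ℤ} (hf : Bc (r + 1) W f) : Zc (r + 1) W f := by
  obtain ⟨a, ha, h⟩ := hf
  exact (Zc.of_dl ha).congr h.symm

theorem Bc.of_dl {r : ℕ} {W : Set X} {f : List X → ℤ} (hf : Sp r W f) : Bc (r + 1) W (dl f) :=
  ⟨f, hf, Eqn.refl _ _⟩

theorem Bc.sum {ι : Type*} {r : ℕ} {W : Set X} (s : Finset ι) {f : ι → List X → ℤ}
    (hf : ∀ i ∈ s, Bc r W (f i)) : Bc r W fun l => ∑ i ∈ s, f i l := by
  classical
  induction s using Finset.induction_on with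
  | empty => simpa using Bc.zero r W
  | insert a s ha ih =>
    have h := (hf a (Finset.mem_insert_self a s)).add
      (ih fun i hi => hf i (Finset.mem_insert_of_mem hi))
    simpa only [Finset.sum_insert ha] using h

theorem Zc.sum {ι : Type*} {r : ℕ} {W : Set X} (s : Finset ι) {f : ι → List X → ℤ}
    (hf : ∀ i ∈ s, Zc r W (f i)) : Zc r W fun l => ∑ i ∈ s, f i l := by
  classical
  induction s using Finset.induction_on with
  | empty => simpa using Zc.zero r W
  | insert a s ha ih =>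
    have h := (hf a (Finset.mem_insert_self a s)).add
      (ih fun i hi => hf i (Finset.mem_insert_of_mem hi))
    simpa only [Finset.sum_insert ha] using h

/-! ### cutting off -/

open Classical in
/-- the cochain `f` restricted to lists in `A` -/
def cut (A : Set X) (f : List X → ℤ) (l : List X) : ℤ := if ∀ y ∈ l, y ∈ A then f l else 0

theorem cut_eq_of_nhds {A : Set X} (f : List X → ℤ) {x : X} (hA : A ∈ 𝓝 x) :
    ∀ᶠ l in nl x, cut A f l = f l := by
  filter_upwards [ev_mem hA] with l hl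
  exact if_pos hl

theorem cut_eq_zero {A : Set X} (f : List X → ℤ) {x : X} (hA : Aᶜ ∈ 𝓝 x) :
    ∀ᶠ l in nl x, l ≠ [] → cut A f l = 0 := by
  filter_upwards [ev_mem hA] with l hl h0
  refine if_neg fun h => ?_
  obtain ⟨y, hy⟩ := List.exists_mem_of_ne_nil l h0
  exact hl y hy (h y hy)

theorem cut_zero_of_zero {A : Set X} {f : List X → ℤ} {x : X} {r : ℕ}
    (h : ∀ᶠ l in nl x, l.length = r → f l = 0) :
    ∀ᶠ l in nl x, l.length = r → cut A f l = 0 := by
  filter_upwards [h] with l hl hr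
  unfold cut
  split_ifs
  · exact hl hr
  · rfl


end germ

end Crest.Agent.R275.PD412
end
end

-- ▼ part R275/PDL2_412
section

set_option autoImplicit false
set_option linter.unusedSectionVars false

noncomputable section

open Set Topology Filter

namespace Crest.Agent.R275.PD412

section homotopy

variable {X Y : Type*} [TopologicalSpace X] [TopologicalSpace Y]

/-- lists consisting of values of `F`, `G` near `x` satisfy `P` -/
def Mix (F G : X → Y) (P : List Y → Prop) (x : X) : Prop :=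
  ∀ᶠ l in nl x, ∀ l' : List Y, (∀ z ∈ l', ∃ y ∈ l, z = F y ∨ z = G y) → P l'

/-- uniform subdivision of a homotopy over a compact set -/
theorem unif {H : ℝ → X → Y} (hH : Continuous fun p : ℝ × X => H p.1 p.2) {C : Set X}
    (hC : IsCompact C) {P : List Y → Prop}
    (hP : ∀ x ∈ C, ∀ t ∈ Icc (0 : ℝ) 1, ∀ᶠ l in nl (H t x), P l) :
    ∃ δ > 0, ∀ x ∈ C, ∀ t ∈ Icc (0 : ℝ) 1, ∀ t', |t' - t| < δ → Mix (H t) (H t') P x := by
  refine hC.induction_on (p := fun D => ∃ δ > 0, ∀ x ∈ D, ∀ t ∈ Icc (0 : ℝ) 1, ∀ t',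
    |t' - t| < δ → Mix (H t) (H t') P x) ?_ ?_ ?_ ?_
  · exact ⟨1, one_pos, fun x hx => absurd hx (notMem_empty x)⟩
  · rintro s t hst ⟨δ, hδ, h⟩
    exact ⟨δ, hδ, fun x hx => h x (hst hx)⟩
  · rintro s t ⟨δ, hδ, h⟩ ⟨δ', hδ', h'⟩
    refine ⟨min δ δ', lt_min hδ hδ', fun x hx u hu u' huu => ?_⟩
    rcases hx with hx | hx
    · exact h x hx u hu u' (huu.trans_le (min_le_left _ _))
    · exact h' x hx u hu u' (huu.trans_le (min_le_right _ _))
  · intro x hx
    have key : ∃ δ > 0, ∃ V ∈ 𝓝 x, ∀ t ∈ Icc (0 : ℝ) 1, ∀ t', |t' - t| < δ →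
        ∀ l' : List Y, (∀ z ∈ l', ∃ y ∈ V, z = H t y ∨ z = H t' y) → P l' := by
      refine isCompact_Icc.induction_on (p := fun T => ∃ δ > 0, ∃ V ∈ 𝓝 x, ∀ t ∈ T, ∀ t',
        |t' - t| < δ → ∀ l' : List Y, (∀ z ∈ l', ∃ y ∈ V, z = H t y ∨ z = H t' y) → P l')
        ?_ ?_ ?_ ?_
      · exact ⟨1, one_pos, univ, univ_mem, fun x hx => absurd hx (notMem_empty x)⟩
      · rintro s t hst ⟨δ, hδ, V, hV, h⟩
        exact ⟨δ, hδ, V, hV, fun x hx => h x (hst hx)⟩
      · rintro s t ⟨δ, hδ, V, hV, h⟩ ⟨δ', hδ', V', hV', h'⟩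
        refine ⟨min δ δ', lt_min hδ hδ', V ∩ V', inter_mem hV hV', fun u hu u' huu l' hl' => ?_⟩
        rcases hu with hu | hu
        · refine h u hu u' (huu.trans_le (min_le_left _ _)) l' fun z hz => ?_
          obtain ⟨y, hy, h1⟩ := hl' z hz
          exact ⟨y, hy.1, h1⟩
        · refine h' u hu u' (huu.trans_le (min_le_right _ _)) l' fun z hz => ?_
          obtain ⟨y, hy, h1⟩ := hl' z hz
          exact ⟨y, hy.2, h1⟩
      · intro t ht
        obtain ⟨O, hO, hPO⟩ := ev_iff.1 (hP x hx t ht)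
        have h1 : (fun p : ℝ × X => H p.1 p.2) ⁻¹' O ∈ 𝓝 (t, x) := hH.continuousAt hO
        rw [nhds_prod_eq, mem_prod_iff] at h1
        obtain ⟨T, hT, V, hV, hTV⟩ := h1
        obtain ⟨ε, hε, hεT⟩ := Metric.mem_nhds_iff.1 hT
        refine ⟨Metric.ball t (ε / 2), mem_nhdsWithin_of_mem_nhds (Metric.ball_mem_nhds t (by positivity)),
          ε / 2, by positivity, V, hV, fun u hu u' huu l' hl' => hPO l' fun z hz => ?_⟩
        obtain ⟨y, hy, h1⟩ := hl' z hz
        rw [Metric.mem_ball, Real.dist_eq] at hu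
        rcases h1 with rfl | rfl
        · refine hTV (mk_mem_prod (hεT ?_) hy)
          rw [Metric.mem_ball, Real.dist_eq]
          linarith
        · refine hTV (mk_mem_prod (hεT ?_) hy)
          rw [Metric.mem_ball, Real.dist_eq]
          have : u' - t = (u' - u) + (u - t) := by ring
          rw [this]
          exact (abs_add_le _ _).trans_lt (by linarith)
    obtain ⟨δ, hδ, V, hV, h⟩ := key
    refine ⟨interior V, mem_nhdsWithin_of_mem_nhds (interior_mem_nhds.2 hV), δ, hδ,
      fun x' hx' t ht t' htt => ?_⟩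
    refine ev_iff.2 ⟨V, mem_interior_iff_mem_nhds.1 hx', fun l hl l' hl' => h t ht t' htt l' ?_⟩
    intro z hz
    obtain ⟨y, hy, h1⟩ := hl' z hz
    exact ⟨y, hl y hy, h1⟩

/-- sum of prisms of a subdivided homotopy -/
def hom (N : ℕ) (H : ℝ → X → Y) (f : List Y → ℤ) (l : List X) : ℤ :=
  ∑ j ∈ Finset.range N, pr (H (j / N)) (H ((j + 1) / N)) f l

theorem dl_hom {N : ℕ} (hN : 0 < N) (H : ℝ → X → Y) (f : List Y → ℤ) (l : List X) :
    dl (hom N H f) l + hom N H (dl f) l = f (l.map (H 1)) - f (l.map (H 0)) := by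
  have h1 : dl (hom N H f) l = ∑ j ∈ Finset.range N, dl (pr (H (j / N)) (H ((j + 1) / N)) f) l :=
    dl_sum _ _ _
  have h2 : hom N H (dl f) l = ∑ j ∈ Finset.range N, pr (H (j / N)) (H ((j + 1) / N)) (dl f) l := rfl
  rw [h1, h2, ← Finset.sum_add_distrib]
  have h3 : ∀ j ∈ Finset.range N, dl (pr (H (j / N)) (H ((j + 1) / N)) f) l +
      pr (H (j / N)) (H ((j + 1) / N)) (dl f) l =
      (fun k : ℕ => f (l.map (H ((k : ℝ) / N)))) (j + 1) -
        (fun k : ℕ => f (l.map (H ((k : ℝ) / N)))) j := by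
    intro j _
    simp only [Nat.cast_add, Nat.cast_one]
    exact dl_pr _ _ _ _
  rw [Finset.sum_congr rfl h3, Finset.sum_range_sub (fun k : ℕ => f (l.map (H ((k : ℝ) / N)))) N]
  have hN' : (N : ℝ) ≠ 0 := by positivity
  simp [div_self hN']

theorem hom_nil (N : ℕ) (H : ℝ → X → Y) (f : List Y → ℤ) : hom N H f [] = 0 := by
  simp [hom]

theorem hom_zero_of_mix {N : ℕ} {H : ℝ → X → Y} {f : List Y → ℤ} {s : ℕ} {x : X}
    (h : ∀ j < N, Mix (H (j / N)) (H ((j + 1) / N)) (fun l => l.length = s + 1 → f l = 0) x) :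
    ∀ᶠ l in nl x, l.length = s → hom N H f l = 0 := by
  have h' : ∀ j ∈ Finset.range N, ∀ᶠ l in nl x, ∀ l' : List Y,
      (∀ z ∈ l', ∃ y ∈ l, z = H (j / N) y ∨ z = H ((j + 1) / N) y) → l'.length = s + 1 → f l' = 0 :=
    fun j hj => h j (Finset.mem_range.1 hj)
  filter_upwards [(Filter.eventually_all_finset _).2 h'] with l hl hs
  refine Finset.sum_eq_zero fun j hj => pr_eq_zero fun l' h1 h2 => hl j hj l' h2 (by omega)

theorem homotopy_core {N : ℕ} (hN : 0 < N) {H : ℝ → X → Y} {f : List Y → ℤ} {r : ℕ}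
    {A B : Set X} (hA : IsClosed A) (hBA : B ⊆ interior A)
    (h1 : ∀ x ∈ A, ∀ j < N,
      Mix (H (j / N)) (H ((j + 1) / N)) (fun l => l.length = r + 1 → dl f l = 0) x)
    (h2 : ∀ x ∈ A \ B, ∀ j < N,
      Mix (H (j / N)) (H ((j + 1) / N)) (fun l => l.length = r → f l = 0) x)
    (h3 : ∀ x ∉ B, ∀ᶠ l in nl x, l.length = r → f (l.map (H 1)) - f (l.map (H 0)) = 0) :
    (∀ x ∉ B, ∀ᶠ l in nl x, l.length + 1 = r → cut A (hom N H f) l = 0) ∧
      Eqn r (fun l => f (l.map (H 1)) - f (l.map (H 0))) (dl (cut A (hom N H f))) := by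
  cases r with
  | zero =>
    refine ⟨fun x hx => Eventually.of_forall fun l hl => absurd hl (Nat.succ_ne_zero _),
      fun x => Eventually.of_forall fun l hl => ?_⟩
    obtain rfl := List.length_eq_zero_iff.1 hl
    simp
  | succ s =>
    have key : ∀ x ∉ B, ∀ᶠ l in nl x, l.length = s → cut A (hom N H f) l = 0 := by
      intro x hx
      by_cases hxA : x ∈ A
      · exact cut_zero_of_zero (hom_zero_of_mix (h2 x ⟨hxA, hx⟩))
      · filter_upwards [cut_eq_zero (hom N H f) (hA.isOpen_compl.mem_nhds hxA)] with l hl hs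
        by_cases hl0 : l = []
        · subst hl0
          simp [cut, hom_nil]
        · exact hl hl0
    refine ⟨fun x hx => (key x hx).mono fun l hl hs => hl (by omega), fun x => ?_⟩
    by_cases hx : x ∈ B
    · have hxA := hBA hx
      have e1 : ∀ᶠ l in nl x, l.length = s + 1 →
          dl (cut A (hom N H f)) l = dl (hom N H f) l :=
        ev_dl_congr ((cut_eq_of_nhds (hom N H f) (mem_interior_iff_mem_nhds.1 hxA)).mono
          fun l hl _ => hl)
      filter_upwards [e1, hom_zero_of_mix (h1 x (interior_subset hxA))] with l hl hl' hs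
      rw [hl hs]
      have := dl_hom hN H f l
      rw [hl' hs, add_zero] at this
      exact this.symm
    · filter_upwards [h3 x hx, ev_dl_zero (key x hx)] with l hl hl' hs
      rw [hl hs, hl' hs]

/-- homotopy invariance with compact supports -/
theorem homotopy [T2Space X] [LocallyCompactSpace X] {H : ℝ → X → Y}
    (hH : Continuous fun p : ℝ × X => H p.1 p.2) {W : Set X} (hW : IsOpen W)
    {f : List Y → ℤ} {r : ℕ} (hf : Eqn (r + 1) (dl f) fun _ => 0)
    {K : Set X} (hK : IsCompact K) (hKW : K ⊆ W)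
    (hz : ∀ x ∉ K, ∀ t ∈ Icc (0 : ℝ) 1, ∀ᶠ l in nl (H t x), l.length = r → f l = 0) :
    Bc r W fun l => f (l.map (H 1)) - f (l.map (H 0)) := by
  cases r with
  | zero =>
    change f _ - f _ = 0
    simp
  | succ s =>
    obtain ⟨K1, hK1, h1, h2⟩ := exists_compact_between hK hW hKW
    obtain ⟨K2, hK2, h3, -⟩ := exists_compact_between hK1 hW h2
    obtain ⟨δ, hδ, hu⟩ := unif hH hK2 (P := fun l => l.length = s + 1 + 1 → dl f l = 0)
      (fun x _ t _ => hf (H t x))
    obtain ⟨δ', hδ', hu'⟩ := unif hH (hK2.diff (isOpen_interior (s := K1)))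
      (P := fun l => l.length = s + 1 → f l = 0)
      (fun x hx t ht => hz x (fun h => hx.2 (h1 h)) t ht)
    obtain ⟨N, hN⟩ := exists_nat_gt (1 / min δ δ')
    have hm : 0 < min δ δ' := lt_min hδ hδ'
    have hN0 : (0 : ℝ) < N := (by positivity : 0 < 1 / min δ δ').trans hN
    have hN1 : 0 < N := by exact_mod_cast hN0
    have hlt : (1 : ℝ) / N < min δ δ' := by
      rw [div_lt_iff₀ hN0]
      rw [div_lt_iff₀ hm] at hN
      linarith
    have hj : ∀ j < N, (j : ℝ) / N ∈ Icc (0 : ℝ) 1 := by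
      intro j hj
      constructor
      · positivity
      · rw [div_le_one hN0]
        exact_mod_cast hj.le
    have hj' : ∀ j : ℕ, |((j : ℝ) + 1) / N - j / N| < min δ δ' := by
      intro j
      have : ((j : ℝ) + 1) / N - j / N = 1 / N := by ring
      rw [this, abs_of_pos (by positivity)]
      exact hlt
    have hc : ∀ t : ℝ, Continuous (H t) := fun t => hH.comp (continuous_const.prodMk continuous_id)
    obtain ⟨g1, g2⟩ := homotopy_core hN1 (f := f) (H := H) (r := s + 1) (A := K2) (B := K1)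
      hK2.isClosed h3
      (fun x hx j hjN => hu x hx _ (hj j hjN) _ ((hj' j).trans_le (min_le_left _ _)))
      (fun x hx j hjN => hu' x ⟨hx.1, fun h => hx.2 (interior_subset h)⟩ _ (hj j hjN) _
        ((hj' j).trans_le (min_le_right _ _)))
      (fun x hx => by
        have hx' : x ∉ K := fun h => hx (interior_subset (h1 h))
        filter_upwards [ev_map (hc 1).continuousAt (hz x hx' 1 (by simp)),
          ev_map (hc 0).continuousAt (hz x hx' 0 (by simp))] with l hl hl' hs
        rw [hl (by simpa using hs), hl' (by simpa using hs), sub_zero])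
    refine ⟨_, ⟨fun _ => ?_, K1, hK1, h2, fun x hx => ?_⟩, g2⟩
    · simp [cut, hom_nil]
    · exact (g1 x hx).mono fun l hl hs => hl (by omega)

end homotopy

end Crest.Agent.R275.PD412
end
end

-- ▼ part R275/PDL3_412
section

set_option autoImplicit false
set_option linter.unusedSectionVars false

noncomputable section

open Set Topology Filter

namespace Crest.Agent.R275.PD412

/-- Heaviside `0`-cochain on `ℝ` -/
def th : List ℝ → ℤ
  | [t] => if 0 ≤ t then 1 else 0
  | _ => 0

/-- the generator of `H_c^1(ℝ)` -/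
def tau : List ℝ → ℤ := dl th

theorem tau_pair (s t : ℝ) : tau [s, t] = (if 0 ≤ t then 1 else 0) - (if 0 ≤ s then 1 else 0) := by
  unfold tau
  rw [dl_pair]
  rfl


/-- `tau` vanishes on lists with two elements on the same side -/
theorem tau_eq_zero {l : List ℝ} (hl : l.length = 2) (h : (∀ t ∈ l, 0 ≤ t) ∨ (∀ t ∈ l, t < 0)) :
    tau l = 0 := by
  match l, hl with
  | [s, t], _ =>
    rw [tau_pair]
    rcases h with h | h
    · rw [if_pos (h s (by simp)), if_pos (h t (by simp)), sub_self]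
    · rw [if_neg (not_le.2 (h s (by simp))), if_neg (not_le.2 (h t (by simp))), sub_self]

variable {Y : Type*}

/-- cross product with `tau` of a cochain with `p + 1` points -/
def crs (p : ℕ) (g : List Y → ℤ) : List (Y × ℝ) → ℤ :=
  cup p (fun l => g (l.map Prod.fst)) (fun l => tau (l.map Prod.snd))

theorem crs_apply (p : ℕ) (g : List Y → ℤ) (l : List (Y × ℝ)) :
    crs p g l = g ((l.take (p + 1)).map Prod.fst) * tau ((l.drop p).map Prod.snd) := rfl

theorem dl_crs (p : ℕ) (g : List Y → ℤ) (l : List (Y × ℝ)) (hl : p + 2 ≤ l.length) :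
    dl (crs p g) l = crs (p + 1) (dl g) l := by
  unfold crs
  rw [dl_cup p _ _ l hl]
  have h1 : dl (fun l : List (Y × ℝ) => tau (l.map Prod.snd)) = fun _ => 0 := by
    funext l
    rw [dl_map Prod.snd tau]
    exact dl_dl _ _
  have h2 : dl (fun l : List (Y × ℝ) => g (l.map Prod.fst)) = fun l => dl g (l.map Prod.fst) := by
    funext l
    rw [dl_map Prod.fst g]
  rw [h1, h2]
  simp [cup]

theorem crs_sub (p : ℕ) (g g' : List Y → ℤ) (l : List (Y × ℝ)) :
    crs p (fun m => g m - g' m) l = crs p g l - crs p g' l := by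
  simp [crs, cup, sub_mul]

theorem crs_mul (p : ℕ) (k : ℤ) (g : List Y → ℤ) (l : List (Y × ℝ)) :
    crs p (fun m => k * g m) l = k * crs p g l := by
  simp [crs, cup, mul_assoc]

section top

variable [TopologicalSpace Y]

theorem tau_near {t : ℝ} (ht : t ≠ 0) : ∀ᶠ l in nl t, l.length = 2 → tau l = 0 := by
  rcases lt_or_gt_of_ne ht with h | h
  · filter_upwards [ev_mem (Iio_mem_nhds h)] with l hl h2
    exact tau_eq_zero h2 (Or.inr hl)
  · filter_upwards [ev_mem (Ioi_mem_nhds h)] with l hl h2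
    exact tau_eq_zero h2 (Or.inl fun t ht => (hl t ht).le)

theorem Sp.crs {p : ℕ} {W : Set Y} {g : List Y → ℤ} (hg : Sp (p + 1) W g) :
    Sp (p + 2) (W ×ˢ {(0 : ℝ)}) (crs p g) := by
  obtain ⟨h0, K, hK, hKW, h1⟩ := hg
  refine ⟨fun h => by omega, K ×ˢ {0}, hK.prod isCompact_singleton, prod_mono_left hKW,
    fun x hx => ?_⟩
  by_cases hy : x.1 ∈ K
  · have ht : x.2 ≠ 0 := fun h => hx ⟨hy, h⟩
    filter_upwards [ev_sub (ev_map (f := Prod.snd) continuous_snd.continuousAt (tau_near ht))]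
      with l hl h2
    rw [crs_apply, hl (l.drop p) (fun y hy => (List.drop_sublist _ _).subset hy)
      (by rw [List.length_map, List.length_drop]; omega), mul_zero]
  · filter_upwards [ev_sub (ev_map (f := Prod.fst) continuous_fst.continuousAt (h1 x.1 hy))]
      with l hl h2
    rw [crs_apply, hl (l.take (p + 1)) (fun y hy => (List.take_sublist _ _).subset hy)
      (by rw [List.length_map, List.length_take]; omega), zero_mul]

theorem Eqn.crs {p : ℕ} {g g' : List Y → ℤ} (h : Eqn (p + 1) g g') :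
    Eqn (p + 2) (crs p g) (crs p g') := fun x => by
  filter_upwards [ev_sub (ev_map (f := Prod.fst) continuous_fst.continuousAt (h x.1))] with l hl h2
  rw [crs_apply, crs_apply, hl (l.take (p + 1)) (fun y hy => (List.take_sublist _ _).subset hy)
    (by rw [List.length_map, List.length_take]; omega)]

theorem Zc.crs {p : ℕ} {W : Set Y} {g : List Y → ℤ} (hg : Zc (p + 1) W g) :
    Zc (p + 2) (W ×ˢ {(0 : ℝ)}) (crs p g) := by
  refine ⟨hg.1.crs, ?_⟩
  have h := hg.2.crs
  refine (Eqn.of_forall fun l hl => dl_crs p g l (by omega)).trans (h.trans ?_)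
  exact Eqn.of_forall fun l _ => by simp [PD412.crs, cup]

theorem Bc.crs {p : ℕ} {W : Set Y} {g : List Y → ℤ} (hg : Bc (p + 1) W g) :
    Bc (p + 2) (W ×ˢ {(0 : ℝ)}) (crs p g) := by
  obtain ⟨g', hg', h⟩ := hg
  cases p with
  | zero =>
    refine (Bc.zero 2 _).congr ?_
    have h1 : Eqn 1 g fun _ => 0 := h.trans (Eqn.of_forall fun l hl => by
      obtain ⟨a, rfl⟩ := List.length_eq_one_iff.1 hl
      rw [dl_single, hg'.1 rfl])
    refine (h1.crs.trans (Eqn.of_forall fun l _ => ?_)).symm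
    simp [PD412.crs, cup]
  | succ p =>
    refine ⟨PD412.crs p g', hg'.crs, h.crs.trans ?_⟩
    exact Eqn.of_forall fun l hl => (dl_crs p g' l (by omega)).symm

/-! ### clamping -/

/-- the clamping homotopy -/
def cl (a : ℝ) (u : ℝ) (z : Y × ℝ) : Y × ℝ := (z.1, max z.2 (-a + u * (2 * a)))

theorem cl_of_ge {a u : ℝ} (ha : 0 < a) (hu : u ≤ 1) {z : Y × ℝ} (hz : a ≤ z.2) : cl a u z = z := by
  have : -a + u * (2 * a) ≤ z.2 := by nlinarith
  exact Prod.ext rfl (max_eq_left this)

theorem cl_of_le {a u : ℝ} (ha : 0 < a) (hu : 0 ≤ u) {z : Y × ℝ} (hz : z.2 ≤ -a) :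
    cl a u (z.1, -a) = cl a u z := by
  have h1 : -a ≤ -a + u * (2 * a) := by nlinarith [mul_nonneg hu ha.le]
  unfold cl
  refine Prod.ext rfl ?_
  show max (-a) (-a + u * (2 * a)) = max z.2 (-a + u * (2 * a))
  rw [max_eq_right h1, max_eq_right (hz.trans h1)]

theorem continuous_cl (a : ℝ) : Continuous fun p : ℝ × (Y × ℝ) => cl a p.1 p.2 := by
  unfold cl
  fun_prop

/-- transport of `Mix` from `(y, -a)` to `(y, t)`, `t < -a` -/
theorem mix_left {a u u' : ℝ} (ha : 0 < a) (hu : 0 ≤ u) (hu' : 0 ≤ u') {P : List (Y × ℝ) → Prop}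
    {x : Y × ℝ} (hx : x.2 < -a) (h : Mix (cl a u) (cl a u') P (x.1, -a)) :
    Mix (cl a u) (cl a u') P x := by
  have hc : ContinuousAt (fun z : Y × ℝ => (z.1, -a)) x := by fun_prop
  have h1 : {z : Y × ℝ | z.2 < -a} ∈ 𝓝 x :=
    (isOpen_lt continuous_snd continuous_const).mem_nhds hx
  unfold Mix
  filter_upwards [ev_map hc h, ev_mem h1] with l hl hl' l' h2
  refine hl l' fun z hz => ?_
  obtain ⟨y, hy, h3⟩ := h2 z hz
  refine ⟨(y.1, -a), List.mem_map.2 ⟨y, hy, rfl⟩, ?_⟩
  have hy' := (hl' y hy).le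
  rw [cl_of_le ha hu hy', cl_of_le ha hu' hy']
  exact h3

theorem mix_right {a u u' : ℝ} (ha : 0 < a) (hu : u ≤ 1) (hu' : u' ≤ 1) {P : List (Y × ℝ) → Prop}
    {x : Y × ℝ} (hx : a < x.2) (h : ∀ᶠ l in nl x, P l) :
    Mix (cl a u) (cl a u') P x := by
  have h1 : {z : Y × ℝ | a < z.2} ∈ 𝓝 x :=
    (isOpen_lt continuous_const continuous_snd).mem_nhds hx
  unfold Mix
  filter_upwards [ev_sub h, ev_mem h1] with l hl hl' l' h2
  refine hl l' fun z hz => ?_
  obtain ⟨y, hy, h3⟩ := h2 z hz
  have hy' := (hl' y hy).le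
  rw [cl_of_ge ha hu hy', cl_of_ge ha hu' hy', or_self] at h3
  rwa [h3]

theorem clamp [T2Space Y] [LocallyCompactSpace Y] {f : List (Y × ℝ) → ℤ} {r : ℕ}
    (hf : Zc (r + 1) univ f) : ∃ (h : List (Y × ℝ) → ℤ) (K : Set Y) (a : ℝ), 0 < a ∧
      IsCompact K ∧ h [] = 0 ∧ Eqn (r + 1) f (dl h) ∧
      (∀ y ∉ K, ∀ t, ∀ᶠ l in nl (y, t), l.length = r → h l = 0) ∧
      (∀ y, ∀ t > a, ∀ᶠ l in nl (y, t), l.length = r → h l = 0) ∧
      (∀ l : List (Y × ℝ), (∀ z ∈ l, z.2 ≤ -a) → h l = h (l.map fun z => (z.1, -a))) ∧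
      (∀ y, ∀ᶠ l in nl (y, -a), l.length = r + 1 → f l = 0) := by
  obtain ⟨⟨-, K0, hK0, -, hf0⟩, hcl⟩ := hf
  obtain ⟨a, ha, hKa⟩ : ∃ a : ℝ, 0 < a ∧ ∀ z ∈ K0, |z.2| < a := by
    obtain ⟨b, hb⟩ := (hK0.image (continuous_snd.norm)).bddAbove
    refine ⟨max b 0 + 1, by positivity, fun z hz => ?_⟩
    have : |z.2| ≤ b := hb ⟨z, hz, rfl⟩
    exact (this.trans (le_max_left _ _)).trans_lt (lt_add_one _)
  have hKY : IsCompact (Prod.fst '' K0) := hK0.image continuous_fst
  obtain ⟨K1, hK1, h1, -⟩ := exists_compact_between hKY isOpen_univ (subset_univ _)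
  obtain ⟨K2, hK2, h3, -⟩ := exists_compact_between hK1 isOpen_univ (subset_univ _)
  have hnK : ∀ z : Y × ℝ, z.1 ∉ K1 ∨ a ≤ |z.2| → z ∉ K0 := by
    rintro z (hz | hz) hzK
    · exact hz (interior_subset (h1 ⟨z, hzK, rfl⟩))
    · exact absurd (hKa z hzK) (not_lt.2 hz)
  have hI : IsCompact (Icc (-a - 1) (a + 1)) := isCompact_Icc
  obtain ⟨δ, hδ, hu⟩ := unif (continuous_cl a) (hK2.prod hI)
    (P := fun l => l.length = r + 1 + 1 → dl f l = 0) (fun x _ t _ => hcl _)
  obtain ⟨δ', hδ', hu'⟩ := unif (continuous_cl a) ((hK2.diff (isOpen_interior (s := K1))).prod hI)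
    (P := fun l => l.length = r + 1 → f l = 0)
    (fun x hx t ht => hf0 _ (fun h => hx.1.2 (h1 ⟨_, h, rfl⟩)))
  obtain ⟨N, hN⟩ := exists_nat_gt (1 / min δ δ')
  have hm : 0 < min δ δ' := lt_min hδ hδ'
  have hN0 : (0 : ℝ) < N := (by positivity : 0 < 1 / min δ δ').trans hN
  have hN1 : 0 < N := by exact_mod_cast hN0
  have hlt : (1 : ℝ) / N < min δ δ' := by
    rw [div_lt_iff₀ hN0]
    rw [div_lt_iff₀ hm] at hN
    linarith
  have hj : ∀ j < N, (j : ℝ) / N ∈ Icc (0 : ℝ) 1 := by
    intro j hj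
    constructor
    · positivity
    · rw [div_le_one hN0]
      exact_mod_cast hj.le
  have hj1 : ∀ j < N, ((j : ℝ) + 1) / N ∈ Icc (0 : ℝ) 1 := by
    intro j hj
    constructor
    · positivity
    · rw [div_le_one hN0]
      exact_mod_cast hj
  have hj' : ∀ j : ℕ, |((j : ℝ) + 1) / N - j / N| < min δ δ' := by
    intro j
    have : ((j : ℝ) + 1) / N - j / N = 1 / N := by ring
    rw [this, abs_of_pos (by positivity)]
    exact hlt
  have hc : ∀ t : ℝ, Continuous (cl a t : Y × ℝ → Y × ℝ) := fun t =>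
    (continuous_cl a).comp (continuous_const.prodMk continuous_id)
  have hcl1 : ∀ x : Y × ℝ, ∀ᶠ l in nl x, l.length = r + 1 → f (l.map (cl a 1)) = 0 := by
    intro x
    have : cl a 1 x ∉ K0 := by
      refine hnK _ (Or.inr ?_)
      unfold cl
      refine le_trans ?_ (le_abs_self _)
      refine le_trans ?_ (le_max_right _ _)
      linarith
    filter_upwards [ev_map (hc 1).continuousAt (hf0 _ this)] with l hl hs
    exact hl (by simpa using hs)
  have hcl0 : ∀ x ∉ K0, ∀ᶠ l in nl x, l.length = r + 1 → f (l.map (cl a 0)) = 0 := by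
    intro x hx
    have : cl a 0 x ∉ K0 := by
      rcases le_total x.2 (-a) with h | h
      · refine hnK _ (Or.inr ?_)
        unfold cl
        show a ≤ |max x.2 (-a + 0 * (2 * a))|
        rw [zero_mul, add_zero, max_eq_right h, abs_neg]
        exact le_abs_self a
      · have : cl a 0 x = x := by
          unfold cl
          refine Prod.ext rfl ?_
          show max x.2 (-a + 0 * (2 * a)) = x.2
          rw [zero_mul, add_zero, max_eq_left h]
        rwa [this]
    filter_upwards [ev_map (hc 0).continuousAt (hf0 _ this)] with l hl hs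
    exact hl (by simpa using hs)
  obtain ⟨g1, g2⟩ := homotopy_core hN1 (f := f) (H := cl a) (r := r + 1)
    (A := K2 ×ˢ univ) (B := K1 ×ˢ Iic a)
    (hK2.isClosed.prod isClosed_univ)
    (by rw [interior_prod_eq, interior_univ]; exact prod_mono h3 (subset_univ _))
    (fun x hx j hjN => by
      rcases lt_or_ge x.2 (-a) with h | h
      · refine mix_left ha (hj j hjN).1 (hj1 j hjN).1 h ?_
        exact hu (x.1, -a) ⟨hx.1, by constructor <;> show _ ≤ _ <;> linarith⟩ _ (hj j hjN) _
          ((hj' j).trans_le (min_le_left _ _))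
      · rcases lt_or_ge a x.2 with h' | h'
        · exact mix_right ha (hj j hjN).2 (hj1 j hjN).2 h' (hcl x)
        · exact hu _ ⟨hx.1, by constructor <;> linarith⟩ _ (hj j hjN) _
            ((hj' j).trans_le (min_le_left _ _)))
    (fun x hx j hjN => by
      rcases lt_or_ge a x.2 with h' | h'
      · exact mix_right ha (hj j hjN).2 (hj1 j hjN).2 h'
          (hf0 x (hnK x (Or.inr (h'.le.trans (le_abs_self _)))))
      · have hx1 : x.1 ∉ K1 := fun h => hx.2 ⟨h, h'⟩
        have hx2 : x.1 ∈ K2 \ interior K1 := ⟨hx.1.1, fun h => hx1 (interior_subset h)⟩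
        rcases lt_or_ge x.2 (-a) with h | h
        · refine mix_left ha (hj j hjN).1 (hj1 j hjN).1 h ?_
          exact hu' (x.1, -a) ⟨hx2, by constructor <;> show _ ≤ _ <;> linarith⟩ _ (hj j hjN) _
            ((hj' j).trans_le (min_le_right _ _))
        · exact hu' _ ⟨hx2, by constructor <;> linarith⟩ _ (hj j hjN) _
            ((hj' j).trans_le (min_le_right _ _)))
    (fun x hx => by
      have hxK : x ∉ K0 := by
        by_cases h : x.1 ∈ K1
        · have h2 : a < x.2 := by
            by_contra h2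
            exact hx ⟨h, not_lt.1 h2⟩
          exact hnK x (Or.inr (h2.le.trans (le_abs_self _)))
        · exact hnK x (Or.inl h)
      filter_upwards [hcl1 x, hcl0 x hxK] with l hl hl' hs
      rw [hl hs, hl' hs, sub_zero])
  refine ⟨fun l => - cut (K2 ×ˢ univ) (hom N (cl a) f) l, K1, a, ha, hK1, ?_, ?_, ?_, ?_, ?_, ?_⟩
  · simp [cut, hom_nil]
  · intro x
    have hfx : ∀ᶠ l in nl x, l.length = r + 1 → f (l.map (cl a 0)) = f l := by
      rcases le_or_gt x.2 (-a) with h | h
      · have hxK : x ∉ K0 := hnK x (Or.inr (by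
          rw [abs_of_nonpos (by linarith)]; linarith))
        filter_upwards [hcl0 x hxK, hf0 x hxK] with l hl hl' hs
        rw [hl hs, hl' hs]
      · have h1 : {z : Y × ℝ | -a < z.2} ∈ 𝓝 x :=
          (isOpen_lt continuous_const continuous_snd).mem_nhds h
        filter_upwards [ev_mem h1] with l hl _
        have : l.map (cl a 0) = l.map id := List.map_congr_left fun z hz => by
          unfold cl
          refine Prod.ext rfl ?_
          show max z.2 (-a + 0 * (2 * a)) = z.2
          rw [zero_mul, add_zero, max_eq_left (hl z hz).le]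
        rw [this, List.map_id]
    filter_upwards [hfx, hcl1 x, g2 x] with l hl hl' hl'' hs
    rw [dl_neg, ← hl'' hs, hl hs, hl' hs]
    ring
  · intro y hy t
    filter_upwards [g1 (y, t) fun h => hy h.1] with l hl hs
    rw [hl (by omega), neg_zero]
  · intro y t ht
    filter_upwards [g1 (y, t) fun h => absurd h.2 (not_le.2 ht)] with l hl hs
    rw [hl (by omega), neg_zero]
  · intro l hl
    have e1 : hom N (cl a) f (l.map fun z => (z.1, -a)) = hom N (cl a) f l := by
      unfold hom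
      refine Finset.sum_congr rfl fun j hjN => ?_
      have hjN' := Finset.mem_range.1 hjN
      rw [pr_map]
      exact pr_congr_map f (fun z hz => cl_of_le ha (hj j hjN').1 (hl z hz))
        (fun z hz => cl_of_le ha (hj1 j hjN').1 (hl z hz))
    have e2 : (∀ z ∈ l.map (fun z : Y × ℝ => (z.1, -a)), z ∈ K2 ×ˢ (univ : Set ℝ)) ↔
        ∀ z ∈ l, z ∈ K2 ×ˢ (univ : Set ℝ) := by
      simp only [List.mem_map, forall_exists_index, and_imp, forall_apply_eq_imp_iff₂, mem_prod,
        mem_univ, and_true]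
    show - cut _ _ l = - cut _ _ (l.map _)
    unfold cut
    by_cases h : ∀ z ∈ l, z ∈ K2 ×ˢ (univ : Set ℝ)
    · rw [if_pos h, if_pos (e2.2 h), e1]
    · rw [if_neg h, if_neg fun h' => h (e2.1 h')]
  · intro y
    exact hf0 _ (hnK _ (Or.inr (by simp [abs_of_pos ha])))

end top

end Crest.Agent.R275.PD412
end
end

-- ▼ part R275/PDL4_412
section

set_option autoImplicit false
set_option linter.unusedSectionVars false

noncomputable section

open Set Topology Filter

namespace Crest.Agent.R275.PD412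

variable {Y : Type*} [TopologicalSpace Y]

/-- `0`-cocycles with compact support on `Y × ℝ` vanish -/
theorem susp_zero [T2Space Y] [LocallyCompactSpace Y] {f : List (Y × ℝ) → ℤ}
    (hf : Zc 1 univ f) : Bc 1 univ f := by
  obtain ⟨h, K, a, ha, hK, h0, h1, -, -, -, -⟩ := clamp hf
  refine (Bc.zero 1 univ).congr ((h1.trans (Eqn.of_forall fun l hl => ?_)).symm)
  obtain ⟨v, rfl⟩ := List.length_eq_one_iff.1 hl
  rw [dl_single, h0]

/-- Heaviside function of negative numbers -/
def hv : List ℝ → ℤ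
  | [t] => if 0 ≤ t then 0 else 1
  | _ => 0

theorem hv_single (t : ℝ) : hv [t] = if 0 ≤ t then 0 else 1 := rfl

theorem dl_hv {l : List ℝ} (hl : l.length = 2) : dl hv l = - tau l := by
  match l, hl with
  | [s, t], _ =>
    rw [tau_pair, dl_pair, hv_single, hv_single]
    split_ifs <;> simp

theorem drop_singleton {X : Type*} {l : List X} {p : ℕ} (hl : l.length = p + 1) :
    ∃ z ∈ l, l.drop p = [z] := by
  have h : (l.drop p).length = 1 := by rw [List.length_drop]; omega
  obtain ⟨z, hz⟩ := List.length_eq_one_iff.1 h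
  refine ⟨z, ?_, hz⟩
  apply (List.drop_sublist p l).subset
  rw [hz]
  simp

/-- surjectivity of the suspension -/
theorem susp_surj [T2Space Y] [LocallyCompactSpace Y] {p : ℕ} {f : List (Y × ℝ) → ℤ}
    (hf : Zc (p + 2) univ f) :
    ∃ g : List Y → ℤ, Zc (p + 1) univ g ∧ Bc (p + 2) univ fun l => f l - crs p g l := by
  obtain ⟨h, K, a, ha, hK, h0, h1, h2, h3, h4, h5⟩ := clamp hf
  set io : Y → Y × ℝ := fun y => (y, -a) with hio
  have hioc : Continuous io := by rw [hio]; fun_prop
  set g : List Y → ℤ := fun l => h (l.map io) with hg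
  have hgS : Sp (p + 1) univ g := by
    refine ⟨fun h => absurd h (Nat.succ_ne_zero p), K, hK, subset_univ _, fun y hy => ?_⟩
    filter_upwards [ev_map hioc.continuousAt (h2 y hy (-a))] with l hl hs
    exact hl (by simpa using hs)
  have hgE : Eqn (p + 1 + 1) (dl g) fun _ => 0 := fun y => by
    filter_upwards [ev_map hioc.continuousAt (h1 (y, -a)),
      ev_map hioc.continuousAt (h5 y)] with l hl hl' hs
    rw [hg, dl_map io h, ← hl (by simpa using hs)]
    exact hl' (by simpa using hs)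
  set sg : List (Y × ℝ) → ℤ := cup p (fun l => g (l.map Prod.fst)) (fun l => hv (l.map Prod.snd))
    with hsg
  have hsga : ∀ l : List (Y × ℝ), sg l =
      g ((l.take (p + 1)).map Prod.fst) * hv ((l.drop p).map Prod.snd) := fun l => rfl
  have hu : Sp (p + 1) univ fun l => h l - sg l := by
    refine ⟨fun h => absurd h (Nat.succ_ne_zero p), K ×ˢ Icc (-a) a, hK.prod isCompact_Icc,
      subset_univ _, fun x hx => ?_⟩
    by_cases hy : x.1 ∈ K
    · have ht : x.2 < -a ∨ a < x.2 := by
        by_contra hc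
        push Not at hc
        exact hx ⟨hy, hc⟩
      rcases ht with ht | ht
      · have hn : {z : Y × ℝ | z.2 < -a} ∈ 𝓝 x :=
          (isOpen_lt continuous_snd continuous_const).mem_nhds ht
        filter_upwards [ev_mem hn] with l hl hs
        obtain ⟨z, hz, hz'⟩ := drop_singleton hs
        have e1 : hv ((l.drop p).map Prod.snd) = 1 := by
          rw [hz', List.map_singleton, hv_single, if_neg]
          have : z.2 < -a := hl z hz
          linarith
        have e2 : l.take (p + 1) = l := List.take_of_length_le hs.le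
        have e3 : g (l.map Prod.fst) = h (l.map fun z => (z.1, -a)) := by
          rw [hg]
          show h ((l.map Prod.fst).map io) = _
          rw [List.map_map]
          rfl
        rw [hsga, e1, mul_one, e2, h4 l fun z hz => (hl z hz).le, e3, sub_self]
      · have hn : {z : Y × ℝ | a < z.2} ∈ 𝓝 x :=
          (isOpen_lt continuous_const continuous_snd).mem_nhds ht
        filter_upwards [ev_mem hn, h3 x.1 x.2 ht] with l hl hl' hs
        obtain ⟨z, hz, hz'⟩ := drop_singleton hs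
        have e1 : hv ((l.drop p).map Prod.snd) = 0 := by
          rw [hz', List.map_singleton, hv_single, if_pos]
          have : a < z.2 := hl z hz
          linarith
        rw [hsga, e1, mul_zero, hl' hs, sub_zero]
    · have hgz : ∀ᶠ l in nl x.1, l.length = p + 1 → g l = 0 := by
        filter_upwards [ev_map hioc.continuousAt (h2 x.1 hy (-a))] with l hl hs
        exact hl (by simpa using hs)
      filter_upwards [h2 x.1 hy x.2, ev_map (f := Prod.fst) continuous_fst.continuousAt hgz]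
        with l hl hl' hs
      rw [hsga, List.take_of_length_le hs.le, hl' (by simpa using hs), zero_mul, hl hs, sub_zero]
  refine ⟨fun l => (-1) ^ (p + 1) * g l, Zc.mul_left ⟨hgS, hgE⟩ _, _, hu, fun x => ?_⟩
  filter_upwards [h1 x, ev_map (f := Prod.fst) continuous_fst.continuousAt (ev_sub (hgE x.1))]
    with l hl hl' hs
  rw [dl_sub, ← hl hs, hsg, dl_cup p _ _ l hs.ge, crs_mul]
  have e1 : cup (p + 1) (dl fun l : List (Y × ℝ) => g (l.map Prod.fst))
      (fun l => hv (l.map Prod.snd)) l = 0 := by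
    unfold cup
    rw [dl_map Prod.fst g, List.map_take]
    rw [hl' _ (fun y hy => (List.take_sublist _ _).subset hy)
      (by rw [List.length_take, List.length_map]; omega), zero_mul]
  have e2 : cup p (fun l : List (Y × ℝ) => g (l.map Prod.fst))
      (dl fun l : List (Y × ℝ) => hv (l.map Prod.snd)) l = - crs p g l := by
    unfold cup
    rw [dl_map Prod.snd hv, dl_hv (by rw [List.length_map, List.length_drop]; omega), crs_apply]
    ring
  rw [e1, e2, pow_succ]
  ring

/-- the prism of a cross product between two levels -/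
theorem pr_crs (s t : ℝ) (p : ℕ) (g : List Y → ℤ) (l : List Y) (hl : l.length = p + 1) :
    pr (fun y => (y, s)) (fun y => (y, t)) (crs p g) l =
      (-1) ^ p * g l * ((if 0 ≤ t then 1 else 0) - (if 0 ≤ s then 1 else 0)) := by
  induction p generalizing g l with
  | zero =>
    obtain ⟨v, rfl⟩ := List.length_eq_one_iff.1 hl
    simp [crs_apply, tau_pair]
  | succ p ih =>
    match l, hl with
    | v :: l, hl =>
      have hl' : l.length = p + 1 := by simpa using hl
      have e1 : crs (p + 1) g ((v, s) :: (v, t) :: l.map fun y => (y, t)) = 0 := by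
        rw [crs_apply]
        have : tau ((((v, s) :: (v, t) :: l.map fun y => (y, t)).drop (p + 1)).map Prod.snd) = 0 := by
          have hlen : ((((v, s) :: (v, t) :: l.map fun y => (y, t)).drop (p + 1)).map
              Prod.snd).length = 2 := by
            rw [List.length_map, List.length_drop]
            simp [hl']
          apply tau_eq_zero hlen
          have hall : ∀ u ∈ (((v, s) :: (v, t) :: l.map fun y => (y, t)).drop (p + 1)).map
              Prod.snd, u = t := by
            intro u hu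
            obtain ⟨z, hz, rfl⟩ := List.mem_map.1 hu
            rw [List.drop_succ_cons] at hz
            have := (List.drop_sublist _ _).subset hz
            rcases List.mem_cons.1 this with rfl | h
            · rfl
            · obtain ⟨w, _, rfl⟩ := List.mem_map.1 h
              rfl
          rcases le_or_gt 0 t with h | h
          · exact Or.inl fun u hu => by rw [hall u hu]; exact h
          · exact Or.inr fun u hu => by rw [hall u hu]; exact h
        rw [this, mul_zero]
      have e2 : (fun m => crs (p + 1) g ((v, s) :: m)) = crs p fun m => g (v :: m) := by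
        funext m
        rfl
      rw [pr_cons, e1, e2, ih _ l hl', pow_succ]
      ring

/-- injectivity of the suspension -/
theorem susp_inj [T2Space Y] [LocallyCompactSpace Y] {p : ℕ} {g : List Y → ℤ}
    (hg : Sp (p + 1) univ g) (hb : Bc (p + 2) univ (crs p g)) : Bc (p + 1) univ g := by
  obtain ⟨-, Kg, hKg, -, hg0⟩ := hg
  obtain ⟨u, ⟨-, Ku, hKu, -, hu0⟩, hE⟩ := hb
  obtain ⟨a, ha, hKa⟩ : ∃ a : ℝ, 0 < a ∧ ∀ z ∈ Ku, |z.2| < a := by
    obtain ⟨b, hb⟩ := (hKu.image (continuous_snd.norm)).bddAbove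
    refine ⟨max b 0 + 1, by positivity, fun z hz => ?_⟩
    have : |z.2| ≤ b := hb ⟨z, hz, rfl⟩
    exact (this.trans (le_max_left _ _)).trans_lt (lt_add_one _)
  have hKY : IsCompact (Kg ∪ Prod.fst '' Ku) := hKg.union (hKu.image continuous_fst)
  obtain ⟨K1, hK1, h1, -⟩ := exists_compact_between hKY isOpen_univ (subset_univ _)
  obtain ⟨K2, hK2, h3, -⟩ := exists_compact_between hK1 isOpen_univ (subset_univ _)
  set H : ℝ → Y → Y × ℝ := fun u y => (y, (2 * u - 1) * a) with hH
  have hHc : Continuous fun q : ℝ × Y => H q.1 q.2 := by rw [hH]; fun_prop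
  obtain ⟨δ, hδ, hu⟩ := unif hHc hK2
    (P := fun l => l.length = p + 1 + 1 → crs p g l - dl u l = 0) (fun x _ t _ => by
      filter_upwards [hE (H t x)] with l hl hs
      rw [hl hs, sub_self])
  obtain ⟨δ', hδ', hu'⟩ := unif hHc (hK2.diff (isOpen_interior (s := K1)))
    (P := fun l => l.length = p + 1 → u l = 0)
    (fun x hx t ht => hu0 _ (fun h => hx.2 (h1 (Or.inr ⟨_, h, rfl⟩))))
  obtain ⟨N, hN⟩ := exists_nat_gt (1 / min δ δ')
  have hm : 0 < min δ δ' := lt_min hδ hδ'
  have hN0 : (0 : ℝ) < N := (by positivity : 0 < 1 / min δ δ').trans hN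
  have hN1 : 0 < N := by exact_mod_cast hN0
  have hlt : (1 : ℝ) / N < min δ δ' := by
    rw [div_lt_iff₀ hN0]
    rw [div_lt_iff₀ hm] at hN
    linarith
  have hj : ∀ j < N, (j : ℝ) / N ∈ Icc (0 : ℝ) 1 := by
    intro j hj
    constructor
    · positivity
    · rw [div_le_one hN0]
      exact_mod_cast hj.le
  have hj' : ∀ j : ℕ, |((j : ℝ) + 1) / N - j / N| < min δ δ' := by
    intro j
    have : ((j : ℝ) + 1) / N - j / N = 1 / N := by ring
    rw [this, abs_of_pos (by positivity)]
    exact hlt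
  -- the primitive
  have hw0 : ∀ y ∉ K1, ∀ᶠ l in nl y, l.length = p → cut K2 (hom N H u) l = 0 := by
    intro y hy
    by_cases hyA : y ∈ K2
    · refine cut_zero_of_zero (hom_zero_of_mix fun j hjN => ?_)
      exact hu' y ⟨hyA, fun h => hy (interior_subset h)⟩ _ (hj j hjN) _
        ((hj' j).trans_le (min_le_right _ _))
    · filter_upwards [cut_eq_zero (hom N H u) (hK2.isClosed.isOpen_compl.mem_nhds hyA)] with l hl hs
      by_cases hl0 : l = []
      · subst hl0
        simp [cut, hom_nil]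
      · exact hl hl0
  have hcrs : ∀ l : List Y, l.length = p + 1 → hom N H (crs p g) l = (-1) ^ p * g l := by
    intro l hl
    have e : ∀ j ∈ Finset.range N, pr (H (j / N)) (H ((j + 1) / N)) (crs p g) l =
        (fun k : ℕ => (-1) ^ p * g l * (if 0 ≤ (2 * ((k : ℝ) / N) - 1) * a then 1 else 0)) (j + 1) -
        (fun k : ℕ => (-1) ^ p * g l * (if 0 ≤ (2 * ((k : ℝ) / N) - 1) * a then 1 else 0)) j := by
      intro j _
      rw [hH]
      simp only
      rw [pr_crs _ _ p g l hl]
      simp only [Nat.cast_add, Nat.cast_one]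
      ring
    unfold hom
    rw [Finset.sum_congr rfl e, Finset.sum_range_sub
      (fun k : ℕ => (-1) ^ p * g l * (if 0 ≤ (2 * ((k : ℝ) / N) - 1) * a then 1 else 0)) N]
    have e1 : (0 : ℝ) ≤ (2 * ((N : ℝ) / N) - 1) * a := by
      rw [div_self hN0.ne']
      linarith
    have e2 : ¬ (0 : ℝ) ≤ (2 * (((0 : ℕ) : ℝ) / N) - 1) * a := by
      simp [ha]
    rw [if_pos e1, if_neg e2]
    ring
  have hmain : Eqn (p + 1) g fun l => (-1) ^ (p + 1) * dl (cut K2 (hom N H u)) l := by
    intro y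
    by_cases hy : y ∈ K1
    · have hyA := h3 hy
      have e1 : ∀ᶠ l in nl y, l.length = p + 1 →
          dl (cut K2 (hom N H u)) l = dl (hom N H u) l :=
        ev_dl_congr ((cut_eq_of_nhds (hom N H u) (mem_interior_iff_mem_nhds.1 hyA)).mono
          fun l hl _ => hl)
      have e2 : ∀ᶠ l in nl y, l.length = p + 1 →
          hom N H (fun l => crs p g l - dl u l) l = 0 :=
        hom_zero_of_mix fun j hjN => hu y (interior_subset hyA) _ (hj j hjN) _
          ((hj' j).trans_le (min_le_left _ _))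
      have hc : ∀ t : ℝ, Continuous (H t) := fun t => hHc.comp (continuous_const.prodMk continuous_id)
      have e3 : ∀ᶠ l in nl y, l.length = p + 1 → u (l.map (H 1)) = 0 := by
        have : H 1 y ∉ Ku := fun h => by
          have := hKa _ h
          rw [hH] at this
          simp only at this
          norm_num at this
          exact absurd this (not_lt.2 (le_abs_self a))
        filter_upwards [ev_map (hc 1).continuousAt (hu0 _ this)] with l hl hs
        exact hl (by simpa using hs)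
      have e4 : ∀ᶠ l in nl y, l.length = p + 1 → u (l.map (H 0)) = 0 := by
        have : H 0 y ∉ Ku := fun h => by
          have := hKa _ h
          rw [hH] at this
          simp only at this
          norm_num at this
          exact absurd this (not_lt.2 (le_abs_self a))
        filter_upwards [ev_map (hc 0).continuousAt (hu0 _ this)] with l hl hs
        exact hl (by simpa using hs)
      filter_upwards [e1, e2, e3, e4] with l a1 a2 a3 a4 hs
      have a5 := dl_hom hN1 H u l
      rw [a3 hs, a4 hs, sub_zero] at a5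
      have a6 : hom N H (fun l => crs p g l - dl u l) l =
          hom N H (crs p g) l - hom N H (dl u) l := by
        unfold hom
        rw [← Finset.sum_sub_distrib]
        exact Finset.sum_congr rfl fun j _ => pr_sub _ _ _ _ _
      rw [a6] at a2
      have a7 := a2 hs
      rw [hcrs l hs] at a7
      rw [a1 hs]
      have a8 : dl (hom N H u) l = - ((-1) ^ p * g l) := by linarith
      rw [a8, pow_succ]
      have : ((-1 : ℤ) ^ p) * (-1) ^ p = 1 := by rw [← mul_pow]; norm_num
      linear_combination (-g l) * this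
    · filter_upwards [ev_dl_zero (hw0 y hy), hg0 y fun h => hy (interior_subset (h1 (Or.inl h)))]
        with l hl hl' hs
      rw [hl hs, hl' hs, mul_zero]
  refine Bc.congr (Bc.mul_left (Bc.of_dl (f := cut K2 (hom N H u)) ?_) ((-1) ^ (p + 1)))
    hmain.symm
  refine ⟨fun _ => by simp [cut, hom_nil], K1, hK1, subset_univ _, hw0⟩

/-! ### cohomologically euclidean spaces -/

/-- the compactly supported cohomology of `Y` is `ℤ` in degree `n`, generated by the class `T`
supported at `o` -/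
structure Loc (n : ℕ) (Y : Type*) [TopologicalSpace Y] (o : Y) (T : List Y → ℤ) : Prop where
  zc : Zc (n + 1) {o} T
  van : ∀ r, r ≠ n + 1 → ∀ f : List Y → ℤ, Zc r univ f → Bc r univ f
  gen : ∀ f : List Y → ℤ, Zc (n + 1) univ f → ∃ m : ℤ, Bc (n + 1) univ fun l => f l - m * T l
  inj : ∀ m : ℤ, Bc (n + 1) univ (fun l => m * T l) → m = 0

theorem Loc.prod [T2Space Y] [LocallyCompactSpace Y] {n : ℕ} {o : Y} {T : List Y → ℤ}
    (h : Loc n Y o T) : Loc (n + 1) (Y × ℝ) (o, 0) (crs n T) := by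
  refine ⟨?_, ?_, ?_, ?_⟩
  · have := h.zc.crs
    rwa [Set.singleton_prod_singleton] at this
  · intro r hr f hf
    match r with
    | 0 => exact hf.1.1 rfl
    | 1 => exact susp_zero hf
    | p + 2 =>
      obtain ⟨g, hg, hb⟩ := susp_surj hf
      have h1 := (h.van (p + 1) (by omega) g hg).crs.mono (subset_univ _)
      have h2 := hb.add h1
      simpa using h2
  · intro f hf
    obtain ⟨g, hg, hb⟩ := susp_surj hf
    obtain ⟨m, hm⟩ := h.gen g hg
    refine ⟨m, ?_⟩
    have h1 := hm.crs.mono (subset_univ _)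
    refine (hb.add h1).congr (Eqn.of_forall fun l _ => ?_)
    rw [crs_sub, crs_mul]
    ring
  · intro m hm
    have h1 : Bc (n + 2) univ (crs n fun l => m * T l) :=
      hm.congr (Eqn.of_forall fun l _ => (crs_mul n m T l).symm)
    exact h.inj m (susp_inj ((h.zc.1.mono (subset_univ _)).mul_left m) h1)

/-- the unit `0`-cochain -/
def one0 : List PUnit.{1} → ℤ := fun l => if l.length = 1 then 1 else 0

theorem loc_zero : Loc 0 PUnit.{1} PUnit.unit one0 := by
  refine ⟨⟨⟨fun h => by omega, {PUnit.unit}, isCompact_singleton, Subset.rfl, fun x hx =>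
    absurd rfl hx⟩, Eqn.of_forall fun l hl => ?_⟩, ?_, ?_, ?_⟩
  · match l, hl with
    | [s, t], _ => simp [one0]
  · intro r hr f hf
    match r, hr with
    | 0, _ => exact hf.1.1 rfl
    | p + 2, _ =>
      refine ⟨fun l => f (PUnit.unit :: l), ⟨fun h => absurd h (Nat.succ_ne_zero p), univ,
        isCompact_univ, subset_univ _, fun x hx => absurd (mem_univ x) hx⟩, fun x => ?_⟩
      filter_upwards [ev_sub (hf.2 x)] with l hl hs
      have h1 := hl (PUnit.unit :: l) (fun y _ => by
        match l, hs with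
        | z :: l, _ => exact List.mem_cons.2 (Or.inl (Subsingleton.elim _ _))) (by simp [hs])
      rw [dl_cons] at h1
      linarith
  · intro f hf
    refine ⟨f [PUnit.unit], (Bc.zero 1 univ).congr (Eqn.of_forall fun l hl => ?_)⟩
    obtain ⟨v, rfl⟩ := List.length_eq_one_iff.1 hl
    simp [one0]
  · rintro m ⟨g, hg, h⟩
    obtain ⟨V, hV, h1⟩ := ev_iff.1 (h PUnit.unit)
    have h2 := h1 [PUnit.unit] (fun y hy => by
      rw [List.mem_singleton.1 hy]
      exact mem_of_mem_nhds hV) rfl
    rw [dl_single, hg.1 rfl] at h2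
    simpa [one0] using h2

theorem Sp.homeo {Z : Type*} [TopologicalSpace Z] (e : Z ≃ₜ Y) {r : ℕ}
    {W : Set Y} {f : List Y → ℤ} (hf : Sp r W f) : Sp r (e ⁻¹' W) fun l => f (l.map e) := by
  obtain ⟨h0, K, hK, hKW, h1⟩ := hf
  refine ⟨fun h => by simpa using h0 h, e ⁻¹' K, ?_, preimage_mono hKW, fun x hx => ?_⟩
  · rw [← e.image_symm]
    exact hK.image e.symm.continuous
  · filter_upwards [ev_map e.continuous.continuousAt (h1 (e x) hx)] with l hl hs
    exact hl (by simpa using hs)

theorem Zc.homeo {Z : Type*} [TopologicalSpace Z] (e : Z ≃ₜ Y) {r : ℕ}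
    {W : Set Y} {f : List Y → ℤ} (hf : Zc r W f) : Zc r (e ⁻¹' W) fun l => f (l.map e) := by
  refine ⟨hf.1.homeo e, ?_⟩
  have := hf.2.comp e.continuous
  rwa [funext (dl_map e f)]

theorem Bc.homeo {Z : Type*} [TopologicalSpace Z] (e : Z ≃ₜ Y) {r : ℕ}
    {W : Set Y} {f : List Y → ℤ} (hf : Bc r W f) : Bc r (e ⁻¹' W) fun l => f (l.map e) := by
  cases r with
  | zero => exact hf
  | succ r =>
    obtain ⟨g, hg, h⟩ := hf
    refine ⟨_, hg.homeo e, ?_⟩
    have := h.comp e.continuous
    rwa [funext (dl_map e g)]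

/-- transport by a homeomorphism -/
theorem Loc.homeo {Z : Type*} [TopologicalSpace Z] {n : ℕ} {o : Y} {T : List Y → ℤ}
    (h : Loc n Y o T) (e : Z ≃ₜ Y) : Loc n Z (e.symm o) fun l => T (l.map e) := by
  have hback : ∀ f : List Z → ℤ, (fun l => (fun m : List Y => f (m.map e.symm)) (l.map e)) = f := by
    intro f
    funext l
    simp [List.map_map, Function.comp_def]
  refine ⟨?_, ?_, ?_, ?_⟩
  · have := h.zc.homeo e
    rwa [show e ⁻¹' {o} = {e.symm o} by ext z; simp [Homeomorph.eq_symm_apply]] at this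
  · intro r hr f hf
    have h1 := hf.homeo e.symm
    have h2 := (h.van r hr _ h1).homeo e
    rwa [hback f] at h2
  · intro f hf
    have h1 := hf.homeo e.symm
    obtain ⟨m, hm⟩ := h.gen _ h1
    refine ⟨m, ?_⟩
    have h2 := hm.homeo e
    refine h2.congr (Eqn.of_forall fun l _ => ?_)
    simp [List.map_map, Function.comp_def]
  · intro m hm
    have h1 := hm.homeo e.symm
    refine h.inj m (h1.congr (Eqn.of_forall fun l _ => ?_))
    simp [List.map_map, Function.comp_def]

end Crest.Agent.R275.PD412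
end
end

-- ▼ part R275/PDL5_412
section

set_option autoImplicit false
set_option linter.unusedSectionVars false

noncomputable section

open Set Topology Filter

namespace Crest.Agent.R275.PD412

/-- the compactly supported cohomology of the open set `U` is `ℤ` in degree `n`, generated by the
class `T` -/
structure LocOn {X : Type*} [TopologicalSpace X] (n : ℕ) (U : Set X) (T : List X → ℤ) : Prop where
  zc : Zc (n + 1) U T
  van : ∀ r, r ≠ n + 1 → ∀ f : List X → ℤ, Zc r U f → Bc r U f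
  gen : ∀ f : List X → ℤ, Zc (n + 1) U f → ∃ m : ℤ, Bc (n + 1) U fun l => f l - m * T l
  inj : ∀ m : ℤ, Bc (n + 1) U (fun l => m * T l) → m = 0

section star

variable {E : Type*} [NormedAddCommGroup E] [NormedSpace ℝ E]

/-- scaling about `x` -/
def Dil (x : E) (c : ℝ) (y : E) : E := x + c • (y - x)


theorem Dil_Dil' (x : E) {c : ℝ} (hc : c ≠ 0) (y : E) : Dil x c⁻¹ (Dil x c y) = y := by
  simp [Dil, smul_smul, hc]

theorem Dil_mem {x : E} {U : Set E} (hs : StarConvex ℝ x U) {c : ℝ} (hc : 1 ≤ c) {y : E}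
    (hy : y ∈ U) : Dil x c⁻¹ y ∈ U := by
  have h0 : 0 ≤ c⁻¹ := by positivity
  have h1 : c⁻¹ ≤ 1 := inv_le_one_of_one_le₀ hc
  have := hs hy (sub_nonneg.2 h1) h0 (by ring)
  convert this using 1
  unfold Dil
  module

variable [FiniteDimensional ℝ E]

theorem star_hom {x : E} {U : Set E} (hU : IsOpen U) (hs : StarConvex ℝ x U) {r : ℕ}
    {f : List E → ℤ} (hf : Zc r U f) {c : ℝ} (hc : 1 ≤ c) :
    Bc r U fun l => f (l.map (Dil x c)) - f l := by
  have : ProperSpace E := FiniteDimensional.proper ℝ E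
  obtain ⟨⟨-, K, hK, hKU, hf0⟩, hcl⟩ := hf
  have hpos : ∀ t ∈ Icc (0 : ℝ) 1, 1 ≤ 1 + t * (c - 1) := fun t ht => by
    nlinarith [mul_nonneg ht.1 (sub_nonneg.2 hc)]
  have hKc : IsCompact ((fun p : ℝ × E => Dil x (1 + p.1 * (c - 1))⁻¹ p.2) '' (Icc 0 1 ×ˢ K)) := by
    refine (isCompact_Icc.prod hK).image_of_continuousOn ?_
    unfold Dil
    refine continuousOn_const.add (ContinuousOn.smul (ContinuousOn.inv₀ (by fun_prop) ?_) (by fun_prop))
    intro p hp
    have := hpos p.1 hp.1
    positivity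
  have h := homotopy (H := fun t y => Dil x (1 + t * (c - 1)) y) (by unfold Dil; fun_prop) hU
    (f := f) (r := r) hcl hKc ?_ ?_
  · have e1 : (fun y => Dil x (1 + 1 * (c - 1)) y) = Dil x c := by
      funext y; ring_nf
    have e0 : (fun y => Dil x (1 + 0 * (c - 1)) y) = id := by
      funext y; simp [Dil]
    rw [e1, e0] at h
    simpa using h
  · rintro _ ⟨⟨t, y⟩, ⟨ht, hy⟩, rfl⟩
    exact Dil_mem hs (hpos t ht) (hKU hy)
  · intro y hy t ht
    apply hf0
    intro hyK
    refine hy ⟨(t, _), ⟨ht, hyK⟩, ?_⟩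
    have := hpos t ht
    exact Dil_Dil' x (by positivity) y

theorem star_Bc {x : E} {U : Set E} (hU : IsOpen U) (hx : x ∈ U) (hs : StarConvex ℝ x U) {r : ℕ}
    {f : List E → ℤ} (hf : Zc r U f) (hb : Bc r univ f) : Bc r U f := by
  have : ProperSpace E := FiniteDimensional.proper ℝ E
  cases r with
  | zero => exact hb
  | succ r =>
    obtain ⟨g, ⟨h0, K, hK, -, hg⟩, hE⟩ := hb
    obtain ⟨ε, hε, hball⟩ := Metric.isOpen_iff.1 hU x hx
    obtain ⟨R, hR, hKR⟩ : ∃ R : ℝ, 0 < R ∧ ∀ y ∈ K, ‖y - x‖ < R := by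
      obtain ⟨b, hb⟩ := (hK.image ((continuous_id.sub continuous_const).norm :
        Continuous fun y => ‖y - x‖)).bddAbove
      refine ⟨max b 0 + 1, by positivity, fun z hz => ?_⟩
      have : ‖z - x‖ ≤ b := hb ⟨z, hz, rfl⟩
      exact (this.trans (le_max_left _ _)).trans_lt (lt_add_one _)
    set c : ℝ := max 1 (R / ε) with hc
    have hc1 : 1 ≤ c := le_max_left _ _
    have hc0 : 0 < c := by linarith
    have hDc : Continuous (Dil x c) := by unfold Dil; fun_prop
    have hDc' : Continuous (Dil x c⁻¹) := by unfold Dil; fun_prop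
    have hgS : Sp r U fun l => g (l.map (Dil x c)) := by
      refine ⟨fun h => by simpa using h0 h, Dil x c⁻¹ '' K, hK.image hDc', ?_, fun y hy => ?_⟩
      · rintro _ ⟨y, hy, rfl⟩
        apply hball
        rw [Metric.mem_ball, dist_eq_norm]
        have : Dil x c⁻¹ y - x = c⁻¹ • (y - x) := by simp [Dil]
        rw [this, norm_smul, Real.norm_of_nonneg (by positivity), inv_mul_lt_iff₀ hc0]
        calc ‖y - x‖ < R := hKR y hy
          _ = (R / ε) * ε := by field_simp
          _ ≤ c * ε := by gcongr; exact le_max_right _ _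
      · have : Dil x c y ∉ K := fun h => hy ⟨_, h, Dil_Dil' x hc0.ne' y⟩
        filter_upwards [ev_map hDc.continuousAt (hg _ this)] with l hl hs
        exact hl (by simpa using hs)
    have h1 : Bc (r + 1) U fun l => f (l.map (Dil x c)) := by
      refine ⟨_, hgS, ?_⟩
      rw [funext (dl_map (Dil x c) g)]
      exact hE.comp hDc
    have h2 := star_hom hU hs hf hc1
    have h3 := h1.sub h2
    simpa using h3

theorem Loc.star {n : ℕ} {x : E} {T : List E → ℤ} (h : Loc n E x T) {U : Set E} (hU : IsOpen U)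
    (hx : x ∈ U) (hs : StarConvex ℝ x U) : LocOn n U T := by
  refine ⟨h.zc.mono (singleton_subset_iff.2 hx), fun r hr f hf =>
    star_Bc hU hx hs hf (h.van r hr f (hf.mono (subset_univ _))), fun f hf => ?_,
    fun m hm => h.inj m (hm.mono (subset_univ _))⟩
  obtain ⟨m, hm⟩ := h.gen f (hf.mono (subset_univ _))
  exact ⟨m, star_Bc hU hx hs
    (hf.sub ((h.zc.mono (singleton_subset_iff.2 hx)).mul_left m)) hm⟩

/-- translation of the class at `0` -/
theorem Loc.translate {n : ℕ} {T : List E → ℤ} (h : Loc n E 0 T) (x : E) :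
    Loc n E x fun l => T (l.map fun y => y - x) := by
  have := h.homeo (Homeomorph.subRight x)
  rw [show (Homeomorph.subRight x).symm (0 : E) = x by simp [Homeomorph.subRight]] at this
  exact this

theorem Loc.convex {n : ℕ} {T : List E → ℤ} (h : Loc n E 0 T) {U : Set E} (hU : IsOpen U)
    (hc : Convex ℝ U) {x : E} (hx : x ∈ U) : LocOn n U fun l => T (l.map fun y => y - x) :=
  (h.translate x).star hU hx (hc.starConvex hx)


end star

/-! ### transfer through charts -/

section chart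

variable {X Y : Type*} [TopologicalSpace X] [TopologicalSpace Y]

/-- `F` on `X` and `f` on `Y` correspond through the chart `e` -/
structure Rel (e : OpenPartialHomeomorph X Y) (r : ℕ) (F : List X → ℤ) (f : List Y → ℤ) : Prop where
  h1 : ∀ x ∈ e.source, ∀ᶠ l in nl x, l.length = r → F l = f (l.map e)
  h2 : ∀ x ∉ e.source, ∀ᶠ l in nl x, l.length = r → F l = 0
  h3 : ∀ y ∉ e.target, ∀ᶠ l in nl y, l.length = r → f l = 0

theorem map_symm_map {e : OpenPartialHomeomorph X Y} {l : List Y} (h : ∀ y ∈ l, y ∈ e.target) :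
    (l.map e.symm).map e = l := by
  rw [List.map_map]
  conv_rhs => rw [← List.map_id l]
  exact List.map_congr_left fun y hy => e.right_inv (h y hy)

theorem Rel.symm {e : OpenPartialHomeomorph X Y} {r : ℕ} {F : List X → ℤ} {f : List Y → ℤ}
    (h : Rel e r F f) : Rel e.symm r f F := by
  refine ⟨fun y hy => ?_, h.h3, h.h2⟩
  have h1 := h.h1 (e.symm y) (e.map_target hy)
  filter_upwards [ev_map (e.continuousAt_symm hy) h1, ev_mem (e.open_target.mem_nhds hy)]
    with l hl hl' hs
  rw [hl (by simpa using hs), map_symm_map hl']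

theorem Rel.dl {e : OpenPartialHomeomorph X Y} {r : ℕ} {F : List X → ℤ} {f : List Y → ℤ}
    (h : Rel e r F f) : Rel e (r + 1) (dl F) (dl f) := by
  refine ⟨fun x hx => ?_, fun x hx => ev_dl_zero (h.h2 x hx), fun y hy => ev_dl_zero (h.h3 y hy)⟩
  filter_upwards [ev_dl_congr (h.h1 x hx)] with l hl hs
  rw [hl hs, dl_map e f]

theorem Rel.sub {e : OpenPartialHomeomorph X Y} {r : ℕ} {F G : List X → ℤ} {f g : List Y → ℤ}
    (h : Rel e r F f) (h' : Rel e r G g) : Rel e r (fun l => F l - G l) (fun l => f l - g l) := by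
  refine ⟨fun x hx => ?_, fun x hx => ?_, fun y hy => ?_⟩
  · filter_upwards [h.h1 x hx, h'.h1 x hx] with l hl hl' hs
    rw [hl hs, hl' hs]
  · filter_upwards [h.h2 x hx, h'.h2 x hx] with l hl hl' hs
    rw [hl hs, hl' hs, sub_zero]
  · filter_upwards [h.h3 y hy, h'.h3 y hy] with l hl hl' hs
    rw [hl hs, hl' hs, sub_zero]

theorem Rel.mul_left {e : OpenPartialHomeomorph X Y} {r : ℕ} {F : List X → ℤ} {f : List Y → ℤ}
    (h : Rel e r F f) (k : ℤ) : Rel e r (fun l => k * F l) (fun l => k * f l) := by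
  refine ⟨fun x hx => ?_, fun x hx => ?_, fun y hy => ?_⟩
  · filter_upwards [h.h1 x hx] with l hl hs
    rw [hl hs]
  · filter_upwards [h.h2 x hx] with l hl hs
    rw [hl hs, mul_zero]
  · filter_upwards [h.h3 y hy] with l hl hs
    rw [hl hs, mul_zero]

theorem Rel.eqn {e : OpenPartialHomeomorph X Y} {r : ℕ} {F G : List X → ℤ} {f g : List Y → ℤ}
    (h : Rel e r F f) (h' : Rel e r G g) (hE : Eqn r f g) : Eqn r F G := fun x => by
  by_cases hx : x ∈ e.source
  · filter_upwards [h.h1 x hx, h'.h1 x hx, ev_map (e.continuousAt hx) (hE (e x))]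
      with l a1 a2 a3 hs
    rw [a1 hs, a2 hs, a3 (by simpa using hs)]
  · filter_upwards [h.h2 x hx, h'.h2 x hx] with l a1 a2 hs
    rw [a1 hs, a2 hs]

theorem Rel.sp {e : OpenPartialHomeomorph X Y} {r : ℕ} {F : List X → ℤ} {f : List Y → ℤ}
    (h : Rel e r F f) (h0 : r = 0 → f [] = 0) {U : Set X} (hU : U ⊆ e.source) (hF : Sp r U F) :
    Sp r (e '' U) f := by
  obtain ⟨-, K, hK, hKU, hF0⟩ := hF
  refine ⟨h0, e '' K, hK.image_of_continuousOn (e.continuousOn.mono (hKU.trans hU)),
    image_mono hKU, fun y hy => ?_⟩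
  by_cases hyt : y ∈ e.target
  · have hx : e.symm y ∉ K := fun hx => hy ⟨_, hx, e.right_inv hyt⟩
    filter_upwards [h.symm.h1 y hyt, ev_map (e.continuousAt_symm hyt) (hF0 _ hx)] with l a1 a2 hs
    rw [a1 hs, a2 (by simpa using hs)]
  · exact h.h3 y hyt

/-- transport of a cochain with compact support in the target -/
theorem exists_rel [T2Space X] [LocallyCompactSpace Y] [T2Space Y] (e : OpenPartialHomeomorph X Y)
    {r : ℕ} {V : Set Y} (hV : V ⊆ e.target) {f : List Y → ℤ} (hf : Sp r V f) :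
    ∃ F : List X → ℤ, Rel e r F f ∧ (r = 0 → F [] = 0) := by
  obtain ⟨h0, K, hK, hKV, hf0⟩ := hf
  cases r with
  | zero =>
    refine ⟨fun _ => 0, ⟨fun x _ => Eventually.of_forall fun l hl => ?_,
      fun x _ => Eventually.of_forall fun l hl => rfl,
      fun y _ => Eventually.of_forall fun l hl => ?_⟩, fun _ => rfl⟩
    · rw [List.length_eq_zero_iff.1 hl, List.map_nil, h0 rfl]
    · rw [List.length_eq_zero_iff.1 hl, h0 rfl]
  | succ r =>
    obtain ⟨K', hK', h1, h2⟩ := exists_compact_between hK e.open_target (hKV.trans hV)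
    have hKc : IsCompact (e.symm '' K') :=
      hK'.image_of_continuousOn (e.continuousOn_symm.mono h2)
    have hmem : ∀ x ∈ e.source, e x ∈ K' → x ∈ e.symm '' K' := fun x hx hx' =>
      ⟨_, hx', e.left_inv hx⟩
    refine ⟨cut (e.symm '' K') fun l => f (l.map e), ⟨fun x hx => ?_, fun x hx => ?_,
      fun y hy => hf0 y fun h => hy (hV (hKV h))⟩, fun h => absurd h (Nat.succ_ne_zero r)⟩
    · by_cases hxK : e x ∈ K
      · have hn : e.symm '' K' ∈ 𝓝 x := by
          have h3 : e.source ∩ e ⁻¹' (interior K') ∈ 𝓝 x :=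
            inter_mem (e.open_source.mem_nhds hx)
              ((e.continuousAt hx).preimage_mem_nhds (isOpen_interior.mem_nhds (h1 hxK)))
          exact mem_of_superset h3 fun z hz => hmem z hz.1 (interior_subset hz.2)
        filter_upwards [cut_eq_of_nhds (fun l => f (l.map e)) hn] with l hl _
        exact hl
      · have hz : ∀ᶠ l in nl x, l.length = r + 1 → f (l.map e) = 0 := by
          filter_upwards [ev_map (e.continuousAt hx) (hf0 _ hxK)] with l hl hs
          exact hl (by simpa using hs)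
        filter_upwards [hz, cut_zero_of_zero (A := e.symm '' K') hz] with l a1 a2 hs
        rw [a1 hs, a2 hs]
    · have hn : (e.symm '' K')ᶜ ∈ 𝓝 x := by
        refine hKc.isClosed.isOpen_compl.mem_nhds ?_
        rintro ⟨y, hy, rfl⟩
        exact hx (e.map_target (h2 hy))
      filter_upwards [cut_eq_zero (fun l => f (l.map e)) hn] with l hl hs
      exact hl (by rintro rfl; simp at hs)

variable [T2Space X] [LocallyCompactSpace X] [T2Space Y] [LocallyCompactSpace Y]

/-- compactly supported cohomology of an open subset of the source of a chart -/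
theorem LocOn.chart {n : ℕ} {e : OpenPartialHomeomorph X Y} {U : Set X} (hU : U ⊆ e.source)
    {T : List Y → ℤ} (h : LocOn n (e '' U) T) {T' : List X → ℤ} (hT : Rel e (n + 1) T' T) :
    LocOn n U T' := by
  have hV : e '' U ⊆ e.target := by
    rintro _ ⟨x, hx, rfl⟩
    exact e.map_source (hU hx)
  have hUU : e.symm '' (e '' U) = U := by
    ext x
    constructor
    · rintro ⟨_, ⟨z, hz, rfl⟩, rfl⟩
      rwa [e.left_inv (hU hz)]
    · intro hx
      exact ⟨_, ⟨x, hx, rfl⟩, e.left_inv (hU hx)⟩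
  -- cocycles go over
  have key1 : ∀ r (F : List X → ℤ) (f : List Y → ℤ), Rel e (r + 1) F f → Zc (r + 1) U F →
      Zc (r + 1) (e '' U) f := by
    intro r F f hr hF
    refine ⟨hr.sp (fun h => absurd h (Nat.succ_ne_zero r)) hU hF.1, ?_⟩
    have h1 : Rel e (r + 1 + 1) (fun _ => 0) (fun _ => 0) :=
      ⟨fun _ _ => Eventually.of_forall fun _ _ => rfl, fun _ _ => Eventually.of_forall fun _ _ => rfl,
        fun _ _ => Eventually.of_forall fun _ _ => rfl⟩
    exact Rel.eqn hr.dl.symm h1.symm hF.2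
  have key2 : ∀ r (F : List X → ℤ) (f : List Y → ℤ), Rel e (r + 1) F f → Bc (r + 1) (e '' U) f →
      Bc (r + 1) U F := by
    rintro r F f hr ⟨g, hg, hE⟩
    obtain ⟨G, hG, hG0⟩ := exists_rel e hV hg
    refine ⟨G, ?_, hr.eqn hG.dl hE⟩
    have := hG.symm.sp (U := e '' U) hG0 hV hg
    rwa [hUU] at this
  have key3 : ∀ r (F : List X → ℤ) (f : List Y → ℤ), Rel e (r + 1) F f → Bc (r + 1) U F →
      Bc (r + 1) (e '' U) f := by
    rintro r F f hr ⟨G, hG, hE⟩
    obtain ⟨g, hg, hg0⟩ := exists_rel e.symm (V := U) hU hG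
    exact ⟨g, hg.symm.sp hg0 hU hG, hr.symm.eqn hg.dl hE⟩
  refine ⟨?_, ?_, ?_, ?_⟩
  · refine ⟨?_, ?_⟩
    · have := hT.symm.sp (U := e '' U) (fun h => absurd h (Nat.succ_ne_zero n)) hV h.zc.1
      rwa [hUU] at this
    · have h1 : Rel e (n + 1 + 1) (fun _ => 0) (fun _ => 0) :=
        ⟨fun _ _ => Eventually.of_forall fun _ _ => rfl,
          fun _ _ => Eventually.of_forall fun _ _ => rfl,
          fun _ _ => Eventually.of_forall fun _ _ => rfl⟩
      exact Rel.eqn hT.dl h1 h.zc.2
  · intro r hr F hF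
    cases r with
    | zero => exact hF.1.1 rfl
    | succ r =>
      obtain ⟨f, hf, -⟩ := exists_rel e.symm (V := U) hU hF.1
      exact key2 r F f hf.symm (h.van _ hr f (key1 r F f hf.symm hF))
  · intro F hF
    obtain ⟨f, hf, -⟩ := exists_rel e.symm (V := U) hU hF.1
    obtain ⟨m, hm⟩ := h.gen f (key1 n F f hf.symm hF)
    exact ⟨m, key2 n _ _ (hf.symm.sub (hT.mul_left m)) hm⟩
  · intro m hm
    exact h.inj m (key3 n _ _ (hT.mul_left m) hm)

end chart

end Crest.Agent.R275.PD412
end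
end

-- ▼ part R275/PDL6_412
section

set_option autoImplicit false
set_option linter.unusedSectionVars false

noncomputable section

open Set Topology Filter

namespace Crest.Agent.R275.PD412

/-- `ℂ²` -/
abbrev C2 : Type := EuclideanSpace ℂ (Fin 2)

/-- `H t - H s`, `H = 1_{t ≥ 0}` -/
def hst (s t : ℝ) : ℤ := (if 0 ≤ t then 1 else 0) - (if 0 ≤ s then 1 else 0)

/-- the standard `4`-cochain on `ℂ²` -/
def Th4 : List C2 → ℤ
  | [a, b, c, d, e] => hst (a 0).re (b 0).re * hst (b 0).im (c 0).im * hst (c 1).re (d 1).re *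
      hst (d 1).im (e 1).im
  | _ => 0

theorem Th4_five (a b c d e : C2) : Th4 [a, b, c, d, e] =
    hst (a 0).re (b 0).re * hst (b 0).im (c 0).im * hst (c 1).re (d 1).re *
      hst (d 1).im (e 1).im := rfl

/-- real coordinates of `ℂ²` -/
def homC2 : C2 ≃ₜ ((((PUnit.{1} × ℝ) × ℝ) × ℝ) × ℝ) where
  toFun z := ((((PUnit.unit, (z 0).re), (z 0).im), (z 1).re), (z 1).im)
  invFun w := WithLp.toLp 2 ![⟨w.1.1.1.2, w.1.1.2⟩, ⟨w.1.2, w.2⟩]
  left_inv z := by
    ext i
    fin_cases i <;> simp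
  right_inv w := by
    obtain ⟨⟨⟨⟨⟨⟩, a⟩, b⟩, c⟩, d⟩ := w
    simp
  continuous_toFun := by fun_prop
  continuous_invFun := by
    refine (PiLp.continuous_toLp 2 _).comp (continuous_pi fun i => ?_)
    fin_cases i
    · show Continuous fun w : ((((PUnit.{1} × ℝ) × ℝ) × ℝ) × ℝ) => (⟨w.1.1.1.2, w.1.1.2⟩ : ℂ)
      exact Complex.equivRealProdCLM.symm.continuous.comp
        (by fun_prop : Continuous fun w : ((((PUnit.{1} × ℝ) × ℝ) × ℝ) × ℝ) =>
          (w.1.1.1.2, w.1.1.2))
    · show Continuous fun w : ((((PUnit.{1} × ℝ) × ℝ) × ℝ) × ℝ) => (⟨w.1.2, w.2⟩ : ℂ)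
      exact Complex.equivRealProdCLM.symm.continuous.comp
        (by fun_prop : Continuous fun w : ((((PUnit.{1} × ℝ) × ℝ) × ℝ) × ℝ) => (w.1.2, w.2))

theorem homC2_apply (z : C2) :
    homC2 z = ((((PUnit.unit, (z 0).re), (z 0).im), (z 1).re), (z 1).im) := rfl

theorem homC2_zero : homC2.symm ((((PUnit.unit, 0), 0), 0), 0) = 0 := by
  rw [Homeomorph.symm_apply_eq]
  simp [homC2]

/-- the product class -/
def T4 : List ((((PUnit.{1} × ℝ) × ℝ) × ℝ) × ℝ) → ℤ := crs 3 (crs 2 (crs 1 (crs 0 one0)))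

theorem T4_map (l : List C2) (hl : l.length = 5) : T4 (l.map homC2) = Th4 l := by
  match l, hl with
  | [a, b, c, d, e], _ =>
    rw [Th4_five]
    simp only [T4, crs_apply, List.map_cons, List.map_nil, List.take_succ_cons, List.take_zero,
      List.drop_succ_cons, List.drop_zero, one0, List.length_cons, List.length_nil, tau_pair,
      homC2_apply, hst, if_true, one_mul]

theorem loc_T4 : Loc 4 ((((PUnit.{1} × ℝ) × ℝ) × ℝ) × ℝ) ((((PUnit.unit, 0), 0), 0), 0) T4 :=
  loc_zero.prod.prod.prod.prod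

theorem Loc.congr {Y : Type*} [TopologicalSpace Y] {n : ℕ} {o : Y} {T T' : List Y → ℤ}
    (h : Loc n Y o T) (hT : Eqn (n + 1) T T') : Loc n Y o T' := by
  refine ⟨h.zc.congr hT, h.van, fun f hf => ?_, fun m hm => ?_⟩
  · obtain ⟨m, hm⟩ := h.gen f hf
    exact ⟨m, hm.congr ((Eqn.refl _ f).sub (hT.mul_left m))⟩
  · exact h.inj m (hm.congr (hT.symm.mul_left m))

/-- `H_c^*(ℂ²)` -/
theorem loc_Th4 : Loc 4 C2 0 Th4 := by
  have h := loc_T4.homeo homC2
  rw [homC2_zero] at h
  exact h.congr (Eqn.of_forall fun l hl => T4_map l hl)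

theorem Th4_near {z : C2} (hz : z ≠ 0) : ∀ᶠ l in nl z, l.length = 5 → Th4 l = 0 := by
  obtain ⟨-, K, hK, hK0, h⟩ := loc_Th4.zc.1
  exact h z fun hz' => hz (hK0 hz')

section M

variable {M : Type*} [TopologicalSpace M]

open Classical in
/-- the class of the point `p` in the chart `e`, cut off to `V` -/
def tauP (e : OpenPartialHomeomorph M C2) (p : M) (V : Set M) (l : List M) : ℤ :=
  if ∀ y ∈ l, y ∈ V then Th4 (l.map fun y => e y - e p) else 0

theorem rel_tauP {e : OpenPartialHomeomorph M C2} {p : M} {V : Set M} (hV : V ∈ 𝓝 p)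
    (hVe : closure V ⊆ e.source) :
    Rel e 5 (tauP e p V) fun l => Th4 (l.map fun y => y - e p) := by
  have hp : p ∈ e.source := hVe (subset_closure (mem_of_mem_nhds hV))
  have hmap : ∀ l : List M, (l.map e).map (fun y => y - e p) = l.map fun y => e y - e p := by
    intro l; rw [List.map_map]; rfl
  refine ⟨fun x hx => ?_, fun x hx => ?_, fun y hy => ?_⟩
  · by_cases hxp : x = p
    · subst hxp
      filter_upwards [ev_mem hV] with l hl _
      rw [hmap]
      exact if_pos hl
    · have hne : e x - e p ≠ 0 := fun h => hxp (e.injOn hx hp (sub_eq_zero.1 h))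
      have hc : ContinuousAt (fun y => e y - e p) x := (e.continuousAt hx).sub continuousAt_const
      filter_upwards [ev_map hc (Th4_near hne)] with l hl hs
      have h0 := hl (by simpa using hs)
      rw [hmap, h0]
      unfold tauP
      rw [h0]
      split_ifs <;> rfl
  · have hn : (closure V)ᶜ ∈ 𝓝 x := isClosed_closure.isOpen_compl.mem_nhds fun h => hx (hVe h)
    filter_upwards [ev_mem hn] with l hl hs
    refine if_neg fun h => ?_
    obtain ⟨y, hy⟩ := List.exists_mem_of_ne_nil l (by rintro rfl; simp at hs)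
    exact hl y hy (subset_closure (h y hy))
  · have hne : y - e p ≠ 0 := fun h => hy (by rw [sub_eq_zero.1 h]; exact e.map_source hp)
    have hc : ContinuousAt (fun z => z - e p) y := by fun_prop
    filter_upwards [ev_map hc (Th4_near hne)] with l hl hs
    exact hl (by simpa using hs)

variable [T2Space M] [LocallyCompactSpace M]

/-- compactly supported cohomology of an open set which is convex in a chart, with the class of
any of its points as generator -/
theorem locOn_tauP {e : OpenPartialHomeomorph M C2} {U : Set M} (hU : IsOpen U)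
    (hUe : U ⊆ e.source) (hc : Convex ℝ (e '' U)) {p : M} (hp : p ∈ U) {V : Set M}
    (hV : V ∈ 𝓝 p) (hVe : closure V ⊆ e.source) : LocOn 4 U (tauP e p V) := by
  have ho : IsOpen (e '' U) := e.isOpen_image_of_subset_source hU hUe
  exact LocOn.chart hUe (loc_Th4.convex ho hc (mem_image_of_mem e hp)) (rel_tauP hV hVe)


end M

end Crest.Agent.R275.PD412
end
end

-- ▼ part R275/PDA_412
section

set_option autoImplicit false
set_option linter.unusedSectionVars false

noncomputable section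

open Set Topology Filter

namespace Crest.Agent.R275.PDA412

open PD412 ASN627

variable {M : Type*} [TopologicalSpace M]

theorem dl_eq {X : Type*} (c : List X → ℤ) (l : List X) : ASZ627.dl c l = PD412.dl c l := by
  induction l generalizing c with
  | nil => simp
  | cons x l ih => rw [ASZ627.dl_cons, PD412.dl_cons, ih]

theorem dl_eq' {X : Type*} (c : List X → ℤ) : ASZ627.dl c = PD412.dl c := funext (dl_eq c)


theorem eqN_iff {q : ℕ} {c d : List M → ℤ} : EqN q c d ↔ Eqn (q + 1) c d :=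
  forall_congr' fun _ => ev_iff.symm

theorem cl_iff' {q : ℕ} {c : List M → ℤ} : Cl q c ↔ Eqn (q + 2) (PD412.dl c) fun _ => 0 := by
  rw [cl_iff, dl_eq', eqN_iff]

theorem sp_iff [T2Space M] {q : ℕ} {W : Set M} {c : List M → ℤ} :
    Sp (q + 1) W c ↔ IsCompact (supp q c) ∧ supp q c ⊆ W := by
  constructor
  · rintro ⟨-, K, hK, hKW, h⟩
    have hs : supp q c ⊆ K := by
      intro p hp
      by_contra hc
      exact hp (ev_iff.1 (h p hc))
    exact ⟨hK.of_isClosed_subset (isClosed_supp q c) hs, hs.trans hKW⟩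
  · rintro ⟨h1, h2⟩
    exact ⟨fun h => absurd h (Nat.succ_ne_zero q), _, h1, h2, fun x hx =>
      ev_iff.2 (notMem_supp.1 hx)⟩

theorem zc_iff [T2Space M] {q : ℕ} {W : Set M} {c : List M → ℤ} :
    Zc (q + 1) W c ↔ Cl q c ∧ IsCompact (supp q c) ∧ supp q c ⊆ W := by
  unfold Zc
  rw [sp_iff, cl_iff']
  tauto

theorem bc_iff [T2Space M] {q : ℕ} {W : Set M} {c : List M → ℤ} :
    Bc (q + 2) W c ↔ ∃ b : List M → ℤ, IsCompact (supp q b) ∧ supp q b ⊆ W ∧
      EqN (q + 1) c (ASZ627.dl b) := by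
  constructor
  · rintro ⟨b, hb, h⟩
    obtain ⟨h1, h2⟩ := sp_iff.1 hb
    exact ⟨b, h1, h2, by rw [dl_eq']; exact eqN_iff.2 h⟩
  · rintro ⟨b, h1, h2, h⟩
    rw [dl_eq'] at h
    exact ⟨b, sp_iff.2 ⟨h1, h2⟩, eqN_iff.1 h⟩

theorem bc_one {W : Set M} {c : List M → ℤ} (h : Bc 1 W c) : EqN 0 c fun _ => 0 := by
  obtain ⟨b, hb, h⟩ := h
  refine eqN_iff.2 (h.trans (Eqn.of_forall fun l hl => ?_))
  obtain ⟨v, rfl⟩ := List.length_eq_one_iff.1 hl
  rw [dl_single, hb.1 rfl]

/-- degree `≠ 4`, `≥ 1` -/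
theorem LocOn.van' [T2Space M] {U : Set M} {T : List M → ℤ} (h : LocOn 4 U T) {q : ℕ}
    (hq : q + 1 ≠ 4) {c : List M → ℤ} (hc : Cl (q + 1) c) (hK : IsCompact (supp (q + 1) c))
    (hU : supp (q + 1) c ⊆ U) :
    ∃ b : List M → ℤ, IsCompact (supp q b) ∧ supp q b ⊆ U ∧ EqN (q + 1) c (ASZ627.dl b) :=
  bc_iff.1 (h.van (q + 2) (by omega) c (zc_iff.2 ⟨hc, hK, hU⟩))

/-- degree `0` -/
theorem LocOn.van0 [T2Space M] {U : Set M} {T : List M → ℤ} (h : LocOn 4 U T)
    {c : List M → ℤ} (hc : Cl 0 c) (hK : IsCompact (supp 0 c))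
    (hU : supp 0 c ⊆ U) : EqN 0 c fun _ => 0 :=
  bc_one (h.van 1 (by omega) c (zc_iff.2 ⟨hc, hK, hU⟩))


/-- a functional on closed compactly supported `4`-cochains (values in `R = ℤ` or `ℝ`) -/
structure EFun (M : Type*) [TopologicalSpace M] (R : Type*) [Ring R]
    (E : (List M → ℤ) → R) : Prop where
  add : ∀ f g, Zc 5 univ f → Zc 5 univ g → E (fun l => f l + g l) = E f + E g
  bc : ∀ f, Bc 5 univ f → E f = 0

namespace EFun

variable {R : Type*} [Ring R] {E : (List M → ℤ) → R}

theorem zero (hE : EFun M R E) : E (fun _ => 0) = 0 := hE.bc _ (Bc.zero 5 univ)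

theorem neg (hE : EFun M R E) {f : List M → ℤ} (hf : Zc 5 univ f) :
    E (fun l => - f l) = - E f := by
  have h := hE.add f _ hf hf.neg
  have h0 := hE.zero
  simp only [add_neg_cancel] at h
  rw [h0] at h
  exact (neg_eq_of_add_eq_zero_right h.symm).symm

theorem sub (hE : EFun M R E) {f g : List M → ℤ} (hf : Zc 5 univ f) (hg : Zc 5 univ g) :
    E (fun l => f l - g l) = E f - E g := by
  have h := hE.add f _ hf hg.neg
  rw [hE.neg hg] at h
  simpa only [sub_eq_add_neg] using h

theorem mul_nat (hE : EFun M R E) {f : List M → ℤ} (hf : Zc 5 univ f) (n : ℕ) :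
    E (fun l => (n : ℤ) * f l) = (n : R) * E f := by
  induction n with
  | zero => simpa using hE.zero
  | succ n ih =>
    have h := hE.add _ f (hf.mul_left n) hf
    rw [ih] at h
    have e : (fun l => ((n : ℤ) * f l + f l)) = fun l => (((n + 1 : ℕ) : ℤ)) * f l := by
      funext l; push_cast; ring
    rw [e] at h
    rw [h]
    push_cast
    rw [add_mul, one_mul]

theorem mul_int (hE : EFun M R E) {f : List M → ℤ} (hf : Zc 5 univ f) (n : ℤ) :
    E (fun l => n * f l) = (n : R) * E f := by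
  obtain ⟨k, rfl | rfl⟩ := n.eq_nat_or_neg
  · simpa using hE.mul_nat hf k
  · have h := hE.neg (hf.mul_left (k : ℤ))
    rw [hE.mul_nat hf k] at h
    have e : (fun l => -((k : ℤ) * f l)) = fun l => (-(k : ℤ)) * f l := by
      funext l; ring
    rw [e] at h
    rw [h]
    push_cast
    rw [neg_mul]

/-- `E` computes the class of a cocycle supported in an elementary open set -/
theorem eval (hE : EFun M R E) {U : Set M} {T : List M → ℤ} (h : LocOn 4 U T) (hT : E T = 1)
    {f : List M → ℤ} {m : ℤ} (hm : Bc 5 U fun l => f l - m * T l) : E f = m := by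
  have h1 := hE.bc _ (hm.mono (subset_univ _))
  have hf : Zc 5 univ f := by
    have := (hm.zc.add (h.zc.mul_left m)).mono (subset_univ U)
    simpa using this
  rw [hE.sub hf ((h.zc.mul_left m).mono (subset_univ _)),
    hE.mul_int (h.zc.mono (subset_univ _)) m, hT, mul_one] at h1
  exact sub_eq_zero.1 h1

/-- cocycles in an elementary open set are integers times the generator, the integer is `E` -/
theorem exists_int (hE : EFun M R E) {U : Set M} {T : List M → ℤ} (h : LocOn 4 U T) (hT : E T = 1)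
    {f : List M → ℤ} (hf : Zc 5 U f) : ∃ m : ℤ, E f = m ∧ Bc 5 U fun l => f l - m * T l := by
  obtain ⟨m, hm⟩ := h.gen f hf
  exact ⟨m, hE.eval h hT hm, hm⟩

/-- a cocycle in an elementary open set with `E f = 0` bounds there -/
theorem bc_of_eq_zero [CharZero R] (hE : EFun M R E) {U : Set M} {T : List M → ℤ}
    (h : LocOn 4 U T) (hT : E T = 1) {f : List M → ℤ} (hf : Zc 5 U f) (h0 : E f = 0) :
    Bc 5 U f := by
  obtain ⟨m, h1, h2⟩ := hE.exists_int h hT hf
  rw [h0] at h1
  have : m = 0 := by exact_mod_cast h1.symm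
  subst this
  simpa using h2

end EFun

end Crest.Agent.R275.PDA412
end
end

-- ▼ part R275/PDM_412
section

set_option autoImplicit false
set_option linter.unusedSectionVars false

noncomputable section

open Set Topology Filter

namespace Crest.Agent.R275.PDM412

open PD412 PDA412

variable {X : Type*} [TopologicalSpace X]

theorem Sp.inter [T2Space X] {r : ℕ} {A B : Set X} {f : List X → ℤ} (hA : Sp r A f)
    (hB : Sp r B f) : Sp r (A ∩ B) f := by
  obtain ⟨h0, K, hK, hKA, h⟩ := hA
  obtain ⟨-, K', hK', hKB, h'⟩ := hB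
  refine ⟨h0, K ∩ K', hK.inter hK', inter_subset_inter hKA hKB, fun x hx => ?_⟩
  by_cases hxK : x ∈ K
  · exact h' x fun h => hx ⟨hxK, h⟩
  · exact h x hxK

theorem Sp.eqn_zero {r : ℕ} {f : List X → ℤ} (h : Sp r (∅ : Set X) f) : Eqn r f fun _ => 0 := by
  obtain ⟨-, K, -, hK, h⟩ := h
  exact fun x => h x fun hx => hK hx

open Classical in
/-- restriction of a cochain to the lists with first element in `O` -/
def hd (O : Set X) (f : List X → ℤ) : List X → ℤ
  | [] => 0
  | x :: l => if x ∈ O then f (x :: l) else 0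

open Classical in
theorem hd_cons (O : Set X) (f : List X → ℤ) (x : X) (l : List X) :
    hd O f (x :: l) = if x ∈ O then f (x :: l) else 0 := rfl

theorem hd_zero {O : Set X} {f : List X → ℤ} {l : List X} (h : f l = 0) : hd O f l = 0 := by
  cases l with
  | nil => rfl
  | cons x l => rw [hd_cons, h]; split_ifs <;> rfl

theorem hd_zero' {O : Set X} {f : List X → ℤ} {l : List X} (h : ∀ y ∈ l, y ∉ O) :
    hd O f l = 0 := by
  cases l with
  | nil => rfl
  | cons x l => rw [hd_cons, if_neg (h x List.mem_cons_self)]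

/-- splitting of a cochain supported in a union -/
theorem split [T2Space X] {r : ℕ} {A B : Set X} (hA : IsOpen A) (hB : IsOpen B)
    {f : List X → ℤ} (hf : Sp (r + 1) (A ∪ B) f) :
    ∃ f₁ f₂, Sp (r + 1) A f₁ ∧ Sp (r + 1) B f₂ ∧ Eqn (r + 1) f fun l => f₁ l + f₂ l := by
  obtain ⟨-, K, hK, hKAB, h⟩ := hf
  have hd1 : Disjoint (K \ A) (K \ B) := by
    rw [Set.disjoint_left]
    rintro x ⟨hx, hxA⟩ ⟨-, hxB⟩
    rcases hKAB hx with h | h
    · exact hxA h
    · exact hxB h
  obtain ⟨O, O', hO, hO', hAO, hBO, hOO⟩ :=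
    SeparatedNhds.of_isCompact_isCompact (hK.diff hA) (hK.diff hB) hd1
  refine ⟨hd Oᶜ f, hd O f, ⟨fun h => absurd h (Nat.succ_ne_zero r), K \ O, hK.diff hO, ?_,
    fun x hx => ?_⟩, ⟨fun h => absurd h (Nat.succ_ne_zero r), K ∩ closure O,
    hK.inter_right isClosed_closure, ?_, fun x hx => ?_⟩, fun x => ?_⟩
  · rintro x ⟨hx, hxO⟩
    by_contra hxA
    exact hxO (hAO ⟨hx, hxA⟩)
  · by_cases hxK : x ∈ K
    · have hxO : x ∈ O := by
        by_contra hc
        exact hx ⟨hxK, hc⟩
      filter_upwards [ev_mem (hO.mem_nhds hxO)] with l hl _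
      exact hd_zero' fun y hy => not_not.2 (hl y hy)
    · filter_upwards [h x hxK] with l hl hs
      exact hd_zero (hl hs)
  · rintro x ⟨hx, hxO⟩
    by_contra hxB
    have h1 : x ∈ O' := hBO ⟨hx, hxB⟩
    obtain ⟨y, hy1, hy2⟩ := mem_closure_iff.1 hxO O' hO' h1
    exact Set.disjoint_left.1 hOO hy2 hy1
  · by_cases hxK : x ∈ K
    · have hxO : x ∈ (closure O)ᶜ := fun hc => hx ⟨hxK, hc⟩
      filter_upwards [ev_mem (isClosed_closure.isOpen_compl.mem_nhds hxO)] with l hl _
      exact hd_zero' fun y hy hyO => hl y hy (subset_closure hyO)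
    · filter_upwards [h x hxK] with l hl hs
      exact hd_zero (hl hs)
  · refine Eventually.of_forall fun l hl => ?_
    match l, hl with
    | y :: l, _ =>
      show f (y :: l) = hd Oᶜ f (y :: l) + hd O f (y :: l)
      rw [hd_cons, hd_cons]
      by_cases hy : y ∈ O
      · rw [if_neg (show y ∉ Oᶜ from not_not.2 hy), if_pos hy, zero_add]
      · rw [if_pos (show y ∈ Oᶜ from hy), if_neg hy, add_zero]

/-- Mayer-Vietoris: a cocycle in `A ∪ B` splits if the next cohomology of `A ∩ B` vanishes -/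
theorem split_zc [T2Space X] {r : ℕ} {A B : Set X} (hA : IsOpen A) (hB : IsOpen B)
    (hv : ∀ h : List X → ℤ, Zc (r + 2) (A ∩ B) h → Bc (r + 2) (A ∩ B) h)
    {f : List X → ℤ} (hf : Zc (r + 1) (A ∪ B) f) :
    ∃ f₁ f₂, Zc (r + 1) A f₁ ∧ Zc (r + 1) B f₂ ∧ Eqn (r + 1) f fun l => f₁ l + f₂ l := by
  obtain ⟨f₁, f₂, h1, h2, h3⟩ := split hA hB hf.1
  have e1 : Eqn (r + 2) (fun l => dl f₁ l + dl f₂ l) fun _ => 0 := by
    have := h3.dl.symm.trans hf.2
    rwa [funext (dl_add f₁ f₂)] at this
  have e2 : Eqn (r + 2) (dl f₁) fun l => - dl f₂ l := fun x => by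
    filter_upwards [e1 x] with l hl hs
    have := hl hs
    linarith
  have h4 : Sp (r + 2) (A ∩ B) (dl f₁) := Sp.inter h1.dl (h2.dl.neg.congr e2.symm)
  obtain ⟨u, hu, hE⟩ := hv (dl f₁) ⟨h4, Eqn.of_forall fun l _ => dl_dl f₁ l⟩
  refine ⟨fun l => f₁ l - u l, fun l => f₂ l + u l, ⟨h1.sub (hu.mono inter_subset_left), ?_⟩,
    ⟨h2.add (hu.mono inter_subset_right), ?_⟩, h3.trans (Eqn.of_forall fun l _ => by ring)⟩
  · rw [funext (dl_sub f₁ u)]
    exact fun x => by
      filter_upwards [hE x] with l hl hs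
      rw [hl hs, sub_self]
  · rw [funext (dl_add f₂ u)]
    exact fun x => by
      filter_upwards [hE x, e2 x] with l hl hl' hs
      have a1 := hl hs
      have a2 := hl' hs
      linarith

/-- a class of open sets closed under intersection whose compactly supported cohomology vanishes
above degree `n` -/
structure Good (n : ℕ) (G : Set (Set X)) : Prop where
  op : ∀ A ∈ G, IsOpen A
  inter : ∀ A ∈ G, ∀ B ∈ G, A ∩ B ∈ G
  van : ∀ A ∈ G, ∀ r, n + 1 < r → ∀ f : List X → ℤ, Zc r A f → Bc r A f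

/-- union of a list of sets -/
def un (L : List (Set X)) : Set X := {x | ∃ A ∈ L, x ∈ A}

theorem un_cons (A : Set X) (L : List (Set X)) : un (A :: L) = A ∪ un L := by
  ext x
  simp [un]

theorem isOpen_un {n : ℕ} {G : Set (Set X)} (hG : Good n G) {L : List (Set X)}
    (hL : ∀ A ∈ L, A ∈ G) : IsOpen (un L) := by
  have : un L = ⋃ A ∈ {A | A ∈ L}, A := by ext x; simp [un]
  rw [this]
  exact isOpen_biUnion fun A hA => hG.op A (hL A hA)

theorem inter_un (A : Set X) (L : List (Set X)) : A ∩ un L = un (L.map fun B => A ∩ B) := by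
  ext x
  simp only [un, List.mem_map, mem_inter_iff, mem_ofPred_eq]
  constructor
  · rintro ⟨h1, B, h2, h3⟩
    exact ⟨_, ⟨B, h2, rfl⟩, h1, h3⟩
  · rintro ⟨_, ⟨B, h2, rfl⟩, h1, h3⟩
    exact ⟨h1, B, h2, h3⟩

/-- vanishing above the dimension on finite unions -/
theorem van_un [T2Space X] {n : ℕ} {G : Set (Set X)} (hG : Good n G) (k : ℕ) :
    ∀ L : List (Set X), L.length = k → (∀ A ∈ L, A ∈ G) → ∀ r, n + 1 < r →
      ∀ f : List X → ℤ, Zc r (un L) f → Bc r (un L) f := by
  induction k with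
  | zero =>
    intro L hL _ r hr f hf
    obtain rfl := List.length_eq_zero_iff.1 hL
    obtain ⟨s, rfl⟩ : ∃ s, r = s + 1 := ⟨r - 1, by omega⟩
    have : un ([] : List (Set X)) = ∅ := by ext x; simp [un]
    rw [this] at hf ⊢
    exact (Bc.zero _ _).congr (Sp.eqn_zero hf.1).symm
  | succ k ih =>
    intro L hL hLG r hr f hf
    match L, hL with
    | A :: L, hL =>
      have hL' : L.length = k := by simpa using hL
      have hAG : A ∈ G := hLG A List.mem_cons_self
      have hLG' : ∀ B ∈ L, B ∈ G := fun B hB => hLG B (List.mem_cons_of_mem _ hB)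
      obtain ⟨s, rfl⟩ : ∃ s, r = s + 1 := ⟨r - 1, by omega⟩
      rw [un_cons] at hf ⊢
      obtain ⟨f₁, f₂, h1, h2, h3⟩ := split_zc (hG.op A hAG) (isOpen_un hG hLG') (fun h hh => by
        rw [inter_un] at hh ⊢
        refine ih _ (by simp [hL']) ?_ (s + 2) (by omega) h hh
        intro B hB
        obtain ⟨C, hC, rfl⟩ := List.mem_map.1 hB
        exact hG.inter A hAG C (hLG' C hC)) hf
      have b1 := (hG.van A hAG (s + 1) hr f₁ h1).mono (subset_union_left (t := un L))
      have b2 := (ih L hL' hLG' (s + 1) hr f₂ h2).mono (subset_union_right (s := A))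
      exact (b1.add b2).congr h3.symm

/-- localisation of top classes: a property of cocycles of degree `n` which holds in the good
sets and is additive holds for all cocycles with support in a finite union of good sets -/
theorem ind_un [T2Space X] {n : ℕ} {G : Set (Set X)} (hG : Good n G)
    {Q : (List X → ℤ) → Prop} (h0 : Q fun _ => 0)
    (h1 : ∀ A ∈ G, ∀ f, Zc (n + 1) A f → Q f)
    (h2 : ∀ f g, Zc (n + 1) univ f → Zc (n + 1) univ g → Q f → Q g → Q fun l => f l + g l)
    (h3 : ∀ f g, Eqn (n + 1) f g → Zc (n + 1) univ f → Q f → Q g) :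
    ∀ L : List (Set X), (∀ A ∈ L, A ∈ G) → ∀ f, Zc (n + 1) (un L) f → Q f := by
  intro L
  induction L with
  | nil =>
    intro _ f hf
    have : un ([] : List (Set X)) = ∅ := by ext x; simp [un]
    rw [this] at hf
    exact h3 _ f (Sp.eqn_zero hf.1).symm (Zc.zero _ _) h0
  | cons A L ih =>
    intro hLG f hf
    have hAG : A ∈ G := hLG A List.mem_cons_self
    have hLG' : ∀ B ∈ L, B ∈ G := fun B hB => hLG B (List.mem_cons_of_mem _ hB)
    rw [un_cons] at hf
    obtain ⟨f₁, f₂, a1, a2, a3⟩ := split_zc (hG.op A hAG) (isOpen_un hG hLG') (fun h hh => by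
      rw [inter_un] at hh ⊢
      refine van_un hG L.length _ (by simp) ?_ (n + 2) (by omega) h hh
      intro B hB
      obtain ⟨C, hC, rfl⟩ := List.mem_map.1 hB
      exact hG.inter A hAG C (hLG' C hC)) hf
    have b1 : Zc (n + 1) univ f₁ := a1.mono (subset_univ _)
    have b2 : Zc (n + 1) univ f₂ := a2.mono (subset_univ _)
    exact h3 _ f a3.symm (b1.add b2) (h2 f₁ f₂ b1 b2 (h1 A hAG f₁ a1) (ih hLG' f₂ a2))

/-- every compact set lies in a finite union of members of an open cover -/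
theorem exists_un {n : ℕ} {G : Set (Set X)} (hG : Good n G) (hc : ∀ x, ∃ A ∈ G, x ∈ A)
    {K : Set X} (hK : IsCompact K) : ∃ L : List (Set X), (∀ A ∈ L, A ∈ G) ∧ K ⊆ un L := by
  refine hK.induction_on (p := fun D => ∃ L : List (Set X), (∀ A ∈ L, A ∈ G) ∧ D ⊆ un L)
    ⟨[], by simp, by simp⟩ ?_ ?_ ?_
  · rintro s t hst ⟨L, h1, h2⟩
    exact ⟨L, h1, hst.trans h2⟩
  · rintro s t ⟨L, h1, h2⟩ ⟨L', h1', h2'⟩
    refine ⟨L ++ L', fun A hA => ?_, ?_⟩
    · rcases List.mem_append.1 hA with h | h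
      · exact h1 A h
      · exact h1' A h
    · rintro x (hx | hx)
      · obtain ⟨A, hA, hxA⟩ := h2 hx
        exact ⟨A, List.mem_append_left _ hA, hxA⟩
      · obtain ⟨A, hA, hxA⟩ := h2' hx
        exact ⟨A, List.mem_append_right _ hA, hxA⟩
  · intro x _
    obtain ⟨A, hA, hxA⟩ := hc x
    refine ⟨A, mem_nhdsWithin_of_mem_nhds ((hG.op A hA).mem_nhds hxA), [A], by simpa using hA, ?_⟩
    intro y hy
    exact ⟨A, by simp, hy⟩

/-- localisation of top classes, compact supports -/
theorem ind_compact [T2Space X] {n : ℕ} {G : Set (Set X)} (hG : Good n G)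
    (hc : ∀ x, ∃ A ∈ G, x ∈ A) {Q : (List X → ℤ) → Prop} (h0 : Q fun _ => 0)
    (h1 : ∀ A ∈ G, ∀ f, Zc (n + 1) A f → Q f)
    (h2 : ∀ f g, Zc (n + 1) univ f → Zc (n + 1) univ g → Q f → Q g → Q fun l => f l + g l)
    (h3 : ∀ f g, Eqn (n + 1) f g → Zc (n + 1) univ f → Q f → Q g)
    {f : List X → ℤ} (hf : Zc (n + 1) univ f) : Q f := by
  obtain ⟨⟨a0, K, hK, -, hK0⟩, hcl⟩ := hf
  obtain ⟨L, hL, hKL⟩ := exists_un hG hc hK
  exact ind_un hG h0 h1 h2 h3 L hL f ⟨⟨a0, K, hK, hKL, hK0⟩, hcl⟩

/-- **integrality** of a functional which takes the value `1` on the generators of the elementary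
open sets -/
theorem integral [T2Space X] {R : Type*} [Ring R] {E : (List X → ℤ) → R} (hE : EFun X R E)
    (hEE : ∀ f g, Eqn 5 f g → Zc 5 univ f → E f = E g) {G : Set (Set X)}
    (hop : ∀ A ∈ G, IsOpen A) (hin : ∀ A ∈ G, ∀ B ∈ G, A ∩ B ∈ G)
    (hloc : ∀ A ∈ G, A.Nonempty → ∃ T, LocOn 4 A T ∧ E T = 1)
    (hc : ∀ x, ∃ A ∈ G, x ∈ A) {f : List X → ℤ} (hf : Zc 5 univ f) : ∃ m : ℤ, E f = m := by
  have hG : Good 4 G := by
    refine ⟨hop, hin, fun A hA r hr f hf => ?_⟩
    rcases A.eq_empty_or_nonempty with h | h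
    · subst h
      obtain ⟨s, rfl⟩ : ∃ s, r = s + 1 := ⟨r - 1, by omega⟩
      exact (Bc.zero _ _).congr (Sp.eqn_zero hf.1).symm
    · obtain ⟨T, hT, -⟩ := hloc A hA h
      exact hT.van r (by omega) f hf
  refine ind_compact hG hc (Q := fun f => ∃ m : ℤ, E f = m) ⟨0, by simpa using hE.zero⟩ ?_ ?_ ?_ hf
  · intro A hA f hf
    rcases A.eq_empty_or_nonempty with h | h
    · subst h
      refine ⟨0, ?_⟩
      rw [hEE f _ (Sp.eqn_zero hf.1) (hf.mono (subset_univ _)), hE.zero]
      simp
    · obtain ⟨T, hT, hT1⟩ := hloc A hA h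
      obtain ⟨m, hm, -⟩ := hE.exists_int hT hT1 hf
      exact ⟨m, hm⟩
  · rintro f g hf hg ⟨m, hm⟩ ⟨m', hm'⟩
    exact ⟨m + m', by rw [hE.add f g hf hg, hm, hm']; push_cast; rfl⟩
  · rintro f g hfg hf ⟨m, hm⟩
    exact ⟨m, by rw [← hEE f g hfg hf, hm]⟩

end Crest.Agent.R275.PDM412
end
end

-- ▼ part R275/PDB_412

set_option autoImplicit false
set_option linter.unusedSectionVars false

noncomputable section

open Set Topology Filter

namespace Crest.Agent.R275.PDB412

open PD412 PDA412 PDM412 ASN627 Zig470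

section ev

variable {M : Type*} [TopologicalSpace M]

theorem efun_of_ev [T2Space M] {E : (List M → ℤ) → ℝ} (hE : Ev 3 E) : EFun M ℝ E := by
  refine ⟨fun f g hf hg => ?_, fun f hf => ?_⟩
  · obtain ⟨h1, h2, -⟩ := zc_iff.1 hf
    obtain ⟨h1', h2', -⟩ := zc_iff.1 hg
    exact hE.add f g h1 h1' h2 h2'
  · obtain ⟨b, h1, -, h2⟩ := bc_iff.1 hf
    rw [hE.congr _ _ h2]
    exact hE.dl b h1

theorem locW_of_locOn [T2Space M] {E : (List M → ℤ) → ℝ} (hE : Ev 3 E) {W : Set M}
    {T : List M → ℤ} (h : LocOn 4 W T) (hT : E T = 1) : LocW 3 E W := by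
  refine ⟨?_, ?_, ?_, ?_⟩
  · obtain ⟨h1, h2, h3⟩ := zc_iff.1 h.zc
    exact ⟨T, h1, h3, h2, hT⟩
  · intro f h1 h2 h3 h4
    obtain ⟨b, b1, b2, b3⟩ := bc_iff.1
      ((efun_of_ev hE).bc_of_eq_zero h hT (zc_iff.2 ⟨h1, h3, h2⟩) h4)
    exact ⟨b, b2, b1, b3⟩
  · intro q hq f h1 h2 h3
    obtain ⟨b, b1, b2, b3⟩ := LocOn.van' h (by omega) h1 h3 h2
    exact ⟨b, b2, b1, b3⟩
  · intro f h1 h2 h3
    exact LocOn.van0 h h1 h3 h2

end ev

section geo

open Geo GC293

variable {M : Type} [TopologicalSpace M] [T2Space M] [LocallyCompactSpace M]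

/-- normalisation of a functional at all points in all charts -/
def Nrm (A : Atl 2 M) {R : Type*} [One R] (E : (List M → ℤ) → R) : Prop :=
  ∀ i p, p ∈ (A.e i).source → ∃ V ∈ 𝓝 p, closure V ⊆ (A.e i).source ∧ E (tauP (A.e i) p V) = 1

theorem locOn_goodA {A : Atl 2 M} (hA : GoodA A) {s : Set A.ι} (hs : s.Finite) {i : A.ι}
    (hi : i ∈ s) {p : M} (hp : p ∈ inter A s) {V : Set M} (hV : V ∈ 𝓝 p)
    (hVe : closure V ⊆ (A.e i).source) : LocOn 4 (inter A s) (tauP (A.e i) p V) := by
  have ho : IsOpen (inter A s) := by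
    have : inter A s = ⋂ j ∈ s, (A.e j).source := by ext x; simp [inter]
    rw [this]
    exact hs.isOpen_biInter fun j _ => (A.e j).open_source
  refine locOn_tauP ho (fun x hx => hx i hi) ?_ hp hV hVe
  rw [image_inter hi]
  exact hA.convex s i

theorem exists_locOn {A : Atl 2 M} (hA : GoodA A) {R : Type*} [One R] {E : (List M → ℤ) → R}
    (hN : Nrm A E) {s : Set A.ι} (hs : s.Finite) (hs0 : s.Nonempty) (hne : (inter A s).Nonempty) :
    ∃ T, LocOn 4 (inter A s) T ∧ E T = 1 := by
  obtain ⟨i, hi⟩ := hs0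
  obtain ⟨p, hp⟩ := hne
  obtain ⟨V, hV, hVe, h⟩ := hN i p (hp i hi)
  exact ⟨_, locOn_goodA hA hs hi hp hV hVe, h⟩

/-- input of 470's zigzag for a good atlas -/
theorem locW_goodA {A : Atl 2 M} (hA : GoodA A) {E : (List M → ℤ) → ℝ} (hE : Ev 3 E)
    (hN : Nrm A E) (J : List A.ι) (hJ : J ≠ []) (hn : Nv (fun i => (A.e i).source) J) :
    LocW 3 E (UJ (fun i => (A.e i).source) J) := by
  have e : UJ (fun i => (A.e i).source) J = inter A {i | i ∈ J} := by
    ext x; rfl
  have hfin : ({i | i ∈ J} : Set A.ι).Finite := J.finite_toSet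
  have hne : ({i | i ∈ J} : Set A.ι).Nonempty := by
    obtain ⟨i, hi⟩ := List.exists_mem_of_ne_nil J hJ
    exact ⟨i, hi⟩
  unfold Nv at hn
  rw [e] at hn ⊢
  obtain ⟨T, hT, hT1⟩ := exists_locOn hA hN hfin hne hn
  exact locW_of_locOn hE hT hT1

/-- a normalised functional is integral on closed `4`-cochains with compact support -/
theorem integral_goodA {A : Atl 2 M} (hA : GoodA A) {E : (List M → ℤ) → ℝ} (hE : Ev 3 E)
    (hN : Nrm A E) {f : List M → ℤ} (hf : Cl 4 f) (hK : IsCompact (supp 4 f)) :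
    ∃ m : ℤ, E f = m := by
  refine integral (G := {W | ∃ s : Set A.ι, s.Finite ∧ s.Nonempty ∧ W = inter A s})
    (efun_of_ev hE) (fun f g h _ => hE.congr f g (eqN_iff.2 h)) ?_ ?_ ?_ ?_
    (zc_iff.2 ⟨hf, hK, subset_univ _⟩)
  · rintro _ ⟨s, hs, -, rfl⟩
    have : inter A s = ⋂ j ∈ s, (A.e j).source := by ext x; simp [inter]
    rw [this]
    exact hs.isOpen_biInter fun j _ => (A.e j).open_source
  · rintro _ ⟨s, hs, hs0, rfl⟩ _ ⟨t, ht, -, rfl⟩
    refine ⟨s ∪ t, hs.union ht, hs0.mono subset_union_left, ?_⟩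
    ext x
    simp only [inter, mem_inter_iff, mem_ofPred_eq, mem_union]
    exact ⟨fun h i hi => hi.elim (h.1 i) (h.2 i), fun h => ⟨fun i hi => h i (Or.inl hi),
      fun i hi => h i (Or.inr hi)⟩⟩
  · rintro _ ⟨s, hs, hs0, rfl⟩ hne
    exact exists_locOn hA hN hs hs0 hne
  · intro x
    obtain ⟨i, hi⟩ := A.cover x
    refine ⟨_, ⟨{i}, finite_singleton i, singleton_nonempty i, rfl⟩, ?_⟩
    rintro j rfl
    exact hi

end geo

end Crest.Agent.R275.PDB412
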