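import Crest.Agent.R275.SNerve_865
import Crest.Agent.R275.ASN_627
import Mathlib.Analysis.Convex.Contractible

-- ▼ part R275/ASConv_293
section

/-!
# R275, block K (helper293): Alexander-Spanier cohomology of convex sets vanishes in degrees 1, 2

`AS1 U`, `AS2 U` : every cochain which is closed near the points of `U` is exact near the points of
`U` (degree 1, 2; functions on lists, germs near the diagonal, conventions of `ASN627`).

A cochain near the diagonal is a Čech cochain of the cover by small balls indexed by all the points;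
so this follows from `SNerve865` (singular cohomology = Čech cohomology).
-/

set_option autoImplicit false
set_option linter.unusedSectionVars false

open Set Filter Topology Metric
open Crest.GeometryTopology.DeckCochains

namespace Crest.Agent.R275.ASConv293

open ASZ627 ASN627

noncomputable section

/-! ### lists of length two, three, four -/

section lists

variable {X : Type*} {A : Type*} [AddCommGroup A]

theorem dl_two (c : List X → A) (x y : X) : dl c [x, y] = c [y] - c [x] := by simp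

theorem dl_three (c : List X → A) (x y z : X) :
    dl c [x, y, z] = c [y, z] - c [x, z] + c [x, y] := by simp; abel

theorem dl_four (c : List X → A) (x y z t : X) :
    dl c [x, y, z, t] = c [y, z, t] - c [x, z, t] + c [x, y, t] - c [x, y, z] := by simp; abel

/-- the 0-cochain of a function -/
def of0 (f : X → A) : List X → A
  | [x] => f x
  | _ => 0

/-- the 1-cochain of a function of two variables -/
def of1 (f : X → X → A) : List X → A
  | [x, y] => f x y
  | _ => 0

@[simp] theorem of0_apply (f : X → A) (x : X) : of0 f [x] = f x := rfl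
@[simp] theorem of1_apply (f : X → X → A) (x y : X) : of1 f [x, y] = f x y := rfl

theorem exists_two {l : List X} (h : l.length = 2) : ∃ x y, l = [x, y] := List.length_eq_two.1 h

theorem exists_three {l : List X} (h : l.length = 3) : ∃ x y z, l = [x, y, z] :=
  List.length_eq_three.1 h

theorem exists_four {l : List X} (h : l.length = 4) : ∃ x y z t, l = [x, y, z, t] := by
  match l, h with
  | [x, y, z, t], _ => exact ⟨x, y, z, t, rfl⟩

end lists

section acyc

variable {X : Type*} [TopologicalSpace X] (A : Type*) [AddCommGroup A]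

/-- degree one: closed near the points of `U` implies exact near the points of `U` -/
def AS1 (U : Set X) : Prop :=
  ∀ η : List X → A, (∀ p ∈ U, NearAt (fun l => l.length = 3 → dl η l = 0) p) →
    ∃ f : X → A, ∀ p ∈ U, NearAt (fun l => l.length = 2 → η l = dl (of0 f) l) p

/-- degree two: closed near the points of `U` implies exact near the points of `U` -/
def AS2 (U : Set X) : Prop :=
  ∀ η : List X → A, (∀ p ∈ U, NearAt (fun l => l.length = 4 → dl η l = 0) p) →
    ∃ f : X → X → A, ∀ p ∈ U, NearAt (fun l => l.length = 3 → η l = dl (of1 f) l) p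

end acyc

/-! ### fine covers by balls with Lipschitz radius -/

section fine

variable {X : Type*} [PseudoMetricSpace X]

/-- scale of a family of neighbourhoods -/
def scl (N : X → Set X) (p : X) : ℝ := sSup {r : ℝ | r ≤ 1 ∧ ∃ z, ball p r ⊆ N z}

variable {N : X → Set X}

theorem scl_bdd (p : X) : BddAbove {r : ℝ | r ≤ 1 ∧ ∃ z, ball p r ⊆ N z} := ⟨1, fun _ h => h.1⟩

theorem scl_pos (hN : ∀ p, N p ∈ 𝓝 p) (p : X) : 0 < scl N p := by
  obtain ⟨r, hr, h⟩ := Metric.mem_nhds_iff.1 (hN p)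
  have h1 : min r 1 ∈ {r : ℝ | r ≤ 1 ∧ ∃ z, ball p r ⊆ N z} :=
    ⟨min_le_right _ _, p, (ball_subset_ball (min_le_left _ _)).trans h⟩
  exact (lt_min hr one_pos).trans_le (le_csSup (scl_bdd p) h1)

theorem exists_of_lt_scl {p : X} {r : ℝ} (h : r < scl N p) :
    ∃ z, ball p r ⊆ N z := by
  have hne : {r : ℝ | r ≤ 1 ∧ ∃ z, ball p r ⊆ N z}.Nonempty :=
    ⟨0, zero_le_one, p, by simp⟩
  obtain ⟨s, ⟨-, z, hz⟩, hs⟩ := exists_lt_of_lt_csSup hne h
  exact ⟨z, (ball_subset_ball hs.le).trans hz⟩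

theorem scl_le (N : X → Set X) (p q : X) : scl N p ≤ scl N q + dist p q := by
  by_contra hlt
  push Not at hlt
  have hlt' : scl N q + dist p q < scl N p := hlt
  obtain ⟨r, hr1, hr2⟩ := exists_between hlt'
  have hne : {r : ℝ | r ≤ 1 ∧ ∃ z, ball p r ⊆ N z}.Nonempty :=
    ⟨0, zero_le_one, p, by simp⟩
  obtain ⟨s, ⟨hs1, z, hz⟩, hs⟩ := exists_lt_of_lt_csSup hne hr2
  have h1 : s - dist p q ∈ {r : ℝ | r ≤ 1 ∧ ∃ z, ball q r ⊆ N z} := by
    refine ⟨by linarith [dist_nonneg (x := p) (y := q)], z, ?_⟩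
    refine Subset.trans ?_ hz
    apply ball_subset_ball'
    rw [dist_comm]
    linarith
  have h2 := le_csSup (scl_bdd q) h1
  change s - dist p q ≤ scl N q at h2
  linarith

/-- the fine cover -/
def wb (N : X → Set X) (p : X) : Set X := ball p (scl N p / 8)

theorem mem_wb_self (hN : ∀ p, N p ∈ 𝓝 p) (p : X) : p ∈ wb N p :=
  mem_ball_self (by have := scl_pos hN p; linarith)

theorem star_wb (hN : ∀ p, N p ∈ 𝓝 p) (x : X) : ∃ z, ∀ p, x ∈ wb N p → wb N p ⊆ N z := by
  have hx := scl_pos hN x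
  obtain ⟨z, hz⟩ := exists_of_lt_scl (N := N) (p := x) (r := scl N x / 2) (by linarith)
  refine ⟨z, fun p hp y hy => hz ?_⟩
  have h1 : dist x p < scl N p / 8 := hp
  have h2 : dist y p < scl N p / 8 := hy
  have h3 := scl_le N p x
  rw [mem_ball]
  have h4 : dist y x ≤ dist y p + dist x p := by
    rw [dist_comm x p]; exact dist_triangle _ _ _
  rw [dist_comm] at h3
  linarith

theorem eventually_mem_wb (hN : ∀ p, N p ∈ 𝓝 p) (x : X) : ∀ᶠ p in 𝓝 x, x ∈ wb N p := by
  have hx := scl_pos hN x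
  filter_upwards [ball_mem_nhds x (show 0 < scl N x / 16 by linarith)] with p hp
  have h1 : dist p x < scl N x / 16 := hp
  have h2 := scl_le N x p
  change dist x p < scl N p / 8
  rw [dist_comm x p] at h2 ⊢
  linarith

end fine

/-! ### convex open sets -/

section convex

open SNerve865
open Crest.Agent.R251.Orb (SIn)

variable {A : Type} [AddCommGroup A] {E : Type} [NormedAddCommGroup E] [NormedSpace ℝ E]

theorem ec_of_convex {C : Set E} {W : Set C} (h : Convex ℝ ((Subtype.val : C → E) '' W)) :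
    EC W := by
  intro hne
  have h1 : ContractibleSpace ((Subtype.val : C → E) '' W) := h.contractibleSpace (hne.image _)
  exact (Topology.IsEmbedding.subtypeVal.homeomorphImage W).contractibleSpace

theorem image_wb {C : Set E} (N : C → Set C) (p : C) :
    (Subtype.val : C → E) '' wb N p = C ∩ ball (p : E) (scl N p / 8) := by
  ext y
  constructor
  · rintro ⟨z, hz, rfl⟩
    exact ⟨z.2, hz⟩
  · rintro ⟨hy, hy'⟩
    exact ⟨⟨y, hy⟩, hy', rfl⟩

/-- the cover of a convex set by small balls, indexed by the points -/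
def cvBall {C : Set E} (hC : Convex ℝ C) {N : C → Set C} (hN : ∀ p, N p ∈ 𝓝 p) : Cv C C where
  U := wb N
  isOpen _ := isOpen_ball
  cover x := ⟨x, mem_wb_self hN x⟩
  e1 i := ec_of_convex (by
    rw [image_wb]
    exact hC.inter (convex_ball _ _))
  e2 i j := ec_of_convex (by
    rw [image_inter Subtype.val_injective, image_wb, image_wb]
    exact (hC.inter (convex_ball _ _)).inter (hC.inter (convex_ball _ _)))
  e3 i j l := ec_of_convex (by
    rw [image_inter Subtype.val_injective, image_inter Subtype.val_injective, image_wb, image_wb,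
      image_wb]
    exact ((hC.inter (convex_ball _ _)).inter (hC.inter (convex_ball _ _))).inter
      (hC.inter (convex_ball _ _)))

theorem exact_univ {C : Set E} (hC : Convex ℝ C) {n : ℕ} (φ : SingSimplex C (n + 1) → A)
    (hφ : cochainCobdry φ = 0) : ∃ ψ : SingSimplex C n → A, cochainCobdry ψ = φ := by
  obtain ⟨ψ, hψ⟩ := exact_on (W := (univ : Set C)) (ec_of_convex (by simpa using hC)) φ
    (fun s _ => by rw [hφ]; rfl)
  refine ⟨ψ, ?_⟩
  funext s
  exact hψ s (fun _ => mem_univ _)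

theorem as2_univ {C : Set E} (hC : Convex ℝ C) : AS2 A (univ : Set C) := by
  intro η hη
  choose N hN hN' using fun p : C => hη p (mem_univ p)
  set K := cvBall hC hN with hK
  have hc : K.Coc2 (fun p q r => η [p, q, r]) := by
    rintro p q r t ⟨x, ⟨⟨hp, hq⟩, hr⟩, ht⟩
    obtain ⟨z, hz⟩ := star_wb hN x
    rw [← dl_four]
    refine hN' z _ ?_ rfl
    intro y hy
    simp only [List.mem_cons, List.not_mem_nil, or_false] at hy
    rcases hy with rfl | rfl | rfl | rfl
    · exact hz _ hp (mem_wb_self hN _)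
    · exact hz _ hq (mem_wb_self hN _)
    · exact hz _ hr (mem_wb_self hN _)
    · exact hz _ ht (mem_wb_self hN _)
  obtain ⟨φ, hφ, hrel⟩ := K.exists_sing2 _ hc
  obtain ⟨m, hm⟩ := K.cob2_of_exact hrel (exact_univ hC φ hφ)
  refine ⟨m, fun p _ => ⟨_, eventually_mem_wb hN p, fun l hl hl3 => ?_⟩⟩
  obtain ⟨x, y, w, rfl⟩ := exists_three hl3
  have h1 : p ∈ wb N x := hl x (by simp)
  have h2 : p ∈ wb N y := hl y (by simp)
  have h3 : p ∈ wb N w := hl w (by simp)
  rw [dl_three, of1_apply, of1_apply, of1_apply]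
  exact hm x y w ⟨p, ⟨h1, h2⟩, h3⟩

theorem as1_univ {C : Set E} (hC : Convex ℝ C) : AS1 A (univ : Set C) := by
  intro η hη
  choose N hN hN' using fun p : C => hη p (mem_univ p)
  set K := cvBall hC hN with hK
  have hc : K.Coc1 (fun p q => η [p, q]) := by
    rintro p q r ⟨x, ⟨hp, hq⟩, hr⟩
    obtain ⟨z, hz⟩ := star_wb hN x
    rw [← dl_three]
    refine hN' z _ ?_ rfl
    intro y hy
    simp only [List.mem_cons, List.not_mem_nil, or_false] at hy
    rcases hy with rfl | rfl | rfl
    · exact hz _ hp (mem_wb_self hN _)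
    · exact hz _ hq (mem_wb_self hN _)
    · exact hz _ hr (mem_wb_self hN _)
  obtain ⟨φ, hφ, hrel⟩ := K.exists_sing1 _ hc
  obtain ⟨m, hm⟩ := K.cob1_of_exact hrel (exact_univ hC φ hφ)
  refine ⟨m, fun p _ => ⟨_, eventually_mem_wb hN p, fun l hl hl3 => ?_⟩⟩
  obtain ⟨x, y, rfl⟩ := exists_two hl3
  have h1 : p ∈ wb N x := hl x (by simp)
  have h2 : p ∈ wb N y := hl y (by simp)
  rw [dl_two, of0_apply, of0_apply]
  exact hm x y ⟨p, h1, h2⟩

end convex

/-! ### transport -/

section transport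

variable {X Z : Type*} [TopologicalSpace X] [TopologicalSpace Z] {A : Type*} [AddCommGroup A]

theorem NearAt.comap {P : List X → Prop} {g : Z → X} {z : Z} (h : NearAt P (g z))
    (hg : ContinuousAt g z) : NearAt (fun l => P (l.map g)) z := by
  obtain ⟨V, hV, h⟩ := h
  refine ⟨g ⁻¹' V, hg hV, fun l hl => h _ fun x hx => ?_⟩
  obtain ⟨y, hy, rfl⟩ := List.mem_map.1 hx
  exact hl y hy

theorem AS2.transport (hZ : AS2 A (univ : Set Z)) {U : Set X} (hU : IsOpen U) (g : Z → X)
    (hg : Continuous g) (h : X → Z) (hh : ContinuousOn h U) (hgh : ∀ x ∈ U, g (h x) = x)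
    (hgU : ∀ z, g z ∈ U) : AS2 A U := by
  intro η hη
  obtain ⟨f, hf⟩ := hZ (fun l => η (l.map g)) (fun z _ => by
    refine (NearAt.comap (hη (g z) (hgU z)) hg.continuousAt).mono fun l hl hl4 => ?_
    rw [dl_map]
    exact hl (by simpa using hl4))
  refine ⟨fun x y => f (h x) (h y), fun p hp => ?_⟩
  have h1 := NearAt.comap (hf (h p) (mem_univ _)) (hh.continuousAt (hU.mem_nhds hp))
  refine h1.mono₂ (nearAt_mem (hU.mem_nhds hp)) fun l h2 h3 h4 => ?_
  obtain ⟨x, y, w, rfl⟩ := exists_three h4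
  have h5 := h2 (by simp)
  simp only [List.map_cons, List.map_nil, dl_three, of1_apply] at h5 ⊢
  rw [hgh x (h3 x (by simp)), hgh y (h3 y (by simp)), hgh w (h3 w (by simp))] at h5
  exact h5

theorem AS1.transport (hZ : AS1 A (univ : Set Z)) {U : Set X} (hU : IsOpen U) (g : Z → X)
    (hg : Continuous g) (h : X → Z) (hh : ContinuousOn h U) (hgh : ∀ x ∈ U, g (h x) = x)
    (hgU : ∀ z, g z ∈ U) : AS1 A U := by
  intro η hη
  obtain ⟨f, hf⟩ := hZ (fun l => η (l.map g)) (fun z _ => by
    refine (NearAt.comap (hη (g z) (hgU z)) hg.continuousAt).mono fun l hl hl4 => ?_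
    rw [dl_map]
    exact hl (by simpa using hl4))
  refine ⟨fun x => f (h x), fun p hp => ?_⟩
  have h1 := NearAt.comap (hf (h p) (mem_univ _)) (hh.continuousAt (hU.mem_nhds hp))
  refine h1.mono₂ (nearAt_mem (hU.mem_nhds hp)) fun l h2 h3 h4 => ?_
  obtain ⟨x, y, rfl⟩ := exists_two h4
  have h5 := h2 (by simp)
  simp only [List.map_cons, List.map_nil, dl_two, of0_apply] at h5 ⊢
  rw [hgh x (h3 x (by simp)), hgh y (h3 y (by simp))] at h5
  exact h5

theorem as2_empty : AS2 A (∅ : Set X) := fun _ _ => ⟨fun _ _ => 0, fun _ hp => absurd hp id⟩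

theorem as1_empty : AS1 A (∅ : Set X) := fun _ _ => ⟨fun _ => 0, fun _ hp => absurd hp id⟩

end transport

section chart

variable {X : Type*} [TopologicalSpace X] {A : Type} [AddCommGroup A] {E : Type}
  [NormedAddCommGroup E] [NormedSpace ℝ E]

/-- an open set with convex image in a chart is acyclic in degrees one and two -/
theorem as_of_chart (e : OpenPartialHomeomorph X E) {U : Set X} (hU : IsOpen U)
    (hUe : U ⊆ e.source) (hc : Convex ℝ (e '' U)) : AS1 A U ∧ AS2 A U := by
  classical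
  rcases U.eq_empty_or_nonempty with rfl | ⟨x₀, hx₀⟩
  · exact ⟨as1_empty, as2_empty⟩
  let g : (e '' U) → X := fun z => e.symm z
  let h : X → (e '' U) := fun x => if hx : x ∈ U then ⟨e x, mem_image_of_mem e hx⟩ else
    ⟨e x₀, mem_image_of_mem e hx₀⟩
  have hsub : e '' U ⊆ e.target := by
    rintro _ ⟨x, hx, rfl⟩
    exact e.map_source (hUe hx)
  have hg : Continuous g := by
    have h1 : ContinuousOn e.symm (e '' U) := e.continuousOn_symm.mono hsub
    exact continuousOn_iff_continuous_domRestrict.1 h1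
  have hh1 : ∀ x (hx : x ∈ U), h x = ⟨e x, mem_image_of_mem e hx⟩ := fun x hx => dif_pos hx
  have hh : ContinuousOn h U := by
    rw [Topology.IsInducing.subtypeVal.continuousOn_iff]
    refine (e.continuousOn.mono hUe).congr fun x hx => ?_
    simp only [Function.comp, hh1 x hx]
  have hgh : ∀ x ∈ U, g (h x) = x := by
    intro x hx
    rw [hh1 x hx]
    exact e.left_inv (hUe hx)
  have hgU : ∀ z, g z ∈ U := by
    rintro ⟨_, ⟨x, hx, rfl⟩⟩
    change e.symm (e x) ∈ U
    rwa [e.left_inv (hUe hx)]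
  exact ⟨AS1.transport (as1_univ hc) hU g hg h hh hgh hgU,
    AS2.transport (as2_univ hc) hU g hg h hh hgh hgU⟩

end chart

end

end Crest.Agent.R275.ASConv293
private theorem rz_89d8812bf2 : type_of% @_root_.Crest.Agent.R275.ASConv293.of0.eq_1 := @_root_.Crest.Agent.R275.ASConv293.of0.eq_1 -- L42
private theorem rz_43712c6052 : type_of% @_root_.Crest.Agent.R275.ASConv293.of1.eq_1 := @_root_.Crest.Agent.R275.ASConv293.of1.eq_1 -- L47
end

-- ▼ part R275/ASNv_293

/-!
# R275, block K (helper293): from Alexander-Spanier cocycles to nerve cocycles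

`Lab U lab` : robust labels (near `p` only finitely many labels occur, all with `p ∈ U v`).

`as_to_nerve2` : on a good cover every closed AS 2-cochain `η` is `c ∘ lab + dl β`, `c` a Čech
2-cocycle of the cover; `c` and `β` vanish on the indices outside any set `F` of indices containing
all the `v` whose `U v` meets the support of `η`.  `as_to_nerve1` : the same in degree one.
`nerve_to_as` direction: `cl_label2`, `cl_label1`, injectivity `cob1_of_label`, `cob2_of_label`.
-/

set_option autoImplicit false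
set_option linter.unusedSectionVars false

open Set Filter Topology

namespace Crest.Agent.R275.ASConv293

open ASZ627 ASN627

noncomputable section

variable {X : Type*} [TopologicalSpace X] {V : Type*} {A : Type*} [AddCommGroup A]

/-- the 2-cochain of a function of three variables -/
def of2 {Y : Type*} (f : Y → Y → Y → A) : List Y → A
  | [x, y, z] => f x y z
  | _ => 0

@[simp] theorem of2_apply {Y : Type*} (f : Y → Y → Y → A) (x y z : Y) : of2 f [x, y, z] = f x y z :=
  rfl

/-- robust labels -/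
def Lab (U : V → Set X) (lab : X → V) : Prop :=
  ∀ p, ∃ F : Finset V, (∀ v ∈ F, p ∈ U v) ∧ ∀ᶠ y in 𝓝 p, lab y ∈ F

theorem Lab.mem {U : V → Set X} {lab : X → V} (h : Lab U lab) (p : X) : p ∈ U (lab p) := by
  obtain ⟨F, h1, h2⟩ := h p
  exact h1 _ h2.self_of_nhds

/-- a locally constant function on a preconnected set is constant -/
theorem const_of_preconnected {S : Set X} (hS : IsPreconnected S) {f : X → A}
    (hf : ∀ p ∈ S, ∀ᶠ y in 𝓝 p, f y = f p) {x y : X} (hx : x ∈ S) (hy : y ∈ S) : f x = f y := by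
  let _ : TopologicalSpace A := ⊥
  have _ : DiscreteTopology A := ⟨rfl⟩
  refine hS.constant (f := f) ?_ hx hy
  intro p hp
  have h1 : ContinuousAt f p := continuousAt_const.congr (f := fun _ => f p)
    ((hf p hp).mono fun y hy => hy.symm)
  exact h1.continuousWithinAt



section deg2

variable {U : V → Set X}

/-- the zigzag in degree two -/
theorem exists_zigzag2 (h2 : ∀ v, AS2 A (U v))
    (h1 : ∀ v w, AS1 A (U v ∩ U w)) {η : List X → A} (hη : Cl 2 η) (F : Set V)
    (hF : ∀ v, v ∉ F → ∀ p ∈ U v, p ∉ supp 2 η) :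
    ∃ (b : V → X → X → A) (e : V → V → X → A),
      (∀ v, ∀ p ∈ U v, NearAt (fun l => l.length = 3 → η l = dl (of1 (b v)) l) p) ∧
      (∀ v w, ∀ p ∈ U v ∩ U w, NearAt (fun l => l.length = 2 →
        of1 (b w) l - of1 (b v) l = dl (of0 (e v w)) l) p) ∧
      (∀ v, v ∉ F → b v = 0) ∧ ∀ v w, v ∉ F → w ∉ F → e v w = 0 := by
  classical
  have hb : ∀ v, ∃ b : X → X → A,
      (∀ p ∈ U v, NearAt (fun l => l.length = 3 → η l = dl (of1 b) l) p) ∧ (v ∉ F → b = 0) := by
    intro v
    by_cases hv : v ∈ F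
    · obtain ⟨b, hb⟩ := h2 v η fun p _ => hη p
      exact ⟨b, hb, fun h => absurd hv h⟩
    · refine ⟨0, fun p hp => ?_, fun _ => rfl⟩
      refine (notMem_supp.1 (hF v hv p hp)).mono fun l hl hl3 => ?_
      rw [hl hl3]
      obtain ⟨x, y, z, rfl⟩ := exists_three hl3
      rw [dl_three]
      simp
  choose b hb hb0 using hb
  have he : ∀ v w, ∃ e : X → A, (∀ p ∈ U v ∩ U w, NearAt (fun l => l.length = 2 →
        of1 (b w) l - of1 (b v) l = dl (of0 e) l) p) ∧ (v ∉ F → w ∉ F → e = 0) := by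
    intro v w
    by_cases hvw : v ∉ F ∧ w ∉ F
    · refine ⟨0, fun p _ => nearAt_of_forall p fun l hl => ?_, fun _ _ => rfl⟩
      obtain ⟨x, y, rfl⟩ := exists_two hl
      rw [hb0 v hvw.1, hb0 w hvw.2, dl_two]
      simp
    · obtain ⟨e, he⟩ := h1 v w (fun l => of1 (b w) l - of1 (b v) l) (fun p hp => by
        refine (hb v p hp.1).mono₂ (hb w p hp.2) fun l k1 k2 k3 => ?_
        rw [dl_sub, ← k1 k3, ← k2 k3, sub_self])
      exact ⟨e, he, fun h h' => absurd ⟨h, h'⟩ hvw⟩
  choose e he he0 using he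
  exact ⟨b, e, hb, he, hb0, he0⟩

/-- **AS → nerve, degree two** -/
theorem as_to_nerve2 (hUo : ∀ v, IsOpen (U v)) (h2 : ∀ v, AS2 A (U v))
    (h1 : ∀ v w, AS1 A (U v ∩ U w)) (h0 : ∀ u v w, IsPreconnected (U u ∩ U v ∩ U w))
    {lab : X → V} (hlab : Lab U lab) {η : List X → A} (hη : Cl 2 η) (F : Set V)
    (hF : ∀ v, v ∉ F → ∀ p ∈ U v, p ∉ supp 2 η) :
    ∃ (c : V → V → V → A) (β : X → X → A),
      (∀ i j k l, (U i ∩ U j ∩ U k ∩ U l).Nonempty →
        c j k l - c i k l + c i j l - c i j k = 0) ∧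
      (∀ i j k, i ∉ F → j ∉ F → k ∉ F → c i j k = 0) ∧
      EqN 2 η (fun l => of2 c (l.map lab) + dl (of1 β) l) ∧
      ∀ x y, lab x ∉ F → lab y ∉ F → β x y = 0 := by
  classical
  obtain ⟨b, e, hb, he, hb0, he0⟩ := exists_zigzag2 h2 h1 hη F hF
  -- the locally constant function
  have hloc : ∀ i j k, ∀ p ∈ U i ∩ U j ∩ U k, ∀ᶠ y in 𝓝 p,
      e j k y - e i k y + e i j y = e j k p - e i k p + e i j p := by
    intro i j k p hp
    obtain ⟨V1, hV1, g1⟩ := he j k p ⟨hp.1.2, hp.2⟩
    obtain ⟨V2, hV2, g2⟩ := he i k p ⟨hp.1.1, hp.2⟩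
    obtain ⟨V3, hV3, g3⟩ := he i j p ⟨hp.1.1, hp.1.2⟩
    filter_upwards [hV1, hV2, hV3] with y y1 y2 y3
    have m1 := g1 [p, y] (by
      intro x hx
      simp only [List.mem_cons, List.not_mem_nil, or_false] at hx
      rcases hx with rfl | rfl
      exacts [mem_of_mem_nhds hV1, y1]) rfl
    have m2 := g2 [p, y] (by
      intro x hx
      simp only [List.mem_cons, List.not_mem_nil, or_false] at hx
      rcases hx with rfl | rfl
      exacts [mem_of_mem_nhds hV2, y2]) rfl
    have m3 := g3 [p, y] (by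
      intro x hx
      simp only [List.mem_cons, List.not_mem_nil, or_false] at hx
      rcases hx with rfl | rfl
      exacts [mem_of_mem_nhds hV3, y3]) rfl
    simp only [of1_apply, dl_two, of0_apply] at m1 m2 m3
    have m4 : (e j k y - e j k p) - (e i k y - e i k p) + (e i j y - e i j p) = 0 := by
      rw [← m1, ← m2, ← m3]; abel
    rw [← sub_eq_zero, ← m4]
    abel
  set c : V → V → V → A := fun i j k =>
    if h : (U i ∩ U j ∩ U k).Nonempty then -(e j k h.some - e i k h.some + e i j h.some) else 0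
    with hc
  have hcv : ∀ i j k, ∀ p ∈ U i ∩ U j ∩ U k, c i j k = -(e j k p - e i k p + e i j p) := by
    intro i j k p hp
    have hne : (U i ∩ U j ∩ U k).Nonempty := ⟨p, hp⟩
    simp only [hc, dif_pos hne]
    congr 1
    exact const_of_preconnected (h0 i j k) (f := fun y => e j k y - e i k y + e i j y)
      (hloc i j k) hne.some_mem hp
  refine ⟨c, fun x y => b (lab x) x y + e (lab x) (lab y) y, ?_, ?_, ?_, ?_⟩
  · rintro i j k l ⟨x, ⟨⟨hi, hj⟩, hk⟩, hl⟩
    rw [hcv j k l x ⟨⟨hj, hk⟩, hl⟩, hcv i k l x ⟨⟨hi, hk⟩, hl⟩, hcv i j l x ⟨⟨hi, hj⟩, hl⟩,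
      hcv i j k x ⟨⟨hi, hj⟩, hk⟩]
    abel
  · intro i j k hi hj hk
    simp only [hc]
    split_ifs with h
    · rw [he0 j k hj hk, he0 i k hi hk, he0 i j hi hj]
      simp
    · rfl
  · intro p
    obtain ⟨G, hG, hGe⟩ := hlab p
    have n1 : NearAt (fun l => ∀ v ∈ G, (l.length = 3 → η l = dl (of1 (b v)) l)) p :=
      NearAt.all G fun v hv => hb v p (hG v hv)
    have n2 : NearAt (fun l => ∀ vw ∈ G ×ˢ G, (l.length = 2 →
        of1 (b vw.2) l - of1 (b vw.1) l = dl (of0 (e vw.1 vw.2)) l)) p := by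
      refine NearAt.all (G ×ˢ G) fun vw hvw => ?_
      rw [Finset.mem_product] at hvw
      exact he vw.1 vw.2 p ⟨hG _ hvw.1, hG _ hvw.2⟩
    have n3 : NearAt (fun l => ∀ x ∈ l, lab x ∈ G ∧ ∀ v ∈ G, x ∈ U v) p := by
      refine nearAt_mem (V := {x | lab x ∈ G ∧ ∀ v ∈ G, x ∈ U v}) ?_
      have h5 : ∀ᶠ x in 𝓝 p, ∀ v ∈ G, x ∈ U v := by
        rw [Filter.eventually_all_finset]
        intro v hv
        exact (hUo v).mem_nhds (hG v hv)
      exact hGe.and h5
    refine (n1.mono₂ n2.sub fun l k1 k2 => (And.intro k1 k2)).mono₂ n3 fun l k12 k3 hl => ?_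
    obtain ⟨k1, k2⟩ := k12
    obtain ⟨x, y, z, rfl⟩ := exists_three hl
    obtain ⟨hx, -⟩ := k3 x (by simp)
    obtain ⟨hy, -⟩ := k3 y (by simp)
    obtain ⟨hz, hzU⟩ := k3 z (by simp)
    have q1 := k1 (lab x) hx rfl
    have q2 := k2 [y, z] (by simp) (lab x, lab y) (Finset.mem_product.2 ⟨hx, hy⟩) rfl
    have q3 := hcv (lab x) (lab y) (lab z) z ⟨⟨hzU _ hx, hzU _ hy⟩, hzU _ hz⟩
    simp only [dl_three, dl_two, of1_apply, of0_apply] at q1 q2
    simp only [List.map_cons, List.map_nil, of2_apply, dl_three, of1_apply]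
    rw [q1, q3, ← sub_eq_zero]
    have q4 : e (lab x) (lab y) z - e (lab x) (lab y) y -
        (b (lab y) y z - b (lab x) y z) = 0 := by rw [q2, sub_self]
    rw [← q4]
    abel
  · intro x y hx hy
    change b (lab x) x y + e (lab x) (lab y) y = 0
    rw [hb0 _ hx, he0 _ _ hx hy]
    simp

end deg2

section deg1

variable {U : V → Set X}

/-- **AS → nerve, degree one** -/
theorem as_to_nerve1 (hUo : ∀ v, IsOpen (U v))
    (h1 : ∀ v, AS1 A (U v)) (h0 : ∀ v w, IsPreconnected (U v ∩ U w))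
    {lab : X → V} (hlab : Lab U lab) {η : List X → A} (hη : Cl 1 η) (F : Set V)
    (hF : ∀ v, v ∉ F → ∀ p ∈ U v, p ∉ supp 1 η) :
    ∃ (c : V → V → A) (β : X → A),
      (∀ i j k, (U i ∩ U j ∩ U k).Nonempty → c j k - c i k + c i j = 0) ∧
      (∀ i j, i ∉ F → j ∉ F → c i j = 0) ∧
      EqN 1 η (fun l => of1 c (l.map lab) + dl (of0 β) l) ∧
      ∀ x, lab x ∉ F → β x = 0 := by
  classical
  have hb : ∀ v, ∃ b : X → A,
      (∀ p ∈ U v, NearAt (fun l => l.length = 2 → η l = dl (of0 b) l) p) ∧ (v ∉ F → b = 0) := by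
    intro v
    by_cases hv : v ∈ F
    · obtain ⟨b, hb⟩ := h1 v η fun p _ => hη p
      exact ⟨b, hb, fun h => absurd hv h⟩
    · refine ⟨0, fun p hp => ?_, fun _ => rfl⟩
      refine (notMem_supp.1 (hF v hv p hp)).mono fun l hl hl3 => ?_
      rw [hl hl3]
      obtain ⟨x, y, rfl⟩ := exists_two hl3
      rw [dl_two]
      simp
  choose b hb hb0 using hb
  have hloc : ∀ i j, ∀ p ∈ U i ∩ U j, ∀ᶠ y in 𝓝 p, b j y - b i y = b j p - b i p := by
    intro i j p hp
    obtain ⟨V1, hV1, g1⟩ := hb j p hp.2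
    obtain ⟨V2, hV2, g2⟩ := hb i p hp.1
    filter_upwards [hV1, hV2] with y y1 y2
    have m1 := g1 [p, y] (by
      intro x hx
      simp only [List.mem_cons, List.not_mem_nil, or_false] at hx
      rcases hx with rfl | rfl
      exacts [mem_of_mem_nhds hV1, y1]) rfl
    have m2 := g2 [p, y] (by
      intro x hx
      simp only [List.mem_cons, List.not_mem_nil, or_false] at hx
      rcases hx with rfl | rfl
      exacts [mem_of_mem_nhds hV2, y2]) rfl
    simp only [dl_two, of0_apply] at m1 m2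
    have m4 : (b j y - b j p) - (b i y - b i p) = 0 := by rw [← m1, ← m2, sub_self]
    rw [← sub_eq_zero, ← m4]
    abel
  set c : V → V → A := fun i j =>
    if h : (U i ∩ U j).Nonempty then -(b j h.some - b i h.some) else 0 with hc
  have hcv : ∀ i j, ∀ p ∈ U i ∩ U j, c i j = -(b j p - b i p) := by
    intro i j p hp
    have hne : (U i ∩ U j).Nonempty := ⟨p, hp⟩
    simp only [hc, dif_pos hne]
    congr 1
    exact const_of_preconnected (h0 i j) (f := fun y => b j y - b i y)
      (hloc i j) hne.some_mem hp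
  refine ⟨c, fun x => b (lab x) x, ?_, ?_, ?_, ?_⟩
  · rintro i j k ⟨x, ⟨hi, hj⟩, hk⟩
    rw [hcv j k x ⟨hj, hk⟩, hcv i k x ⟨hi, hk⟩, hcv i j x ⟨hi, hj⟩]
    abel
  · intro i j hi hj
    simp only [hc]
    split_ifs with h
    · rw [hb0 i hi, hb0 j hj]
      simp
    · rfl
  · intro p
    obtain ⟨G, hG, hGe⟩ := hlab p
    have n1 : NearAt (fun l => ∀ v ∈ G, (l.length = 2 → η l = dl (of0 (b v)) l)) p :=
      NearAt.all G fun v hv => hb v p (hG v hv)
    have n3 : NearAt (fun l => ∀ x ∈ l, lab x ∈ G ∧ ∀ v ∈ G, x ∈ U v) p := by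
      refine nearAt_mem (V := {x | lab x ∈ G ∧ ∀ v ∈ G, x ∈ U v}) ?_
      have h5 : ∀ᶠ x in 𝓝 p, ∀ v ∈ G, x ∈ U v := by
        rw [Filter.eventually_all_finset]
        intro v hv
        exact (hUo v).mem_nhds (hG v hv)
      exact hGe.and h5
    refine n1.mono₂ n3 fun l k1 k3 hl => ?_
    obtain ⟨x, y, rfl⟩ := exists_two hl
    obtain ⟨hx, -⟩ := k3 x (by simp)
    obtain ⟨hy, hyU⟩ := k3 y (by simp)
    have q1 := k1 (lab x) hx rfl
    have q3 := hcv (lab x) (lab y) y ⟨hyU _ hx, hyU _ hy⟩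
    simp only [dl_two, of0_apply] at q1
    simp only [List.map_cons, List.map_nil, of1_apply, dl_two, of0_apply]
    rw [q1, q3]
    abel
  · intro x hx
    change b (lab x) x = 0
    rw [hb0 _ hx]
    rfl

end deg1

/-! ### labels: from the nerve to AS, and injectivity -/

section labels

variable {U : V → Set X}

/-- near `p`, finitely many labels, all the points lie in the members with these labels -/
theorem Lab.near (hUo : ∀ v, IsOpen (U v)) {lab : X → V} (hlab : Lab U lab) (p : X) :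
    ∃ G : Finset V, (∀ v ∈ G, p ∈ U v) ∧
      NearAt (fun l => ∀ x ∈ l, lab x ∈ G ∧ ∀ v ∈ G, x ∈ U v) p := by
  obtain ⟨G, hG, hGe⟩ := hlab p
  refine ⟨G, hG, nearAt_mem (V := {x | lab x ∈ G ∧ ∀ v ∈ G, x ∈ U v}) ?_⟩
  have h5 : ∀ᶠ x in 𝓝 p, ∀ v ∈ G, x ∈ U v := by
    rw [Filter.eventually_all_finset]
    intro v hv
    exact (hUo v).mem_nhds (hG v hv)
  exact hGe.and h5

theorem cl_label2 (hUo : ∀ v, IsOpen (U v)) {lab : X → V} (hlab : Lab U lab)
    {c : V → V → V → A} (hc : ∀ i j k l, (U i ∩ U j ∩ U k ∩ U l).Nonempty →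
      c j k l - c i k l + c i j l - c i j k = 0) : Cl 2 (fun l => of2 c (l.map lab)) := by
  intro p
  obtain ⟨G, hG, hn⟩ := hlab.near hUo p
  refine hn.mono fun l hl hl4 => ?_
  obtain ⟨x, y, z, t, rfl⟩ := exists_four hl4
  rw [dl_four]
  simp only [List.map_cons, List.map_nil, of2_apply]
  exact hc _ _ _ _ ⟨p, ⟨⟨hG _ (hl x (by simp)).1, hG _ (hl y (by simp)).1⟩,
    hG _ (hl z (by simp)).1⟩, hG _ (hl t (by simp)).1⟩




/-- the support of the correction term -/
theorem supp_of1_subset {lab : X → V} (hlab : Lab U lab) {F : Set V} {β : X → X → A}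
    (hβF : ∀ x y, lab x ∉ F → lab y ∉ F → β x y = 0) :
    supp 1 (of1 β) ⊆ closure (⋃ v ∈ F, U v) := by
  intro p hp
  by_contra hc
  have h1 : (closure (⋃ v ∈ F, U v))ᶜ ∈ 𝓝 p := isClosed_closure.isOpen_compl.mem_nhds hc
  refine hp ⟨_, h1, fun l hl hl2 => ?_⟩
  obtain ⟨x, y, rfl⟩ := exists_two hl2
  have h2 : ∀ z ∈ [x, y], lab z ∉ F := by
    intro z hz hzF
    exact hl z hz (subset_closure (mem_biUnion hzF (hlab.mem z)))
  exact hβF x y (h2 x (by simp)) (h2 y (by simp))

end labels

end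

end Crest.Agent.R275.ASConv293
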