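import Mathlib
import Crest.Agent.R275.LocDef_647
import Crest.Agent.R275.NForm_945
import Crest.Agent.R275.ASNv_293

-- ▼ part R275/Dual_945
section

set_option autoImplicit false
open scoped BigOperators
noncomputable section

namespace Crest.Agent.R275.Dual945

open Crest.Agent.R275.Loc647 Crest.Agent.R275.NForm945

/-! ### linear algebra -/

section LA

variable {T E : Type*} [Fintype T] [Fintype E]

/-- If an integral functional `c` on `ℤ^T` kills the kernel of an integral matrix `D : ℤ^T → ℤ^E`, then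
a positive multiple of `c` is `u ∘ D` with `u` integral. -/
theorem exists_mul_eq [DecidableEq T] [DecidableEq E] (D : (T → ℤ) →ₗ[ℤ] (E → ℤ)) (c : T → ℤ)
    (h : ∀ z : T → ℤ, D z = 0 → ∑ t, c t * z t = 0) :
    ∃ d : ℕ, 0 < d ∧ ∃ u : E → ℤ, ∀ t, (d : ℤ) * c t = ∑ e, u e * D (Pi.single t 1) e := by
  classical
  -- rational versions
  let A : Matrix E T ℚ := fun e t => ((D (Pi.single t 1) e : ℤ) : ℚ)
  let cq : (T → ℚ) →ₗ[ℚ] ℚ := ∑ t, ((c t : ℤ) : ℚ) • LinearMap.proj t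
  have hcq : ∀ z, cq z = ∑ t, ((c t : ℤ) : ℚ) * z t := by
    intro z
    simp [cq]
  have hD : ∀ (z : T → ℤ) (e : E), ((D z e : ℤ) : ℚ) = A.mulVecLin (fun t => (z t : ℚ)) e := by
    intro z e
    have h1 : z = ∑ t, z t • (Pi.single t 1 : T → ℤ) := by
      funext s
      simp [Finset.sum_apply, Pi.single_apply]
    conv_lhs => rw [h1]
    rw [map_sum, Finset.sum_apply]
    push_cast
    simp only [map_smul, Pi.smul_apply, smul_eq_mul, Int.cast_mul, A]
    exact Finset.sum_congr rfl fun t _ => mul_comm _ _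
  have hker : LinearMap.ker A.mulVecLin ≤ LinearMap.ker cq := by
    intro z hz
    rw [LinearMap.mem_ker] at hz ⊢
    -- common denominator
    obtain ⟨N, hN, y, hy⟩ : ∃ N : ℕ, 0 < N ∧ ∃ y : T → ℤ, ∀ t, (y t : ℚ) = N * z t := by
      refine ⟨∏ t, (z t).den, Finset.prod_pos fun t _ => (z t).den_pos,
        fun t => (∏ s ∈ Finset.univ.erase t, (z s).den : ℕ) * (z t).num, fun t => ?_⟩
      rw [← Finset.mul_prod_erase Finset.univ (fun s => (z s).den) (Finset.mem_univ t)]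
      push_cast
      have := Rat.mul_den_eq_num (z t)
      rw [← this]
      ring
    have hN' : (N : ℚ) ≠ 0 := by exact_mod_cast hN.ne'
    have hyz : (fun t => (y t : ℚ)) = (N : ℚ) • z := by
      funext t; rw [hy, Pi.smul_apply, smul_eq_mul]
    have hDy : D y = 0 := by
      funext e
      have h1 := hD y e
      rw [hyz, map_smul, hz, smul_zero, Pi.zero_apply] at h1
      rw [Pi.zero_apply]
      exact_mod_cast h1
    have h2 := h y hDy
    have h3 : cq ((N : ℚ) • z) = 0 := by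
      rw [hcq, ← hyz]
      beta_reduce
      exact_mod_cast h2
    rw [map_smul, smul_eq_mul] at h3
    exact (mul_eq_zero.1 h3).resolve_left hN'
  obtain ⟨ψ, hψ⟩ : ∃ ψ : (E → ℚ) →ₗ[ℚ] ℚ, ψ ∘ₗ A.mulVecLin = cq := by
    have h1 : cq ∈ LinearMap.range (A.mulVecLin.dualMap) := by
      rw [LinearMap.range_dualMap_eq_dualAnnihilator_ker]
      rw [Submodule.mem_dualAnnihilator]
      intro z hz
      exact hker hz
    obtain ⟨ψ, hψ⟩ := h1
    exact ⟨ψ, hψ⟩
  -- common denominator of `ψ`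
  obtain ⟨d, hd, u, hu⟩ : ∃ N : ℕ, 0 < N ∧ ∃ y : E → ℤ, ∀ t, (y t : ℚ) =
      N * ψ (Pi.single t 1) := by
    refine ⟨∏ t, (ψ (Pi.single t 1)).den, Finset.prod_pos fun t _ => Rat.den_pos _,
      fun t => (∏ s ∈ Finset.univ.erase t, (ψ (Pi.single s 1)).den : ℕ) *
        (ψ (Pi.single t 1)).num, fun t => ?_⟩
    rw [← Finset.mul_prod_erase Finset.univ (fun s => (ψ (Pi.single s 1)).den) (Finset.mem_univ t)]
    push_cast
    have := Rat.mul_den_eq_num (ψ (Pi.single t 1))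
    rw [← this]
    ring
  refine ⟨d, hd, u, fun t => ?_⟩
  have h1 : ((c t : ℤ) : ℚ) = cq (Pi.single t 1) := by
    rw [hcq]
    simp [Pi.single_apply]
  have h2 : ψ (A.mulVecLin (Pi.single t 1)) = ∑ e, A e t * ψ (Pi.single e 1) := by
    have h3 : A.mulVecLin (Pi.single t 1) = ∑ e, A e t • (Pi.single e 1 : E → ℚ) := by
      funext e
      simp [Finset.sum_apply, Pi.single_apply]
    rw [h3, map_sum]
    simp only [map_smul, smul_eq_mul]
  have h4 : ((d : ℤ) * c t : ℤ) = (∑ e, u e * D (Pi.single t 1) e : ℤ) := by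
    have h5 : (((d : ℤ) * c t : ℤ) : ℚ) = ((∑ e, u e * D (Pi.single t 1) e : ℤ) : ℚ) := by
      push_cast
      rw [h1, ← hψ, LinearMap.comp_apply, h2, Finset.mul_sum]
      refine Finset.sum_congr rfl fun e _ => ?_
      rw [hu]
      simp only [A]
      ring
    exact_mod_cast h5
  exact h4

end LA

/-! ### the duality field -/

variable {V : Type*} {P : Nerve V}

theorem sum_if {E : Type*} [Fintype E] (a : E) (f : E → ℤ) [∀ e, Decidable (e = a)] :
    ∑ e, (if e = a then f e else 0) = f a := by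
  rw [Finset.sum_eq_single a]
  · rw [if_pos rfl]
  · intro e _ he
    rw [if_neg he]
  · intro h; exact absurd (Finset.mem_univ _) h

/-- Poincare duality in the form needed: finitely supported ordered 2-cycles of the nerve are
represented by compactly supported 2-cocycles. -/
def PDual (W : Weight P) : Prop :=
  ∀ z : V × V × V →₀ ℤ, (∀ σ, z σ ≠ 0 → P.N3 σ.1 σ.2.1 σ.2.2) →
    (∀ b : V → V → ℤ, (z.sum fun σ a => a * (b σ.2.1 σ.2.2 - b σ.1 σ.2.2 + b σ.1 σ.2.1)) = 0) →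
    ∃ x ∈ P.Z2c, ∀ c ∈ P.Z2, W.IYR c x = (z.sum fun σ a => a * c σ.1 σ.2.1 σ.2.2 : ℤ)

theorem dual_of_PDual (W : Weight P) (hPD : PDual W) (w : ℕ) :
    ∃ (r : ℕ) (x : Fin r → C2 V), (∀ i, x i ∈ P.Z2c) ∧
      ∀ c ∈ P.Z2, (∀ i, W.IYR c (x i) = 0) → ∃ d : ℕ, 0 < d ∧ ∃ u : V → V → ℤ, ∀ i j k,
        P.N3 i j k → (0 ≤ P.p i ∧ P.p i ≤ w) → (0 ≤ P.p j ∧ P.p j ≤ w) →
        (0 ≤ P.p k ∧ P.p k ≤ w) → (d : ℤ) * c i j k = u j k - u i k + u i j := by
  classical
  -- the slab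
  let K : Set V := {v | (0 : ℤ) ≤ P.p v ∧ P.p v ≤ (w : ℤ)}
  have hK : K.Finite := P.finp 0 w
  have : Fintype K := hK.fintype
  have : Fintype {σ : K × K × K // P.N3 σ.1.1 σ.2.1.1 σ.2.2.1} := Fintype.ofFinite _
  let D : ({σ : K × K × K // P.N3 σ.1.1 σ.2.1.1 σ.2.2.1} → ℤ) →ₗ[ℤ] (K × K → ℤ) :=
    { toFun := fun z e => ∑ σ, z σ * ((if e = (σ.1.2.1, σ.1.2.2) then 1 else 0)
        - (if e = (σ.1.1, σ.1.2.2) then 1 else 0) + (if e = (σ.1.1, σ.1.2.1) then 1 else 0))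
      map_add' := fun y z => by
        funext e
        simp only [Pi.add_apply, add_mul, Finset.sum_add_distrib]
      map_smul' := fun a z => by
        funext e
        simp only [Pi.smul_apply, smul_eq_mul, RingHom.id_apply, Finset.mul_sum, mul_assoc] }
  -- finitely many generating cycles
  obtain ⟨S, hS⟩ : (LinearMap.ker D).FG := IsNoetherian.noetherian _
  let tr : {σ : K × K × K // P.N3 σ.1.1 σ.2.1.1 σ.2.2.1} → V × V × V := fun σ => (σ.1.1.1, σ.1.2.1.1, σ.1.2.2.1)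
  have htr : Function.Injective tr := by
    rintro ⟨⟨a, b, c⟩, h⟩ ⟨⟨a', b', c'⟩, h'⟩ hh
    simp only [tr, Prod.mk.injEq] at hh
    obtain ⟨h1, h2, h3⟩ := hh
    have h1' := Subtype.ext h1
    have h2' := Subtype.ext h2
    have h3' := Subtype.ext h3
    subst h1' h2' h3'
    rfl
  let push : ({σ : K × K × K // P.N3 σ.1.1 σ.2.1.1 σ.2.2.1} → ℤ) → (V × V × V →₀ ℤ) := fun z =>
    (Finsupp.equivFunOnFinite.symm z).mapDomain tr
  have hpush : ∀ (z : {σ : K × K × K // P.N3 σ.1.1 σ.2.1.1 σ.2.2.1} → ℤ) (f : V × V × V → ℤ),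
      ((push z).sum fun σ a => a * f σ) = ∑ σ, z σ * f (tr σ) := by
    intro z f
    simp only [push]
    rw [Finsupp.sum_mapDomain_index (fun _ => by simp) (fun _ _ _ => by ring)]
    rw [Finsupp.sum_fintype _ _ (fun _ => by simp)]
    rfl
  have hN3 : ∀ z σ, push z σ ≠ 0 → P.N3 σ.1 σ.2.1 σ.2.2 := by
    intro z σ hσ
    by_cases h : σ ∈ Set.range tr
    · obtain ⟨τ, rfl⟩ := h
      exact τ.2
    · exact absurd (Finsupp.mapDomain_of_notMem_range _ _ h) hσ
  have hcyc : ∀ z ∈ LinearMap.ker D, ∀ b : V → V → ℤ, ((push z).sum fun σ a =>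
      a * (b σ.2.1 σ.2.2 - b σ.1 σ.2.2 + b σ.1 σ.2.1)) = 0 := by
    intro z hz b
    rw [hpush z (fun σ => b σ.2.1 σ.2.2 - b σ.1 σ.2.2 + b σ.1 σ.2.1)]
    have h1 : ∑ e : K × K, b e.1.1 e.2.1 * D z e = 0 := by
      rw [LinearMap.mem_ker] at hz
      rw [hz]; simp
    rw [← h1]
    simp only [D, LinearMap.coe_mk, AddHom.coe_mk, Finset.mul_sum]
    rw [Finset.sum_comm]
    refine Finset.sum_congr rfl fun σ _ => ?_
    have h2 : ∀ e : K × K, b e.1.1 e.2.1 * (z σ * ((if e = (σ.1.2.1, σ.1.2.2) then 1 else 0)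
        - (if e = (σ.1.1, σ.1.2.2) then 1 else 0) + (if e = (σ.1.1, σ.1.2.1) then 1 else 0))) =
        z σ * ((if e = (σ.1.2.1, σ.1.2.2) then b e.1.1 e.2.1 else 0)
        - (if e = (σ.1.1, σ.1.2.2) then b e.1.1 e.2.1 else 0)
        + (if e = (σ.1.1, σ.1.2.1) then b e.1.1 e.2.1 else 0)) := by
      intro e
      split_ifs <;> ring
    simp only [h2, ← Finset.mul_sum, Finset.sum_add_distrib, Finset.sum_sub_distrib,
      sum_if, tr]
  -- the dual classes
  have hx : ∀ z : S, ∃ x ∈ P.Z2c, ∀ c ∈ P.Z2, W.IYR c x =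
      (((push z.1).sum fun σ a => a * c σ.1 σ.2.1 σ.2.2 : ℤ) : ℝ) := by
    intro z
    refine hPD (push z.1) (hN3 _) (hcyc _ ?_)
    rw [← hS]
    exact Submodule.subset_span z.2
  choose x hx1 hx2 using hx
  refine ⟨Fintype.card S, fun i => x ((Fintype.equivFin S).symm i), fun i => hx1 _,
    fun c hc h0 => ?_⟩
  have h1 : ∀ z ∈ LinearMap.ker D, ∑ σ, c (tr σ).1 (tr σ).2.1 (tr σ).2.2 * z σ = 0 := by
    intro z hz
    rw [← hS] at hz
    induction hz using Submodule.span_induction with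
    | mem y hy =>
      have h2 := h0 ((Fintype.equivFin S) ⟨y, hy⟩)
      simp only [Equiv.symm_apply_apply] at h2
      rw [hx2 _ c hc, hpush y (fun σ => c σ.1 σ.2.1 σ.2.2)] at h2
      have h3 : ∑ σ, y σ * c (tr σ).1 (tr σ).2.1 (tr σ).2.2 = 0 := by exact_mod_cast h2
      rw [← h3]
      exact Finset.sum_congr rfl fun σ _ => mul_comm _ _
    | zero => simp
    | add y y' _ _ ih ih' =>
      simp only [Pi.add_apply, mul_add, Finset.sum_add_distrib, ih, ih', add_zero]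
    | smul a y _ ih =>
      simp only [Pi.smul_apply, smul_eq_mul]
      have : ∀ σ, c (tr σ).1 (tr σ).2.1 (tr σ).2.2 * (a * y σ) =
        a * (c (tr σ).1 (tr σ).2.1 (tr σ).2.2 * y σ) := fun σ => by ring
      simp only [this, ← Finset.mul_sum, ih, mul_zero]
  obtain ⟨d, hd, u, hu⟩ := exists_mul_eq D (fun σ => c (tr σ).1 (tr σ).2.1 (tr σ).2.2)
    (fun z hz => h1 z hz)
  refine ⟨d, hd, fun i j => if h : i ∈ K ∧ j ∈ K then u (⟨i, h.1⟩, ⟨j, h.2⟩) else 0, ?_⟩
  intro i j k hijk hi hj hk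
  have h2 := hu ⟨(⟨i, hi⟩, ⟨j, hj⟩, ⟨k, hk⟩), hijk⟩
  simp only [tr] at h2
  beta_reduce
  rw [h2, dif_pos ⟨hj, hk⟩, dif_pos ⟨hi, hk⟩, dif_pos ⟨hi, hj⟩]
  have h3 : ∀ e : K × K, D (Pi.single ⟨(⟨i, hi⟩, ⟨j, hj⟩, ⟨k, hk⟩), hijk⟩ 1) e =
      (if e = (⟨j, hj⟩, ⟨k, hk⟩) then 1 else 0) - (if e = (⟨i, hi⟩, ⟨k, hk⟩) then 1 else 0) +
      (if e = (⟨i, hi⟩, ⟨j, hj⟩) then 1 else 0) := by
    intro e
    simp only [D, LinearMap.coe_mk, AddHom.coe_mk]
    rw [Finset.sum_eq_single ⟨(⟨i, hi⟩, ⟨j, hj⟩, ⟨k, hk⟩), hijk⟩]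
    · rw [Pi.single_eq_same, one_mul]
    · intro σ _ hσ
      rw [Pi.single_eq_of_ne hσ, zero_mul]
    · intro h; exact absurd (Finset.mem_univ _) h
  simp only [h3, mul_add, mul_sub, mul_ite, mul_one, mul_zero, Finset.sum_add_distrib,
    Finset.sum_sub_distrib, sum_if]

end Crest.Agent.R275.Dual945
end
end

-- ▼ part R275/PDY_945

set_option autoImplicit false
open scoped BigOperators Topology
open Set Filter
noncomputable section

namespace Crest.Agent.R275.PDY945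

open ASZ627 ASN627 ASConv293 Loc647 NForm945 Dual945

variable {M : Type*} [TopologicalSpace M] {V : Type*} {P : Nerve V}

/-- `P` is the nerve of the family `U` -/
structure IsNerveOf (P : Nerve V) (U : V → Set M) : Prop where
  N3 : ∀ i j k, P.N3 i j k ↔ (U i ∩ U j ∩ U k).Nonempty
  N4 : ∀ i j k l, P.N4 i j k l ↔ (U i ∩ U j ∩ U k ∩ U l).Nonempty

/-- the orientation functional (interface of helper627) with the label formula for the weight `w` -/
structure EFn (M : Type*) [TopologicalSpace M] {V : Type*} (U : V → Set M) (lab : M → V)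
    (w : (Fin 5 → V) → ℝ) where
  E : (List M → ℤ) → ℝ
  add : ∀ φ ψ : List M → ℤ, Cl 4 φ → Cl 4 ψ → IsCompact (supp 4 φ) → IsCompact (supp 4 ψ) →
    E (fun l => φ l + ψ l) = E φ + E ψ
  congr : ∀ φ ψ : List M → ℤ, EqN 4 φ ψ → E φ = E ψ
  dl : ∀ ψ : List M → ℤ, IsCompact (supp 3 ψ) → E (dl ψ) = 0
  label : ∀ C : List V → ℤ, (∀ l : List V, l.length = 6 → (∃ x, ∀ v ∈ l, x ∈ U v) →
      ASZ627.dl C l = 0) →
    {l : List V | l.length = 5 ∧ (∃ x, ∀ v ∈ l, x ∈ U v) ∧ C l ≠ 0}.Finite →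
    E (fun l => C (l.map lab)) = ∑ᶠ t : Fin 5 → V, ((C [t 0, t 1, t 2, t 3, t 4] : ℤ) : ℝ) * w t

theorem isCompact_supp_of {q : ℕ} {φ : List M → ℤ} {K : Set M} (hK : IsCompact K)
    (h : supp q φ ⊆ K) : IsCompact (supp q φ) :=
  hK.of_isClosed_subset (isClosed_supp q φ) h

omit [TopologicalSpace M] in
theorem mem_inter3 {U : V → Set M} {i j k : V} {x : M} (hi : x ∈ U i) (hj : x ∈ U j)
    (hk : x ∈ U k) : (U i ∩ U j ∩ U k).Nonempty := ⟨x, ⟨hi, hj⟩, hk⟩

/-- Leibniz with a closed left factor -/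
theorem eqN_cup_dl {n ψ : List M → ℤ} (hn : Cl 2 n) :
    EqN 4 (cup 2 n (dl ψ)) (dl (cup 2 n ψ)) := by
  intro p
  have h1 := dl_cup_eqN 2 1 n ψ p
  refine h1.mono₂ (hn p).sub fun l h2 h3 h4 => ?_
  have e1 : dl (cup 2 n ψ) l = cup (2 + 1) (dl n) ψ l + (-1) ^ 2 * cup 2 n (dl ψ) l := h2 h4
  rw [e1]
  have e2 : dl n (l.take (2 + 1 + 1)) = 0 :=
    h3 _ (fun y hy => List.mem_of_mem_take hy) (by simp; omega)
  have e3 : cup (2 + 1) (dl n) ψ l = 0 := by
    simp only [cup, e2, zero_mul]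
  rw [e3]
  ring

theorem pDual_of {U : V → Set M} (hN : IsNerveOf P U) (W : Weight P) (hUo : ∀ v, IsOpen (U v))
    (h2 : ∀ v, AS2 ℤ (U v)) (h1 : ∀ v w, AS1 ℤ (U v ∩ U w))
    (h0 : ∀ u v w, IsPreconnected (U u ∩ U v ∩ U w)) (hcpt : ∀ v, IsCompact (closure (U v)))
    (hfin : ∀ K : Set M, IsCompact K → {v | (U v ∩ K).Nonempty}.Finite)
    {lab : M → V} (hlab : Lab U lab) (G : EFn M U lab W.w)
    (hzig : ∀ z : V × V × V →₀ ℤ, (∀ σ, z σ ≠ 0 → P.N3 σ.1 σ.2.1 σ.2.2) →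
      (∀ b : V → V → ℤ, (z.sum fun σ a => a * (b σ.2.1 σ.2.2 - b σ.1 σ.2.2 + b σ.1 σ.2.1)) = 0) →
      ∃ η : List M → ℤ, Cl 2 η ∧ IsCompact (supp 2 η) ∧ ∀ c ∈ P.Z2,
        G.E (cup 2 (fun l => of2 c (l.map lab)) η) =
          (z.sum fun σ a => a * c σ.1 σ.2.1 σ.2.2 : ℤ)) : PDual W := by
  classical
  intro z hz hcyc
  obtain ⟨η, hη, hηc, hE⟩ := hzig z hz hcyc
  set F : Set V := {v | (U v ∩ supp 2 η).Nonempty} with hF
  have hFfin : F.Finite := hfin _ hηc
  obtain ⟨x0, β, hx1, hx2, hx3, hx4⟩ := as_to_nerve2 hUo h2 h1 h0 hlab hη F (by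
    intro v hv p hp hps
    exact hv ⟨p, hp, hps⟩)
  set x : C2 V := fun i j k => if P.N3 i j k then x0 i j k else 0 with hx
  have hx0 : ∀ i j k, P.N3 i j k → x i j k = x0 i j k := fun i j k h => by
    rw [hx]; exact if_pos h
  -- bound of the positions on `F`
  obtain ⟨R, hR⟩ : ∃ R : ℤ, ∀ v ∈ F, |P.p v| ≤ R := by
    obtain ⟨R, hR⟩ := (hFfin.image fun v => |P.p v|).bddAbove
    exact ⟨R, fun v hv => hR ⟨v, hv, rfl⟩⟩
  have hxZ : x ∈ P.Z2 := by
    refine ⟨fun i j k h => by rw [hx]; exact if_neg h, fun i j k l h => ?_⟩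
    rw [hx0 _ _ _ (P.face0 h), hx0 _ _ _ (P.face1 h), hx0 _ _ _ (P.face2 h),
      hx0 _ _ _ (P.face3 h)]
    exact hx1 _ _ _ _ ((hN.N4 _ _ _ _).1 h)
  have hxb : ∀ i j k, x i j k ≠ 0 → |P.p i| ≤ R + P.s := by
    intro i j k h
    have h3 : P.N3 i j k := by
      by_contra h3
      exact h (hxZ.1 _ _ _ h3)
    rw [hx0 _ _ _ h3] at h
    obtain ⟨s1, s2, s3⟩ := P.spread h3
    have hs : (0 : ℤ) ≤ P.s := Int.natCast_nonneg _
    by_cases hi : i ∈ F
    · have := hR i hi; linarith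
    by_cases hj : j ∈ F
    · have := hR j hj
      have h5 := abs_sub_abs_le_abs_sub (P.p i) (P.p j)
      linarith
    by_cases hk : k ∈ F
    · have := hR k hk
      have h5 := abs_sub_abs_le_abs_sub (P.p i) (P.p k)
      linarith
    exact absurd (hx2 _ _ _ hi hj hk) h
  have hxc : x ∈ P.Z2c := ⟨hxZ, R + P.s, hxb⟩
  refine ⟨x, hxc, fun c hc => ?_⟩
  rw [← hE c hc]
  -- `η = x ∘ lab + dl β`
  have hηx : EqN 2 η (fun l => of2 x (l.map lab) + dl (of1 β) l) := by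
    intro p
    obtain ⟨T, hT, hn⟩ := hlab.near hUo p
    refine (hx3 p).mono₂ hn fun l e1 e2 e3 => ?_
    rw [e1 e3]
    obtain ⟨y0, y1, y2, rfl⟩ := exists_three e3
    simp only [List.map_cons, List.map_nil, of2_apply]
    rw [hx0 _ _ _ ((hN.N3 _ _ _).2 (mem_inter3 (hT _ (e2 y0 (by simp)).1)
      (hT _ (e2 y1 (by simp)).1) (hT _ (e2 y2 (by simp)).1)))]
  have hn : Cl 2 (fun l => of2 c (l.map lab)) :=
    cl_label2 hUo hlab fun i j k l h => hc.2 _ _ _ _ ((hN.N4 _ _ _ _).2 h)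
  have hnx : Cl 2 (fun l => of2 x (l.map lab)) :=
    cl_label2 hUo hlab fun i j k l h => hxZ.2 _ _ _ _ ((hN.N4 _ _ _ _).2 h)
  -- compact supports
  have hK : IsCompact (⋃ v ∈ F, closure (U v)) := hFfin.isCompact_biUnion fun v _ => hcpt v
  have hβs : supp 1 (of1 β) ⊆ ⋃ v ∈ F, closure (U v) := by
    refine (supp_of1_subset hlab hx4).trans ?_
    rw [hFfin.closure_biUnion]
  have hβc : IsCompact (supp 3 (cup 2 (fun l => of2 c (l.map lab)) (of1 β))) :=
    isCompact_supp_of hK (((supp_cup 2 1 _ _).trans inter_subset_right).trans hβs)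
  have hxs : IsCompact (supp 2 (fun l => of2 x (l.map lab))) := by
    have e1 : EqN 2 (fun l => of2 x (l.map lab)) (fun l => η l - dl (of1 β) l) := fun p =>
      (hηx p).mono fun l e1 e2 => by
        show of2 x (l.map lab) = η l - dl (of1 β) l
        rw [e1 e2, add_sub_cancel_right]
    refine (hηc.union hK).of_isClosed_subset (isClosed_supp _ _) ?_
    rw [e1.supp_eq]
    refine (supp_sub 2 _ _).trans (union_subset_union_right _ ?_)
    exact (supp_dl 1 _).trans hβs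
  have e1 : EqN 4 (cup 2 (fun l => of2 c (l.map lab)) η)
      (fun l => cup 2 (fun l => of2 c (l.map lab)) (fun l => of2 x (l.map lab)) l +
        dl (cup 2 (fun l => of2 c (l.map lab)) (of1 β)) l) := by
    have e2 : EqN 4 (cup 2 (fun l => of2 c (l.map lab)) η)
        (cup 2 (fun l => of2 c (l.map lab)) (fun l => of2 x (l.map lab) + dl (of1 β) l)) :=
      EqN.cup (p := 2) (q := 2) (EqN.refl 2 _) hηx
    refine e2.trans fun p => (eqN_cup_dl (ψ := of1 β) hn p).mono fun l e3 e4 => ?_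
    rw [← e3 e4]
    simp only [cup]
    ring
  rw [G.congr _ _ e1, G.add _ _ (Cl.cup (p := 2) (q := 2) hn hnx) (Cl.dl 3 _) ?_ ?_, G.dl _ hβc,
    add_zero]
  · -- the label formula
    have e5 : cup 2 (fun l => of2 c (l.map lab)) (fun l => of2 x (l.map lab)) =
        fun l => (cup 2 (of2 c) (of2 x)) (l.map lab) := by
      funext l
      simp only [cup, List.map_take, List.map_drop]
    rw [e5, G.label (cup 2 (of2 c) (of2 x)) ?_ ?_]
    · unfold Weight.IYR
      refine finsum_congr fun t => ?_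
      unfold Weight.ig
      simp only [cup, List.take_succ_cons, List.take_zero, List.drop_succ_cons, List.drop_zero,
        of2_apply, Int.cast_mul]
    · intro l hl hx
      obtain ⟨q, hq⟩ := hx
      rw [dl_cup 2 _ _ _ (by omega)]
      have e6 : dl (of2 c) (l.take (2 + 1 + 1)) = 0 := by
        obtain ⟨a, b, d, e, hl4⟩ := exists_four (l := l.take (2 + 1 + 1)) (by simp; omega)
        rw [hl4, dl_four]
        simp only [of2_apply]
        have hm : ∀ v ∈ [a, b, d, e], q ∈ U v := fun v hv => hq v (by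
          rw [← hl4] at hv; exact List.mem_of_mem_take hv)
        exact hc.2 _ _ _ _ ((hN.N4 _ _ _ _).2 ⟨q, ⟨⟨hm a (by simp), hm b (by simp)⟩,
          hm d (by simp)⟩, hm e (by simp)⟩)
      have e7 : dl (of2 x) (l.drop 2) = 0 := by
        obtain ⟨a, b, d, e, hl4⟩ := exists_four (l := l.drop 2) (by simp; omega)
        rw [hl4, dl_four]
        simp only [of2_apply]
        have hm : ∀ v ∈ [a, b, d, e], q ∈ U v := fun v hv => hq v (by
          rw [← hl4] at hv; exact List.mem_of_mem_drop hv)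
        exact hxZ.2 _ _ _ _ ((hN.N4 _ _ _ _).2 ⟨q, ⟨⟨hm a (by simp), hm b (by simp)⟩,
          hm d (by simp)⟩, hm e (by simp)⟩)
      simp only [cup, e6, e7, zero_mul, mul_zero, add_zero]
    · -- finite support
      set S : Set V := {v | -(R + P.s) - P.s ≤ P.p v ∧ P.p v ≤ (R + P.s) + P.s} with hS
      have hSf : S.Finite := P.finp _ _
      refine ((Set.Finite.pi fun _ : Fin 5 => hSf).image List.ofFn).subset ?_
      rintro l ⟨hl, ⟨q, hq⟩, hne⟩
      obtain ⟨a, b, d, e, f, rfl⟩ : ∃ a b d e f, l = [a, b, d, e, f] := by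
        match l, hl with
        | [a, b, d, e, f], _ => exact ⟨a, b, d, e, f, rfl⟩
      have e8 : x d e f ≠ 0 := by
        intro e9
        apply hne
        simp only [cup, List.take_succ_cons, List.take_zero, List.drop_succ_cons, List.drop_zero,
          of2_apply, e9, mul_zero]
      have e9 : |P.p d| ≤ R + P.s := hxb _ _ _ e8
      have hqd : q ∈ U d := hq d (by simp)
      have key : ∀ v, v ∈ [a, b, d, e, f] → v ∈ S := by
        intro v hv
        have h3 : P.N3 v d d := (hN.N3 _ _ _).2 ⟨q, ⟨hq v hv, hqd⟩, hqd⟩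
        obtain ⟨s1, -, -⟩ := P.spread h3
        have s2 := abs_le.1 s1
        have s3 := abs_le.1 e9
        constructor <;> linarith [s2.1, s2.2, s3.1, s3.2]
      refine ⟨![a, b, d, e, f], ?_, by simp [List.ofFn_succ]⟩
      intro i _
      fin_cases i <;> exact key _ (by simp)
  · exact isCompact_supp_of hxs ((supp_cup 2 2 _ _).trans inter_subset_right)
  · exact hβc.of_isClosed_subset (isClosed_supp _ _) (supp_dl 3 _)

end Crest.Agent.R275.PDY945
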