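import Crest.Agent.R275.ASN_627
import Mathlib
import Crest.Agent.R275.OAJ_627
import Crest.Agent.R275.WtY_945
import Crest.Agent.R275.PDB_412
import Crest.Agent.R275.Pic_293

-- ▼ part R275/EOr_627
section

set_option autoImplicit false
set_option linter.unusedSectionVars false

open Set Filter Topology

namespace Crest.Agent.R275.EOr627

open ASZ627 ASN627

noncomputable section

/-- the data from which the orientation functional is built -/
structure JD (n : ℕ) (M : Type) [TopologicalSpace M] where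
  F : Subalgebra ℝ (M → ℝ)
  J : F [⋀^Fin (n + 1)]→ₗ[ℝ] ℝ
  one : ∀ (v : Fin (n + 1) → F) (k : Fin (n + 1)), v k = 1 → J v = 0
  loc : ∀ v : Fin (n + 1) → F, (∀ x, ∃ k, x ∉ tsupport (v k : M → ℝ)) → J v = 0
  bump : ∀ (x : M), ∀ U ∈ 𝓝 x, ∃ b : F, tsupport (b : M → ℝ) ⊆ U ∧
    IsCompact (tsupport (b : M → ℝ)) ∧ ∀ᶠ y in 𝓝 x, (b : M → ℝ) y = 1

section EV

variable {n : ℕ} {M : Type} [TopologicalSpace M] (G : JD n M)
variable {T T' S : Type} [Fintype T] [Fintype T']

/-- evaluation of a label cochain on a finite partition -/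
def EV (ρ : T → G.F) (lb : T → S) (C : List S → ℝ) : ℝ :=
  ∑ v : Fin (n + 1) → T, C (List.ofFn fun i => lb (v i)) * G.J (fun i => ρ (v i))

variable {G}

theorem sum_dl_idx {ρ : T → G.F} (hρ : ∑ t, ρ t = 1) (ψ : List T → ℝ) :
    ∑ v : Fin (n + 1) → T, dl ψ (List.ofFn v) * G.J (fun i => ρ (v i)) = 0 := by
  classical
  simp_rw [dl_ofFn, Finset.sum_mul]
  rw [Finset.sum_comm]
  refine Finset.sum_eq_zero fun k _ => ?_
  rw [← Equiv.sum_comp (Fin.insertNthEquiv (fun _ => T) k), Fintype.sum_prod_type,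
    Finset.sum_comm]
  refine Finset.sum_eq_zero fun w _ => ?_
  have h1 : ∀ t : T, (fun i => ρ ((Fin.insertNthEquiv (fun _ => T) k) (t, w) i)) =
      Function.update (fun i => ρ ((Fin.insertNthEquiv (fun _ => T) k) (t, w) i)) k (ρ t) := by
    intro t
    funext i
    by_cases hi : i = k
    · subst hi
      simp
    · rw [Function.update_of_ne hi]
  have h2 : ∀ t t' : T,
      Function.update (fun i => ρ ((Fin.insertNthEquiv (fun _ => T) k) (t, w) i)) k (ρ t) =
      Function.update (fun i => ρ ((Fin.insertNthEquiv (fun _ => T) k) (t', w) i)) k (ρ t) := by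
    intro t t'
    funext i
    refine Fin.succAboveCases k ?_ (fun j => ?_) i
    · simp
    · rw [Function.update_of_ne (Fin.succAbove_ne k j),
        Function.update_of_ne (Fin.succAbove_ne k j)]
      simp
  by_cases hT : Nonempty T
  · obtain ⟨t₀⟩ := hT
    have h3 : ∀ t : T, ((-1 : ℤ) ^ (k : ℕ) • ψ (List.ofFn fun i =>
        (Fin.insertNthEquiv (fun _ => T) k) (t, w) (k.succAbove i))) *
          G.J (fun i => ρ ((Fin.insertNthEquiv (fun _ => T) k) (t, w) i)) =
        ((-1 : ℤ) ^ (k : ℕ) • ψ (List.ofFn w)) *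
          G.J (Function.update (fun i => ρ ((Fin.insertNthEquiv (fun _ => T) k) (t₀, w) i)) k
            (ρ t)) := by
      intro t
      rw [h1 t, h2 t t₀]
      congr 4
      simp
    rw [Finset.sum_congr rfl fun t _ => h3 t, ← Finset.mul_sum]
    have h4 : ∑ t, G.J (Function.update
        (fun i => ρ ((Fin.insertNthEquiv (fun _ => T) k) (t₀, w) i)) k (ρ t)) =
        G.J (Function.update
          (fun i => ρ ((Fin.insertNthEquiv (fun _ => T) k) (t₀, w) i)) k (∑ t, ρ t)) :=
      (G.J.toMultilinearMap.map_update_sum Finset.univ k ρ _).symm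
    rw [h4, hρ, G.one _ k (by simp), mul_zero]
  · rw [not_nonempty_iff] at hT
    simp

/-- comparison of two partitions -/
theorem EV_compare {ρ : T → G.F} {lb : T → S} {ρ' : T' → G.F} {lb' : T' → S}
    (hρ : ∑ t, ρ t = 1) (hρ' : ∑ t, ρ' t = 1) (C : List S → ℝ)
    (h : ∀ p : M, ∀ m : List S, m.length = n + 2 →
      (∀ s ∈ m, (∃ t, p ∈ tsupport (ρ t : M → ℝ) ∧ lb t = s) ∨
        (∃ t, p ∈ tsupport (ρ' t : M → ℝ) ∧ lb' t = s)) → dl C m = 0) :
    EV G ρ lb C = EV G ρ' lb' C := by
  classical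
  set f : T × T' → S := fun t => lb t.1 with hf
  set g : T × T' → S := fun t => lb' t.2 with hg
  set σ : T × T' → G.F := fun t => ρ t.1 * ρ' t.2 with hσ
  have hσ1 : ∑ t, σ t = 1 := by
    rw [Fintype.sum_prod_type]
    simp only [hσ, ← Finset.mul_sum, hρ', mul_one, hρ]
  have e1 : EV G ρ lb C = ∑ v : Fin (n + 1) → T × T',
      C (List.ofFn fun i => f (v i)) * G.J (fun i => σ (v i)) := by
    rw [← Equiv.sum_comp (Equiv.arrowProdEquivProdArrow (Fin (n + 1)) (fun _ => T)
      (fun _ => T')).symm, Fintype.sum_prod_type]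
    unfold EV
    refine Finset.sum_congr rfl fun a _ => ?_
    have h1 : (fun i => ρ (a i)) = fun i => ∑ t', ρ (a i) * ρ' t' := by
      funext i
      rw [← Finset.mul_sum, hρ', mul_one]
    have h2 : G.J (fun i => ρ (a i)) = ∑ b : Fin (n + 1) → T', G.J fun i => ρ (a i) * ρ' (b i) := by
      conv_lhs => rw [h1]
      exact G.J.toMultilinearMap.map_sum fun i t' => ρ (a i) * ρ' t'
    rw [h2, Finset.mul_sum]
    rfl
  have e2 : EV G ρ' lb' C = ∑ v : Fin (n + 1) → T × T',
      C (List.ofFn fun i => g (v i)) * G.J (fun i => σ (v i)) := by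
    rw [← Equiv.sum_comp (Equiv.arrowProdEquivProdArrow (Fin (n + 1)) (fun _ => T)
      (fun _ => T')).symm, Fintype.sum_prod_type, Finset.sum_comm]
    unfold EV
    refine Finset.sum_congr rfl fun b _ => ?_
    have h1 : (fun i => ρ' (b i)) = fun i => ∑ t, ρ t * ρ' (b i) := by
      funext i
      rw [← Finset.sum_mul, hρ, one_mul]
    have h2 : G.J (fun i => ρ' (b i)) = ∑ a : Fin (n + 1) → T, G.J fun i => ρ (a i) * ρ' (b i) := by
      conv_lhs => rw [h1]
      exact G.J.toMultilinearMap.map_sum fun i t => ρ t * ρ' (b i)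
    rw [h2, Finset.mul_sum]
    rfl
  have e3 : EV G ρ' lb' C - EV G ρ lb C = 0 := by
    rw [e1, e2, ← Finset.sum_sub_distrib]
    have h3 : ∀ v : Fin (n + 1) → T × T',
        C (List.ofFn fun i => g (v i)) * G.J (fun i => σ (v i)) -
          C (List.ofFn fun i => f (v i)) * G.J (fun i => σ (v i)) =
        dl (pr f g C) (List.ofFn v) * G.J (fun i => σ (v i)) := by
      intro v
      have hh := homotopy f g C (List.ofFn v)
      rw [List.map_ofFn, List.map_ofFn] at hh
      have hz : pr f g (dl C) (List.ofFn v) * G.J (fun i => σ (v i)) = 0 := by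
        by_cases hp : ∃ p, ∀ k, p ∈ tsupport (σ (v k) : M → ℝ)
        · obtain ⟨p, hp⟩ := hp
          rw [pr_eq_zero fun m hm _ hml => h p m (by simpa using hml) fun s hs => ?_, zero_mul]
          obtain ⟨x, hx, hxs⟩ := hm s hs
          rw [List.mem_ofFn] at hx
          obtain ⟨k, rfl⟩ := hx
          have hpk := hp k
          rcases hxs with rfl | rfl
          · exact Or.inl ⟨(v k).1, tsupport_mul_subset_left hpk, rfl⟩
          · exact Or.inr ⟨(v k).2, tsupport_mul_subset_right hpk, rfl⟩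
        · push Not at hp
          rw [G.loc _ hp, mul_zero]
      have e4 : (List.ofFn fun i => g (v i)) = List.ofFn (g ∘ v) := rfl
      have e5 : (List.ofFn fun i => f (v i)) = List.ofFn (f ∘ v) := rfl
      rw [← sub_mul, e4, e5, ← hh, add_mul, hz, add_zero]
    rw [Finset.sum_congr rfl fun v _ => h3 v]
    exact sum_dl_idx hσ1 _
  linarith

theorem EV_add (ρ : T → G.F) (lb : T → S) (C D : List S → ℝ) :
    EV G ρ lb (fun l => C l + D l) = EV G ρ lb C + EV G ρ lb D := by
  unfold EV
  rw [← Finset.sum_add_distrib]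
  exact Finset.sum_congr rfl fun v _ => by ring

theorem EV_smul (ρ : T → G.F) (lb : T → S) (c : ℝ) (C : List S → ℝ) :
    EV G ρ lb (fun l => c * C l) = c * EV G ρ lb C := by
  unfold EV
  rw [Finset.mul_sum]
  exact Finset.sum_congr rfl fun v _ => by ring

/-- only tuples whose functions have a common point in their supports matter -/
theorem EV_congr {ρ : T → G.F} {lb : T → S} {C D : List S → ℝ}
    (h : ∀ p : M, ∀ m : List S, m.length = n + 1 →
      (∀ s ∈ m, ∃ t, p ∈ tsupport (ρ t : M → ℝ) ∧ lb t = s) → C m = D m) :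
    EV G ρ lb C = EV G ρ lb D := by
  unfold EV
  refine Finset.sum_congr rfl fun v _ => ?_
  by_cases hp : ∃ p, ∀ k, p ∈ tsupport (ρ (v k) : M → ℝ)
  · obtain ⟨p, hp⟩ := hp
    rw [h p _ (by simp) fun s hs => ?_]
    rw [List.mem_ofFn] at hs
    obtain ⟨k, rfl⟩ := hs
    exact ⟨v k, hp k, rfl⟩
  · push Not at hp
    rw [G.loc _ hp, mul_zero, mul_zero]

theorem EV_zero (ρ : T → G.F) (lb : T → S) : EV G ρ lb (fun _ => 0) = 0 := by
  simp [EV]

theorem EV_dl {ρ : T → G.F} (hρ : ∑ t, ρ t = 1) (lb : T → S) (D : List S → ℝ) :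
    EV G ρ lb (dl D) = 0 := by
  have h := sum_dl_idx (G := G) hρ (fun m => D (m.map lb))
  unfold EV
  rw [← h]
  refine Finset.sum_congr rfl fun v _ => ?_
  rw [dl_map, List.map_ofFn]
  rfl

end EV

/-! ### extension by `none` -/

section opt

variable {M : Type}

open Classical in
/-- extension by zero of a cochain to the labels `Option M` -/
def opt (φ : List M → ℝ) (l : List (Option M)) : ℝ := if none ∈ l then 0 else φ l.reduceOption

theorem opt_none {φ : List M → ℝ} {l : List (Option M)} (h : none ∈ l) : opt φ l = 0 := by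
  simp [opt, h]

theorem opt_map_some (φ : List M → ℝ) (l : List M) : opt φ (l.map some) = φ l := by
  simp [opt, List.reduceOption]

theorem exists_map_some {l : List (Option M)} (h : none ∉ l) : ∃ m : List M, l = m.map some := by
  induction l with
  | nil => exact ⟨[], rfl⟩
  | cons a l ih =>
    simp only [List.mem_cons, not_or] at h
    obtain ⟨m, rfl⟩ := ih h.2
    cases a with
    | none => exact absurd rfl h.1
    | some a => exact ⟨a :: m, rfl⟩

theorem dl_opt_some (φ : List M → ℝ) (m : List M) : dl (opt φ) (m.map some) = dl φ m := by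
  rw [← dl_map]
  simp only [opt_map_some]

theorem opt_add (φ ψ : List M → ℝ) (l : List (Option M)) :
    opt (fun l => φ l + ψ l) l = opt φ l + opt ψ l := by
  by_cases h : none ∈ l <;> simp [opt, h]

theorem opt_smul (c : ℝ) (φ : List M → ℝ) (l : List (Option M)) :
    opt (fun l => c * φ l) l = c * opt φ l := by
  by_cases h : none ∈ l <;> simp [opt, h]

end opt

/-! ### fine partitions -/

section fine

variable {n : ℕ} {M : Type} [MetricSpace M] {G : JD n M}

/-- fine partitions: `ε`-small, labels `none` only off `L` -/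
structure Fine (G : JD n M) (ε : ℝ) (L : Set M) {T : Type} [Fintype T] (ρ : T → G.F)
    (lb : T → Option M) : Prop where
  sum : ∑ t, ρ t = 1
  some : ∀ t z, lb t = some z → ∀ p ∈ tsupport (ρ t : M → ℝ), dist p z < ε
  none : ∀ t, lb t = none → ∀ p ∈ tsupport (ρ t : M → ℝ), p ∉ L

theorem Fine.mono {ε ε' : ℝ} {L L' : Set M} {T : Type} [Fintype T] {ρ : T → G.F}
    {lb : T → Option M} (h : Fine G ε L ρ lb) (he : ε ≤ ε') (hL : L' ⊆ L) : Fine G ε' L' ρ lb :=
  ⟨h.sum, fun t z hz p hp => (h.some t z hz p hp).trans_le he,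
    fun t ht p hp hpL => h.none t ht p hp (hL hpL)⟩

theorem exists_fine {ε : ℝ} (hε : 0 < ε) {L : Set M} (hL : IsCompact L) :
    ∃ (T : Type) (_ : Fintype T) (ρ : T → G.F) (lb : T → Option M), Fine G ε L ρ lb := by
  classical
  have hb : ∀ x : M, ∃ b : G.F, tsupport (b : M → ℝ) ⊆ Metric.ball x ε ∧
      ∀ᶠ y in 𝓝 x, (b : M → ℝ) y = 1 := fun x => by
    obtain ⟨b, h1, _, h3⟩ := G.bump x _ (Metric.ball_mem_nhds x hε)
    exact ⟨b, h1, h3⟩
  choose b hb1 hb2 using hb
  obtain ⟨t, ht⟩ := hL.elim_nhds_subcover (fun x => {y | ∀ᶠ z in 𝓝 y, (b x : M → ℝ) z = 1})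
    fun x _ => (hb2 x).eventually_nhds
  refine ⟨Finset {x // x ∈ t}, inferInstance,
    fun S => (∏ i ∈ S, b i.1) * ∏ i ∈ Finset.univ \ S, (1 - b i.1),
    fun S => if h : S.Nonempty then some h.choose.1 else none, ?_, ?_, ?_⟩
  · have := Finset.prod_add (fun i : {x // x ∈ t} => b i.1) (fun i => 1 - b i.1) Finset.univ
    simp only [add_sub_cancel, Finset.prod_const_one, Finset.powerset_univ] at this
    exact this.symm
  · intro S z hz p hp
    by_cases h : S.Nonempty
    · rw [dif_pos h, Option.some.injEq] at hz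
      have h1 : p ∈ tsupport (b h.choose.1 : M → ℝ) := by
        have h2 := tsupport_mul_subset_left (f := ((∏ i ∈ S, b i.1 : G.F) : M → ℝ)) hp
        rw [← Finset.mul_prod_erase S (fun i => b i.1) h.choose_spec] at h2
        exact tsupport_mul_subset_left (f := (b h.choose.1 : M → ℝ)) h2
      have := hb1 _ h1
      rw [hz] at this
      exact this
    · rw [dif_neg h] at hz
      exact absurd hz (by simp)
  · intro S hS p hp hpL
    by_cases h : S.Nonempty
    · rw [dif_pos h] at hS
      exact absurd hS (by simp)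
    · rw [Finset.not_nonempty_iff_eq_empty] at h
      subst h
      obtain ⟨x, hx, hxp⟩ := mem_iUnion₂.1 (ht.2 hpL)
      refine (notMem_tsupport_iff_eventuallyEq.2 ?_) hp
      filter_upwards [hxp] with y hy
      have h1 : ((∏ i ∈ Finset.univ \ (∅ : Finset {x // x ∈ t}), (1 - b i.1) : G.F) : M → ℝ) y =
          0 := by
        rw [← Finset.mul_prod_erase _ (fun i : {x // x ∈ t} => 1 - b i.1)
          (by simp : (⟨x, hx⟩ : {x // x ∈ t}) ∈ Finset.univ \ ∅)]
        simp [hy]
      simp only [Subalgebra.coe_mul, Pi.mul_apply, h1, mul_zero, Pi.zero_apply]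

/-- `EV` of `φ` is `r` for all sufficiently fine partitions -/
def IsE (G : JD n M) (φ : List M → ℝ) (r : ℝ) : Prop :=
  ∃ ε > 0, ∃ L : Set M, IsCompact L ∧ ∀ (T : Type) [Fintype T] (ρ : T → G.F) (lb : T → Option M),
    Fine G ε L ρ lb → EV G ρ lb (opt φ) = r

theorem IsE.unique {φ : List M → ℝ} {r s : ℝ} (h : IsE G φ r) (h' : IsE G φ s) : r = s := by
  obtain ⟨ε, hε, L, hL, h⟩ := h
  obtain ⟨ε', hε', L', hL', h'⟩ := h'
  obtain ⟨T, hT, ρ, lb, hf⟩ := exists_fine (G := G) (lt_min hε hε') (hL.union hL')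
  rw [← h T ρ lb (hf.mono (min_le_left _ _) subset_union_left),
    ← h' T ρ lb (hf.mono (min_le_right _ _) subset_union_right)]

theorem IsE.add {φ ψ : List M → ℝ} {r s : ℝ} (h : IsE G φ r) (h' : IsE G ψ s) :
    IsE G (fun l => φ l + ψ l) (r + s) := by
  obtain ⟨ε, hε, L, hL, h⟩ := h
  obtain ⟨ε', hε', L', hL', h'⟩ := h'
  refine ⟨min ε ε', lt_min hε hε', L ∪ L', hL.union hL', fun T _ ρ lb hf => ?_⟩
  rw [← h T ρ lb (hf.mono (min_le_left _ _) subset_union_left),
    ← h' T ρ lb (hf.mono (min_le_right _ _) subset_union_right), ← EV_add]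
  congr 1
  funext l
  exact opt_add φ ψ l

theorem IsE.smul (c : ℝ) {φ : List M → ℝ} {r : ℝ} (h : IsE G φ r) :
    IsE G (fun l => c * φ l) (c * r) := by
  obtain ⟨ε, hε, L, hL, h⟩ := h
  refine ⟨ε, hε, L, hL, fun T _ ρ lb hf => ?_⟩
  rw [← h T ρ lb hf, ← EV_smul]
  congr 1
  funext l
  exact opt_smul c φ l

/-- the cochain vanishes on lists of length `q + 1` which do not meet some compact set -/
def CutC (q : ℕ) (φ : List M → ℝ) : Prop :=
  ∃ K, IsCompact K ∧ ∀ l : List M, l.length = q + 1 → (∀ x ∈ l, x ∉ K) → φ l = 0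

theorem isE_zero {φ : List M → ℝ} (hc : CutC n φ) (h : EqN n φ fun _ => 0) : IsE G φ 0 := by
  obtain ⟨K, hK, hc⟩ := hc
  obtain ⟨ε, hε, hP⟩ := exists_scale hK fun p _ => h p
  refine ⟨ε / 2, half_pos hε, ∅, isCompact_empty, fun T _ ρ lb hf => ?_⟩
  rw [EV_congr (D := fun _ => 0) fun p m hm hs => ?_, EV_zero]
  by_cases hn : none ∈ m
  · exact opt_none hn
  · obtain ⟨l, rfl⟩ := exists_map_some hn
    rw [opt_map_some]
    have hd : ∀ z ∈ l, dist p z < ε / 2 := by
      intro z hz
      obtain ⟨t, ht, htz⟩ := hs (some z) (List.mem_map.2 ⟨z, hz, rfl⟩)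
      exact hf.some t z htz p ht
    by_cases hl : ∃ x ∈ l, x ∈ K
    · obtain ⟨x, hx, hxK⟩ := hl
      refine hP l x hxK (fun y hy => ?_) (by simpa using hm)
      calc dist y x ≤ dist p y + dist p x := by
            rw [dist_comm p y]; exact dist_triangle y p x
        _ < ε := by linarith [hd y hy, hd x hx]
    · push Not at hl
      exact hc l (by simpa using hm) hl

theorem exists_thick [LocallyCompactSpace M] {K : Set M} (hK : IsCompact K) :
    ∃ δ > 0, ∃ L, IsCompact L ∧ ∀ p z : M, z ∈ K → dist p z < δ → p ∈ L := by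
  obtain ⟨δ, hδ, hL⟩ := hK.exists_isCompact_cthickening
  exact ⟨δ, hδ, _, hL, fun p z hz hpz => Metric.mem_cthickening_of_dist_le p z δ K hz hpz.le⟩

/-- existence of the value for closed cochains -/
theorem exists_isE [LocallyCompactSpace M] {φ : List M → ℝ} (hc : CutC n φ) (h : Cl n φ) :
    ∃ r, IsE G φ r := by
  obtain ⟨K, hK, hc⟩ := hc
  obtain ⟨ε, hε, hP⟩ := exists_scale hK fun p _ => h p
  obtain ⟨δ, hδ, L, hL, hLp⟩ := exists_thick hK
  set η := min (ε / 2) δ with hη
  have hη0 : 0 < η := lt_min (half_pos hε) hδ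
  obtain ⟨T₀, hT₀, ρ₀, lb₀, hf₀⟩ := exists_fine (G := G) hη0 hL
  refine ⟨EV G ρ₀ lb₀ (opt φ), η, hη0, L, hL, fun T _ ρ lb hf => ?_⟩
  refine EV_compare hf.sum hf₀.sum _ fun p m hm hs => ?_
  have hd : ∀ z, some z ∈ m → dist p z < η := by
    intro z hz
    rcases hs _ hz with ⟨t, ht, htz⟩ | ⟨t, ht, htz⟩
    · exact hf.some t z htz p ht
    · exact hf₀.some t z htz p ht
  by_cases hn : none ∈ m
  · have hpL : p ∉ L := by
      rcases hs _ hn with ⟨t, ht, htz⟩ | ⟨t, ht, htz⟩
      · exact hf.none t htz p ht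
      · exact hf₀.none t htz p ht
    refine dl_eq_zero fun m' hm' hml => ?_
    by_cases hn' : none ∈ m'
    · exact opt_none hn'
    · obtain ⟨l, rfl⟩ := exists_map_some hn'
      rw [opt_map_some]
      refine hc l (by simp at hml; omega) fun x hx hxK => hpL (hLp p x hxK ?_)
      exact (hd x (hm'.subset (List.mem_map.2 ⟨x, hx, rfl⟩))).trans_le (min_le_right _ _)
  · obtain ⟨l, rfl⟩ := exists_map_some hn
    rw [dl_opt_some]
    have hd' : ∀ z ∈ l, dist p z < ε / 2 := fun z hz =>
      (hd z (List.mem_map.2 ⟨z, hz, rfl⟩)).trans_le (min_le_left _ _)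
    by_cases hl : ∃ x ∈ l, x ∈ K
    · obtain ⟨x, hx, hxK⟩ := hl
      refine hP l x hxK (fun y hy => ?_) (by simpa using hm)
      calc dist y x ≤ dist p y + dist p x := by
            rw [dist_comm p y]; exact dist_triangle y p x
        _ < ε := by linarith [hd' y hy, hd' x hx]
    · push Not at hl
      refine dl_eq_zero fun m' hm' hml => ?_
      exact hc m' (by simp at hm; omega) fun x hx => hl x (hm'.subset hx)

/-- the value on coboundaries -/
theorem isE_dl [LocallyCompactSpace M] {q : ℕ} {G : JD (q + 1) M} {ψ : List M → ℝ}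
    (hc : CutC q ψ) : IsE G (dl ψ) 0 := by
  obtain ⟨K, hK, hc⟩ := hc
  obtain ⟨δ, hδ, L, hL, hLp⟩ := exists_thick hK
  refine ⟨δ, hδ, L, hL, fun T _ ρ lb hf => ?_⟩
  rw [EV_congr (D := dl (opt ψ)) fun p m hm hs => ?_, EV_dl hf.sum]
  by_cases hnn : none ∈ m
  · rw [opt_none hnn]
    symm
    have hpL : p ∉ L := by
      obtain ⟨t, ht, htz⟩ := hs _ hnn
      exact hf.none t htz p ht
    refine dl_eq_zero fun m' hm' hml => ?_
    by_cases hn' : none ∈ m'
    · exact opt_none hn'
    · obtain ⟨l, rfl⟩ := exists_map_some hn'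
      rw [opt_map_some]
      refine hc l (by simp at hml; omega) fun x hx hxK => hpL (hLp p x hxK ?_)
      obtain ⟨t, ht, htz⟩ := hs _ (hm'.subset (List.mem_map.2 ⟨x, hx, rfl⟩))
      exact hf.some t x htz p ht
  · obtain ⟨l, rfl⟩ := exists_map_some hnn
    rw [opt_map_some, dl_opt_some]

end fine

end

end Crest.Agent.R275.EOr627
end

-- ▼ part R275/EOr2_627
section

set_option autoImplicit false
set_option linter.unusedSectionVars false

open Set Filter Topology

namespace Crest.Agent.R275.EOr627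

open ASZ627 ASN627

noncomputable section

/-! ### truncation -/

section cut

variable {X : Type*} {A : Type*} [AddCommGroup A]

open Classical in
/-- truncation of a cochain to the lists inside `K` -/
def cutK (K : Set X) (φ : List X → A) : List X → A := fun l => if ∀ x ∈ l, x ∈ K then φ l else 0

theorem eqN_cutK [TopologicalSpace X] {q : ℕ} {φ : List X → A} {K : Set X}
    (h : supp q φ ⊆ interior K) : EqN q φ (cutK K φ) := by
  intro p
  by_cases hp : p ∈ supp q φ
  · refine ⟨K, mem_interior_iff_mem_nhds.1 (h hp), fun l hl _ => ?_⟩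
    rw [cutK, if_pos hl]
  · refine (notMem_supp.1 hp).mono fun l h1 h2 => ?_
    rw [cutK]
    split_ifs
    · rfl
    · exact h1 h2

theorem cutK_of_notMem {φ : List X → A} {K : Set X} {l : List X} (h : ∃ x ∈ l, x ∉ K) :
    cutK K φ l = 0 := by
  obtain ⟨x, hx, hxK⟩ := h
  rw [cutK, if_neg fun h => hxK (h x hx)]

theorem exists_compact_nhds [TopologicalSpace X] [LocallyCompactSpace X] {q : ℕ} {φ : List X → A}
    (h : IsCompact (supp q φ)) : ∃ K, IsCompact K ∧ EqN q φ (cutK K φ) := by
  obtain ⟨K, hK, hK'⟩ := exists_compact_superset h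
  exact ⟨K, hK, eqN_cutK hK'⟩

end cut

/-! ### the functional -/

section E

variable {n : ℕ} {M : Type} [MetricSpace M]

variable {q : ℕ}

theorem CutC.add {φ ψ : List M → ℝ} (h : CutC q φ) (h' : CutC q ψ) :
    CutC q fun l => φ l + ψ l := by
  obtain ⟨K, hK, h⟩ := h
  obtain ⟨L, hL, h'⟩ := h'
  refine ⟨K ∪ L, hK.union hL, fun l hl hx => ?_⟩
  simp [h l hl fun x hxl hxK => hx x hxl (Or.inl hxK),
    h' l hl fun x hxl hxK => hx x hxl (Or.inr hxK)]

theorem CutC.smul (c : ℝ) {φ : List M → ℝ} (h : CutC q φ) : CutC q fun l => c * φ l := by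
  obtain ⟨K, hK, h⟩ := h
  exact ⟨K, hK, fun l hl hx => by simp [h l hl hx]⟩

theorem cutC_cutK {K : Set M} (hK : IsCompact K) (q : ℕ) (φ : List M → ℝ) : CutC q (cutK K φ) := by
  refine ⟨K, hK, fun l hl hx => ?_⟩
  obtain ⟨x, hxl⟩ := List.exists_mem_of_ne_nil l (by rintro rfl; simp at hl)
  exact cutK_of_notMem ⟨x, hxl, hx x hxl⟩

theorem CutC.dl {φ : List M → ℝ} (h : CutC q φ) : CutC (q + 1) (ASZ627.dl φ) := by
  obtain ⟨K, hK, h⟩ := h
  exact ⟨K, hK, fun l hl hx => dl_eq_zero fun m hm hml =>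
    h m (by omega) fun x hxm => hx x (hm.subset hxm)⟩

open Classical in
/-- the orientation functional, real cochains -/
def E (G : JD n M) (φ : List M → ℝ) : ℝ :=
  if h : ∃ r, ∃ φ', CutC n φ' ∧ EqN n φ φ' ∧ IsE G φ' r then h.choose else 0

variable {G : JD n M}

theorem isE_congr {φ ψ : List M → ℝ} {r s : ℝ} (hφ : CutC n φ) (hψ : CutC n ψ) (h : EqN n φ ψ)
    (h1 : IsE G φ r) (h2 : IsE G ψ s) : r = s := by
  have h3 : IsE G (fun l => φ l + (-1) * ψ l) (r + (-1) * s) := h1.add (h2.smul (-1))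
  have h4 : IsE G (fun l => φ l + (-1) * ψ l) 0 := by
    refine isE_zero (hφ.add (hψ.smul (-1))) fun p => (h p).mono fun l h1 h2 => ?_
    rw [h1 h2]; ring
  have := h3.unique h4
  linarith

theorem E_eq {φ φ' : List M → ℝ} {r : ℝ} (hc : CutC n φ') (h : EqN n φ φ') (hr : IsE G φ' r) :
    E G φ = r := by
  have hex : ∃ r, ∃ φ', CutC n φ' ∧ EqN n φ φ' ∧ IsE G φ' r := ⟨r, φ', hc, h, hr⟩
  rw [E, dif_pos hex]
  obtain ⟨ψ, h1, h2, h3⟩ := hex.choose_spec
  exact isE_congr h1 hc (h2.symm.trans h) h3 hr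

theorem E_congr {φ ψ : List M → ℝ} (h : EqN n φ ψ) : E G φ = E G ψ := by
  have : (∃ r, ∃ φ', CutC n φ' ∧ EqN n φ φ' ∧ IsE G φ' r) ↔
      ∃ r, ∃ φ', CutC n φ' ∧ EqN n ψ φ' ∧ IsE G φ' r :=
    ⟨fun ⟨r, φ', h1, h2, h3⟩ => ⟨r, φ', h1, h.symm.trans h2, h3⟩,
      fun ⟨r, φ', h1, h2, h3⟩ => ⟨r, φ', h1, h.trans h2, h3⟩⟩
  by_cases hex : ∃ r, ∃ φ', CutC n φ' ∧ EqN n φ φ' ∧ IsE G φ' r
  · obtain ⟨r, φ', h1, h2, h3⟩ := hex
    rw [E_eq h1 h2 h3, E_eq h1 (h.symm.trans h2) h3]
  · rw [E, E, dif_neg hex, dif_neg fun hc => hex (this.2 hc)]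

variable [LocallyCompactSpace M]

/-- for closed cochains with compact support the value exists -/
theorem exists_good {φ : List M → ℝ} (hcl : Cl n φ) (hs : IsCompact (supp n φ)) :
    ∃ r, ∃ φ', CutC n φ' ∧ EqN n φ φ' ∧ IsE G φ' r := by
  obtain ⟨K, hK, h⟩ := exists_compact_nhds hs
  obtain ⟨r, hr⟩ := exists_isE (G := G) (cutC_cutK hK n φ) (Cl.of_eqN h hcl)
  exact ⟨r, _, cutC_cutK hK n φ, h, hr⟩

theorem E_add {φ ψ : List M → ℝ} (hφ : Cl n φ) (hφs : IsCompact (supp n φ)) (hψ : Cl n ψ)
    (hψs : IsCompact (supp n ψ)) : E G (fun l => φ l + ψ l) = E G φ + E G ψ := by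
  obtain ⟨r, φ', h1, h2, h3⟩ := exists_good (G := G) hφ hφs
  obtain ⟨s, ψ', k1, k2, k3⟩ := exists_good (G := G) hψ hψs
  rw [E_eq h1 h2 h3, E_eq k1 k2 k3, E_eq (h1.add k1) (h2.add k2) (h3.add k3)]


theorem E_dl {m : ℕ} {G : JD (m + 1) M} {ψ : List M → ℝ} (hψ : IsCompact (supp m ψ)) :
    E G (dl ψ) = 0 := by
  obtain ⟨K, hK, h⟩ := exists_compact_nhds hψ
  exact E_eq (cutC_cutK hK m ψ).dl h.dl (isE_dl (cutC_cutK hK m ψ))

end E

/-! ### integral cochains -/

section EZ

variable {n : ℕ} {M : Type} [MetricSpace M]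

/-- the orientation functional, integral cochains -/
def EZ (G : JD n M) (φ : List M → ℤ) : ℝ := E G fun l => (φ l : ℝ)

theorem dl_cast (φ : List M → ℤ) (l : List M) : dl (fun m => (φ m : ℝ)) l = (dl φ l : ℤ) :=
  dl_map_hom (Int.castAddHom ℝ) φ l

theorem EqN.cast {q : ℕ} {φ ψ : List M → ℤ} (h : EqN q φ ψ) :
    EqN q (fun l => (φ l : ℝ)) (fun l => (ψ l : ℝ)) :=
  fun p => (h p).mono fun _ h1 h2 => by simp only [h1 h2]

theorem Cl.cast {q : ℕ} {φ : List M → ℤ} (h : Cl q φ) : Cl q (fun l => (φ l : ℝ)) :=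
  fun p => (h p).mono fun _ h1 h2 => by rw [dl_cast, h1 h2, Int.cast_zero]

theorem supp_cast (q : ℕ) (φ : List M → ℤ) : supp q (fun l => (φ l : ℝ)) = supp q φ := by
  ext p
  simp only [supp, mem_ofPred_eq, Int.cast_eq_zero]

variable {G : JD n M}

theorem EZ_congr {φ ψ : List M → ℤ} (h : EqN n φ ψ) : EZ G φ = EZ G ψ :=
  E_congr (EqN.cast h)

variable [LocallyCompactSpace M]

theorem EZ_add {φ ψ : List M → ℤ} (hφ : Cl n φ) (hφs : IsCompact (supp n φ)) (hψ : Cl n ψ)
    (hψs : IsCompact (supp n ψ)) : EZ G (fun l => φ l + ψ l) = EZ G φ + EZ G ψ := by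
  have := E_add (G := G) (Cl.cast hφ) (by rwa [supp_cast]) (Cl.cast hψ) (by rwa [supp_cast])
  unfold EZ
  rw [← this]
  simp only [Int.cast_add]

theorem EZ_dl {m : ℕ} {G : JD (m + 1) M} {ψ : List M → ℤ} (hψ : IsCompact (supp m ψ)) :
    EZ G (dl ψ) = 0 := by
  unfold EZ
  have : (fun l => ((dl ψ l : ℤ) : ℝ)) = dl fun l => (ψ l : ℝ) := by
    funext l
    rw [dl_cast]
  rw [this]
  exact E_dl (by rwa [supp_cast])

end EZ

/-! ### label cochains -/

section label

variable {n : ℕ} {M : Type} [MetricSpace M] [LocallyCompactSpace M] {G : JD n M}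

theorem exists_scale_set {K : Set M} (hK : IsCompact K) {Q : Set M → Prop}
    (hQ : ∀ U V, U ⊆ V → Q V → Q U) (h : ∀ p ∈ K, ∃ V ∈ 𝓝 p, Q V) :
    ∃ ε > 0, ∀ x ∈ K, Q (Metric.ball x ε) := by
  choose! V hV hP using h
  obtain ⟨ε, hε, hL⟩ := lebesgue_number_lemma_of_metric (s := K) (c := fun p : K => interior (V p))
    hK (fun p => isOpen_interior) (fun x hx => mem_iUnion.2 ⟨⟨x, hx⟩,
      mem_interior_iff_mem_nhds.2 (hV x hx)⟩)
  refine ⟨ε, hε, fun x hx => ?_⟩
  obtain ⟨p, hp⟩ := hL x hx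
  exact hQ _ _ (hp.trans interior_subset) (hP p p.2)

/-- value of a label cochain: any partition of unity adapted to the labels computes it -/
theorem isE_label {S₀ T' : Type} [Fintype T'] {ρ' : T' → G.F} (hρ' : ∑ t, ρ' t = 1)
    (lb' : T' → Option S₀) (lab : M → Option S₀) (C : List (Option S₀) → ℝ)
    (hC : ∀ l, none ∈ l → C l = 0) {K : Set M} (hK : IsCompact K)
    (hlab : ∀ x ∉ K, lab x = none)
    (hK' : ∀ t, lb' t ≠ none → tsupport (ρ' t : M → ℝ) ⊆ K)
    (hLC : ∀ p, ∃ V ∈ 𝓝 p, ∀ m : List (Option S₀), m.length = n + 2 →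
      (∀ s ∈ m, (∃ x ∈ V, lab x = s) ∨ ∃ x ∈ V, ∃ t, x ∈ tsupport (ρ' t : M → ℝ) ∧ lb' t = s) →
        dl C m = 0) :
    IsE G (fun l => C (l.map lab)) (EV G ρ' lb' C) := by
  classical
  obtain ⟨δ, hδ, L, hL, hLp⟩ := exists_thick hK
  obtain ⟨ε, hε, hP⟩ := exists_scale_set (M := M) hL
    (Q := fun V => ∀ m : List (Option S₀), m.length = n + 2 →
      (∀ s ∈ m, (∃ x ∈ V, lab x = s) ∨ ∃ x ∈ V, ∃ t, x ∈ tsupport (ρ' t : M → ℝ) ∧ lb' t = s) →
        dl C m = 0)
    (fun U V hUV hV m hm hs => hV m hm fun s hsm => (hs s hsm).imp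
      (fun ⟨x, hx, h⟩ => ⟨x, hUV hx, h⟩) (fun ⟨x, hx, h⟩ => ⟨x, hUV hx, h⟩))
    (fun p _ => hLC p)
  refine ⟨min ε δ, lt_min hε hδ, L, hL, fun T _ ρ lb hf => ?_⟩
  have e1 : EV G ρ lb (opt fun l => C (l.map lab)) = EV G ρ (fun t => (lb t).bind lab) C := by
    unfold EV
    refine Finset.sum_congr rfl fun v _ => ?_
    congr 1
    have e2 : (List.ofFn fun i => (lb (v i)).bind lab) =
        (List.ofFn fun i => lb (v i)).map fun o => o.bind lab := by
      rw [List.map_ofFn]; rfl
    rw [e2]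
    by_cases hn : none ∈ List.ofFn fun i => lb (v i)
    · rw [opt_none hn, hC]
      exact List.mem_map.2 ⟨none, hn, rfl⟩
    · obtain ⟨l, hl⟩ := exists_map_some hn
      rw [hl, opt_map_some, List.map_map]
      rfl
  rw [e1]
  refine EV_compare hf.sum hρ' _ fun p m hm hs => ?_
  by_cases hp : p ∈ L
  · refine hP p hp m hm fun s hsm => ?_
    rcases hs s hsm with ⟨t, ht, hts⟩ | ⟨t, ht, hts⟩
    · left
      cases hlt : lb t with
      | none => exact absurd hp (hf.none t hlt p ht)
      | some z =>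
        rw [hlt] at hts
        refine ⟨z, ?_, hts⟩
        rw [Metric.mem_ball, dist_comm]
        exact (hf.some t z hlt p ht).trans_le (min_le_left _ _)
    · exact Or.inr ⟨p, Metric.mem_ball_self hε, t, ht, hts⟩
  · have hnone : ∀ s ∈ m, s = none := by
      intro s hsm
      rcases hs s hsm with ⟨t, ht, hts⟩ | ⟨t, ht, hts⟩
      · cases hlt : lb t with
        | none => rw [hlt] at hts; exact hts.symm
        | some z =>
          rw [hlt] at hts
          have hz : z ∉ K := fun hzK => hp (hLp p z hzK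
            ((hf.some t z hlt p ht).trans_le (min_le_right _ _)))
          rw [← hts]
          exact hlab z hz
      · by_contra hne
        rw [← hts] at hne
        exact hp (hLp p p (hK' t hne ht) (by simpa using hδ))
    refine dl_eq_zero fun m' hm' hml => hC _ ?_
    obtain ⟨s, hs'⟩ := List.exists_mem_of_ne_nil m' (by rintro rfl; simp at hml; omega)
    rwa [← hnone s (hm'.subset hs')]

end label

end

end Crest.Agent.R275.EOr627
end

-- ▼ part R275/EOr3_627
section

set_option autoImplicit false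
set_option linter.unusedSectionVars false

open Set Filter Topology

namespace Crest.Agent.R275.EOr627

open ASZ627 ASN627

noncomputable section

section nerve

variable {n : ℕ} {M : Type} [MetricSpace M] [LocallyCompactSpace M] {G : JD n M}

/-- **label formula**: `E (C ∘ lab) = ∑ C(v) J(ψ_v)` -/
theorem EZ_label {κ : Type} {U : κ → Set M} {lab : M → κ}
    (hrob : ∀ x, ∀ᶠ y in 𝓝 x, x ∈ U (lab y)) {ψ : κ → G.F}
    (hψU : ∀ v, tsupport (ψ v : M → ℝ) ⊆ U v)
    (hψlf : LocallyFinite fun v => tsupport (ψ v : M → ℝ))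
    (hψ1 : ∀ x, ∑ᶠ v, (ψ v : M → ℝ) x = 1) (C : List κ → ℤ)
    (hC : ∀ m : List κ, m.length = n + 2 → (∃ x, ∀ v ∈ m, x ∈ U v) → dl C m = 0)
    (V₀ : Finset κ)
    (hV₀ : ∀ m : List κ, m.length = n + 1 → (∃ x, ∀ v ∈ m, x ∈ U v) → C m ≠ 0 → ∀ v ∈ m, v ∈ V₀)
    (hUc : ∀ v ∈ V₀, ∃ K, IsCompact K ∧ U v ⊆ K) :
    EZ G (fun l => C (l.map lab)) =
      ∑ v : Fin (n + 1) → V₀, (C (List.ofFn fun i => (v i : κ)) : ℝ) *
        G.J (fun i => ψ (v i)) := by
  classical
  choose! Kc hKc hUK using hUc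
  set K : Set M := ⋃ v ∈ V₀, Kc v with hKdef
  have hK : IsCompact K := V₀.isCompact_biUnion hKc
  have hUK' : ∀ v ∈ V₀, U v ⊆ K := fun v hv => (hUK v hv).trans
    (subset_iUnion₂_of_subset v hv subset_rfl)
  set ρ' : Option V₀ → G.F := fun o => o.elim (1 - ∑ v : V₀, ψ v) fun v => ψ v with hρ'
  have hsum : ∑ t, ρ' t = 1 := by
    rw [Fintype.sum_option]
    simp [hρ']
  set lb' : Option V₀ → Option κ := Option.map Subtype.val with hlb'
  set lab' : M → Option κ := fun x => if lab x ∈ V₀ then some (lab x) else none with hlab'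
  set C' : List (Option κ) → ℝ := opt fun l => (C l : ℝ) with hC'
  have hxU : ∀ x, x ∈ U (lab x) := fun x => (hrob x).self_of_nhds
  have hlabK : ∀ x ∉ K, lab' x = none := by
    intro x hx
    simp only [hlab']
    rw [if_neg]
    exact fun h => hx (hUK' _ h (hxU x))
  have hK' : ∀ t, lb' t ≠ none → tsupport (ρ' t : M → ℝ) ⊆ K := by
    intro t ht
    cases t with
    | none => exact absurd rfl ht
    | some v => exact (hψU v).trans (hUK' v v.2)
  -- a neighbourhood of `p`
  have hnb : ∀ p : M, ∃ V ∈ 𝓝 p, (∀ x ∈ V, p ∈ U (lab x)) ∧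
      (∀ x ∈ V, ∀ t, x ∈ tsupport (ρ' t : M → ℝ) → p ∈ tsupport (ρ' t : M → ℝ)) := by
    intro p
    have h1 : ∀ᶠ x in 𝓝 p, ∀ t : Option V₀, x ∈ tsupport (ρ' t : M → ℝ) →
        p ∈ tsupport (ρ' t : M → ℝ) := by
      rw [eventually_all]
      intro t
      by_cases hp : p ∈ tsupport (ρ' t : M → ℝ)
      · exact Eventually.of_forall fun _ _ => hp
      · filter_upwards [(isClosed_tsupport _).isOpen_compl.mem_nhds hp] with x hx hx'
        exact absurd hx' hx
    exact ⟨_, (hrob p).and h1, fun x hx => hx.1, fun x hx => hx.2⟩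
  -- existence of a label outside `V₀`
  have hout : ∀ p : M, p ∈ tsupport (ρ' none : M → ℝ) → ∃ w, w ∉ V₀ ∧ p ∈ U w := by
    intro p hp
    by_contra hcon
    push Not at hcon
    have hnot : ∀ w, w ∉ V₀ → p ∉ tsupport (ψ w : M → ℝ) := fun w hw h => hcon w hw (hψU w h)
    obtain ⟨V, hV, hVf⟩ := hψlf p
    have h1 : ∀ᶠ x in 𝓝 p, ∀ w ∈ hVf.toFinset, w ∉ V₀ → x ∉ tsupport (ψ w : M → ℝ) := by
      rw [Filter.eventually_all_finset]
      intro w _
      by_cases hw : w ∈ V₀
      · exact Eventually.of_forall fun _ h => absurd hw h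
      · filter_upwards [(isClosed_tsupport _).isOpen_compl.mem_nhds (hnot w hw)] with x hx _
        exact hx
    refine (notMem_tsupport_iff_eventuallyEq.2 ?_) hp
    filter_upwards [h1, hV] with x hx hxV
    have h2 : ∑ v ∈ V₀, (ψ v : M → ℝ) x = 1 := by
      rw [← hψ1 x]
      refine (finsum_eq_sum_of_support_subset _ fun w hw => ?_).symm
      by_contra hwV
      have hwt : x ∈ tsupport (ψ w : M → ℝ) := subset_tsupport _ hw
      exact hx w ((Set.Finite.mem_toFinset _).2 ⟨x, hwt, hxV⟩) hwV hwt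
    have h3 : ((∑ v : V₀, ψ v : G.F) : M → ℝ) x = ∑ v ∈ V₀, (ψ v : M → ℝ) x := by
      rw [← Finset.sum_coe_sort V₀ fun v => (ψ v : M → ℝ) x]
      simp [Finset.sum_apply]
    simp only [hρ', Option.elim_none, Subalgebra.coe_sub, Pi.sub_apply, h3, h2]
    simp
  have hLC : ∀ p, ∃ V ∈ 𝓝 p, ∀ m : List (Option κ), m.length = n + 2 →
      (∀ s ∈ m, (∃ x ∈ V, lab' x = s) ∨
        ∃ x ∈ V, ∃ t, x ∈ tsupport (ρ' t : M → ℝ) ∧ lb' t = s) → dl C' m = 0 := by
    intro p
    obtain ⟨V, hV, hV1, hV2⟩ := hnb p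
    refine ⟨V, hV, fun m hm hs => ?_⟩
    have hsome : ∀ v : κ, some v ∈ m → p ∈ U v := by
      intro v hv
      rcases hs _ hv with ⟨x, hx, hxs⟩ | ⟨x, hx, t, ht, hts⟩
      · simp only [hlab'] at hxs
        split_ifs at hxs with h
        rw [Option.some.injEq] at hxs
        rw [← hxs]
        exact hV1 x hx
      · cases t with
        | none => simp [hlb'] at hts
        | some u =>
          have : (u : κ) = v := by simpa [hlb'] using hts
          rw [← this]
          exact hψU u (hV2 x hx _ ht)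
    by_cases hn : none ∈ m
    · obtain ⟨w, hw, hpw⟩ : ∃ w, w ∉ V₀ ∧ p ∈ U w := by
        rcases hs _ hn with ⟨x, hx, hxs⟩ | ⟨x, hx, t, ht, hts⟩
        · simp only [hlab'] at hxs
          split_ifs at hxs with h
          exact ⟨lab x, h, hV1 x hx⟩
        · cases t with
          | none => exact hout p (hV2 x hx _ ht)
          | some u => simp [hlb'] at hts
      have hf : ∀ s ∈ m, p ∈ U (s.getD w) := by
        intro s hsm
        cases s with
        | none => exact hpw
        | some v => exact hsome v hsm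
      have h1 : dl C' m = dl (fun m'' => (C (m''.map fun o => o.getD w) : ℝ)) m := by
        refine dl_congr fun m' hm' hml => ?_
        by_cases hn' : none ∈ m'
        · rw [hC', opt_none hn']
          by_contra hne
          have hne' : C (m'.map fun o => o.getD w) ≠ 0 := fun h => hne (by rw [h]; simp)
          refine hw (hV₀ _ (by simp; omega) ⟨p, fun v hv => ?_⟩ hne' w
            (List.mem_map.2 ⟨none, hn', rfl⟩))
          obtain ⟨s, hs', rfl⟩ := List.mem_map.1 hv
          exact hf s (hm'.subset hs')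
        · obtain ⟨l, rfl⟩ := exists_map_some hn'
          rw [hC', opt_map_some, List.map_map]
          simp [Function.comp_def]
      rw [h1]
      have h2 := dl_map_hom (Int.castAddHom ℝ) (fun m'' : List (Option κ) =>
        C (m''.map fun o => o.getD w)) m
      simp only [Int.coe_castAddHom] at h2
      rw [h2, dl_map, hC _ (by simpa using hm), Int.cast_zero]
      refine ⟨p, fun v hv => ?_⟩
      obtain ⟨s, hs', rfl⟩ := List.mem_map.1 hv
      exact hf s hs'
    · obtain ⟨l, rfl⟩ := exists_map_some hn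
      rw [hC', dl_opt_some]
      have h2 := dl_map_hom (Int.castAddHom ℝ) C l
      simp only [Int.coe_castAddHom] at h2
      rw [h2, hC _ (by simpa using hm) ⟨p, fun v hv => hsome v (List.mem_map.2 ⟨v, hv, rfl⟩)⟩,
        Int.cast_zero]
  have hE := isE_label (G := G) hsum lb' lab' C' (fun l hl => opt_none hl) hK hlabK hK' hLC
  have hcut : CutC n fun l => C' (l.map lab') := by
    refine ⟨K, hK, fun l hl hx => ?_⟩
    obtain ⟨x, hxl⟩ := List.exists_mem_of_ne_nil l (by rintro rfl; simp at hl)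
    exact opt_none (List.mem_map.2 ⟨x, hxl, hlabK x (hx x hxl)⟩)
  have heq : EqN n (fun l => (C (l.map lab) : ℝ)) fun l => C' (l.map lab') := by
    intro p
    refine ⟨_, hrob p, fun l hl hlen => ?_⟩
    beta_reduce
    by_cases hall : ∀ x ∈ l, lab x ∈ V₀
    · have : l.map lab' = (l.map lab).map some := by
        rw [List.map_map]
        exact List.map_congr_left fun x hx => by simp [hlab', hall x hx]
      rw [this, hC', opt_map_some]
    · push Not at hall
      obtain ⟨x, hx, hxV⟩ := hall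
      have h1 : C (l.map lab) = 0 := by
        by_contra hne
        refine hxV (hV₀ _ (by simpa using hlen) ⟨p, fun v hv => ?_⟩ hne _
          (List.mem_map.2 ⟨x, hx, rfl⟩))
        obtain ⟨y, hy, rfl⟩ := List.mem_map.1 hv
        exact hl y hy
      rw [h1, hC', opt_none, Int.cast_zero]
      exact List.mem_map.2 ⟨x, hx, by simp [hlab', hxV]⟩
  have h1 : EZ G (fun l => C (l.map lab)) = EV G ρ' lb' C' := E_eq hcut heq hE
  rw [h1]
  unfold EV
  symm
  refine Fintype.sum_of_injective (fun (v : Fin (n + 1) → V₀) i => some (v i)) ?_ _ _ ?_ ?_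
  · intro v w hvw
    funext i
    exact Option.some_injective _ (congrFun hvw i)
  · intro v hv
    have : ∃ i, v i = none := by
      by_contra hcon
      push Not at hcon
      refine hv ⟨fun i => (v i).get (Option.isSome_iff_ne_none.2 (hcon i)), ?_⟩
      funext i
      simp
    obtain ⟨i, hi⟩ := this
    rw [hC', opt_none, zero_mul]
    rw [List.mem_ofFn]
    exact ⟨i, by simp [hlb', hi]⟩
  · intro v
    have e1 : (List.ofFn fun i => lb' (some (v i))) = (List.ofFn fun i => (v i : κ)).map some := by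
      rw [List.map_ofFn]; rfl
    rw [e1, hC', opt_map_some]
    rfl

end nerve

end

end Crest.Agent.R275.EOr627
end

-- ▼ part R275/EOG_627
section

set_option autoImplicit false
set_option linter.unusedSectionVars false

open Set Filter Topology
open scoped ContDiff

namespace Crest.Agent.R275.EOG627

open StkR627 OAt627 OAJ627 EOr627 ASZ627 ASN627

noncomputable section

section ext

variable {n : ℕ} {M : Type*} [TopologicalSpace M]

open Classical in
/-- extension by zero of `f ∘ e` -/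
def ext0 (e : Ch n M) (f : Rn n → ℝ) : M → ℝ := fun x => if x ∈ e.source then f (e x) else 0

theorem ext0_of_mem {e : Ch n M} {f : Rn n → ℝ} {x : M} (hx : x ∈ e.source) :
    ext0 e f x = f (e x) := by rw [ext0, if_pos hx]

theorem ext0_of_notMem {e : Ch n M} {f : Rn n → ℝ} {x : M} (hx : x ∉ e.source) :
    ext0 e f x = 0 := by rw [ext0, if_neg hx]

theorem ext0_eventually {e : Ch n M} {f : Rn n → ℝ} {x : M} (hx : x ∈ e.source) :
    ext0 e f =ᶠ[𝓝 x] fun x => f (e x) := by
  filter_upwards [e.open_source.mem_nhds hx] with y hy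
  exact ext0_of_mem hy

theorem ext0_eq_zero {e : Ch n M} {f : Rn n → ℝ} {K : Set M}
    (h0 : ∀ x ∈ e.source, x ∉ K → f (e x) = 0) {x : M} (hx : x ∉ K) : ext0 e f x = 0 := by
  by_cases h : x ∈ e.source
  · rw [ext0_of_mem h, h0 x h hx]
  · exact ext0_of_notMem h

variable [T2Space M]

theorem tsupport_ext0 {e : Ch n M} {f : Rn n → ℝ} {K : Set M} (hK : IsCompact K)
    (h0 : ∀ x ∈ e.source, x ∉ K → f (e x) = 0) : tsupport (ext0 e f) ⊆ K := by
  refine closure_minimal (fun x hx => ?_) hK.isClosed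
  by_contra h
  exact hx (ext0_eq_zero h0 h)

/-- smoothness of the extension by zero -/
theorem sm_ext0 {A : OA n M} {e : Ch n M} (he : A.Ok e) {f : Rn n → ℝ}
    (hf : ContDiffOn ℝ ∞ f e.target) {K : Set M} (hK : IsCompact K) (hKe : K ⊆ e.source)
    (h0 : ∀ x ∈ e.source, x ∉ K → f (e x) = 0) : A.Sm (ext0 e f) := by
  intro j y hy
  refine ContDiffAt.contDiffWithinAt ?_
  by_cases hx : (A.e j).symm y ∈ e.source
  · have h1 : ContDiffAt ℝ ∞ (fun z => f (e ((A.e j).symm z))) y := by
      have h2 := (he j).1.contDiffAt ⟨hy, hx⟩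
      have h3 : ContDiffAt ℝ ∞ f (e ((A.e j).symm y)) :=
        hf.contDiffAt (e.open_target.mem_nhds (e.map_source hx))
      exact h3.comp y h2
    refine h1.congr_of_eventuallyEq ?_
    exact ((A.e j).continuousAt_symm hy).eventually (ext0_eventually hx)
  · have h1 : (fun z => ext0 e f ((A.e j).symm z)) =ᶠ[𝓝 y] fun _ => 0 := by
      have h2 : ∀ᶠ x in 𝓝 ((A.e j).symm y), ext0 e f x = 0 := by
        filter_upwards [hK.isClosed.isOpen_compl.mem_nhds fun h => hx (hKe h)] with x hx
        exact ext0_eq_zero h0 hx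
      exact ((A.e j).continuousAt_symm hy).eventually h2
    exact contDiffAt_const.congr_of_eventuallyEq h1

theorem ext0_mem_F {A : OA n M} {e : Ch n M} (he : A.Ok e) {f : Rn n → ℝ}
    (hf : ContDiffOn ℝ ∞ f e.target) {K : Set M} (hK : IsCompact K) (hKe : K ⊆ e.source)
    (h0 : ∀ x ∈ e.source, x ∉ K → f (e x) = 0) : ext0 e f ∈ A.F :=
  OA.mem_F_of_compact (sm_ext0 he hf hK hKe h0) hK fun _ hx => ext0_eq_zero h0 hx

/-- bump functions in a chart -/
theorem exists_bump_chart {A : OA n M} {e : Ch n M} (he : A.Ok e) {x : M} (hx : x ∈ e.source)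
    {U : Set M} (hU : U ∈ 𝓝 x) : ∃ b : M → ℝ, b ∈ A.F ∧ tsupport b ⊆ U ∧ tsupport b ⊆ e.source ∧
      IsCompact (tsupport b) ∧ (∀ᶠ y in 𝓝 x, b y = 1) ∧ ∀ y, b y ∈ Icc (0 : ℝ) 1 := by
  have h1 : e.target ∩ e.symm ⁻¹' U ∈ 𝓝 (e x) := by
    refine inter_mem (e.open_target.mem_nhds (e.map_source hx)) ?_
    refine (e.continuousAt_symm (e.map_source hx)) ?_
    rw [e.left_inv hx]
    exact hU
  obtain ⟨R, hR, hRs⟩ := Metric.nhds_basis_closedBall.mem_iff.1 h1
  let b : ContDiffBump (e x) := ⟨R / 2, R, half_pos hR, half_lt_self hR⟩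
  set K : Set M := e.symm '' Metric.closedBall (e x) R with hKdef
  have hK : IsCompact K := (isCompact_closedBall _ _).image_of_continuousOn
    (e.continuousOn_symm.mono fun y hy => (hRs hy).1)
  have hKe : K ⊆ e.source := by
    rintro _ ⟨y, hy, rfl⟩
    exact e.map_target (hRs hy).1
  have hKU : K ⊆ U := by
    rintro _ ⟨y, hy, rfl⟩
    exact (hRs hy).2
  have h0 : ∀ y ∈ e.source, y ∉ K → b (e y) = 0 := by
    intro y hy hyK
    refine b.zero_of_le_dist ?_
    by_contra hc
    push Not at hc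
    exact hyK ⟨e y, Metric.mem_closedBall.2 hc.le, e.left_inv hy⟩
  have hts := tsupport_ext0 hK h0
  refine ⟨ext0 e b, ext0_mem_F he b.contDiff.contDiffOn hK hKe h0, hts.trans hKU, hts.trans hKe,
    hK.of_isClosed_subset (isClosed_tsupport _) hts, ?_, fun y => ?_⟩
  · have h2 : ∀ᶠ z in 𝓝 (e x), b z = 1 := b.eventuallyEq_one
    filter_upwards [e.open_source.mem_nhds hx, (e.continuousAt hx).eventually h2] with y hy h3
    rw [ext0_of_mem hy, h3]
  · by_cases hy : y ∈ e.source
    · rw [ext0_of_mem hy]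
      exact ⟨b.nonneg, b.le_one⟩
    · rw [ext0_of_notMem hy]
      exact ⟨le_rfl, zero_le_one⟩

end ext

/-- the data of `EOr_627` from an oriented atlas -/
def jd {m : ℕ} {M : Type} [TopologicalSpace M] [T2Space M] [LocallyCompactSpace M]
    (A : OA (m + 1) M) : JD (m + 1) M where
  F := A.F
  J := A.J
  one _ _ h := OA.J_one h
  loc _ h := OA.J_loc h
  bump x U hU := by
    obtain ⟨i, hi⟩ := A.exists_mem x
    obtain ⟨b, h1, h2, _, h3, h4, _⟩ := exists_bump_chart (A.ok_e i) hi hU
    exact ⟨⟨b, h1⟩, h2, h3, h4⟩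

end

end Crest.Agent.R275.EOG627
end

-- ▼ part R275/TauJ_865
section

set_option autoImplicit false
set_option linter.unusedSectionVars false

open Set Filter Topology MeasureTheory
open scoped ContDiff

namespace Crest.Agent.R275.TauJ865

open StkR627 OAt627 OAJ627

noncomputable section

/-! ### labels -/

/-- the value `0` or `1` of a coordinate of a vertex -/
def bv (b : Bool) : ℝ := if b then 1 else 0

@[simp] theorem bv_true : bv true = 1 := rfl
@[simp] theorem bv_false : bv false = 0 := rfl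

/-- difference of the `j`-th coordinates of two labels -/
def dif (j : Fin 4) : Option (Fin 4 → Bool) → Option (Fin 4 → Bool) → ℝ
  | some s, some t => bv (t j) - bv (s j)
  | _, _ => 0

@[simp] theorem dif_some (j : Fin 4) (s t : Fin 4 → Bool) :
    dif j (some s) (some t) = bv (t j) - bv (s j) := rfl
@[simp] theorem dif_none_left (j : Fin 4) (t : Option (Fin 4 → Bool)) : dif j none t = 0 := rfl
@[simp] theorem dif_none_right (j : Fin 4) (s : Option (Fin 4 → Bool)) : dif j s none = 0 := by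
  cases s <;> rfl

/-- the label cochain: cup product of the four coordinate differences -/
def TL : List (Option (Fin 4 → Bool)) → ℝ
  | [a0, a1, a2, a3, a4] => dif 0 a0 a1 * dif 1 a1 a2 * dif 2 a2 a3 * dif 3 a3 a4
  | _ => 0

@[simp] theorem TL_five (a0 a1 a2 a3 a4 : Option (Fin 4 → Bool)) :
    TL [a0, a1, a2, a3, a4] = dif 0 a0 a1 * dif 1 a1 a2 * dif 2 a2 a3 * dif 3 a3 a4 := rfl

theorem TL_of_length {l : List (Option (Fin 4 → Bool))} (h : l.length ≠ 5) : TL l = 0 := by
  unfold TL
  split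
  · simp at h
  · rfl

theorem TL_ofFn (v : Fin 5 → Option (Fin 4 → Bool)) :
    TL (List.ofFn v) = dif 0 (v 0) (v 1) * dif 1 (v 1) (v 2) * dif 2 (v 2) (v 3) *
      dif 3 (v 3) (v 4) := by
  have : List.ofFn v = [v 0, v 1, v 2, v 3, v 4] := by
    simp [List.ofFn_succ]
  rw [this, TL_five]

theorem TL_none {v : Fin 5 → Option (Fin 4 → Bool)} {i : Fin 5} (h : v i = none) :
    TL (List.ofFn v) = 0 := by
  rw [TL_ofFn]
  fin_cases i <;> simp_all

/-! ### algebra -/

/-- one factor -/
def ph (t : ℝ) (σ : Bool) : ℝ := if σ then t else 1 - t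

@[simp] theorem ph_true (t : ℝ) : ph t true = t := rfl
@[simp] theorem ph_false (t : ℝ) : ph t false = 1 - t := rfl

/-- the weight of a vertex -/
def uu (h : Fin 4 → ℝ) (s : Fin 4 → Bool) : ℝ := ∏ j, ph (h j) (s j)

theorem prodsum (a : Fin 4 → Bool → ℝ) :
    ∑ s : Fin 4 → Bool, ∏ k, a k (s k) = ∏ k, (a k true + a k false) := by
  have := Finset.prod_univ_sum (fun _ : Fin 4 => (Finset.univ : Finset Bool)) a
  rw [Fintype.piFinset_univ] at this
  rw [← this]
  simp

theorem sum_uu (h : Fin 4 → ℝ) : ∑ s, uu h s = 1 := by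
  unfold uu
  rw [prodsum (fun k σ => ph (h k) σ)]
  simp

theorem sum_b_uu (h : Fin 4 → ℝ) (j : Fin 4) : ∑ s : Fin 4 → Bool, bv (s j) * uu h s = h j := by
  have e : ∀ s : Fin 4 → Bool, bv (s j) * uu h s =
      ∏ k, ((if k = j then bv (s k) else 1) * ph (h k) (s k)) := by
    intro s
    rw [Finset.prod_mul_distrib, Finset.prod_ite_eq' Finset.univ j fun k => bv (s k)]
    simp [uu]
  rw [Finset.sum_congr rfl fun s _ => e s,
    prodsum (fun k σ => (if k = j then bv σ else 1) * ph (h k) σ)]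
  have e2 : ∀ k, ((if k = j then bv true else 1) * ph (h k) true +
      (if k = j then bv false else 1) * ph (h k) false) = if k = j then h k else 1 := by
    intro k
    split_ifs <;> simp
  rw [Finset.prod_congr rfl fun k _ => e2 k]
  simp

theorem sum_bb_uu (h : Fin 4 → ℝ) {i j : Fin 4} (hij : i ≠ j) :
    ∑ s : Fin 4 → Bool, bv (s i) * bv (s j) * uu h s = h i * h j := by
  have e : ∀ s : Fin 4 → Bool, bv (s i) * bv (s j) * uu h s =
      ∏ k, ((if k = i then bv (s k) else 1) * (if k = j then bv (s k) else 1) *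
        ph (h k) (s k)) := by
    intro s
    rw [Finset.prod_mul_distrib, Finset.prod_mul_distrib,
      Finset.prod_ite_eq' Finset.univ j fun k => bv (s k),
      Finset.prod_ite_eq' Finset.univ i fun k => bv (s k)]
    simp [uu]
  rw [Finset.sum_congr rfl fun s _ => e s,
    prodsum (fun k σ => (if k = i then bv σ else 1) * (if k = j then bv σ else 1) * ph (h k) σ)]
  have e2 : ∀ k, ((if k = i then bv true else 1) * (if k = j then bv true else 1) *
      ph (h k) true + (if k = i then bv false else 1) * (if k = j then bv false else 1) *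
      ph (h k) false) = (if k = i then h k else 1) * if k = j then h k else 1 := by
    intro k
    by_cases h1 : k = i
    · subst h1
      rw [if_neg hij]
      simp [hij]
    · rw [if_neg h1]
      by_cases h2 : k = j
      · subst h2; simp [h1]
      · simp [h1, h2]
  rw [Finset.prod_congr rfl fun k _ => e2 k, Finset.prod_mul_distrib]
  simp

section alg

variable {E : Type*} [AddCommGroup E] [Module ℝ E]

/-- the data of the slot by slot summation -/
structure Rel (U : (Fin 4 → Bool) → ℝ) (D : (Fin 4 → Bool) → E) (h : Fin 4 → ℝ)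
    (g : Fin 4 → E) : Prop where
  u1 : ∑ s, U s = 1
  ub : ∀ j, ∑ s, bv (s j) * U s = h j
  d0 : ∑ s, D s = 0
  db : ∀ j, ∑ s, bv (s j) • D s = g j
  dbb : ∀ i j, i ≠ j → ∑ s, (bv (s i) * bv (s j)) • D s = h i • g j + h j • g i

variable {U : (Fin 4 → Bool) → ℝ} {D : (Fin 4 → Bool) → E} {h : Fin 4 → ℝ} {g : Fin 4 → E}

theorem Rel.step0 (R : Rel U D h g) (β : ℝ) (i : Fin 4) :
    ∑ s, (β - bv (s i)) * U s = β - h i := by
  simp only [sub_mul, Finset.sum_sub_distrib, ← Finset.mul_sum, R.u1, R.ub, mul_one]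

theorem Rel.step (R : Rel U D h g) (q : E →ₗ[ℝ] ℝ) {i j : Fin 4} (hij : i ≠ j) (β : ℝ) :
    ∑ s, (bv (s i) - h i) * (β - bv (s j)) * q (D s) = (β - h j) * q (g i) := by
  have e : ∀ s : Fin 4 → Bool, (bv (s i) - h i) * (β - bv (s j)) * q (D s) =
      β * q (bv (s i) • D s) - q ((bv (s i) * bv (s j)) • D s) - h i * β * q (D s) +
        h i * q (bv (s j) • D s) := by
    intro s
    simp only [map_smul, smul_eq_mul]
    ring
  have h1 : ∀ k, ∑ s, q (bv (s k) • D s) = q (g k) := fun k => by rw [← map_sum, R.db]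
  have h2 : ∑ s, q ((bv (s i) * bv (s j)) • D s) = h i * q (g j) + h j * q (g i) := by
    rw [← map_sum, R.dbb i j hij, map_add, map_smul, map_smul, smul_eq_mul, smul_eq_mul]
  have h3 : ∑ s, q (D s) = 0 := by rw [← map_sum, R.d0, map_zero]
  rw [Finset.sum_congr rfl fun s _ => e s]
  rw [Finset.sum_add_distrib, Finset.sum_sub_distrib, Finset.sum_sub_distrib, ← Finset.mul_sum,
    ← Finset.mul_sum, ← Finset.mul_sum, h1, h1, h2, h3]
  ring

theorem Rel.step4 (R : Rel U D h g) (q : E →ₗ[ℝ] ℝ) (i : Fin 4) :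
    ∑ s, (bv (s i) - h i) * q (D s) = q (g i) := by
  have e : ∀ s : Fin 4 → Bool, (bv (s i) - h i) * q (D s) =
      q (bv (s i) • D s) - h i * q (D s) := by
    intro s
    simp only [map_smul, smul_eq_mul]
    ring
  have h1 : ∑ s, q (bv (s i) • D s) = q (g i) := by rw [← map_sum, R.db]
  have h3 : ∑ s, q (D s) = 0 := by rw [← map_sum, R.d0, map_zero]
  rw [Finset.sum_congr rfl fun s _ => e s]
  rw [Finset.sum_sub_distrib, ← Finset.mul_sum, h1, h3]
  ring

/-- slots of a multilinear map -/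
theorem slot (Ω : MultilinearMap ℝ (fun _ : Fin 4 => E) ℝ) (m : Fin 4 → E) (i : Fin 4) (x : E) :
    Ω.toLinearMap m i x = Ω (Function.update m i x) := rfl

/-- the equivalence used to order the summation -/
def eq5 (S : Type*) : (Fin 5 → S) ≃ S × S × S × S × S where
  toFun w := (w 4, w 3, w 2, w 1, w 0)
  invFun p := ![p.2.2.2.2, p.2.2.2.1, p.2.2.1, p.2.1, p.1]
  left_inv w := by
    funext i
    fin_cases i <;> rfl
  right_inv p := rfl

theorem sum5 {S : Type*} [Fintype S] (F : (Fin 5 → S) → ℝ) :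
    ∑ w, F w = ∑ a4, ∑ a3, ∑ a2, ∑ a1, ∑ a0, F ![a0, a1, a2, a3, a4] := by
  rw [← Equiv.sum_comp (eq5 S).symm]
  simp only [Fintype.sum_prod_type]
  rfl

theorem Rel.main (R : Rel U D h g) (Ω : MultilinearMap ℝ (fun _ : Fin 4 => E) ℝ) :
    ∑ w : Fin 5 → Fin 4 → Bool,
      (bv (w 1 0) - bv (w 0 0)) * (bv (w 2 1) - bv (w 1 1)) * (bv (w 3 2) - bv (w 2 2)) *
        (bv (w 4 3) - bv (w 3 3)) * (U (w 0) * Ω (fun a => D (w a.succ))) = Ω g := by
  classical
  rw [sum5]
  have hf : ∀ a0 a1 a2 a3 a4 : Fin 4 → Bool,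
      (fun a : Fin 4 => D ((![a0, a1, a2, a3, a4] : Fin 5 → Fin 4 → Bool) a.succ)) =
        ![D a1, D a2, D a3, D a4] := by
    intro a0 a1 a2 a3 a4
    funext a
    fin_cases a <;> rfl
  have e0 : ∀ a4 a3 a2 a1 : Fin 4 → Bool, ∑ a0 : Fin 4 → Bool,
      (bv ((![a0, a1, a2, a3, a4] : Fin 5 → Fin 4 → Bool) 1 0) -
        bv ((![a0, a1, a2, a3, a4] : Fin 5 → Fin 4 → Bool) 0 0)) *
      (bv ((![a0, a1, a2, a3, a4] : Fin 5 → Fin 4 → Bool) 2 1) -
        bv ((![a0, a1, a2, a3, a4] : Fin 5 → Fin 4 → Bool) 1 1)) *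
      (bv ((![a0, a1, a2, a3, a4] : Fin 5 → Fin 4 → Bool) 3 2) -
        bv ((![a0, a1, a2, a3, a4] : Fin 5 → Fin 4 → Bool) 2 2)) *
      (bv ((![a0, a1, a2, a3, a4] : Fin 5 → Fin 4 → Bool) 4 3) -
        bv ((![a0, a1, a2, a3, a4] : Fin 5 → Fin 4 → Bool) 3 3)) *
      (U ((![a0, a1, a2, a3, a4] : Fin 5 → Fin 4 → Bool) 0) *
        Ω (fun a => D ((![a0, a1, a2, a3, a4] : Fin 5 → Fin 4 → Bool) a.succ))) =
      (bv (a3 2) - bv (a2 2)) * (bv (a4 3) - bv (a3 3)) * ((bv (a1 0) - h 0) *
        (bv (a2 1) - bv (a1 1)) * Ω.toLinearMap ![0, D a2, D a3, D a4] 0 (D a1)) := by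
    intro a4 a3 a2 a1
    rw [slot]
    have hu : Function.update (![0, D a2, D a3, D a4] : Fin 4 → E) 0 (D a1) =
        ![D a1, D a2, D a3, D a4] := by
      funext i; fin_cases i <;> rfl
    rw [hu, ← R.step0 (bv (a1 0)) 0, Finset.sum_mul, Finset.sum_mul, Finset.mul_sum]
    refine Finset.sum_congr rfl fun a0 _ => ?_
    rw [hf]
    show (bv (a1 0) - bv (a0 0)) * (bv (a2 1) - bv (a1 1)) * (bv (a3 2) - bv (a2 2)) *
      (bv (a4 3) - bv (a3 3)) * (U a0 * Ω ![D a1, D a2, D a3, D a4]) = _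
    ring
  have e1 : ∀ a4 a3 a2 : Fin 4 → Bool, ∑ a1 : Fin 4 → Bool,
      (bv (a3 2) - bv (a2 2)) * (bv (a4 3) - bv (a3 3)) * ((bv (a1 0) - h 0) *
        (bv (a2 1) - bv (a1 1)) * Ω.toLinearMap ![0, D a2, D a3, D a4] 0 (D a1)) =
      (bv (a4 3) - bv (a3 3)) * ((bv (a2 1) - h 1) * (bv (a3 2) - bv (a2 2)) *
        Ω.toLinearMap ![g 0, 0, D a3, D a4] 1 (D a2)) := by
    intro a4 a3 a2
    rw [← Finset.mul_sum, R.step _ (by decide), slot, slot]
    have hu : Function.update (![0, D a2, D a3, D a4] : Fin 4 → E) 0 (g 0) =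
        ![g 0, D a2, D a3, D a4] := by
      funext i; fin_cases i <;> rfl
    have hu' : Function.update (![g 0, 0, D a3, D a4] : Fin 4 → E) 1 (D a2) =
        ![g 0, D a2, D a3, D a4] := by
      funext i; fin_cases i <;> rfl
    rw [hu, hu']
    ring
  have e2 : ∀ a4 a3 : Fin 4 → Bool, ∑ a2 : Fin 4 → Bool,
      (bv (a4 3) - bv (a3 3)) * ((bv (a2 1) - h 1) * (bv (a3 2) - bv (a2 2)) *
        Ω.toLinearMap ![g 0, 0, D a3, D a4] 1 (D a2)) =
      (bv (a3 2) - h 2) * (bv (a4 3) - bv (a3 3)) *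
        Ω.toLinearMap ![g 0, g 1, 0, D a4] 2 (D a3) := by
    intro a4 a3
    rw [← Finset.mul_sum, R.step _ (by decide), slot, slot]
    have hu : Function.update (![g 0, 0, D a3, D a4] : Fin 4 → E) 1 (g 1) =
        ![g 0, g 1, D a3, D a4] := by
      funext i; fin_cases i <;> rfl
    have hu' : Function.update (![g 0, g 1, 0, D a4] : Fin 4 → E) 2 (D a3) =
        ![g 0, g 1, D a3, D a4] := by
      funext i; fin_cases i <;> rfl
    rw [hu, hu']
    ring
  have e3 : ∀ a4 : Fin 4 → Bool, ∑ a3 : Fin 4 → Bool,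
      (bv (a3 2) - h 2) * (bv (a4 3) - bv (a3 3)) *
        Ω.toLinearMap ![g 0, g 1, 0, D a4] 2 (D a3) =
      (bv (a4 3) - h 3) * Ω.toLinearMap ![g 0, g 1, g 2, 0] 3 (D a4) := by
    intro a4
    rw [R.step _ (by decide), slot, slot]
    have hu : Function.update (![g 0, g 1, 0, D a4] : Fin 4 → E) 2 (g 2) =
        ![g 0, g 1, g 2, D a4] := by
      funext i; fin_cases i <;> rfl
    have hu' : Function.update (![g 0, g 1, g 2, 0] : Fin 4 → E) 3 (D a4) =
        ![g 0, g 1, g 2, D a4] := by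
      funext i; fin_cases i <;> rfl
    rw [hu, hu']
  rw [Finset.sum_congr rfl fun a4 _ => Finset.sum_congr rfl fun a3 _ =>
    Finset.sum_congr rfl fun a2 _ => Finset.sum_congr rfl fun a1 _ => e0 a4 a3 a2 a1]
  rw [Finset.sum_congr rfl fun a4 _ => Finset.sum_congr rfl fun a3 _ =>
    Finset.sum_congr rfl fun a2 _ => e1 a4 a3 a2]
  rw [Finset.sum_congr rfl fun a4 _ => Finset.sum_congr rfl fun a3 _ => e2 a4 a3]
  rw [Finset.sum_congr rfl fun a4 _ => e3 a4, R.step4, slot]
  congr 1
  funext i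
  fin_cases i <;> rfl

end alg

/-! ### the smooth step -/

/-- smooth step from `0` (`t ≤ c - r`) to `1` (`t ≥ c + r`) -/
def st (c r t : ℝ) : ℝ := Real.smoothTransition ((t - c + r) / (2 * r))

section step

variable {c r : ℝ}

theorem st_zero (hr : 0 < r) {t : ℝ} (h : t ≤ c - r) : st c r t = 0 :=
  Real.smoothTransition.zero_of_nonpos (div_nonpos_of_nonpos_of_nonneg (by linarith) (by linarith))

theorem st_one (hr : 0 < r) {t : ℝ} (h : c + r ≤ t) : st c r t = 1 :=
  Real.smoothTransition.one_of_one_le ((one_le_div (by linarith)).2 (by linarith))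

theorem contDiff_st (c r : ℝ) : ContDiff ℝ ∞ (st c r) :=
  Real.smoothTransition.contDiff.comp (by fun_prop)

theorem deriv_st_lt (hr : 0 < r) {t : ℝ} (h : t < c - r) : deriv (st c r) t = 0 := by
  have : st c r =ᶠ[𝓝 t] fun _ => 0 := by
    filter_upwards [Iio_mem_nhds h] with x hx
    exact st_zero hr (le_of_lt hx)
  rw [this.deriv_eq, deriv_const]

theorem deriv_st_gt (hr : 0 < r) {t : ℝ} (h : c + r < t) : deriv (st c r) t = 0 := by
  have : st c r =ᶠ[𝓝 t] fun _ => 1 := by
    filter_upwards [Ioi_mem_nhds h] with x hx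
    exact st_one hr (le_of_lt hx)
  rw [this.deriv_eq, deriv_const]

theorem integral_deriv_st (hr : 0 < r) : ∫ t, deriv (st c r) t = 1 := by
  have hd : ∀ x, HasDerivAt (st c r) (deriv (st c r) x) x := fun x =>
    ((contDiff_st c r).differentiable (by simp) x).hasDerivAt
  have hc : Continuous (deriv (st c r)) := (contDiff_st c r).continuous_deriv (by simp)
  have h0 : ∀ t, t ∉ Icc (c - r) (c + r) → deriv (st c r) t = 0 := by
    intro t ht
    by_cases h1 : t < c - r
    · exact deriv_st_lt hr h1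
    · exact deriv_st_gt hr (by
        by_contra h2
        exact ht ⟨not_lt.1 h1, not_lt.1 h2⟩)
  have hi : Integrable (deriv (st c r)) :=
    hc.integrable_of_hasCompactSupport (HasCompactSupport.intro isCompact_Icc h0)
  have := integral_of_hasDerivAt_of_tendsto (m := 0) (n := 1) hd hi
    (tendsto_const_nhds.congr' ?_) (tendsto_const_nhds.congr' ?_)
  · rw [this, sub_zero]
  · filter_upwards [eventually_le_atBot (c - r)] with x hx
    exact (st_zero hr hx).symm
  · filter_upwards [eventually_ge_atTop (c + r)] with x hx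
    exact (st_one hr hx).symm

end step

/-- the coordinate functions -/
def HH (c : Rn 4) (r : ℝ) (y : Rn 4) : Fin 4 → ℝ := fun j => st (c j) r (y j)

theorem contDiff_uu (c : Rn 4) (r : ℝ) (s : Fin 4 → Bool) :
    ContDiff ℝ ∞ fun y => uu (HH c r y) s := by
  unfold uu
  refine contDiff_prod fun j _ => ?_
  have h1 : ContDiff ℝ ∞ fun y : Rn 4 => HH c r y j :=
    (contDiff_st (c j) r).comp (contDiff_apply ℝ ℝ j)
  cases s j
  · exact contDiff_const.sub h1
  · exact h1

theorem uu_eq_zero {h : Fin 4 → ℝ} {s : Fin 4 → Bool} {i : Fin 4} (h0 : ph (h i) (s i) = 0) :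
    uu h s = 0 := Finset.prod_eq_zero (Finset.mem_univ i) h0

/-! ### functions supported in a chart -/

section geo

variable {M : Type*} [TopologicalSpace M]

open Classical in
/-- extension by zero of a function on the model space -/
def lf (e : Ch 4 M) (g : Rn 4 → ℝ) (x : M) : ℝ := if x ∈ e.source then g (e x) else 0

variable {e : Ch 4 M} {g : Rn 4 → ℝ} {B : Set (Rn 4)}

theorem lf_of_mem {x : M} (h : x ∈ e.source) : lf e g x = g (e x) := if_pos h

theorem lf_of_notMem {x : M} (h : x ∉ e.source) : lf e g x = 0 := if_neg h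

theorem lf_symm {y : Rn 4} (h : y ∈ e.target) : lf e g (e.symm y) = g y := by
  rw [lf_of_mem (e.map_target h), e.right_inv h]

theorem smO_lf (hg : ContDiff ℝ ∞ g) : SmO e (lf e g) :=
  hg.contDiffOn.congr fun _ hz => lf_symm hz

theorem isCompact_K (hB : IsCompact B) (hBt : B ⊆ e.target) : IsCompact (e.symm '' B) :=
  hB.image_of_continuousOn (e.continuousOn_symm.mono hBt)

theorem K_sub (hBt : B ⊆ e.target) : e.symm '' B ⊆ e.source := by
  rintro _ ⟨y, hy, rfl⟩
  exact e.map_target (hBt hy)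

theorem lf_eq_zero (h0 : ∀ y ∉ B, g y = 0) {x : M} (hx : x ∉ e.symm '' B) : lf e g x = 0 := by
  by_cases h : x ∈ e.source
  · rw [lf_of_mem h]
    exact h0 _ fun hB => hx ⟨_, hB, e.left_inv h⟩
  · exact lf_of_notMem h

variable [T2Space M]

theorem tsupport_lf (hB : IsCompact B) (hBt : B ⊆ e.target) (h0 : ∀ y ∉ B, g y = 0) :
    tsupport (lf e g) ⊆ e.symm '' B := by
  refine closure_minimal (fun x hx => ?_) (isCompact_K hB hBt).isClosed
  by_contra h
  exact hx (lf_eq_zero h0 h)

theorem sm_lf {A : OA 4 M} (he : A.Ok e) (hg : ContDiff ℝ ∞ g) (hB : IsCompact B)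
    (hBt : B ⊆ e.target) (h0 : ∀ y ∉ B, g y = 0) : A.Sm (lf e g) := by
  intro i y hy
  by_cases h : (A.e i).symm y ∈ e.source
  · exact ((he i).1.smO_at (smO_lf hg) ⟨hy, h⟩).contDiffWithinAt
  · have hK : (A.e i).symm y ∉ tsupport (lf e g) := fun hx =>
      h (K_sub hBt (tsupport_lf hB hBt h0 hx))
    have h1 : (fun z => lf e g ((A.e i).symm z)) =ᶠ[𝓝 y] fun _ => 0 :=
      ((A.e i).continuousAt_symm hy).eventually (notMem_tsupport_iff_eventuallyEq.1 hK)
    exact (contDiffAt_const.congr_of_eventuallyEq h1).contDiffWithinAt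

theorem mem_F_lf {A : OA 4 M} (he : A.Ok e) (hg : ContDiff ℝ ∞ g) (hB : IsCompact B)
    (hBt : B ⊆ e.target) (h0 : ∀ y ∉ B, g y = 0) : lf e g ∈ A.F :=
  OA.mem_F_of_compact (sm_lf he hg hB hBt h0) (isCompact_K hB hBt) fun _ hx => lf_eq_zero h0 hx

theorem sum_smul_der {κ : Type*} (s : Finset κ) {f : κ → M → ℝ} (hf : ∀ i, SmO e (f i))
    (a : κ → ℝ) {y : Rn 4} (hy : y ∈ e.target) :
    ∑ i ∈ s, a i • der e (f i) y = der e (fun x => ∑ i ∈ s, a i * f i x) y := by
  rw [der_sum s (fun i _ => (hf i).const_mul (a i)) hy]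
  exact Finset.sum_congr rfl fun i _ => (der_const_mul (a i) (hf i) hy).symm

end geo

/-! ### the main computation -/

section main

variable {M : Type*} [TopologicalSpace M]

/-- coordinate function of the step in the chart -/
def hh (e : Ch 4 M) (c : Rn 4) (r : ℝ) (j : Fin 4) (x : M) : ℝ := st (c j) r (e x j)

theorem hh_symm {e : Ch 4 M} {c : Rn 4} {r : ℝ} {j : Fin 4} {y : Rn 4} (hy : y ∈ e.target) :
    hh e c r j (e.symm y) = HH c r y j := by
  unfold hh HH
  rw [e.right_inv hy]

theorem smO_hh {e : Ch 4 M} {c : Rn 4} {r : ℝ} {j : Fin 4} : SmO e (hh e c r j) := by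
  have h1 : ContDiff ℝ ∞ fun y : Rn 4 => HH c r y j :=
    (contDiff_st (c j) r).comp (contDiff_apply ℝ ℝ j)
  exact h1.contDiffOn.congr fun _ hz => hh_symm hz

theorem der_hh {e : Ch 4 M} {c : Rn 4} {r : ℝ} {j : Fin 4} {y : Rn 4} (hy : y ∈ e.target) :
    der e (hh e c r j) y = Pi.single j (deriv (st (c j) r) (y j)) := by
  funext b
  have h1 : (fun z => hh e c r j (e.symm z)) =ᶠ[𝓝 y] fun z => st (c j) r (z j) := by
    filter_upwards [e.open_target.mem_nhds hy] with z hz
    exact hh_symm hz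
  have h2 : HasFDerivAt (fun z : Rn 4 => st (c j) r (z j))
      ((deriv (st (c j) r) (y j)) • (ContinuousLinearMap.proj j : Rn 4 →L[ℝ] ℝ)) y :=
    HasDerivAt.comp_hasFDerivAt (h₂ := st (c j) r) (f := fun z : Rn 4 => z j) y
      (((contDiff_st (c j) r).differentiable (by simp) (y j)).hasDerivAt)
      (ContinuousLinearMap.proj (R := ℝ) (φ := fun _ : Fin 4 => ℝ) j).hasFDerivAt
  unfold der
  rw [pd_congr h1 b]
  unfold pd
  rw [h2.fderiv]
  simp only [ContinuousLinearMap.smul_apply, ContinuousLinearMap.proj_apply, smul_eq_mul,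
    Pi.single_apply]
  by_cases h : j = b
  · subst h; simp
  · rw [if_neg h, if_neg (Ne.symm h), mul_zero]

theorem det_single (d : Fin 4 → ℝ) :
    (Matrix.detRowAlternating : (Rn 4) [⋀^Fin 4]→ₗ[ℝ] ℝ) (fun j => Pi.single j (d j)) =
      ∏ j, d j := by
  have : (Matrix.detRowAlternating : (Rn 4) [⋀^Fin 4]→ₗ[ℝ] ℝ) (fun j => Pi.single j (d j)) =
      Matrix.det (Matrix.diagonal d) := by
    show Matrix.det _ = _
    congr 1
    ext i j
    by_cases h : i = j
    · subst h; simp
    · simp [Matrix.diagonal, h, Ne.symm h]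
  rw [this, Matrix.det_diagonal]

variable [T2Space M]

/-- pointwise sum: the abstract form -/
theorem pointwise {e : Ch 4 M} {c : Rn 4} {r : ℝ} (hr : 0 < r)
    (ρ : (Fin 4 → Bool) → M → ℝ) (hρ : ∀ s, SmO e (ρ s))
    (h1 : ∀ s i x, x ∈ tsupport (ρ s) → c i + r < e x i → s i = true)
    (h2 : ∀ s i x, x ∈ tsupport (ρ s) → e x i < c i - r → s i = false)
    (h3 : ∀ y ∈ e.target, (∀ i, |y i - c i| ≤ r) →
      ∀ᶠ x in 𝓝 (e.symm y), ∀ s, ρ s x = uu (fun j => hh e c r j x) s)
    {y : Rn 4} (hy : y ∈ e.target) :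
    ∑ w : Fin 5 → Fin 4 → Bool,
      (bv (w 1 0) - bv (w 0 0)) * (bv (w 2 1) - bv (w 1 1)) * (bv (w 3 2) - bv (w 2 2)) *
        (bv (w 4 3) - bv (w 3 3)) * OA.W e (fun k => ρ (w k)) y =
      ∏ j, deriv (st (c j) r) (y j) := by
  by_cases hb : ∀ i, |y i - c i| ≤ r
  · have h3 := h3 y hy hb
    have h3y := h3.self_of_nhds
    set h : Fin 4 → ℝ := fun j => hh e c r j (e.symm y) with hh'
    have R : Rel (fun s => ρ s (e.symm y)) (fun s => der e (ρ s) y) h
        (fun j => der e (hh e c r j) y) := by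
      refine ⟨?_, ?_, ?_, ?_, ?_⟩
      · rw [Finset.sum_congr rfl fun s _ => h3y s]
        exact sum_uu _
      · intro j
        rw [Finset.sum_congr rfl fun s _ => by rw [h3y s]]
        exact sum_b_uu h j
      · have := sum_smul_der Finset.univ hρ (fun _ => (1 : ℝ)) hy
        simp only [one_smul, one_mul] at this
        rw [this]
        refine der_eq_zero (c := 1) hy ?_
        filter_upwards [h3] with x hx
        rw [Finset.sum_congr rfl fun s _ => hx s]
        exact sum_uu _
      · intro j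
        rw [sum_smul_der Finset.univ hρ (fun s => bv (s j)) hy]
        refine der_congr hy ?_
        filter_upwards [h3] with x hx
        rw [Finset.sum_congr rfl fun s _ => by rw [hx s]]
        exact sum_b_uu (fun j => hh e c r j x) j
      · intro i j hij
        rw [sum_smul_der Finset.univ hρ (fun s => bv (s i) * bv (s j)) hy]
        rw [← der_mul smO_hh smO_hh hy]
        refine der_congr hy ?_
        filter_upwards [h3] with x hx
        rw [Finset.sum_congr rfl fun s _ => by rw [hx s]]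
        exact sum_bb_uu (fun j => hh e c r j x) hij
    have hm := R.main (Matrix.detRowAlternating : (Rn 4) [⋀^Fin 4]→ₗ[ℝ] ℝ).toMultilinearMap
    have hW : ∀ w : Fin 5 → Fin 4 → Bool, OA.W e (fun k => ρ (w k)) y =
        ρ (w 0) (e.symm y) * (Matrix.detRowAlternating : (Rn 4) [⋀^Fin 4]→ₗ[ℝ] ℝ).toMultilinearMap
          (fun a : Fin 4 => der e (ρ (w a.succ)) y) := fun w => rfl
    rw [Finset.sum_congr rfl fun w _ => by rw [hW w], hm]
    have hg : (fun j => der e (hh e c r j) y) =
        fun j => Pi.single j (deriv (st (c j) r) (y j)) := by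
      funext j
      exact der_hh hy
    rw [hg]
    exact det_single _
  · push Not at hb
    obtain ⟨i, hi⟩ := hb
    have hxy : e (e.symm y) i = y i := by rw [e.right_inv hy]
    rw [Finset.prod_eq_zero (Finset.mem_univ i)]
    · -- every term vanishes
      obtain ⟨b0, hb0⟩ : ∃ b0 : Bool, ∀ s, s i ≠ b0 → e.symm y ∉ tsupport (ρ s) := by
        rcases lt_abs.1 hi with h | h
        · refine ⟨true, fun s hs hx => hs (h1 s i _ hx ?_)⟩
          rw [hxy]; linarith
        · refine ⟨false, fun s hs hx => hs (h2 s i _ hx ?_)⟩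
          rw [hxy]; linarith
      refine Finset.sum_eq_zero fun w _ => ?_
      by_cases hw : ∀ k, w k i = b0
      · have : (bv (w 1 0) - bv (w 0 0)) * (bv (w 2 1) - bv (w 1 1)) *
            (bv (w 3 2) - bv (w 2 2)) * (bv (w 4 3) - bv (w 3 3)) = 0 := by
          fin_cases i
          · have e1 := hw 1
            have e0 := hw 0
            simp only [Fin.zero_eta] at e1 e0
            rw [e1, e0]; ring
          · have e1 := hw 2
            have e0 := hw 1
            simp only [Fin.mk_one] at e1 e0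
            rw [e1, e0]; ring
          · have e1 := hw 3
            have e0 := hw 2
            simp only [Fin.reduceFinMk] at e1 e0
            rw [e1, e0]; ring
          · have e1 := hw 4
            have e0 := hw 3
            simp only [Fin.reduceFinMk] at e1 e0
            rw [e1, e0]; ring
        rw [this, zero_mul]
      · push Not at hw
        obtain ⟨k, hk⟩ := hw
        rw [OA.W_eq_zero (k := k) hy (hb0 _ hk), mul_zero]
    · rcases lt_abs.1 hi with h | h
      · exact deriv_st_gt hr (by linarith)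
      · exact deriv_st_lt hr (by linarith)

variable [LocallyCompactSpace M]

theorem tauJ (A : OA 4 M) {e : Ch 4 M} (he : A.Ok e) {p : M} (hp : p ∈ e.source) {V : Set M}
    (hV : V ∈ 𝓝 p) :
    ∃ (r : ℝ) (K : Set M) (ρ : Option (Fin 4 → Bool) → A.F), 0 < r ∧ ∑ t, ρ t = 1 ∧
      IsCompact K ∧ K ⊆ V ∧ K ⊆ e.source ∧
      (∀ s, tsupport (ρ (some s) : M → ℝ) ⊆ K) ∧
      (∀ s i x, x ∈ tsupport (ρ (some s) : M → ℝ) → e p i + r < e x i → s i = true) ∧
      (∀ s i x, x ∈ tsupport (ρ (some s) : M → ℝ) → e x i < e p i - r → s i = false) ∧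
      (∀ x ∈ tsupport (ρ none : M → ℝ), x ∉ e.source ∨ ∃ i, r < |e x i - e p i|) ∧
      ∑ v : Fin 5 → Option (Fin 4 → Bool),
        TL (List.ofFn v) * A.J (fun i => ρ (v i)) = 1 := by
  classical
  set c : Rn 4 := e p with hc
  have hct : c ∈ e.target := e.map_source hp
  have hN : e.target ∩ e.symm ⁻¹' V ∈ 𝓝 c := by
    refine inter_mem (e.open_target.mem_nhds hct) ((e.continuousAt_symm hct).preimage_mem_nhds ?_)
    rw [hc, e.left_inv hp]
    exact hV
  obtain ⟨R, hR, hRB⟩ := Metric.nhds_basis_closedBall.mem_iff.1 hN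
  set r : ℝ := R / 3 with hrdef
  have hr : 0 < r := by positivity
  set κ : ContDiffBump c := ⟨2 * r, R, by positivity, by rw [hrdef]; linarith⟩ with hκ
  set B : Set (Rn 4) := Metric.closedBall c R with hB
  have hBc : IsCompact B := isCompact_closedBall c R
  have hBt : B ⊆ e.target := fun y hy => (hRB hy).1
  have hκ0 : ∀ y ∉ B, κ y = 0 := fun y hy => κ.zero_of_le_dist (by
    have : R < dist y c := not_le.1 hy
    exact this.le)
  have hκs : ContDiff ℝ ∞ κ := κ.contDiff
  set G : (Fin 4 → Bool) → Rn 4 → ℝ := fun s y => κ y * uu (HH c r y) s with hG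
  have hG0 : ∀ s, ∀ y ∉ B, G s y = 0 := fun s y hy => by simp only [hG, hκ0 y hy, zero_mul]
  have hGs : ∀ s, ContDiff ℝ ∞ (G s) := fun s => hκs.mul (contDiff_uu c r s)
  have hGF : ∀ s, lf e (G s) ∈ A.F := fun s => mem_F_lf he (hGs s) hBc hBt (hG0 s)
  have hκF : lf e κ ∈ A.F := mem_F_lf he hκs hBc hBt hκ0
  set ρ : Option (Fin 4 → Bool) → A.F := fun t => t.elim (1 - ⟨lf e κ, hκF⟩)
    fun s => ⟨lf e (G s), hGF s⟩ with hρdef
  have hρs : ∀ s, (ρ (some s) : M → ℝ) = lf e (G s) := fun s => rfl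
  have hρn : (ρ none : M → ℝ) = fun x => 1 - lf e κ x := rfl
  have hsum : ∑ t, ρ t = 1 := by
    rw [Fintype.sum_option]
    apply Subtype.ext
    rw [Subalgebra.coe_add, AddSubmonoidClass.coe_finsetSum, Subalgebra.coe_one, hρn]
    funext x
    rw [Pi.add_apply, Finset.sum_apply]
    simp only [hρs, Pi.one_apply]
    by_cases hx : x ∈ e.source
    · simp only [lf_of_mem hx, hG, ← Finset.mul_sum, sum_uu]
      ring
    · simp only [lf_of_notMem hx]
      simp
  have hts : ∀ s, tsupport (ρ (some s) : M → ℝ) ⊆ e.symm '' B := fun s => by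
    rw [hρs]
    exact tsupport_lf hBc hBt (hG0 s)
  have hopen : ∀ {x : M}, x ∈ e.source → ContinuousAt e x := fun hx => e.continuousAt hx
  have hgt : ∀ s i x, x ∈ tsupport (ρ (some s) : M → ℝ) → c i + r < e x i → s i = true := by
    intro s i x hx hlt
    by_contra hs
    have hxs : x ∈ e.source := K_sub hBt (hts s hx)
    refine notMem_tsupport_iff_eventuallyEq.2 ?_ hx
    have hci : ContinuousAt (fun x => e x i) x :=
      (continuous_apply i).continuousAt.comp (hopen hxs)
    filter_upwards [hci.eventually (lt_mem_nhds hlt), e.open_source.mem_nhds hxs] with z hz hzs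
    rw [hρs, lf_of_mem hzs]
    simp only [hG, Pi.zero_apply]
    rw [uu_eq_zero (i := i), mul_zero]
    have : s i = false := by simpa using hs
    rw [this, ph_false]
    unfold HH
    rw [st_one hr hz.le, sub_self]
  have hlt : ∀ s i x, x ∈ tsupport (ρ (some s) : M → ℝ) → e x i < c i - r → s i = false := by
    intro s i x hx hlt
    by_contra hs
    have hxs : x ∈ e.source := K_sub hBt (hts s hx)
    refine notMem_tsupport_iff_eventuallyEq.2 ?_ hx
    have hci : ContinuousAt (fun x => e x i) x :=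
      (continuous_apply i).continuousAt.comp (hopen hxs)
    filter_upwards [hci.eventually (gt_mem_nhds hlt), e.open_source.mem_nhds hxs] with z hz hzs
    rw [hρs, lf_of_mem hzs]
    simp only [hG, Pi.zero_apply]
    rw [uu_eq_zero (i := i), mul_zero]
    have : s i = true := by simpa using hs
    rw [this, ph_true]
    unfold HH
    rw [st_zero hr hz.le]
  have hκ1 : ∀ x ∈ e.source, (∀ i, |e x i - c i| ≤ r) →
      ∀ᶠ z in 𝓝 x, z ∈ e.source ∧ κ (e z) = 1 := by
    intro x hx hb
    have hd : e x ∈ Metric.ball c (2 * r) := by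
      rw [Metric.mem_ball, dist_pi_lt_iff (by positivity)]
      intro i
      rw [Real.dist_eq]
      exact (hb i).trans_lt (by linarith)
    have h1 : ∀ᶠ y in 𝓝 (e x), κ y = 1 := κ.eventuallyEq_one_of_mem_ball hd
    filter_upwards [(hopen hx).eventually h1, e.open_source.mem_nhds hx] with z h1 h2
    exact ⟨h2, h1⟩
  refine ⟨r, e.symm '' B, ρ, hr, hsum, isCompact_K hBc hBt, ?_, K_sub hBt, hts, hgt, hlt, ?_, ?_⟩
  · rintro _ ⟨y, hy, rfl⟩
    exact (hRB hy).2
  · intro x hx
    by_contra hcon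
    push Not at hcon
    obtain ⟨hxs, hxb⟩ := hcon
    refine notMem_tsupport_iff_eventuallyEq.2 ?_ hx
    filter_upwards [hκ1 x hxs hxb] with z hz
    rw [hρn]
    simp only [lf_of_mem hz.1, hz.2, sub_self, Pi.zero_apply]
  · -- the sum
    have hFS : ∀ s, SmO e (ρ (some s) : M → ℝ) := fun s => smO_lf (hGs s)
    have e1 : ∑ v : Fin 5 → Option (Fin 4 → Bool), TL (List.ofFn v) * A.J (fun i => ρ (v i)) =
        ∑ w : Fin 5 → Fin 4 → Bool,
          (bv (w 1 0) - bv (w 0 0)) * (bv (w 2 1) - bv (w 1 1)) * (bv (w 3 2) - bv (w 2 2)) *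
            (bv (w 4 3) - bv (w 3 3)) * A.J (fun k => ρ (some (w k))) := by
      symm
      refine Fintype.sum_of_injective (fun (w : Fin 5 → Fin 4 → Bool) k => some (w k)) ?_ _ _ ?_ ?_
      · intro w w' h
        funext k
        exact Option.some_injective _ (congrFun h k)
      · intro v hv
        have : ∃ k, v k = none := by
          by_contra hcon
          push Not at hcon
          refine hv ⟨fun k => (v k).get (Option.isSome_iff_ne_none.2 (hcon k)), ?_⟩
          funext k
          simp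
        obtain ⟨k, hk⟩ := this
        rw [TL_none hk, zero_mul]
      · intro w
        rw [TL_ofFn]
        simp only [dif_some]
    have e2 : ∀ w : Fin 5 → Fin 4 → Bool, A.J (fun k => ρ (some (w k))) =
        ∫ y in e.target, OA.W e (fun k => (ρ (some (w k)) : M → ℝ)) y := by
      intro w
      exact OA.J_chart he (isCompact_K hBc hBt) (K_sub hBt) fun x hx =>
        ⟨0, fun h => hx (hts _ h)⟩
    have hint : ∀ w : Fin 5 → Fin 4 → Bool,
        IntegrableOn (OA.W e (fun k => (ρ (some (w k)) : M → ℝ))) e.target := by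
      intro w
      refine intOn (OA.continuousOn_W fun k => hFS (w k)) (isCompact_K hBc hBt) (K_sub hBt)
        fun y hy hyK => OA.W_eq_zero (k := 0) hy fun h => hyK (hts _ h)
    rw [e1]
    have e3 : ∑ w : Fin 5 → Fin 4 → Bool,
          (bv (w 1 0) - bv (w 0 0)) * (bv (w 2 1) - bv (w 1 1)) * (bv (w 3 2) - bv (w 2 2)) *
            (bv (w 4 3) - bv (w 3 3)) * A.J (fun k => ρ (some (w k))) =
        ∫ y in e.target, ∑ w : Fin 5 → Fin 4 → Bool,
          (bv (w 1 0) - bv (w 0 0)) * (bv (w 2 1) - bv (w 1 1)) * (bv (w 3 2) - bv (w 2 2)) *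
            (bv (w 4 3) - bv (w 3 3)) * OA.W e (fun k => (ρ (some (w k)) : M → ℝ)) y := by
      rw [integral_finsetSum _ fun w _ => (hint w).const_mul _]
      refine Finset.sum_congr rfl fun w _ => ?_
      rw [e2, integral_const_mul]
    rw [e3]
    have h3 : ∀ y ∈ e.target, (∀ i, |y i - c i| ≤ r) →
        ∀ᶠ x in 𝓝 (e.symm y), ∀ s, (ρ (some s) : M → ℝ) x = uu (fun j => hh e c r j x) s := by
      intro y hy hb
      have := hκ1 (e.symm y) (e.map_target hy) (by rw [e.right_inv hy]; exact hb)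
      filter_upwards [this] with x hx s
      rw [hρs, lf_of_mem hx.1]
      simp only [hG, hx.2, one_mul]
      rfl
    rw [setIntegral_congr_fun e.open_target.measurableSet fun y hy =>
      pointwise hr (fun s => (ρ (some s) : M → ℝ)) hFS hgt hlt h3 hy]
    rw [setIntegral_eq_integral_of_forall_compl_eq_zero]
    · rw [integral_fintype_prod_volume_eq_prod (fun j t => deriv (st (c j) r) t)]
      rw [Finset.prod_congr rfl fun j _ => integral_deriv_st hr]
      simp
    · intro y hy
      have hyB : y ∉ B := fun h => hy (hBt h)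
      have : ∃ i, r < |y i - c i| := by
        by_contra hcon
        push Not at hcon
        refine hyB ?_
        rw [hB, Metric.mem_closedBall, dist_pi_le_iff hR.le]
        intro i
        rw [Real.dist_eq]
        exact (hcon i).trans (by rw [hrdef]; linarith)
      obtain ⟨i, hi⟩ := this
      refine Finset.prod_eq_zero (Finset.mem_univ i) ?_
      rcases lt_abs.1 hi with h | h
      · exact deriv_st_gt hr (by linarith)
      · exact deriv_st_lt hr (by linarith)

end main

end

end Crest.Agent.R275.TauJ865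
end

-- ▼ part R275/EOF_627

set_option autoImplicit false
set_option linter.unusedSectionVars false

open Set Filter Topology

namespace Crest.Agent.R275.EOF627

open StkR627 OAt627 OAJ627 OAG627 EOG627 EOr627 ASZ627 ASN627 Geo TauJ865 PD412 PDB412 Zig470
  WtY945 ASConv293

noncomputable section

/-! ### the label cochain `TL` -/

theorem TL_noneL {l : List (Option (Fin 4 → Bool))} (h : none ∈ l) : TL l = 0 := by
  by_cases hl : l.length = 5
  · match l, hl with
    | [a0, a1, a2, a3, a4], _ =>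
      rw [TL_five]
      simp only [List.mem_cons, List.not_mem_nil, or_false] at h
      rcases h with h | h | h | h | h <;> subst h <;> simp
  · exact TL_of_length hl

theorem dif_zero {j : Fin 4} {c : Bool} {a b : Option (Fin 4 → Bool)}
    (ha : ∀ s, a = some s → s j = c) (hb : ∀ s, b = some s → s j = c) : dif j a b = 0 := by
  cases a with
  | none => simp
  | some s =>
    cases b with
    | none => simp
    | some t => rw [dif_some, ha s rfl, hb t rfl, sub_self]

theorem TL_zero {l : List (Option (Fin 4 → Bool))} {j : Fin 4} {c : Bool}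
    (h : ∀ s, some s ∈ l → s j = c) : TL l = 0 := by
  by_cases hl : l.length = 5
  · match l, hl with
    | [a0, a1, a2, a3, a4], _ =>
      rw [TL_five]
      have h0 : ∀ s, a0 = some s → s j = c := fun s hs => h s (by simp [hs])
      have h1 : ∀ s, a1 = some s → s j = c := fun s hs => h s (by simp [hs])
      have h2 : ∀ s, a2 = some s → s j = c := fun s hs => h s (by simp [hs])
      have h3 : ∀ s, a3 = some s → s j = c := fun s hs => h s (by simp [hs])
      have h4 : ∀ s, a4 = some s → s j = c := fun s hs => h s (by simp [hs])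
      have k0 := dif_zero h0 h1
      have k1 := dif_zero h1 h2
      have k2 := dif_zero h2 h3
      have k3 := dif_zero h3 h4
      fin_cases j
      · simp only [Fin.zero_eta] at k0; rw [k0]; simp
      · simp only [Fin.mk_one] at k1; rw [k1]; simp
      · simp only [Fin.reduceFinMk] at k2; rw [k2]; simp
      · simp only [Fin.reduceFinMk] at k3; rw [k3]; simp
  · exact TL_of_length hl

theorem dl_TL_some (m : List (Fin 4 → Bool)) (hm : m.length = 6) : dl TL (m.map some) = 0 := by
  match m, hm with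
  | [a, b, c, d, e, f], _ =>
    simp only [List.map_cons, List.map_nil, ASZ627.dl_cons, ASZ627.dl_nil, TL_five, dif_some]
    ring

section tau

variable {M : Type} [MetricSpace M] [LocallyCompactSpace M] {A : OA 4 M}

/-- labels of the points around `p` -/
def tlab (e : Ch 4 M) (p : M) (V : Set M) : M → Option (Fin 4 → Bool) :=
  open Classical in fun x => if x ∈ V then some fun j => decide (0 ≤ e x j - e p j) else none

theorem tlab_of_mem {e : Ch 4 M} {p : M} {V : Set M} {x : M} (hx : x ∈ V) :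
    tlab e p V x = some fun j => decide (0 ≤ e x j - e p j) := if_pos hx

theorem tlab_of_notMem {e : Ch 4 M} {p : M} {V : Set M} {x : M} (hx : x ∉ V) :
    tlab e p V x = none := if_neg hx

theorem E_TL {e : Ch 4 M} (he : A.Ok e) {p : M} (hp : p ∈ e.source) {V : Set M}
    (hV : V ∈ 𝓝 p) (hVc : IsCompact V) (hVe : V ⊆ e.source) {φ : List M → ℝ}
    (hφ : ∀ l : List M, l.length = 5 → φ l = TL (l.map (tlab e p V))) : E (jd A) φ = 1 := by
  obtain ⟨r, K, ρ, hr, hρ, hK, hKV, hKe, hts, h1, h2, h3, h4⟩ := tauJ A he hp hV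
  have hsum : ∀ x, (ρ none : M → ℝ) x = 0 → x ∈ V := by
    intro x hx
    have e1 : ((∑ t, ρ t : A.F) : M → ℝ) x = 1 := by rw [hρ]; rfl
    rw [Fintype.sum_option] at e1
    have e2 : (ρ none : M → ℝ) x + ∑ s : Fin 4 → Bool, (ρ (some s) : M → ℝ) x = 1 := by
      rw [← e1]
      simp [Finset.sum_apply]
    rw [hx, zero_add] at e2
    obtain ⟨s, -, hs⟩ := Finset.exists_ne_zero_of_sum_ne_zero (by rw [e2]; exact one_ne_zero)
    exact hKV (hts s (subset_tsupport _ hs))
  have hLC : ∀ q, ∃ W ∈ 𝓝 q, ∀ m : List (Option (Fin 4 → Bool)), m.length = 4 + 2 →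
      (∀ s ∈ m, (∃ x ∈ W, tlab e p V x = s) ∨
        ∃ x ∈ W, ∃ t, x ∈ tsupport (ρ t : M → ℝ) ∧ id t = s) → dl TL m = 0 := by
    intro q
    by_cases hq : q ∈ e.source
    · by_cases hbox : ∀ i, |e q i - e p i| ≤ r
      · have hqn : q ∉ tsupport (ρ none : M → ℝ) := fun h => by
          rcases h3 q h with h | ⟨i, hi⟩
          · exact h hq
          · exact absurd (hbox i) (not_le.2 hi)
        refine ⟨(tsupport (ρ none : M → ℝ))ᶜ, (isClosed_tsupport _).isOpen_compl.mem_nhds hqn,
          fun m hm hs => ?_⟩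
        have hn : none ∉ m := by
          intro hn
          rcases hs _ hn with ⟨x, hx, hxs⟩ | ⟨x, hx, t, ht, hts⟩
          · by_cases hxV : x ∈ V
            · rw [tlab_of_mem hxV] at hxs
              exact absurd hxs (by simp)
            · exact hxV (hsum x (image_eq_zero_of_notMem_tsupport hx))
          · simp only [id] at hts
            subst hts
            exact hx ht
        obtain ⟨l, rfl⟩ := exists_map_some hn
        exact dl_TL_some l (by simpa using hm)
      · push Not at hbox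
        obtain ⟨i, hi⟩ := hbox
        have hcont : ContinuousAt (fun x => e x i) q :=
          (continuous_apply i).continuousAt.comp (e.continuousAt hq)
        rcases lt_abs.1 hi with hi | hi
        · refine ⟨_, hcont.eventually (lt_mem_nhds (show e p i + r < e q i by linarith)),
            fun m hm hs => dl_eq_zero fun m' hm' hml => TL_zero (j := i) (c := true) fun s hsm => ?_⟩
          rcases hs _ (hm'.subset hsm) with ⟨x, hx, hxs⟩ | ⟨x, hx, t, ht, hts'⟩
          · by_cases hxV : x ∈ V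
            · rw [tlab_of_mem hxV, Option.some.injEq] at hxs
              rw [← hxs]
              have hx' : e p i + r < e x i := hx
              simp only [decide_eq_true_eq]
              linarith
            · rw [tlab_of_notMem hxV] at hxs
              exact absurd hxs (by simp)
          · simp only [id] at hts'
            subst hts'
            exact h1 s i x ht hx
        · refine ⟨_, hcont.eventually (gt_mem_nhds (show e q i < e p i - r by linarith)),
            fun m hm hs => dl_eq_zero fun m' hm' hml => TL_zero (j := i) (c := false) fun s hsm => ?_⟩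
          rcases hs _ (hm'.subset hsm) with ⟨x, hx, hxs⟩ | ⟨x, hx, t, ht, hts'⟩
          · by_cases hxV : x ∈ V
            · rw [tlab_of_mem hxV, Option.some.injEq] at hxs
              rw [← hxs]
              have hx' : e x i < e p i - r := hx
              simp only [decide_eq_false_iff_not, not_le]
              linarith
            · rw [tlab_of_notMem hxV] at hxs
              exact absurd hxs (by simp)
          · simp only [id] at hts'
            subst hts'
            exact h2 s i x ht hx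
    · refine ⟨Vᶜ, hVc.isClosed.isOpen_compl.mem_nhds fun h => hq (hVe h), fun m hm hs =>
        dl_eq_zero fun m' hm' hml => TL_zero (j := 0) (c := true) fun s hsm => ?_⟩
      exfalso
      rcases hs _ (hm'.subset hsm) with ⟨x, hx, hxs⟩ | ⟨x, hx, t, ht, hts'⟩
      · rw [tlab_of_notMem hx] at hxs
        exact absurd hxs (by simp)
      · simp only [id] at hts'
        subst hts'
        exact hx (hKV (hts s ht))
  have hE := isE_label (G := jd A) (ρ' := ρ) hρ id (tlab e p V) TL (fun l hl => TL_noneL hl) hVc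
    (fun x hx => tlab_of_notMem hx) (fun t ht => by
      cases t with
      | none => exact absurd rfl ht
      | some s => exact (hts s).trans hKV) hLC
  have hEV : EV (jd A) ρ id TL = 1 := h4
  rw [hEV] at hE
  refine E_eq ?_ (EqN.of_eq hφ) hE
  refine ⟨V, hVc, fun l hl hx => ?_⟩
  obtain ⟨x, hxl⟩ := List.exists_mem_of_ne_nil l (by rintro rfl; simp at hl)
  exact TL_noneL (List.mem_map.2 ⟨x, hxl, tlab_of_notMem (hx x hxl)⟩)

end tau

/-- `tauP` as a label cochain -/
theorem tauP_eq {M : Type} [MetricSpace M] [LocallyCompactSpace M] (e : OpenPartialHomeomorph M (Cn 2)) (p : M) (V : Set M)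
    (l : List M) (hl : l.length = 5) :
    ((tauP e p V l : ℤ) : ℝ) = TL (l.map (tlab (rch e) p V)) := by
  match l, hl with
  | [x0, x1, x2, x3, x4], _ =>
    unfold tauP
    by_cases h : ∀ y ∈ [x0, x1, x2, x3, x4], y ∈ V
    · rw [if_pos h]
      have h0 := h x0 (by simp)
      have h1 := h x1 (by simp)
      have h2 := h x2 (by simp)
      have h3 := h x3 (by simp)
      have h4 := h x4 (by simp)
      simp only [List.map_cons, List.map_nil, tlab_of_mem h0, tlab_of_mem h1, tlab_of_mem h2,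
        tlab_of_mem h3, tlab_of_mem h4, TL_five, dif_some, Th4_five, rch_apply, rl_apply, hst, bv]
      simp only [PiLp.sub_apply, Complex.sub_re, Complex.sub_im]
      push_cast
      simp
    · rw [if_neg h]
      push Not at h
      obtain ⟨y, hy, hyV⟩ := h
      rw [TL_noneL, Int.cast_zero]
      exact List.mem_map.2 ⟨y, hy, tlab_of_notMem hyV⟩

section final

variable {Z : Type} [TopologicalSpace Z] [T2Space Z]

theorem locallyCompact (B : Atl 2 Z) : LocallyCompactSpace Z := by
  have : WeaklyLocallyCompactSpace Z := ⟨GC293.exists_compact_nhds B⟩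
  infer_instance

theorem metrizable (B : Atl 2 Z) [Countable B.ι] : TopologicalSpace.MetrizableSpace Z := by
  have : LocallyCompactSpace Z := locallyCompact B
  have h1 : ∀ i, SecondCountableTopology (B.e i).source := fun i =>
    (B.e i).toHomeomorphSourceTarget.secondCountableTopology
  have h2 : SecondCountableTopology Z := TopologicalSpace.secondCountableTopology_of_countable_cover
    (U := fun i => (B.e i).source) (fun i => (B.e i).open_source)
    (eq_univ_of_forall fun x => mem_iUnion.2 (B.cover x))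
  infer_instance

variable {B : Atl 2 Z}

/-- **the orientation functional of a complex surface** (compact or not) -/
theorem exists_functional [Countable B.ι] (Q : Part B)
    (hrc : ∀ i, IsCompact (closure (B.e i).source)) :
    ∃ E : (List Z → ℤ) → ℝ, Ev 3 E ∧ Nrm B E ∧
      ∀ lab : Z → B.ι, Lab (fun i => (B.e i).source) lab → ∀ C : List B.ι → ℤ,
        (∀ l : List B.ι, l.length = 6 → (∃ x, ∀ v ∈ l, x ∈ (B.e v).source) → ASZ627.dl C l = 0) →
        {l : List B.ι | l.length = 5 ∧ (∃ x, ∀ v ∈ l, x ∈ (B.e v).source) ∧ C l ≠ 0}.Finite →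
        E (fun l => C (l.map lab)) =
          ∑ᶠ t : Fin 5 → B.ι, (C [t 0, t 1, t 2, t 3, t 4] : ℝ) * jw Q t := by
  classical
  have hlc : LocallyCompactSpace Z := locallyCompact B
  have hmt := metrizable B
  let _ : MetricSpace Z := TopologicalSpace.metrizableSpaceMetric Z
  refine ⟨EZ (jd (toOA B Q)), ⟨?_, ?_, ?_⟩, ?_, ?_⟩
  · intro φ ψ h1 h2 h3 h4
    exact EZ_add h1 h3 h2 h4
  · intro φ ψ h
    exact EZ_congr h
  · intro ψ h
    exact EZ_dl h
  · intro i p hp
    obtain ⟨V, hV, hVs, hVc⟩ := local_compact_nhds ((B.e i).open_source.mem_nhds hp)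
    refine ⟨V, hV, ?_, ?_⟩
    · rw [hVc.isClosed.closure_eq]; exact hVs
    · exact E_TL (e := rch (B.e i)) (ok_rch fun j => hcpt_e B j i) hp hV hVc hVs
        fun l hl => tauP_eq (B.e i) p V l hl
  · intro lab hlab C hC hfin
    set V₀ : Finset B.ι := hfin.toFinset.biUnion fun l => l.toFinset with hV₀
    have hrob : ∀ x, ∀ᶠ y in 𝓝 x, x ∈ (B.e (lab y)).source := by
      intro x
      obtain ⟨F, h1, h2⟩ := hlab x
      filter_upwards [h2] with y hy
      exact h1 _ hy
    have hmemV : ∀ m : List B.ι, m.length = 4 + 1 → (∃ x, ∀ v ∈ m, x ∈ (B.e v).source) →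
        C m ≠ 0 → ∀ v ∈ m, v ∈ V₀ := by
      intro m hm hx hne v hv
      rw [hV₀, Finset.mem_biUnion]
      exact ⟨m, hfin.mem_toFinset.2 ⟨hm, hx, hne⟩, List.mem_toFinset.2 hv⟩
    have hts : ∀ v, tsupport (Q.ψ v) ⊆ (B.e v).source := (toOA B Q).θ_sub
    have hlf : LocallyFinite fun v => tsupport (Q.ψ v) := by
      intro x
      obtain ⟨V, hV, hVs, hVc⟩ := local_compact_nhds (univ_mem (f := 𝓝 x))
      exact ⟨V, hV, (toOA B Q).lf V hVc⟩
    have key := EZ_label (G := jd (toOA B Q)) (U := fun i => (B.e i).source) hrob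
      (ψ := fun v => pF Q v) hts hlf Q.sum_one C hC V₀ hmemV
      (fun v _ => ⟨_, hrc v, subset_closure⟩)
    rw [key]
    have hsupp : Function.support (fun t : Fin 5 → B.ι =>
        (C [t 0, t 1, t 2, t 3, t 4] : ℝ) * jw Q t) ⊆
        ↑(Finset.univ.image fun (v : Fin (4 + 1) → V₀) (i : Fin 5) => (v i : B.ι)) := by
      intro t ht
      have h1 : C [t 0, t 1, t 2, t 3, t 4] ≠ 0 := fun h => by simp [h] at ht
      have h2 : jw Q t ≠ 0 := fun h => by simp [h] at ht
      obtain ⟨x, hx⟩ := jw_ne h2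
      have h3 : ∀ i, t i ∈ V₀ := by
        intro i
        refine hmemV [t 0, t 1, t 2, t 3, t 4] rfl ⟨x, fun v hv => ?_⟩ h1 (t i) ?_
        · simp only [List.mem_cons, List.not_mem_nil, or_false] at hv
          rcases hv with rfl | rfl | rfl | rfl | rfl <;> exact hts _ (hx _)
        · fin_cases i <;> simp
      simp only [Finset.coe_image, Finset.coe_univ, image_univ, mem_range]
      exact ⟨fun i => ⟨t i, h3 i⟩, rfl⟩
    rw [finsum_eq_sum_of_support_subset _ hsupp, Finset.sum_image]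
    · refine Finset.sum_congr rfl fun v _ => ?_
      congr 1
    · intro v _ w _ hvw
      funext i
      exact Subtype.ext (congrFun hvw i)

/-- the compact case -/
theorem exists_functional_compact [CompactSpace Z] [Countable B.ι] (Q : Part B) :
    ∃ E : (List Z → ℤ) → ℝ, Ev 3 E ∧ Nrm B E ∧
      ∀ lab : Z → B.ι, Lab (fun i => (B.e i).source) lab → ∀ C : List B.ι → ℤ,
        (∀ l : List B.ι, l.length = 6 → (∃ x, ∀ v ∈ l, x ∈ (B.e v).source) → ASZ627.dl C l = 0) →
        {l : List B.ι | l.length = 5 ∧ (∃ x, ∀ v ∈ l, x ∈ (B.e v).source) ∧ C l ≠ 0}.Finite →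
        E (fun l => C (l.map lab)) =
          ∑ᶠ t : Fin 5 → B.ι, (C [t 0, t 1, t 2, t 3, t 4] : ℝ) * jw Q t :=
  exists_functional Q fun _ => isClosed_closure.isCompact

end final

end

end Crest.Agent.R275.EOF627
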