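import Crest.Agent.R275.ASZ_627
import Mathlib.Analysis.SpecialFunctions.Complex.Arg
import Mathlib.Analysis.SpecialFunctions.Complex.Log
import Mathlib.Topology.Separation.Regular

-- ▼ part R275/LnkCupA_692
section

set_option autoImplicit false
set_option linter.unusedSectionVars false
set_option linter.unusedVariables false

open Set Filter Topology Complex
open Crest.Agent.R275.ASZ627

namespace Crest.Agent.R275.LnkCup692

/-! ### germs of cochains -/

section germ

variable {M : Type*} [TopologicalSpace M]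

/-- `P` holds for all lists of points of some neighbourhood of `x` -/
def Near (x : M) (P : List M → Prop) : Prop :=
  ∃ V ∈ 𝓝 x, ∀ l : List M, (∀ y ∈ l, y ∈ V) → P l

theorem Near.and {x : M} {P Q : List M → Prop} (h : Near x P) (h' : Near x Q) :
    Near x (fun l => P l ∧ Q l) := by
  obtain ⟨V, hV, h⟩ := h
  obtain ⟨W, hW, h'⟩ := h'
  exact ⟨V ∩ W, inter_mem hV hW, fun l hl => ⟨h l fun y hy => (hl y hy).1,
    h' l fun y hy => (hl y hy).2⟩⟩

theorem Near.mono {x : M} {P Q : List M → Prop} (h : Near x P) (hPQ : ∀ l, P l → Q l) :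
    Near x Q := by
  obtain ⟨V, hV, h⟩ := h
  exact ⟨V, hV, fun l hl => hPQ l (h l hl)⟩

theorem near_of_eventually {x : M} {p : M → Prop} (h : ∀ᶠ y in 𝓝 x, p y) :
    Near x (fun l => ∀ y ∈ l, p y) :=
  ⟨{y | p y}, h, fun _ hl => hl⟩

/-- a property near `x` also holds for all sublists -/
theorem Near.sub {x : M} {P : List M → Prop} (h : Near x P) :
    Near x (fun l => ∀ m : List M, (∀ y ∈ m, y ∈ l) → P m) := by
  obtain ⟨V, hV, h⟩ := h
  exact ⟨V, hV, fun l hl m hm => h m fun y hy => hl y (hm y hy)⟩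

theorem near_true {x : M} {P : List M → Prop} (h : ∀ l, P l) : Near x P :=
  ⟨univ, univ_mem, fun l _ => h l⟩

theorem near_finset {ι : Type*} {x : M} {P : ι → List M → Prop} (s : Finset ι)
    (h : ∀ i ∈ s, Near x (P i)) : Near x (fun l => ∀ i ∈ s, P i l) := by
  classical
  induction s using Finset.induction_on with
  | empty => exact near_true (by simp)
  | insert a s ha ih =>
    refine ((h a (by simp)).and (ih fun i hi => h i (by simp [hi]))).mono fun l hl i hi => ?_
    rcases Finset.mem_insert.1 hi with rfl | hi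
    · exact hl.1
    · exact hl.2 i hi

/-- near `x`, cochains on lists of length `r` agree -/
def GEq (r : ℕ) (f g : List M → ℤ) (x : M) : Prop :=
  Near x (fun l => l.length = r → f l = g l)

/-- closed cochain on lists of length `r` -/
def Cl (r : ℕ) (f : List M → ℤ) : Prop := ∀ x, Near x (fun l => l.length = r + 1 → dl f l = 0)

theorem sublist_near {r : ℕ} {f g : List M → ℤ} {x : M} (h : GEq r f g x) :
    Near x (fun l => ∀ m, m.Sublist l → m.length = r → f m = g m) :=
  h.sub.mono fun _ hl m hm hm' => hl m (fun _ hy => hm.subset hy) hm'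

theorem GEq.dl {r : ℕ} {f g : List M → ℤ} {x : M} (h : GEq r f g x) :
    GEq (r + 1) (dl f) (dl g) x := by
  refine (sublist_near h).mono fun l hl hlen => ?_
  exact dl_congr fun m hm hm' => hl m hm (by omega)

theorem GEq.refl {r : ℕ} {f : List M → ℤ} {x : M} : GEq r f f x := near_true fun _ _ => rfl

theorem GEq.symm {r : ℕ} {f g : List M → ℤ} {x : M} (h : GEq r f g x) : GEq r g f x :=
  h.mono fun _ hl h => (hl h).symm

theorem GEq.trans {r : ℕ} {f g k : List M → ℤ} {x : M} (h : GEq r f g x) (h' : GEq r g k x) :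
    GEq r f k x :=
  (h.and h').mono fun _ hl h => (hl.1 h).trans (hl.2 h)

theorem GEq.add {r : ℕ} {f g f' g' : List M → ℤ} {x : M} (h : GEq r f g x) (h' : GEq r f' g' x) :
    GEq r (fun l => f l + f' l) (fun l => g l + g' l) x :=
  (h.and h').mono fun _ hl h => by simp only [hl.1 h, hl.2 h]

theorem GEq.sub' {r : ℕ} {f g f' g' : List M → ℤ} {x : M} (h : GEq r f g x)
    (h' : GEq r f' g' x) : GEq r (fun l => f l - f' l) (fun l => g l - g' l) x :=
  (h.and h').mono fun _ hl h => by simp only [hl.1 h, hl.2 h]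

theorem GEq.neg {r : ℕ} {f g : List M → ℤ} {x : M} (h : GEq r f g x) :
    GEq r (fun l => -f l) (fun l => -g l) x :=
  h.mono fun _ hl h => by simp only [hl h]

theorem GEq.cup {p q : ℕ} {f g f' g' : List M → ℤ} {x : M} (h : GEq (p + 1) f g x)
    (h' : GEq (q + 1) f' g' x) :
    GEq (p + q + 1) (cup p f f') (cup p g g') x := by
  refine ((Near.sub h).and (Near.sub h')).mono fun l hl hlen => ?_
  have h1 := hl.1 (l.take (p + 1)) (fun y hy => List.mem_of_mem_take hy) (by simp; omega)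
  have h2 := hl.2 (l.drop p) (fun y hy => List.mem_of_mem_drop hy) (by simp; omega)
  simp only [ASZ627.cup, h1, h2]

theorem geq_cup_zero_left {p q : ℕ} {f f' : List M → ℤ} {x : M}
    (h : GEq (p + 1) f (fun _ => 0) x) : GEq (p + q + 1) (ASZ627.cup p f f') (fun _ => 0) x :=
  (GEq.cup (q := q) h GEq.refl).trans (near_true fun l _ => by simp [ASZ627.cup])

theorem geq_cup_zero_right {p q : ℕ} {f f' : List M → ℤ} {x : M}
    (h : GEq (q + 1) f' (fun _ => 0) x) : GEq (p + q + 1) (ASZ627.cup p f f') (fun _ => 0) x :=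
  (GEq.cup (p := p) GEq.refl h).trans (near_true fun l _ => by simp [ASZ627.cup])

theorem Cl.congr {r : ℕ} {f g : List M → ℤ} (h : Cl r f) (hfg : ∀ x, GEq r f g x) : Cl r g :=
  fun x => ((h x).and (hfg x).dl).mono fun _ hl hlen => by rw [← hl.2 hlen, hl.1 hlen]

theorem Cl.dl (r : ℕ) (f : List M → ℤ) : Cl r (dl f) := fun _ => near_true fun _ _ => dl_dl _ _

theorem Cl.add {r : ℕ} {f g : List M → ℤ} (h : Cl r f) (h' : Cl r g) :
    Cl r (fun l => f l + g l) :=
  fun x => ((h x).and (h' x)).mono fun _ hl hlen => by rw [dl_add, hl.1 hlen, hl.2 hlen, add_zero]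

theorem Cl.sub {r : ℕ} {f g : List M → ℤ} (h : Cl r f) (h' : Cl r g) :
    Cl r (fun l => f l - g l) :=
  fun x => ((h x).and (h' x)).mono fun _ hl hlen => by rw [dl_sub, hl.1 hlen, hl.2 hlen, sub_zero]

theorem Cl.neg {r : ℕ} {f : List M → ℤ} (h : Cl r f) : Cl r (fun l => -f l) :=
  fun x => (h x).mono fun _ hl hlen => by rw [dl_neg, hl hlen, neg_zero]

theorem Cl.zero (r : ℕ) : Cl r (fun _ : List M => 0) :=
  fun _ => near_true fun _ _ => dl_zero _

theorem Cl.sum {ι : Type*} {r : ℕ} (s : Finset ι) {f : ι → List M → ℤ} (h : ∀ i ∈ s, Cl r (f i)) :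
    Cl r (fun l => ∑ i ∈ s, f i l) := by
  classical
  induction s using Finset.induction_on with
  | empty => simpa using Cl.zero r
  | insert a s ha ih =>
    refine ((h a (by simp)).add (ih fun i hi => h i (by simp [hi]))).congr fun x =>
      near_true fun l _ => ?_
    simp only [Finset.sum_insert ha]

/-- Leibniz rule near `x`: `f` of length `p + 1` -/
theorem geq_dl_cup {p q : ℕ} (f g : List M → ℤ) (x : M) :
    GEq (p + q + 2) (ASZ627.dl (ASZ627.cup p f g))
      (fun l => ASZ627.cup (p + 1) (ASZ627.dl f) g l + (-1) ^ p * ASZ627.cup p f (ASZ627.dl g) l)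
      x :=
  near_true fun l hl => dl_cup p f g l (by omega)

/-- the cup product of closed cochains is closed -/
theorem Cl.cup {p q : ℕ} {f g : List M → ℤ} (h : Cl (p + 1) f) (h' : Cl (q + 1) g) :
    Cl (p + q + 1) (ASZ627.cup p f g) := fun x => by
  have e1 : GEq (p + q + 2) (ASZ627.cup (p + 1) (ASZ627.dl f) g) (fun _ => 0) x := by
    have := geq_cup_zero_left (p := p + 1) (q := q) (f' := g) (h x)
    rwa [show p + 1 + q + 1 = p + q + 2 by omega] at this
  have e2 : GEq (p + q + 2) (ASZ627.cup p f (ASZ627.dl g)) (fun _ => 0) x := by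
    have := geq_cup_zero_right (p := p) (q := q + 1) (f := f) (h' x)
    rwa [show p + (q + 1) + 1 = p + q + 2 by omega] at this
  refine ((geq_dl_cup (p := p) (q := q) f g x).and (e1.and e2)).mono fun l hl hlen => ?_
  have h1 := hl.1 hlen
  have h2 := hl.2.1 hlen
  have h3 := hl.2.2 hlen
  beta_reduce at h1 h2 h3
  rw [h1, h2, h3]; simp

end germ

/-! ### an abstract orientation functional in degree 4 -/

/-- additive functional on closed `4`-cochains (lists of length `5`) killing coboundaries -/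
structure OrE (M : Type*) [TopologicalSpace M] (R : Type*) [AddCommGroup R] where
  E : (List M → ℤ) → R
  add : ∀ f g, Cl 5 f → Cl 5 g → E (fun l => f l + g l) = E f + E g
  bd : ∀ f ψ : List M → ℤ, (∀ x, GEq 5 f (dl ψ) x) → E f = 0

namespace OrE

variable {M : Type*} [TopologicalSpace M] {R : Type*} [AddCommGroup R] (O : OrE M R)

/-- cohomologous cochains have the same value -/
theorem congr_dl {f g : List M → ℤ} (hf : Cl 5 f) (ψ : List M → ℤ)
    (h : ∀ x, GEq 5 (fun l => f l - g l) (dl ψ) x) : O.E f = O.E g := by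
  have hg : Cl 5 g := by
    refine (hf.sub (Cl.dl 5 ψ)).congr fun x => (h x).mono fun l hl hlen => ?_
    have := hl hlen
    beta_reduce at this ⊢
    rw [← this]; ring
  have h1 : O.E (fun l => f l - g l) = 0 := O.bd _ ψ h
  have h2 := O.add g (fun l => f l - g l) hg (hf.sub hg)
  have h3 : (fun l => g l + (f l - g l)) = f := by funext l; ring
  rw [h3, h1, add_zero] at h2
  exact h2

theorem congr {f g : List M → ℤ} (hf : Cl 5 f) (h : ∀ x, GEq 5 f g x) : O.E f = O.E g :=
  O.congr_dl hf (fun _ => 0) fun x => (h x).mono fun l hl hlen => by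
    have := hl hlen
    beta_reduce
    rw [this, sub_self, dl_zero]

theorem zero : O.E (fun _ => 0) = 0 := O.bd _ (fun _ => 0) fun x => near_true fun l _ => by
  rw [dl_zero]

theorem neg {f : List M → ℤ} (hf : Cl 5 f) : O.E (fun l => -f l) = -O.E f := by
  have h := O.add f (fun l => -f l) hf hf.neg
  have h3 : (fun l => f l + -f l) = fun _ : List M => (0 : ℤ) := by funext l; ring
  rw [h3, O.zero] at h
  exact (neg_eq_of_add_eq_zero_right h.symm).symm

theorem sum {ι : Type*} (s : Finset ι) {f : ι → List M → ℤ} (h : ∀ i ∈ s, Cl 5 (f i)) :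
    O.E (fun l => ∑ i ∈ s, f i l) = ∑ i ∈ s, O.E (f i) := by
  classical
  induction s using Finset.induction_on with
  | empty => simpa using O.zero
  | insert a s ha ih =>
    have h1 : (fun l => ∑ i ∈ insert a s, f i l) = fun l => f a l + ∑ i ∈ s, f i l := by
      funext l; rw [Finset.sum_insert ha]
    rw [h1, O.add _ _ (h a (by simp)) (Cl.sum s fun i hi => h i (by simp [hi])),
      ih fun i hi => h i (by simp [hi]), Finset.sum_insert ha]

/-- **cohomology invariance of the cup product** -/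
theorem cup_congr {a b a' b' N N' : List M → ℤ} (ha : Cl 3 a) (hb : Cl 3 b) (ha' : Cl 3 a')
    (h : ∀ x, GEq 3 (fun l => a l - b l) (dl N) x)
    (h' : ∀ x, GEq 3 (fun l => a' l - b' l) (dl N') x) :
    O.E (ASZ627.cup 2 a a') = O.E (ASZ627.cup 2 b b') := by
  refine O.congr_dl (Cl.cup (p := 2) (q := 2) ha ha')
    (fun l => ASZ627.cup 1 N a' l + ASZ627.cup 2 b N' l) fun x => ?_
  have e1 := geq_dl_cup (p := 1) (q := 2) N a' x
  have e2 := geq_dl_cup (p := 2) (q := 1) b N' x
  have e3 : GEq 5 (ASZ627.cup 1 N (dl a')) (fun _ => 0) x :=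
    geq_cup_zero_right (p := 1) (q := 3) (ha' x)
  have e4 : GEq 5 (ASZ627.cup 3 (dl b) N') (fun _ => 0) x :=
    geq_cup_zero_left (p := 3) (q := 1) (hb x)
  have e5 : GEq 5 (ASZ627.cup 2 (fun l => a l - b l) a') (ASZ627.cup 2 (dl N) a') x :=
    GEq.cup (p := 2) (q := 2) (h x) GEq.refl
  have e6 : GEq 5 (ASZ627.cup 2 b (fun l => a' l - b' l)) (ASZ627.cup 2 b (dl N')) x :=
    GEq.cup (p := 2) (q := 2) GEq.refl (h' x)
  refine ((e1.and e2).and ((e3.and e4).and (e5.and e6))).mono fun l hl hlen => ?_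
  obtain ⟨⟨h1, h2⟩, ⟨h3, h4⟩, h5, h6⟩ := hl
  have k1 := h1 hlen
  have k2 := h2 hlen
  have k3 := h3 hlen
  have k4 := h4 hlen
  have k5 := h5 hlen
  have k6 := h6 hlen
  beta_reduce at k1 k2 k3 k4
  rw [dl_add, k1, k2, k3, k4, show (1 + 1 : ℕ) = 2 from rfl, ← k5, ← k6]
  simp only [ASZ627.cup]
  ring

end OrE

/-! ### cochains from functions of points -/

section small

variable {X Y : Type*}

/-- `0`-cochain -/
def k1 (K : X → ℤ) : List X → ℤ
  | [x] => K x
  | _ => 0

/-- `1`-cochain -/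
def k2 (n : X → X → ℤ) : List X → ℤ
  | [x, y] => n x y
  | _ => 0

/-- `2`-cochain -/
def k3 (n : X → X → X → ℤ) : List X → ℤ
  | [x, y, z] => n x y z
  | _ => 0

@[simp] theorem k1_one (K : X → ℤ) (x : X) : k1 K [x] = K x := rfl
@[simp] theorem k2_two (n : X → X → ℤ) (x y : X) : k2 n [x, y] = n x y := rfl
@[simp] theorem k3_three (n : X → X → X → ℤ) (x y z : X) : k3 n [x, y, z] = n x y z := rfl



theorem length_two {l : List X} (h : l.length = 2) : ∃ x y, l = [x, y] := by
  match l, h with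
  | [x, y], _ => exact ⟨x, y, rfl⟩

theorem length_three {l : List X} (h : l.length = 3) : ∃ x y z, l = [x, y, z] := by
  match l, h with
  | [x, y, z], _ => exact ⟨x, y, z, rfl⟩

@[simp] theorem dl_k1 (K : X → ℤ) (x y : X) : dl (k1 K) [x, y] = K y - K x := by simp

@[simp] theorem dl_k2 (n : X → X → ℤ) (x y z : X) :
    dl (k2 n) [x, y, z] = n y z - n x z + n x y := by simp; ring

end small

/-! ### the rounding cochain on `ℂ` -/

noncomputable section

/-- integer nearest to the change of argument (in turns) -/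
def nr (a b : ℂ) : ℤ := round ((arg b - arg a) / (2 * Real.pi))

open Classical in
/-- indicator of the left half plane -/
def kR (a : ℂ) : ℤ := if a.re < 0 then 1 else 0

open Classical in
/-- indicator of the lower half plane -/
def kI (a : ℂ) : ℤ := if a.im < 0 then 1 else 0

theorem round_eq_zero_of {t : ℝ} (h1 : -(1 / 2) < t) (h2 : t < 1 / 2) : round t = 0 := by
  rw [round_eq, Int.floor_eq_iff]; constructor <;> push_cast <;> linarith

theorem nr_eq_zero {x y : ℂ} (h1 : -Real.pi < arg y - arg x) (h2 : arg y - arg x < Real.pi) :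
    nr x y = 0 := by
  have hpi := Real.pi_pos
  apply round_eq_zero_of
  · rw [lt_div_iff₀ (by positivity)]; nlinarith
  · rw [div_lt_iff₀ (by positivity)]; nlinarith

theorem arg_re_neg {x : ℂ} (hx : x.re < 0) :
    (0 ≤ x.im ∧ Real.pi / 2 < arg x) ∨ (x.im < 0 ∧ arg x < -(Real.pi / 2)) := by
  have h : ¬ |arg x| ≤ Real.pi / 2 := fun h => by
    have := abs_arg_le_pi_div_two_iff.1 h
    linarith
  rw [abs_le] at h
  rcases lt_or_ge x.im 0 with hi | hi
  · right
    refine ⟨hi, ?_⟩
    have h' := arg_neg_iff.2 hi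
    by_contra hc
    have hpi := Real.pi_pos
    exact h ⟨by linarith, by linarith⟩
  · left
    refine ⟨hi, ?_⟩
    have h' := arg_nonneg_iff.2 hi
    by_contra hc
    have hpi := Real.pi_pos
    exact h ⟨by linarith, by linarith⟩

/-- near every point `≠ 0`, the rounding cochain is `-(1_{Re<0} ∪ δ 1_{Im<0})` -/
theorem nr_local {a : ℂ} (ha : a ≠ 0) :
    ∃ V ∈ 𝓝 a, ∀ x ∈ V, ∀ y ∈ V, - nr x y = kR x * (kI y - kI x) := by
  have hpi := Real.pi_pos
  rcases lt_trichotomy a.im 0 with hi | hi | hi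
  · refine ⟨{x | x.im < 0}, (continuous_im.tendsto a).eventually (gt_mem_nhds hi),
      fun x hx y hy => ?_⟩
    simp only [mem_ofPred_eq] at hx hy
    have h1 := arg_neg_iff.2 hx
    have h2 := arg_neg_iff.2 hy
    have h3 := neg_pi_lt_arg x
    have h4 := neg_pi_lt_arg y
    rw [nr_eq_zero (by linarith) (by linarith)]
    simp [kI, hx, hy]
  · rcases lt_trichotomy a.re 0 with hr | hr | hr
    · refine ⟨{x | x.re < 0}, (continuous_re.tendsto a).eventually (gt_mem_nhds hr),
        fun x hx y hy => ?_⟩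
      simp only [mem_ofPred_eq] at hx hy
      have h3 := neg_pi_lt_arg x
      have h4 := neg_pi_lt_arg y
      have h5 := arg_le_pi x
      have h6 := arg_le_pi y
      rcases arg_re_neg hx with ⟨h1, h1'⟩ | ⟨h1, h1'⟩ <;>
        rcases arg_re_neg hy with ⟨h2, h2'⟩ | ⟨h2, h2'⟩
      · rw [nr_eq_zero (by linarith) (by linarith)]
        simp [kI, not_lt.2 h1, not_lt.2 h2]
      · have : nr x y = -1 := by
          rw [nr, round_eq, Int.floor_eq_iff]
          push_cast
          constructor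
          · have : -1 ≤ (arg y - arg x) / (2 * Real.pi) := by
              rw [le_div_iff₀ (by positivity)]; linarith
            linarith
          · have : (arg y - arg x) / (2 * Real.pi) < -1 / 2 := by
              rw [div_lt_iff₀ (by positivity)]; linarith
            linarith
        rw [this]
        simp [kI, kR, hx, not_lt.2 h1, h2]
      · have : nr x y = 1 := by
          rw [nr, round_eq, Int.floor_eq_iff]
          push_cast
          constructor
          · have : 1 / 2 ≤ (arg y - arg x) / (2 * Real.pi) := by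
              rw [le_div_iff₀ (by positivity)]; linarith
            linarith
          · have : (arg y - arg x) / (2 * Real.pi) < 1 := by
              rw [div_lt_iff₀ (by positivity)]; linarith
            linarith
        rw [this]
        simp [kI, kR, hx, not_lt.2 h2, h1]
      · rw [nr_eq_zero (by linarith) (by linarith)]
        simp [kI, h1, h2]
    · exact absurd (Complex.ext hr hi) ha
    · refine ⟨{x | 0 < x.re}, (continuous_re.tendsto a).eventually (lt_mem_nhds hr),
        fun x hx y hy => ?_⟩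
      simp only [mem_ofPred_eq] at hx hy
      have h1 := abs_lt.1 (abs_arg_lt_pi_div_two_iff.2 (Or.inl hx))
      have h2 := abs_lt.1 (abs_arg_lt_pi_div_two_iff.2 (Or.inl hy))
      rw [nr_eq_zero (by linarith [h1.1, h1.2, h2.1, h2.2]) (by linarith [h1.1, h1.2, h2.1, h2.2])]
      simp [kR, not_lt.2 hx.le]
  · refine ⟨{x | 0 < x.im}, (continuous_im.tendsto a).eventually (lt_mem_nhds hi),
      fun x hx y hy => ?_⟩
    simp only [mem_ofPred_eq] at hx hy
    have h1 := arg_nonneg_iff.2 hx.le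
    have h2 := arg_nonneg_iff.2 hy.le
    have h3 : arg x < Real.pi := lt_of_le_of_ne (arg_le_pi x) fun h => by
      have := arg_eq_pi_iff.1 h
      linarith [this.2]
    have h4 : arg y < Real.pi := lt_of_le_of_ne (arg_le_pi y) fun h => by
      have := arg_eq_pi_iff.1 h
      linarith [this.2]
    rw [nr_eq_zero (by linarith) (by linarith)]
    simp [kI, not_lt.2 hx.le, not_lt.2 hy.le]

/-! ### the standard local cochains of a function `w : M → ℂ` -/

section loc

variable {M : Type*}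

/-- the local Alexander-Spanier representative of the class of a section `w` -/
def th (w : M → ℂ) : List M → ℤ := fun l => -dl (k2 fun x y => nr (w x) (w y)) l

/-- product of the two Heaviside coboundaries of `w` -/
def T2 (w : M → ℂ) : List M → ℤ :=
  cup 1 (dl (k1 fun x => kR (w x))) (dl (k1 fun x => kI (w x)))

/-- correction cochain, supported on `w = 0` -/
def be (w : M → ℂ) : List M → ℤ := fun l =>
  -k2 (fun x y => nr (w x) (w y)) l - cup 0 (k1 fun x => kR (w x)) (dl (k1 fun x => kI (w x))) l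

theorem th_eq (w : M → ℂ) (l : List M) (hl : l.length = 3) : th w l = T2 w l + dl (be w) l := by
  have h1 := dl_cup 0 (k1 fun x => kR (w x)) (dl (k1 fun x => kI (w x))) l (by omega)
  have h2 : cup 0 (k1 fun x => kR (w x)) (dl (dl (k1 fun x => kI (w x)))) l = 0 := by
    simp [cup, dl_dl]
  rw [h2] at h1
  have h3 : dl (be w) l = dl (fun l => -k2 (fun x y => nr (w x) (w y)) l) l -
      dl (cup 0 (k1 fun x => kR (w x)) (dl (k1 fun x => kI (w x)))) l := by
    rw [← dl_sub]; rfl
  rw [h3, dl_neg, h1, th, T2]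
  ring

open Classical in
/-- indicator of the real axis -/
def kZ (a : ℂ) : ℤ := if a.im = 0 then 1 else 0

theorem kR_conj (a : ℂ) : kR ((starRingEnd ℂ) a) = kR a := by simp [kR]

theorem kI_conj (a : ℂ) : kI ((starRingEnd ℂ) a) = 1 - kI a - kZ a := by
  unfold kI kZ
  rw [conj_im]
  rcases lt_trichotomy a.im 0 with h | h | h
  · simp [h, not_lt.2 h.le, h.ne]
  · simp [h]
  · simp [h, not_lt.2 h.le, h.ne']

/-- correction cochain for the conjugate -/
def ga (w : M → ℂ) : List M → ℤ := cup 1 (dl (k1 fun x => kR (w x))) (k1 fun x => kZ (w x))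

theorem T2_conj (w : M → ℂ) (l : List M) (hl : l.length = 3) :
    T2 (fun x => (starRingEnd ℂ) (w x)) l = -T2 w l + dl (ga w) l := by
  have h1 := dl_cup 1 (dl (k1 fun x => kR (w x))) (k1 fun x => kZ (w x)) l (by omega)
  have h2 : cup 2 (dl (dl (k1 fun x => kR (w x)))) (k1 fun x => kZ (w x)) l = 0 := by
    simp [cup, dl_dl]
  rw [show (1 + 1 : ℕ) = 2 from rfl, h2] at h1
  rw [ga, h1]
  obtain ⟨x, y, z, rfl⟩ := length_three hl
  simp only [T2, cup, List.take_succ_cons, List.take_zero, List.drop_succ_cons, List.drop_zero,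
    dl_k1, kR_conj, kI_conj]
  ring

variable [TopologicalSpace M]

theorem near_two_list {q : M} {P : M → M → Prop} {V : Set M} (hV : V ∈ 𝓝 q)
    (h : ∀ x ∈ V, ∀ y ∈ V, P x y) : Near q (fun l => ∀ x y, l = [x, y] → P x y) :=
  ⟨V, hV, fun l hl x y hxy => h x (hl x (by simp [hxy])) y (hl y (by simp [hxy]))⟩

theorem be_zero {w : M → ℂ} {q : M} (hc : ContinuousAt w q) (hq : w q ≠ 0) :
    GEq 2 (be w) (fun _ => 0) q := by
  obtain ⟨V, hV, h⟩ := nr_local hq
  refine (near_two_list (P := fun x y => -nr (w x) (w y) = kR (w x) * (kI (w y) - kI (w x)))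
    (hc hV) fun x hx y hy => h _ hx _ hy).mono fun l hl hlen => ?_
  obtain ⟨x, y, rfl⟩ := length_two hlen
  have := hl x y rfl
  simp only [be, k2_two, this, cup, List.take_succ_cons, List.take_zero, List.drop_zero, dl_k1,
    k1_one, sub_self]

theorem kR_near {w : M → ℂ} {q : M} (hc : ContinuousAt w q) (hq : (w q).re ≠ 0) :
    ∀ᶠ x in 𝓝 q, kR (w x) = kR (w q) := by
  have hc' : ContinuousAt (fun x => (w x).re) q := (continuous_re.continuousAt).comp hc
  rcases lt_or_gt_of_ne hq with h | h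
  · filter_upwards [hc'.eventually (gt_mem_nhds h)] with x hx
    simp [kR, hx, h]
  · filter_upwards [hc'.eventually (lt_mem_nhds h)] with x hx
    simp [kR, not_lt.2 (le_of_lt hx), not_lt.2 (le_of_lt h)]

theorem kI_near {w : M → ℂ} {q : M} (hc : ContinuousAt w q) (hq : (w q).im ≠ 0) :
    ∀ᶠ x in 𝓝 q, kI (w x) = kI (w q) := by
  have hc' : ContinuousAt (fun x => (w x).im) q := (continuous_im.continuousAt).comp hc
  rcases lt_or_gt_of_ne hq with h | h
  · filter_upwards [hc'.eventually (gt_mem_nhds h)] with x hx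
    simp [kI, hx, h]
  · filter_upwards [hc'.eventually (lt_mem_nhds h)] with x hx
    simp [kI, not_lt.2 (le_of_lt hx), not_lt.2 (le_of_lt h)]

theorem kZ_near {w : M → ℂ} {q : M} (hc : ContinuousAt w q) (hq : (w q).im ≠ 0) :
    ∀ᶠ x in 𝓝 q, kZ (w x) = 0 := by
  have hc' : ContinuousAt (fun x => (w x).im) q := (continuous_im.continuousAt).comp hc
  filter_upwards [hc'.eventually_ne hq] with x hx
  simp [kZ, hx]

theorem dl_k1_zero {K : M → ℤ} {q : M} (h : ∀ᶠ x in 𝓝 q, K x = K q) :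
    GEq 2 (dl (k1 K)) (fun _ => 0) q := by
  refine (near_of_eventually h).mono fun l hl hlen => ?_
  obtain ⟨x, y, rfl⟩ := length_two hlen
  rw [dl_k1, hl x (by simp), hl y (by simp), sub_self]

theorem k1_zero {K : M → ℤ} {q : M} (h : ∀ᶠ x in 𝓝 q, K x = 0) :
    GEq 1 (k1 K) (fun _ => 0) q := by
  refine (near_of_eventually h).mono fun l hl hlen => ?_
  match l, hlen with
  | [x], _ => exact hl x (by simp)

theorem re_or_im {a : ℂ} (ha : a ≠ 0) : a.re ≠ 0 ∨ a.im ≠ 0 := by
  by_contra h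
  push Not at h
  exact ha (Complex.ext h.1 h.2)

theorem T2_zero {w : M → ℂ} {q : M} (hc : ContinuousAt w q) (hq : w q ≠ 0) :
    GEq 3 (T2 w) (fun _ => 0) q := by
  rcases re_or_im hq with h | h
  · exact geq_cup_zero_left (p := 1) (q := 1) (dl_k1_zero (kR_near hc h))
  · exact geq_cup_zero_right (p := 1) (q := 1) (dl_k1_zero (kI_near hc h))

theorem ga_zero {w : M → ℂ} {q : M} (hc : ContinuousAt w q) (hq : w q ≠ 0) :
    GEq 2 (ga w) (fun _ => 0) q := by
  rcases re_or_im hq with h | h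
  · exact geq_cup_zero_left (p := 1) (q := 0) (dl_k1_zero (kR_near hc h))
  · exact geq_cup_zero_right (p := 1) (q := 0) (k1_zero (kZ_near hc h))

theorem geq_dl_zero {r : ℕ} {f : List M → ℤ} {q : M} (h : GEq r f (fun _ => 0) q) :
    GEq (r + 1) (dl f) (fun _ => 0) q :=
  h.dl.trans (near_true fun l _ => dl_zero l)

theorem geq_add_zero {r : ℕ} {f g : List M → ℤ} {q : M} (h : GEq r f (fun _ => 0) q)
    (h' : GEq r g (fun _ => 0) q) : GEq r (fun l => f l + g l) (fun _ => 0) q :=
  (GEq.add h h').trans (near_true fun _ _ => by simp)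

theorem th_zero {w : M → ℂ} {q : M} (hc : ContinuousAt w q) (hq : w q ≠ 0) :
    GEq 3 (th w) (fun _ => 0) q :=
  GEq.trans (near_true fun l hl => th_eq w l hl : GEq 3 (th w) (fun l => T2 w l + dl (be w) l) q)
    (geq_add_zero (T2_zero hc hq) (geq_dl_zero (be_zero hc hq)))

/-- `z` or its conjugate -/
def std (b : Bool) (z : M → ℂ) : M → ℂ := fun x => if b then z x else (starRingEnd ℂ) (z x)

/-- sign -/
def sgn (b : Bool) : ℤ := if b then 1 else -1

theorem th_std (b : Bool) (z : M → ℂ) : ∃ β : List M → ℤ,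
    (∀ l, l.length = 3 → th (std b z) l = sgn b * T2 z l + dl β l) ∧
    ∀ q, ContinuousAt z q → z q ≠ 0 → GEq 2 β (fun _ => 0) q := by
  cases b with
  | true =>
    refine ⟨be z, fun l hl => ?_, fun q hc hq => be_zero hc hq⟩
    have : (std true z) = z := by funext x; simp [std]
    rw [this, th_eq z l hl]
    simp [sgn]
  | false =>
    have e : (std false z) = fun x => (starRingEnd ℂ) (z x) := by funext x; simp [std]
    refine ⟨fun l => ga z l + be (fun x => (starRingEnd ℂ) (z x)) l, fun l hl => ?_,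
      fun q hc hq => geq_add_zero (ga_zero hc hq) (be_zero ?_ ?_)⟩
    · rw [e, th_eq _ l hl, T2_conj z l hl, dl_add]
      simp only [sgn]
      ring_nf
      simp
    · exact (Complex.continuous_conj.continuousAt).comp hc
    · simpa using hq

/-- the product cochain of two complex coordinates -/
def T4 (z w : M → ℂ) : List M → ℤ := cup 2 (T2 z) (T2 w)

theorem dl_T2 (z : M → ℂ) (l : List M) (hl : l.length = 4) : dl (T2 z) l = 0 := by
  rw [T2, dl_cup 1 _ _ l (by omega)]
  simp [cup, dl_dl]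

/-- **local class**: the product of the standard cochains of `std b z` and `w` is
`±` the product cochain up to the coboundary of a cochain supported at the common zeros -/
theorem th_cup (b : Bool) (z w : M → ℂ) : ∃ ψ : List M → ℤ,
    (∀ l, l.length = 5 → cup 2 (th (std b z)) (th w) l = sgn b * T4 z w l + dl ψ l) ∧
    ∀ q, ContinuousAt z q → ContinuousAt w q → (z q ≠ 0 ∨ w q ≠ 0) →
      GEq 4 ψ (fun _ => 0) q := by
  obtain ⟨β0, hβ0, hz0⟩ := th_std b z
  obtain ⟨β1, hβ1, hz1⟩ := th_std true w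
  have hw : std true w = w := by funext x; simp [std]
  rw [hw] at hβ1
  refine ⟨fun l => sgn b * cup 2 (T2 z) β1 l + cup 1 β0 (th w) l, fun l hl => ?_,
    fun q hc hc' hq => ?_⟩
  · rw [dl_add, dl_mul_left, dl_cup 2 _ _ l (by omega), dl_cup 1 _ _ l (by omega)]
    have e1 : cup (2 + 1) (dl (T2 z)) β1 l = 0 := by
      rw [cup, dl_T2 z _ (by simp [hl])]; simp
    have e2 : cup 1 β0 (dl (th w)) l = 0 := by
      have : ∀ m : List M, dl (th w) m = 0 := fun m => by
        unfold th; rw [dl_neg, dl_dl, neg_zero]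
      simp [cup, this]
    rw [e1, e2]
    have h1 := hβ0 (l.take 3) (by simp [hl])
    have h2 := hβ1 (l.drop 2) (by simp [hl])
    have h3 : th w (l.drop 2) = T2 w (l.drop 2) + dl β1 (l.drop 2) := by rw [h2]; simp [sgn]
    simp only [T4, cup, h1, h3, show (2 + 1 : ℕ) = 3 from rfl, show (1 + 1 : ℕ) = 2 from rfl]
    ring
  · refine geq_add_zero ?_ ?_
    · have : GEq 4 (cup 2 (T2 z) β1) (fun _ => 0) q := by
        rcases hq with hq | hq
        · exact geq_cup_zero_left (p := 2) (q := 1) (T2_zero hc hq)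
        · exact geq_cup_zero_right (p := 2) (q := 1) (hz1 q hc' hq)
      exact this.mono fun l hl hlen => by
        have := hl hlen
        beta_reduce at this ⊢
        rw [this, mul_zero]
    · rcases hq with hq | hq
      · exact geq_cup_zero_left (p := 1) (q := 2) (hz0 q hc hq)
      · exact geq_cup_zero_right (p := 1) (q := 2) (th_zero hc' hq)

theorem T4_zero {z w : M → ℂ} {q : M} (hc : ContinuousAt z q) (hc' : ContinuousAt w q)
    (hq : z q ≠ 0 ∨ w q ≠ 0) : GEq 5 (T4 z w) (fun _ => 0) q := by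
  rcases hq with hq | hq
  · exact geq_cup_zero_left (p := 2) (q := 2) (T2_zero hc hq)
  · exact geq_cup_zero_right (p := 2) (q := 2) (T2_zero hc' hq)

theorem Cl_T2 (z : M → ℂ) : Cl 3 (T2 z) := fun _ => near_true fun l hl => dl_T2 z l (by omega)

theorem Cl_T4 (z w : M → ℂ) : Cl 5 (T4 z w) := Cl.cup (p := 2) (q := 2) (Cl_T2 z) (Cl_T2 w)

/-! ### cutting off -/

open Classical in
/-- the cochain `f` on lists inside `V`, zero otherwise -/
def cut (V : Set M) (f : List M → ℤ) : List M → ℤ := fun l => if ∀ y ∈ l, y ∈ V then f l else 0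

theorem cut_mem {V : Set M} {f : List M → ℤ} {q : M} {r : ℕ} (h : V ∈ 𝓝 q) :
    GEq r (cut V f) f q := ⟨V, h, fun l hl _ => by rw [cut, if_pos hl]⟩

theorem cut_out {V : Set M} {f : List M → ℤ} {q : M} {r : ℕ} (h : q ∉ closure V) :
    GEq (r + 1) (cut V f) (fun _ => 0) q := by
  refine ⟨(closure V)ᶜ, isClosed_closure.isOpen_compl.mem_nhds h, fun l hl hlen => ?_⟩
  rw [cut, if_neg]
  intro hall
  match l, hlen with
  | x :: l, _ => exact hl x (by simp) (subset_closure (hall x (by simp)))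

theorem cut_zero {V : Set M} {f : List M → ℤ} {q : M} {r : ℕ} (h : GEq r f (fun _ => 0) q) :
    GEq r (cut V f) (fun _ => 0) q := by
  refine h.mono fun l hl hlen => ?_
  rw [cut]
  split_ifs with hc
  · exact hl hlen
  · rfl

/-- cut-off of a cochain supported (on `closure V`) at the point `p` only -/
theorem cut_cases {V : Set M} {p : M} (hV : V ∈ 𝓝 p) (q : M) :
    q = p ∨ (q ≠ p ∧ q ∈ closure V) ∨ q ∉ closure V := by
  by_cases h : q = p
  · exact Or.inl h
  · by_cases h' : q ∈ closure V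
    · exact Or.inr (Or.inl ⟨h, h'⟩)
    · exact Or.inr (Or.inr h')

theorem Cl_cut {V : Set M} {p : M} (hV : V ∈ 𝓝 p) {r : ℕ} {f : List M → ℤ} (hf : Cl (r + 1) f)
    (h : ∀ q ∈ closure V, q ≠ p → GEq (r + 1) f (fun _ => 0) q) : Cl (r + 1) (cut V f) := by
  intro q
  have key : ∀ g : List M → ℤ, GEq (r + 1) (cut V f) g q → GEq (r + 1 + 1) (dl g) (fun _ => 0) q →
      Near q (fun l => l.length = r + 1 + 1 → dl (cut V f) l = 0) := fun g h1 h2 =>
    h1.dl.trans h2
  rcases cut_cases hV q with rfl | ⟨h1, h2⟩ | h1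
  · exact key f (cut_mem hV) (hf q)
  · exact key _ (cut_zero (h q h2 h1)) (near_true fun l _ => dl_zero l)
  · exact key _ (cut_out h1) (near_true fun l _ => dl_zero l)

end loc

section assembly

variable {M : Type*} [TopologicalSpace M] {R : Type*} [AddCommGroup R] (O : OrE M R)

/-- data of a pair of coordinates near an isolated common zero -/
structure Iso (z w : M → ℂ) (p : M) (V : Set M) : Prop where
  nhd : V ∈ 𝓝 p
  ctz : ∀ q ∈ closure V, ContinuousAt z q
  ctw : ∀ q ∈ closure V, ContinuousAt w q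
  ne : ∀ q ∈ closure V, q ≠ p → z q ≠ 0 ∨ w q ≠ 0

theorem Iso.T4_zero {z w : M → ℂ} {p : M} {V : Set M} (h : Iso z w p V) {q : M}
    (hq : q ∈ closure V) (hqp : q ≠ p) : GEq 5 (T4 z w) (fun _ => 0) q :=
  LnkCup692.T4_zero (h.ctz q hq) (h.ctw q hq) (h.ne q hq hqp)

/-- the value on the cut-off product cochain does not depend on the cut-off -/
theorem E_cut_T4 {z w : M → ℂ} {p : M} {V V' : Set M} (h : Iso z w p V) (h' : Iso z w p V') :
    O.E (cut V (T4 z w)) = O.E (cut V' (T4 z w)) := by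
  refine O.congr (Cl_cut h.nhd (r := 4) (Cl_T4 z w) fun q hq hqp => h.T4_zero hq hqp) fun q => ?_
  by_cases hqp : q = p
  · subst hqp
    exact (cut_mem h.nhd).trans (cut_mem h'.nhd).symm
  · have z1 : GEq 5 (cut V (T4 z w)) (fun _ => 0) q := by
      by_cases hq : q ∈ closure V
      · exact cut_zero (h.T4_zero hq hqp)
      · exact cut_out (r := 4) hq
    have z2 : GEq 5 (cut V' (T4 z w)) (fun _ => 0) q := by
      by_cases hq : q ∈ closure V'
      · exact cut_zero (h'.T4_zero hq hqp)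
      · exact cut_out (r := 4) hq
    exact z1.trans z2.symm

/-- **localisation**: a closed cochain supported at finitely many points, where it is the product
of standard cochains, has value the sum of the signs -/
theorem E_eq_sum (D : List M → ℤ) (hD : Cl 5 D) (Z : Finset M) (V : M → Set M)
    (z w : M → M → ℂ) (sg : M → Bool)
    (hV : ∀ p ∈ Z, Iso (z p) (w p) p (V p))
    (hZ : ∀ p ∈ Z, ∀ q ∈ Z, q ∈ closure (V p) → q = p)
    (h0 : ∀ q, q ∉ Z → GEq 5 D (fun _ => 0) q)
    (h1 : ∀ p ∈ Z, GEq 5 D (cup 2 (th (std (sg p) (z p))) (th (w p))) p) :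
    O.E D = ∑ p ∈ Z, sgn (sg p) • O.E (cut (V p) (T4 (z p) (w p))) := by
  classical
  have hcut : ∀ p ∈ Z, Cl 5 (cut (V p) D) := fun p hp =>
    Cl_cut (hV p hp).nhd (r := 4) hD fun q hq hqp => h0 q fun hqZ => hqp (hZ p hp q hqZ hq)
  have e1 : O.E D = O.E (fun l => ∑ p ∈ Z, cut (V p) D l) := by
    refine O.congr hD fun q => ?_
    by_cases hq : q ∈ Z
    · have a1 : GEq 5 (cut (V q) D) D q := cut_mem (hV q hq).nhd
      have a2 : Near q (fun l => ∀ p ∈ Z.erase q, l.length = 5 → cut (V p) D l = 0) :=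
        near_finset _ fun p hp => by
          have hp' := Finset.mem_erase.1 hp
          exact cut_out (r := 4) fun hc => hp'.1 (hZ p hp'.2 q hq hc).symm
      refine (a1.and a2).mono fun l hl hlen => ?_
      beta_reduce
      rw [← Finset.add_sum_erase Z _ hq, Finset.sum_eq_zero fun p hp => hl.2 p hp hlen,
        hl.1 hlen, add_zero]
    · refine (h0 q hq).mono fun l hl hlen => ?_
      rw [hl hlen]
      symm
      refine Finset.sum_eq_zero fun p _ => ?_
      unfold cut
      split_ifs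
      · exact hl hlen
      · rfl
  rw [e1, O.sum Z hcut]
  refine Finset.sum_congr rfl fun p hp => ?_
  obtain ⟨ψ, hψ, hψ0⟩ := th_cup (sg p) (z p) (w p)
  have hI := hV p hp
  have hT : Cl 5 (cut (V p) (T4 (z p) (w p))) :=
    Cl_cut hI.nhd (r := 4) (Cl_T4 _ _) fun q hq hqp => hI.T4_zero hq hqp
  have e2 : O.E (cut (V p) D) = O.E (fun l => sgn (sg p) * cut (V p) (T4 (z p) (w p)) l) := by
    refine O.congr_dl (hcut p hp) (cut (V p) ψ) fun q => ?_
    rcases cut_cases hI.nhd q with rfl | ⟨c1, c2⟩ | c1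
    · have a1 : GEq 5 (cut (V q) D) D q := cut_mem hI.nhd
      have a2 : GEq 5 (cut (V q) (T4 (z q) (w q))) (T4 (z q) (w q)) q := cut_mem hI.nhd
      have a3 : GEq 5 (dl (cut (V q) ψ)) (dl ψ) q := (cut_mem (r := 4) hI.nhd).dl
      refine ((a1.and a2).and (a3.and (h1 q hp))).mono fun l hl hlen => ?_
      obtain ⟨⟨b1, b2⟩, b3, b4⟩ := hl
      rw [b3 hlen]
      beta_reduce
      rw [b1 hlen, b2 hlen, b4 hlen, hψ l hlen]
      ring
    · have a1 : GEq 5 (cut (V p) D) (fun _ => 0) q :=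
        cut_zero (h0 q fun hqZ => c1 (hZ p hp q hqZ c2))
      have a2 : GEq 5 (cut (V p) (T4 (z p) (w p))) (fun _ => 0) q := cut_zero (hI.T4_zero c2 c1)
      have a3 : GEq 5 (dl (cut (V p) ψ)) (fun _ => 0) q :=
        geq_dl_zero (cut_zero (hψ0 q (hI.ctz q c2) (hI.ctw q c2) (hI.ne q c2 c1)))
      refine ((a1.and a2).and a3).mono fun l hl hlen => ?_
      rw [hl.2 hlen]
      beta_reduce
      rw [hl.1.1 hlen, hl.1.2 hlen]
      simp
    · have a1 : GEq 5 (cut (V p) D) (fun _ => 0) q := cut_out (r := 4) c1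
      have a2 : GEq 5 (cut (V p) (T4 (z p) (w p))) (fun _ => 0) q := cut_out (r := 4) c1
      have a3 : GEq 5 (dl (cut (V p) ψ)) (fun _ => 0) q :=
        geq_dl_zero (cut_out (r := 3) c1)
      refine ((a1.and a2).and a3).mono fun l hl hlen => ?_
      rw [hl.2 hlen]
      beta_reduce
      rw [hl.1.1 hlen, hl.1.2 hlen]
      simp
  rw [e2]
  cases sg p with
  | true =>
    have : (fun l => sgn true * cut (V p) (T4 (z p) (w p)) l) = cut (V p) (T4 (z p) (w p)) := by
      funext l; simp [sgn]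
    rw [this]; simp [sgn]
  | false =>
    have : (fun l => sgn false * cut (V p) (T4 (z p) (w p)) l) =
        fun l => -cut (V p) (T4 (z p) (w p)) l := by
      funext l; simp [sgn]
    rw [this, O.neg hT]; simp [sgn]

end assembly

end

end Crest.Agent.R275.LnkCup692
end

-- ▼ part R275/LnkCupB_692

set_option autoImplicit false
set_option linter.unusedSectionVars false
set_option linter.unusedVariables false

open Set Filter Topology Complex
open Crest.Agent.R275.ASZ627

namespace Crest.Agent.R275.LnkCup692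

noncomputable section

variable {M : Type*} [TopologicalSpace M] {ι : Type*}

/-- robust labels: near every `p` only finitely many labels occur, all of charts containing `p` -/
def RLab (U : ι → Set M) (lab : M → ι) : Prop :=
  ∀ p, ∃ S : Finset ι, (∀ i ∈ S, p ∈ U i) ∧ ∀ᶠ x in 𝓝 p, lab x ∈ S

/-- logarithms (in turns) of a unitary line bundle cocycle and their integral Cech cocycle -/
structure LogC (U : ι → Set M) (φ : ι → ι → M → ℝ) (c : ι → ι → ι → ℤ) : Prop where
  cont : ∀ i j, ContinuousOn (φ i j) (U i ∩ U j)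
  coc : ∀ i j k, ∀ x ∈ U i ∩ U j ∩ U k, φ j k x - φ i k x + φ i j x = c i j k

/-- sections up to positive factors -/
structure SecC (U : ι → Set M) (φ : ι → ι → M → ℝ) (s : ι → M → ℂ) : Prop where
  cont : ∀ i, ContinuousOn (s i) (U i)
  tr : ∀ i j, ∀ x ∈ U i ∩ U j, ∃ r : ℝ, 0 < r ∧
    s i x = r * exp (2 * Real.pi * φ i j x * I) * s j x

/-- label pull-back of a Cech 2-cochain -/
def lp (lab : M → ι) (c : ι → ι → ι → ℤ) : List M → ℤ := fun l => k3 c (l.map lab)

theorem length_four {X : Type*} {l : List X} (h : l.length = 4) : ∃ x y z w, l = [x, y, z, w] := by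
  match l, h with
  | [x, y, z, w], _ => exact ⟨x, y, z, w, rfl⟩

section labels

variable {U : ι → Set M} {φ : ι → ι → M → ℝ} {c : ι → ι → ι → ℤ}

theorem LogC.dl_zero (h : LogC U φ c) {m : List ι} (hm : m.length = 4) {p : M}
    (hp : ∀ i ∈ m, p ∈ U i) : dl (k3 c) m = 0 := by
  obtain ⟨i, j, k, l, rfl⟩ := length_four hm
  have hi := hp i (by simp)
  have hj := hp j (by simp)
  have hk := hp k (by simp)
  have hl := hp l (by simp)
  have e1 := h.coc j k l p ⟨⟨hj, hk⟩, hl⟩
  have e2 := h.coc i k l p ⟨⟨hi, hk⟩, hl⟩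
  have e3 := h.coc i j l p ⟨⟨hi, hj⟩, hl⟩
  have e4 := h.coc i j k p ⟨⟨hi, hj⟩, hk⟩
  have e5 : ((c j k l - c i k l + c i j l - c i j k : ℤ) : ℝ) = 0 := by
    push_cast
    rw [← e1, ← e2, ← e3, ← e4]
    ring
  have e6 : c j k l - c i k l + c i j l - c i j k = 0 := by exact_mod_cast e5
  simp only [dl_cons, dl_nil, k3_three]
  linear_combination e6

theorem LogC.Cl_lp (h : LogC U φ c) {lab : M → ι} (hlab : RLab U lab) : Cl 3 (lp lab c) := by
  intro p
  obtain ⟨S, hS, hev⟩ := hlab p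
  refine (near_of_eventually hev).mono fun l hl hlen => ?_
  have e : dl (lp lab c) l = dl (k3 c) (l.map lab) := dl_map lab (k3 c) l
  rw [e]
  refine h.dl_zero (p := p) (by simpa using hlen) fun i hi => ?_
  obtain ⟨x, hx, rfl⟩ := List.mem_map.1 hi
  exact hS _ (hl x hx)

/-- changing the labels changes the cocycle by a coboundary -/
theorem LogC.lp_sub (h : LogC U φ c) {lab lab' : M → ι} (hlab : RLab U lab)
    (hlab' : RLab U lab') (p : M) :
    GEq 3 (fun l => lp lab c l - lp lab' c l) (dl (pr lab' lab (k3 c))) p := by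
  obtain ⟨S, hS, hev⟩ := hlab p
  obtain ⟨S', hS', hev'⟩ := hlab' p
  refine ((near_of_eventually hev).and (near_of_eventually hev')).mono fun l hl hlen => ?_
  have e := homotopy lab' lab (k3 c) l
  have e0 : pr lab' lab (dl (k3 c)) l = 0 := by
    refine pr_eq_zero fun m h1 _ h3 => h.dl_zero (p := p) (by omega) fun i hi => ?_
    obtain ⟨x, hx, hx'⟩ := h1 i hi
    rcases hx' with rfl | rfl
    · exact hS' _ (hl.2 x hx)
    · exact hS _ (hl.1 x hx)
  rw [e0, add_zero] at e
  rw [e]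
  rfl

end labels

/-! ### the rounding cochain of a section -/

/-- change of the argument of the section between `x` (frame `i`) and `y` (frame `j`), in turns -/
def Fr (φ : ι → ι → M → ℝ) (s : ι → M → ℂ) (i j : ι) (x y : M) : ℝ :=
  (arg (s j y) - arg (s i x)) / (2 * Real.pi) + φ i j y

/-- the rounding `1`-cochain of a section -/
def Nc (φ : ι → ι → M → ℝ) (s : ι → M → ℂ) (lab : M → ι) : List M → ℤ :=
  k2 fun x y => round (Fr φ s (lab x) (lab y) x y)

/-- the representative supported on the zeros of the section -/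
def cS (φ : ι → ι → M → ℝ) (c : ι → ι → ι → ℤ) (s : ι → M → ℂ) (lab : M → ι) : List M → ℤ :=
  fun l => lp lab c l - dl (Nc φ s lab) l

section sections

variable {U : ι → Set M} {φ : ι → ι → M → ℝ} {c : ι → ι → ι → ℤ} {s : ι → M → ℂ}

theorem exists_int (hs : SecC U φ s) {i j : ι} {x y : M} (hy : y ∈ U i ∩ U j)
    (h1 : s i x ≠ 0) (h2 : s i y ≠ 0) :
    ∃ m : ℤ, Fr φ s i j x y = m + arg (s i y / s i x) / (2 * Real.pi) := by
  obtain ⟨r, hr, e⟩ := hs.tr i j y hy
  have hj : s j y ≠ 0 := by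
    rintro h0
    rw [h0, mul_zero] at e
    exact h2 e
  set F := Fr φ s i j x y with hF
  have hpi : (Real.pi : ℂ) ≠ 0 := by exact_mod_cast Real.pi_ne_zero
  have a1 := norm_mul_exp_arg_mul_I (s j y)
  have a2 := norm_mul_exp_arg_mul_I (s i x)
  have a3 := norm_mul_exp_arg_mul_I (s i y / s i x)
  have n1 : ((‖s j y‖ : ℝ) : ℂ) ≠ 0 := by exact_mod_cast (norm_pos_iff.2 hj).ne'
  have n2 : ((‖s i x‖ : ℝ) : ℂ) ≠ 0 := by exact_mod_cast (norm_pos_iff.2 h1).ne'
  have hr' : (r : ℂ) ≠ 0 := by exact_mod_cast hr.ne'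
  -- the quotient
  have q1 : s i y / s i x = ((r * ‖s j y‖ / ‖s i x‖ : ℝ) : ℂ) *
      exp (((2 * Real.pi * F : ℝ) : ℂ) * I) := by
    have hFe : ((2 * Real.pi * F : ℝ) : ℂ) * I = arg (s j y) * I - arg (s i x) * I +
        2 * Real.pi * φ i j y * I := by
      rw [hF, Fr]
      push_cast
      field_simp
    rw [hFe, exp_add, exp_sub, div_eq_iff h1]
    have n3 : exp (arg (s i x) * I) ≠ 0 := exp_ne_zero _
    push_cast
    calc s i y = r * exp (2 * Real.pi * φ i j y * I) * s j y := e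
      _ = r * exp (2 * Real.pi * φ i j y * I) * (‖s j y‖ * exp (arg (s j y) * I)) := by rw [a1]
      _ = (r * ‖s j y‖ / ‖s i x‖ : ℂ) * (exp (arg (s j y) * I) / exp (arg (s i x) * I) *
            exp (2 * Real.pi * φ i j y * I)) * (‖s i x‖ * exp (arg (s i x) * I)) := by
          field_simp
      _ = _ := by rw [a2]
  have q2 : ‖s i y / s i x‖ = r * ‖s j y‖ / ‖s i x‖ := by
    rw [q1, norm_mul, norm_exp_ofReal_mul_I, mul_one, norm_real, Real.norm_of_nonneg (by positivity)]
  have n4 : ((‖s i y / s i x‖ : ℝ) : ℂ) ≠ 0 := by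
    exact_mod_cast (norm_pos_iff.2 (div_ne_zero h2 h1)).ne'
  have q3 : exp (arg (s i y / s i x) * I) = exp (((2 * Real.pi * F : ℝ) : ℂ) * I) := by
    apply mul_left_cancel₀ n4
    rw [a3]
    conv_rhs => rw [q2]
    exact q1
  rw [exp_eq_exp_iff_exists_int] at q3
  obtain ⟨n, hn⟩ := q3
  refine ⟨-n, ?_⟩
  have h4 : (arg (s i y / s i x) : ℂ) = ((2 * Real.pi * F + n * (2 * Real.pi) : ℝ) : ℂ) := by
    apply mul_right_cancel₀ I_ne_zero
    rw [hn]
    push_cast
    ring
  have h5 : arg (s i y / s i x) = 2 * Real.pi * F + n * (2 * Real.pi) := by exact_mod_cast h4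
  rw [h5]
  have hpi' := Real.pi_ne_zero
  push_cast
  field_simp
  ring

/-- near a point where the section does not vanish, `Fr` is close to an integer -/
theorem Fr_near (hU : ∀ i, IsOpen (U i)) (hs : SecC U φ s) {i j : ι} {p : M} (hi : p ∈ U i)
    (hj : p ∈ U j) (h0 : s i p ≠ 0) :
    ∀ᶠ q : M × M in 𝓝 p ×ˢ 𝓝 p,
      |Fr φ s i j q.1 q.2 - round (Fr φ s i j q.1 q.2)| < 1 / 8 := by
  have hc : ContinuousAt (s i) p := (hs.cont i).continuousAt ((hU i).mem_nhds hi)
  have e1 : ∀ᶠ x in 𝓝 p, s i x ≠ 0 := hc.eventually_ne h0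
  have e2 : ∀ᶠ y in 𝓝 p, y ∈ U i ∩ U j :=
    ((hU i).inter (hU j)).mem_nhds ⟨hi, hj⟩
  have e3 : Tendsto (fun q : M × M => s i q.2 / s i q.1) (𝓝 p ×ˢ 𝓝 p) (𝓝 (s i p / s i p)) :=
    (hc.tendsto.comp tendsto_snd).div (hc.tendsto.comp tendsto_fst) h0
  rw [div_self h0] at e3
  have e4 : ContinuousAt arg (1 : ℂ) := continuousAt_arg (by simp [slitPlane])
  have e5 := e4.tendsto.comp e3
  rw [arg_one] at e5
  have hpi := Real.pi_pos
  have e6 : ∀ᶠ q : M × M in 𝓝 p ×ˢ 𝓝 p, |arg (s i q.2 / s i q.1)| < Real.pi / 4 := by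
    have := e5.eventually (Metric.ball_mem_nhds (0 : ℝ) (show 0 < Real.pi / 4 by positivity))
    filter_upwards [this] with q hq
    simpa [Real.dist_eq] using hq
  filter_upwards [e6, e1.prod_inl (𝓝 p), (e1.and e2).prod_inr (𝓝 p)] with q h1 h2 h3
  obtain ⟨m, hm⟩ := exists_int hs (x := q.1) h3.2 h2 h3.1
  refine lt_of_le_of_lt (round_le _ m) ?_
  rw [hm]
  rw [abs_lt] at h1
  rw [add_sub_cancel_left, abs_lt]
  constructor
  · rw [lt_div_iff₀ (by positivity)]; linarith [h1.1]
  · rw [div_lt_iff₀ (by positivity)]; linarith [h1.2]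

theorem phi_near (hU : ∀ i, IsOpen (U i)) (hφ : LogC U φ c) {i j : ι} {p : M} (hi : p ∈ U i)
    (hj : p ∈ U j) : ∀ᶠ q : M × M in 𝓝 p ×ˢ 𝓝 p, |φ i j q.1 - φ i j q.2| < 1 / 8 := by
  have hc : ContinuousAt (φ i j) p :=
    (hφ.cont i j).continuousAt (((hU i).inter (hU j)).mem_nhds ⟨hi, hj⟩)
  have e3 : Tendsto (fun q : M × M => φ i j q.1 - φ i j q.2) (𝓝 p ×ˢ 𝓝 p)
      (𝓝 (φ i j p - φ i j p)) :=
    (hc.tendsto.comp tendsto_fst).sub (hc.tendsto.comp tendsto_snd)
  rw [sub_self] at e3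
  have := e3.eventually (Metric.ball_mem_nhds (0 : ℝ) (show (0 : ℝ) < 1 / 8 by norm_num))
  filter_upwards [this] with q hq
  simpa [Real.dist_eq] using hq

/-- **the cocycle `cS` vanishes near every point where the section does not vanish** -/
theorem cS_zero (hU : ∀ i, IsOpen (U i)) (hφ : LogC U φ c) (hs : SecC U φ s) {lab : M → ι}
    (hlab : RLab U lab) {p : M} (h0 : ∀ i, p ∈ U i → s i p ≠ 0) :
    GEq 3 (cS φ c s lab) (fun _ => 0) p := by
  obtain ⟨S, hS, hev⟩ := hlab p
  have e1 : ∀ᶠ q : M × M in 𝓝 p ×ˢ 𝓝 p, ∀ ij ∈ S ×ˢ S,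
      |Fr φ s ij.1 ij.2 q.1 q.2 - round (Fr φ s ij.1 ij.2 q.1 q.2)| < 1 / 8 ∧
      |φ ij.1 ij.2 q.1 - φ ij.1 ij.2 q.2| < 1 / 8 := by
    refine (Finset.eventually_all _).2 fun ij hij => ?_
    rw [Finset.mem_product] at hij
    exact (Fr_near hU hs (hS _ hij.1) (hS _ hij.2) (h0 _ (hS _ hij.1))).and
      (phi_near hU hφ (hS _ hij.1) (hS _ hij.2))
  obtain ⟨V, hV, hP⟩ := Filter.eventually_prod_self_iff'.1 e1
  have e2 : ∀ᶠ x in 𝓝 p, x ∈ V ∧ lab x ∈ S ∧ ∀ i ∈ S, x ∈ U i := by
    refine (eventually_mem_set.2 hV).and (hev.and ((Finset.eventually_all S).2 fun i hi => ?_))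
    exact (hU i).mem_nhds (hS i hi)
  refine (near_of_eventually e2).mono fun l hl hlen => ?_
  obtain ⟨x, y, z, rfl⟩ := length_three hlen
  obtain ⟨hx, hxS, hxU⟩ := hl x (by simp)
  obtain ⟨hy, hyS, hyU⟩ := hl y (by simp)
  obtain ⟨hz, hzS, hzU⟩ := hl z (by simp)
  have f1 := (hP y hy z hz (lab y, lab z) (Finset.mk_mem_product hyS hzS)).1
  have f2 := (hP x hx z hz (lab x, lab z) (Finset.mk_mem_product hxS hzS)).1
  have f3 := (hP x hx y hy (lab x, lab y) (Finset.mk_mem_product hxS hyS)).1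
  have f4 := (hP y hy z hz (lab x, lab y) (Finset.mk_mem_product hxS hyS)).2
  have f5 := hφ.coc (lab x) (lab y) (lab z) z ⟨⟨hzU _ hxS, hzU _ hyS⟩, hzU _ hzS⟩
  simp only [cS, lp, Nc, List.map_cons, List.map_nil, k3_three, dl_k2]
  simp only at f1 f2 f3 f4
  set N1 := round (Fr φ s (lab y) (lab z) y z) with hN1
  set N2 := round (Fr φ s (lab x) (lab z) x z) with hN2
  set N3 := round (Fr φ s (lab x) (lab y) x y) with hN3
  have g : Fr φ s (lab y) (lab z) y z - Fr φ s (lab x) (lab z) x z + Fr φ s (lab x) (lab y) x y =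
      c (lab x) (lab y) (lab z) + (φ (lab x) (lab y) y - φ (lab x) (lab y) z) := by
    rw [← f5]; unfold Fr; ring
  rw [abs_lt] at f1 f2 f3 f4
  have k : |((c (lab x) (lab y) (lab z) - (N1 - N2 + N3) : ℤ) : ℝ)| < 1 := by
    push_cast
    rw [abs_lt]
    constructor <;> linarith [f1.1, f1.2, f2.1, f2.2, f3.1, f3.2, f4.1, f4.2]
  have k' : |c (lab x) (lab y) (lab z) - (N1 - N2 + N3)| < 1 := by exact_mod_cast k
  exact Int.abs_lt_one_iff.1 k'

/-- **near a point where the labels are constant, `cS` is the standard cocycle** -/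
theorem cS_std (hφ : LogC U φ c) {lab : M → ι} {k : ι} {p : M} (hU : IsOpen (U k))
    (hk : p ∈ U k) (h : ∀ᶠ x in 𝓝 p, lab x = k) :
    GEq 3 (cS φ c s lab) (th (s k)) p := by
  have e2 : ∀ᶠ x in 𝓝 p, lab x = k ∧ x ∈ U k := h.and (hU.mem_nhds hk)
  refine (near_of_eventually e2).mono fun l hl hlen => ?_
  obtain ⟨x, y, z, rfl⟩ := length_three hlen
  obtain ⟨hx, hxU⟩ := hl x (by simp)
  obtain ⟨hy, hyU⟩ := hl y (by simp)
  obtain ⟨hz, hzU⟩ := hl z (by simp)
  have f : ∀ v ∈ U k, φ k k v = c k k k := fun v hv => by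
    have := hφ.coc k k k v ⟨⟨hv, hv⟩, hv⟩
    linarith
  have g : ∀ u v, v ∈ U k → round (Fr φ s k k u v) = nr (s k u) (s k v) + c k k k := by
    intro u v hv
    rw [Fr, f v hv, round_add_intCast, nr]
  simp only [cS, lp, Nc, List.map_cons, List.map_nil, k3_three, dl_k2, th, hx, hy, hz]
  rw [g y z hzU, g x z hzU, g x y hyU]
  ring

theorem cS_Cl (hφ : LogC U φ c) {lab : M → ι} (hlab : RLab U lab) : Cl 3 (cS φ c s lab) :=
  (hφ.Cl_lp hlab).sub (Cl.dl 3 _)

theorem lp_sub_cS (φ : ι → ι → M → ℝ) (c : ι → ι → ι → ℤ) (s : ι → M → ℂ) (lab : M → ι)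
    (x : M) : GEq 3 (fun l => lp lab c l - cS φ c s lab l) (dl (Nc φ s lab)) x :=
  near_true fun l _ => by simp only [cS]; ring

end sections

/-! ### adapted labels -/

open Classical in
/-- the labels are changed to `cc p` on `V p` -/
def adl (lab : M → ι) (Z : Finset M) (V : M → Set M) (cc : M → ι) : M → ι := fun x =>
  if h : ∃ p ∈ Z, x ∈ V p then cc h.choose else lab x

theorem adl_mem {lab : M → ι} {Z : Finset M} {V : M → Set M} {cc : M → ι}
    (hd : ∀ p ∈ Z, ∀ q ∈ Z, (V p ∩ V q).Nonempty → p = q) {p x : M} (hp : p ∈ Z) (hx : x ∈ V p) :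
    adl lab Z V cc x = cc p := by
  have h : ∃ p ∈ Z, x ∈ V p := ⟨p, hp, hx⟩
  rw [adl, dif_pos h]
  obtain ⟨h1, h2⟩ := h.choose_spec
  rw [hd _ h1 _ hp ⟨x, h2, hx⟩]

theorem adl_or {lab : M → ι} {Z : Finset M} {V : M → Set M} {cc : M → ι} (x : M) :
    (∃ p ∈ Z, x ∈ V p ∧ adl lab Z V cc x = cc p) ∨ adl lab Z V cc x = lab x := by
  by_cases h : ∃ p ∈ Z, x ∈ V p
  · left
    obtain ⟨h1, h2⟩ := h.choose_spec
    exact ⟨_, h1, h2, by rw [adl, dif_pos h]⟩
  · right
    rw [adl, dif_neg h]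

theorem RLab_adl {U : ι → Set M} {lab : M → ι} (hlab : RLab U lab) {Z : Finset M}
    {V : M → Set M} {cc : M → ι} (hV : ∀ p ∈ Z, closure (V p) ⊆ U (cc p)) :
    RLab U (adl lab Z V cc) := by
  classical
  intro q
  obtain ⟨S, hS, hev⟩ := hlab q
  refine ⟨S ∪ (Z.filter fun p => q ∈ closure (V p)).image cc, fun i hi => ?_, ?_⟩
  · rcases Finset.mem_union.1 hi with hi | hi
    · exact hS i hi
    · obtain ⟨p, hp, rfl⟩ := Finset.mem_image.1 hi
      rw [Finset.mem_filter] at hp
      exact hV p hp.1 hp.2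
  · have e : ∀ᶠ x in 𝓝 q, ∀ p ∈ Z, q ∉ closure (V p) → x ∉ V p := by
      refine (Finset.eventually_all Z).2 fun p hp => ?_
      by_cases h : q ∈ closure (V p)
      · exact Eventually.of_forall fun x h' => absurd h h'
      · filter_upwards [isClosed_closure.isOpen_compl.mem_nhds h] with x hx _ hxV
        exact hx (subset_closure hxV)
    filter_upwards [hev, e] with x h1 h2
    rcases adl_or (lab := lab) (Z := Z) (V := V) (cc := cc) x with ⟨p, hp, hx, he⟩ | he
    · rw [he]
      refine Finset.mem_union_right _ (Finset.mem_image.2 ⟨p, ?_, rfl⟩)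
      rw [Finset.mem_filter]
      exact ⟨hp, by_contra fun hc => h2 p hp hc hx⟩
    · rw [he]
      exact Finset.mem_union_left _ h1

/-! ### the abstract theorem -/

/-- **cup side of LINK, abstract form** -/
theorem linkCup_abs [T3Space M] {R : Type*} [AddCommGroup R] (O : OrE M R) {U : ι → Set M}
    (hU : ∀ i, IsOpen (U i)) (hcov : ∀ x, ∃ i, x ∈ U i) {lab : M → ι} (hlab : RLab U lab)
    {φ φ' : ι → ι → M → ℝ} {c c' : ι → ι → ι → ℤ} (hφ : LogC U φ c) (hφ' : LogC U φ' c')
    {s s' : ι → M → ℂ} (hs : SecC U φ s) (hs' : SecC U φ' s') (Z : Finset M)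
    (hZ : ∀ i, ∀ x ∈ U i, (s i x = 0 ∧ s' i x = 0) ↔ x ∈ Z) (cc : M → ι)
    (mem : ∀ p ∈ Z, p ∈ U (cc p)) (z w : M → M → ℂ) (sg : M → Bool)
    (hstd : ∀ p ∈ Z, ∀ᶠ x in 𝓝 p, s (cc p) x = std (sg p) (z p) x ∧ s' (cc p) x = w p x)
    (W : M → Set M) (hW : ∀ p ∈ Z, Iso (z p) (w p) p (W p)) :
    O.E (cup 2 (lp lab c) (lp lab c')) =
      ∑ p ∈ Z, sgn (sg p) • O.E (cut (W p) (T4 (z p) (w p))) := by
  classical
  -- small disjoint neighbourhoods
  have hsep : ∃ V : M → Set M, ∀ p ∈ Z, V p ∈ 𝓝 p ∧ closure (V p) ⊆ U (cc p) ∧ V p ⊆ W p ∧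
      ∀ q ∈ Z, q ≠ p → Disjoint (closure (V p)) (closure (V q)) := by
    obtain ⟨V0, hV0, hd0⟩ := Z.finite_toSet.t2_separation
    have h1 : ∀ p : M, ∃ V : Set M, p ∈ Z → V ∈ 𝓝 p ∧ closure V ⊆ V0 p ∩ U (cc p) ∧
        V ⊆ W p := by
      intro p
      by_cases hp : p ∈ Z
      · have h2 : V0 p ∩ U (cc p) ∩ W p ∈ 𝓝 p :=
          inter_mem (inter_mem ((hV0 p).2.mem_nhds (hV0 p).1) ((hU _).mem_nhds (mem p hp)))
            (hW p hp).nhd
        obtain ⟨V, hV, hVc, hVs⟩ := exists_mem_nhds_isClosed_subset h2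
        refine ⟨V, fun _ => ⟨hV, ?_, fun x hx => (hVs hx).2⟩⟩
        rw [hVc.closure_eq]
        exact fun x hx => (hVs hx).1
      · exact ⟨∅, fun h => absurd h hp⟩
    choose V hV using h1
    refine ⟨V, fun p hp => ⟨(hV p hp).1, (hV p hp).2.1.trans inter_subset_right,
      (hV p hp).2.2, fun q hq hqp => ?_⟩⟩
    have h3 : Disjoint (V0 p) (V0 q) := hd0 hp hq (Ne.symm hqp)
    exact h3.mono ((hV p hp).2.1.trans inter_subset_left) ((hV q hq).2.1.trans inter_subset_left)
  obtain ⟨V, hV⟩ := hsep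
  have hself : ∀ p ∈ Z, p ∈ V p := fun p hp => mem_of_mem_nhds (hV p hp).1
  have hd : ∀ p ∈ Z, ∀ q ∈ Z, (V p ∩ V q).Nonempty → p = q := by
    rintro p hp q hq ⟨x, hx1, hx2⟩
    by_contra hne
    exact disjoint_left.1 ((hV p hp).2.2.2 q hq (Ne.symm hne)) (subset_closure hx1)
      (subset_closure hx2)
  set lab' := adl lab Z V cc with hlab'def
  have hlab' : RLab U lab' := RLab_adl hlab fun p hp => (hV p hp).2.1
  have hconst : ∀ p ∈ Z, ∀ᶠ x in 𝓝 p, lab' x = cc p := fun p hp => by
    filter_upwards [(hV p hp).1] with x hx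
    exact adl_mem hd hp hx
  -- step 1: labels
  have s1 : O.E (cup 2 (lp lab c) (lp lab c')) = O.E (cup 2 (lp lab' c) (lp lab' c')) :=
    O.cup_congr (hφ.Cl_lp hlab) (hφ.Cl_lp hlab') (hφ'.Cl_lp hlab)
      (fun x => hφ.lp_sub hlab hlab' x) (fun x => hφ'.lp_sub hlab hlab' x)
  -- step 2: sections
  have s2 : O.E (cup 2 (lp lab' c) (lp lab' c')) =
      O.E (cup 2 (cS φ c s lab') (cS φ' c' s' lab')) :=
    O.cup_congr (hφ.Cl_lp hlab') (cS_Cl hφ hlab') (hφ'.Cl_lp hlab')
      (lp_sub_cS φ c s lab') (lp_sub_cS φ' c' s' lab')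
  have hIso : ∀ p ∈ Z, Iso (z p) (w p) p (V p) := fun p hp =>
    { nhd := (hV p hp).1
      ctz := fun q hq => (hW p hp).ctz q (closure_mono (hV p hp).2.2.1 hq)
      ctw := fun q hq => (hW p hp).ctw q (closure_mono (hV p hp).2.2.1 hq)
      ne := fun q hq => (hW p hp).ne q (closure_mono (hV p hp).2.2.1 hq) }
  -- step 3: localisation
  have zero_all : ∀ {ψ : ι → ι → M → ℝ} {t : ι → M → ℂ}, SecC U ψ t → ∀ {i j : ι} {x : M},
      x ∈ U i → x ∈ U j → t i x = 0 → t j x = 0 := by
    intro ψ t ht i j x hi hj h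
    obtain ⟨r, hr, e⟩ := ht.tr j i x ⟨hj, hi⟩
    rw [e, h, mul_zero]
  have s3 := E_eq_sum O (cup 2 (cS φ c s lab') (cS φ' c' s' lab'))
    (Cl.cup (p := 2) (q := 2) (cS_Cl hφ hlab') (cS_Cl hφ' hlab')) Z V z w sg hIso
    (fun p hp q hq hqc => by
      by_contra hne
      exact disjoint_left.1 ((hV p hp).2.2.2 q hq hne) hqc (subset_closure (hself q hq)))
    (fun q hq => by
      obtain ⟨i, hi⟩ := hcov q
      by_cases h : s i q = 0
      · have h' : s' i q ≠ 0 := fun h' => hq ((hZ i q hi).1 ⟨h, h'⟩)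
        exact geq_cup_zero_right (p := 2) (q := 2)
          (cS_zero hU hφ' hs' hlab' fun j hj hz => h' (zero_all hs' hj hi hz))
      · exact geq_cup_zero_left (p := 2) (q := 2)
          (cS_zero hU hφ hs hlab' fun j hj hz => h (zero_all hs hj hi hz)))
    (fun p hp => by
      have e1 := cS_std (s := s) hφ (hU _) (mem p hp) (hconst p hp)
      have e2 := cS_std (s := s') hφ' (hU _) (mem p hp) (hconst p hp)
      have e3 : GEq 3 (th (s (cc p))) (th (std (sg p) (z p))) p := by
        refine (near_of_eventually ((hstd p hp).mono fun x hx => hx.1)).mono fun l hl hlen => ?_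
        obtain ⟨x, y, v, rfl⟩ := length_three hlen
        simp only [th, dl_k2, hl x (by simp), hl y (by simp), hl v (by simp)]
      have e4 : GEq 3 (th (s' (cc p))) (th (w p)) p := by
        refine (near_of_eventually ((hstd p hp).mono fun x hx => hx.2)).mono fun l hl hlen => ?_
        obtain ⟨x, y, v, rfl⟩ := length_three hlen
        simp only [th, dl_k2, hl x (by simp), hl y (by simp), hl v (by simp)]
      exact GEq.cup (p := 2) (q := 2) (e1.trans e3) (e2.trans e4))
  rw [s1, s2, s3]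
  refine Finset.sum_congr rfl fun p hp => ?_
  rw [E_cut_T4 O (hIso p hp) (hW p hp)]

end

end Crest.Agent.R275.LnkCup692
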