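import Mathlib
import Crest.Prelude.Def_ComplexSurface
import Crest.Agent.R275.GeoVB_509
import Crest.Agent.R275.LnkD1_476
import Crest.Agent.R266.Osgood

-- ▼ part R275/Std_880
section

/-!
R275 (S0418), helper880, block LINK, leaf LK1: standard form of a regular zero of a smooth map
`ℂ² → ℂ²`, by a modification near the zero.
-/

set_option autoImplicit false
set_option linter.unusedSectionVars false

open Set Filter Topology Metric Matrix
open Crest.AlgGeometry.Surface
open scoped Manifold ContDiff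

noncomputable section

namespace Crest.Agent.R275.Std880

/-! ### Chains of segments of invertible matrices -/

section Mat

abbrev M4 := Matrix (Fin 4) (Fin 4) ℝ

/-- the segment from `A` to `B` consists of invertible matrices -/
def Seg (A B : M4) : Prop := ∀ s ∈ Icc (0 : ℝ) 1, ((1 - s) • A + s • B).det ≠ 0

/-- chains of segments -/
def Chn : M4 → M4 → Prop := Relation.ReflTransGen Seg

theorem Seg.symm {A B : M4} (h : Seg A B) : Seg B A := by
  intro s hs
  have := h (1 - s) ⟨by linarith [hs.2], by linarith [hs.1]⟩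
  rwa [sub_sub_cancel, add_comm] at this

theorem Chn.symm {A B : M4} (h : Chn A B) : Chn B A := by
  induction h with
  | refl => exact Relation.ReflTransGen.refl
  | tail _ h2 ih => exact Relation.ReflTransGen.head h2.symm ih

theorem Chn.trans {A B C : M4} (h : Chn A B) (h' : Chn B C) : Chn A C :=
  Relation.ReflTransGen.trans h h'

theorem Seg.mul {A B : M4} (h : Seg A B) (P Q : M4) (hP : P.det ≠ 0) (hQ : Q.det ≠ 0) :
    Seg (P * A * Q) (P * B * Q) := by
  intro s hs
  have : (1 - s) • (P * A * Q) + s • (P * B * Q) = P * ((1 - s) • A + s • B) * Q := by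
    rw [Matrix.mul_add, Matrix.add_mul, Matrix.mul_smul, Matrix.smul_mul, Matrix.mul_smul,
      Matrix.smul_mul]
  rw [this, Matrix.det_mul, Matrix.det_mul]
  exact mul_ne_zero (mul_ne_zero hP (h s hs)) hQ

theorem Chn.mul {A B : M4} (h : Chn A B) (P Q : M4) (hP : P.det ≠ 0) (hQ : Q.det ≠ 0) :
    Chn (P * A * Q) (P * B * Q) := by
  induction h with
  | refl => exact Relation.ReflTransGen.refl
  | tail _ h2 ih => exact Relation.ReflTransGen.tail ih (h2.mul P Q hP hQ)


theorem Chn.mul2 {A B C D : M4} (h : Chn A B) (h' : Chn C D) (hA : A.det ≠ 0) (hD : D.det ≠ 0) :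
    Chn (A * C) (B * D) := by
  have h1 := Chn.mul h' A 1 hA (by simp)
  have h2 := Chn.mul h 1 D (by simp) hD
  simp only [Matrix.mul_one, Matrix.one_mul] at h1 h2
  exact h1.trans h2

/-- the reflection in the coordinate `i` -/
def Rf (i : Fin 4) : M4 := Matrix.diagonal (fun k => if k = i then (-1 : ℝ) else 1)

theorem det_Rf (i : Fin 4) : (Rf i).det = -1 := by
  rw [Rf, Matrix.det_diagonal, Finset.prod_ite_eq' Finset.univ i (fun _ => (-1 : ℝ))]
  simp

theorem Rf_mul_self (i : Fin 4) : Rf i * Rf i = 1 := by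
  rw [Rf, Matrix.diagonal_mul_diagonal, ← Matrix.diagonal_one]
  congr 1
  funext k
  split_ifs <;> simp

theorem seg_transvection {i j : Fin 4} (h : i ≠ j) (c : ℝ) : Seg 1 (transvection i j c) := by
  intro s _
  have : (1 - s) • (1 : M4) + s • transvection i j c = transvection i j (s * c) := by
    ext a b
    simp only [transvection, Matrix.add_apply, Matrix.smul_apply, smul_eq_mul, Matrix.single]
    simp only [Matrix.of_apply]
    split_ifs <;> ring
  rw [this, Matrix.det_transvection_of_ne i j h]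
  exact one_ne_zero

theorem chn_transvection {i j : Fin 4} (h : i ≠ j) (c : ℝ) : Chn (transvection i j c) 1 :=
  Chn.symm (Relation.ReflTransGen.single (seg_transvection h c))

theorem tv_int : ∀ i j : Fin 4, i ≠ j →
    (transvection i j (1 : ℤ) * transvection j i (-1) * transvection i j 1) *
      Matrix.diagonal (fun k => if k = j then (-1 : ℤ) else 1) =
    Matrix.diagonal (fun k => if k = i then (-1 : ℤ) else 1) *
      (transvection i j (1 : ℤ) * transvection j i (-1) * transvection i j 1) := by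
  decide

theorem tv_real {i j : Fin 4} (h : i ≠ j) :
    (transvection i j (1 : ℝ) * transvection j i (-1) * transvection i j 1) * Rf j =
      Rf i * (transvection i j (1 : ℝ) * transvection j i (-1) * transvection i j 1) := by
  have := congrArg (fun M => M.map (Int.castRingHom ℝ)) (tv_int i j h)
  have e1 : ∀ (a b : Fin 4) (c : ℤ), (transvection a b c).map (Int.castRingHom ℝ) =
      transvection a b (c : ℝ) := by
    intro a b c
    ext x y
    simp only [transvection, Matrix.map_apply, Matrix.add_apply, Matrix.single, Matrix.of_apply,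
      Matrix.one_apply]
    split_ifs <;> simp
  have e2 : ∀ a : Fin 4, (Matrix.diagonal (fun k => if k = a then (-1 : ℤ) else 1)).map
      (Int.castRingHom ℝ) = Rf a := by
    intro a
    rw [Rf, Matrix.diagonal_map (by simp)]
    congr 1
    funext k
    split_ifs <;> simp
  simp only [Matrix.map_mul, e1, e2] at this
  push_cast at this
  exact this

theorem det_tvs {i j : Fin 4} (h : i ≠ j) :
    (transvection i j (1 : ℝ) * transvection j i (-1) * transvection i j 1).det = 1 := by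
  rw [Matrix.det_mul, Matrix.det_mul, Matrix.det_transvection_of_ne i j h,
    Matrix.det_transvection_of_ne j i h.symm]
  simp

theorem chn_Rf (i j : Fin 4) : Chn (Rf i) (Rf j) := by
  by_cases h : i = j
  · rw [h]; exact Relation.ReflTransGen.refl
  set T : M4 := transvection i j (1 : ℝ) * transvection j i (-1) * transvection i j 1 with hT
  have hT1 : Chn T 1 := by
    have h1 := chn_transvection h (1 : ℝ)
    have h2 := chn_transvection (Ne.symm h) (-1 : ℝ)
    have d1 : (transvection i j (1 : ℝ)).det ≠ 0 := by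
      rw [Matrix.det_transvection_of_ne i j h]; exact one_ne_zero
    have h3 := Chn.mul2 h1 h2 d1 (by simp)
    have h4 := Chn.mul2 h3 h1 (by
      rw [Matrix.det_mul, Matrix.det_transvection_of_ne i j h,
        Matrix.det_transvection_of_ne j i (Ne.symm h)]
      simp) (by simp)
    simpa using h4
  have hTd : T.det = 1 := det_tvs h
  -- `Rf i * T ~ Rf i`, `T * Rf j ~ Rf j`
  have h5 : Chn (Rf i * T) (Rf i * 1) := Chn.mul2 Relation.ReflTransGen.refl hT1
    (by rw [det_Rf]; norm_num) (by simp)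
  have h6 : Chn (T * Rf j) (1 * Rf j) := Chn.mul2 hT1 Relation.ReflTransGen.refl
    (by rw [hTd]; norm_num) (by rw [det_Rf]; norm_num)
  rw [Matrix.mul_one] at h5
  rw [Matrix.one_mul, tv_real h] at h6
  exact h5.symm.trans h6

/-- the normal form: `1` or the reflection in the coordinate `1` -/
def NF (M : M4) : M4 := if 0 < M.det then 1 else Rf 1

theorem det_NF (M : M4) : (NF M).det ≠ 0 := by
  unfold NF
  split_ifs
  · simp
  · rw [det_Rf]; norm_num

theorem NF_mul {A B : M4} (hA : A.det ≠ 0) (hB : B.det ≠ 0) : NF A * NF B = NF (A * B) := by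
  unfold NF
  rw [Matrix.det_mul]
  rcases lt_or_gt_of_ne hA with h1 | h1 <;> rcases lt_or_gt_of_ne hB with h2 | h2
  · rw [if_neg h1.not_gt, if_neg h2.not_gt, if_pos (mul_pos_of_neg_of_neg h1 h2), Rf_mul_self]
  · rw [if_neg h1.not_gt, if_pos h2, if_neg (mul_neg_of_neg_of_pos h1 h2).not_gt, Matrix.mul_one]
  · rw [if_pos h1, if_neg h2.not_gt, if_neg (mul_neg_of_pos_of_neg h1 h2).not_gt, Matrix.one_mul]
  · rw [if_pos h1, if_pos h2, if_pos (mul_pos h1 h2), Matrix.mul_one]

theorem chn_mul {A B : M4} (hA : A.det ≠ 0) (hB : B.det ≠ 0) (h1 : Chn A (NF A))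
    (h2 : Chn B (NF B)) : Chn (A * B) (NF (A * B)) := by
  rw [← NF_mul hA hB]
  exact Chn.mul2 h1 h2 hA (det_NF B)


theorem chn_Rf_NF (i : Fin 4) : Chn (Rf i) (NF (Rf i)) := by
  unfold NF
  rw [det_Rf, if_neg (by norm_num)]
  exact chn_Rf i 1

theorem chn_diag_sign (S : Finset (Fin 4)) :
    Chn (Matrix.diagonal (fun k => if k ∈ S then (-1 : ℝ) else 1))
      (NF (Matrix.diagonal (fun k => if k ∈ S then (-1 : ℝ) else 1))) := by
  induction S using Finset.induction_on with
  | empty =>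
    have : (Matrix.diagonal (fun k : Fin 4 => if k ∈ (∅ : Finset (Fin 4)) then (-1 : ℝ) else 1)) =
        1 := by
      rw [← Matrix.diagonal_one]; congr 1
    rw [this]
    unfold NF
    rw [Matrix.det_one, if_pos one_pos]
    exact Relation.ReflTransGen.refl
  | insert i S hi ih =>
    have : (Matrix.diagonal (fun k : Fin 4 => if k ∈ insert i S then (-1 : ℝ) else 1)) =
        Rf i * Matrix.diagonal (fun k => if k ∈ S then (-1 : ℝ) else 1) := by
      rw [Rf, Matrix.diagonal_mul_diagonal]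
      congr 1
      funext k
      by_cases h : k = i
      · subst h; simp [hi]
      · simp [h]
    rw [this]
    refine chn_mul (by rw [det_Rf]; norm_num) ?_ (chn_Rf_NF i) ih
    rw [Matrix.det_diagonal, Finset.prod_ne_zero_iff]
    intro k _
    split_ifs <;> norm_num

theorem chn_diag (D : Fin 4 → ℝ) (hD : (Matrix.diagonal D).det ≠ 0) :
    Chn (Matrix.diagonal D) (NF (Matrix.diagonal D)) := by
  have hD' : ∀ k, D k ≠ 0 := by
    rw [Matrix.det_diagonal, Finset.prod_ne_zero_iff] at hD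
    exact fun k => hD k (Finset.mem_univ k)
  set S : Finset (Fin 4) := Finset.univ.filter (fun k => D k < 0) with hS
  have hseg : Seg (Matrix.diagonal D) (Matrix.diagonal (fun k => if k ∈ S then (-1 : ℝ) else 1)) := by
    intro s hs
    have : (1 - s) • Matrix.diagonal D +
        s • Matrix.diagonal (fun k => if k ∈ S then (-1 : ℝ) else 1) =
        Matrix.diagonal (fun k => (1 - s) * D k + s * (if k ∈ S then (-1 : ℝ) else 1)) := by
      ext a b
      simp only [Matrix.add_apply, Matrix.smul_apply, Matrix.diagonal_apply, smul_eq_mul]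
      split_ifs <;> simp
    rw [this, Matrix.det_diagonal, Finset.prod_ne_zero_iff]
    intro k _
    rcases lt_or_gt_of_ne (hD' k) with h | h
    · have hk : k ∈ S := by simp [hS, h]
      rw [if_pos hk]
      have : (1 - s) * D k + s * (-1) < 0 := by
        rcases eq_or_lt_of_le hs.1 with h0 | h0
        · rw [← h0]; simpa using h
        · have : (1 - s) * D k ≤ 0 := mul_nonpos_of_nonneg_of_nonpos (by linarith [hs.2]) h.le
          linarith
      exact this.ne
    · have hk : k ∉ S := by simp [hS, h.le]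
      rw [if_neg hk]
      have : 0 < (1 - s) * D k + s * 1 := by
        rcases eq_or_lt_of_le hs.1 with h0 | h0
        · rw [← h0]; simpa using h
        · have : 0 ≤ (1 - s) * D k := mul_nonneg (by linarith [hs.2]) h.le
          linarith
      exact this.ne'
  have h1 : Chn (Matrix.diagonal D) (Matrix.diagonal (fun k => if k ∈ S then (-1 : ℝ) else 1)) :=
    Relation.ReflTransGen.single hseg
  have h2 := chn_diag_sign S
  refine h1.trans ?_
  suffices NF (Matrix.diagonal (fun k => if k ∈ S then (-1 : ℝ) else 1)) =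
      NF (Matrix.diagonal D) by rw [← this]; exact h2
  unfold NF
  have : (0 < (Matrix.diagonal (fun k => if k ∈ S then (-1 : ℝ) else 1)).det) ↔
      (0 < (Matrix.diagonal D).det) := by
    rw [Matrix.det_diagonal, Matrix.det_diagonal]
    have e : ∏ k, D k = (∏ k, if k ∈ S then (-1 : ℝ) else 1) * ∏ k, |D k| := by
      rw [← Finset.prod_mul_distrib]
      refine Finset.prod_congr rfl (fun k _ => ?_)
      by_cases h : D k < 0
      · have hk : k ∈ S := by simp [hS, h]
        rw [if_pos hk, abs_of_neg h]; ring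
      · have hk : k ∉ S := by simp [hS, not_lt.1 h]
        rw [if_neg hk, abs_of_nonneg (not_lt.1 h)]; ring
    rw [e]
    have hp : 0 < ∏ k, |D k| := Finset.prod_pos (fun k _ => abs_pos.2 (hD' k))
    exact (mul_pos_iff_of_pos_right hp).symm
  by_cases h : 0 < (Matrix.diagonal D).det
  · rw [if_pos h, if_pos (this.2 h)]
  · rw [if_neg h, if_neg (fun h' => h (this.1 h'))]

theorem chn_NF (M : M4) (hM : M.det ≠ 0) : Chn M (NF M) := by
  refine Matrix.diagonal_transvection_induction_of_det_ne_zero (fun M => Chn M (NF M)) M hM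
    chn_diag ?_ ?_
  · intro t
    unfold NF
    rw [TransvectionStruct.det, if_pos one_pos]
    exact chn_transvection t.hij t.c
  · intro A B hA hB h1 h2
    exact chn_mul hA hB h1 h2

end Mat

/-! ### Real coordinates of `C2` -/

/-- the real coordinates -/
def ph : C2 ≃ₗ[ℝ] (Fin 4 → ℝ) where
  toFun x := ![(x 0).re, (x 0).im, (x 1).re, (x 1).im]
  map_add' x y := by
    ext k
    fin_cases k <;> simp
  map_smul' c x := by
    ext k
    fin_cases k <;> simp
  invFun v := WithLp.toLp 2 ![⟨v 0, v 1⟩, ⟨v 2, v 3⟩]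
  left_inv x := by
    ext k
    fin_cases k <;> apply Complex.ext <;> simp
  right_inv v := by
    ext k
    fin_cases k <;> simp

/-- the linear map of a matrix -/
def cl (M : M4) : C2 →L[ℝ] C2 :=
  LinearMap.toContinuousLinearMap
    ((ph.symm : (Fin 4 → ℝ) →ₗ[ℝ] C2) ∘ₗ Matrix.toLin' M ∘ₗ (ph : C2 →ₗ[ℝ] (Fin 4 → ℝ)))

theorem cl_apply (M : M4) (x : C2) : cl M x = ph.symm (M *ᵥ (ph x)) := rfl

/-- the matrix of a linear map -/
def mt (A : C2 →L[ℝ] C2) : M4 :=
  LinearMap.toMatrix' ((ph : C2 →ₗ[ℝ] (Fin 4 → ℝ)) ∘ₗ (A : C2 →ₗ[ℝ] C2) ∘ₗ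
    (ph.symm : (Fin 4 → ℝ) →ₗ[ℝ] C2))

theorem cl_mt (A : C2 →L[ℝ] C2) : cl (mt A) = A := by
  ext1 x
  rw [cl_apply, mt]
  rw [← Matrix.toLin'_apply, Matrix.toLin'_toMatrix']
  simp

theorem det_mt (A : C2 →L[ℝ] C2) : (mt A).det = A.det := by
  rw [mt, LinearMap.det_toMatrix', ContinuousLinearMap.det]
  exact LinearMap.det_conj (A : C2 →ₗ[ℝ] C2) ph

theorem cl_add_smul (M N : M4) (s : ℝ) (x : C2) :
    cl ((1 - s) • M + s • N) x = cl M x + s • (cl N x - cl M x) := by
  rw [cl_apply, cl_apply, cl_apply, Matrix.add_mulVec, Matrix.smul_mulVec, Matrix.smul_mulVec,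
    map_add, map_smul, map_smul]
  module

theorem cl_ne_zero {M : M4} (hM : M.det ≠ 0) {x : C2} (hx : x ≠ 0) : cl M x ≠ 0 := by
  rw [cl_apply]
  intro h
  have h1 : M *ᵥ (ph x) = 0 := by
    have := congrArg ph h
    simpa using this
  have h2 : ph x = 0 := Matrix.eq_zero_of_mulVec_eq_zero hM h1
  exact hx (by simpa using h2)

theorem cl_one (x : C2) : cl 1 x = x := by
  rw [cl_apply, Matrix.one_mulVec]
  simp

/-- conjugation in the first coordinate -/
def conj1 (x : C2) : C2 := WithLp.toLp 2 ![(starRingEnd ℂ) (x 0), x 1]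

theorem cl_Rf (x : C2) : cl (Rf 1) x = conj1 x := by
  rw [cl_apply, Rf, conj1]
  have : (Matrix.diagonal (fun k : Fin 4 => if k = 1 then (-1 : ℝ) else 1)) *ᵥ (ph x) =
      ![(x 0).re, -(x 0).im, (x 1).re, (x 1).im] := by
    ext k
    rw [Matrix.mulVec_diagonal]
    fin_cases k <;> simp [ph]
  rw [this]
  ext k
  fin_cases k <;> apply Complex.ext <;> simp [ph]

/-! ### Modification of linear maps -/

/-- `A` can be changed into `B` near the origin without new zeros -/
def RC (A B : M4) : Prop := ∀ r : ℝ, 0 < r → ∃ G : C2 → C2, ContDiff ℝ ∞ G ∧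
  (∀ x, r ≤ ‖x‖ → G x = cl A x) ∧ (∀ x, x ≠ 0 → G x ≠ 0) ∧
  ∃ ρ : ℝ, 0 < ρ ∧ ∀ x, ‖x‖ < ρ → G x = cl B x

theorem RC.of_seg {A B : M4} (h : Seg A B) : RC A B := by
  intro r hr
  let χ : ContDiffBump (0 : C2) := ⟨r / 2, r, by positivity, by linarith⟩
  refine ⟨fun x => cl A x + χ x • (cl B x - cl A x), ?_, ?_, ?_, r / 2, by positivity, ?_⟩
  · exact (cl A).contDiff.add (χ.contDiff.smul ((cl B).contDiff.sub (cl A).contDiff))
  · intro x hx
    have : χ x = 0 := χ.zero_of_le_dist (by rw [dist_zero_right]; exact hx)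
    simp [this]
  · intro x hx
    change cl A x + χ x • (cl B x - cl A x) ≠ 0
    rw [← cl_add_smul]
    exact cl_ne_zero (h (χ x) ⟨χ.nonneg, χ.le_one⟩) hx
  · intro x hx
    have : χ x = 1 := χ.one_of_mem_closedBall (by
      rw [mem_closedBall, dist_zero_right]; exact hx.le)
    simp [this]

theorem RC.refl {A : M4} (hA : A.det ≠ 0) : RC A A := by
  intro r _
  exact ⟨cl A, (cl A).contDiff, fun _ _ => rfl, fun x hx => cl_ne_zero hA hx, 1, one_pos,
    fun _ _ => rfl⟩

/-- gluing of two smooth functions along spheres -/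
theorem contDiffOn_glue {U : Set C2} {G G' : C2 → C2} {r ρ : ℝ} (hr : r < ρ)
    (hG : ContDiffOn ℝ ∞ G U) (hG' : ContDiff ℝ ∞ G')
    (h : ∀ x, r ≤ ‖x‖ → ‖x‖ < ρ → G' x = G x) :
    ContDiffOn ℝ ∞ (fun x => if ‖x‖ < ρ then G' x else G x) U := by
  intro x hx
  by_cases h1 : ‖x‖ < ρ
  · have : (fun x => if ‖x‖ < ρ then G' x else G x) =ᶠ[𝓝 x] G' := by
      have : ∀ᶠ y in 𝓝 x, ‖y‖ < ρ := continuous_norm.continuousAt.eventually (gt_mem_nhds h1)
      filter_upwards [this] with y hy
      rw [if_pos hy]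
    exact (hG'.contDiffAt.congr_of_eventuallyEq this).contDiffWithinAt
  · have h2 : r < ‖x‖ := lt_of_lt_of_le hr (not_lt.1 h1)
    have : (fun x => if ‖x‖ < ρ then G' x else G x) =ᶠ[𝓝 x] G := by
      have : ∀ᶠ y in 𝓝 x, r < ‖y‖ := continuous_norm.continuousAt.eventually (lt_mem_nhds h2)
      filter_upwards [this] with y hy
      by_cases h3 : ‖y‖ < ρ
      · rw [if_pos h3, h y hy.le h3]
      · rw [if_neg h3]
    exact (hG x hx).congr_of_eventuallyEq (this.filter_mono nhdsWithin_le_nhds) this.self_of_nhds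

theorem RC.trans {A B C : M4} (h1 : RC A B) (h2 : RC B C) : RC A C := by
  intro r hr
  obtain ⟨G, hG1, hG2, hG3, ρ, hρ, hG4⟩ := h1 r hr
  set ρ' := min ρ r with hρ'
  have hρ'0 : 0 < ρ' := lt_min hρ hr
  obtain ⟨G', hG'1, hG'2, hG'3, σ, hσ, hG'4⟩ := h2 (ρ' / 2) (by positivity)
  refine ⟨fun x => if ‖x‖ < ρ' then G' x else G x, ?_, ?_, ?_, min σ ρ', lt_min hσ hρ'0, ?_⟩
  · rw [← contDiffOn_univ]
    refine contDiffOn_glue (half_lt_self hρ'0) hG1.contDiffOn hG'1 ?_
    intro x hx1 hx2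
    rw [hG'2 x hx1, hG4 x (hx2.trans_le (min_le_left _ _))]
  · intro x hx
    have : ¬ ‖x‖ < ρ' := not_lt.2 ((min_le_right _ _).trans hx)
    simp only [if_neg this]
    exact hG2 x hx
  · intro x hx
    simp only
    split_ifs
    · exact hG'3 x hx
    · exact hG3 x hx
  · intro x hx
    simp only [if_pos (hx.trans_le (min_le_right _ _))]
    exact hG'4 x (hx.trans_le (min_le_left _ _))

theorem RC.of_chn {A B : M4} (h : Chn A B) (hA : A.det ≠ 0) : RC A B := by
  induction h with
  | refl => exact RC.refl hA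
  | tail _ h2 ih => exact ih.trans (RC.of_seg h2)

/-! ### The standard form of a regular zero -/

/-- **Standard form of a regular zero** of a smooth map `ℂ² → ℂ²` (a modification in an arbitrarily
small ball). -/
theorem std (F : C2 → C2) (U : Set C2) (hU : U ∈ 𝓝 (0 : C2)) (hF : ContDiffOn ℝ ∞ F U)
    (hF0 : F 0 = 0) (A : C2 →L[ℝ] C2) (hA : HasFDerivAt F A 0) (hdet : A.det ≠ 0)
    (r : ℝ) (hr : 0 < r) :
    ∃ G : C2 → C2, ContDiffOn ℝ ∞ G U ∧ (∀ x, r ≤ ‖x‖ → G x = F x) ∧
      (∃ r' : ℝ, 0 < r' ∧ r' ≤ r ∧ (∀ x, r' ≤ ‖x‖ → G x = F x) ∧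
        (∀ x, ‖x‖ < r' → x ≠ 0 → G x ≠ 0 ∧ F x ≠ 0)) ∧
      ∃ ρ : ℝ, 0 < ρ ∧ ∀ x, ‖x‖ < ρ → G x = if 0 < A.det then x else conj1 x := by
  have hMd : (mt A).det ≠ 0 := by rw [det_mt]; exact hdet
  -- lower bound for `A`
  obtain ⟨c, hc, hcA⟩ : ∃ c : ℝ, 0 < c ∧ ∀ x, c * ‖x‖ ≤ ‖A x‖ := by
    have hinj : Function.Injective A := by
      rw [injective_iff_map_eq_zero]
      intro x hx
      by_contra h
      exact cl_ne_zero hMd h (by rw [cl_mt]; exact hx)
    obtain ⟨K, hK, hK2⟩ := (A : C2 →ₗ[ℝ] C2).exists_antilipschitzWith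
      (LinearMap.ker_eq_bot.2 hinj)
    refine ⟨(K : ℝ)⁻¹, by positivity, fun x => ?_⟩
    have := hK2.le_mul_dist x 0
    simp only [dist_zero_right, map_zero] at this
    rw [inv_mul_le_iff₀ (by positivity)]
    exact this
  -- smallness of the remainder
  have hsm : ∀ᶠ x in 𝓝 (0 : C2), ‖F x - A x‖ ≤ c / 2 * ‖x‖ := by
    have h := hA.isLittleO.def (half_pos hc)
    simpa [hF0] using h
  obtain ⟨r1, hr1, hr1'⟩ := Metric.eventually_nhds_iff_ball.1 hsm
  obtain ⟨r2, hr2, hr2'⟩ := Metric.mem_nhds_iff.1 hU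
  set r' := min r (min r1 r2) with hr'
  have hr'0 : 0 < r' := lt_min hr (lt_min hr1 hr2)
  let χ : ContDiffBump (0 : C2) := ⟨r' / 2, r', by positivity, by linarith⟩
  let G1 : C2 → C2 := fun x => F x + χ x • (A x - F x)
  have hG1 : ContDiffOn ℝ ∞ G1 U :=
    hF.add (χ.contDiff.contDiffOn.smul (A.contDiff.contDiffOn.sub hF))
  have hG1F : ∀ x, r' ≤ ‖x‖ → G1 x = F x := by
    intro x hx
    have : χ x = 0 := χ.zero_of_le_dist (by rw [dist_zero_right]; exact hx)
    simp [G1, this]
  have hFA : ∀ x, ‖x‖ < r' → ‖F x - A x‖ ≤ c / 2 * ‖x‖ := by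
    intro x hx
    refine hr1' x ?_
    rw [mem_ball, dist_zero_right]
    exact hx.trans_le ((min_le_right _ _).trans (min_le_left _ _))
  have hne : ∀ (s : ℝ), s ∈ Icc (0 : ℝ) 1 → ∀ x, ‖x‖ < r' → x ≠ 0 →
      F x + s • (A x - F x) ≠ 0 := by
    intro s hs x hx hx0 h0
    have h1 : A x = (1 - s) • (A x - F x) + (F x + s • (A x - F x)) := by module
    rw [h0, add_zero] at h1
    have h2 : ‖A x‖ ≤ c / 2 * ‖x‖ := by
      rw [h1, norm_smul, Real.norm_eq_abs, abs_of_nonneg (by linarith [hs.2])]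
      calc (1 - s) * ‖A x - F x‖ ≤ 1 * ‖A x - F x‖ := by
            refine mul_le_mul_of_nonneg_right (by linarith [hs.1]) (norm_nonneg _)
        _ = ‖F x - A x‖ := by rw [one_mul, norm_sub_rev]
        _ ≤ _ := hFA x hx
    have h3 := hcA x
    have h4 : 0 < ‖x‖ := norm_pos_iff.2 hx0
    nlinarith
  have hG1A : ∀ x, ‖x‖ < r' / 2 → G1 x = cl (mt A) x := by
    intro x hx
    have : χ x = 1 := χ.one_of_mem_closedBall (by
      rw [mem_closedBall, dist_zero_right]; exact hx.le)
    simp [G1, this, cl_mt]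
  obtain ⟨G', hG'1, hG'2, hG'3, σ, hσ, hG'4⟩ := RC.of_chn (chn_NF (mt A) hMd) hMd (r' / 4)
    (by positivity)
  have hG : ∀ x, ‖x‖ < r' → x ≠ 0 → (if ‖x‖ < r' / 2 then G' x else G1 x) ≠ 0 := by
    intro x hx hx0
    split_ifs
    · exact hG'3 x hx0
    · exact hne (χ x) ⟨χ.nonneg, χ.le_one⟩ x hx hx0
  have hGF : ∀ x, r' ≤ ‖x‖ → (if ‖x‖ < r' / 2 then G' x else G1 x) = F x := by
    intro x hx
    have : ¬ ‖x‖ < r' / 2 := not_lt.2 (by linarith)
    rw [if_neg this]
    exact hG1F x hx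
  refine ⟨fun x => if ‖x‖ < r' / 2 then G' x else G1 x, ?_, ?_, ⟨r', hr'0, min_le_left _ _, hGF, ?_⟩,
    min σ (r' / 2), lt_min hσ (by positivity), ?_⟩
  · refine contDiffOn_glue (by linarith : r' / 4 < r' / 2) hG1 hG'1 ?_
    intro x hx1 hx2
    rw [hG'2 x hx1, hG1A x hx2]
  · intro x hx
    exact hGF x ((min_le_left _ _).trans hx)
  · intro x hx hx0
    refine ⟨hG x hx hx0, ?_⟩
    have := hne 0 ⟨le_rfl, zero_le_one⟩ x hx hx0
    simpa using this
  · intro x hx
    simp only [if_pos (hx.trans_le (min_le_right _ _))]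
    rw [hG'4 x (hx.trans_le (min_le_left _ _)), NF, det_mt]
    split_ifs
    · exact cl_one x
    · exact cl_Rf x

end Crest.Agent.R275.Std880
end
end

-- ▼ part R275/StdSec_880

/-!
R275 (S0418), helper880, block LINK, leaf LK2: standard pairs of sections.

`SCoc A g`      : `g` is a smooth line bundle cocycle on the atlas `A`.
`PS hg hg' s s' Z` : `s`, `s'` smooth sections with common zero set the finite set `Z`.
`StdPair A g g'`: a pair of sections whose common zeros are standard.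
`stdPair`       : existence on a compact Hausdorff `M`.
-/

set_option autoImplicit false
set_option linter.unusedSectionVars false

open Set Filter Topology Metric
open scoped ContDiff ComplexConjugate

noncomputable section

namespace Crest.Agent.R275.StdSec880

open Crest.Agent.R275.Geo Crest.Agent.R275.Std880

section General

variable {n : ℕ} {M : Type} [TopologicalSpace M] {A : Atl n M}

/-- transition maps are smooth -/
theorem trans_smooth (A : Atl n M) (i j : A.ι) :
    ContDiffOn ℝ ∞ (fun z => A.e j ((A.e i).symm z)) (A.ov i j) := by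
  have h1 : ContDiffOn ℂ ω (fun z => A.e j ((A.e i).symm z)) (A.ov i j) :=
    Crest.Agent.R266.SCV.contDiffOn_omega_of_differentiableOn (isOpen_ov i j) (A.holo i j)
  exact (h1.restrict_scalars ℝ).of_le (by exact_mod_cast le_top)

/-- a smooth line bundle cocycle -/
structure SCoc (A : Atl n M) (g : A.ι → A.ι → M → ℂ) : Prop where
  sm : ∀ i j, ContDiffOn ℝ ∞ (fun z => g i j ((A.e i).symm z)) (A.ov i j)
  self : ∀ i, ∀ x ∈ (A.e i).source, g i i x = 1
  mul : ∀ i j k, ∀ x ∈ (A.e i).source ∩ (A.e j).source ∩ (A.e k).source,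
    g i j x * g j k x = g i k x

namespace SCoc

variable {g : A.ι → A.ι → M → ℂ}

theorem mul_symm (hg : SCoc A g) {i j : A.ι} {x : M} (hi : x ∈ (A.e i).source)
    (hj : x ∈ (A.e j).source) : g i j x * g j i x = 1 := by
  rw [hg.mul i j i x ⟨⟨hi, hj⟩, hi⟩, hg.self i x hi]

theorem ne_zero (hg : SCoc A g) {i j : A.ι} {x : M} (hi : x ∈ (A.e i).source)
    (hj : x ∈ (A.e j).source) : g i j x ≠ 0 := by
  intro h
  have := hg.mul_symm hi hj
  rw [h, zero_mul] at this
  exact zero_ne_one this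

end SCoc

/-- smooth section of `g` -/
structure IsSec (A : Atl n M) (g : A.ι → A.ι → M → ℂ) (s : A.ι → M → ℂ) : Prop where
  sm : ∀ i, A.SmAt i (s i)
  off : ∀ i, ∀ x ∉ (A.e i).source, s i x = 0
  tr : ∀ i j, ∀ x ∈ (A.e i).source ∩ (A.e j).source, s i x = g i j x * s j x

namespace IsSec

variable {g : A.ι → A.ι → M → ℂ}

theorem add {s t : A.ι → M → ℂ} (hs : IsSec A g s) (ht : IsSec A g t) :
    IsSec A g (fun i x => s i x + t i x) where
  sm i := (hs.sm i).add (ht.sm i)
  off i x hx := by rw [hs.off i x hx, ht.off i x hx, add_zero]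
  tr i j x hx := by rw [hs.tr i j x hx, ht.tr i j x hx, mul_add]

theorem zero : IsSec A g (fun _ _ => 0) where
  sm i := contDiffOn_const
  off i x hx := rfl
  tr i j x hx := by rw [mul_zero]

theorem const_mul {s : A.ι → M → ℂ} (c : ℂ) (hs : IsSec A g s) :
    IsSec A g (fun i x => c * s i x) where
  sm i := contDiffOn_const.mul (hs.sm i)
  off i x hx := by rw [hs.off i x hx, mul_zero]
  tr i j x hx := by rw [hs.tr i j x hx]; ring

theorem sum {κ : Type} (S : Finset κ) (s : κ → A.ι → M → ℂ) (hs : ∀ a ∈ S, IsSec A g (s a)) :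
    IsSec A g (fun i x => ∑ a ∈ S, s a i x) where
  sm i := ContDiffOn.sum fun a ha => (hs a ha).sm i
  off i x hx := Finset.sum_eq_zero fun a ha => (hs a ha).off i x hx
  tr i j x hx := by
    rw [Finset.mul_sum]
    exact Finset.sum_congr rfl fun a ha => (hs a ha).tr i j x hx

theorem zero_iff (hg : SCoc A g) {s : A.ι → M → ℂ} (hs : IsSec A g s) {i j : A.ι} {x : M}
    (hi : x ∈ (A.e i).source) (hj : x ∈ (A.e j).source) : s i x = 0 ↔ s j x = 0 := by
  rw [hs.tr i j x ⟨hi, hj⟩, mul_eq_zero]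
  exact ⟨fun h => h.resolve_left (hg.ne_zero hi hj), Or.inr⟩

end IsSec

open Classical in
/-- extension by zero of a function `h` given in the chart `k`, as a section of `g` -/
def ext (A : Atl n M) (g : A.ι → A.ι → M → ℂ) (k : A.ι) (h : Cn n → ℂ) : A.ι → M → ℂ :=
  fun j x => if x ∈ (A.e j).source ∧ x ∈ (A.e k).source then g j k x * h (A.e k x) else 0

theorem ext_isSec [T2Space M] {g : A.ι → A.ι → M → ℂ} (hg : SCoc A g) (k : A.ι) {h : Cn n → ℂ}
    (hh : ContDiffOn ℝ ∞ h (A.e k).target) {K : Set (Cn n)} (hK : IsCompact K)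
    (hKt : K ⊆ (A.e k).target) (h0 : ∀ z ∈ (A.e k).target, z ∉ K → h z = 0) :
    IsSec A g (ext A g k h) := by
  have hK' : IsClosed ((A.e k).symm '' K) :=
    (hK.image_of_continuousOn ((A.e k).continuousOn_symm.mono hKt)).isClosed
  refine ⟨fun j => ?_, fun j x hx => ?_, fun i j x hx => ?_⟩
  · intro z hz
    by_cases hzk : (A.e j).symm z ∈ (A.e k).source
    · have hzo : z ∈ A.ov j k := ⟨hz, hzk⟩
      have h1 : ContDiffAt ℝ ∞ (fun z => g j k ((A.e j).symm z) *
          h (A.e k ((A.e j).symm z))) z := by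
        refine ((hg.sm j k).contDiffAt ((isOpen_ov j k).mem_nhds hzo)).mul ?_
        have h2 : ContDiffAt ℝ ∞ h (A.e k ((A.e j).symm z)) :=
          hh.contDiffAt ((A.e k).open_target.mem_nhds ((A.e k).map_source hzk))
        exact h2.comp z ((trans_smooth A j k).contDiffAt ((isOpen_ov j k).mem_nhds hzo))
      refine (h1.congr_of_eventuallyEq ?_).contDiffWithinAt
      filter_upwards [(isOpen_ov j k).mem_nhds hzo] with w hw
      simp only [ext]
      rw [if_pos ⟨(A.e j).map_target hw.1, hw.2⟩]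
    · have hzK : (A.e j).symm z ∉ (A.e k).symm '' K := by
        rintro ⟨y, hy, hyz⟩
        apply hzk
        rw [← hyz]
        exact (A.e k).map_target (hKt hy)
      have h1 : ∀ᶠ w in 𝓝 z, (A.e j).symm w ∉ (A.e k).symm '' K :=
        ((A.e j).symm.continuousAt hz).eventually (hK'.isOpen_compl.mem_nhds hzK)
      have h2 : ContDiffAt ℝ ∞ (fun _ : Cn n => (0 : ℂ)) z := contDiffAt_const
      refine (h2.congr_of_eventuallyEq ?_).contDiffWithinAt
      filter_upwards [h1] with w hw
      simp only [ext]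
      split_ifs with hc
      · rw [h0 _ ((A.e k).map_source hc.2), mul_zero]
        intro hwK
        exact hw ⟨_, hwK, (A.e k).left_inv hc.2⟩
      · rfl
  · simp only [ext]
    rw [if_neg (fun hc => hx hc.1)]
  · simp only [ext]
    by_cases hk : x ∈ (A.e k).source
    · rw [if_pos ⟨hx.1, hk⟩, if_pos ⟨hx.2, hk⟩, ← mul_assoc, hg.mul i j k x ⟨⟨hx.1, hx.2⟩, hk⟩]
    · rw [if_neg (fun hc => hk hc.2), if_neg (fun hc => hk hc.2), mul_zero]

theorem ext_of_mem {g : A.ι → A.ι → M → ℂ} {j k : A.ι} {x : M} (hj : x ∈ (A.e j).source)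
    (hk : x ∈ (A.e k).source) (h : Cn n → ℂ) : ext A g k h j x = g j k x * h (A.e k x) := by
  simp only [ext]
  rw [if_pos ⟨hj, hk⟩]

theorem ext_self {g : A.ι → A.ι → M → ℂ} (hg : SCoc A g) {k : A.ι} {x : M}
    (hk : x ∈ (A.e k).source) (h : Cn n → ℂ) : ext A g k h k x = h (A.e k x) := by
  rw [ext_of_mem hk hk, hg.self k x hk, one_mul]

/-- finitely many sections without common zeros -/
theorem exists_generators [T2Space M] [CompactSpace M] {g : A.ι → A.ι → M → ℂ} (hg : SCoc A g) :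
    ∃ (N : ℕ) (f : Fin N → A.ι → M → ℂ), (∀ a, IsSec A g (f a)) ∧
      ∀ i, ∀ x ∈ (A.e i).source, ∃ a, f a i x ≠ 0 := by
  classical
  have key : ∀ p : M, ∃ f : A.ι → M → ℂ, IsSec A g f ∧ ∀ᶠ x in 𝓝 p,
      ∀ i, x ∈ (A.e i).source → f i x ≠ 0 := by
    intro p
    obtain ⟨k, hk⟩ := A.cover p
    obtain ⟨r, hr, hrt⟩ := Metric.isOpen_iff.1 (A.e k).open_target _ ((A.e k).map_source hk)
    let χ : ContDiffBump (A.e k p) := ⟨r / 4, r / 2, by positivity, by linarith⟩
    have hsec : IsSec A g (ext A g k (fun z => ((χ z : ℝ) : ℂ))) := by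
      refine ext_isSec hg k (K := closedBall (A.e k p) (r / 2)) ?_ (isCompact_closedBall _ _)
        ((closedBall_subset_ball (by linarith)).trans hrt) ?_
      · exact (Complex.ofRealCLM.contDiff.comp χ.contDiff).contDiffOn
      · intro z _ hz
        have : χ z = 0 := χ.zero_of_le_dist (by
          rw [mem_closedBall, not_le] at hz
          exact hz.le)
        rw [this, Complex.ofReal_zero]
    refine ⟨_, hsec, ?_⟩
    have h1 : ∀ᶠ x in 𝓝 p, A.e k x ∈ ball (A.e k p) (r / 4) :=
      ((A.e k).continuousAt hk).eventually (ball_mem_nhds _ (by positivity))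
    filter_upwards [h1, (A.e k).open_source.mem_nhds hk] with x hx hxk i hi
    rw [ext_of_mem hi hxk]
    refine mul_ne_zero (hg.ne_zero hi hxk) ?_
    rw [χ.one_of_mem_closedBall (ball_subset_closedBall hx)]
    norm_num
  choose F hF hF' using key
  obtain ⟨t, -, ht⟩ := isCompact_univ.elim_nhds_subcover
    (fun p => {x | ∀ i, x ∈ (A.e i).source → F p i x ≠ 0}) (fun p _ => hF' p)
  refine ⟨t.card, fun a => F (t.equivFin.symm a), fun a => hF _, fun i x hx => ?_⟩
  obtain ⟨p, hpt, hxp⟩ := mem_iUnion₂.1 (ht (mem_univ x))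
  exact ⟨t.equivFin ⟨p, hpt⟩, by simpa using hxp i hx⟩

end General

section Two

variable {M : Type} [TopologicalSpace M] {A : Atl 2 M}

/-- a pair of sections with finite common zero set `Z` -/
structure PS (A : Atl 2 M) (g g' : A.ι → A.ι → M → ℂ) (s s' : A.ι → M → ℂ) (Z : Finset M) :
    Prop where
  sec : IsSec A g s
  sec' : IsSec A g' s'
  zero_iff : ∀ i, ∀ x ∈ (A.e i).source, (s i x = 0 ∧ s' i x = 0) ↔ x ∈ Z

/-- nondegenerate at `p` in the chart `k` -/
def Nd (A : Atl 2 M) (s s' : A.ι → M → ℂ) (k : A.ι) (p : M) : Prop :=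
  p ∈ (A.e k).source ∧ Function.Bijective (fderiv ℝ
    (fun z => ((s k ((A.e k).symm z), s' k ((A.e k).symm z)) : ℂ × ℂ)) (A.e k p))

/-- standard at `p` in the chart `k`, with sign `b` -/
def StdAt (A : Atl 2 M) (s s' : A.ι → M → ℂ) (k : A.ι) (p : M) (b : Bool) : Prop :=
  p ∈ (A.e k).source ∧ ∀ᶠ x in 𝓝 p,
    s k x = (if b then (A.e k x - A.e k p) 0 else conj ((A.e k x - A.e k p) 0)) ∧
    s' k x = (A.e k x - A.e k p) 1

/-- the pair of sections of LK2 -/
structure StdPair (A : Atl 2 M) (g g' : A.ι → A.ι → M → ℂ) where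
  s : A.ι → M → ℂ
  s' : A.ι → M → ℂ
  sec : IsSec A g s
  sec' : IsSec A g' s'
  Z : Finset M
  zero_iff : ∀ i, ∀ x ∈ (A.e i).source, (s i x = 0 ∧ s' i x = 0) ↔ x ∈ Z
  c : M → A.ι
  sg : M → Bool
  mem : ∀ p ∈ Z, p ∈ (A.e (c p)).source
  std : ∀ p ∈ Z, ∀ᶠ x in 𝓝 p,
    s (c p) x = (if sg p then (A.e (c p) x - A.e (c p) p) 0
      else conj ((A.e (c p) x - A.e (c p) p) 0)) ∧
    s' (c p) x = (A.e (c p) x - A.e (c p) p) 1

/-- `ℂ × ℂ → C2` -/
def toC2 : (ℂ × ℂ) ≃L[ℝ] Cn 2 :=
  LinearEquiv.toContinuousLinearEquiv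
    { toFun := fun w => WithLp.toLp 2 ![w.1, w.2]
      invFun := fun v => (v 0, v 1)
      map_add' := by
        intro v w; ext i; fin_cases i <;> simp
      map_smul' := by
        intro c v; ext i; fin_cases i <;> simp
      left_inv := fun w => by simp
      right_inv := fun v => by ext i; fin_cases i <;> simp }

@[simp] theorem toC2_zero_apply (w : ℂ × ℂ) : toC2 w 0 = w.1 := rfl
@[simp] theorem toC2_one_apply (w : ℂ × ℂ) : toC2 w 1 = w.2 := rfl


/-- one step: make the zero `p` standard -/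
theorem step [T2Space M] {g g' : A.ι → A.ι → M → ℂ} (hg : SCoc A g) (hg' : SCoc A g')
    {s s' : A.ι → M → ℂ} {Z : Finset M} (h : PS A g g' s s' Z) {p : M} (hp : p ∈ Z) {k : A.ι}
    (hN : Nd A s s' k p) :
    ∃ (t t' : A.ι → M → ℂ) (b : Bool), PS A g g' t t' Z ∧ StdAt A t t' k p b ∧
      ∀ q ∈ Z, q ≠ p → ∀ᶠ x in 𝓝 q, ∀ j, t j x = s j x ∧ t' j x = s' j x := by
  classical
  obtain ⟨hk, hb⟩ := hN
  set c := A.e k p with hc
  have hct : c ∈ (A.e k).target := (A.e k).map_source hk
  -- the local map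
  set F0 : Cn 2 → ℂ × ℂ := fun z => (s k ((A.e k).symm z), s' k ((A.e k).symm z)) with hF0
  have hF0s : ContDiffOn ℝ ∞ F0 (A.e k).target := (h.sec.sm k).prodMk (h.sec'.sm k)
  set F : Cn 2 → Cn 2 := fun y => toC2 (F0 (y + c)) with hF
  set U : Set (Cn 2) := (fun y => y + c) ⁻¹' (A.e k).target with hU
  have hUo : IsOpen U := (A.e k).open_target.preimage (continuous_id.add continuous_const)
  have h0U : (0 : Cn 2) ∈ U := by
    show 0 + c ∈ (A.e k).target
    rwa [zero_add]
  have hadd : ContDiff ℝ ∞ (fun y : Cn 2 => y + c) := contDiff_id.add contDiff_const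
  have hFs : ContDiffOn ℝ ∞ F U :=
    toC2.contDiff.comp_contDiffOn (hF0s.comp hadd.contDiffOn fun y hy => hy)
  have hsp : s k p = 0 ∧ s' k p = 0 := (h.zero_iff k p hk).2 hp
  have hFz : F 0 = 0 := by
    simp only [hF, hF0, zero_add, hc, (A.e k).left_inv hk, hsp.1, hsp.2]
    exact map_zero toC2
  have hF0d : HasFDerivAt F0 (fderiv ℝ F0 c) c :=
    ((hF0s.contDiffAt ((A.e k).open_target.mem_nhds hct)).differentiableAt (by simp)).hasFDerivAt
  set D : Cn 2 →L[ℝ] Cn 2 := (toC2 : (ℂ × ℂ) →L[ℝ] Cn 2).comp (fderiv ℝ F0 c) with hD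
  have hFd : HasFDerivAt F D 0 := by
    have h1 : HasFDerivAt (fun y : Cn 2 => F0 (y + c)) (fderiv ℝ F0 c) 0 := by
      have h2 : HasFDerivAt F0 (fderiv ℝ F0 c) (0 + c) := by rw [zero_add]; exact hF0d
      have h3 := h2.comp (0 : Cn 2) ((hasFDerivAt_id (𝕜 := ℝ) (0 : Cn 2)).add_const c)
      exact h3
    exact (toC2 : (ℂ × ℂ) →L[ℝ] Cn 2).hasFDerivAt.comp (0 : Cn 2) h1
  have hDdet : D.det ≠ 0 := by
    have hDb : Function.Bijective D := by
      have : (D : Cn 2 → Cn 2) = toC2 ∘ (fderiv ℝ F0 c) := rfl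
      rw [this]
      exact toC2.bijective.comp hb
    have h1 : IsUnit (D : Cn 2 →ₗ[ℝ] Cn 2) := (Module.End.isUnit_iff _).2 hDb
    exact ((LinearMap.isUnit_iff_isUnit_det _).1 h1).ne_zero
  -- radius
  set W : Set (Cn 2) := {y | y ∈ U ∧ (A.e k).symm (y + c) ∉ (Z.erase p : Finset M)} with hW
  have hWn : W ∈ 𝓝 (0 : Cn 2) := by
    have h1 : ContinuousAt (fun y : Cn 2 => (A.e k).symm (y + c)) 0 := by
      have h2 : ContinuousAt (A.e k).symm (0 + c) := by
        rw [zero_add]; exact (A.e k).continuousAt_symm hct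
      exact ContinuousAt.comp (g := (A.e k).symm) (f := fun y : Cn 2 => y + c) h2
        (continuous_id.add continuous_const).continuousAt
    have h3 : (A.e k).symm (0 + c) ∈ ((Z.erase p : Finset M) : Set M)ᶜ := by
      rw [zero_add, hc, (A.e k).left_inv hk]
      simp
    exact Filter.inter_mem (hUo.mem_nhds h0U)
      (h1.preimage_mem_nhds ((Z.erase p).finite_toSet.isClosed.isOpen_compl.mem_nhds h3))
  obtain ⟨R, hR, hRW⟩ := Metric.mem_nhds_iff.1 hWn
  obtain ⟨G, hGs, hGF, ⟨r', hr'0, hr'r, hGF', hG0⟩, ρ, hρ, hGρ⟩ :=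
    std F U (hUo.mem_nhds h0U) hFs hFz D hFd hDdet (R / 2) (half_pos hR)
  -- the corrections
  set K : Set (Cn 2) := closedBall c (R / 2) with hKdef
  have hKt : K ⊆ (A.e k).target := by
    intro z hz
    have h1 : z - c ∈ ball (0 : Cn 2) R := by
      rw [mem_ball, dist_zero_right, ← dist_eq_norm]
      exact (mem_closedBall.1 hz).trans_lt (by linarith)
    have h2 := (hRW h1).1
    simpa [hU] using h2
  have hKW : ∀ z ∈ K, (A.e k).symm z ∉ (Z.erase p : Finset M) := by
    intro z hz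
    have h1 : z - c ∈ ball (0 : Cn 2) R := by
      rw [mem_ball, dist_zero_right, ← dist_eq_norm]
      exact (mem_closedBall.1 hz).trans_lt (by linarith)
    have h2 := (hRW h1).2
    simpa using h2
  set H : Cn 2 → Cn 2 := fun z => G (z - c) - F (z - c) with hH
  have hsub : ContDiff ℝ ∞ (fun y : Cn 2 => y - c) := contDiff_id.sub contDiff_const
  have hHs : ContDiffOn ℝ ∞ H (A.e k).target := by
    refine (hGs.sub hFs).comp hsub.contDiffOn ?_
    intro z hz
    show z - c + c ∈ (A.e k).target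
    rwa [sub_add_cancel]
  have hHi : ∀ a : Fin 2, ContDiffOn ℝ ∞ (fun z => H z a) (A.e k).target := by
    intro a
    exact (EuclideanSpace.proj (𝕜 := ℂ) a : Cn 2 →L[ℂ] ℂ).restrictScalars ℝ
      |>.contDiff.comp_contDiffOn hHs
  have hH0 : ∀ z, z ∉ K → H z = 0 := by
    intro z hz
    have h1 : R / 2 ≤ ‖z - c‖ := by
      rw [hKdef, mem_closedBall, not_le, dist_eq_norm] at hz
      exact hz.le
    simp only [hH, hGF _ h1, sub_self]
  have hKc : IsCompact K := isCompact_closedBall _ _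
  have e1 : IsSec A g (ext A g k (fun z => H z 0)) :=
    ext_isSec hg k (hHi 0) hKc hKt (fun z _ hz => by simp only [hH0 z hz]; rfl)
  have e2 : IsSec A g' (ext A g' k (fun z => H z 1)) :=
    ext_isSec hg' k (hHi 1) hKc hKt (fun z _ hz => by simp only [hH0 z hz]; rfl)
  have hKM : IsClosed ((A.e k).symm '' K) :=
    (hKc.image_of_continuousOn ((A.e k).continuousOn_symm.mono hKt)).isClosed
  -- off `K` nothing changes
  have hoff : ∀ x ∉ (A.e k).symm '' K, ∀ j, ext A g k (fun z => H z 0) j x = 0 ∧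
      ext A g' k (fun z => H z 1) j x = 0 := by
    intro x hx j
    simp only [ext]
    split_ifs with hc'
    · have : A.e k x ∉ K := fun hK' => hx ⟨_, hK', (A.e k).left_inv hc'.2⟩
      rw [hH0 _ this]
      simp
    · simp
  -- in the chart `k`
  have hval : ∀ x ∈ (A.e k).source,
      s k x + ext A g k (fun z => H z 0) k x = G (A.e k x - c) 0 ∧
      s' k x + ext A g' k (fun z => H z 1) k x = G (A.e k x - c) 1 := by
    intro x hx
    rw [ext_self hg hx, ext_self hg' hx]
    have h1 : F (A.e k x - c) = toC2 (s k x, s' k x) := by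
      simp only [hF, hF0, sub_add_cancel, (A.e k).left_inv hx]
    simp only [hH, h1, PiLp.sub_apply, toC2_zero_apply, toC2_one_apply]
    constructor <;> ring
  have hpn : p ∉ (Z.erase p) := Finset.notMem_erase p Z
  refine ⟨fun j x => s j x + ext A g k (fun z => H z 0) j x,
    fun j x => s' j x + ext A g' k (fun z => H z 1) j x, decide (0 < D.det),
    ⟨h.sec.add e1, h.sec'.add e2, ?_⟩, ⟨hk, ?_⟩, ?_⟩
  · intro i x hi
    by_cases hx : x ∈ (A.e k).symm '' K
    · obtain ⟨z, hzK, rfl⟩ := hx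
      have hxk : (A.e k).symm z ∈ (A.e k).source := (A.e k).map_target (hKt hzK)
      have h1 := (h.sec.add e1).zero_iff hg hi hxk
      have h2 := (h.sec'.add e2).zero_iff hg' hi hxk
      rw [h1, h2, (hval _ hxk).1, (hval _ hxk).2, (A.e k).right_inv (hKt hzK)]
      have h3 : (G (z - c) 0 = 0 ∧ G (z - c) 1 = 0) ↔ G (z - c) = 0 := by
        constructor
        · rintro ⟨h4, h5⟩
          ext a
          fin_cases a
          · exact h4
          · exact h5
        · intro h4
          rw [h4]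
          exact ⟨rfl, rfl⟩
      rw [h3]
      have h5 : (A.e k).symm z ∈ Z ↔ (A.e k).symm z = p := by
        constructor
        · intro hz
          by_contra hne
          exact hKW z hzK (Finset.mem_erase.2 ⟨hne, hz⟩)
        · intro hz
          rw [hz]; exact hp
      rw [h5]
      by_cases hzr : ‖z - c‖ < r'
      · constructor
        · intro hGz
          by_contra hne
          refine (hG0 (z - c) hzr ?_).1 hGz
          intro hzc
          apply hne
          rw [sub_eq_zero.1 hzc, hc, (A.e k).left_inv hk]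
        · intro hz
          have hzc : z = c := by
            rw [hc, ← hz, (A.e k).right_inv (hKt hzK)]
          rw [hzc, sub_self, hGρ 0 (by rw [norm_zero]; exact hρ)]
          split_ifs
          · rfl
          · ext a
            fin_cases a
            · show conj ((0 : Cn 2) 0) = 0
              simp
            · rfl
      · rw [hGF' _ (not_lt.1 hzr)]
        have h6 : F (z - c) = toC2 (s k ((A.e k).symm z), s' k ((A.e k).symm z)) := by
          simp only [hF, hF0, sub_add_cancel]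
        rw [h6]
        have h7 := h.zero_iff k _ hxk
        rw [h5] at h7
        rw [← h7]
        constructor
        · intro h8
          exact ⟨congrArg (fun v : Cn 2 => v 0) h8, congrArg (fun v : Cn 2 => v 1) h8⟩
        · rintro ⟨h8, h9⟩
          rw [h8, h9]
          exact map_zero toC2
    · rw [(hoff x hx i).1, (hoff x hx i).2, add_zero, add_zero]
      exact h.zero_iff i x hi
  · have h1 : ∀ᶠ x in 𝓝 p, A.e k x ∈ ball c ρ :=
      ((A.e k).continuousAt hk).eventually (ball_mem_nhds _ hρ)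
    filter_upwards [h1, (A.e k).open_source.mem_nhds hk] with x hx hxk
    rw [(hval x hxk).1, (hval x hxk).2]
    have h2 : ‖A.e k x - c‖ < ρ := by rw [← dist_eq_norm]; exact hx
    rw [hGρ _ h2]
    by_cases hd : 0 < D.det
    · simp only [hd, if_true, decide_true]
      exact ⟨rfl, rfl⟩
    · simp only [hd, if_false, decide_false, Bool.false_eq_true]
      exact ⟨rfl, rfl⟩
  · intro q hq hqp
    have h1 : q ∉ (A.e k).symm '' K := by
      rintro ⟨z, hz, hzq⟩
      apply hKW z hz
      rw [hzq]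
      exact Finset.mem_erase.2 ⟨hqp, hq⟩
    filter_upwards [hKM.isOpen_compl.mem_nhds h1] with x hx j
    rw [(hoff x hx j).1, (hoff x hx j).2, add_zero, add_zero]
    exact ⟨rfl, rfl⟩

theorem StdAt.congr {s s' t t' : A.ι → M → ℂ} {k : A.ι} {p : M} {b : Bool}
    (h : StdAt A s s' k p b) (he : ∀ᶠ x in 𝓝 p, ∀ j, t j x = s j x ∧ t' j x = s' j x) :
    StdAt A t t' k p b := by
  refine ⟨h.1, ?_⟩
  filter_upwards [h.2, he] with x hx hx'
  rw [(hx' k).1, (hx' k).2]
  exact hx

theorem Nd.congr {s s' t t' : A.ι → M → ℂ} {k : A.ι} {p : M}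
    (h : Nd A s s' k p) (he : ∀ᶠ x in 𝓝 p, ∀ j, t j x = s j x ∧ t' j x = s' j x) :
    Nd A t t' k p := by
  refine ⟨h.1, ?_⟩
  have hc : A.e k p ∈ (A.e k).target := (A.e k).map_source h.1
  have h1 : ContinuousAt (A.e k).symm (A.e k p) := (A.e k).continuousAt_symm hc
  have he' : ∀ᶠ x in 𝓝 ((A.e k).symm (A.e k p)), ∀ j, t j x = s j x ∧ t' j x = s' j x := by
    rw [(A.e k).left_inv h.1]
    exact he
  have h2 : ∀ᶠ z in 𝓝 (A.e k p), ∀ j, t j ((A.e k).symm z) = s j ((A.e k).symm z) ∧
      t' j ((A.e k).symm z) = s' j ((A.e k).symm z) := h1.eventually he'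
  have h3 : (fun z => ((t k ((A.e k).symm z), t' k ((A.e k).symm z)) : ℂ × ℂ)) =ᶠ[𝓝 (A.e k p)]
      (fun z => ((s k ((A.e k).symm z), s' k ((A.e k).symm z)) : ℂ × ℂ)) := by
    filter_upwards [h2] with z hz
    rw [(hz k).1, (hz k).2]
  rw [h3.fderiv_eq]
  exact h.2

/-- make all the zeros standard -/
theorem steps [T2Space M] {g g' : A.ι → A.ι → M → ℂ} (hg : SCoc A g) (hg' : SCoc A g')
    {s s' : A.ι → M → ℂ} {Z : Finset M} (h : PS A g g' s s' Z) (c : M → A.ι)
    (hN : ∀ p ∈ Z, Nd A s s' (c p) p) (S : Finset M) (hS : S ⊆ Z) :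
    ∃ (t t' : A.ι → M → ℂ) (b : M → Bool), PS A g g' t t' Z ∧
      (∀ p ∈ S, StdAt A t t' (c p) p (b p)) ∧ ∀ p ∈ Z, p ∉ S → Nd A t t' (c p) p := by
  classical
  induction S using Finset.induction_on with
  | empty => exact ⟨s, s', fun _ => true, h, fun p hp => absurd hp (Finset.notMem_empty p),
      fun p hp _ => hN p hp⟩
  | insert p S hpS ih =>
    obtain ⟨t, t', b, h1, h2, h3⟩ := ih ((Finset.subset_insert p S).trans hS)
    have hpZ : p ∈ Z := hS (Finset.mem_insert_self p S)
    obtain ⟨u, u', β, k1, k2, k3⟩ := step hg hg' h1 hpZ (h3 p hpZ hpS)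
    refine ⟨u, u', fun q => if q = p then β else b q, k1, fun q hq => ?_, fun q hq hqS => ?_⟩
    · by_cases hqp : q = p
      · subst hqp
        simp only [if_true]
        exact k2
      · simp only [if_neg hqp]
        have hqS : q ∈ S := (Finset.mem_insert.1 hq).resolve_left hqp
        exact (h2 q hqS).congr (k3 q (hS hq) hqp)
    · have hqp : q ≠ p := fun h => hqS (h ▸ Finset.mem_insert_self p S)
      exact (h3 q hq fun h => hqS (Finset.mem_insert_of_mem h)).congr (k3 q hq hqp)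

/-- existence of a generic pair -/
theorem exists_generic [T2Space M] [CompactSpace M] {g g' : A.ι → A.ι → M → ℂ} (hg : SCoc A g)
    (hg' : SCoc A g') : ∃ (s s' : A.ι → M → ℂ) (Z : Finset M) (c : M → A.ι),
      PS A g g' s s' Z ∧ ∀ p ∈ Z, Nd A s s' (c p) p := by
  classical
  obtain ⟨N, f, hf, hf0⟩ := exists_generators hg
  obtain ⟨N', f', hf', hf0'⟩ := exists_generators hg'
  obtain ⟨T, hT⟩ := isCompact_univ.elim_finite_subcover (fun i => (A.e i).source)
    (fun i => (A.e i).open_source) (fun x _ => by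
      obtain ⟨i, hi⟩ := A.cover x
      exact mem_iUnion.2 ⟨i, hi⟩)
  have hcov : ∀ x, ∃ k : T, x ∈ (A.e k.1).source := by
    intro x
    obtain ⟨i, hi, hx⟩ := mem_iUnion₂.1 (hT (mem_univ x))
    exact ⟨⟨i, hi⟩, hx⟩
  have hd : Module.finrank ℝ (Cn 2) = 4 := by
    rw [← Module.finrank_mul_finrank ℝ ℂ (Cn 2)]
    simp
  have hae := LnkD1476.ae_pair (X := M) (E := Cn 2) (κ := T) (n := Fin N) (m := Fin N')
    (MeasureTheory.Measure.addHaar) hd (fun k => A.e k.1) (fun k => (A.e k.1).source)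
    (fun k => (A.e k.1).open_source) (fun k => Subset.rfl) hcov
    (fun k a x => f a k.1 x) (fun k a x => f' a k.1 x)
    (fun k a => (((hf a).sm k.1).of_le (by simp)).mono inter_subset_left)
    (fun k a => (((hf' a).sm k.1).of_le (by simp)).mono inter_subset_left)
    (fun k x hx => hf0 k.1 x hx) (fun k x hx => hf0' k.1 x hx)
    (fun k l x hx => ⟨g k.1 l.1 x, fun a => (hf a).tr k.1 l.1 x hx⟩)
    (fun k l x hx => ⟨g' k.1 l.1 x, fun a => (hf' a).tr k.1 l.1 x hx⟩)
  obtain ⟨⟨v, w⟩, hfin, hnd⟩ := hae.exists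
  set s : A.ι → M → ℂ := fun i x => ∑ a, v a * f a i x with hs
  set s' : A.ι → M → ℂ := fun i x => ∑ a, w a * f' a i x with hs'
  have hsec : IsSec A g s := IsSec.sum Finset.univ (fun a i x => v a * f a i x)
    fun a _ => (hf a).const_mul (v a)
  have hsec' : IsSec A g' s' := IsSec.sum Finset.univ (fun a i x => w a * f' a i x)
    fun a _ => (hf' a).const_mul (w a)
  choose κ hκ using hcov
  refine ⟨s, s', hfin.toFinset, fun x => (κ x).1, ⟨hsec, hsec', ?_⟩, ?_⟩
  · intro i x hi
    rw [Finite.mem_toFinset]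
    constructor
    · rintro ⟨h1, h2⟩
      exact ⟨κ x, hκ x, (hsec.zero_iff hg hi (hκ x)).1 h1, (hsec'.zero_iff hg' hi (hκ x)).1 h2⟩
    · rintro ⟨k, hk, h1, h2⟩
      exact ⟨(hsec.zero_iff hg hi hk).2 h1, (hsec'.zero_iff hg' hi hk).2 h2⟩
  · intro p hp
    rw [Finite.mem_toFinset] at hp
    obtain ⟨k, hk, h1, h2⟩ := hp
    exact ⟨hκ p, hnd (κ p) p (hκ p) ((hsec.zero_iff hg hk (hκ p)).1 h1)
      ((hsec'.zero_iff hg' hk (hκ p)).1 h2)⟩

/-- **LK2**: existence of a standard pair of sections. -/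
theorem stdPair [T2Space M] [CompactSpace M] {g g' : A.ι → A.ι → M → ℂ} (hg : SCoc A g)
    (hg' : SCoc A g') : Nonempty (StdPair A g g') := by
  obtain ⟨s, s', Z, c, h, hN⟩ := exists_generic hg hg'
  obtain ⟨t, t', b, h1, h2, -⟩ := steps hg hg' h c hN Z Finset.Subset.rfl
  exact ⟨⟨t, t', h1.sec, h1.sec', Z, h1.zero_iff, c, b, fun p hp => (h2 p hp).1,
    fun p hp => (h2 p hp).2⟩⟩

end Two

end Crest.Agent.R275.StdSec880
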