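import Crest.Agent.R275.Cyc_106
import Crest.Agent.R275.ASAtl_293
import Crest.Agent.R275.LnkCup_692
import Crest.Agent.R275.PDB_412
import Crest.Agent.R275.Zig3_470

-- ▼ part R275/KAsm_106
section

/-!
# R275 (S0418), block K: assembly on a compact surface (helper106)

For `A : Atl 2 M` good, `M` compact, an orientation functional `O : LnkCup692.OrE M ℤ` and robust
labels, `Ifm O lab c c' = O.E (c ∘ lab ∪ c' ∘ lab)`: additivity, invariance under coboundaries, and
unimodularity `hdual` (from the zigzag), literally in the shape of `NTr151.ebX`.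
-/

set_option autoImplicit false
set_option linter.unusedSectionVars false

open Set Filter Topology

namespace Crest.Agent.R275.KAsm106

open TopK106 Geo GC293 ASConv293 LnkCup692

noncomputable section

variable {M : Type} [TopologicalSpace M]

/-- the cover by the chart domains -/
abbrev UA (A : Atl 2 M) : A.ι → Set M := fun i => (A.e i).source

theorem rlab_iff {ι : Type} {U : ι → Set M} {lab : M → ι} : RLab U lab ↔ Lab U lab := Iff.rfl

theorem mem_Z2_iff {A : Atl 2 M} {c : A.ι → A.ι → A.ι → ℤ} :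
    c ∈ GC293.Z2 A ℤ ↔ IsZ2 (UA A) c := Iff.rfl

theorem mem_B2_iff {A : Atl 2 M} {c : A.ι → A.ι → A.ι → ℤ} :
    c ∈ GC293.B2 A ℤ ↔ IsB2 (UA A) c := Iff.rfl

theorem lp_eq_of2 {A : Atl 2 M} (lab : M → A.ι) (c : A.ι → A.ι → A.ι → ℤ) :
    lp lab c = fun l => of2 c (l.map lab) := by
  funext l
  unfold LnkCup692.lp
  match l with
  | [] => rfl
  | [x] => rfl
  | [x, y] => rfl
  | [x, y, z] => rfl
  | x :: y :: z :: w :: l => rfl


section form

variable {R : Type*} [AddCommGroup R] (O : OrE M R) {A : Atl 2 M} {lab : M → A.ι}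

/-- the intersection form on the cocycles of the cover by the chart domains -/
def Ifm (lab : M → A.ι) (c c' : A.ι → A.ι → A.ι → ℤ) : R :=
  O.E (ASZ627.cup 2 (lp lab c) (lp lab c'))

theorem cl_lp (hlab : Lab (UA A) lab) {c : A.ι → A.ι → A.ι → ℤ} (hc : IsZ2 (UA A) c) :
    Cl 3 (lp lab c) := by
  rw [lp_eq_of2, cl_iff_asn]
  exact goodA_cl_label2 hlab (mem_Z2_iff.2 hc)







end form

section dual

variable {R : Type*} [AddCommGroup R] (O : OrE M R) {A : Atl 2 M} {lab : M → A.ι}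

/-- the output of the zigzag on a compact surface: every integral 2-cycle of the nerve is dual to a
closed Alexander-Spanier 2-cochain -/
def Zig (one : R) (lab : M → A.ι) : Prop :=
  ∀ z : A.ι × A.ι × A.ι →₀ ℤ, IsChain2 (UA A) z → bdry2 z = 0 →
    ∃ η : List M → ℤ, ASN627.Cl 2 η ∧ ∀ c, IsZ2 (UA A) c →
      O.E (ASZ627.cup 2 (lp lab c) η) = ev2 c z • one

/-- **unimodularity**: every homomorphism `Z² → ℤ` killing the coboundaries is the product with a
cocycle -/
theorem hdual_of_zig (hA : GoodA A) [Finite A.ι] (hlab : Lab (UA A) lab) (one : R)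
    (zig : Zig O one lab) (φ : TopK106.Z2 (UA A) →+ ℤ)
    (hφ : ∀ x : TopK106.Z2 (UA A), IsB2 (UA A) x.1 → φ x = 0) :
    ∃ c, IsZ2 (UA A) c ∧ ∀ x : TopK106.Z2 (UA A), Ifm O lab x.1 c = φ x • one := by
  obtain ⟨z, hz1, hz2, hz3⟩ := exists_cycle_of_hom φ hφ
  obtain ⟨η, hη, hη2⟩ := zig z hz1 hz2
  obtain ⟨c, β, hc, -, hβ, -⟩ := goodA_as_to_nerve2 hA hlab hη univ
    (fun v hv => absurd (mem_univ v) hv)
  refine ⟨c, mem_Z2_iff.1 hc, fun x => ?_⟩
  rw [← hz3 x, ← hη2 x.1 x.2]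
  have hx : Cl 3 (lp lab x.1) := cl_lp hlab x.2
  have hη' : Cl 3 η := cl_iff_asn.2 hη
  unfold Ifm
  refine (O.cup_congr hx hx hη' (N := fun _ => 0) (N' := of1 β) (fun p => ?_) (fun p => ?_)).symm
  · refine ⟨univ, univ_mem, fun l _ _ => ?_⟩
    beta_reduce
    rw [sub_self, ASZ627.dl_zero]
  · obtain ⟨W, hW, h⟩ := hβ p
    refine ⟨W, hW, fun l hl hlen => ?_⟩
    have h1 := h l hl hlen
    beta_reduce at h1 ⊢
    rw [lp_eq_of2, h1]
    ring

/-- integer valued version -/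
theorem hdual_int (O : OrE M ℤ) (hA : GoodA A) [Finite A.ι] (hlab : Lab (UA A) lab)
    (zig : Zig O 1 lab) (φ : TopK106.Z2 (UA A) →+ ℤ)
    (hφ : ∀ x : TopK106.Z2 (UA A), IsB2 (UA A) x.1 → φ x = 0) :
    ∃ c, IsZ2 (UA A) c ∧ ∀ x : TopK106.Z2 (UA A), Ifm O lab x.1 c = φ x := by
  obtain ⟨c, hc, h⟩ := hdual_of_zig O hA hlab 1 zig φ hφ
  exact ⟨c, hc, fun x => by rw [h x, smul_eq_mul, mul_one]⟩

end dual

end

end Crest.Agent.R275.KAsm106
end

-- ▼ part R275/PDB2_412
section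

set_option autoImplicit false
set_option linter.unusedSectionVars false

noncomputable section

open Set Topology Filter

namespace Crest.Agent.R275.PDB2412

open PD412 PDA412 PDM412 PDB412 ASN627 Zig470 Geo GC293

variable {M : Type} [TopologicalSpace M]

theorem tauP_eq_tau (A : Atl 2 M) (i : A.ι) (p : M) (V : Set M) {l : List M}
    (hl : l.length = 5) : tauP (A.e i) p V l = LnkCup692.tau A i p V l := by
  match l, hl with
  | [x0, x1, x2, x3, x4], _ =>
    unfold tauP LnkCup692.tau LnkCup692.cut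
    by_cases h : ∀ y ∈ [x0, x1, x2, x3, x4], y ∈ V
    · rw [if_pos h, if_pos h, LnkCup692.T4_hv]
      rfl
    · rw [if_neg h, if_neg h]

theorem eqN_tau (A : Atl 2 M) (i : A.ι) (p : M) (V : Set M) :
    EqN 4 (tauP (A.e i) p V) (LnkCup692.tau A i p V) :=
  EqN.of_eq fun _ hl => tauP_eq_tau A i p V hl


theorem tau_of_nrm {A : Atl 2 M} {E : (List M → ℤ) → ℝ} (hE : Ev 3 E) (h : Nrm A E) :
    ∀ i p, p ∈ (A.e i).source → ∃ V ∈ 𝓝 p, closure V ⊆ (A.e i).source ∧
      E (LnkCup692.tau A i p V) = 1 := by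
  intro i p hp
  obtain ⟨V, hV, hVe, h1⟩ := h i p hp
  exact ⟨V, hV, hVe, by rw [← hE.congr _ _ (eqN_tau A i p V)]; exact h1⟩

end Crest.Agent.R275.PDB2412
end
end

-- ▼ part R275/KZig_106

/-!
# R275 (S0418), block K: the zigzag for ordered 2-cycles and the integral form (helper106)

* `exists_dual2` : for an orientation functional `Ev 3 E` with local duality on the nerve, every
  ordered integral 2-cycle `z` of the nerve is dual to a closed compactly supported AS 2-cochain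
  (shape of `PDY945.pDual_of`'s `hzig` and of `KAsm106.Zig`);
* `orE`, `orZ` : `LnkCup692.OrE M ℝ`, `LnkCup692.OrE M ℤ` from `Ev 3 E` (and normalisation);
* `IZ` : the integral intersection form on `M` compact; additive, invariant, unimodular.
-/

set_option autoImplicit false
set_option linter.unusedSectionVars false

open Set Filter Topology

namespace Crest.Agent.R275.KZig106

open TopK106 Zig470

noncomputable section

section cyc

variable {ι : Type*}

/-- an ordered 2-chain as a function on lists -/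
def zL (z : ι × ι × ι →₀ ℤ) : List ι → ℤ
  | [i, j, k] => z (i, j, k)
  | _ => 0

@[simp] theorem zL_three (z : ι × ι × ι →₀ ℤ) (i j k : ι) : zL z [i, j, k] = z (i, j, k) := rfl

theorem zL_ne {z : ι × ι × ι →₀ ℤ} {I : List ι} (h : zL z I ≠ 0) :
    ∃ i j k, I = [i, j, k] ∧ z (i, j, k) ≠ 0 := by
  match I, h with
  | [], h => exact absurd rfl h
  | [_], h => exact absurd rfl h
  | [_, _], h => exact absurd rfl h
  | [i, j, k], h => exact ⟨i, j, k, rfl, h⟩
  | _ :: _ :: _ :: _ :: _, h => exact absurd rfl h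

open Classical in
/-- the vertices of a 2-chain -/
def vert (z : ι × ι × ι →₀ ℤ) : Finset ι :=
  z.support.image (fun σ => σ.1) ∪ z.support.image (fun σ => σ.2.1) ∪
    z.support.image (fun σ => σ.2.2)

theorem support_subset (z : ι × ι × ι →₀ ℤ) : z.support ⊆ vert z ×ˢ vert z ×ˢ vert z := by
  classical
  intro σ hσ
  simp only [Finset.mem_product, vert, Finset.mem_union, Finset.mem_image]
  exact ⟨Or.inl (Or.inl ⟨σ, hσ, rfl⟩), Or.inl (Or.inr ⟨σ, hσ, rfl⟩), Or.inr ⟨σ, hσ, rfl⟩⟩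

theorem sum_eq (z : ι × ι × ι →₀ ℤ) {T : Finset ι} (hT : z.support ⊆ T ×ˢ T ×ˢ T)
    (c : ι → ι → ι → ℤ) :
    (z.sum fun σ a => a * c σ.1 σ.2.1 σ.2.2) =
      ∑ i ∈ T, ∑ j ∈ T, ∑ k ∈ T, z (i, j, k) * c i j k := by
  rw [Finsupp.sum_of_support_subset z hT _ (fun _ _ => by simp), Finset.sum_product]
  refine Finset.sum_congr rfl fun i _ => ?_
  rw [Finset.sum_product]

theorem sum_eq_sumT (z : ι × ι × ι →₀ ℤ) {T : Finset ι} (hT : z.support ⊆ T ×ˢ T ×ˢ T)
    (c : ι → ι → ι → ℤ) :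
    (z.sum fun σ a => a * c σ.1 σ.2.1 σ.2.2) =
      sumT T (2 + 1) (fun I => ASConv293.of2 c I * zL z I) := by
  rw [sum_eq z hT]
  simp only [sumT_succ, sumT_zero, ASConv293.of2_apply, zL_three]
  exact Finset.sum_congr rfl fun i _ => Finset.sum_congr rfl fun j _ =>
    Finset.sum_congr rfl fun k _ => mul_comm _ _

theorem bdT_zL (z : ι × ι × ι →₀ ℤ) {T : Finset ι} (hT : z.support ⊆ T ×ˢ T ×ˢ T)
    (hcyc : ∀ b : ι → ι → ℤ,
      (z.sum fun σ a => a * (b σ.2.1 σ.2.2 - b σ.1 σ.2.2 + b σ.1 σ.2.1)) = 0)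
    (K : List ι) (hK : TL T 2 K) : bdT T (zL z) K = 0 := by
  classical
  obtain ⟨a, b, rfl⟩ : ∃ a b, K = [a, b] := by
    match K, hK.1 with
    | [a, b], _ => exact ⟨a, b, rfl⟩
  have ha : a ∈ T := hK.2 a (by simp)
  have hb : b ∈ T := hK.2 b (by simp)
  have h := hcyc (fun u v => if u = a ∧ v = b then 1 else 0)
  rw [sum_eq z hT (fun i j k => (if j = a ∧ k = b then (1 : ℤ) else 0) -
    (if i = a ∧ k = b then 1 else 0) + (if i = a ∧ j = b then 1 else 0))] at h
  simp only [mul_add, mul_sub, Finset.sum_add_distrib, Finset.sum_sub_distrib] at h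
  have e1 : ∑ i ∈ T, ∑ j ∈ T, ∑ k ∈ T, z (i, j, k) * (if j = a ∧ k = b then (1 : ℤ) else 0) =
      ∑ i ∈ T, z (i, a, b) := by
    refine Finset.sum_congr rfl fun i _ => ?_
    rw [Finset.sum_eq_single a, Finset.sum_eq_single b]
    · simp
    · intro k _ hk; simp [hk]
    · intro h; exact absurd hb h
    · intro j _ hj; simp [hj]
    · intro h; exact absurd ha h
  have e2 : ∑ i ∈ T, ∑ j ∈ T, ∑ k ∈ T, z (i, j, k) * (if i = a ∧ k = b then (1 : ℤ) else 0) =
      ∑ j ∈ T, z (a, j, b) := by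
    rw [Finset.sum_eq_single a]
    · refine Finset.sum_congr rfl fun j _ => ?_
      rw [Finset.sum_eq_single b]
      · simp
      · intro k _ hk; simp [hk]
      · intro h; exact absurd hb h
    · intro j _ hj; simp [hj]
    · intro h; exact absurd ha h
  have e3 : ∑ i ∈ T, ∑ j ∈ T, ∑ k ∈ T, z (i, j, k) * (if i = a ∧ j = b then (1 : ℤ) else 0) =
      ∑ k ∈ T, z (a, b, k) := by
    rw [Finset.sum_eq_single a]
    · rw [Finset.sum_eq_single b]
      · refine Finset.sum_congr rfl fun k _ => ?_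
        simp
      · intro k _ hk; simp [hk]
      · intro h; exact absurd hb h
    · intro j _ hj; simp [hj]
    · intro h; exact absurd ha h
  rw [e1, e2, e3] at h
  simp only [bdT_cons, bdT_nil, zL_three]
  linarith

end cyc

section zig

variable {M : Type*} [TopologicalSpace M] {ι : Type*} {U : ι → Set M} {lab : M → ι}
  {E : (List M → ℤ) → ℝ}

theorem ncoc_of2 {c : ι → ι → ι → ℤ} (hc : IsZ2 U c) : NCoc U 2 (ASConv293.of2 c) := by
  intro l hl hlen
  obtain ⟨i, j, k, m, rfl⟩ : ∃ i j k m, l = [i, j, k, m] := by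
    match l, hlen with
    | [i, j, k, m], _ => exact ⟨i, j, k, m, rfl⟩
  obtain ⟨x, hx⟩ := hl
  have h := hc i j k m ⟨x, ⟨⟨hx i (by simp), hx j (by simp)⟩, hx k (by simp)⟩, hx m (by simp)⟩
  simp only [ASZ627.dl_cons, ASZ627.dl_nil, ASConv293.of2_apply]
  linarith

/-- **every ordered integral 2-cycle is dual to a closed cochain with compact support** -/
theorem exists_dual2 (hlab : Rob U lab) (D : Ev 3 E)
    (hloc : ∀ J, J ≠ [] → Nv U J → LocW 3 E (UJ U J)) (z : ι × ι × ι →₀ ℤ)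
    (hz : ∀ σ, z σ ≠ 0 → (U σ.1 ∩ U σ.2.1 ∩ U σ.2.2).Nonempty)
    (hcyc : ∀ b : ι → ι → ℤ,
      (z.sum fun σ a => a * (b σ.2.1 σ.2.2 - b σ.1 σ.2.2 + b σ.1 σ.2.1)) = 0) :
    ∃ η : List M → ℤ, ASN627.Cl 2 η ∧ IsCompact (ASN627.supp 2 η) ∧
      ASN627.supp 2 η ⊆ ⋃ y ∈ vert z, U y ∧ ∀ c : ι → ι → ι → ℤ, IsZ2 U c →
        E (ASZ627.cup 2 (fun l => ASConv293.of2 c (l.map lab)) η) =
          ((z.sum fun σ a => a * c σ.1 σ.2.1 σ.2.2 : ℤ) : ℝ) := by
  obtain ⟨η, h1, h2, h3, h4⟩ := zigzag (T := vert z) (p := 2) (z := zL z) hlab D hloc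
    (fun I hI => by
      obtain ⟨i, j, k, rfl, h⟩ := zL_ne hI
      obtain ⟨x, ⟨hi, hj⟩, hk⟩ := hz _ h
      refine ⟨x, fun v hv => ?_⟩
      simp only [List.mem_cons, List.not_mem_nil, or_false] at hv
      rcases hv with rfl | rfl | rfl
      exacts [hi, hj, hk])
    (bdT_zL z (support_subset z) hcyc) (d := 2) rfl
  exact ⟨η, h1, h2, h3, fun c hc => by
    rw [sum_eq_sumT z (support_subset z)]
    exact h4 _ (ncoc_of2 hc)⟩

end zig

section orE

variable {M : Type*} [TopologicalSpace M] [CompactSpace M] {E : (List M → ℤ) → ℝ}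

/-- the orientation functional in the format of helper692 -/
def orE (D : Ev 3 E) : LnkCup692.OrE M ℝ where
  E := E
  add f g hf hg := D.add f g hf hg (ASN627.isClosed_supp _ _).isCompact
    (ASN627.isClosed_supp _ _).isCompact
  bd f ψ h := by
    rw [D.congr f (ASZ627.dl ψ) h]
    exact D.dl ψ (ASN627.isClosed_supp _ _).isCompact

@[simp] theorem orE_E (D : Ev 3 E) : (orE D).E = E := rfl

/-- the integral orientation functional -/
def orZ (D : Ev 3 E) (hint : ∀ g, ASN627.Cl 4 g → ∃ m : ℤ, E g = m) : LnkCup692.OrE M ℤ where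
  E := fun f => ⌊E f⌋
  add f g hf hg := by
    obtain ⟨m, hm⟩ := hint f hf
    obtain ⟨n, hn⟩ := hint g hg
    have h := (orE D).add f g hf hg
    rw [orE_E] at h
    rw [h, hm, hn, ← Int.cast_add, Int.floor_intCast, Int.floor_intCast, Int.floor_intCast]
  bd := fun f ψ h => by
    have := (orE D).bd f ψ h
    rw [orE_E] at this
    rw [this, Int.floor_zero]

theorem orZ_cast (D : Ev 3 E) (hint : ∀ g, ASN627.Cl 4 g → ∃ m : ℤ, E g = m) {f : List M → ℤ}
    (hf : ASN627.Cl 4 f) : (((orZ D hint).E f : ℤ) : ℝ) = E f := by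
  obtain ⟨m, hm⟩ := hint f hf
  show ((⌊E f⌋ : ℤ) : ℝ) = E f
  rw [hm, Int.floor_intCast]

end orE

section geo

open Geo GC293 ASConv293 KAsm106 PDB412

variable {M : Type} [TopologicalSpace M] [CompactSpace M] [T2Space M] {A : Atl 2 M}
  {E : (List M → ℤ) → ℝ} {lab : M → A.ι}

theorem rob_of_lab {ι : Type*} {U : ι → Set M} {lab : M → ι} (h : Lab U lab) : Rob U lab := by
  intro x
  obtain ⟨F, h1, h2⟩ := h x
  exact h2.mono fun y hy => h1 _ hy

theorem hint_of (hA : GoodA A) (D : Ev 3 E) (hN : Nrm A E) :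
    ∀ f, ASN627.Cl 4 f → ∃ m : ℤ, E f = m := fun f hf =>
  integral_goodA hA D hN hf (ASN627.isClosed_supp _ _).isCompact

/-- the integral orientation functional of a good atlas -/
def orA (hA : GoodA A) (D : Ev 3 E) (hN : Nrm A E) : LnkCup692.OrE M ℤ :=
  orZ D (hint_of hA D hN)

/-- integral intersection form on the cocycles of the cover by the chart domains -/
def IZ (hA : GoodA A) (D : Ev 3 E) (hN : Nrm A E) (lab : M → A.ι)
    (c c' : A.ι → A.ι → A.ι → ℤ) : ℤ :=
  Ifm (orA hA D hN) lab c c'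

variable (hA : GoodA A) (D : Ev 3 E) (hN : Nrm A E) (hlab : Lab (UA A) lab)

theorem cl_cup {c c' : A.ι → A.ι → A.ι → ℤ} (hlab : Lab (UA A) lab) (hc : IsZ2 (UA A) c)
    (hc' : IsZ2 (UA A) c') :
    ASN627.Cl 4 (ASZ627.cup 2 (LnkCup692.lp lab c) (LnkCup692.lp lab c')) :=
  LnkCup692.Cl.cup (p := 2) (q := 2) (cl_lp hlab hc) (cl_lp hlab hc')

include hlab

/-- the integral form is `E` of the cup product -/
theorem IZ_cast {c c' : A.ι → A.ι → A.ι → ℤ} (hc : IsZ2 (UA A) c) (hc' : IsZ2 (UA A) c') :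
    ((IZ hA D hN lab c c' : ℤ) : ℝ) =
      E (ASZ627.cup 2 (LnkCup692.lp lab c) (LnkCup692.lp lab c')) :=
  orZ_cast D (hint_of hA D hN) (cl_cup hlab hc hc')





/-- the zigzag for the integral functional -/
theorem zig_orA : Zig (orA hA D hN) 1 lab := by
  intro z hz hcyc
  obtain ⟨η, h1, -, -, h4⟩ := exists_dual2 (U := UA A) (rob_of_lab hlab) D (locW_goodA hA D hN) z
    (fun σ hσ => hz σ (Finsupp.mem_support_iff.2 hσ)) (fun b => by
      have := ev2_d1 b z
      rw [hcyc] at this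
      simpa [ev2, d1] using this)
  refine ⟨η, h1, fun c hc => ?_⟩
  have hcl : ASN627.Cl 4 (ASZ627.cup 2 (LnkCup692.lp lab c) η) :=
    LnkCup692.Cl.cup (p := 2) (q := 2) (cl_lp hlab hc) (LnkCup692.cl_iff_asn.2 h1)
  have e1 := orZ_cast D (hint_of hA D hN) hcl
  rw [lp_eq_of2, h4 c hc] at e1
  have e2 : (orZ D (hint_of hA D hN)).E (ASZ627.cup 2 (LnkCup692.lp lab c) η) =
      z.sum fun σ a => a * c σ.1 σ.2.1 σ.2.2 := by
    rw [lp_eq_of2]
    exact_mod_cast e1
  rw [smul_eq_mul, mul_one]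
  exact e2

/-- **unimodularity of the integral form** -/
theorem IZ_dual [Finite A.ι] (φ : TopK106.Z2 (UA A) →+ ℤ)
    (hφ : ∀ x : TopK106.Z2 (UA A), IsB2 (UA A) x.1 → φ x = 0) :
    ∃ c, IsZ2 (UA A) c ∧ ∀ x : TopK106.Z2 (UA A), IZ hA D hN lab x.1 c = φ x :=
  hdual_int (orA hA D hN) hA hlab (zig_orA hA D hN hlab) φ hφ

end geo

end

end Crest.Agent.R275.KZig106
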