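import Crest.Agent.R275.Del_75

/-!
# R275, block O/EU (helper75): the bundle `⊕_p Ω^p` on a surface, with its Fock structure

`OmTot A : VBun A` (`A : Atl 2 M`), fibre `Fin 4 = (1, dz_0, dz_1, dz_0 ∧ dz_1)`;
`fE a` = `dz_a ∧`, `fI a` = contraction, `pdeg` = holomorphic degree.
-/

set_option autoImplicit false
set_option linter.unusedSectionVars false
set_option linter.unusedSimpArgs false
set_option linter.unnecessarySeqFocus false

open Set Filter Topology Complex
open scoped ContDiff Matrix ComplexConjugate Kronecker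

namespace Crest.Agent.R275.OmT75

open Geo

noncomputable section

variable {n : ℕ} {M : Type} [TopologicalSpace M]

theorem dj_holo {a : Fin n} {f : Cn n → ℂ} {z : Cn n} (hf : DifferentiableAt ℂ f z) :
    dj a f z = fderiv ℂ f z (EuclideanSpace.single a 1) := by
  have h : EuclideanSpace.single a I = I • (EuclideanSpace.single a (1 : ℂ) : Cn n) := by
    ext b; simp
  unfold dj
  rw [h, R266.SCV.fderiv_real_smul_I hf, R266.SCV.fderiv_real_eq hf, smul_smul, I_mul_I]
  simp only [smul_eq_mul]
  ring

section general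

variable {A : Atl n M}

/-- symmetry of the second derivatives of the coordinate change -/
theorem dl_J_symm {i j : A.ι} {x : M} (hx : x ∈ (A.e i).source ∩ (A.e j).source)
    (a b c : Fin n) : dl A i a (fun y => A.J i j y b c) x = dl A i c (fun y => A.J i j y b a) x := by
  have hz := mem_ov hx
  have key : ∀ a c : Fin n, dl A i a (fun y => A.J i j y b c) x
      = (fderiv ℂ (fderiv ℂ (tr A i j)) (A.e i x) (EuclideanSpace.single a 1)
          (EuclideanSpace.single c 1)) b := by
    intro a c
    have e1 : (fun z => A.J i j ((A.e i).symm z) b c) =ᶠ[𝓝 (A.e i x)]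
        fun z => (fderiv ℂ (tr A i j) z (EuclideanSpace.single c 1)) b := by
      filter_upwards [(isOpen_ov i j).mem_nhds hz] with z hz'
      rw [J_eq, (A.e i).right_inv hz'.1]
    have h1 : DifferentiableAt ℂ (fderiv ℂ (tr A i j)) (A.e i x) :=
      ((tr_analytic i j).fderiv _ hz).differentiableAt
    have h2 : HasFDerivAt (fun z => (fderiv ℂ (tr A i j) z (EuclideanSpace.single c 1)) b)
        ((EuclideanSpace.proj (𝕜 := ℂ) b : Cn n →L[ℂ] ℂ).comp
          ((ContinuousLinearMap.apply ℂ (Cn n) (EuclideanSpace.single c (1 : ℂ))).comp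
            (fderiv ℂ (fderiv ℂ (tr A i j)) (A.e i x)))) (A.e i x) :=
      ((EuclideanSpace.proj (𝕜 := ℂ) b : Cn n →L[ℂ] ℂ).hasFDerivAt).comp _
        (((ContinuousLinearMap.apply ℂ (Cn n)
          (EuclideanSpace.single c (1 : ℂ))).hasFDerivAt).comp _ h1.hasFDerivAt)
    unfold dl
    rw [dj_congr e1, dj_holo h2.differentiableAt, h2.fderiv]
    rfl
  rw [key, key]
  have hs : IsSymmSndFDerivAt ℂ (tr A i j) (A.e i x) :=
    ((tr_analytic i j _ hz).contDiffAt (n := ω)).isSymmSndFDerivAt le_top
  rw [hs (EuclideanSpace.single a 1) (EuclideanSpace.single c 1)]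

end general

variable {A : Atl 2 M}

/-- the Jacobian determinant -/
def dJ (A : Atl 2 M) (i j : A.ι) (x : M) : ℂ :=
  A.J i j x 0 0 * A.J i j x 1 1 - A.J i j x 0 1 * A.J i j x 1 0








/-- holomorphic degree -/
def pdeg : Fin 4 → ℕ := ![0, 1, 1, 2]














end

end Crest.Agent.R275.OmT75
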