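import Crest.Agent.R275.SerB_398_Mg
import Crest.Agent.R275.C1g_509
import Crest.Agent.R275.PaiB_323

-- ▼ part R275/SerI_398
section

/-!
# R275, block C6 (Serre duality), G5 (helper398): the compact instance of the abstract duality

* `Jf P` : the finite set of active charts on a compact manifold, `sum_mulSec` : partition of a section;
* `pr_pt` : operators of order zero; `pr_pqL` : degrees;
* `KGL_eq_sum`, `pr_KGL` : transpose of the parametrix;
* `mkSD`, `mkGr` : duality data from the Riesz property of the two remainders.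
-/

set_option autoImplicit false
set_option linter.unusedSectionVars false

open Set Filter Topology Complex MeasureTheory
open scoped ContDiff Matrix ComplexConjugate Kronecker

namespace Crest.Agent.R275.SerG398

open Geo C1d194 TorS666
open Tor812 (SPer Kop)

noncomputable section

variable {n : ℕ} {M : Type} [TopologicalSpace M] {A : Atl n M}
variable {m : A.ι → A.ι → M → ℂ} {B B' : FBun A}

/-! ### finite partition of a section -/

section part

variable [CompactSpace M] (P : Part A)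

theorem finite_act : {i : A.ι | (tsupport (P.χ i)).Nonempty}.Finite := by
  have h := P.lf univ isCompact_univ
  simpa using h

/-- the active charts -/
def Jf : Finset A.ι := (finite_act P).toFinset

theorem not_mem_Jf {i : A.ι} (hi : i ∉ Jf P) (x : M) : x ∉ tsupport (P.χ i) := by
  intro hx
  exact hi ((Set.Finite.mem_toFinset _).2 ⟨x, hx⟩)

theorem sum_psi (x : M) : ∑ i ∈ Jf P, P.ψ i x = 1 := by
  rw [← P.sum_one x]
  symm
  refine finsum_eq_sum_of_support_subset _ ?_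
  intro i hi
  by_contra hiJ
  apply hi
  exact image_eq_zero_of_notMem_tsupport
    fun hx => not_mem_Jf P (by simpa using hiJ) x (tsupport_psi_sub P i hx)

/-- `u = ∑ ψ_i u` -/
theorem sum_mulSec (u : Sec B) : ∑ i ∈ Jf P, mulSec B (sm_ofReal' (P.ψ_sm i)) u = u := by
  apply Subtype.ext
  rw [AddSubmonoidClass.coe_finsetSum]
  funext i x
  rw [Finset.sum_apply, Finset.sum_apply]
  show ∑ c ∈ Jf P, ((P.ψ c x : ℝ) : ℂ) • u.1 i x = u.1 i x
  rw [← Finset.sum_smul, ← Complex.ofReal_sum, sum_psi P x]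
  simp

theorem offZ_mulSec (u : Sec B) (i : A.ι) :
    OffZ (mulSec B (sm_ofReal' (P.ψ_sm i)) u).1 (tsupport (P.ψ i)) := by
  intro c x hx
  show ((P.ψ i x : ℝ) : ℂ) • u.1 c x = 0
  rw [image_eq_zero_of_notMem_tsupport hx]
  simp

/-- the pairing in terms of the partition of unity -/
theorem pr_eq_sum {D : FPair m B B'} {pr : Sec B →ₗ[ℂ] Sec B' →ₗ[ℂ] ℂ} (h : IsPr D pr) (u : Sec B)
    (w : Sec B') : pr u w =
      ∑ i ∈ Jf P, lint A i (fun y => (P.ψ i y : ℂ) * (u.1 i y ⬝ᵥ (D.S *ᵥ w.1 i y))) := by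
  conv_lhs => rw [← sum_mulSec P u]
  rw [map_sum, LinearMap.sum_apply]
  refine Finset.sum_congr rfl fun i _ => ?_
  rw [h.locL i (tsupport (P.ψ i)) (isCompact_psi P i) (isClosed_tsupport _) (psi_sub P i) _ w
    (offZ_mulSec P u i)]
  refine lint_congr fun y _ => ?_
  show ((P.ψ i y : ℂ) • u.1 i y) ⬝ᵥ (D.S *ᵥ w.1 i y) = _
  rw [smul_dotProduct, smul_eq_mul]

include P in
/-- adjointness of operators of order zero -/
theorem pr_pt {D : FPair m B B'} {pr : Sec B →ₗ[ℂ] Sec B' →ₗ[ℂ] ℂ} (h : IsPr D pr) {u u' : Sec B}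
    {w w' : Sec B'} (hp : ∀ i, ∀ x ∈ (A.e i).source,
      u.1 i x ⬝ᵥ (D.S *ᵥ w.1 i x) = u'.1 i x ⬝ᵥ (D.S *ᵥ w'.1 i x)) : pr u w = pr u' w' := by
  rw [pr_eq_sum P h, pr_eq_sum P h]
  refine Finset.sum_congr rfl fun i _ => lint_congr fun y hy => ?_
  rw [hp i y hy]

end part

/-! ### degrees -/

/-- the matrix of the complementary degree -/
theorem Dq_S (D : FPair m B B') {q : ℕ} (hq : q ≤ D.N) :
    Geo.Dq B q * D.S = D.S * Geo.Dq B' (D.N - q) := by
  ext k l
  rw [Geo.Dq_mul_apply, Geo.mul_Dq_apply]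
  by_cases h : D.S k l = 0
  · simp [h]
  · have := D.degree k l h
    congr 1
    apply propext
    constructor
    · intro h1; omega
    · intro h1; omega

theorem Dq_S_zero (D : FPair m B B') {q : ℕ} (hq : D.N < q) : Geo.Dq B q * D.S = 0 := by
  ext k l
  rw [Geo.Dq_mul_apply]
  by_cases h : D.S k l = 0
  · simp [h]
  · have := D.degree k l h
    rw [if_neg (by omega)]
    rfl


/-- the projection on the other side -/
def rhoL (D : FPair m B B') (q : ℕ) : Sec B' →ₗ[ℂ] Sec B' :=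
  if q ≤ D.N then Geo.pqL B' (D.N - q) else 0

theorem pr_pqL [CompactSpace M] (P : Part A) {D : FPair m B B'}
    {pr : Sec B →ₗ[ℂ] Sec B' →ₗ[ℂ] ℂ} (h : IsPr D pr) (q : ℕ) (u : Sec B) (w : Sec B') :
    pr (Geo.pqL B q u) w = pr u (rhoL D q w) := by
  have h1 : ∀ i x, (Geo.Dq B q *ᵥ u.1 i x) ⬝ᵥ (D.S *ᵥ w.1 i x)
      = u.1 i x ⬝ᵥ ((Geo.Dq B q * D.S) *ᵥ w.1 i x) := by
    intro i x
    rw [← Matrix.mulVec_mulVec, Matrix.dotProduct_mulVec (u.1 i x) (Geo.Dq B q),
      ← Matrix.mulVec_transpose]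
    congr 2
    exact (Matrix.diagonal_transpose _).symm
  unfold rhoL
  split_ifs with hq
  · refine pr_pt P h fun i x _ => ?_
    show (Geo.Dq B q *ᵥ u.1 i x) ⬝ᵥ (D.S *ᵥ w.1 i x) =
      u.1 i x ⬝ᵥ (D.S *ᵥ (Geo.Dq B' (D.N - q) *ᵥ w.1 i x))
    rw [h1, Dq_S D hq, Matrix.mulVec_mulVec]
  · refine pr_pt P h fun i x _ => ?_
    show (Geo.Dq B q *ᵥ u.1 i x) ⬝ᵥ (D.S *ᵥ w.1 i x) =
      u.1 i x ⬝ᵥ (D.S *ᵥ (0 : B'.κ → ℂ))
    rw [h1, Dq_S_zero D (by omega), Matrix.zero_mulVec, Matrix.mulVec_zero]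

/-! ### the parametrix -/

theorem KT_eq {κ : Type} [Fintype κ] (io : Fin n → Matrix κ κ ℂ) (f : κ → SPer (RI n)) :
    Geo.KT io f = Tor812.KT io f := by
  funext k
  show (∑ a, mT (io a) (Geo.cw (Kop a) f)) k = ∑ a, ∑ l, io a k l • Kop a (f l)
  rw [Finset.sum_apply]
  rfl

theorem ext_compact_eq [CompactSpace M] (P : Part A) {κ' : Type} [Fintype κ']
    {b : A.ι → M → Matrix B.κ κ' ℂ} (hb : Geo.AmpF P b) (f : A.ι → κ' → SPer (RI n)) :
    Geo.ExtF B b f = ∑ j ∈ Jf P, ext B j (b j) (f j) := by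
  funext i x
  rw [Finset.sum_apply, Finset.sum_apply]
  unfold Geo.ExtF
  refine finsum_eq_sum_of_support_subset _ ?_
  intro j hj
  by_contra hjJ
  apply hj
  exact ext_zero_off B j (fun hx => not_mem_Jf P (by simpa using hjJ) x (hb.sub j hx)) (f j)

theorem KGL_eq_sum [CompactSpace M] (P : Part A) {b a : A.ι → M → Matrix B.κ B.κ ℂ}
    (hb : Geo.AmpF P b) (ha : Geo.AmpF P a) (u : Sec B) :
    Geo.KGL hb ha u = ∑ j ∈ Jf P, EK B j (a j) (hb.amp j) u := by
  apply Subtype.ext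
  rw [AddSubmonoidClass.coe_finsetSum]
  show Geo.ExtF B b (fun j => Geo.KT B.io (loc A j (a j) (u.1 j))) = _
  rw [ext_compact_eq P hb]
  refine Finset.sum_congr rfl fun j _ => ?_
  rw [KT_eq]
  rfl

theorem ampF_tr (D : FPair m B B') {P : Part A} {a : A.ι → M → Matrix B.κ B.κ ℂ}
    (ha : Geo.AmpF P a) : Geo.AmpF P (fun j x => D.tr (a j x)) := by
  refine ⟨fun j => isAmp_tr D (ha.amp j), fun j => ?_⟩
  refine closure_minimal ?_ (isClosed_tsupport _)
  intro x hx
  by_contra h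
  apply hx
  have h' : x ∉ tsupport (a j) := fun h1 => h (ha.sub j h1)
  show D.tr (a j x) = 0
  rw [amp_zero h']
  unfold FPair.tr
  simp

/-- **transpose of the parametrix** -/
theorem pr_KGL [CompactSpace M] (P : Part A) {D : FPair m B B'}
    {pr : Sec B →ₗ[ℂ] Sec B' →ₗ[ℂ] ℂ} (h : IsPr D pr) {b a : A.ι → M → Matrix B.κ B.κ ℂ}
    (hb : Geo.AmpF P b) (ha : Geo.AmpF P a) (u : Sec B) (w : Sec B') :
    pr (Geo.KGL hb ha u) w = pr u (Geo.KGL (ampF_tr D ha) (ampF_tr D hb) w) := by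
  rw [KGL_eq_sum P, KGL_eq_sum P]
  exact pr_sum_EK h (Jf P) ha.amp hb.amp u w

theorem tr_chi (D : FPair m B B') (P : Part A) :
    (fun j x => D.tr (P.chi B.κ j x)) = P.chi B'.κ := by
  funext j x
  exact D.tr_smul_one _

theorem tr_psi (D : FPair m B B') (P : Part A) :
    (fun j x => D.tr (P.psi B.κ j x)) = P.psi B'.κ := by
  funext j x
  exact D.tr_smul_one _

theorem KGL_congr {P : Part A} {b a b' a' : A.ι → M → Matrix B.κ B.κ ℂ} (hb : Geo.AmpF P b)
    (ha : Geo.AmpF P a) (hb' : Geo.AmpF P b') (ha' : Geo.AmpF P a') (h1 : b = b') (h2 : a = a') :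
    Geo.KGL hb ha = Geo.KGL hb' ha' := by
  subst h1 h2
  rfl

theorem pr_KML [CompactSpace M] (P : Part A) {D : FPair m B B'}
    {pr : Sec B →ₗ[ℂ] Sec B' →ₗ[ℂ] ℂ} (h : IsPr D pr) (u : Sec B) (w : Sec B') :
    pr (Geo.KML B P u) w = pr u (Geo.KGL (P.amp_psi B'.κ) (P.amp_chi B'.κ) w) := by
  unfold Geo.KML
  rw [pr_KGL P h]
  rw [KGL_congr _ _ (P.amp_psi B'.κ) (P.amp_chi B'.κ) (tr_psi D P) (tr_chi D P)]

/-! ### the duality data -/

theorem one_sub_KML (P : Part A) :
    (1 : Module.End ℂ (Sec B)) - (nabL B * Geo.KML B P + Geo.KML B P * nabL B) = Geo.RML B P := by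
  have h := Geo.nabL_KML B P
  have h2 : nabL B * Geo.KML B P + Geo.KML B P * nabL B = 1 - Geo.RML B P := h
  rw [h2]
  abel

theorem one_sub_swap (P : Part A) :
    (1 : Module.End ℂ (Sec B)) - (nabL B * Geo.KGL (P.amp_psi B.κ) (P.amp_chi B.κ) +
      Geo.KGL (P.amp_psi B.κ) (P.amp_chi B.κ) * nabL B) =
      Geo.RGL (P.amp_psi B.κ) (P.amp_chi B.κ) := by
  have h2 : nabL B * Geo.KGL (P.amp_psi B.κ) (P.amp_chi B.κ) +
      Geo.KGL (P.amp_psi B.κ) (P.amp_chi B.κ) * nabL B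
        = 1 - Geo.RGL (P.amp_psi B.κ) (P.amp_chi B.κ) :=
    LinearMap.ext fun u => Subtype.ext (Geo.nab_KG_swap B P u.2)
  rw [h2]
  abel

/-- **the duality data on a compact manifold** -/
def mkSD [CompactSpace M] (P : Part A) {D : FPair m B B'} {pr : Sec B →ₗ[ℂ] Sec B' →ₗ[ℂ] ℂ}
    (h : IsPr D pr) (hd : ∀ u : Sec B, nabL B (nabL B u) = 0)
    (h1 : Ser940.RieszP (Geo.RML B P : Module.End ℂ (Sec B)))
    (h2 : Ser940.RieszP (Geo.RGL (P.amp_psi B'.κ) (P.amp_chi B'.κ) : Module.End ℂ (Sec B'))) :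
    Ser940.SD ℂ (Sec B) (Sec B') where
  d := nabL B
  K := Geo.KML B P
  e := nabL B'
  M := Geo.KGL (P.amp_psi B'.κ) (P.amp_chi B'.κ)
  b := pr
  dd := hd
  sepV := fun u hu => sep_left P h hu
  sepW := fun w hw => sep_right P h hw
  bd := pr_nab P h
  bK := pr_KML P h
  rV := by rw [one_sub_KML]; exact h1
  rW := by rw [one_sub_swap]; exact h2

/-- **the gradings** -/
def mkGr [CompactSpace M] (P : Part A) {D : FPair m B B'} {pr : Sec B →ₗ[ℂ] Sec B' →ₗ[ℂ] ℂ}
    (h : IsPr D pr) (hd : ∀ u : Sec B, nabL B (nabL B u) = 0)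
    (h1 : Ser940.RieszP (Geo.RML B P : Module.End ℂ (Sec B)))
    (h2 : Ser940.RieszP (Geo.RGL (P.amp_psi B'.κ) (P.amp_chi B'.κ) : Module.End ℂ (Sec B'))) :
    Ser940.Gr (mkSD P h hd h1 h2) where
  π := Geo.pqL B
  ρ := rhoL D
  idem q v := LinearMap.congr_fun (Geo.pqL_idem (B := B) q) v
  dπ q v := LinearMap.congr_fun (Geo.nabL_pqL (B := B) q) v
  π0 v := LinearMap.congr_fun (Geo.pqL_zero_nabL (B := B)) v
  bπ := pr_pqL P h

end

end Crest.Agent.R275.SerG398
end

-- ▼ part R275/SerH_398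

/-!
# R275, block C6 (Serre duality), final statements on a compact manifold (helper398)

* `Zd B q`, `Bd B q`, `hB B q` : closed / exact sections of degree `q`, dimension of the cohomology;
* `Rz P B` : the Riesz property of the two remainders;
* `serre` : `hB B q = hB B' (N - q)`, `finite`, `exact_iff` (orthogonality), `exact_of_vanish`.
* `finrank_quot_eq` : comparison of subquotients.
-/

set_option autoImplicit false
set_option linter.unusedSectionVars false

open Set Filter Topology Complex MeasureTheory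
open scoped ContDiff Matrix ComplexConjugate Kronecker

namespace Crest.Agent.R275.SerG398

open Geo C1d194 TorS666
open Tor812 (SPer Kop)

noncomputable section

/-! ### comparison of subquotients -/

theorem finrank_quot_eq {K V U : Type*} [Field K] [AddCommGroup V] [Module K V] [AddCommGroup U]
    [Module K U] (f : V →ₗ[K] U) (s : U →ₗ[K] V) {Z B : Submodule K V} {Z' B' : Submodule K U}
    (h1 : ∀ z ∈ Z, f z ∈ Z') (h2 : ∀ z ∈ Z', s z ∈ Z) (h3 : ∀ z ∈ Z, s (f z) = z)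
    (h4 : ∀ z ∈ Z', f (s z) = z) (h5 : ∀ z ∈ Z, z ∈ B ↔ f z ∈ B') :
    Nonempty ((Z ⧸ B.submoduleOf Z) ≃ₗ[K] (Z' ⧸ B'.comap Z'.subtype)) := by
  let F : Z ≃ₗ[K] Z' := LinearEquiv.ofLinearMap
    ((f.domRestrict Z).codRestrict Z' fun z => h1 z z.2)
    ((s.domRestrict Z').codRestrict Z fun z => h2 z z.2)
    (LinearMap.ext fun z => Subtype.ext (h4 z z.2)) (LinearMap.ext fun z => Subtype.ext (h3 z z.2))
  refine ⟨Submodule.Quotient.equiv _ _ F ?_⟩
  ext z
  constructor
  · rintro ⟨w, hw, rfl⟩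
    exact (h5 w w.2).1 hw
  · intro hz
    refine ⟨F.symm z, ?_, F.apply_symm_apply z⟩
    show (F.symm z : V) ∈ B
    rw [h5 _ (F.symm z).2]
    have : f (F.symm z : V) = z := congrArg Subtype.val (F.apply_symm_apply z)
    rw [this]
    exact hz

/-- dimension of a subquotient -/
def fr {K V : Type*} [Field K] [AddCommGroup V] [Module K V] (Z B : Submodule K V) : ℕ :=
  Module.finrank K (Z ⧸ B.submoduleOf Z)

/-- the subquotient is finite dimensional -/
def FinS {K V : Type*} [Field K] [AddCommGroup V] [Module K V] (Z B : Submodule K V) : Prop :=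
  FiniteDimensional K (Z ⧸ B.submoduleOf Z)

/-! ### cohomology of a Dolbeault bundle -/

variable {n : ℕ} {M : Type} [TopologicalSpace M] {A : Atl n M}
variable {B B' : FBun A}

/-- closed sections of degree `q` -/
def Zd (B : FBun A) (q : ℕ) : Submodule ℂ (Sec B) :=
  LinearMap.ker (nabL B) ⊓ LinearMap.ker (Geo.pqL B q - 1)

/-- exact sections of degree `q` -/
def Bd (B : FBun A) (q : ℕ) : Submodule ℂ (Sec B) :=
  LinearMap.range (nabL B) ⊓ LinearMap.ker (Geo.pqL B q - 1)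

/-- the dimension of the cohomology in degree `q` -/
def hB (B : FBun A) (q : ℕ) : ℕ := fr (Zd B q) (Bd B q)

theorem mem_Zd {q : ℕ} {u : Sec B} : u ∈ Zd B q ↔ nabL B u = 0 ∧ Geo.pqL B q u = u := by
  unfold Zd
  rw [Submodule.mem_inf, LinearMap.mem_ker, LinearMap.mem_ker, LinearMap.sub_apply,
    Module.End.one_apply, sub_eq_zero]

theorem mem_Bd {q : ℕ} {u : Sec B} :
    u ∈ Bd B q ↔ u ∈ LinearMap.range (nabL B) ∧ Geo.pqL B q u = u := by
  unfold Bd
  rw [Submodule.mem_inf, LinearMap.mem_ker, LinearMap.sub_apply,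
    Module.End.one_apply, sub_eq_zero]

/-- the Riesz property of the two remainders of the parametrix of `B` -/
structure Rz (P : Part A) (B : FBun A) : Prop where
  r : Ser940.RieszP (Geo.RML B P : Module.End ℂ (Sec B))
  r' : Ser940.RieszP (Geo.RGL (P.amp_psi B.κ) (P.amp_chi B.κ) : Module.End ℂ (Sec B))

section

variable [CompactSpace M] [T2Space M] (P : Part A) (D : DPair B B')
  (hd : ∀ u : Sec B, nabL B (nabL B u) = 0) (h : Rz P B) (h' : Rz P B')

/-- the duality data of a dual pair -/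
def sd : Ser940.SD ℂ (Sec B) (Sec B') := mkSD P (Pai323.isPr D P) hd h.r h'.r'

/-- its gradings -/
def gr : Ser940.Gr (sd P D hd h h') := mkGr P (Pai323.isPr D P) hd h.r h'.r'

include P D h h' hd

/-- **Serre duality**, orthogonality form -/
theorem exact_iff {q : ℕ} {z : Sec B} (hq : q ≤ D.N) (hz : Geo.pqL B q z = z) :
    (∃ v, nabL B v = z) ↔
      ∀ w : Sec B', nabL B' w = 0 → Geo.pqL B' (D.N - q) w = w → Pai323.pr D P z w = 0 := by
  have h1 := (gr P D hd h h').mem_range_d_iff (q := q) (z := z) hz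
  have h2 : rhoL D q = Geo.pqL B' (D.N - q) := if_pos hq
  have h3 : (gr P D hd h h').ρ q = Geo.pqL B' (D.N - q) := h2
  rw [h3] at h1
  exact h1


/-- **Serre duality**, dimensions -/
theorem serre {q : ℕ} (hq : q ≤ D.N) : hB B q = hB B' (D.N - q) := by
  have h1 := (gr P D hd h h').finrank_H q
  have h2 : (gr P D hd h h').ρ q = Geo.pqL B' (D.N - q) := if_pos hq
  have h3 : (gr P D hd h h').Z' q = Zd B' (D.N - q) := by
    unfold Ser940.Gr.Z' Zd
    rw [h2]
    rfl
  have h4 : (gr P D hd h h').B' q = Bd B' (D.N - q) := by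
    unfold Ser940.Gr.B' Bd
    rw [h2]
    rfl
  unfold Ser940.Gr.H' at h1
  rw [h3, h4] at h1
  exact h1

theorem finite_HB (q : ℕ) : FinS (Zd B q) (Bd B q) :=
  (gr P D hd h h').finite_H q

end

end

end Crest.Agent.R275.SerG398
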