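import Crest.Agent.R275.QN2b_734

/-!
# R275, block N, leaf N2b (helper734), part 2: line cocycles, sections, hermitian duals, `Part A`

* `exists_part_compact`, `exists_part_of_shrink` : existence of `Part A`.
* `IsCo A g` : smooth line cocycle, `IsS0 A g u` : smooth section (raw families).
* `exists_dual` : `∑ θ_a s_a = φ` with `θ_a` smooth sections of the inverse bundles, `φ` supported off
   the common zeros; `exists_dual_off` : `∑ θ_a s_a = 1` off the common zeros.
* `extS` : extension by zero of a local function times a cut-off.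
-/

set_option autoImplicit false
set_option linter.unusedSectionVars false

open Set Filter Topology Complex
open scoped ContDiff Matrix ComplexConjugate

namespace Crest.Agent.R275.QN2b734

open Geo

noncomputable section

variable {n : ℕ} {M : Type} [TopologicalSpace M] {A : Atl n M}

/-! ### existence of `Part A` -/

section part

variable [T2Space M]

theorem exists_part_compact [CompactSpace M] (A : Atl n M) :
    ∃ P : Part A, (∀ i x, 0 ≤ P.ψ i x ∧ P.ψ i x ≤ 1) ∧ (∀ i x, 0 ≤ P.χ i x ∧ P.χ i x ≤ 1) ∧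
      {i | P.χ i ≠ 0}.Finite := by
  classical
  obtain ⟨t, φ, h1, h2, h3, h4, h5, h6, h7⟩ :=
    exists_partition A (ι := A.ι) (K := (univ : Set M)) isCompact_univ (fun i => (A.e i).source)
      (fun i => (A.e i).open_source) (fun x _ => A.cover x)
  have hB : ∀ i, ∃ χ : M → ℝ, (∀ y, SmP A χ y) ∧ (∀ y, 0 ≤ χ y ∧ χ y ≤ 1) ∧
      (∀ᶠ y in 𝓝ˢ (tsupport (φ i)), χ y = 1) ∧ IsCompact (tsupport χ) ∧
      tsupport χ ⊆ (A.e i).source :=
    fun i => exists_bump A (h3 i) (A.e i).open_source (h4 i)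
  choose χ c1 c2 c3 c4 c5 using hB
  have ht0 : tsupport (fun _ : M => (0 : ℝ)) = ∅ := by simp
  refine ⟨{ ψ := φ, χ := fun i => if i ∈ t then χ i else fun _ => 0,
            ψ_sm := fun i => sm_iff.2 (h1 i), χ_sm := fun i => ?_, χ_cpt := fun i => ?_,
            χ_sub := fun i => ?_, χ_one := fun i x hx => ?_, lf := fun K _ => ?_,
            sum_one := fun x => ?_ }, h2, ?_, ?_⟩
  · split_ifs
    · exact sm_iff.2 (c1 i)
    · exact sm_iff.2 fun x => smP_const _ _
  · split_ifs
    · exact c4 i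
    · rw [ht0]; exact isCompact_empty
  · split_ifs
    · exact c5 i
    · rw [ht0]; exact empty_subset _
  · by_cases hi : i ∈ t
    · simp only [hi, if_true]
      exact (c3 i).filter_mono (nhds_le_nhdsSet hx)
    · rw [h5 i hi] at hx
      have : tsupport (0 : M → ℝ) = ∅ := by simp
      rw [this] at hx
      exact absurd hx (notMem_empty x)
  · refine t.finite_toSet.subset fun i hi => ?_
    by_contra hcon
    have hcon' : i ∉ t := hcon
    simp only [mem_ofPred_eq, hcon', if_false, ht0, empty_inter] at hi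
    exact absurd hi not_nonempty_empty
  · have := h7
    rw [nhdsSet_univ, eventually_top] at this
    rw [← this x]
    refine finsum_eq_sum_of_support_subset _ fun i hi => ?_
    by_contra hcon
    exact hi (by simp [h5 i hcon])
  · intro i x
    by_cases hi : i ∈ t
    · simpa [hi] using c2 i x
    · simp [hi]
  · refine t.finite_toSet.subset fun i hi => ?_
    by_contra hcon
    have hcon' : i ∉ t := hcon
    exact hi (by simp [hcon']; rfl)


end part

/-- near every point only finitely many `ψ i` are active -/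
theorem part_loc (P : Part A) (x : M) :
    ∃ s : Finset A.ι, ∀ᶠ y in 𝓝 x, ∀ i, P.ψ i y ≠ 0 → i ∈ s := by
  have := locallyCompact A
  obtain ⟨C, hC, hxC⟩ := exists_compact_mem_nhds x
  refine ⟨(P.lf C hC).toFinset, ?_⟩
  filter_upwards [hxC] with y hy i hi
  rw [Set.Finite.mem_toFinset]
  refine ⟨y, ?_, hy⟩
  have h1 := (P.χ_one i y (subset_tsupport _ hi)).self_of_nhds
  exact subset_tsupport _ (by simp [Function.mem_support, h1])

theorem part_src (P : Part A) {i : A.ι} {x : M} (h : P.ψ i x ≠ 0) : x ∈ (A.e i).source := by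
  have h1 := (P.χ_one i x (subset_tsupport _ h)).self_of_nhds
  exact P.χ_sub i (subset_tsupport _ (by simp [Function.mem_support, h1]))

theorem part_tsrc (P : Part A) {i : A.ι} {x : M} (h : x ∈ tsupport (P.ψ i)) :
    x ∈ (A.e i).source := by
  have h1 := (P.χ_one i x h).self_of_nhds
  exact P.χ_sub i (subset_tsupport _ (by simp [Function.mem_support, h1]))

theorem part_exists (P : Part A) (x : M) : ∃ i, P.ψ i x ≠ 0 := by
  by_contra hcon
  push Not at hcon
  have := P.sum_one x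
  simp [hcon] at this

theorem part_smP (P : Part A) (i : A.ι) (x : M) : SmP A (P.ψ i) x := sm_iff.1 (P.ψ_sm i) x

/-! ### cocycles and sections -/

/-- smooth line cocycle -/
structure IsCo (A : Atl n M) (g : A.ι → A.ι → M → ℂ) : Prop where
  sm : ∀ i j, ∀ x ∈ (A.e i).source ∩ (A.e j).source, SmP A (g i j) x
  self : ∀ i, ∀ x ∈ (A.e i).source, g i i x = 1
  mul : ∀ i j k, ∀ x ∈ (A.e i).source ∩ (A.e j).source ∩ (A.e k).source,
    g i j x * g j k x = g i k x

/-- smooth section of a line cocycle -/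
structure IsS0 (A : Atl n M) (g : A.ι → A.ι → M → ℂ) (u : A.ι → M → ℂ) : Prop where
  sm : ∀ i, ∀ x ∈ (A.e i).source, SmP A (u i) x
  off : ∀ i, ∀ x ∉ (A.e i).source, u i x = 0
  tr : ∀ i j, ∀ x ∈ (A.e i).source ∩ (A.e j).source, u i x = g i j x * u j x

variable {g g' : A.ι → A.ι → M → ℂ} {u v : A.ι → M → ℂ}

theorem IsCo.symm_mul (hg : IsCo A g) {i j : A.ι} {x : M} (hi : x ∈ (A.e i).source)
    (hj : x ∈ (A.e j).source) : g i j x * g j i x = 1 := by
  rw [hg.mul i j i x ⟨⟨hi, hj⟩, hi⟩, hg.self i x hi]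

theorem IsCo.ne_zero (hg : IsCo A g) {i j : A.ι} {x : M} (hi : x ∈ (A.e i).source)
    (hj : x ∈ (A.e j).source) : g i j x ≠ 0 := by
  intro h
  have := hg.symm_mul hi hj
  rw [h, zero_mul] at this
  exact zero_ne_one this

theorem IsCo.inv_eq (hg : IsCo A g) {i j : A.ι} {x : M} (hi : x ∈ (A.e i).source)
    (hj : x ∈ (A.e j).source) : (g i j x)⁻¹ = g j i x :=
  inv_eq_of_mul_eq_one_right (hg.symm_mul hi hj)


theorem IsCo.inv (hg : IsCo A g) : IsCo A (fun i j x => (g i j x)⁻¹) :=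
  ⟨fun i j x hx => (hg.sm i j x hx).inv (hg.ne_zero hx.1 hx.2),
    fun i x hx => by simp [hg.self i x hx],
    fun i j k x hx => by rw [← mul_inv, hg.mul i j k x hx]⟩

theorem IsCo.mul' (hg : IsCo A g) (hg' : IsCo A g') : IsCo A (fun i j x => g i j x * g' i j x) :=
  ⟨fun i j x hx => (hg.sm i j x hx).mul (hg'.sm i j x hx),
    fun i x hx => by simp [hg.self i x hx, hg'.self i x hx],
    fun i j k x hx => by rw [← hg.mul i j k x hx, ← hg'.mul i j k x hx]; ring⟩


theorem IsS0.add (hu : IsS0 A g u) (hv : IsS0 A g v) : IsS0 A g (fun i x => u i x + v i x) :=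
  ⟨fun i x hx => (hu.sm i x hx).add (hv.sm i x hx),
    fun i x hx => by simp [hu.off i x hx, hv.off i x hx],
    fun i j x hx => by rw [hu.tr i j x hx, hv.tr i j x hx]; ring⟩

theorem IsS0.sub (hu : IsS0 A g u) (hv : IsS0 A g v) : IsS0 A g (fun i x => u i x - v i x) :=
  ⟨fun i x hx => (hu.sm i x hx).sub (hv.sm i x hx),
    fun i x hx => by simp [hu.off i x hx, hv.off i x hx],
    fun i j x hx => by rw [hu.tr i j x hx, hv.tr i j x hx]; ring⟩



/-- product of sections -/
theorem IsS0.mul (hu : IsS0 A g u) (hv : IsS0 A g' v) :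
    IsS0 A (fun i j x => g i j x * g' i j x) (fun i x => u i x * v i x) :=
  ⟨fun i x hx => (hu.sm i x hx).mul (hv.sm i x hx), fun i x hx => by simp [hu.off i x hx],
    fun i j x hx => by rw [hu.tr i j x hx, hv.tr i j x hx]; ring⟩

theorem IsS0.sum {ι : Type*} (t : Finset ι) {w : ι → A.ι → M → ℂ} (hw : ∀ a ∈ t, IsS0 A g (w a)) :
    IsS0 A g (fun i x => ∑ a ∈ t, w a i x) :=
  ⟨fun i x hx => SmP.sum t fun a ha => (hw a ha).sm i x hx,
    fun i x hx => Finset.sum_eq_zero fun a ha => (hw a ha).off i x hx,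
    fun i j x hx => by
      rw [Finset.mul_sum]
      exact Finset.sum_congr rfl fun a ha => (hw a ha).tr i j x hx⟩

theorem IsS0.ne_iff (hg : IsCo A g) (hu : IsS0 A g u) {i j : A.ι} {x : M}
    (hi : x ∈ (A.e i).source) (hj : x ∈ (A.e j).source) : u i x ≠ 0 ↔ u j x ≠ 0 := by
  rw [hu.tr i j x ⟨hi, hj⟩]
  simp [hg.ne_zero hi hj]


/-! ### functions as sections of the trivial cocycle -/




/-! ### hermitian metric and duals -/

/-- `|v|²` -/
def herm (P : Part A) (v : A.ι → M → ℂ) (x : M) : ℂ :=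
  ∑ᶠ j, ((P.ψ j x : ℂ) ^ 2 * (v j x * conj (v j x)))

open Classical in
/-- the hermitian dual of a section -/
def dual (P : Part A) (g : A.ι → A.ι → M → ℂ) (v : A.ι → M → ℂ) : A.ι → M → ℂ := fun i x =>
  if x ∈ (A.e i).source then ∑ᶠ j, ((P.ψ j x : ℂ) ^ 2 * (g j i x * conj (v j x))) else 0

theorem finsum_local (P : Part A) {x : M} {s : Finset A.ι} (F : A.ι → ℂ)
    (hs : ∀ i, P.ψ i x ≠ 0 → i ∈ s) : ∑ᶠ j, ((P.ψ j x : ℂ) ^ 2 * F j)
      = ∑ j ∈ s, ((P.ψ j x : ℂ) ^ 2 * F j) := by
  refine finsum_eq_sum_of_support_subset _ fun j hj => hs j fun h0 => hj ?_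
  simp [h0]

theorem SmP.zero_off {f : M → ℂ} {F : M → ℝ} {x : M} (h : x ∉ tsupport F)
    (hf : ∀ y, F y = 0 → f y = 0) : SmP A f x := by
  refine (smP_const (A := A) (0 : ℂ) x).congr ?_
  filter_upwards [(isClosed_tsupport F).isOpen_compl.mem_nhds h] with y hy
  exact (hf y (image_eq_zero_of_notMem_tsupport hy)).symm

theorem smP_herm (P : Part A) (hv : IsS0 A g v) (x : M) : SmP A (herm P v) x := by
  obtain ⟨s, hs⟩ := part_loc P x
  refine smP_finsum s ?_ fun j _ => ?_
  · filter_upwards [hs] with y hy j hj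
    exact hy j fun h0 => hj (by simp [h0])
  · by_cases hx : x ∈ tsupport (P.ψ j)
    · have h1 := hv.sm j x (part_tsrc P hx)
      exact (((part_smP P j x).ofReal).pow 2).mul (h1.mul h1.conj)
    · exact SmP.zero_off hx fun y hy => by simp [hy]

theorem herm_eq (P : Part A) (v : A.ι → M → ℂ) (x : M) :
    herm P v x = ((∑ᶠ j, (P.ψ j x) ^ 2 * ‖v j x‖ ^ 2 : ℝ) : ℂ) := by
  obtain ⟨s, hs⟩ := part_loc P x
  have hs' := hs.self_of_nhds
  unfold herm
  rw [finsum_local P (fun j => v j x * conj (v j x)) hs']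
  have : ∑ᶠ j, (P.ψ j x) ^ 2 * ‖v j x‖ ^ 2 = ∑ j ∈ s, (P.ψ j x) ^ 2 * ‖v j x‖ ^ 2 := by
    refine finsum_eq_sum_of_support_subset _ fun j hj => hs' j fun h0 => hj ?_
    simp [h0]
  rw [this]
  push_cast
  refine Finset.sum_congr rfl fun j _ => ?_
  rw [Complex.mul_conj, Complex.normSq_eq_norm_sq]
  push_cast
  ring

theorem herm_nonneg (P : Part A) (v : A.ι → M → ℂ) (x : M) :
    0 ≤ ∑ᶠ j, (P.ψ j x) ^ 2 * ‖v j x‖ ^ 2 := finsum_nonneg fun j => by positivity

theorem herm_pos (P : Part A) (hg : IsCo A g) (hv : IsS0 A g v) {x : M} {i : A.ι}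
    (hi : v i x ≠ 0) : 0 < ∑ᶠ j, (P.ψ j x) ^ 2 * ‖v j x‖ ^ 2 := by
  obtain ⟨s, hs⟩ := part_loc P x
  have hs' := hs.self_of_nhds
  have h1 : ∑ᶠ j, (P.ψ j x) ^ 2 * ‖v j x‖ ^ 2 = ∑ j ∈ s, (P.ψ j x) ^ 2 * ‖v j x‖ ^ 2 := by
    refine finsum_eq_sum_of_support_subset _ fun j hj => hs' j fun h0 => hj ?_
    simp [h0]
  rw [h1]
  obtain ⟨j, hj⟩ := part_exists P x
  have hjs := part_src P hj
  have his : x ∈ (A.e i).source := by
    by_contra hcon
    exact hi (hv.off i x hcon)
  have h2 : v j x ≠ 0 := (hv.ne_iff hg hjs his).2 hi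
  refine Finset.sum_pos' (fun k _ => by positivity) ⟨j, hs' j hj, ?_⟩
  have : 0 < ‖v j x‖ := norm_pos_iff.2 h2
  positivity

theorem isS0_dual (P : Part A) (hg : IsCo A g) (hv : IsS0 A g v) :
    IsS0 A (fun i j x => (g i j x)⁻¹) (dual P g v) := by
  refine ⟨fun i x hx => ?_, fun i x hx => by simp [dual, hx], fun i j x hx => ?_⟩
  · obtain ⟨s, hs⟩ := part_loc P x
    have h1 : SmP A (fun y => ∑ᶠ j, ((P.ψ j y : ℂ) ^ 2 * (g j i y * conj (v j y)))) x := by
      refine smP_finsum s ?_ fun j _ => ?_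
      · filter_upwards [hs] with y hy j hj
        exact hy j fun h0 => hj (by simp [h0])
      · by_cases hxj : x ∈ tsupport (P.ψ j)
        · have hxj' := part_tsrc P hxj
          exact (((part_smP P j x).ofReal).pow 2).mul
            ((hg.sm j i x ⟨hxj', hx⟩).mul (hv.sm j x hxj').conj)
        · exact SmP.zero_off hxj fun y hy => by simp [hy]
    refine h1.congr ?_
    filter_upwards [(A.e i).open_source.mem_nhds hx] with y hy
    simp [dual, hy]
  · obtain ⟨s, hs⟩ := part_loc P x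
    have hs' := hs.self_of_nhds
    simp only [dual, hx.1, hx.2, if_true]
    rw [finsum_local P (fun k => g k i x * conj (v k x)) hs',
      finsum_local P (fun k => g k j x * conj (v k x)) hs', Finset.mul_sum]
    refine Finset.sum_congr rfl fun k _ => ?_
    by_cases hk : P.ψ k x = 0
    · simp [hk]
    · have hks := part_src P hk
      rw [hg.inv_eq hx.1 hx.2, ← hg.mul k j i x ⟨⟨hks, hx.2⟩, hx.1⟩]
      ring

theorem dual_mul (P : Part A) (hg : IsCo A g) (hv : IsS0 A g v) {i : A.ι} {x : M}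
    (hi : x ∈ (A.e i).source) : dual P g v i x * v i x = herm P v x := by
  obtain ⟨s, hs⟩ := part_loc P x
  have hs' := hs.self_of_nhds
  simp only [dual, herm, hi, if_true]
  rw [finsum_local P (fun k => g k i x * conj (v k x)) hs',
    finsum_local P (fun k => v k x * conj (v k x)) hs', Finset.sum_mul]
  refine Finset.sum_congr rfl fun k _ => ?_
  by_cases hk : P.ψ k x = 0
  · simp [hk]
  · rw [hv.tr k i x ⟨part_src P hk, hi⟩]
    ring

/-- hermitian duals of several sections, off the common zeros -/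
theorem exists_dual_off (P : Part A) {m : Type*} [Fintype m] (g : m → A.ι → A.ι → M → ℂ)
    (hg : ∀ a, IsCo A (g a)) (s : m → A.ι → M → ℂ) (hs : ∀ a, IsS0 A (g a) (s a)) :
    ∃ θ : m → A.ι → M → ℂ,
      (∀ a i, ∀ x ∈ (A.e i).source, (∃ b k, s b k x ≠ 0) → SmP A (θ a i) x) ∧
      (∀ a i, ∀ x ∉ (A.e i).source, θ a i x = 0) ∧
      (∀ a i j, ∀ x ∈ (A.e i).source ∩ (A.e j).source, θ a i x = (g a i j x)⁻¹ * θ a j x) ∧
      (∀ i, ∀ x ∈ (A.e i).source, (∃ b k, s b k x ≠ 0) → ∑ a, θ a i x * s a i x = 1) := by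
  classical
  let N : M → ℂ := fun x => ∑ b, herm P (s b) x
  have hN : ∀ x, SmP A N x := fun x => SmP.sum _ fun b _ => smP_herm P (hs b) x
  have hN0 : ∀ x, (∃ b k, s b k x ≠ 0) → N x ≠ 0 := by
    rintro x ⟨b, k, hbk⟩
    simp only [N, herm_eq]
    rw [← Complex.ofReal_sum]
    rw [Complex.ofReal_ne_zero]
    refine ne_of_gt (Finset.sum_pos' (fun a _ => herm_nonneg P (s a) x) ⟨b, Finset.mem_univ b, ?_⟩)
    exact herm_pos P (hg b) (hs b) hbk
  refine ⟨fun a i x => dual P (g a) (s a) i x / N x, ?_, ?_, ?_, ?_⟩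
  · intro a i x hx hne
    exact ((isS0_dual P (hg a) (hs a)).sm i x hx).div (hN x) (hN0 x hne)
  · intro a i x hx
    simp [(isS0_dual P (hg a) (hs a)).off i x hx]
  · intro a i j x hx
    have := (isS0_dual P (hg a) (hs a)).tr i j x hx
    simp only [this]
    ring
  · intro i x hx hne
    have h1 : ∀ a, dual P (g a) (s a) i x / N x * s a i x = herm P (s a) x / N x := by
      intro a
      rw [← dual_mul P (hg a) (hs a) hx]
      ring
    simp only [h1]
    rw [← Finset.sum_div]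
    exact div_self (hN0 x hne)


/-! ### extension by zero -/





end

end Crest.Agent.R275.QN2b734
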