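import Crest.Agent.R266.SCV
import Crest.Agent.R275.Geo_509

-- ▼ part R275/CousA_686
section

/-!
R275 (S0418), Part IV, helper686: COUSIN2, part A.
* `exists_log` : holomorphic logarithm on convex open sets of a finite dimensional space;
* `rect_cauchy` : Cauchy integral formula for rectangles;
* `cousin_split` : additive Cousin splitting across the real hyperplane `Re π = c`.
-/

set_option autoImplicit false
set_option linter.unusedSectionVars false

open Set Filter Topology Metric Complex MeasureTheory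
open Crest.Agent.R266.SCV
open scoped Real

noncomputable section

namespace Crest.Agent.R275.Cous686

universe u

/-! ### holomorphic logarithm on convex open sets -/

section Log

variable {V : Type u} [NormedAddCommGroup V] [NormedSpace ℂ V] [FiniteDimensional ℂ V]

/-- a holomorphic function without zeros on a convex open set is an exponential -/
theorem exists_log {W : Set V} (hW : IsOpen W) (hc : Convex ℝ W) {u : V → ℂ}
    (hu : DifferentiableOn ℂ u W) (h0 : ∀ x ∈ W, u x ≠ 0) :
    ∃ v : V → ℂ, DifferentiableOn ℂ v W ∧ ∀ x ∈ W, Complex.exp (v x) = u x := by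
  rcases W.eq_empty_or_nonempty with rfl | ⟨x0, hx0⟩
  · exact ⟨0, differentiableOn_empty, fun x hx => hx.elim⟩
  have hua : AnalyticOnNhd ℂ u W := analyticOnNhd_of_differentiableOn hW hu
  have hda : AnalyticOnNhd ℂ (fderiv ℂ u) W := hua.fderiv
  have hseg : ∀ x ∈ W, ∀ t ∈ Icc (0 : ℝ) 1, x0 + (t : ℂ) • (x - x0) ∈ W := by
    intro x hx t ht
    have := hc hx0 hx (a := 1 - t) (b := t) (by linarith [ht.2]) ht.1 (by ring)
    convert this using 1
    rw [Complex.coe_smul]
    module
  set f : V × ℝ → ℂ := fun p =>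
    fderiv ℂ u (x0 + (p.2 : ℂ) • (p.1 - x0)) (p.1 - x0) / u (x0 + (p.2 : ℂ) • (p.1 - x0)) with hf
  have hmaps : MapsTo (fun p : V × ℝ => x0 + (p.2 : ℂ) • (p.1 - x0)) (W ×ˢ Icc 0 1) W :=
    fun p hp => hseg p.1 hp.1 p.2 hp.2
  have hcγ : Continuous (fun p : V × ℝ => x0 + (p.2 : ℂ) • (p.1 - x0)) := by fun_prop
  have hfc : ContinuousOn f (W ×ˢ Icc 0 1) := by
    refine ContinuousOn.div ?_ (hua.continuousOn.comp hcγ.continuousOn hmaps)
      (fun p hp => h0 _ (hmaps hp))
    refine ContinuousOn.clm_apply (hda.continuousOn.comp hcγ.continuousOn hmaps) ?_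
    exact (by fun_prop : Continuous (fun p : V × ℝ => p.1 - x0)).continuousOn
  have hfd : ∀ t ∈ Icc (0 : ℝ) 1, DifferentiableOn ℂ (fun x => f (x, t)) W := by
    intro t ht x hx
    have hm := hseg x hx t ht
    have h1 : DifferentiableAt ℂ (fun x : V => x0 + (t : ℂ) • (x - x0)) x := by fun_prop
    have h2 : DifferentiableAt ℂ (fun x : V => fderiv ℂ u (x0 + (t : ℂ) • (x - x0))) x :=
      ((hda _ hm).differentiableAt).comp x h1
    have h3 : DifferentiableAt ℂ (fun x : V => u (x0 + (t : ℂ) • (x - x0))) x :=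
      ((hua _ hm).differentiableAt).comp x h1
    have h4 : DifferentiableAt ℂ (fun x : V => x - x0) x := by fun_prop
    have h5 := (h2.clm_apply h4).mul (h3.inv (h0 _ hm))
    refine (h5.congr_of_eventuallyEq (Eventually.of_forall fun y => ?_)).differentiableWithinAt
    simp only [hf, div_eq_mul_inv, Pi.mul_apply, Pi.inv_apply]
  obtain ⟨L0, hL0⟩ : ∃ L0, Complex.exp L0 = u x0 := ⟨_, Complex.exp_log (h0 x0 hx0)⟩
  have hint : AnalyticOnNhd ℂ (fun x => ∫ t in (0 : ℝ)..1, f (x, t)) W :=
    analyticOnNhd_intervalIntegral hW (by rwa [uIcc_of_le zero_le_one])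
      (by rwa [uIcc_of_le zero_le_one])
  refine ⟨fun x => L0 + ∫ t in (0 : ℝ)..1, f (x, t),
    (differentiableOn_const L0).add hint.differentiableOn, ?_⟩
  intro x hx
  -- along the segment
  set k : ℝ → ℂ := fun t => f (x, t) with hk
  have hkc : ContinuousOn k (Icc 0 1) :=
    hfc.comp (by fun_prop) (fun t ht => ⟨hx, ht⟩)
  have hγ : ∀ t : ℝ, HasDerivAt (fun t : ℝ => x0 + (t : ℂ) • (x - x0)) (x - x0) t := by
    intro t
    have h1 : HasDerivAt (fun t : ℝ => (t : ℂ)) 1 t := Complex.ofRealCLM.hasDerivAt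
    have h2 := (h1.smul_const (x - x0)).const_add x0
    simpa using h2
  have huγ : ∀ t ∈ Icc (0 : ℝ) 1, HasDerivAt (fun t : ℝ => u (x0 + (t : ℂ) • (x - x0)))
      (fderiv ℂ u (x0 + (t : ℂ) • (x - x0)) (x - x0)) t := by
    intro t ht
    have h1 : HasFDerivAt u (fderiv ℂ u (x0 + (t : ℂ) • (x - x0))) (x0 + (t : ℂ) • (x - x0)) :=
      (hua _ (hseg x hx t ht)).differentiableAt.hasFDerivAt
    have h2 : HasFDerivAt u ((fderiv ℂ u (x0 + (t : ℂ) • (x - x0))).restrictScalars ℝ)
      (x0 + (t : ℂ) • (x - x0)) := h1.restrictScalars ℝ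
    exact h2.comp_hasDerivAt t (hγ t)
  have hprim : ∀ t ∈ Ioo (0 : ℝ) 1, HasDerivAt (fun t => ∫ s in (0 : ℝ)..t, k s) (k t) t := by
    intro t ht
    refine intervalIntegral.integral_hasDerivAt_right ?_ ?_ ?_
    · refine (hkc.mono ?_).intervalIntegrable
      rw [uIcc_of_le ht.1.le]
      exact Icc_subset_Icc_right ht.2.le
    · exact (hkc.mono Ioo_subset_Icc_self).stronglyMeasurableAtFilter isOpen_Ioo t ht
    · exact (hkc t (Ioo_subset_Icc_self ht)).continuousAt (Icc_mem_nhds ht.1 ht.2)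
  have hprimc : ContinuousOn (fun t => ∫ s in (0 : ℝ)..t, k s) (Icc 0 1) := by
    have := intervalIntegral.continuousOn_primitive_interval (f := k) (a := 0) (b := 1) (μ := volume)
      (by rw [uIcc_of_le zero_le_one]; exact hkc.integrableOn_Icc)
    rwa [uIcc_of_le zero_le_one] at this
  set Φ : ℝ → ℂ := fun t => u (x0 + (t : ℂ) • (x - x0)) *
    Complex.exp (-(∫ s in (0 : ℝ)..t, k s)) with hΦ
  have hΦc : ContinuousOn Φ (Icc 0 1) := by
    refine ContinuousOn.mul (fun t ht => (huγ t ht).continuousAt.continuousWithinAt) ?_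
    exact Complex.continuous_exp.comp_continuousOn hprimc.neg
  have hΦd : ∀ t ∈ Ioo (0 : ℝ) 1, HasDerivAt Φ 0 t := by
    intro t ht
    have h1 := huγ t (Ioo_subset_Icc_self ht)
    have h2 := ((hprim t ht).neg).cexp
    have h3 := h1.mul h2
    have hne : u (x0 + (t : ℂ) • (x - x0)) ≠ 0 := h0 _ (hseg x hx t (Ioo_subset_Icc_self ht))
    refine h3.congr_deriv ?_
    change _ + _ * (_ * -(fderiv ℂ u (x0 + (t : ℂ) • (x - x0)) (x - x0) /
      u (x0 + (t : ℂ) • (x - x0)))) = (0 : ℂ)
    field_simp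
    ring
  have hconst : Φ 1 = Φ 0 := by
    have := constant_of_has_deriv_right_zero hΦc (fun t ht => ?_) 1 (by simp)
    · exact this
    · -- right derivative on [0,1)
      rcases eq_or_lt_of_le ht.1 with h | h
      · subst h
        -- derivative at the left end point
        have hk0 : ContinuousWithinAt k (Ici 0) 0 := by
          have : ContinuousWithinAt k (Icc 0 1) 0 := hkc 0 (by simp)
          exact this.mono_of_mem_nhdsWithin (Icc_mem_nhdsGE zero_lt_one)
        have hk0' : ContinuousWithinAt k (Ioi 0) 0 := hk0.mono Ioi_subset_Ici_self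
        have h2 : HasDerivWithinAt (fun t => ∫ s in (0 : ℝ)..t, k s) (k 0) (Ici 0) 0 := by
          refine intervalIntegral.integral_hasDerivWithinAt_right (by simp) ?_ hk0'
          refine ⟨Ioc 0 1, Ioc_mem_nhdsGT zero_lt_one, ?_⟩
          exact (hkc.mono Ioc_subset_Icc_self).aestronglyMeasurable measurableSet_Ioc
        have h1 := (huγ 0 (by simp)).hasDerivWithinAt (s := Ici 0)
        have h3 := h1.mul (h2.neg).cexp
        have hne : u (x0 + ((0 : ℝ) : ℂ) • (x - x0)) ≠ 0 := h0 _ (hseg x hx 0 (by simp))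
        refine h3.congr_deriv ?_
        change _ + _ * (_ * -(fderiv ℂ u (x0 + ((0 : ℝ) : ℂ) • (x - x0)) (x - x0) /
          u (x0 + ((0 : ℝ) : ℂ) • (x - x0)))) = (0 : ℂ)
        field_simp
        ring
      · exact (hΦd t ⟨h, ht.2⟩).hasDerivWithinAt
  have hΦ0 : Φ 0 = u x0 := by simp [hΦ]
  have hΦ1 : Φ 1 = u x * Complex.exp (-(∫ s in (0 : ℝ)..1, k s)) := by simp [hΦ]
  rw [Complex.exp_add, hL0, ← hΦ0, ← hconst, hΦ1, mul_assoc, ← Complex.exp_add]
  simp [hk]

end Log

/-! ### the Cauchy integral formula for rectangles -/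

section Rect

/-- the Cauchy integrals over the four edges -/
def cBot (x0 x1 y0 : ℝ) (φ : ℂ → ℂ) (z : ℂ) : ℂ :=
  ∫ x in x0..x1, φ (x + y0 * I) / (x + y0 * I - z)

def cSide (x1 y0 y1 : ℝ) (φ : ℂ → ℂ) (z : ℂ) : ℂ :=
  ∫ y in y0..y1, φ (x1 + y * I) / (x1 + y * I - z)

lemma slitPlane_of_im_ne {z : ℂ} (h : z.im ≠ 0) : z ∈ slitPlane := Or.inr h

/-- horizontal edge of the winding integral -/
lemma int_hor {p q r : ℝ} (hr : r ≠ 0) :
    (∫ x in p..q, 1 / ((x : ℂ) + r * I)) = Complex.log (q + r * I) - Complex.log (p + r * I) := by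
  have h : ∀ x ∈ uIcc p q, HasDerivAt (fun x : ℝ => Complex.log ((x : ℂ) + r * I))
      (1 / ((x : ℂ) + r * I)) x := by
    intro x _
    have h1 : HasDerivAt (fun x : ℝ => (x : ℂ) + r * I) 1 x :=
      (Complex.ofRealCLM.hasDerivAt (x := x)).add_const _
    exact h1.clog_real (slitPlane_of_im_ne (by simpa using hr))
  refine intervalIntegral.integral_eq_sub_of_hasDerivAt h ?_
  refine ContinuousOn.intervalIntegrable ?_
  refine ContinuousOn.div continuousOn_const (by fun_prop) (fun x _ h0 => ?_)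
  have := congrArg Complex.im h0
  simp at this
  exact hr this

/-- right vertical edge -/
lemma int_ver_pos {q r s : ℝ} (hq : 0 < q) :
    I * (∫ y in r..s, 1 / ((q : ℂ) + y * I)) = Complex.log (q + s * I) - Complex.log (q + r * I) := by
  have h : ∀ y ∈ uIcc r s, HasDerivAt (fun y : ℝ => Complex.log ((q : ℂ) + y * I))
      (I * (1 / ((q : ℂ) + y * I))) y := by
    intro y _
    have h1 : HasDerivAt (fun y : ℝ => (q : ℂ) + y * I) I y := by
      have := ((Complex.ofRealCLM.hasDerivAt (x := y)).mul_const I).const_add (q : ℂ)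
      simpa using this
    have := h1.clog_real (Or.inl (by simpa using hq))
    convert this using 1
    ring
  rw [← intervalIntegral.integral_const_mul]
  refine intervalIntegral.integral_eq_sub_of_hasDerivAt h ?_
  refine ContinuousOn.intervalIntegrable ?_
  refine ContinuousOn.mul continuousOn_const
    (ContinuousOn.div continuousOn_const (by fun_prop) (fun x _ h0 => ?_))
  have := congrArg Complex.re h0
  simp at this
  exact hq.ne' this

/-- left vertical edge -/
lemma int_ver_neg {p r s : ℝ} (hp : p < 0) :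
    I * (∫ y in r..s, 1 / ((p : ℂ) + y * I)) =
      Complex.log (-(p + s * I)) - Complex.log (-(p + r * I)) := by
  have h : ∀ y ∈ uIcc r s, HasDerivAt (fun y : ℝ => Complex.log (-((p : ℂ) + y * I)))
      (I * (1 / ((p : ℂ) + y * I))) y := by
    intro y _
    have h1 : HasDerivAt (fun y : ℝ => -((p : ℂ) + y * I)) (-I) y := by
      have := (((Complex.ofRealCLM.hasDerivAt (x := y)).mul_const I).const_add (p : ℂ)).neg
      have h2 : HasDerivAt (fun y : ℝ => -((p : ℂ) + y * I)) (-(1 * I)) y := this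
      rwa [one_mul] at h2
    have := h1.clog_real (Or.inl (by simpa using hp))
    convert this using 1
    rw [neg_div_neg_eq]
    ring
  rw [← intervalIntegral.integral_const_mul]
  refine intervalIntegral.integral_eq_sub_of_hasDerivAt h ?_
  refine ContinuousOn.intervalIntegrable ?_
  refine ContinuousOn.mul continuousOn_const
    (ContinuousOn.div continuousOn_const (by fun_prop) (fun x _ h0 => ?_))
  have := congrArg Complex.re h0
  simp at this
  exact hp.ne this

lemma log_neg_of_im_neg {z : ℂ} (h : z.im < 0) : Complex.log (-z) = Complex.log z + π * I := by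
  apply Complex.ext
  · simp [Complex.log_re]
  · simp [Complex.log_im, Complex.arg_neg_eq_arg_add_pi_of_im_neg h]

/-- the winding integral of a rectangle around `0` -/
lemma winding {p q r s : ℝ} (hp : p < 0) (hq : 0 < q) (hr : r < 0) (hs : 0 < s) :
    (∫ x in p..q, 1 / ((x : ℂ) + r * I)) - (∫ x in p..q, 1 / ((x : ℂ) + s * I)) +
      I * (∫ y in r..s, 1 / ((q : ℂ) + y * I)) - I * (∫ y in r..s, 1 / ((p : ℂ) + y * I)) =
      2 * π * I := by
  rw [int_hor hr.ne, int_hor hs.ne', int_ver_pos hq, int_ver_neg hp]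
  have h1 : Complex.log (-(p + r * I)) = Complex.log (p + r * I) + π * I :=
    log_neg_of_im_neg (by simpa using hr)
  have h2 : Complex.log (-(-(p + s * I))) = Complex.log (-(p + s * I)) + π * I :=
    log_neg_of_im_neg (by simpa using hs)
  rw [neg_neg] at h2
  linear_combination h1 + h2

/-- **Cauchy integral formula for a rectangle** -/
theorem rect_cauchy {x0 x1 y0 y1 : ℝ} {φ : ℂ → ℂ} {z : ℂ} {U : Set ℂ} (hU : IsOpen U)
    (hUs : Icc x0 x1 ×ℂ Icc y0 y1 ⊆ U) (hφ : DifferentiableOn ℂ φ U)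
    (h1 : x0 < z.re) (h2 : z.re < x1) (h3 : y0 < z.im) (h4 : z.im < y1) :
    cBot x0 x1 y0 φ z - cBot x0 x1 y1 φ z + I * cSide x1 y0 y1 φ z - I * cSide x0 y0 y1 φ z =
      2 * π * I * φ z := by
  have hzU : z ∈ U := hUs (by
    rw [mem_reProdIm]; exact ⟨⟨h1.le, h2.le⟩, ⟨h3.le, h4.le⟩⟩)
  have hd : DifferentiableOn ℂ (dslope φ z) U := (differentiableOn_dslope (hU.mem_nhds hzU)).2 hφ
  have hx01 : x0 ≤ x1 := (h1.trans h2).le
  have hy01 : y0 ≤ y1 := (h3.trans h4).le
  have key := Complex.integral_boundary_rect_eq_zero_of_differentiableOn (dslope φ z)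
    (⟨x0, y0⟩ : ℂ) (⟨x1, y1⟩ : ℂ) (hd.mono (by
      simp only
      rw [uIcc_of_le hx01, uIcc_of_le hy01]
      exact hUs))
  simp only at key
  -- the four edges
  have hne_b : ∀ x : ℝ, (x : ℂ) + y0 * I - z ≠ 0 := fun x h0 => by
    have := congrArg Complex.im h0; simp at this; linarith
  have hne_t : ∀ x : ℝ, (x : ℂ) + y1 * I - z ≠ 0 := fun x h0 => by
    have := congrArg Complex.im h0; simp at this; linarith
  have hne_r : ∀ y : ℝ, (x1 : ℂ) + y * I - z ≠ 0 := fun x h0 => by
    have := congrArg Complex.re h0; simp at this; linarith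
  have hne_l : ∀ y : ℝ, (x0 : ℂ) + y * I - z ≠ 0 := fun x h0 => by
    have := congrArg Complex.re h0; simp at this; linarith
  have hds : ∀ ζ : ℂ, ζ - z ≠ 0 → dslope φ z ζ = φ ζ / (ζ - z) - φ z * (1 / (ζ - z)) := by
    intro ζ hζ
    rw [dslope_of_ne _ (sub_ne_zero.1 hζ), slope_def_field]
    field_simp
  have hφc := hφ.continuousOn
  have e_hor : ∀ y ∈ Icc y0 y1, (∀ x : ℝ, (x : ℂ) + y * I - z ≠ 0) →
      (∫ x in x0..x1, dslope φ z (x + y * I)) =
        cBot x0 x1 y φ z - φ z * ∫ x in x0..x1, 1 / ((x : ℂ) + y * I - z) := by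
    intro y hy hne
    have hc1 : ContinuousOn (fun x : ℝ => φ (x + y * I) / ((x : ℂ) + y * I - z)) (uIcc x0 x1) := by
      refine ContinuousOn.div (hφc.comp (by fun_prop) (fun x hx => hUs ?_)) (by fun_prop)
        (fun x _ => hne x)
      rw [uIcc_of_le hx01] at hx
      rw [mem_reProdIm]; simpa using ⟨hx, hy⟩
    have hc2 : ContinuousOn (fun x : ℝ => (1 : ℂ) / ((x : ℂ) + y * I - z)) (uIcc x0 x1) :=
      ContinuousOn.div continuousOn_const (by fun_prop) (fun x _ => hne x)
    rw [cBot, ← intervalIntegral.integral_const_mul, ← intervalIntegral.integral_sub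
      hc1.intervalIntegrable (hc2.intervalIntegrable.const_mul _)]
    exact intervalIntegral.integral_congr (fun x _ => hds _ (hne x))
  have e_ver : ∀ x ∈ Icc x0 x1, (∀ y : ℝ, (x : ℂ) + y * I - z ≠ 0) →
      (∫ y in y0..y1, dslope φ z (x + y * I)) =
        cSide x y0 y1 φ z - φ z * ∫ y in y0..y1, 1 / ((x : ℂ) + y * I - z) := by
    intro x hx hne
    have hc1 : ContinuousOn (fun y : ℝ => φ (x + y * I) / ((x : ℂ) + y * I - z)) (uIcc y0 y1) := by
      refine ContinuousOn.div (hφc.comp (by fun_prop) (fun y hy => hUs ?_)) (by fun_prop)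
        (fun x _ => hne x)
      rw [uIcc_of_le hy01] at hy
      rw [mem_reProdIm]; simpa using ⟨hx, hy⟩
    have hc2 : ContinuousOn (fun y : ℝ => (1 : ℂ) / ((x : ℂ) + y * I - z)) (uIcc y0 y1) :=
      ContinuousOn.div continuousOn_const (by fun_prop) (fun x _ => hne x)
    rw [cSide, ← intervalIntegral.integral_const_mul, ← intervalIntegral.integral_sub
      hc1.intervalIntegrable (hc2.intervalIntegrable.const_mul _)]
    exact intervalIntegral.integral_congr (fun x _ => hds _ (hne x))
  -- the winding integral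
  have hw := winding (p := x0 - z.re) (q := x1 - z.re) (r := y0 - z.im) (s := y1 - z.im)
    (by linarith) (by linarith) (by linarith) (by linarith)
  have sh : ∀ y : ℝ, (∫ x in (x0 - z.re)..(x1 - z.re), 1 / ((x : ℂ) + ((y - z.im : ℝ) : ℂ) * I)) =
      ∫ x in x0..x1, 1 / ((x : ℂ) + y * I - z) := by
    intro y
    rw [← intervalIntegral.integral_comp_sub_right (fun x : ℝ => 1 / ((x : ℂ) +
      ((y - z.im : ℝ) : ℂ) * I)) z.re]
    refine intervalIntegral.integral_congr (fun x _ => ?_)
    congr 1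
    apply Complex.ext <;> simp
  have sv : ∀ x : ℝ, (∫ y in (y0 - z.im)..(y1 - z.im), 1 / (((x - z.re : ℝ) : ℂ) + (y : ℂ) * I)) =
      ∫ y in y0..y1, 1 / ((x : ℂ) + y * I - z) := by
    intro x
    rw [← intervalIntegral.integral_comp_sub_right (fun y : ℝ => 1 / (((x - z.re : ℝ) : ℂ) +
      (y : ℂ) * I)) z.im]
    refine intervalIntegral.integral_congr (fun y _ => ?_)
    congr 1
    apply Complex.ext <;> simp
  rw [sh, sh, sv, sv] at hw
  rw [e_hor y0 ⟨le_rfl, hy01⟩ hne_b, e_hor y1 ⟨hy01, le_rfl⟩ hne_t,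
    e_ver x1 ⟨hx01, le_rfl⟩ hne_r, e_ver x0 ⟨le_rfl, hx01⟩ hne_l] at key
  simp only [smul_eq_mul] at key
  linear_combination key + φ z * hw

end Rect

end Crest.Agent.R275.Cous686
end
end

-- ▼ part R275/CousB_686
section

/-!
R275 (S0418), Part IV, helper686: COUSIN2, part B.
* `cousin_split` : additive Cousin splitting across `Re pr = c`;
* `LocData P` : axioms of a relation "`f` represents the given divisor at `x`";
* `cousin2` : local data given along a closed box of `ℂⁿ` are given by ONE holomorphic function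
  near the box.
-/

set_option autoImplicit false
set_option linter.unusedSectionVars false

open Set Filter Topology Metric Complex MeasureTheory
open Crest.Agent.R266.SCV Crest.Agent.R275.Geo
open scoped Real

noncomputable section

namespace Crest.Agent.R275.Cous686

universe u

/-! ### additive splitting -/

section Split

variable {V : Type u} [NormedAddCommGroup V] [NormedSpace ℂ V] [FiniteDimensional ℂ V]

lemma path_integral (pr : V →L[ℂ] ℂ) (e0 : V) {U W : Set V} (hU : IsOpen U) (hW : IsOpen W)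
    {v : V → ℂ} (hv : DifferentiableOn ℂ v W) {γ : ℝ → ℂ} (hγ : Continuous γ) {a b : ℝ}
    (hm : ∀ x ∈ U, ∀ t ∈ uIcc a b, x + (γ t - pr x) • e0 ∈ W)
    (hne : ∀ x ∈ U, ∀ t ∈ uIcc a b, γ t - pr x ≠ 0) :
    DifferentiableOn ℂ (fun x => ∫ t in a..b, v (x + (γ t - pr x) • e0) / (γ t - pr x)) U := by
  refine (analyticOnNhd_intervalIntegral (f := fun p : V × ℝ =>
    v (p.1 + (γ p.2 - pr p.1) • e0) / (γ p.2 - pr p.1)) hU ?_ ?_).differentiableOn
  · refine ContinuousOn.div (hv.continuousOn.comp ?_ (fun p hp => hm p.1 hp.1 p.2 hp.2)) ?_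
      (fun p hp => hne p.1 hp.1 p.2 hp.2)
    · exact (by fun_prop : Continuous (fun p : V × ℝ => p.1 + (γ p.2 - pr p.1) • e0)).continuousOn
    · exact (by fun_prop : Continuous (fun p : V × ℝ => γ p.2 - pr p.1)).continuousOn
  · intro t ht x hx
    have h1 : DifferentiableAt ℂ (fun x : V => x + (γ t - pr x) • e0) x := by fun_prop
    have h2 : DifferentiableAt ℂ (fun x : V => v (x + (γ t - pr x) • e0)) x :=
      (hv.differentiableAt (hW.mem_nhds (hm x hx t ht))).comp x h1
    have h3 : DifferentiableAt ℂ (fun x : V => γ t - pr x) x := by fun_prop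
    have h4 := h2.mul (h3.inv (hne x hx t ht))
    refine (h4.congr_of_eventuallyEq (Eventually.of_forall fun y => ?_)).differentiableWithinAt
    simp only [div_eq_mul_inv, Pi.mul_apply, Pi.inv_apply]

/-- **additive Cousin splitting** across the real hyperplane `Re pr = c` -/
theorem cousin_split (pr : V →L[ℂ] ℂ) (e0 : V) (he : pr e0 = 1) {T W : Set V} (hT : IsOpen T)
    (hTi : ∀ x ∈ T, ∀ ζ : ℂ, x + ζ • e0 ∈ T) (hW : IsOpen W) {c ε y0 y1 : ℝ} (hε : 0 < ε)
    (hTW : ∀ x ∈ T, |(pr x).re - c| ≤ ε → y0 ≤ (pr x).im → (pr x).im ≤ y1 → x ∈ W)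
    {v : V → ℂ} (hv : DifferentiableOn ℂ v W) :
    ∃ v1 v2 : V → ℂ,
      DifferentiableOn ℂ v1 (T ∩ {x | (pr x).re < c + ε ∧ y0 < (pr x).im ∧ (pr x).im < y1}) ∧
      DifferentiableOn ℂ v2 (T ∩ {x | c - ε < (pr x).re ∧ y0 < (pr x).im ∧ (pr x).im < y1}) ∧
      ∀ x ∈ T, c - ε < (pr x).re → (pr x).re < c + ε → y0 < (pr x).im → (pr x).im < y1 →
        v x = v1 x - v2 x := by
  have hmem : ∀ x ∈ T, ∀ ζ : ℂ, |ζ.re - c| ≤ ε → y0 ≤ ζ.im → ζ.im ≤ y1 →
      x + (ζ - pr x) • e0 ∈ W := by
    intro x hx ζ h1 h2 h3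
    have h4 : pr (x + (ζ - pr x) • e0) = ζ := by
      rw [map_add, map_smul, he, smul_eq_mul]; ring
    exact hTW _ (hTi x hx _) (by rw [h4]; exact h1) (by rw [h4]; exact h2) (by rw [h4]; exact h3)
  have hre : Continuous (fun x : V => (pr x).re) := Complex.continuous_re.comp pr.continuous
  have him : Continuous (fun x : V => (pr x).im) := Complex.continuous_im.comp pr.continuous
  have hU1 : IsOpen (T ∩ {x | (pr x).re < c + ε ∧ y0 < (pr x).im ∧ (pr x).im < y1}) :=
    hT.inter ((isOpen_lt hre continuous_const).inter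
      ((isOpen_lt continuous_const him).inter (isOpen_lt him continuous_const)))
  have hU2 : IsOpen (T ∩ {x | c - ε < (pr x).re ∧ y0 < (pr x).im ∧ (pr x).im < y1}) :=
    hT.inter ((isOpen_lt continuous_const hre).inter
      ((isOpen_lt continuous_const him).inter (isOpen_lt him continuous_const)))
  set ψ : V → ℂ → ℂ := fun x ζ => v (x + (ζ - pr x) • e0) with hψ
  rcases le_or_gt y1 y0 with hy | hy
  · refine ⟨0, 0, differentiableOn_const 0, differentiableOn_const 0, ?_⟩
    intro x _ _ _ h3 h4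
    exact absurd (h3.trans h4) (not_lt.2 hy)
  have hle : c - ε ≤ c + ε := by linarith
  refine ⟨fun x => (2 * π * I)⁻¹ * (cBot (c - ε) (c + ε) y0 (ψ x) (pr x) -
      cBot (c - ε) (c + ε) y1 (ψ x) (pr x) + I * cSide (c + ε) y0 y1 (ψ x) (pr x)),
    fun x => (2 * π * I)⁻¹ * (I * cSide (c - ε) y0 y1 (ψ x) (pr x)), ?_, ?_, ?_⟩
  · refine DifferentiableOn.const_mul (DifferentiableOn.add (DifferentiableOn.sub ?_ ?_) ?_) _
    · refine path_integral pr e0 hU1 hW hv (γ := fun t => (t : ℂ) + y0 * I) (by fun_prop) ?_ ?_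
      · intro x hx t ht
        rw [uIcc_of_le hle] at ht
        refine hmem x hx.1 _ ?_ ?_ ?_
        · simp only [add_re, ofReal_re, mul_re, I_re, mul_zero, ofReal_im, I_im, zero_mul, sub_self,
            add_zero]
          rw [abs_le]; constructor <;> linarith [ht.1, ht.2]
        · simp
        · simpa using hy.le
      · intro x hx t _ h0
        have := congrArg Complex.im h0
        simp at this
        have h5 := hx.2.2.1
        linarith
    · refine path_integral pr e0 hU1 hW hv (γ := fun t => (t : ℂ) + y1 * I) (by fun_prop) ?_ ?_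
      · intro x hx t ht
        rw [uIcc_of_le hle] at ht
        refine hmem x hx.1 _ ?_ ?_ ?_
        · simp only [add_re, ofReal_re, mul_re, I_re, mul_zero, ofReal_im, I_im, zero_mul, sub_self,
            add_zero]
          rw [abs_le]; constructor <;> linarith [ht.1, ht.2]
        · simpa using hy.le
        · simp
      · intro x hx t _ h0
        have := congrArg Complex.im h0
        simp at this
        have h5 := hx.2.2.2
        linarith
    · refine DifferentiableOn.const_mul ?_ _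
      have := path_integral pr e0 hU1 hW hv (γ := fun t => ((c + ε : ℝ) : ℂ) + t * I)
        (a := y0) (b := y1) (by fun_prop) ?_ ?_
      · exact this
      · intro x hx t ht
        rw [uIcc_of_le hy.le] at ht
        refine hmem x hx.1 _ ?_ ?_ ?_
        · simp [abs_of_pos hε]
        · simpa using ht.1
        · simpa using ht.2
      · intro x hx t _ h0
        have := congrArg Complex.re h0
        simp at this
        have h5 := hx.2.1
        linarith
  · refine DifferentiableOn.const_mul (DifferentiableOn.const_mul ?_ _) _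
    have := path_integral pr e0 hU2 hW hv (γ := fun t => ((c - ε : ℝ) : ℂ) + t * I)
        (a := y0) (b := y1) (by fun_prop) ?_ ?_
    · exact this
    · intro x hx t ht
      rw [uIcc_of_le hy.le] at ht
      refine hmem x hx.1 _ ?_ ?_ ?_
      · simp [abs_of_pos hε]
      · simpa using ht.1
      · simpa using ht.2
    · intro x hx t _ h0
      have := congrArg Complex.re h0
      simp at this
      have h5 := hx.2.1
      linarith
  · intro x hx h1 h2 h3 h4
    have hO : IsOpen {ζ : ℂ | x + (ζ - pr x) • e0 ∈ W} :=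
      hW.preimage (by fun_prop : Continuous fun ζ : ℂ => x + (ζ - pr x) • e0)
    have hsub : Icc (c - ε) (c + ε) ×ℂ Icc y0 y1 ⊆ {ζ : ℂ | x + (ζ - pr x) • e0 ∈ W} := by
      intro ζ hζ
      rw [mem_reProdIm] at hζ
      refine hmem x hx ζ ?_ hζ.2.1 hζ.2.2
      rw [abs_le]; constructor <;> linarith [hζ.1.1, hζ.1.2]
    have hφ : DifferentiableOn ℂ (ψ x) {ζ : ℂ | x + (ζ - pr x) • e0 ∈ W} := by
      intro ζ hζ
      have h5 : DifferentiableAt ℂ (fun ζ : ℂ => x + (ζ - pr x) • e0) ζ := by fun_prop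
      exact ((hv.differentiableAt (hW.mem_nhds hζ)).comp ζ h5).differentiableWithinAt
    have key := rect_cauchy hO hsub hφ h1 h2 h3 h4
    have h6 : ψ x (pr x) = v x := by simp [hψ]
    rw [h6] at key
    have h7 : (2 * π * I : ℂ) ≠ 0 := by simp [Real.pi_ne_zero]
    have h8 : v x = (2 * π * I : ℂ)⁻¹ * (2 * π * I * v x) := by
      rw [← mul_assoc, inv_mul_cancel₀ h7, one_mul]
    rw [h8, ← key]
    ring

end Split

/-! ### local data -/

section Data

variable {V : Type u} [NormedAddCommGroup V] [NormedSpace ℂ V]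

/-- `f` is holomorphic near `x` -/
def HolV (f : V → ℂ) (x : V) : Prop := ∀ᶠ y in 𝓝 x, DifferentiableAt ℂ f y

/-- axioms of "`f` represents the divisor `P` at `x`" -/
structure LocData (P : (V → ℂ) → V → Prop) : Prop where
  hol : ∀ {f x}, P f x → HolV f x
  ne : ∀ {f x}, P f x → ∃ᶠ y in 𝓝 x, f y ≠ 0
  ev : ∀ {f x}, P f x → ∀ᶠ y in 𝓝 x, P f y
  ratio : ∀ {f f' x}, P f x → P f' x → ∃ u : V → ℂ, HolV u x ∧ u x ≠ 0 ∧ f =ᶠ[𝓝 x] u * f'
  mul : ∀ {f f' u x}, P f x → HolV u x → u x ≠ 0 → f' =ᶠ[𝓝 x] u * f → P f' x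

variable {P : (V → ℂ) → V → Prop}

theorem LocData.isOpen (hP : LocData P) (f : V → ℂ) : IsOpen {x | P f x} :=
  isOpen_iff_mem_nhds.2 fun _ hx => hP.ev hx

theorem LocData.congr (hP : LocData P) {f f' : V → ℂ} {x : V} (h : P f x) (e : f' =ᶠ[𝓝 x] f) :
    P f' x :=
  hP.mul h (u := 1) (Eventually.of_forall fun _ => differentiableAt_const (1 : ℂ)) one_ne_zero
    (by simpa using e)

/-- the quotient of two representatives on an open set -/
theorem LocData.quot (hP : LocData P) {f f' : V → ℂ} {O : Set V} (hO : IsOpen O)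
    (h : ∀ x ∈ O, P f x) (h' : ∀ x ∈ O, P f' x) :
    ∃ u : V → ℂ, DifferentiableOn ℂ u O ∧ (∀ x ∈ O, u x ≠ 0) ∧ ∀ x ∈ O, f x = u x * f' x := by
  classical
  have hr : ∀ x ∈ O, ∃ u : V → ℂ, HolV u x ∧ u x ≠ 0 ∧ f =ᶠ[𝓝 x] u * f' :=
    fun x hx => hP.ratio (h x hx) (h' x hx)
  choose! U hU1 hU2 hU3 using hr
  have hloc : ∀ x ∈ O, ∀ᶠ y in 𝓝 x, U y y = U x y := by
    intro x hx
    filter_upwards [hO.mem_nhds hx, eventually_eventually_nhds.2 (hU3 x hx), hU1 x hx]
      with y hy h3 h4
    by_contra hne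
    -- both are continuous at `y`
    have c1 : ContinuousAt (U y) y := (hU1 y hy).self_of_nhds.continuousAt
    have c2 : ContinuousAt (U x) y := h4.continuousAt
    have h5 : ∀ᶠ z in 𝓝 y, U y z - U x z ≠ 0 := (c1.sub c2).eventually_ne (sub_ne_zero.2 hne)
    have h6 : ∀ᶠ z in 𝓝 y, f' z = 0 := by
      filter_upwards [h5, h3, hU3 y hy] with z h7 h8 h9
      have : (U y z - U x z) * f' z = 0 := by
        simp only [Pi.mul_apply] at h8 h9
        rw [sub_mul, ← h9, ← h8, sub_self]
      exact (mul_eq_zero.1 this).resolve_left h7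
    exact (hP.ne (h' y hy)) (h6.mono fun z hz => not_not.2 hz)
  refine ⟨fun y => U y y, ?_, fun x hx => hU2 x hx, ?_⟩
  · intro x hx
    exact ((hU1 x hx).self_of_nhds.congr_of_eventuallyEq (hloc x hx)).differentiableWithinAt
  · intro x hx
    exact (hU3 x hx).self_of_nhds

end Data

/-! ### gluing across a real hyperplane -/

section Glue

variable {V : Type u} [NormedAddCommGroup V] [NormedSpace ℂ V] [FiniteDimensional ℂ V]
variable {P : (V → ℂ) → V → Prop}

theorem LocData.glue (hP : LocData P) (pr : V →L[ℂ] ℂ) (e0 : V) (he : pr e0 = 1) {T W : Set V}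
    (hT : IsOpen T) (hTi : ∀ x ∈ T, ∀ ζ : ℂ, x + ζ • e0 ∈ T) (hW : IsOpen W) (hWc : Convex ℝ W)
    {c ε y0 y1 : ℝ} (hε : 0 < ε)
    (hTW : ∀ x ∈ T, |(pr x).re - c| ≤ ε → y0 ≤ (pr x).im → (pr x).im ≤ y1 → x ∈ W)
    {f1 f2 : V → ℂ} (hW1 : ∀ x ∈ W, P f1 x) (hW2 : ∀ x ∈ W, P f2 x)
    {K : Set V} (hKT : K ⊆ T) (hKy : ∀ x ∈ K, y0 < (pr x).im ∧ (pr x).im < y1)
    (h1 : ∀ x ∈ K, (pr x).re ≤ c → P f1 x) (h2 : ∀ x ∈ K, c ≤ (pr x).re → P f2 x) :
    ∃ F, ∀ x ∈ K, P F x := by
  classical
  obtain ⟨u, hu, hu0, hfu⟩ := hP.quot hW hW1 hW2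
  obtain ⟨v, hv, hev⟩ := exists_log hW hWc hu hu0
  obtain ⟨v1, v2, hv1, hv2, hv12⟩ := cousin_split pr e0 he hT hTi hW hε hTW hv
  have hre : Continuous (fun x : V => (pr x).re) := Complex.continuous_re.comp pr.continuous
  have him : Continuous (fun x : V => (pr x).im) := Complex.continuous_im.comp pr.continuous
  have hU1 : IsOpen (T ∩ {x | (pr x).re < c + ε ∧ y0 < (pr x).im ∧ (pr x).im < y1}) :=
    hT.inter ((isOpen_lt hre continuous_const).inter
      ((isOpen_lt continuous_const him).inter (isOpen_lt him continuous_const)))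
  have hU2 : IsOpen (T ∩ {x | c - ε < (pr x).re ∧ y0 < (pr x).im ∧ (pr x).im < y1}) :=
    hT.inter ((isOpen_lt continuous_const hre).inter
      ((isOpen_lt continuous_const him).inter (isOpen_lt him continuous_const)))
  set g1 : V → ℂ := fun x => Complex.exp (-v1 x) * f1 x with hg1
  set g2 : V → ℂ := fun x => Complex.exp (-v2 x) * f2 x with hg2
  have hP1 : ∀ x ∈ T, P f1 x → (pr x).re < c + ε → y0 < (pr x).im → (pr x).im < y1 → P g1 x := by
    intro x hx hf a1 a2 a3
    refine hP.mul hf (u := fun x => Complex.exp (-v1 x)) ?_ (Complex.exp_ne_zero _)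
      EventuallyEq.rfl
    filter_upwards [hU1.mem_nhds ⟨hx, a1, a2, a3⟩] with y hy
    exact ((hv1.differentiableAt (hU1.mem_nhds hy)).neg).cexp
  have hP2 : ∀ x ∈ T, P f2 x → c - ε < (pr x).re → y0 < (pr x).im → (pr x).im < y1 → P g2 x := by
    intro x hx hf a1 a2 a3
    refine hP.mul hf (u := fun x => Complex.exp (-v2 x)) ?_ (Complex.exp_ne_zero _)
      EventuallyEq.rfl
    filter_upwards [hU2.mem_nhds ⟨hx, a1, a2, a3⟩] with y hy
    exact ((hv2.differentiableAt (hU2.mem_nhds hy)).neg).cexp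
  have hov : ∀ x ∈ T, c - ε < (pr x).re → (pr x).re < c + ε → y0 < (pr x).im → (pr x).im < y1 →
      g1 x = g2 x := by
    intro x hx a1 a2 a3 a4
    have hxW : x ∈ W := hTW x hx (by rw [abs_le]; constructor <;> linarith) a3.le a4.le
    simp only [hg1, hg2]
    rw [hfu x hxW, ← hev x hxW, hv12 x hx a1 a2 a3 a4, ← mul_assoc, ← Complex.exp_add]
    congr 2
    ring
  refine ⟨fun x => if (pr x).re ≤ c then g1 x else g2 x, ?_⟩
  intro x hx
  obtain ⟨b1, b2⟩ := hKy x hx
  have hxT := hKT hx
  rcases lt_trichotomy (pr x).re c with h | h | h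
  · refine hP.congr (hP1 x hxT (h1 x hx h.le) (by linarith) b1 b2) ?_
    filter_upwards [(isOpen_lt hre continuous_const).mem_nhds h] with y hy
    rw [if_pos (le_of_lt hy)]
  · refine hP.congr (hP1 x hxT (h1 x hx h.le) (by linarith) b1 b2) ?_
    filter_upwards [hT.mem_nhds hxT,
      (isOpen_lt continuous_const hre).mem_nhds (by show c - ε < (pr x).re; linarith),
      (isOpen_lt hre continuous_const).mem_nhds (by show (pr x).re < c + ε; linarith),
      (isOpen_lt continuous_const him).mem_nhds b1, (isOpen_lt him continuous_const).mem_nhds b2]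
      with y c1 c2 c3 c4 c5
    split_ifs with h'
    · rfl
    · exact (hov y c1 c2 c3 c4 c5).symm
  · refine hP.congr (hP2 x hxT (h2 x hx h.le) (by linarith) b1 b2) ?_
    filter_upwards [(isOpen_lt continuous_const hre).mem_nhds h] with y hy
    rw [if_neg (not_le.2 hy)]

end Glue

end Crest.Agent.R275.Cous686
end
end

-- ▼ part R275/CousC_686

/-!
R275 (S0418), Part IV, helper686: COUSIN2, part C: boxes.
* `cousin2` : local data given along a closed box of `ℂⁿ` are given by ONE holomorphic function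
  near the box.
-/

set_option autoImplicit false
set_option linter.unusedSectionVars false

open Set Filter Topology Metric Complex MeasureTheory
open Crest.Agent.R266.SCV Crest.Agent.R275.Geo
open scoped Real

noncomputable section

namespace Crest.Agent.R275.Cous686

variable {n : ℕ}

/-- closed box -/
def Box (a b : RI n → ℝ) : Set (Cn n) := {x | ∀ p, a p ≤ rc x p ∧ rc x p ≤ b p}

lemma continuous_rc_apply (p : RI n) : Continuous (fun x : Cn n => rc x p) := by
  obtain ⟨k, j⟩ := p
  fin_cases j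
  · have : (fun x : Cn n => rc x (k, 0)) = fun x => (x k).re := by ext x; simp [rc]
    simp only [Fin.zero_eta, this]
    exact Complex.continuous_re.comp (EuclideanSpace.proj (𝕜 := ℂ) k).continuous
  · have : (fun x : Cn n => rc x (k, 1)) = fun x => (x k).im := by ext x; simp [rc]
    simp only [Fin.mk_one, this]
    exact Complex.continuous_im.comp (EuclideanSpace.proj (𝕜 := ℂ) k).continuous


lemma continuous_cc : Continuous (cc : (RI n → ℝ) → Cn n) := by
  unfold cc
  refine (PiLp.continuous_toLp 2 (fun _ : Fin n => ℂ)).comp ?_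
  exact continuous_pi fun a => by fun_prop

lemma rc_add (x y : Cn n) (p : RI n) : rc (x + y) p = rc x p + rc y p := by
  unfold rc; split_ifs <;> simp

lemma rc_smul_real (t : ℝ) (x : Cn n) (p : RI n) : rc (t • x) p = t * rc x p := by
  unfold rc; split_ifs <;> simp

lemma isCompact_Box (a b : RI n → ℝ) : IsCompact (Box a b) := by
  have h : Box a b = cc '' (Icc a b) := by
    ext x
    constructor
    · intro hx
      exact ⟨rc x, ⟨fun p => (hx p).1, fun p => (hx p).2⟩, cc_rc x⟩
    · rintro ⟨y, hy, rfl⟩ p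
      rw [rc_cc]
      exact ⟨hy.1 p, hy.2 p⟩
  rw [h]
  exact isCompact_Icc.image continuous_cc

/-- small coordinate differences give small distance -/
lemma exists_box_ball {δ : ℝ} (hδ : 0 < δ) :
    ∃ ε > 0, ∀ x y : Cn n, (∀ p, |rc y p - rc x p| ≤ ε) → y ∈ ball x δ := by
  have hca : ContinuousAt (cc : (RI n → ℝ) → Cn n) 0 := continuous_cc.continuousAt
  obtain ⟨η, hη, h⟩ := Metric.continuousAt_iff.1 hca δ hδ
  refine ⟨η / 2, by positivity, fun x y hxy => ?_⟩
  have h1 : dist (rc y - rc x) 0 < η := by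
    refine lt_of_le_of_lt ?_ (half_lt_self hη)
    rw [dist_zero_right, pi_norm_le_iff_of_nonneg (by positivity)]
    intro p
    simpa using hxy p
  have h2 := h h1
  have h3 : cc (rc y - rc x) = y - x := by
    have : rc y - rc x = rc (y - x) := by
      ext p
      have := rc_add (y - x) x p
      rw [sub_add_cancel] at this
      rw [Pi.sub_apply, this]; ring
    rw [this, cc_rc]
  have h4 : cc (0 : RI n → ℝ) = 0 := by ext a; simp
  rw [h3, h4, dist_zero_right] at h2
  rwa [mem_ball, dist_eq_norm]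

/-- an open neighbourhood of the face `rc p₀ = c` of a box contains a thickening of the face -/
lemma exists_thick (a b : RI n → ℝ) (p0 : RI n) (c : ℝ) {O : Set (Cn n)} (hO : IsOpen O)
    (h : ∀ x ∈ Box a b, rc x p0 = c → x ∈ O) (hc : a p0 ≤ c ∧ c ≤ b p0) :
    ∃ ε > 0, ∀ x, |rc x p0 - c| < ε → (∀ p, p ≠ p0 → a p - ε < rc x p ∧ rc x p < b p + ε) →
      x ∈ O := by
  by_contra hcon
  push Not at hcon
  have hcon' : ∀ k : ℕ, ∃ x : Cn n, |rc x p0 - c| < 1 / ((k : ℝ) + 1) ∧
      (∀ p, p ≠ p0 → a p - 1 / ((k : ℝ) + 1) < rc x p ∧ rc x p < b p + 1 / ((k : ℝ) + 1)) ∧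
      x ∉ O := fun k => hcon _ (by positivity)
  choose x hx1 hx2 hx3 using hcon'
  have hle1 : ∀ k : ℕ, 1 / ((k : ℝ) + 1) ≤ 1 := fun k => by
    rw [div_le_one (by positivity)]; linarith [(Nat.cast_nonneg k : (0 : ℝ) ≤ k)]
  have hbox : ∀ k, x k ∈ Box (fun p => a p - 1) (fun p => b p + 1) := by
    intro k p
    by_cases hp : p = p0
    · subst hp
      have h1 := abs_lt.1 (hx1 k)
      have h2 := hle1 k
      constructor <;> linarith [h1.1, h1.2]
    · have h1 := hx2 k p hp
      have h2 := hle1 k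
      constructor <;> linarith [h1.1, h1.2]
  obtain ⟨z, hz, φ, hφ, hlim⟩ := (isCompact_Box _ _).tendsto_subseq hbox
  have h0 : Tendsto (fun k : ℕ => 1 / ((k : ℝ) + 1)) atTop (𝓝 0) :=
    tendsto_one_div_add_atTop_nhds_zero_nat
  have h0' := h0.comp hφ.tendsto_atTop
  have hrc : ∀ p, Tendsto (fun k => rc (x (φ k)) p) atTop (𝓝 (rc z p)) := fun p =>
    ((continuous_rc_apply p).tendsto z).comp hlim
  have hzp0 : rc z p0 = c := by
    have h1 : Tendsto (fun k => |rc (x (φ k)) p0 - c|) atTop (𝓝 |rc z p0 - c|) :=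
      ((hrc p0).sub_const c).abs
    have h2 : |rc z p0 - c| ≤ 0 := le_of_tendsto_of_tendsto h1 h0'
      (Eventually.of_forall fun k => (hx1 (φ k)).le)
    have h3 := abs_nonpos_iff.1 h2
    linarith
  have hzbox : z ∈ Box a b := by
    intro p
    by_cases hp : p = p0
    · subst hp; rw [hzp0]; exact hc
    · constructor
      · refine le_of_tendsto_of_tendsto (f := fun k => a p - 1 / ((φ k : ℝ) + 1)) ?_ (hrc p)
          (Eventually.of_forall fun k => (hx2 (φ k) p hp).1.le)
        simpa using (tendsto_const_nhds (x := a p)).sub h0'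
      · refine le_of_tendsto_of_tendsto (hrc p) (g := fun k => b p + 1 / ((φ k : ℝ) + 1)) ?_
          (Eventually.of_forall fun k => (hx2 (φ k) p hp).2.le)
        simpa using (tendsto_const_nhds (x := b p)).add h0'
  have hzO := h z hzbox hzp0
  have := hlim.eventually (hO.mem_nhds hzO)
  obtain ⟨k, hk⟩ := this.exists
  exact hx3 _ hk

/-- the thickened face is open and convex -/
def thick (a b : RI n → ℝ) (p0 : RI n) (c ε : ℝ) : Set (Cn n) :=
  {x | |rc x p0 - c| < ε ∧ ∀ p, p ≠ p0 → a p - ε < rc x p ∧ rc x p < b p + ε}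

lemma isOpen_thick (a b : RI n → ℝ) (p0 : RI n) (c ε : ℝ) : IsOpen (thick a b p0 c ε) := by
  have this : thick a b p0 c ε = {x : Cn n | |rc x p0 - c| < ε} ∩
        ⋂ p, {x : Cn n | p ≠ p0 → a p - ε < rc x p ∧ rc x p < b p + ε} := by
      ext x; simp [thick]
  rw [this]
  refine IsOpen.inter ?_ ?_
  · exact isOpen_lt ((continuous_rc_apply p0).sub continuous_const).abs continuous_const
  · 
    refine isOpen_iInter_of_finite fun p => ?_
    by_cases hp : p = p0
    · simp [hp]
    · simp only [ne_eq, hp, not_false_eq_true, forall_const]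
      exact (isOpen_lt continuous_const (continuous_rc_apply p)).inter
        (isOpen_lt (continuous_rc_apply p) continuous_const)

lemma convex_thick (a b : RI n → ℝ) (p0 : RI n) (c ε : ℝ) : Convex ℝ (thick a b p0 c ε) := by
  intro x hx y hy s t hs ht hst
  have key : ∀ p (l u : ℝ), l < rc x p → rc x p < u → l < rc y p → rc y p < u →
      l < rc (s • x + t • y) p ∧ rc (s • x + t • y) p < u := by
    intro p l u h1 h2 h3 h4
    rw [rc_add, rc_smul_real, rc_smul_real]
    have e1 : l = s * l + t * l := by rw [← add_mul, hst, one_mul]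
    have e2 : u = s * u + t * u := by rw [← add_mul, hst, one_mul]
    rcases eq_or_lt_of_le hs with h0 | h0
    · subst h0
      have : t = 1 := by linarith
      subst this
      constructor <;> simp <;> assumption
    · constructor
      · rw [e1]; nlinarith
      · rw [e2]; nlinarith
  refine ⟨?_, fun p hp => ?_⟩
  · have h1 := abs_lt.1 hx.1
    have h2 := abs_lt.1 hy.1
    have := key p0 (c - ε) (c + ε) (by linarith) (by linarith) (by linarith) (by linarith)
    rw [abs_lt]
    constructor <;> linarith [this.1, this.2]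
  · exact key p _ _ (hx.2 p hp).1 (hx.2 p hp).2 (hy.2 p hp).1 (hy.2 p hp).2

variable {P : (Cn n → ℂ) → Cn n → Prop}

/-- general halving step -/
theorem LocData.halve_gen (hP : LocData P) (a b : RI n → ℝ) (p0 q0 : RI n) (hpq : q0 ≠ p0) (c : ℝ)
    (hc : a p0 ≤ c ∧ c ≤ b p0) (pr : Cn n →L[ℂ] ℂ) (e0 : Cn n) (he : pr e0 = 1)
    (hcov : ∀ p, p = p0 ∨ p = q0 ∨ p.1 ≠ p0.1) (hq0 : q0.1 = p0.1)
    (hre : ∀ x, (pr x).re = rc x p0)
    (hinv : ∀ (x : Cn n) (ζ : ℂ) (p : RI n), p.1 ≠ p0.1 → rc (x + ζ • e0) p = rc x p)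
    (him : ∀ l u : ℝ, ∃ y0 y1 : ℝ, (∀ x, y0 ≤ (pr x).im → (pr x).im ≤ y1 →
      l ≤ rc x q0 ∧ rc x q0 ≤ u) ∧ (∀ x, l < rc x q0 → rc x q0 < u → y0 < (pr x).im ∧ (pr x).im < y1))
    {f1 f2 : Cn n → ℂ} (h1 : ∀ x ∈ Box a b, rc x p0 ≤ c → P f1 x)
    (h2 : ∀ x ∈ Box a b, c ≤ rc x p0 → P f2 x) : ∃ F, ∀ x ∈ Box a b, P F x := by
  have hO : IsOpen ({x | P f1 x} ∩ {x | P f2 x}) := (hP.isOpen f1).inter (hP.isOpen f2)
  obtain ⟨ε, hε, hth⟩ := exists_thick a b p0 c hO
    (fun x hx hxc => ⟨h1 x hx hxc.le, h2 x hx hxc.ge⟩) hc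
  obtain ⟨y0, y1, hy1, hy2⟩ := him (a q0 - ε / 2) (b q0 + ε / 2)
  set T : Set (Cn n) := {x | ∀ p, p.1 ≠ p0.1 → a p - ε / 2 < rc x p ∧ rc x p < b p + ε / 2} with hT
  have hTo : IsOpen T := by
    have : T = ⋂ p : RI n, {x : Cn n | p.1 ≠ p0.1 → a p - ε / 2 < rc x p ∧ rc x p < b p + ε / 2} := by
      ext x; simp [hT]
    rw [this]
    refine isOpen_iInter_of_finite fun p => ?_
    by_cases hp : p.1 = p0.1
    · simp [hp]
    · simp only [ne_eq, hp, not_false_eq_true, forall_const]
      exact (isOpen_lt continuous_const (continuous_rc_apply p)).inter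
        (isOpen_lt (continuous_rc_apply p) continuous_const)
  refine hP.glue pr e0 he (T := T) (W := thick a b p0 c ε) hTo ?_ (isOpen_thick a b p0 c ε)
    (convex_thick a b p0 c ε) (c := c) (ε := ε / 2) (y0 := y0) (y1 := y1) (by positivity) ?_
    (f1 := f1) (f2 := f2) (fun x hx => (hth x hx.1 hx.2).1) (fun x hx => (hth x hx.1 hx.2).2)
    (K := Box a b) ?_ ?_ ?_ ?_
  · intro x hx ζ p hp
    rw [hinv x ζ p hp]
    exact hx p hp
  · intro x hx ha hb1 hb2
    refine ⟨?_, fun p hp => ?_⟩
    · rw [← hre]; exact ha.trans_lt (half_lt_self hε)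
    · rcases hcov p with h | h | h
      · exact absurd h hp
      · subst h
        have := hy1 x hb1 hb2
        constructor <;> linarith [this.1, this.2]
      · have := hx p h
        constructor <;> linarith [this.1, this.2]
  · intro x hx p _
    have := hx p
    constructor <;> linarith [this.1, this.2]
  · intro x hx
    have := hx q0
    exact hy2 x (by linarith [this.1]) (by linarith [this.2])
  · intro x hx h
    rw [hre] at h
    exact h1 x hx h
  · intro x hx h
    rw [hre] at h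
    exact h2 x hx h

/-- the halving step -/
theorem LocData.halve (hP : LocData P) (a b : RI n → ℝ) (p0 : RI n) (c : ℝ)
    (hc : a p0 ≤ c ∧ c ≤ b p0)
    {f1 f2 : Cn n → ℂ} (h1 : ∀ x ∈ Box a b, rc x p0 ≤ c → P f1 x)
    (h2 : ∀ x ∈ Box a b, c ≤ rc x p0 → P f2 x) : ∃ F, ∀ x ∈ Box a b, P F x := by
  obtain ⟨k, j⟩ := p0
  have hinv : ∀ (w : ℂ) (x : Cn n) (ζ : ℂ) (p : RI n), p.1 ≠ k →
      rc (x + ζ • (EuclideanSpace.single k w : Cn n)) p = rc x p := by
    intro w x ζ p hp
    unfold rc
    simp [hp]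
  fin_cases j
  · refine hP.halve_gen a b (k, 0) (k, 1) (by simp) c hc (EuclideanSpace.proj k)
      (EuclideanSpace.single k 1) (by simp) ?_ rfl (by intro x; simp [rc]) (hinv 1) ?_ h1 h2
    · rintro ⟨i, j⟩
      fin_cases j
      · by_cases h : i = k <;> simp [h]
      · by_cases h : i = k <;> simp [h]
    · intro l u
      refine ⟨l, u, fun x ha hb => ?_, fun x ha hb => ?_⟩
      · simp [rc] at ha hb ⊢; exact ⟨ha, hb⟩
      · simp [rc] at ha hb ⊢; exact ⟨ha, hb⟩
  · refine hP.halve_gen a b (k, 1) (k, 0) (by simp) c hc ((-I) • (EuclideanSpace.proj k))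
      (EuclideanSpace.single k I) (by simp) ?_ rfl (by intro x; simp [rc]) (hinv I) ?_ h1 h2
    · rintro ⟨i, j⟩
      fin_cases j
      · by_cases h : i = k <;> simp [h]
      · by_cases h : i = k <;> simp [h]
    · intro l u
      refine ⟨-u, -l, fun x ha hb => ?_, fun x ha hb => ?_⟩
      · simp [rc] at ha hb ⊢; exact ⟨hb, ha⟩
      · simp [rc] at ha hb ⊢; exact ⟨hb, ha⟩

/-- **COUSIN2**: local data along a closed box are given by one function -/
theorem cousin2 (hP : LocData P) (a b : RI n → ℝ) (h : ∀ x ∈ Box a b, ∃ f, P f x) :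
    ∃ f, ∀ x ∈ Box a b, P f x := by
  classical
  obtain ⟨δ, hδ, hleb⟩ := lebesgue_number_lemma_of_metric (isCompact_Box a b)
    (c := fun f : Cn n → ℂ => {x | P f x}) (fun f => hP.isOpen f)
    (fun x hx => mem_iUnion.2 (h x hx))
  obtain ⟨ε, hε, hεδ⟩ := exists_box_ball (n := n) hδ
  have main : ∀ N : ℕ, ∀ m : RI n → ℕ, ∑ p, m p = N → ∀ a' b' : RI n → ℝ,
      (∀ p, b' p - a' p ≤ 2 ^ m p * ε) → Box a' b' ⊆ Box a b → ∃ f, ∀ x ∈ Box a' b', P f x := by
    intro N
    induction N with
    | zero =>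
      intro m hm a' b' hab hsub
      have hm0 : ∀ p, m p = 0 := fun p =>
        (Finset.sum_eq_zero_iff.1 hm) p (Finset.mem_univ p)
      rcases (Box a' b').eq_empty_or_nonempty with he | ⟨x, hx⟩
      · exact ⟨0, fun x hx => by rw [he] at hx; exact hx.elim⟩
      · obtain ⟨f, hf⟩ := hleb x (hsub hx)
        refine ⟨f, fun y hy => hf (hεδ x y fun p => ?_)⟩
        have h1 := hab p
        rw [hm0 p, pow_zero, one_mul] at h1
        have h2 := hx p
        have h3 := hy p
        rw [abs_le]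
        constructor <;> linarith [h2.1, h2.2, h3.1, h3.2]
    | succ N ih =>
      intro m hm a' b' hab hsub
      rcases (Box a' b').eq_empty_or_nonempty with he | ⟨x, hx⟩
      · exact ⟨0, fun x hx => by rw [he] at hx; exact hx.elim⟩
      obtain ⟨p0, hp0⟩ : ∃ p0, m p0 ≠ 0 := by
        by_contra hcon
        push Not at hcon
        rw [Finset.sum_eq_zero (fun p _ => hcon p)] at hm
        omega
      have hle : a' p0 ≤ b' p0 := (hx p0).1.trans (hx p0).2
      set c : ℝ := (a' p0 + b' p0) / 2 with hc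
      have hm' : ∑ p, Function.update m p0 (m p0 - 1) p = N := by
        have h1 := Finset.sum_update_of_mem (Finset.mem_univ p0) m (m p0 - 1)
        have h2 : m p0 + ∑ p ∈ Finset.univ \ {p0}, m p = N + 1 := by
          rw [← hm]
          exact (Finset.sum_eq_add_sum_sdiff_singleton_of_mem (Finset.mem_univ p0) m).symm
        rw [h1]
        omega
      have hhalf : b' p0 - c ≤ 2 ^ (m p0 - 1) * ε ∧ c - a' p0 ≤ 2 ^ (m p0 - 1) * ε := by
        have h1 := hab p0
        have h2 : (2 : ℝ) ^ m p0 = 2 * 2 ^ (m p0 - 1) := by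
          rw [← pow_succ']; congr 1; omega
        rw [h2] at h1
        constructor <;> simp only [hc] <;> linarith
      have hs1 : Box a' (Function.update b' p0 c) ⊆ Box a' b' := by
        intro y hy p
        have h1 := hy p
        by_cases hp : p = p0
        · subst hp
          rw [Function.update_self] at h1
          exact ⟨h1.1, h1.2.trans (by simp only [hc]; linarith)⟩
        · rwa [Function.update_of_ne hp] at h1
      have hs2 : Box (Function.update a' p0 c) b' ⊆ Box a' b' := by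
        intro y hy p
        have h1 := hy p
        by_cases hp : p = p0
        · subst hp
          rw [Function.update_self] at h1
          exact ⟨(by simp only [hc]; linarith : a' p ≤ c).trans h1.1, h1.2⟩
        · rwa [Function.update_of_ne hp] at h1
      obtain ⟨f1, hf1⟩ := ih _ hm' a' (Function.update b' p0 c) (fun p => by
        by_cases hp : p = p0
        · subst hp; rw [Function.update_self, Function.update_self]; exact hhalf.2
        · rw [Function.update_of_ne hp, Function.update_of_ne hp]; exact hab p) (hs1.trans hsub)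
      obtain ⟨f2, hf2⟩ := ih _ hm' (Function.update a' p0 c) b' (fun p => by
        by_cases hp : p = p0
        · subst hp; rw [Function.update_self, Function.update_self]; exact hhalf.1
        · rw [Function.update_of_ne hp, Function.update_of_ne hp]; exact hab p) (hs2.trans hsub)
      refine hP.halve a' b' p0 c ⟨by simp only [hc]; linarith, by simp only [hc]; linarith⟩
        (f1 := f1) (f2 := f2) ?_ ?_
      · intro y hy hyc
        refine hf1 y fun p => ?_
        by_cases hp : p = p0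
        · subst hp; rw [Function.update_self]; exact ⟨(hy p).1, hyc⟩
        · rw [Function.update_of_ne hp]; exact hy p
      · intro y hy hyc
        refine hf2 y fun p => ?_
        by_cases hp : p = p0
        · subst hp; rw [Function.update_self]; exact ⟨hyc, (hy p).2⟩
        · rw [Function.update_of_ne hp]; exact hy p
  obtain ⟨m, hm⟩ : ∃ m : RI n → ℕ, ∀ p, b p - a p ≤ 2 ^ m p * ε := by
    have : ∀ p : RI n, ∃ m : ℕ, b p - a p ≤ 2 ^ m * ε := by
      intro p
      obtain ⟨m, hm⟩ := pow_unbounded_of_one_lt ((b p - a p) / ε) (by norm_num : (1 : ℝ) < 2)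
      exact ⟨m, by rw [← div_le_iff₀ hε]; exact hm.le⟩
    choose m hm using this
    exact ⟨m, hm⟩
  exact main _ m rfl a b hm subset_rfl

end Crest.Agent.R275.Cous686
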