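import Mathlib
import Crest.Agent.R275.SupA_912
import Crest.Agent.R275.C1c_193
import Crest.Agent.R275.Core_144
import Crest.Agent.R275.RetA_666

-- ▼ part R275/SupBoot_912
section

/-!
# R275 (helper912): Schur-type summation and bootstrapping of local estimates with weights

`N s j` is the norm of level `s` of the `j`-th localisation; `nb j` the (finite) set of neighbours.
-/

set_option autoImplicit false

open Finset

namespace Crest.Agent.R275.Sup912

noncomputable section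

variable {J : Type*}

/-- a finite-range relation with uniformly bounded degrees in both directions -/
structure Nbh (nb : J → Finset J) (m : ℕ) : Prop where
  card : ∀ j, (nb j).card ≤ m
  card' : ∀ k, ∀ T : Finset J, (∀ j ∈ T, k ∈ nb j) → T.card ≤ m




/-- pointwise version of the bootstrapping: weighted sup bounds -/
theorem boot_sup {nb : J → Finset J} {m : ℕ} (hm : ∀ j, (nb j).card ≤ m) {ω : J → ℝ} {c : ℝ}
    (hω : ∀ j, 0 ≤ ω j) (hc0 : 0 ≤ c) (hc : ∀ j, ∀ k ∈ nb j, ω j ≤ c * ω k)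
    {N : ℕ → J → ℝ}
    {D : ℕ → ℝ} (hD : ∀ s, 0 ≤ D s) (h : ∀ s j, N (s + 1) j ≤ D s * ∑ k ∈ nb j, N s k)
    {E : ℝ} (hE : 0 ≤ E) (hs : ∀ k, ω k * N 0 k ≤ E) (h0 : ∀ s j, 0 ≤ N s j) (s : ℕ) (j : J) :
    ω j * N s j ≤ (∏ t ∈ Finset.range s, (D t * c * m)) * E := by
  induction s generalizing j with
  | zero => simpa using hs j
  | succ s ih =>
    calc ω j * N (s + 1) j ≤ ω j * (D s * ∑ k ∈ nb j, N s k) :=
          mul_le_mul_of_nonneg_left (h s j) (hω j)
      _ = D s * ∑ k ∈ nb j, ω j * N s k := by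
          simp only [Finset.mul_sum]
          exact Finset.sum_congr rfl fun k _ => by ring
      _ ≤ D s * ∑ _k ∈ nb j, c * ((∏ t ∈ Finset.range s, (D t * c * m)) * E) := by
          refine mul_le_mul_of_nonneg_left (Finset.sum_le_sum fun k hk => ?_) (hD s)
          calc ω j * N s k ≤ (c * ω k) * N s k := mul_le_mul_of_nonneg_right (hc j k hk) (h0 s k)
            _ = c * (ω k * N s k) := by ring
            _ ≤ _ := mul_le_mul_of_nonneg_left (ih k) hc0
      _ = D s * ((nb j).card * (c * ((∏ t ∈ Finset.range s, (D t * c * m)) * E))) := by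
          rw [Finset.sum_const, nsmul_eq_mul]
      _ ≤ D s * (m * (c * ((∏ t ∈ Finset.range s, (D t * c * m)) * E))) := by
          have hP : 0 ≤ ∏ t ∈ Finset.range s, (D t * c * m) :=
            Finset.prod_nonneg fun t _ => mul_nonneg (mul_nonneg (hD t) hc0) (Nat.cast_nonneg _)
          refine mul_le_mul_of_nonneg_left (mul_le_mul_of_nonneg_right ?_
            (mul_nonneg hc0 (mul_nonneg hP hE))) (hD s)
          exact_mod_cast hm j
      _ = _ := by rw [Finset.prod_range_succ]; ring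

end

end Crest.Agent.R275.Sup912
end

-- ▼ part R275/SupB_912
section

/-!
# R275, W4 part 2 (helper912): any localisation of a section in terms of the standard ones
-/

set_option autoImplicit false
set_option linter.unusedSectionVars false

open Set Filter Topology Complex
open scoped ContDiff Matrix ComplexConjugate

namespace Crest.Agent.R275.Sup912

open Geo Tor812 C1d194 TorS666

noncomputable section

variable {n : ℕ} {M : Type} [TopologicalSpace M] {A : Atl n M} (P : Part A) {B : FBun A}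
  {u : A.ι → M → B.κ → ℂ}

theorem chi_mul_psi (k : A.ι) (x : M) : (P.χ k x : ℂ) * (P.ψ k x : ℂ) = (P.ψ k x : ℂ) := by
  by_cases hx : x ∈ tsupport (P.ψ k)
  · rw [(P.χ_one k x hx).self_of_nhds]; simp
  · rw [image_eq_zero_of_notMem_tsupport hx]; simp

/-- `ext_k(χ_k) loc_k(ψ_k) u = ψ_k u` -/
theorem ext_loc_psi (hu : u ∈ Sec B) (k : A.ι) :
    ext B k (sca B.κ (P.χ k)) (loc A k (sca B.κ (P.ψ k)) (u k)) =
      fun i x => (P.ψ k x : ℂ) • u i x := by
  refine ext_loc_scalar B (isAmp_psi P B.κ k) (ψ := fun x => (P.ψ k x : ℂ)) (fun x => ?_) hu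
    fun x hx => ?_
  · simp only [sca, Matrix.mul_smul, mul_one, smul_smul]
    rw [mul_comm, chi_mul_psi]
  · have h1 : x ∉ tsupport (P.ψ k) := fun h => hx (psi_sub P k h)
    rw [image_eq_zero_of_notMem_tsupport h1]; simp

/-- any localisation of `u` through the standard ones -/
theorem loc_eq_sum (hu : u ∈ Sec B) {κ' : Type} {j : A.ι} {a : M → Matrix κ' B.κ ℂ}
    (ha : IsAmp A j a) {T : Finset A.ι}
    (hT : ∀ x ∈ tsupport a, ∀ k, x ∈ tsupport (P.χ k) → k ∈ T) :
    loc A j a (u j) = ∑ k ∈ T, loc A j a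
      (ext B k (sca B.κ (P.χ k)) (loc A k (sca B.κ (P.ψ k)) (u k)) j) := by
  classical
  funext l
  rw [Finset.sum_apply]
  apply SPer.ext
  intro x
  rw [sper_sum_apply]
  have hv : ∀ l, A.SmAt j (fun x => u j x l) := fun l => hu.1 j l
  have hv' : ∀ k, ∀ l, A.SmAt j (fun x =>
      ext B k (sca B.κ (P.χ k)) (loc A k (sca B.κ (P.ψ k)) (u k)) j x l) := fun k l =>
    ext_smAt B k (isAmp_chi P B.κ k) _ j l
  by_cases hx : fr x ∈ Ui A j
  · rw [SPer_fr, loc_apply_mem ha hv l hx]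
    have h1 : ∀ k ∈ T, loc A j a
        (ext B k (sca B.κ (P.χ k)) (loc A k (sca B.κ (P.ψ k)) (u k)) j) l x =
        (a ((A.e j).symm (cc (fr x))) *ᵥ ((P.ψ k ((A.e j).symm (cc (fr x))) : ℂ) •
          u j ((A.e j).symm (cc (fr x))))) l := by
      intro k _
      rw [SPer_fr, loc_apply_mem ha (hv' k) l hx, ext_loc_psi P hu k]
    rw [Finset.sum_congr rfl h1]
    set y := (A.e j).symm (cc (fr x)) with hy
    by_cases hya : y ∈ tsupport a
    · have h2 : ∑ k ∈ T, (P.ψ k y : ℂ) = 1 := by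
        rw [← Complex.ofReal_sum, ← Complex.ofReal_one, ← sum_act P y]
        congr 1
        refine (Finset.sum_subset (fun k hk => hT y hya k ((mem_act P).1 hk)) fun k _ hk => ?_).symm
        have h3 : y ∉ tsupport (P.ψ k) := fun h => hk ((mem_act P).2 (tsupport_psi_subset P k h))
        exact image_eq_zero_of_notMem_tsupport h3
      simp only [Matrix.mulVec_smul, Pi.smul_apply, smul_eq_mul]
      rw [← Finset.sum_mul, h2, one_mul]
    · simp [amp_zero hya]
  · rw [loc_apply_off ha hv l hx]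
    refine (Finset.sum_eq_zero fun k _ => ?_).symm
    rw [loc_apply_off ha (hv' k) l hx]

/-- norm estimate of any localisation through the standard ones -/
theorem nrmv_loc_le (hu : u ∈ Sec B) {κ' : Type} [Fintype κ'] {j : A.ι}
    {a : M → Matrix κ' B.κ ℂ} (ha : IsAmp A j a) {T : Finset A.ι}
    (hT : ∀ x ∈ tsupport a, ∀ k, x ∈ tsupport (P.χ k) → k ∈ T) {s : ℕ} {C : ℝ}
    (hC : ∀ k ∈ T, ∀ f : B.κ → SPer (RI n),
      nrmv s (loc A j a (ext B k (sca B.κ (P.χ k)) f j)) ≤ C * nrmv s f) :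
    nrmv s (loc A j a (u j)) ≤ C * ∑ k ∈ T, nrmv s (loc A k (sca B.κ (P.ψ k)) (u k)) := by
  rw [loc_eq_sum P hu ha hT, Finset.mul_sum]
  exact (nrmv_sum_le _ _ _).trans (Finset.sum_le_sum fun k hk => hC k hk _)

end

end Crest.Agent.R275.Sup912
end

-- ▼ part R275/SupC_912
section

/-!
# R275, W4 part 3 (helper912): the local elliptic estimate in degree `0`

`w_j := loc_j(ψ_j)(u_j)`; if `u` has degree `0`, then
`w_j = G w_j + K (loc_j(bamp j) u_j + loc_j(ψ_j) (nab u)_j)`, hence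
`|w_j|_{s+1} ≤ |w_j|_s + C (|loc_j(bamp j) u_j|_s + |loc_j(ψ_j)(nab u)_j|_s)`.
-/

set_option autoImplicit false
set_option linter.unusedSectionVars false

open Set Filter Topology Complex
open scoped ContDiff Matrix ComplexConjugate

namespace Crest.Agent.R275.Sup912

open Geo Tor812 C1d194 TorS666 C1c193

noncomputable section

variable {n : ℕ} {M : Type} [TopologicalSpace M] {A : Atl n M} (P : Part A) {B : FBun A}
  {u : A.ι → M → B.κ → ℂ}

/-- the commutator amplitude `c(∂̄ψ_j) - ψ_j α_j` -/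
def bamp (B : FBun A) (j : A.ι) : M → Matrix B.κ B.κ ℂ := fun x =>
  (∑ b, B.e b * dbA' A j b (sca B.κ (P.ψ j)) x) + (-(P.ψ j x : ℂ)) • B.α j x

theorem isAmp_cdb (B : FBun A) (j : A.ι) :
    IsAmp A j (fun x => ∑ b, B.e b * dbA' A j b (sca B.κ (P.ψ j)) x) :=
  amp_sum _ fun b _ => amp_const_mul (B.e b) (isAmp_dbA' (isAmp_psi P B.κ j) b)

theorem tsupport_neg_psi (j : A.ι) :
    tsupport (fun x => (-(P.ψ j x : ℂ))) ⊆ tsupport (P.ψ j) :=
  closure_mono fun x hx hx' => hx (by simp [hx'])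

theorem isAmp_neg_psi_alpha (B : FBun A) (j : A.ι) :
    IsAmp A j (fun x => (-(P.ψ j x : ℂ)) • B.α j x) := by
  refine amp_of_fun ?_ ((psi_cpt P j).of_isClosed_subset (isClosed_tsupport _)
    (tsupport_neg_psi P j)) ((tsupport_neg_psi P j).trans (psi_sub P j)) fun k l => B.α_smooth j k l
  exact (Complex.ofRealCLM.contDiff.comp_contDiffOn (P.ψ_sm j j)).neg

theorem isAmp_bamp (B : FBun A) (j : A.ι) : IsAmp A j (bamp P B j) :=
  amp_add (isAmp_cdb P B j) (isAmp_neg_psi_alpha P B j)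

theorem tsupport_bamp_subset (B : FBun A) (j : A.ι) : tsupport (bamp P B j) ⊆ tsupport (P.ψ j) := by
  refine closure_minimal (fun x hx => ?_) (isClosed_tsupport _)
  by_contra h
  have h0 : (P.ψ j x : ℂ) = 0 := by
    rw [image_eq_zero_of_notMem_tsupport h]; simp
  have h1 : ∀ b, dbA' A j b (sca B.κ (P.ψ j)) x = 0 := by
    intro b
    by_cases hxs : x ∈ (A.e j).source
    · rw [dbA'_of_mem hxs]
      ext k l
      have hev : (fun y => sca B.κ (P.ψ j) y k l) =ᶠ[𝓝 x] fun _ => (0 : ℂ) := by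
        filter_upwards [(isClosed_tsupport (P.ψ j)).isOpen_compl.mem_nhds h] with y hy
        have : P.ψ j y = 0 := image_eq_zero_of_notMem_tsupport hy
        simp [sca, this]
      show A.db j b (fun y => sca B.κ (P.ψ j) y k l) x = 0
      rw [Atl.db_congr hxs hev b]
      exact dbj_const _ _ _
    · simp [dbA', hxs]
  apply hx
  simp [bamp, h0, h1]

/-- **the local equation** -/
theorem DT_loc_psi (hu : u ∈ Sec B) (j : A.ι) :
    DT B.e (loc A j (sca B.κ (P.ψ j)) (u j)) =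
      loc A j (bamp P B j) (u j) + loc A j (sca B.κ (P.ψ j)) (nab B u j) := by
  have hv : ∀ l, A.SmAt j (fun x => u j x l) := fun l => hu.1 j l
  have hdv : ∀ b, ∀ l, A.SmAt j (fun x => A.db j b (u j) x l) := fun b l =>
    ContDiffOn.congr ((hv l).db b) fun z hz => Atl.db_pi hv ((A.e j).map_target hz) b l
  have hn : ∀ l, A.SmAt j (fun x => nab B u j x l) := fun l => (nab_mem B hu).1 j l
  have ha := isAmp_psi P B.κ j
  rw [DT_loc B.e ha hv]
  have h1 : loc A j (bamp P B j) (u j) =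
      loc A j (fun x => ∑ b, B.e b * dbA' A j b (sca B.κ (P.ψ j)) x) (u j) +
        loc A j (fun x => (-(P.ψ j x : ℂ)) • B.α j x) (u j) :=
    loc_amp_add (isAmp_cdb P B j) (isAmp_neg_psi_alpha P B j) hv
  rw [h1, add_assoc]
  congr 1
  funext k
  refine eq_of_values (A := A) (i := j) (fun x hx => ?_) (fun x hx hx' => ?_)
    (fun x hx hx' => ?_)
  · have hxs : (A.e j).symm (cc x) ∈ (A.e j).source := (A.e j).map_target hx
    have hxx : x = rc (A.e j ((A.e j).symm (cc x))) := by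
      rw [(A.e j).right_inv hx, rc_cc]
    rw [Finset.sum_apply, coe_sum, Pi.add_apply, SPer.add_apply, hxx]
    simp only [loc_rc (amp_const_mul _ ha) (hdv _) k hxs]
    rw [loc_rc (isAmp_neg_psi_alpha P B j) hv k hxs, loc_rc ha hn k hxs, nab_apply B hxs]
    simp only [sca, Matrix.mul_smul, mul_one, Matrix.smul_mulVec, Matrix.one_mulVec,
      Pi.smul_apply, Pi.add_apply, Finset.sum_apply, smul_eq_mul, neg_mul, mul_add,
      Finset.mul_sum]
    ring
  · rw [Finset.sum_apply, coe_sum]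
    exact Finset.sum_eq_zero fun b _ => loc_off (amp_const_mul _ ha) (hdv b) k hx hx'
  · rw [Pi.add_apply, SPer.add_apply, loc_off (isAmp_neg_psi_alpha P B j) hv k hx hx',
      loc_off ha hn k hx hx', add_zero]

theorem isDegT_loc_psi (hu : u ∈ Sec B) {q : ℕ} (hq : IsDeg B q u) (j : A.ι) :
    IsDegT B.deg q (loc A j (sca B.κ (P.ψ j)) (u j)) := by
  intro k hk
  by_contra h
  refine hk ?_
  have hv : ∀ l, A.SmAt j (fun x => u j x l) := fun l => hu.1 j l
  apply SPer.ext
  intro x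
  rw [SPer.zero_apply]
  by_cases hx : fr x ∈ Ui A j
  · rw [SPer_fr, loc_apply_mem (isAmp_psi P B.κ j) hv k hx]
    have h0 : u j ((A.e j).symm (cc (fr x))) k = 0 := by
      by_contra h1
      exact h (hq _ _ _ h1)
    simp [sca, Matrix.smul_mulVec, h0]
  · rw [loc_apply_off (isAmp_psi P B.κ j) hv k hx]

/-- the constant of the parametrix of `B` -/
def cK (B : FBun A) : ℝ := (∑ k, ∑ a, ∑ l, ‖B.io a k l‖) * (2 * Real.pi)

theorem cK_nonneg (B : FBun A) : 0 ≤ cK B := by
  unfold cK; positivity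

/-- **the local elliptic estimate in degree `0`** -/
theorem nrmv_loc_psi_succ_le (hu : u ∈ Sec B) (h0 : IsDeg B 0 u) (s : ℕ) (j : A.ι) :
    nrmv (s + 1) (loc A j (sca B.κ (P.ψ j)) (u j)) ≤
      nrmv s (loc A j (sca B.κ (P.ψ j)) (u j)) +
        cK B * (nrmv s (loc A j (bamp P B j) (u j)) +
          nrmv s (loc A j (sca B.κ (P.ψ j)) (nab B u j))) := by
  set w := loc A j (sca B.κ (P.ψ j)) (u j) with hw
  have h1 := DT_KT (κ := B.κ) (e := B.e) (io := B.io) B.ei w
  rw [isDegT_KT_zero B.io_deg (isDegT_loc_psi P hu h0 j)] at h1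
  have hz : DT B.e (0 : B.κ → SPer (RI n)) = 0 := by rw [DT_eq, map_zero]
  rw [hz, zero_add] at h1
  have h2 : w = Gv w + KT B.io (DT B.e w) := by rw [h1]; abel
  have h3 : nrmv (s + 1) w ≤ nrmv (s + 1) (Gv w) + nrmv (s + 1) (KT B.io (DT B.e w)) := by
    conv_lhs => rw [h2]
    exact nrmv_add_le _ _ _
  refine h3.trans (add_le_add ?_ ?_)
  · exact (nrmv_mono (Nat.le_succ (s + 1)) _).trans (nrmv_Gv_le s w)
  · refine (nrmv_KT_le B.io s _).trans ?_
    rw [hw, DT_loc_psi P hu j]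
    exact mul_le_mul_of_nonneg_left (nrmv_add_le _ _ _) (cK_nonneg B)

/-! ### uniformly bounded geometry -/

/-- uniform data: neighbours and uniform constants in the localisation estimates.
`A` locally finite with bounded degrees; the standard change-of-chart operators with the
commutator amplitudes are uniformly bounded on every level; bounded transition matrices. -/
structure UB (P : Part A) (B : FBun A) where
  nb : A.ι → Finset A.ι
  m : ℕ
  nbh : Nbh nb m
  self_mem : ∀ j, j ∈ nb j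
  mem_nb : ∀ j k, ∀ x ∈ tsupport (P.χ j), x ∈ tsupport (P.χ k) → k ∈ nb j
  cb : ℕ → ℝ
  cb_nonneg : ∀ s, 0 ≤ cb s
  psi_bd : ∀ s j k, k ∈ nb j → ∀ f : B.κ → SPer (RI n),
    nrmv s (loc A j (bamp P B j) (ext B k (sca B.κ (P.χ k)) f j)) ≤ cb s * nrmv s f
  ct : ℝ
  ct_nonneg : 0 ≤ ct
  tau_bd : ∀ i j, ∀ x ∈ (A.e i).source, x ∈ tsupport (P.χ j) → msz (B.τ i j x) ≤ ct

variable {P}

/-- the level `s` norm of the `j`-th standard localisation -/
def Nj (P : Part A) {B : FBun A} (u : A.ι → M → B.κ → ℂ) (s : ℕ) (j : A.ι) : ℝ :=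
  nrmv s (loc A j (sca B.κ (P.ψ j)) (u j))

theorem Nj_nonneg (u : A.ι → M → B.κ → ℂ) (s : ℕ) (j : A.ι) : 0 ≤ Nj P u s j := nrmv_nonneg _ _


/-- **the bootstrapping inequality** for `u` in degree `0` with `nab u = 0` -/
theorem UB.step (U : UB P B) (hu : u ∈ Sec B) (h0 : IsDeg B 0 u) (hn : nab B u = 0) (s : ℕ)
    (j : A.ι) : Nj P u (s + 1) j ≤ (1 + cK B * U.cb s) * ∑ k ∈ U.nb j, Nj P u s k := by
  have h1 := nrmv_loc_psi_succ_le P hu h0 s j
  have h2 : nrmv s (loc A j (sca B.κ (P.ψ j)) (nab B u j)) = 0 := by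
    rw [hn]
    show nrmv s (loc A j (sca B.κ (P.ψ j)) (0 : M → B.κ → ℂ)) = 0
    rw [loc_zero (isAmp_psi P B.κ j), nrmv_zero]
  have h3 : nrmv s (loc A j (bamp P B j) (u j)) ≤ U.cb s * ∑ k ∈ U.nb j, Nj P u s k := by
    refine nrmv_loc_le P hu (isAmp_bamp P B j) (fun x hx k hk => ?_)
      (fun k hk f => U.psi_bd s j k hk f)
    exact U.mem_nb j k x (tsupport_psi_subset P j (tsupport_bamp_subset P B j hx)) hk
  have h5 : Nj P u s j ≤ ∑ k ∈ U.nb j, Nj P u s k :=
    Finset.single_le_sum (f := fun k => Nj P u s k) (fun k _ => Nj_nonneg u s k) (U.self_mem j)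
  calc Nj P u (s + 1) j ≤ Nj P u s j + cK B * (U.cb s * ∑ k ∈ U.nb j, Nj P u s k + 0) := by
        refine h1.trans (add_le_add le_rfl ?_)
        rw [h2]
        exact mul_le_mul_of_nonneg_left (add_le_add h3 le_rfl) (cK_nonneg B)
    _ ≤ ∑ k ∈ U.nb j, Nj P u s k + cK B * (U.cb s * ∑ k ∈ U.nb j, Nj P u s k + 0) :=
        add_le_add h5 le_rfl
    _ = _ := by ring

theorem UB.cD_nonneg (U : UB P B) (s : ℕ) : 0 ≤ 1 + cK B * U.cb s :=
  add_nonneg zero_le_one (mul_nonneg (cK_nonneg B) (U.cb_nonneg s))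

theorem UB.card_act (U : UB P B) (x : M) : (act P x).card ≤ U.m := by
  rcases (act P x).eq_empty_or_nonempty with h | ⟨k, hk⟩
  · rw [h]; simp
  · refine (Finset.card_le_card fun j hj => ?_).trans (U.nbh.card k)
    exact U.mem_nb k j x ((mem_act P).1 hk) ((mem_act P).1 hj)

/-- weighted square summability on all levels -/
def InW (P : Part A) {B : FBun A} (om : A.ι → ℝ) (u : A.ι → M → B.κ → ℂ) : Prop :=
  ∀ s, Summable fun j => (om j * Nj P u s j) ^ 2

/-- weighted boundedness on all levels -/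
def InWs (P : Part A) {B : FBun A} (om : A.ι → ℝ) (u : A.ι → M → B.κ → ℂ) : Prop :=
  ∀ s, ∃ E, 0 ≤ E ∧ ∀ j, om j * Nj P u s j ≤ E

theorem InW.inWs {om : A.ι → ℝ} {u : A.ι → M → B.κ → ℂ} (h : InW P om u) :
    InWs P om u := by
  intro s
  refine ⟨Real.sqrt (∑' j, (om j * Nj P u s j) ^ 2), Real.sqrt_nonneg _, fun j => ?_⟩
  refine Real.le_sqrt_of_sq_le ?_
  exact (h s).le_tsum j fun _ _ => sq_nonneg _

theorem InWs.inW {om om' : A.ι → ℝ} (hom : ∀ j, 0 ≤ om j) (hom' : ∀ j, 0 < om' j)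
    (hs : Summable fun j => (om j / om' j) ^ 2) {u : A.ι → M → B.κ → ℂ} (h : InWs P om' u) :
    InW P om u := by
  intro s
  obtain ⟨E, hE, h1⟩ := h s
  refine Summable.of_nonneg_of_le (fun j => sq_nonneg _) (fun j => ?_) (hs.mul_right (E ^ 2))
  rw [← mul_pow]
  refine pow_le_pow_left₀ (mul_nonneg (hom j) (Nj_nonneg u s j)) ?_ 2
  have h2 : om j * Nj P u s j = om j / om' j * (om' j * Nj P u s j) := by
    field_simp [(hom' j).ne']
  rw [h2]
  exact mul_le_mul_of_nonneg_left (h1 j) (div_nonneg (hom j) (hom' j).le)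

theorem InW.mono {om om' : A.ι → ℝ} (hom : ∀ j, 0 ≤ om j) {c : ℝ} (h : ∀ j, om j ≤ c * om' j)
    {u : A.ι → M → B.κ → ℂ} (hu : InW P om' u) : InW P om u := by
  intro s
  refine Summable.of_nonneg_of_le (fun j => sq_nonneg _) (fun j => ?_) ((hu s).mul_left (c ^ 2))
  rw [← mul_pow]
  refine pow_le_pow_left₀ (mul_nonneg (hom j) (Nj_nonneg u s j)) ?_ 2
  rw [← mul_assoc]
  exact mul_le_mul_of_nonneg_right (h j) (Nj_nonneg u s j)


/-- **pointwise bounds imply weighted Sobolev bounds on all levels** -/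
theorem UB.inWs_of_bound (U : UB P B) (hu : u ∈ Sec B) (h0 : IsDeg B 0 u) (hn : nab B u = 0)
    {om : A.ι → ℝ} (hom : ∀ j, 0 < om j) {c : ℝ} (hc0 : 0 ≤ c)
    (hc : ∀ j, ∀ k ∈ U.nb j, om j ≤ c * om k) {E : ℝ} (hE : 0 ≤ E)
    (h : ∀ j, ∀ x ∈ tsupport (P.ψ j), om j * ‖(P.ψ j x : ℂ) • u j x‖ ≤ E) : InWs P om u := by
  intro s
  have hP : 0 ≤ ∏ t ∈ Finset.range s, ((1 + cK B * U.cb t) * c * U.m) :=
    Finset.prod_nonneg fun t _ => mul_nonneg (mul_nonneg (U.cD_nonneg t) hc0) (Nat.cast_nonneg _)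
  refine ⟨(∏ t ∈ Finset.range s, ((1 + cK B * U.cb t) * c * U.m)) * (Fintype.card B.κ * E),
    mul_nonneg hP (mul_nonneg (Nat.cast_nonneg _) hE), fun j => ?_⟩
  refine boot_sup (N := fun s j => Nj P u s j) U.nbh.card (fun j => (hom j).le) hc0 hc U.cD_nonneg
    (U.step hu h0 hn) (mul_nonneg (Nat.cast_nonneg _) hE) (fun k => ?_)
    (fun s j => Nj_nonneg u s j) s j
  have h1 : Nj P u 0 k ≤ Fintype.card B.κ * (E / om k) := by
    refine nrmv_zero_loc_psi_le P hu (div_nonneg hE (hom k).le) fun x hx => ?_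
    rw [le_div_iff₀ (hom k), mul_comm]
    exact h k x hx
  calc om k * Nj P u 0 k ≤ om k * (Fintype.card B.κ * (E / om k)) :=
        mul_le_mul_of_nonneg_left h1 (hom k).le
    _ = _ := by field_simp [(hom k).ne']

/-- **weighted Sobolev bounds imply pointwise bounds** -/
theorem UB.norm_le (U : UB P B) (hu : u ∈ Sec B) {om : A.ι → ℝ} (hom : ∀ j, 0 < om j) {E : ℝ}
    (hE : 0 ≤ E) (h : ∀ j, om j * Nj P u (n + 1) j ≤ E) {W : M → ℝ} {c : ℝ}
    (hW : ∀ j, ∀ x ∈ tsupport (P.χ j), (om j)⁻¹ ≤ c * W x) {i : A.ι} {x : M}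
    (hx : x ∈ (A.e i).source) (hcW : 0 ≤ c * W x) :
    ‖u i x‖ ≤ cSob n * U.m * U.ct * E * c * W x := by
  refine (norm_apply_le P hu hx).trans ?_
  have h1 : ∀ j ∈ act P x, msz (B.τ i j x) * nrmv (n + 1) (loc A j (sca B.κ (P.ψ j)) (u j)) ≤
      U.ct * (E * (c * W x)) := by
    intro j hj
    have hj' := (mem_act P).1 hj
    have h2 : Nj P u (n + 1) j ≤ E * (c * W x) := by
      calc Nj P u (n + 1) j = (om j * Nj P u (n + 1) j) * (om j)⁻¹ := by
            field_simp [(hom j).ne']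
        _ ≤ E * (om j)⁻¹ := mul_le_mul_of_nonneg_right (h j) (inv_nonneg.2 (hom j).le)
        _ ≤ E * (c * W x) := mul_le_mul_of_nonneg_left (hW j x hj') hE
    exact mul_le_mul (U.tau_bd i j x hx hj') h2 (nrmv_nonneg _ _) U.ct_nonneg
  have h3 : ∑ j ∈ act P x, msz (B.τ i j x) * nrmv (n + 1) (loc A j (sca B.κ (P.ψ j)) (u j)) ≤
      U.m * (U.ct * (E * (c * W x))) := by
    refine (Finset.sum_le_card_nsmul _ _ _ h1).trans ?_
    rw [nsmul_eq_mul]
    refine mul_le_mul_of_nonneg_right ?_ (mul_nonneg U.ct_nonneg (mul_nonneg hE hcW))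
    exact_mod_cast U.card_act x
  calc _ ≤ cSob n * (U.m * (U.ct * (E * (c * W x)))) :=
        mul_le_mul_of_nonneg_left h3 (cSob_nonneg n)
    _ = _ := by ring

end

end Crest.Agent.R275.Sup912
end

-- ▼ part R275/SupD_912

/-!
# R275, W4 part 4 (helper912): heights and exponential weights

* `HD P h`      : reference heights `ht j` of the charts, `|h - ht j| ≤ R` on the supports,
                  uniformly finitely many charts in every unit slab
* `wj H a b j`  : the weight `(wgt a b (ht j))⁻¹`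
* `inW_of_Bd`   : `u` holomorphic (degree `0`, `nab u = 0`), `Bd A h (wgt a b) u`, `a < a'`, `b < b'`
                  imply `InW P (wj H a' b') u`
* `Bd_of_inW`   : `InW P (wj H a b) u → Bd A h (wgt a b) u`
* `inW_iff_TS`  : `InW` is membership of the family of localisations in helper666's `TS`
-/

set_option autoImplicit false
set_option linter.unusedSectionVars false

open Set Filter Topology Complex
open scoped ContDiff Matrix ComplexConjugate

namespace Crest.Agent.R275.Sup912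

open Geo Tor812 C1d194 TorS666 C1c193 Core144

noncomputable section

/-! ### exponential weights -/

theorem wgt_le_mul (a b t t' : ℝ) :
    wgt a b t ≤ Real.exp ((|a| + |b|) * |t - t'|) * wgt a b t' := by
  unfold wgt
  rw [← Real.exp_add]
  apply Real.exp_le_exp.2
  have h1 : |max (-t) 0 - max (-t') 0| ≤ |t - t'| := by
    refine (abs_max_sub_max_le_abs _ _ _).trans ?_
    rw [neg_sub_neg, abs_sub_comm]
  have h2 : |max t 0 - max t' 0| ≤ |t - t'| := abs_max_sub_max_le_abs _ _ _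
  have h3 : a * (max (-t) 0 - max (-t') 0) ≤ |a| * |t - t'| := by
    refine (le_abs_self _).trans ?_
    rw [abs_mul]
    exact mul_le_mul_of_nonneg_left h1 (abs_nonneg _)
  have h4 : b * (max t 0 - max t' 0) ≤ |b| * |t - t'| := by
    refine (le_abs_self _).trans ?_
    rw [abs_mul]
    exact mul_le_mul_of_nonneg_left h2 (abs_nonneg _)
  nlinarith

theorem wgt_inv (a b t : ℝ) : (wgt a b t)⁻¹ = wgt (-a) (-b) t := by
  unfold wgt
  rw [← Real.exp_neg]
  congr 1
  ring

theorem wgt_le_exp_neg {a b ε : ℝ} (ha : a ≤ -ε) (hb : b ≤ -ε) (t : ℝ) :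
    wgt a b t ≤ Real.exp (-ε * |t|) := by
  refine (wgt_mono ha hb t).trans ?_
  rw [wgt_gg]

theorem summable_exp_neg_abs_int {ε : ℝ} (hε : 0 < ε) :
    Summable fun k : ℤ => Real.exp (-ε * |(k : ℝ)|) := by
  have h1 : Summable fun k : ℕ => Real.exp (-ε * |((k : ℤ) : ℝ)|) := by
    have h2 : (fun k : ℕ => Real.exp (-ε * |((k : ℤ) : ℝ)|)) = fun k : ℕ => Real.exp (-ε) ^ k := by
      funext k
      rw [← Real.exp_nat_mul, Int.cast_natCast, abs_of_nonneg (Nat.cast_nonneg k)]
      congr 1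
      ring
    rw [h2]
    refine summable_geometric_of_lt_one (Real.exp_pos _).le ?_
    rw [Real.exp_lt_one_iff]
    linarith
  refine Summable.of_nat_of_neg h1 ?_
  have h3 : (fun k : ℕ => Real.exp (-ε * |((-(k : ℤ) : ℤ) : ℝ)|)) =
      fun k : ℕ => Real.exp (-ε * |((k : ℤ) : ℝ)|) := by
    funext k
    rw [Int.cast_neg, abs_neg]
  rw [h3]
  exact h1

/-- summability of exponential weights over an index set with uniformly finitely many members in
every unit slab -/
theorem summable_exp_neg_abs {J : Type*} (ht : J → ℝ) {q : ℕ}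
    (cnt : ∀ (k : ℤ) (T : Finset J), (∀ j ∈ T, ⌊ht j⌋ = k) → T.card ≤ q) {ε : ℝ} (hε : 0 < ε) :
    Summable fun j => Real.exp (-ε * |ht j|) := by
  classical
  set g : ℤ → ℝ := fun k => Real.exp ε * Real.exp (-ε * |(k : ℝ)|) with hg
  have hgs : Summable g := (summable_exp_neg_abs_int hε).mul_left _
  have hg0 : ∀ k, 0 ≤ g k := fun k => by positivity
  have hle : ∀ j, Real.exp (-ε * |ht j|) ≤ g ⌊ht j⌋ := by
    intro j
    rw [hg]
    simp only
    rw [← Real.exp_add]
    apply Real.exp_le_exp.2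
    have h1 := Int.floor_le (ht j)
    have h2 := Int.lt_floor_add_one (ht j)
    have h3 : |(⌊ht j⌋ : ℝ)| ≤ |ht j| + 1 := by
      rw [abs_le]
      constructor
      · have := neg_abs_le (ht j); linarith
      · have := le_abs_self (ht j); linarith
    nlinarith
  refine summable_of_sum_le (c := q * ∑' k, g k) (fun j => (Real.exp_pos _).le) fun T => ?_
  calc ∑ j ∈ T, Real.exp (-ε * |ht j|) ≤ ∑ j ∈ T, g ⌊ht j⌋ := Finset.sum_le_sum fun j _ => hle j
    _ = ∑ k ∈ T.image fun j => ⌊ht j⌋, ∑ j ∈ T.filter fun j => ⌊ht j⌋ = k, g k := by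
        rw [← Finset.sum_fiberwise_of_maps_to (s := T) (t := T.image fun j => ⌊ht j⌋)
          (g := fun j => ⌊ht j⌋) (fun j hj => Finset.mem_image_of_mem (fun j => ⌊ht j⌋) hj)]
        refine Finset.sum_congr rfl fun k _ => Finset.sum_congr rfl fun j hj => ?_
        rw [(Finset.mem_filter.1 hj).2]
    _ ≤ ∑ k ∈ T.image fun j => ⌊ht j⌋, q * g k := by
        refine Finset.sum_le_sum fun k _ => ?_
        rw [Finset.sum_const, nsmul_eq_mul]
        refine mul_le_mul_of_nonneg_right ?_ (hg0 k)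
        exact_mod_cast cnt k _ fun j hj => (Finset.mem_filter.1 hj).2
    _ = q * ∑ k ∈ T.image fun j => ⌊ht j⌋, g k := by rw [Finset.mul_sum]
    _ ≤ q * ∑' k, g k :=
        mul_le_mul_of_nonneg_left (hgs.sum_le_tsum _ fun k _ => hg0 k) (Nat.cast_nonneg _)

/-! ### heights -/

variable {n : ℕ} {M : Type} [TopologicalSpace M] {A : Atl n M} {P : Part A} {B : FBun A}
  {u : A.ι → M → B.κ → ℂ} {h : M → ℝ}

/-- reference heights of the charts -/
structure HD (P : Part A) (h : M → ℝ) where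
  ht : A.ι → ℝ
  R : ℝ
  R_nonneg : 0 ≤ R
  near : ∀ j, ∀ x ∈ tsupport (P.χ j), |h x - ht j| ≤ R
  q : ℕ
  cnt : ∀ (k : ℤ) (T : Finset A.ι), (∀ j ∈ T, ⌊ht j⌋ = k) → T.card ≤ q
  cψ : ℝ
  cψ_nonneg : 0 ≤ cψ
  psi_le : ∀ j x, |P.ψ j x| ≤ cψ

/-- the weights of the charts -/
def wj (H : HD P h) (a b : ℝ) (j : A.ι) : ℝ := (wgt a b (H.ht j))⁻¹

theorem wj_pos (H : HD P h) (a b : ℝ) (j : A.ι) : 0 < wj H a b j := inv_pos.2 (wgt_pos _ _ _)

theorem wj_le (H : HD P h) (a b : ℝ) {j k : A.ι} {R' : ℝ} (hR : |H.ht j - H.ht k| ≤ R') :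
    wj H a b j ≤ Real.exp ((|a| + |b|) * R') * wj H a b k := by
  unfold wj
  rw [wgt_inv, wgt_inv]
  refine (wgt_le_mul _ _ _ (H.ht k)).trans ?_
  rw [abs_neg, abs_neg]
  refine mul_le_mul_of_nonneg_right (Real.exp_le_exp.2 ?_) (wgt_pos _ _ _).le
  exact mul_le_mul_of_nonneg_left hR (add_nonneg (abs_nonneg _) (abs_nonneg _))


theorem summable_wj_div (H : HD P h) {a b a' b' : ℝ} (ha : a < a') (hb : b < b') :
    Summable fun j => (wj H a' b' j / wj H a b j) ^ 2 := by
  have hε : 0 < min (a' - a) (b' - b) := lt_min (by linarith) (by linarith)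
  refine Summable.of_nonneg_of_le (fun j => sq_nonneg _) (fun j => ?_)
    (summable_exp_neg_abs H.ht H.cnt (ε := 2 * min (a' - a) (b' - b)) (by positivity))
  have h1 : wj H a' b' j / wj H a b j = wgt (a - a') (b - b') (H.ht j) := by
    unfold wj
    rw [div_inv_eq_mul, wgt_inv, ← wgt_add]
    congr 1 <;> ring
  rw [h1]
  have h2 := wgt_le_exp_neg (a := a - a') (b := b - b') (ε := min (a' - a) (b' - b))
    (by have := min_le_left (a' - a) (b' - b); linarith)
    (by have := min_le_right (a' - a) (b' - b); linarith) (H.ht j)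
  calc wgt (a - a') (b - b') (H.ht j) ^ 2
      ≤ Real.exp (-min (a' - a) (b' - b) * |H.ht j|) ^ 2 :=
        pow_le_pow_left₀ (wgt_pos _ _ _).le h2 2
    _ = _ := by
        rw [← Real.exp_nat_mul]
        congr 1
        push_cast
        ring


/-- neighbouring charts have comparable heights -/
def UB.Near (U : UB P B) (H : HD P h) (R' : ℝ) : Prop :=
  ∀ j, ∀ k ∈ U.nb j, |H.ht j - H.ht k| ≤ R'

/-- **W4, first half**: pointwise bounds of holomorphic sections give weighted Sobolev bounds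
(sup version, same weight) -/
theorem inWs_of_Bd (U : UB P B) (H : HD P h) {R' : ℝ} (hR' : U.Near H R') (hu : u ∈ Sec B)
    (h0 : IsDeg B 0 u) (hn : nab B u = 0) {a b : ℝ} (hB : Bd A h (wgt a b) u) :
    InWs P (wj H a b) u := by
  obtain ⟨C, hC0, hC⟩ := hB.exists_nonneg fun t => (wgt_pos _ _ t).le
  refine U.inWs_of_bound hu h0 hn (wj_pos H a b) (Real.exp_pos _).le
    (fun j k hk => wj_le H a b (hR' j k hk))
    (E := H.cψ * C * Real.exp ((|a| + |b|) * H.R))
    (mul_nonneg (mul_nonneg H.cψ_nonneg hC0) (Real.exp_pos _).le) fun j x hx => ?_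
  have h1 := hC j x (psi_sub P j hx)
  have h2 : wgt a b (h x) ≤ Real.exp ((|a| + |b|) * H.R) * wgt a b (H.ht j) := by
    refine (wgt_le_mul a b (h x) (H.ht j)).trans ?_
    refine mul_le_mul_of_nonneg_right (Real.exp_le_exp.2 ?_) (wgt_pos _ _ _).le
    exact mul_le_mul_of_nonneg_left (H.near j x (tsupport_psi_subset P j hx))
      (add_nonneg (abs_nonneg _) (abs_nonneg _))
  have h3 : ‖(P.ψ j x : ℂ) • u j x‖ ≤
      H.cψ * (C * (Real.exp ((|a| + |b|) * H.R) * wgt a b (H.ht j))) := by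
    rw [norm_smul, Complex.norm_real]
    exact mul_le_mul (H.psi_le j x) (h1.trans (mul_le_mul_of_nonneg_left h2 hC0))
      (norm_nonneg _) H.cψ_nonneg
  calc wj H a b j * ‖(P.ψ j x : ℂ) • u j x‖
      ≤ wj H a b j * (H.cψ * (C * (Real.exp ((|a| + |b|) * H.R) * wgt a b (H.ht j)))) :=
        mul_le_mul_of_nonneg_left h3 (wj_pos H a b j).le
    _ = H.cψ * C * Real.exp ((|a| + |b|) * H.R) * (wj H a b j * wgt a b (H.ht j)) := by ring
    _ = _ := by
        unfold wj
        rw [inv_mul_cancel₀ (wgt_pos _ _ _).ne', mul_one]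

/-- **W4, first half**: `ℓ²` version, with a loss in the rates -/
theorem inW_of_Bd (U : UB P B) (H : HD P h) {R' : ℝ} (hR' : U.Near H R') (hu : u ∈ Sec B)
    (h0 : IsDeg B 0 u) (hn : nab B u = 0) {a b a' b' : ℝ} (ha : a < a') (hb : b < b')
    (hB : Bd A h (wgt a b) u) : InW P (wj H a' b') u :=
  (inWs_of_Bd U H hR' hu h0 hn hB).inW (fun j => (wj_pos H _ _ j).le) (wj_pos H a b)
    (summable_wj_div H ha hb)

/-- **W4, second half** (sup version) -/
theorem Bd_of_inWs (U : UB P B) (H : HD P h) (hu : u ∈ Sec B) {a b : ℝ}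
    (hW : InWs P (wj H a b) u) : Bd A h (wgt a b) u := by
  obtain ⟨E, hE, h1⟩ := hW (n + 1)
  refine ⟨cSob n * U.m * U.ct * E * Real.exp ((|a| + |b|) * H.R), fun i x hx => ?_⟩
  refine U.norm_le hu (wj_pos H a b) hE h1 (W := fun x => wgt a b (h x)) (fun j x hx => ?_) hx
    (mul_nonneg (Real.exp_pos _).le (wgt_pos _ _ _).le)
  unfold wj
  rw [inv_inv]
  refine (wgt_le_mul a b (H.ht j) (h x)).trans ?_
  refine mul_le_mul_of_nonneg_right (Real.exp_le_exp.2 ?_) (wgt_pos _ _ _).le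
  refine mul_le_mul_of_nonneg_left ?_ (add_nonneg (abs_nonneg _) (abs_nonneg _))
  rw [abs_sub_comm]
  exact H.near j x hx

/-- **W4, second half**: `ℓ²` weighted Sobolev bounds give pointwise bounds with the same rates -/
theorem Bd_of_inW (U : UB P B) (H : HD P h) (hu : u ∈ Sec B) {a b : ℝ}
    (hW : InW P (wj H a b) u) : Bd A h (wgt a b) u :=
  Bd_of_inWs U H hu hW.inWs


/-! ### comparison with helper666's spaces -/

/-- the weights and shifts of helper666's family space attached to `B` -/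
def WSof (B : FBun A) (om : A.ι → ℝ) (hom : ∀ j, 0 < om j) (sh : B.κ → ℕ) :
    Ret666.WS (A.ι × B.κ) where
  om p := om p.1
  pos p := hom p.1
  sh p := sh p.2

theorem sum_sq_le_sq_sum' {κ : Type} [Fintype κ] (f : κ → ℝ) (hf : ∀ k, 0 ≤ f k) :
    ∑ k, f k ^ 2 ≤ (∑ k, f k) ^ 2 := by
  rw [sq, Finset.sum_mul]
  refine Finset.sum_le_sum fun k _ => ?_
  rw [sq]
  exact mul_le_mul_of_nonneg_left (Finset.single_le_sum (fun k _ => hf k) (Finset.mem_univ k)) (hf k)

/-- `InW` is membership in helper666's family space -/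
theorem inW_iff_TS {om : A.ι → ℝ} (hom : ∀ j, 0 < om j) (sh : B.κ → ℕ) :
    InW P om u ↔ (fun p : A.ι × B.κ => loc A p.1 (sca B.κ (P.ψ p.1)) (u p.1) p.2) ∈
      Ret666.TS (d := RI n) (WSof B om hom sh) := by
  rw [Ret666.mem_TS]
  constructor
  · intro hW s
    -- all shifts are at most `S`
    obtain ⟨S, hS⟩ : ∃ S, ∀ k, sh k ≤ S := ⟨∑ k, sh k, fun k =>
      Finset.single_le_sum (f := sh) (fun _ _ => Nat.zero_le _) (Finset.mem_univ k)⟩
    rw [summable_prod_of_nonneg fun p => sq_nonneg _]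
    refine ⟨fun j => summable_of_hasFiniteSupport (Set.toFinite _), ?_⟩
    refine Summable.of_nonneg_of_le (fun j => tsum_nonneg fun k => sq_nonneg _) (fun j => ?_)
      (hW (s + S))
    rw [tsum_fintype]
    refine (sum_sq_le_sq_sum' _ fun k => mul_nonneg (hom j).le (nrm_nonneg _ _)).trans ?_
    refine pow_le_pow_left₀ (Finset.sum_nonneg fun k _ => mul_nonneg (hom j).le
      (nrm_nonneg _ _)) ?_ 2
    unfold Nj nrmv
    rw [Finset.mul_sum]
    exact Finset.sum_le_sum fun k _ => mul_le_mul_of_nonneg_left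
      (nrm_mono (Nat.add_le_add_left (hS k) s) _) (hom j).le
  · intro hT s
    have h1 := (summable_prod_of_nonneg fun p => sq_nonneg _).1 (hT s)
    refine Summable.of_nonneg_of_le (fun j => sq_nonneg _) (fun j => ?_)
      (h1.2.mul_left (Fintype.card B.κ : ℝ))
    simp only [tsum_fintype]
    have h2 : om j * Nj P u s j =
        ∑ k, om j * nrm s (loc A j (sca B.κ (P.ψ j)) (u j) k) := by
      unfold Nj nrmv
      rw [Finset.mul_sum]
    rw [h2]
    refine (sq_sum_le_card_mul_sum_sq (s := Finset.univ)).trans ?_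
    rw [Finset.card_univ]
    refine mul_le_mul_of_nonneg_left (Finset.sum_le_sum fun k _ => ?_) (Nat.cast_nonneg _)
    refine pow_le_pow_left₀ (mul_nonneg (hom j).le (nrm_nonneg _ _)) ?_ 2
    exact mul_le_mul_of_nonneg_left (nrm_mono (Nat.le_add_right _ _) _) (hom j).le

end

end Crest.Agent.R275.Sup912
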