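import Mathlib
import Crest.Agent.R275.Dv1_69

-- ▼ part R275/Dv2_69
section

/-!
# R275, block M (divisor layer), helper69: abstract lattice ordered cancellative monoids

Model: effective divisors (additive notation, `a ≤ b ↔ ∃ c, b = a + c`, `⊓` = gcd).
`IsPr P`   : `P` is a prime (= atom = irreducible) element.
`Arch P a` : some multiple of `P` is not `≤ a`.
`ord P a`  : multiplicity of `P` in `a`.
-/

set_option autoImplicit false
set_option linter.unusedSectionVars false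

namespace Crest.Agent.R275.Dv69

noncomputable section

namespace Mon

variable {M : Type*} [AddCommMonoid M] [SemilatticeInf M] [IsCancelAdd M] [IsOrderedAddMonoid M]
  [CanonicallyOrderedAdd M]

variable {a b c d P Q : M}

theorem le_of_add_le (h : c + a ≤ c + b) : a ≤ b := by
  obtain ⟨z, hz⟩ := exists_add_of_le h
  rw [add_assoc] at hz
  have := add_left_cancel hz
  rw [this]
  exact le_self_add

theorem add_le_iff : c + a ≤ c + b ↔ a ≤ b := ⟨le_of_add_le, fun h => add_le_add_right h c⟩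

theorem add_le_iff' : a + c ≤ b + c ↔ a ≤ b := by
  rw [add_comm a c, add_comm b c]; exact add_le_iff

theorem inf_add (a b c : M) : (a + c) ⊓ (b + c) = (a ⊓ b) + c := by
  apply le_antisymm
  · have h1 : c ≤ (a + c) ⊓ (b + c) := le_inf le_add_self le_add_self
    obtain ⟨y, hy⟩ := exists_add_of_le h1
    rw [hy, add_comm c y, add_le_iff']
    refine le_inf ?_ ?_
    · rw [← add_le_iff (c := c), ← hy, add_comm c a]; exact inf_le_left
    · rw [← add_le_iff (c := c), ← hy, add_comm c b]; exact inf_le_right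
  · exact le_inf (add_le_add_left inf_le_left c) (add_le_add_left inf_le_right c)

theorem eq_zero_of_le_zero (h : a ≤ 0) : a = 0 := le_antisymm h zero_le

theorem inf_add_eq_zero (h1 : a ⊓ b = 0) (h2 : a ⊓ c = 0) : a ⊓ (b + c) = 0 := by
  apply eq_zero_of_le_zero
  rw [← h2]
  refine le_inf inf_le_left ?_
  calc a ⊓ (b + c) ≤ (a + c) ⊓ (b + c) := inf_le_inf_right _ le_self_add
    _ = (a ⊓ b) + c := inf_add a b c
    _ = c := by rw [h1, zero_add]

theorem inf_nsmul_eq_zero (h : a ⊓ b = 0) (n : ℕ) : a ⊓ (n • b) = 0 := by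
  induction n with
  | zero => rw [zero_nsmul]; exact eq_zero_of_le_zero inf_le_right
  | succ n ih => rw [succ_nsmul]; exact inf_add_eq_zero ih h


theorem inf_sum_eq_zero {ι : Type*} (s : Finset ι) {f : ι → M} (h : ∀ i ∈ s, a ⊓ f i = 0) :
    a ⊓ (∑ i ∈ s, f i) = 0 := by
  classical
  induction s using Finset.induction_on with
  | empty => simp
  | insert i s hi ih =>
    rw [Finset.sum_insert hi]
    exact inf_add_eq_zero (h i (by simp)) (ih fun j hj => h j (by simp [hj]))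

/-- cancellation of relatively prime elements -/
theorem le_of_inf_eq_zero (h : a ⊓ b = 0) (hle : a ≤ b + c) : a ≤ c := by
  calc a ≤ (a + c) ⊓ (b + c) := le_inf le_self_add hle
    _ = (a ⊓ b) + c := inf_add a b c
    _ = c := by rw [h, zero_add]

theorem add_le_of_inf_eq_zero (h : a ⊓ b = 0) (ha : a ≤ c) (hb : b ≤ c) : a + b ≤ c := by
  obtain ⟨y, rfl⟩ := exists_add_of_le ha
  have : b ≤ y := le_of_inf_eq_zero (by rw [inf_comm]; exact h) hb
  exact add_le_add_right this a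

theorem sum_le_of_pairwise {ι : Type*} (s : Finset ι) {f : ι → M}
    (h : ∀ i ∈ s, ∀ j ∈ s, i ≠ j → f i ⊓ f j = 0) (hc : ∀ i ∈ s, f i ≤ c) :
    ∑ i ∈ s, f i ≤ c := by
  classical
  induction s using Finset.induction_on with
  | empty => simp
  | insert i s hi ih =>
    rw [Finset.sum_insert hi]
    refine add_le_of_inf_eq_zero ?_ (hc i (by simp)) (ih ?_ ?_)
    · refine inf_sum_eq_zero s fun j hj => h i (by simp) j (by simp [hj]) ?_
      rintro rfl; exact hi hj
    · intro j hj k hk hjk; exact h j (by simp [hj]) k (by simp [hk]) hjk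
    · intro j hj; exact hc j (by simp [hj])

/-- prime elements -/
def IsPr (P : M) : Prop := P ≠ 0 ∧ ∀ x ≤ P, x = 0 ∨ x = P

theorem isPr_iff_irred : IsPr P ↔ P ≠ 0 ∧ ∀ x y, P = x + y → x = 0 ∨ y = 0 := by
  constructor
  · rintro ⟨h1, h2⟩
    refine ⟨h1, fun x y e => ?_⟩
    rcases h2 x (e ▸ le_self_add) with h | h
    · exact Or.inl h
    · right
      rw [h] at e
      exact (left_eq_add.1 e)
  · rintro ⟨h1, h2⟩
    refine ⟨h1, fun x hx => ?_⟩
    obtain ⟨y, hy⟩ := exists_add_of_le hx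
    rcases h2 x y hy with h | h
    · exact Or.inl h
    · right; rw [hy, h, add_zero]

theorem IsPr.inf_eq_zero (hP : IsPr P) (h : ¬ P ≤ a) : P ⊓ a = 0 := by
  rcases hP.2 (P ⊓ a) inf_le_left with h1 | h1
  · exact h1
  · exact absurd (h1 ▸ inf_le_right) h

theorem IsPr.le_or_le (hP : IsPr P) (h : P ≤ a + b) : P ≤ a ∨ P ≤ b := by
  by_cases ha : P ≤ a
  · exact Or.inl ha
  · exact Or.inr (le_of_inf_eq_zero (hP.inf_eq_zero ha) h)

theorem IsPr.inf_of_ne (hP : IsPr P) (hQ : IsPr Q) (h : P ≠ Q) : P ⊓ Q = 0 := by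
  apply hP.inf_eq_zero
  intro hle
  rcases hQ.2 P hle with h1 | h1
  · exact hP.1 h1
  · exact h h1



/-! ### multiplicity -/

/-- archimedean condition -/
def Arch (P a : M) : Prop := ∃ n : ℕ, ¬ n • P ≤ a

open Classical in
/-- the multiplicity of `P` in `a` -/
def ord (P a : M) : ℕ := if h : Arch P a then Nat.find h - 1 else 0

theorem le_ord_iff (h : Arch P a) (n : ℕ) : n ≤ ord P a ↔ n • P ≤ a := by
  classical
  have h1 : ord P a = Nat.find h - 1 := by simp [ord, h]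
  have h0 : Nat.find h ≠ 0 := by
    intro e
    have := Nat.find_spec h
    rw [e, zero_nsmul] at this
    exact this zero_le
  rw [h1]
  constructor
  · intro hn
    have : n < Nat.find h := by omega
    have := Nat.find_min h this
    exact not_not.1 this
  · intro hn
    by_contra hcon
    have h2 : Nat.find h ≤ n := by omega
    apply Nat.find_spec h
    exact (nsmul_le_nsmul_left zero_le h2).trans hn

theorem ord_spec (h : Arch P a) : ord P a • P ≤ a := (le_ord_iff h _).1 le_rfl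

/-- `a = n P + a'` with `P ≰ a'` determines the multiplicity -/
theorem ord_eq_of (n : ℕ) (e : a = n • P + b) (hb : ¬ P ≤ b) : Arch P a ∧ ord P a = n := by
  have h1 : ¬ (n + 1) • P ≤ a := by
    rw [e, succ_nsmul, add_le_iff]
    exact hb
  have h2 : Arch P a := ⟨n + 1, h1⟩
  refine ⟨h2, le_antisymm ?_ ?_⟩
  · by_contra hcon
    exact h1 ((le_ord_iff h2 (n + 1)).1 (by omega))
  · rw [le_ord_iff h2, e]; exact le_self_add

theorem exists_ord (h : Arch P a) : ∃ b, a = ord P a • P + b ∧ ¬ P ≤ b := by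
  obtain ⟨b, hb⟩ := exists_add_of_le (ord_spec h)
  refine ⟨b, hb, fun hP => ?_⟩
  have : (ord P a + 1) • P ≤ a := by
    rw [succ_nsmul]
    calc ord P a • P + P ≤ ord P a • P + b := add_le_add_right hP _
      _ = a := hb.symm
  have := (le_ord_iff h (ord P a + 1)).2 this
  omega

theorem Arch.mono (h : Arch P b) (hle : a ≤ b) : Arch P a := by
  obtain ⟨n, hn⟩ := h
  exact ⟨n, fun h' => hn (h'.trans hle)⟩

theorem ord_add (hP : IsPr P) (ha : Arch P a) (hb : Arch P b) :
    Arch P (a + b) ∧ ord P (a + b) = ord P a + ord P b := by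
  obtain ⟨a', ea, ha'⟩ := exists_ord ha
  obtain ⟨b', eb, hb'⟩ := exists_ord hb
  refine ord_eq_of (b := a' + b') (ord P a + ord P b) ?_ ?_
  · nth_rewrite 1 [ea, eb]
    rw [add_nsmul]
    abel
  · intro h
    rcases hP.le_or_le h with h1 | h1
    · exact ha' h1
    · exact hb' h1

theorem ord_mono (hb : Arch P b) (hle : a ≤ b) : ord P a ≤ ord P b := by
  rw [le_ord_iff hb]
  exact (ord_spec (hb.mono hle)).trans hle

theorem arch_of_not_le (h : ¬ P ≤ a) : Arch P a := ⟨1, by rwa [one_nsmul]⟩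

theorem ord_eq_zero_iff (h : Arch P a) : ord P a = 0 ↔ ¬ P ≤ a := by
  have := le_ord_iff h 1
  rw [one_nsmul] at this
  rw [← this]
  omega

theorem ord_zero (hP : P ≠ 0) : Arch P 0 ∧ ord P 0 = 0 := by
  have h1 : ¬ P ≤ 0 := fun h => hP (eq_zero_of_le_zero h)
  exact ⟨arch_of_not_le h1, (ord_eq_zero_iff (arch_of_not_le h1)).2 h1⟩

theorem ord_self (hP : IsPr P) : Arch P P ∧ ord P P = 1 := by
  refine ord_eq_of (b := 0) 1 (by rw [one_nsmul, add_zero]) ?_
  exact fun h => hP.1 (eq_zero_of_le_zero h)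

theorem ord_of_ne (hP : IsPr P) (hQ : IsPr Q) (h : P ≠ Q) : Arch P Q ∧ ord P Q = 0 := by
  have h1 : ¬ P ≤ Q := by
    intro hle
    rcases hQ.2 P hle with h1 | h1
    · exact hP.1 h1
    · exact h h1
  exact ⟨arch_of_not_le h1, (ord_eq_zero_iff (arch_of_not_le h1)).2 h1⟩


theorem ord_sum (hP : IsPr P) {ι : Type*} (s : Finset ι) {f : ι → M}
    (h : ∀ i ∈ s, Arch P (f i)) :
    Arch P (∑ i ∈ s, f i) ∧ ord P (∑ i ∈ s, f i) = ∑ i ∈ s, ord P (f i) := by
  classical
  induction s using Finset.induction_on with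
  | empty => simpa using ord_zero hP.1
  | insert i s hi ih =>
    rw [Finset.sum_insert hi, Finset.sum_insert hi]
    have h1 := ih fun j hj => h j (by simp [hj])
    rw [← h1.2]
    exact ord_add hP (h i (by simp)) h1.1

/-! ### decomposition into primes -/

/-- `a` has length at most `N` -/
def LenLe (N : ℕ) (a : M) : Prop :=
  ∀ (m : ℕ) (E : Fin m → M), (∀ i, E i ≠ 0) → ∑ i, E i ≤ a → m ≤ N

theorem LenLe.mono {N : ℕ} (h : LenLe N b) (hle : a ≤ b) : LenLe N a :=
  fun m E h1 h2 => h m E h1 (h2.trans hle)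

theorem LenLe.of_add {N : ℕ} (h : LenLe (N + 1) (a + b)) (hb : b ≠ 0) : LenLe N a := by
  intro m E h1 h2
  have := h (m + 1) (Fin.snoc E b) (by
    intro i
    refine Fin.lastCases ?_ (fun j => ?_) i
    · simpa using hb
    · simpa using h1 j) (by
    rw [Fin.sum_univ_castSucc]
    simp only [Fin.snoc_castSucc, Fin.snoc_last]
    exact add_le_add_left h2 b)
  omega

theorem LenLe.eq_zero (h : LenLe 0 a) : a = 0 := by
  by_contra ha
  have := h 1 (fun _ => a) (fun _ => ha) (by simp)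
  omega

/-- an element of finite length is a finite sum of primes -/
theorem exists_multiset (N : ℕ) : ∀ a : M, LenLe N a →
    ∃ s : Multiset M, (∀ P ∈ s, IsPr P) ∧ s.sum = a := by
  induction N with
  | zero => intro a h; exact ⟨0, by simp, by simp [h.eq_zero]⟩
  | succ N ih =>
    intro a h
    by_cases ha : a = 0
    · exact ⟨0, by simp, by simp [ha]⟩
    by_cases hp : IsPr a
    · exact ⟨{a}, by simpa using hp, by simp⟩
    rw [isPr_iff_irred] at hp
    push Not at hp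
    obtain ⟨x, y, e, hx, hy⟩ := hp ha
    obtain ⟨s, hs1, hs2⟩ := ih x (LenLe.of_add (e ▸ h) hy)
    obtain ⟨t, ht1, ht2⟩ := ih y (LenLe.of_add (by rw [add_comm y x, ← e]; exact h) hx)
    refine ⟨s + t, ?_, ?_⟩
    · intro P hP
      rcases Multiset.mem_add.1 hP with h1 | h1
      · exact hs1 P h1
      · exact ht1 P h1
    · rw [Multiset.sum_add, hs2, ht2, e]

/-- a nonzero element of finite length has a prime below it -/
theorem exists_prime_le {N : ℕ} (h : LenLe N a) (ha : a ≠ 0) : ∃ P, IsPr P ∧ P ≤ a := by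
  obtain ⟨s, hs, rfl⟩ := exists_multiset N a h
  have : s ≠ 0 := by rintro rfl; simp at ha
  obtain ⟨P, hP⟩ := Multiset.exists_mem_of_ne_zero this
  refine ⟨P, hs P hP, ?_⟩
  obtain ⟨t, rfl⟩ := Multiset.exists_cons_of_mem hP
  rw [Multiset.sum_cons]
  exact le_self_add

end Mon

end

end Crest.Agent.R275.Dv69
end

-- ▼ part R275/Dv3_69
section

/-!
# R275, block M (divisor layer), helper69: finiteness, suprema, residual part

`DivFin Y`  : the finiteness property (produced by helper672).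
`exists_sup`: a directed family of divisors bounded by `R` has a supremum, attained locally.
`exists_saturation` : `R = S + T`, `T ⊓ D' = 0`, `S` supported in `supp D'`.
`CPr Y`     : compact prime divisors; `exists_resid` : decomposition `D = Z + R`.
-/

set_option autoImplicit false
set_option linter.unusedSectionVars false

open Set Filter Topology
open scoped Manifold ContDiff

namespace Crest.Agent.R275.Dv69

open Crest.AlgGeometry.Surface

noncomputable section

variable {Y : Type*} [TopologicalSpace Y] [ChartedSpace C2 Y] [IsManifold 𝓘(ℂ, C2) 1 Y]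

/-- finiteness of divisors -/
class DivFin (Y : Type*) [TopologicalSpace Y] [ChartedSpace C2 Y] [IsManifold 𝓘(ℂ, C2) 1 Y] :
    Prop where
  bdd : ∀ (D : EffDiv Y) (p : Y), ∃ V ∈ 𝓝 p, ∃ n : ℕ, ∀ (m : ℕ) (E : Fin m → EffDiv Y),
    (∑ i, E i) ≤ D → (∀ i, ((E i).supp ∩ V).Nonempty) → m ≤ n

namespace EffDiv

variable {D D' R E : EffDiv Y} {p : Y}

theorem mem_supp {D : EffDiv Y} {p : Y} : p ∈ D.supp ↔ D.D p ≠ 1 := Iff.rfl


theorem supp_nonempty (h : D ≠ 0) : D.supp.Nonempty := by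
  rw [Set.nonempty_iff_ne_empty]
  exact fun e => h (supp_eq_empty.1 e)

theorem D_le_one {x : Associates (Og p)} (h : x ≤ 1) : x = 1 := by
  have h1 : x ∣ 1 := h
  exact (Associates.isUnit_iff_eq_one x).1 (isUnit_of_dvd_one h1)

section fin

variable [DivFin Y] [LocFact Y]

theorem bdd_finset (D : EffDiv Y) (p : Y) : ∃ V : Set Y, IsOpen V ∧ p ∈ V ∧ ∃ n : ℕ,
    ∀ {ι : Type} (s : Finset ι) (E : ι → EffDiv Y),
    (∑ i ∈ s, E i) ≤ D → (∀ i ∈ s, ((E i).supp ∩ V).Nonempty) → s.card ≤ n := by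
  obtain ⟨V, hV, n, hn⟩ := DivFin.bdd D p
  obtain ⟨W, hWV, hW, hpW⟩ := mem_nhds_iff.1 hV
  refine ⟨W, hW, hpW, n, ?_⟩
  intro ι s E h1 h2
  have e : Fin s.card ≃ s := s.equivFin.symm
  apply hn s.card (fun i => E (e i))
  · have : ∑ i : Fin s.card, E (e i) = ∑ i ∈ s, E i := by
      rw [← Finset.sum_coe_sort s E]
      exact Equiv.sum_comp e (fun i : s => E i)
    rw [this]; exact h1
  · intro i
    obtain ⟨q, hq1, hq2⟩ := h2 (e i) (e i).2
    exact ⟨q, hq1, hWV hq2⟩

theorem arch {P : EffDiv Y} (hP : P ≠ 0) (D : EffDiv Y) : Mon.Arch P D := by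
  obtain ⟨p, hp⟩ := supp_nonempty hP
  obtain ⟨V, _, hpV, n, hn⟩ := bdd_finset D p
  refine ⟨n + 1, fun hle => ?_⟩
  have := hn (Finset.range (n + 1)) (fun _ => P) (by simpa using hle)
    (fun _ _ => ⟨p, hp, hpV⟩)
  simp at this

/-- compactly supported divisors have finite length -/
theorem lenLe_of_compact (hc : IsCompact D.supp) : ∃ N, Mon.LenLe N D := by
  classical
  choose V hV hpV n hn using fun p : Y => bdd_finset D p
  obtain ⟨t, ht⟩ := hc.elim_finite_subcover V hV (fun p _ => Set.mem_iUnion.2 ⟨p, hpV p⟩)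
  refine ⟨∑ p ∈ t, n p, ?_⟩
  intro m E h1 h2
  -- each summand meets some member of the cover
  have key : ∀ i, ∃ p ∈ t, ((E i).supp ∩ V p).Nonempty := by
    intro i
    obtain ⟨q, hq⟩ := supp_nonempty (h1 i)
    have hle : E i ≤ D := (Finset.single_le_sum (f := E) (fun j _ => zero_le)
      (Finset.mem_univ i)).trans h2
    have hqD := supp_mono hle hq
    obtain ⟨p, hp, hq'⟩ := Set.mem_iUnion₂.1 (ht hqD)
    exact ⟨p, hp, q, hq, hq'⟩
  choose c hc1 hc2 using key
  have hcard : m = ∑ p ∈ t, (Finset.univ.filter fun i : Fin m => c i = p).card := by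
    have := Finset.card_eq_sum_card_fiberwise (f := c) (s := (Finset.univ : Finset (Fin m)))
      (t := t) (fun i _ => hc1 i)
    simpa using this
  rw [hcard]
  refine Finset.sum_le_sum fun p _ => ?_
  refine hn p _ E ?_ ?_
  · refine le_trans ?_ h2
    exact Finset.sum_le_sum_of_subset (Finset.filter_subset _ _)
  · intro i hi
    have : c i = p := by simpa using hi
    exact this ▸ hc2 i

/-- a member of a directed bounded family which is maximal near `p` -/
theorem exists_stationary {F : Set (EffDiv Y)} (hne : F.Nonempty) (hR : ∀ E ∈ F, E ≤ R) (p : Y) :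
    ∃ V : Set Y, IsOpen V ∧ p ∈ V ∧ ∃ E ∈ F, ∀ E' ∈ F, E ≤ E' → ∀ q ∈ V, E'.D q = E.D q := by
  classical
  obtain ⟨V, hV, hpV, n, hn⟩ := bdd_finset R p
  refine ⟨V, hV, hpV, ?_⟩
  by_contra hcon
  push Not at hcon
  choose nx hnx1 hnx2 q hq1 hq2 using hcon
  obtain ⟨E0, hE0⟩ := hne
  let c : ℕ → F := fun k => Nat.rec ⟨E0, hE0⟩ (fun _ x => ⟨nx x.1 x.2, hnx1 x.1 x.2⟩) k
  have hc : ∀ k, (c (k + 1)).1 = nx (c k).1 (c k).2 := fun k => rfl
  have hstep : ∀ k, (c k).1 ≤ (c (k + 1)).1 := fun k => by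
    rw [hc]; exact hnx2 _ _
  choose Fk hFk using fun k => exists_add_of_le (hstep k)
  have hsum : ∀ k, (c k).1 = E0 + ∑ i ∈ Finset.range k, Fk i := by
    intro k
    induction k with
    | zero => simp [c]
    | succ k ih => rw [hFk, ih, Finset.sum_range_succ, add_assoc]
  have hle : ∑ i ∈ Finset.range (n + 1), Fk i ≤ R := by
    refine le_trans ?_ (hR _ (c (n + 1)).2)
    rw [hsum (n + 1)]
    exact le_add_self
  have := hn (Finset.range (n + 1)) Fk hle (fun k _ => ⟨q (c k).1 (c k).2, ?_, hq1 _ _⟩)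
  · simp at this
  · intro h1
    apply hq2 (c k).1 (c k).2
    have h2 : (nx (c k).1 (c k).2).D (q (c k).1 (c k).2) =
        (c k).1.D (q (c k).1 (c k).2) * (Fk k).D (q (c k).1 (c k).2) := by
      rw [← add_D, ← hFk k, hc]
    rw [h2, h1, mul_one]

/-- suprema of directed bounded families exist and are attained locally -/
theorem exists_sup {F : Set (EffDiv Y)} (hne : F.Nonempty) (hdir : DirectedOn (· ≤ ·) F)
    (hR : ∀ E ∈ F, E ≤ R) : ∃ S : EffDiv Y, (∀ E ∈ F, E ≤ S) ∧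
      (∀ T, (∀ E ∈ F, E ≤ T) → S ≤ T) ∧
      ∀ p, ∃ E ∈ F, ∀ᶠ q in 𝓝 p, ∀ E' ∈ F, E ≤ E' → E'.D q = S.D q := by
  classical
  choose V hV hpV E hE hst using fun p : Y => exists_stationary hne hR p
  have key : ∀ p, ∀ q ∈ V p, (E q).D q = (E p).D q := by
    intro p q hq
    obtain ⟨E'', h1, h2, h3⟩ := hdir (E q) (hE q) (E p) (hE p)
    rw [← hst q E'' h1 h2 q (hpV q), ← hst p E'' h1 h3 q hq]
  let S : EffDiv Y := ⟨fun p => (E p).D p, fun p0 => by
    obtain ⟨f, hf⟩ := (E p0).exists_leq' p0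
    refine ⟨f, ?_⟩
    filter_upwards [hf.ev, (hV p0).mem_nhds (hpV p0)] with q h1 h2
    exact ⟨h1.1, h1.2.1, by rw [key p0 q h2]; exact h1.2.2⟩⟩
  have hS : ∀ p, S.D p = (E p).D p := fun p => rfl
  refine ⟨S, ?_, ?_, ?_⟩
  · intro E' hE' p
    obtain ⟨E'', h1, h2, h3⟩ := hdir (E p) (hE p) E' hE'
    rw [hS, ← hst p E'' h1 h2 p (hpV p)]
    exact h3 p
  · intro T hT p
    rw [hS]; exact hT _ (hE p) p
  · intro p
    refine ⟨E p, hE p, ?_⟩
    filter_upwards [(hV p).mem_nhds (hpV p)] with q hq E' hE' hle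
    rw [hst p E' hE' hle q hq, hS, key p q hq]

end fin

section lat

variable [DivFin Y] [LocFact Y]

/-- remove from `R` everything it has in common with `D'` -/
theorem exists_saturation (R D' : EffDiv Y) : ∃ S T : EffDiv Y, R = S + T ∧ T ⊓ D' = 0 ∧
    ∀ p, p ∉ D'.supp → p ∉ S.supp := by
  classical
  let F : Set (EffDiv Y) := Set.range fun n : ℕ => R ⊓ n • D'
  have hmono : ∀ {m n : ℕ}, m ≤ n → R ⊓ m • D' ≤ R ⊓ n • D' := fun {m n} h =>
    inf_le_inf_left R (nsmul_le_nsmul_left zero_le h)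
  have hdir : DirectedOn (· ≤ ·) F := by
    rintro _ ⟨m, rfl⟩ _ ⟨n, rfl⟩
    exact ⟨_, ⟨max m n, rfl⟩, hmono (le_max_left _ _), hmono (le_max_right _ _)⟩
  have hR : ∀ E ∈ F, E ≤ R := by rintro _ ⟨n, rfl⟩; exact inf_le_left
  obtain ⟨S, hS1, hS2, hS3⟩ := exists_sup (F := F) (R := R) ⟨_, ⟨0, rfl⟩⟩ hdir hR
  obtain ⟨T, hT⟩ := exists_add_of_le (hS2 R hR)
  refine ⟨S, T, hT, ?_, ?_⟩
  · ext p
    obtain ⟨_, ⟨n, rfl⟩, hn⟩ := hS3 p
    have h1 := hn.self_of_nhds
    have e1 : (R ⊓ n • D').D p = S.D p := h1 _ ⟨n, rfl⟩ le_rfl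
    have e2 : (R ⊓ (n + 1) • D').D p = S.D p := h1 _ ⟨n + 1, rfl⟩ (hmono (Nat.le_succ n))
    have h2 : (S + T ⊓ D').D p ≤ R.D p := by
      rw [hT]
      have : S + T ⊓ D' ≤ S + T := add_le_add_right inf_le_left S
      exact this p
    have h3 : (S + T ⊓ D').D p ≤ ((n + 1) • D').D p := by
      have h4 : S.D p ≤ (n • D').D p := by
        rw [← e1]; exact (inf_le_right : R ⊓ n • D' ≤ n • D') p
      have h5 : (T ⊓ D').D p ≤ D'.D p := (inf_le_right : T ⊓ D' ≤ D') p
      rw [succ_nsmul, add_D, add_D]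
      gcongr
    have h6 : (S + T ⊓ D').D p ≤ S.D p := by
      rw [← e2, inf_D]; exact le_inf h2 h3
    rw [add_D] at h6
    have h7 : S.D p * (T ⊓ D').D p ≤ S.D p * 1 := by rwa [mul_one]
    have h8 : (T ⊓ D').D p ∣ 1 := by
      have h9 : S.D p * (T ⊓ D').D p ∣ S.D p * 1 := h7
      exact (mul_dvd_mul_iff_left (S.ne_zero p)).1 h9
    exact (Associates.isUnit_iff_eq_one _).1 (isUnit_of_dvd_one h8)
  · intro p hp
    obtain ⟨_, ⟨n, rfl⟩, hn⟩ := hS3 p
    have e1 : (R ⊓ n • D').D p = S.D p := hn.self_of_nhds _ ⟨n, rfl⟩ le_rfl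
    rw [notMem_supp, ← e1]
    have h5 : (R ⊓ n • D').D p ≤ (n • D').D p := (inf_le_right : R ⊓ n • D' ≤ n • D') p
    rw [nsmul_D, notMem_supp.1 hp, one_pow] at h5
    exact D_le_one h5

variable (Y) in
/-- compact prime divisors -/
abbrev CPr : Type _ := {C : EffDiv Y // Mon.IsPr C ∧ IsCompact C.supp}

/-- finite sums of compact primes with the multiplicities of `D` -/
def pSum (D : EffDiv Y) (s : Finset (CPr Y)) : EffDiv Y := ∑ C ∈ s, Mon.ord C.1 D • C.1

theorem ord_nsmul_le (D : EffDiv Y) (C : CPr Y) : Mon.ord C.1 D • C.1 ≤ D :=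
  Mon.ord_spec (arch C.2.1.1 D)

theorem cpr_inf {C C' : CPr Y} (h : C ≠ C') : C.1 ⊓ C'.1 = 0 :=
  C.2.1.inf_of_ne C'.2.1 fun e => h (Subtype.ext e)

theorem pSum_le (D : EffDiv Y) (s : Finset (CPr Y)) : pSum D s ≤ D := by
  refine Mon.sum_le_of_pairwise s ?_ fun C _ => ord_nsmul_le D C
  intro C _ C' _ hne
  refine Mon.inf_nsmul_eq_zero ?_ _
  rw [inf_comm]
  refine Mon.inf_nsmul_eq_zero ?_ _
  rw [inf_comm]
  exact cpr_inf hne

theorem pSum_mono {s t : Finset (CPr Y)} (h : s ⊆ t) : pSum D s ≤ pSum D t :=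
  Finset.sum_le_sum_of_subset h

theorem ord_mono {D D' : EffDiv Y} (h : D ≤ D') {C : EffDiv Y} (hC : C ≠ 0) :
    Mon.ord C D ≤ Mon.ord C D' := Mon.ord_mono (arch hC D') h

theorem ord_add {C : EffDiv Y} (hC : Mon.IsPr C) (D D' : EffDiv Y) :
    Mon.ord C (D + D') = Mon.ord C D + Mon.ord C D' :=
  (Mon.ord_add hC (arch hC.1 D) (arch hC.1 D')).2

theorem ord_sum {C : EffDiv Y} (hC : Mon.IsPr C) {ι : Type*} (s : Finset ι) (f : ι → EffDiv Y) :
    Mon.ord C (∑ i ∈ s, f i) = ∑ i ∈ s, Mon.ord C (f i) :=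
  (Mon.ord_sum hC s fun i _ => arch hC.1 (f i)).2


theorem le_ord_iff {C : EffDiv Y} (hC : C ≠ 0) (D : EffDiv Y) (n : ℕ) :
    n ≤ Mon.ord C D ↔ n • C ≤ D := Mon.le_ord_iff (arch hC D) n

theorem ord_pos_iff {C : EffDiv Y} (hC : C ≠ 0) (D : EffDiv Y) : 0 < Mon.ord C D ↔ C ≤ D := by
  have := le_ord_iff hC D 1
  rw [one_nsmul] at this
  exact this

/-- a compactly supported divisor is the sum of its primes -/
theorem exists_eq_pSum (hc : IsCompact D.supp) : ∃ s : Finset (CPr Y), D = pSum D s := by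
  classical
  obtain ⟨N, hN⟩ := lenLe_of_compact hc
  obtain ⟨m, hm, rfl⟩ := Mon.exists_multiset N D hN
  -- all members are compact primes
  have hcp : ∀ P ∈ m, Mon.IsPr P ∧ IsCompact P.supp := by
    intro P hP
    refine ⟨hm P hP, hc.of_isClosed_subset (isClosed_supp P) (supp_mono ?_)⟩
    obtain ⟨t, rfl⟩ := Multiset.exists_cons_of_mem hP
    rw [Multiset.sum_cons]; exact le_self_add
  let m' : Multiset (CPr Y) := m.pmap (fun P h => ⟨P, h⟩) hcp
  have hm' : (m'.map Subtype.val) = m := by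
    simp only [m', Multiset.map_pmap]
    exact (Multiset.pmap_eq_map _ _ _ _).trans (Multiset.map_id' m)
  refine ⟨m'.toFinset, ?_⟩
  have h1 : m.sum = ∑ C ∈ m'.toFinset, m'.count C • C.1 := by
    conv_lhs => rw [← hm']
    rw [Finset.sum_multiset_map_count]
  apply le_antisymm
  · nth_rewrite 1 [h1]
    refine Finset.sum_le_sum fun C hC => ?_
    refine nsmul_le_nsmul_left zero_le ?_
    rw [le_ord_iff C.2.1.1, h1]
    exact Finset.single_le_sum (f := fun C : CPr Y => m'.count C • C.1) (fun j _ => zero_le) hC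
  · exact pSum_le _ _

/-- decomposition into the compact prime part and a residual part without compact primes -/
theorem exists_resid (D : EffDiv Y) : ∃ Z R : EffDiv Y, D = Z + R ∧
    (∀ C : CPr Y, ¬ C.1 ≤ R) ∧ (∀ C : CPr Y, Mon.ord C.1 Z = Mon.ord C.1 D) ∧
    (∀ s : Finset (CPr Y), pSum D s ≤ Z) ∧
    (∀ p, ∃ s : Finset (CPr Y), ∀ᶠ q in 𝓝 p, Z.D q = (pSum D s).D q) := by
  classical
  let F : Set (EffDiv Y) := Set.range fun s : Finset (CPr Y) => pSum D s
  have hdir : DirectedOn (· ≤ ·) F := by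
    rintro _ ⟨s, rfl⟩ _ ⟨t, rfl⟩
    exact ⟨_, ⟨s ∪ t, rfl⟩, pSum_mono Finset.subset_union_left, pSum_mono Finset.subset_union_right⟩
  obtain ⟨Z, hZ1, hZ2, hZ3⟩ := exists_sup (F := F) (R := D) ⟨_, ⟨∅, rfl⟩⟩ hdir (by
    rintro _ ⟨s, rfl⟩; exact pSum_le D s)
  have hZD : Z ≤ D := hZ2 D (by rintro _ ⟨s, rfl⟩; exact pSum_le D s)
  obtain ⟨R, hR⟩ := exists_add_of_le hZD
  have hord : ∀ C : CPr Y, Mon.ord C.1 Z = Mon.ord C.1 D := by
    intro C
    apply le_antisymm (ord_mono hZD C.2.1.1)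
    rw [le_ord_iff C.2.1.1]
    refine le_trans ?_ (hZ1 _ ⟨{C}, rfl⟩)
    simp [pSum]
  refine ⟨Z, R, hR, ?_, hord, fun s => hZ1 _ ⟨s, rfl⟩, ?_⟩
  · intro C hC
    have h1 := ord_add C.2.1 Z R
    rw [← hR, hord C] at h1
    have h2 := (ord_pos_iff C.2.1.1 R).2 hC
    omega
  · intro p
    obtain ⟨_, ⟨s, rfl⟩, hs⟩ := hZ3 p
    refine ⟨s, ?_⟩
    filter_upwards [hs] with q hq
    exact (hq _ ⟨s, rfl⟩ le_rfl).symm

/-- a nonzero divisor without compact primes has noncompact support -/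
theorem not_compact_of_no_prime {R : EffDiv Y} (hR : R ≠ 0) (h : ∀ C : CPr Y, ¬ C.1 ≤ R) :
    ¬ IsCompact R.supp := by
  intro hc
  obtain ⟨N, hN⟩ := lenLe_of_compact hc
  obtain ⟨P, hP, hPR⟩ := Mon.exists_prime_le hN hR
  exact h ⟨P, hP, hc.of_isClosed_subset (isClosed_supp P) (supp_mono hPR)⟩ hPR

/-- if `D` is locally attained by compactly supported divisors then its residual part is zero -/
theorem resid_eq_zero {D Z R : EffDiv Y} (hD : D = Z + R) (hZ : ∀ s, pSum D s ≤ Z)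
    (h : ∀ p, ∃ E ≤ D, IsCompact E.supp ∧ E.D p = D.D p) : R = 0 := by
  ext p
  obtain ⟨E, hE1, hE2, hE3⟩ := h p
  obtain ⟨s, hs⟩ := exists_eq_pSum hE2
  have h1 : E ≤ Z := by
    rw [hs]
    refine le_trans ?_ (hZ s)
    refine Finset.sum_le_sum fun C _ => nsmul_le_nsmul_left zero_le (ord_mono hE1 C.2.1.1)
  have h2 : D.D p ≤ Z.D p := hE3 ▸ h1 p
  rw [hD, add_D] at h2
  have h7 : Z.D p * R.D p ≤ Z.D p * 1 := by rwa [mul_one]
  have h9 : Z.D p * R.D p ∣ Z.D p * 1 := h7
  have h8 : R.D p ∣ 1 := (mul_dvd_mul_iff_left (Z.ne_zero p)).1 h9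
  exact (Associates.isUnit_iff_eq_one _).1 (isUnit_of_dvd_one h8)

end lat

end EffDiv

end

end Crest.Agent.R275.Dv69
end

-- ▼ part R275/Dv4_69

/-!
# R275, block M (divisor layer), helper69: gcd with a section on a divisor, divisor of a section

`exists_gcdMod`   : for a divisor `P` and a family `u` of local holomorphic functions which is
                    well defined modulo `P` up to units, the gcd of `P` and `u` is a divisor.
`prime_dichotomy` : if `P` is prime, `u` vanishes identically on `P` or is relatively prime to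
                    `P` at every point.
`divOf`           : divisor of a section given by local functions.
-/

set_option autoImplicit false
set_option linter.unusedSectionVars false

open Set Filter Topology
open scoped Manifold ContDiff

namespace Crest.Agent.R275.Dv69

open Crest.AlgGeometry.Surface

noncomputable section

variable {Y : Type*} [TopologicalSpace Y] [ChartedSpace C2 Y] [IsManifold 𝓘(ℂ, C2) 1 Y]
variable {f f' h u v : Y → ℂ} {p q : Y}

namespace EffDiv

section gcdMod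

variable [LocFact Y]

/-- `Associates.mk a ⊓ Associates.mk b` only depends on `b` modulo `a` and units -/
theorem inf_mk_congr {α : Type*} [CommRing α] [IsDomain α] [UniqueFactorizationMonoid α]
    {a b b' c : α} (hc : IsUnit c) (h : a ∣ b - c * b') :
    Associates.mk a ⊓ Associates.mk b = Associates.mk a ⊓ Associates.mk b' := by
  obtain ⟨w, hw⟩ := hc
  apply le_antisymm
  · refine le_inf inf_le_left ?_
    obtain ⟨x, hx⟩ := Associates.mk_surjective (Associates.mk a ⊓ Associates.mk b)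
    have h1 : Associates.mk x ≤ Associates.mk a := hx ▸ inf_le_left
    have h2 : Associates.mk x ≤ Associates.mk b := hx ▸ inf_le_right
    rw [Associates.mk_le_mk_iff_dvd] at h1 h2
    rw [← hx, Associates.mk_le_mk_iff_dvd]
    have h3 : x ∣ c * b' := by
      have := dvd_sub h2 (h1.trans h)
      simpa using this
    rw [← hw] at h3
    exact (Units.dvd_mul_left).1 h3
  · refine le_inf inf_le_left ?_
    obtain ⟨x, hx⟩ := Associates.mk_surjective (Associates.mk a ⊓ Associates.mk b')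
    have h1 : Associates.mk x ≤ Associates.mk a := hx ▸ inf_le_left
    have h2 : Associates.mk x ≤ Associates.mk b' := hx ▸ inf_le_right
    rw [Associates.mk_le_mk_iff_dvd] at h1 h2
    rw [← hx, Associates.mk_le_mk_iff_dvd]
    have := dvd_add (h1.trans h) (h2.mul_left c)
    simpa using this

/-- compatibility of the family `u` at `q`, for the divisor `P` -/
def CompatAt (P : EffDiv Y) (u v : Y → ℂ) (q : Y) : Prop :=
  ∃ c f : Y → ℂ, HolN c q ∧ c q ≠ 0 ∧ LEq P f q ∧ HolN u q ∧ HolN v q ∧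
    gt f q ∣ gt (u - c * v) q

theorem CompatAt.inf_eq {P : EffDiv Y} {u v : Y → ℂ} (h : CompatAt P u v q) :
    P.D q ⊓ Associates.mk (gt u q) = P.D q ⊓ Associates.mk (gt v q) := by
  obtain ⟨c, f, hc, hc0, hf, hu, hv, hd⟩ := h
  rw [hf.2.2]
  refine inf_mk_congr ((isUnit_gt_iff hc).2 hc0) ?_
  have : gt (u - c * v) q = gt u q - gt c q * gt v q := by
    rw [gt_eq hu, gt_eq hc, gt_eq hv, gt_eq (hu.sub (hc.mul hv))]; rfl
  rwa [← this]

/-- gcd of a divisor with a section given modulo the divisor -/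
theorem exists_gcdMod (P : EffDiv Y) (u : Y → Y → ℂ)
    (hu : ∀ p ∈ P.supp, HolN (u p) p)
    (hcomp : ∀ p ∈ P.supp, ∀ᶠ q in 𝓝 p, q ∈ P.supp → CompatAt P (u p) (u q) q) :
    ∃ G : EffDiv Y, G ≤ P ∧ ∀ p ∈ P.supp, G.D p = P.D p ⊓ Associates.mk (gt (u p) p) := by
  classical
  let DD : ∀ p : Y, Associates (Og p) := fun p =>
    if p ∈ P.supp then P.D p ⊓ Associates.mk (gt (u p) p) else 1
  have hDD1 : ∀ p ∈ P.supp, DD p = P.D p ⊓ Associates.mk (gt (u p) p) := fun p hp => if_pos hp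
  have hDD2 : ∀ p ∉ P.supp, DD p = 1 := fun p hp => if_neg hp
  have hloc : ∀ p0, ∃ d : Y → ℂ, ∀ᶠ p in 𝓝 p0,
      HolN d p ∧ ¬ (d =ᶠ[𝓝 p] 0) ∧ DD p = Associates.mk (gt d p) := by
    intro p0
    by_cases hp0 : p0 ∈ P.supp
    · obtain ⟨f, hf⟩ := P.exists_leq' p0
      obtain ⟨d, a, b, hd, ha, hb, e1, e2, hrp⟩ := exists_gcd hf.1 (hu p0 hp0) hf.2.1
      have hd0 : ¬ (d =ᶠ[𝓝 p0] 0) := by
        intro e0
        apply hf.2.1
        filter_upwards [e0, e1] with y hy1 hy2
        rw [hy2]; simp [hy1]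
      refine ⟨d, ?_⟩
      filter_upwards [hf.ev, (hu p0 hp0).ev, hd.ev, ha.ev, hb.ev, eventually_eventually_nhds.2 e1,
        eventually_eventually_nhds.2 e2, LocFact.rp p0 a b ha hb hrp, hd.ne_ev hd0, hcomp p0 hp0]
        with q k1 k2 k3 k4 k5 k6 k7 k8 k9 k10
      refine ⟨k3, k9, ?_⟩
      have hinf : P.D q ⊓ Associates.mk (gt (u p0) q) = Associates.mk (gt d q) := by
        rw [k1.2.2, gt_congr k6, gt_congr k7, gt_mul k3 k4, gt_mul k3 k5]
        exact inf_of_relPrime _ k8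
      by_cases hq : q ∈ P.supp
      · rw [hDD1 q hq, ← (k10 hq).inf_eq, hinf]
      · rw [hDD2 q hq, ← hinf, notMem_supp.1 hq]
        exact (D_le_one inf_le_left).symm
    · refine ⟨1, ?_⟩
      filter_upwards [(isClosed_supp P).isOpen_compl.mem_nhds hp0] with q hq
      refine ⟨holN_one, fun e => by simpa using e.self_of_nhds, ?_⟩
      rw [hDD2 q hq, gt_one]; rfl
  refine ⟨⟨DD, hloc⟩, ?_, hDD1⟩
  intro p
  show DD p ≤ P.D p
  by_cases hp : p ∈ P.supp
  · rw [hDD1 p hp]; exact inf_le_left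
  · rw [hDD2 p hp, notMem_supp.1 hp]

theorem relPrime_iff_inf {α : Type*} [CommRing α] [IsDomain α] [UniqueFactorizationMonoid α]
    {a b : α} : IsRelPrime a b ↔ Associates.mk a ⊓ Associates.mk b = 1 := by
  constructor
  · intro h
    have := inf_of_relPrime (1 : α) h
    simpa using this
  · intro h x hxa hxb
    have h1 : Associates.mk x ≤ Associates.mk a ⊓ Associates.mk b :=
      le_inf (Associates.mk_le_mk_iff_dvd.2 hxa) (Associates.mk_le_mk_iff_dvd.2 hxb)
    rw [h] at h1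
    have h2 : Associates.mk x ∣ 1 := h1
    have h3 := (Associates.isUnit_iff_eq_one _).1 (isUnit_of_dvd_one h2)
    exact Associates.mk_eq_one.1 h3

/-- a section on a prime divisor is identically zero or relatively prime to it everywhere -/
theorem prime_dichotomy {P : EffDiv Y} (hP : Mon.IsPr P) (u : Y → Y → ℂ)
    (hu : ∀ p ∈ P.supp, HolN (u p) p)
    (hcomp : ∀ p ∈ P.supp, ∀ᶠ q in 𝓝 p, q ∈ P.supp → CompatAt P (u p) (u q) q) :
    (∀ p ∈ P.supp, ∀ f, LEq P f p → gt f p ∣ gt (u p) p) ∨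
    (∀ p ∈ P.supp, ∀ f, LEq P f p → IsRelPrime (gt f p) (gt (u p) p)) := by
  obtain ⟨G, hG1, hG2⟩ := exists_gcdMod P u hu hcomp
  rcases hP.2 G hG1 with h | h
  · right
    intro p hp f hf
    have := hG2 p hp
    rw [h, zero_D, hf.2.2] at this
    exact relPrime_iff_inf.2 this.symm
  · left
    intro p hp f hf
    have := hG2 p hp
    rw [h, hf.2.2] at this
    have h1 : Associates.mk (gt f p) ≤ Associates.mk (gt (u p) p) := by
      rw [this]; exact inf_le_right
    exact Associates.mk_le_mk_iff_dvd.1 h1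

/-- pointwise meaning of `D ⊓ D' = 0` -/
theorem inf_eq_zero_iff {D D' : EffDiv Y} : D ⊓ D' = 0 ↔
    ∀ p f h, LEq D f p → LEq D' h p → IsRelPrime (gt f p) (gt h p) := by
  constructor
  · intro e p f h hf hh
    have := congrArg (fun D => EffDiv.D D p) e
    simp only [inf_D, zero_D, hf.2.2, hh.2.2] at this
    exact relPrime_iff_inf.2 this
  · intro H
    ext p
    obtain ⟨f, hf⟩ := D.exists_leq' p
    obtain ⟨h, hh⟩ := D'.exists_leq' p
    rw [inf_D, zero_D, hf.2.2, hh.2.2]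
    exact relPrime_iff_inf.1 (H p f h hf hh)

end gcdMod

/-! ### divisor of a section -/

section divOf

variable {ι : Type*} (U : ι → Set Y) (s : ι → Y → ℂ)

/-- `s` is a nonzero section of some line bundle, given by local functions -/
structure IsSec (U : ι → Set Y) (s : ι → Y → ℂ) : Prop where
  isOpen : ∀ i, IsOpen (U i)
  cover : ∀ p, ∃ i, p ∈ U i
  hol : ∀ i, ∀ p ∈ U i, HolN (s i) p
  ne : ∀ i, ∀ p ∈ U i, ¬ (s i =ᶠ[𝓝 p] 0)
  trans : ∀ i j, ∀ p ∈ U i ∩ U j, ∃ c : Y → ℂ, HolN c p ∧ c p ≠ 0 ∧ s j =ᶠ[𝓝 p] s i * c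

variable {U s}

/-- divisor of a section -/
def divOf (hs : IsSec U s) : EffDiv Y :=
  ofLocal (fun p => s (hs.cover p).choose) (by
    intro p0
    have h0 := (hs.cover p0).choose_spec
    filter_upwards [(hs.isOpen _).mem_nhds h0] with p hp
    refine ⟨hs.hol _ p hp, hs.ne _ p hp, ?_⟩
    have h1 := (hs.cover p).choose_spec
    rw [mk_eq_mk_iff (hs.hol _ p h1) (hs.hol _ p hp)]
    exact hs.trans _ _ p ⟨h1, hp⟩)

theorem divOf_leq (hs : IsSec U s) {i : ι} (hp : p ∈ U i) : LEq (divOf hs) (s i) p := by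
  refine ⟨hs.hol i p hp, hs.ne i p hp, ?_⟩
  have h1 := (hs.cover p).choose_spec
  show Associates.mk (gt (s (hs.cover p).choose) p) = _
  rw [mk_eq_mk_iff (hs.hol _ p h1) (hs.hol _ p hp)]
  exact hs.trans _ _ p ⟨h1, hp⟩


theorem divOf_eq_of_leq (hs : IsSec U s) {D : EffDiv Y} (h : ∀ i, ∀ p ∈ U i, LEq D (s i) p) :
    divOf hs = D := by
  ext p
  obtain ⟨i, hi⟩ := hs.cover p
  rw [(divOf_leq hs hi).2.2, (h i p hi).2.2]


/-- holomorphic quotients: if `f = e k` near every point of `U` with `e` not locally zero then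
the quotient is a globally defined function -/
theorem exists_quot {W : Set Y} (hW : IsOpen W) {e f : Y → ℂ} (he : ∀ p ∈ W, HolN e p)
    (hf : ∀ p ∈ W, HolN f p) (h0 : ∀ p ∈ W, ¬ e =ᶠ[𝓝 p] 0) (hd : ∀ p ∈ W, gt e p ∣ gt f p) :
    ∃ k : Y → ℂ, (∀ p ∈ W, HolN k p) ∧ ∀ p ∈ W, f p = e p * k p := by
  classical
  have key : ∀ p ∈ W, ∃ k : Y → ℂ, HolN k p ∧ f =ᶠ[𝓝 p] e * k := fun p hp =>
    (gt_dvd_iff (he p hp) (hf p hp)).1 (hd p hp)
  choose! K hK1 hK2 using key
  -- local quotients agree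
  have hag : ∀ p ∈ W, ∀ᶠ q in 𝓝 p, K q q = K p q := by
    intro p hp
    filter_upwards [hW.mem_nhds hp, (hK1 p hp).ev, eventually_eventually_nhds.2 (hK2 p hp)]
      with q hq h1 h2
    have h3 := hK2 q hq
    -- `e * (K q - K p) = 0` near `q`
    have h4 : e * (K q - K p) =ᶠ[𝓝 q] 0 := by
      filter_upwards [h2, h3] with y hy1 hy2
      have a1 : f y = e y * K p y := hy1
      have a2 : f y = e y * K q y := hy2
      show e y * (K q y - K p y) = 0
      rw [mul_sub, ← a1, ← a2, sub_self]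
    rcases (he q hq).mul_eq_zero ((hK1 q hq).sub h1) h4 with h5 | h5
    · exact absurd h5 (h0 q hq)
    · have := h5.self_of_nhds
      exact sub_eq_zero.1 this
  refine ⟨fun q => K q q, ?_, ?_⟩
  · intro p hp
    exact (hK1 p hp).congr (Filter.EventuallyEq.symm (hag p hp))
  · intro p hp
    exact (hK2 p hp).self_of_nhds

/-- `div s ≤ D'` with local equations `t i` on `U i`: the quotients are holomorphic -/
theorem exists_quot_of_le {D D' : EffDiv Y} {W : Set Y} (hW : IsOpen W) {e f : Y → ℂ}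
    (he : ∀ p ∈ W, LEq D e p) (hf : ∀ p ∈ W, LEq D' f p) (hle : D ≤ D') :
    ∃ k : Y → ℂ, (∀ p ∈ W, HolN k p) ∧ ∀ p ∈ W, f p = e p * k p := by
  refine exists_quot hW (fun p hp => (he p hp).1) (fun p hp => (hf p hp).1)
    (fun p hp => (he p hp).2.1) fun p hp => ?_
  have := hle p
  rw [(he p hp).2.2, (hf p hp).2.2, Associates.mk_le_mk_iff_dvd] at this
  exact this

end divOf

/-! ### pull-back by a biholomorphic map -/

section pull

variable {Y' : Type*} [TopologicalSpace Y'] [ChartedSpace C2 Y'] [IsManifold 𝓘(ℂ, C2) 1 Y']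

/-- a holomorphic homeomorphism -/
structure IsBihol (φ : Y ≃ₜ Y') : Prop where
  fwd : MDifferentiable 𝓘(ℂ, C2) 𝓘(ℂ, C2) φ
  bwd : MDifferentiable 𝓘(ℂ, C2) 𝓘(ℂ, C2) φ.symm

theorem IsBihol.symm {φ : Y ≃ₜ Y'} (h : IsBihol φ) : IsBihol φ.symm := ⟨h.bwd, h.fwd⟩

variable {φ : Y ≃ₜ Y'}

theorem IsBihol.holN (hφ : IsBihol φ) {F : Y' → ℂ} (hF : HolN F (φ p)) :
    HolN (fun y => F (φ y)) p := by
  filter_upwards [φ.continuous.continuousAt.eventually hF] with q hq
  exact hq.comp q (hφ.fwd q)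

theorem ev_comp {F G : Y' → ℂ} (e : F =ᶠ[𝓝 (φ p)] G) :
    (fun y => F (φ y)) =ᶠ[𝓝 p] fun y => G (φ y) :=
  φ.continuous.continuousAt.eventually e

theorem ev_comp_iff {F : Y' → ℂ} :
    (fun y => F (φ y)) =ᶠ[𝓝 p] 0 ↔ F =ᶠ[𝓝 (φ p)] 0 := by
  constructor
  · intro e
    have h1 : Tendsto φ.symm (𝓝 (φ p)) (𝓝 p) := by
      have := φ.symm.continuous.tendsto (φ p)
      rwa [φ.symm_apply_apply] at this
    filter_upwards [h1.eventually e] with y hy
    simpa using hy
  · intro e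
    exact ev_comp e

/-- pull-back of a divisor -/
def pull (hφ : IsBihol φ) (D : EffDiv Y') : EffDiv Y :=
  ofLocal (fun p => fun y => (D.exists_leq' (φ p)).choose (φ y)) (by
    intro p0
    have h0 := (D.exists_leq' (φ p0)).choose_spec
    filter_upwards [φ.continuous.continuousAt.eventually h0.ev] with p hp
    refine ⟨hφ.holN hp.1, fun e => hp.2.1 (ev_comp_iff.1 e), ?_⟩
    have h1 := (D.exists_leq' (φ p)).choose_spec
    have h2 : Associates.mk (gt (D.exists_leq' (φ p)).choose (φ p)) =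
        Associates.mk (gt (D.exists_leq' (φ p0)).choose (φ p)) := by rw [← h1.2.2, ← hp.2.2]
    obtain ⟨c, hc, hc0, e⟩ := (mk_eq_mk_iff h1.1 hp.1).1 h2
    rw [mk_eq_mk_iff (hφ.holN h1.1) (hφ.holN hp.1)]
    exact ⟨_, hφ.holN hc, hc0, ev_comp e⟩)

theorem pull_leq (hφ : IsBihol φ) {D : EffDiv Y'} {F : Y' → ℂ} (hF : LEq D F (φ p)) :
    LEq (pull hφ D) (fun y => F (φ y)) p := by
  refine ⟨hφ.holN hF.1, fun e => hF.2.1 (ev_comp_iff.1 e), ?_⟩
  have h1 := (D.exists_leq' (φ p)).choose_spec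
  show Associates.mk (gt (fun y => (D.exists_leq' (φ p)).choose (φ y)) p) = _
  have h2 : Associates.mk (gt (D.exists_leq' (φ p)).choose (φ p)) =
      Associates.mk (gt F (φ p)) := by rw [← h1.2.2, ← hF.2.2]
  obtain ⟨c, hc, hc0, e⟩ := (mk_eq_mk_iff h1.1 hF.1).1 h2
  rw [mk_eq_mk_iff (hφ.holN h1.1) (hφ.holN hF.1)]
  exact ⟨_, hφ.holN hc, hc0, ev_comp e⟩

theorem eq_of_leq {D D' : EffDiv Y} (h : ∀ p, ∃ f, LEq D f p ∧ LEq D' f p) : D = D' := by
  ext p
  obtain ⟨f, h1, h2⟩ := h p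
  rw [h1.2.2, h2.2.2]

theorem pull_add (hφ : IsBihol φ) (D D' : EffDiv Y') :
    pull hφ (D + D') = pull hφ D + pull hφ D' := by
  apply eq_of_leq
  intro p
  obtain ⟨f, hf⟩ := D.exists_leq' (φ p)
  obtain ⟨f', hf'⟩ := D'.exists_leq' (φ p)
  exact ⟨fun y => (f * f') (φ y), pull_leq hφ (hf.add hf'), (pull_leq hφ hf).add (pull_leq hφ hf')⟩

theorem pull_zero (hφ : IsBihol φ) : pull hφ (0 : EffDiv Y') = 0 := by
  apply eq_of_leq
  intro p
  have h1 : LEq (0 : EffDiv Y') 1 (φ p) :=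
    ⟨holN_one, fun e => by simpa using e.self_of_nhds, by rw [zero_D, gt_one]; rfl⟩
  have h2 : LEq (0 : EffDiv Y) 1 p :=
    ⟨holN_one, fun e => by simpa using e.self_of_nhds, by rw [zero_D, gt_one]; rfl⟩
  exact ⟨1, pull_leq hφ h1, h2⟩

theorem pull_symm (hφ : IsBihol φ) (D : EffDiv Y') : pull hφ.symm (pull hφ D) = D := by
  apply eq_of_leq
  intro p
  obtain ⟨f, hf⟩ := D.exists_leq' p
  refine ⟨f, ?_, hf⟩
  have h1 : LEq D f (φ (φ.symm p)) := by rwa [φ.apply_symm_apply]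
  have h2 := pull_leq hφ.symm (pull_leq hφ h1)
  have h3 : (fun y => f (φ (φ.symm y))) = f := by funext y; simp
  rwa [h3] at h2

theorem mem_supp_pull (hφ : IsBihol φ) (D : EffDiv Y') :
    p ∈ (pull hφ D).supp ↔ φ p ∈ D.supp := by
  obtain ⟨f, hf⟩ := D.exists_leq' (φ p)
  rw [(pull_leq hφ hf).mem_supp, hf.mem_supp]

theorem supp_pull (hφ : IsBihol φ) (D : EffDiv Y') : (pull hφ D).supp = φ ⁻¹' D.supp := by
  ext p; exact mem_supp_pull hφ D

theorem isCompact_supp_pull (hφ : IsBihol φ) {D : EffDiv Y'} (h : IsCompact D.supp) :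
    IsCompact (pull hφ D).supp := by
  rw [supp_pull]
  exact φ.isCompact_preimage.2 h

theorem pull_mono (hφ : IsBihol φ) {D D' : EffDiv Y'} (h : D ≤ D') : pull hφ D ≤ pull hφ D' := by
  obtain ⟨E, rfl⟩ := exists_add_of_le h
  rw [pull_add]; exact le_self_add

theorem pull_le_iff (hφ : IsBihol φ) {D D' : EffDiv Y'} : pull hφ D ≤ pull hφ D' ↔ D ≤ D' := by
  refine ⟨fun h => ?_, pull_mono hφ⟩
  have := pull_mono hφ.symm h
  rwa [pull_symm, pull_symm] at this

theorem pull_injective (hφ : IsBihol φ) : Function.Injective (pull hφ) := by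
  intro D D' h
  rw [← pull_symm hφ D, h, pull_symm]

/-- pull-back as an additive order isomorphism -/
def pullEquiv (hφ : IsBihol φ) : EffDiv Y' ≃+ EffDiv Y where
  toFun := pull hφ
  invFun := pull hφ.symm
  left_inv D := pull_symm hφ D
  right_inv D := pull_symm hφ.symm D
  map_add' D D' := pull_add hφ D D'

end pull

section pullPr

variable {Y' : Type*} [TopologicalSpace Y'] [ChartedSpace C2 Y'] [IsManifold 𝓘(ℂ, C2) 1 Y']
variable {φ : Y ≃ₜ Y'} [LocFact Y] [LocFact Y']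

theorem pull_isPr (hφ : IsBihol φ) {P : EffDiv Y'} (hP : Mon.IsPr P) : Mon.IsPr (pull hφ P) := by
  refine ⟨fun h => hP.1 (pull_injective hφ (h.trans (pull_zero hφ).symm)), ?_⟩
  intro x hx
  have h1 : pull hφ.symm x ≤ P := by
    have := pull_mono hφ.symm hx
    rwa [pull_symm] at this
  rcases hP.2 _ h1 with h | h
  · left
    rw [← pull_symm hφ.symm x, h]
    exact pull_zero hφ
  · right
    rw [← pull_symm hφ.symm x, h]
    rfl

theorem pull_ord (hφ : IsBihol φ) [DivFin Y] [DivFin Y'] {P : EffDiv Y'} (hP : P ≠ 0)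
    (D : EffDiv Y') : Mon.ord (pull hφ P) (pull hφ D) = Mon.ord P D := by
  have hP' : pull hφ P ≠ 0 := fun h => hP (pull_injective hφ (h.trans (pull_zero hφ).symm))
  have hn : ∀ n : ℕ, pull hφ (n • P) = n • pull hφ P := fun n => map_nsmul (pullEquiv hφ) n P
  apply le_antisymm
  · rw [le_ord_iff hP, ← pull_le_iff hφ, hn]
    exact (le_ord_iff hP' _ _).1 le_rfl
  · rw [le_ord_iff hP', ← hn, pull_le_iff]
    exact (le_ord_iff hP _ _).1 le_rfl

end pullPr

end EffDiv

end

end Crest.Agent.R275.Dv69
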