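import Mathlib

/-!
# R275: bounded solution operators on scales (helper323, leaf BND)

A *scale* on a complex vector space `V`: increasing seminorms `n s`, separated by `n 0`, complete
for all of them together.

* `open_mapping` : a linear map `A` bounded in the scale sense, mapping onto a closed submodule
  `Z`, has for every level `s` solutions `v` of `A v = z` with `n s v ≤ C * n t z`.
* `solve_level` : for a complex with a parametrix `K` of order `-1` (remainder `R` of order `-1`)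
  and exactness, the equation `d u = z` is solvable with `n (s+1) u ≤ C * n s z` at every level.
-/

set_option autoImplicit false

namespace Crest.Agent.R275.Bnd323

/-- a scale of seminorms -/
structure Scl (V : Type*) [AddCommGroup V] [Module ℂ V] where
  n : ℕ → Seminorm ℂ V
  mono : ∀ s v, n s v ≤ n (s + 1) v
  sep : ∀ v, n 0 v = 0 → v = 0
  complete : ∀ u : ℕ → V, (∀ s, ∀ ε > 0, ∃ N, ∀ m ≥ N, ∀ k ≥ N, n s (u m - u k) < ε) →
    ∃ v, ∀ s, ∀ ε > 0, ∃ N, ∀ m ≥ N, n s (u m - v) < ε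

section basic

variable {V : Type*} [AddCommGroup V] [Module ℂ V] (S : Scl V)

theorem Scl.mono_le {s t : ℕ} (h : s ≤ t) (v : V) : S.n s v ≤ S.n t v := by
  induction t, h using Nat.le_induction with
  | base => exact le_rfl
  | succ t _ ih => exact ih.trans (S.mono t v)

theorem Scl.sep' {s : ℕ} {v : V} (h : S.n s v = 0) : v = 0 :=
  S.sep v (le_antisymm ((S.mono_le (Nat.zero_le s) v).trans h.le) (apply_nonneg _ _))

/-- convergence in all norms of the scale -/
def Scl.Lim (u : ℕ → V) (v : V) : Prop := ∀ s, ∀ ε > 0, ∃ N, ∀ m ≥ N, S.n s (u m - v) < ε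

/-- `Z` is sequentially closed for the convergence in all norms. -/
def Scl.Closed (Z : Submodule ℂ V) : Prop := ∀ (u : ℕ → V) (v : V), (∀ m, u m ∈ Z) → S.Lim u v → v ∈ Z

theorem sn_sum_le (p : Seminorm ℂ V) (f : ℕ → V) (I : Finset ℕ) :
    p (∑ i ∈ I, f i) ≤ ∑ i ∈ I, p (f i) := by
  classical
  induction I using Finset.induction_on with
  | empty => simp
  | insert a I ha ih =>
    rw [Finset.sum_insert ha, Finset.sum_insert ha]
    exact (map_add_le_add p _ _).trans (by gcongr)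

/-- a sequence whose steps are summable in every norm converges, with a bound for the limit -/
theorem Scl.exists_sum (v : ℕ → V) (s : ℕ) (ρ : ℝ) (hρ : 0 ≤ ρ)
    (hv : ∀ j, S.n (s + j) (v j) ≤ (1 / 2) ^ j * ρ) :
    ∃ w, S.Lim (fun m => ∑ i ∈ Finset.range m, v i) w ∧ S.n s w ≤ 2 * ρ := by
  have hgeo : ∀ a b : ℕ, a ≤ b → ∑ i ∈ Finset.Ico a b, (1 / 2 : ℝ) ^ i * ρ ≤ 2 * (1 / 2) ^ a * ρ := by
    intro a b hab
    rw [← Finset.sum_mul]
    apply mul_le_mul_of_nonneg_right _ hρ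
    have := geom_sum_Ico_le_of_lt_one (x := (1 / 2 : ℝ)) (by norm_num) (by norm_num) (m := a) (n := b)
    calc ∑ i ∈ Finset.Ico a b, (1 / 2 : ℝ) ^ i ≤ (1 / 2) ^ a / (1 - 1 / 2) := this
      _ = 2 * (1 / 2) ^ a := by ring
  -- tail estimate
  have htail : ∀ r a b : ℕ, r ≤ s + a → a ≤ b →
      S.n r (∑ i ∈ Finset.range b, v i - ∑ i ∈ Finset.range a, v i) ≤ 2 * (1 / 2) ^ a * ρ := by
    intro r a b hr hab
    rw [← Finset.sum_Ico_eq_sub _ hab]
    calc S.n r (∑ i ∈ Finset.Ico a b, v i) ≤ ∑ i ∈ Finset.Ico a b, S.n r (v i) :=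
          sn_sum_le (S.n r) _ _
      _ ≤ ∑ i ∈ Finset.Ico a b, (1 / 2 : ℝ) ^ i * ρ := by
          apply Finset.sum_le_sum
          intro i hi
          have hi' := (Finset.mem_Ico.1 hi).1
          exact (S.mono_le (by omega) _).trans (hv i)
      _ ≤ _ := hgeo a b hab
  have hsmall : ∀ ε > 0, ∃ N : ℕ, ∀ a ≥ N, 2 * (1 / 2 : ℝ) ^ a * ρ < ε := by
    intro ε hε
    have h1 : Filter.Tendsto (fun a : ℕ => 2 * (1 / 2 : ℝ) ^ a * ρ) Filter.atTop (nhds 0) := by
      have := tendsto_pow_atTop_nhds_zero_of_lt_one (r := (1 / 2 : ℝ)) (by norm_num) (by norm_num)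
      simpa using (this.const_mul 2).mul_const ρ
    exact Filter.eventually_atTop.1 (h1.eventually (gt_mem_nhds hε))
  obtain ⟨w, hw⟩ := S.complete (fun m => ∑ i ∈ Finset.range m, v i) (by
    intro r ε hε
    obtain ⟨N, hN⟩ := hsmall ε hε
    refine ⟨max N r, fun m hm k hk => ?_⟩
    have key : ∀ m k : ℕ, max N r ≤ m → m ≤ k →
        S.n r (∑ i ∈ Finset.range k, v i - ∑ i ∈ Finset.range m, v i) < ε := by
      intro m k hm hmk
      exact (htail r m k (by have := le_trans (le_max_right N r) hm; omega) hmk).trans_lt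
        (hN m (le_trans (le_max_left _ _) hm))
    rcases le_total m k with h | h
    · rw [← map_neg_eq_map (S.n r), neg_sub]
      exact key m k hm h
    · exact key k m hk h)
  refine ⟨w, hw, ?_⟩
  apply le_of_forall_pos_le_add
  intro ε hε
  obtain ⟨N, hN⟩ := hw s ε hε
  have h1 := hN N le_rfl
  have h2 := htail s 0 N (by omega) (Nat.zero_le _)
  simp only [Finset.range_zero, Finset.sum_empty, sub_zero, pow_zero, mul_one] at h2
  have h3 : w = ∑ i ∈ Finset.range N, v i - (∑ i ∈ Finset.range N, v i - w) := by abel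
  calc S.n s w = S.n s (∑ i ∈ Finset.range N, v i - (∑ i ∈ Finset.range N, v i - w)) := by rw [← h3]
    _ ≤ S.n s (∑ i ∈ Finset.range N, v i) + S.n s (∑ i ∈ Finset.range N, v i - w) :=
        map_sub_le_add _ _ _
    _ ≤ 2 * ρ + ε := by linarith

end basic

section open_mapping

variable {V W : Type*} [AddCommGroup V] [Module ℂ V] [AddCommGroup W] [Module ℂ W]

/-- bounded in the scale sense (any loss of derivatives allowed) -/
def Bdd (S : Scl V) (T : Scl W) (A : V →ₗ[ℂ] W) : Prop := ∀ s, ∃ t C, ∀ v, T.n s (A v) ≤ C * S.n t v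

variable (S : Scl V) (T : Scl W) (A : V →ₗ[ℂ] W)

/-- Baire step (gliding hump): some ball of `Z` is in the closure of the image of a ball. -/
theorem baire_step (Z : Submodule ℂ W) (hZ : T.Closed Z) (hA : ∀ z ∈ Z, ∃ v, A v = z) (s : ℕ) :
    ∃ (k : ℕ) (t : ℕ) (δ : ℝ) (z₀ : W), 0 < δ ∧ z₀ ∈ Z ∧ ∀ z ∈ Z, T.n t (z - z₀) ≤ δ →
      ∀ t' : ℕ, ∀ ε > 0, ∃ v, S.n s v ≤ k ∧ T.n t' (z - A v) ≤ ε := by
  by_contra hcon
  push Not at hcon
  -- state: (t, r, z)
  have step : ∀ (k : ℕ) (p : {p : ℕ × ℝ × W // 0 < p.2.1 ∧ p.2.2 ∈ Z}),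
      ∃ q : {p : ℕ × ℝ × W // 0 < p.2.1 ∧ p.2.2 ∈ Z},
        p.1.1 < q.1.1 ∧ q.1.2.1 ≤ p.1.2.1 / 2 ∧ T.n p.1.1 (q.1.2.2 - p.1.2.2) ≤ p.1.2.1 / 2 ∧
        ∀ z, T.n q.1.1 (z - q.1.2.2) ≤ q.1.2.1 → ∀ v, S.n s v ≤ k → z ≠ A v := by
    rintro k ⟨⟨t, r, z⟩, hr, hz⟩
    obtain ⟨z', hz', h1, t', ε, hε, h2⟩ := hcon k t (r / 2) z (by positivity) hz
    refine ⟨⟨⟨max t' (t + 1), min (ε / 2) (r / 2), z'⟩, ⟨by positivity, hz'⟩⟩, ?_, ?_, h1, ?_⟩
    · exact lt_of_lt_of_le (Nat.lt_succ_self t) (le_max_right _ _)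
    · exact min_le_right _ _
    · intro y hy v hv hyv
      have h3 := h2 v hv
      have h4 : T.n t' (z' - A v) ≤ ε / 2 := by
        rw [← hyv, ← map_neg_eq_map (T.n t'), neg_sub]
        exact ((T.mono_le (le_max_left _ _) _).trans hy).trans (min_le_left _ _)
      linarith
  choose f hf using step
  let p : ℕ → {p : ℕ × ℝ × W // 0 < p.2.1 ∧ p.2.2 ∈ Z} := fun k =>
    Nat.rec ⟨⟨0, 1, 0⟩, ⟨one_pos, Z.zero_mem⟩⟩ (fun k q => f k q) k
  have hp : ∀ k, p (k + 1) = f k (p k) := fun k => rfl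
  have ht : ∀ k, k ≤ (p k).1.1 := by
    intro k
    induction k with
    | zero => exact Nat.zero_le _
    | succ k ih =>
      have := (hf k (p k)).1
      rw [← hp] at this
      omega
  have htm : Monotone (fun k => (p k).1.1) := monotone_nat_of_le_succ fun k => by
    have := (hf k (p k)).1
    rw [← hp] at this
    exact this.le
  have hr : ∀ k j, (p (k + j)).1.2.1 ≤ (p k).1.2.1 * (1 / 2) ^ j := by
    intro k j
    induction j with
    | zero => simp
    | succ j ih =>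
      have h := (hf (k + j) (p (k + j))).2.1
      rw [← hp] at h
      calc (p (k + (j + 1))).1.2.1 ≤ (p (k + j)).1.2.1 / 2 := h
        _ ≤ (p k).1.2.1 * (1 / 2) ^ j / 2 := by gcongr
        _ = _ := by ring
  -- distances
  have hd : ∀ k j, T.n (p k).1.1 ((p (k + j)).1.2.2 - (p k).1.2.2) ≤
      (p k).1.2.1 * (1 - (1 / 2) ^ j) := by
    intro k j
    induction j with
    | zero => simp
    | succ j ih =>
      have h := (hf (k + j) (p (k + j))).2.2.1
      rw [← hp] at h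
      have h1 : T.n (p k).1.1 ((p (k + (j + 1))).1.2.2 - (p (k + j)).1.2.2) ≤
          (p k).1.2.1 * (1 / 2) ^ j / 2 := by
        refine ((T.mono_le (htm (Nat.le_add_right k j)) _).trans h).trans ?_
        have := hr k j
        linarith
      calc T.n (p k).1.1 ((p (k + (j + 1))).1.2.2 - (p k).1.2.2)
          = T.n (p k).1.1 (((p (k + (j + 1))).1.2.2 - (p (k + j)).1.2.2) +
              ((p (k + j)).1.2.2 - (p k).1.2.2)) := by rw [sub_add_sub_cancel]
        _ ≤ _ := map_add_le_add _ _ _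
        _ ≤ (p k).1.2.1 * (1 / 2) ^ j / 2 + (p k).1.2.1 * (1 - (1 / 2) ^ j) := by linarith
        _ = (p k).1.2.1 * (1 - (1 / 2) ^ (j + 1)) := by ring
  have hd' : ∀ k j, T.n (p k).1.1 ((p (k + j)).1.2.2 - (p k).1.2.2) ≤ (p k).1.2.1 := by
    intro k j
    refine (hd k j).trans ?_
    have h0 : (0 : ℝ) < (p k).1.2.1 := (p k).2.1
    have h1 : (0 : ℝ) < (1 / 2) ^ j := by positivity
    nlinarith
  have hr0 : ∀ ε > 0, ∃ K, ∀ k ≥ K, (p k).1.2.1 < ε := by
    intro ε hε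
    have h1 : Filter.Tendsto (fun a : ℕ => (p 0).1.2.1 * (1 / 2 : ℝ) ^ a) Filter.atTop (nhds 0) := by
      have := tendsto_pow_atTop_nhds_zero_of_lt_one (r := (1 / 2 : ℝ)) (by norm_num) (by norm_num)
      simpa using this.const_mul (p 0).1.2.1
    obtain ⟨K, hK⟩ := Filter.eventually_atTop.1 (h1.eventually (gt_mem_nhds hε))
    refine ⟨K, fun k hk => ?_⟩
    have := hr 0 k
    rw [zero_add] at this
    exact this.trans_lt (hK k hk)
  obtain ⟨z, hz⟩ := T.complete (fun k => (p k).1.2.2) (by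
    intro r ε hε
    obtain ⟨K, hK⟩ := hr0 (ε / 2) (by positivity)
    refine ⟨max K r, fun m hm k hk => ?_⟩
    have hKm := hK (max K r) (le_max_left _ _)
    have hrt : r ≤ (p (max K r)).1.1 := (le_max_right K r).trans (ht _)
    have h1 : ∀ m ≥ max K r, T.n r ((p m).1.2.2 - (p (max K r)).1.2.2) < ε / 2 := by
      intro m hm
      obtain ⟨j, rfl⟩ := Nat.exists_eq_add_of_le hm
      exact ((T.mono_le hrt _).trans (hd' _ j)).trans_lt hKm
    have h2 : (p m).1.2.2 - (p k).1.2.2 = ((p m).1.2.2 - (p (max K r)).1.2.2) -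
        ((p k).1.2.2 - (p (max K r)).1.2.2) := by abel
    rw [h2]
    refine (map_sub_le_add _ _ _).trans_lt ?_
    linarith [h1 m hm, h1 k hk])
  have hzZ : z ∈ Z := hZ _ z (fun m => (p m).2.2) hz
  obtain ⟨v, hv⟩ := hA z hzZ
  obtain ⟨k, hk⟩ := exists_nat_ge (S.n s v)
  refine (hf k (p k)).2.2.2 z ?_ v hk hv.symm
  rw [← hp]
  apply le_of_forall_pos_le_add
  intro ε hε
  obtain ⟨N, hN⟩ := hz (p (k + 1)).1.1 ε hε
  have h1 := hN (k + 1 + N) (by omega)
  have h2 := hd' (k + 1) N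
  have h3 : z - (p (k + 1)).1.2.2 = ((p (k + 1 + N)).1.2.2 - (p (k + 1)).1.2.2) -
      ((p (k + 1 + N)).1.2.2 - z) := by abel
  rw [h3]
  refine (map_sub_le_add _ _ _).trans ?_
  linarith

/-- almost openness at level `s`, centred and rescaled -/
theorem almost_open (Z : Submodule ℂ W) (hZ : T.Closed Z) (hA : ∀ z ∈ Z, ∃ v, A v = z) (s : ℕ) :
    ∃ (t : ℕ) (C : ℝ), 0 < C ∧ ∀ z ∈ Z, ∀ η > 0, ∀ t' : ℕ, ∀ ε > 0, ∃ v,
      S.n s v ≤ C * (T.n t z + η) ∧ T.n t' (z - A v) ≤ ε := by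
  obtain ⟨k, t, δ, z₀, hδ, hz₀, h⟩ := baire_step S T A Z hZ hA s
  refine ⟨t, (2 * k + 1) / δ, by positivity, fun z hz η hη t' ε hε => ?_⟩
  set c : ℝ := δ / (T.n t z + η) with hc
  have hpos : 0 < T.n t z + η := by have := apply_nonneg (T.n t) z; linarith
  have hcpos : 0 < c := by positivity
  have hcz : T.n t ((z₀ + (c : ℂ) • z) - z₀) ≤ δ := by
    rw [add_sub_cancel_left, map_smul_eq_mul, Complex.norm_real, Real.norm_of_nonneg hcpos.le, hc,
      div_mul_eq_mul_div, div_le_iff₀ hpos]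
    nlinarith
  obtain ⟨v₁, h1, h1'⟩ := h (z₀ + (c : ℂ) • z) (Z.add_mem hz₀ (Z.smul_mem _ hz)) hcz t' (c * ε / 2)
    (by positivity)
  obtain ⟨v₀, h0, h0'⟩ := h z₀ hz₀ (by simpa using hδ.le) t' (c * ε / 2) (by positivity)
  refine ⟨((c : ℂ)⁻¹) • (v₁ - v₀), ?_, ?_⟩
  · rw [map_smul_eq_mul, norm_inv, Complex.norm_real, Real.norm_of_nonneg hcpos.le]
    have h2 : S.n s (v₁ - v₀) ≤ 2 * k + 1 := (map_sub_le_add _ _ _).trans (by linarith)
    have h3 : c⁻¹ = (T.n t z + η) / δ := by rw [hc, inv_div]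
    calc c⁻¹ * S.n s (v₁ - v₀) ≤ c⁻¹ * (2 * k + 1) := by gcongr
      _ = (2 * k + 1) / δ * (T.n t z + η) := by rw [h3]; ring
  · have hc0 : (c : ℂ) ≠ 0 := by exact_mod_cast hcpos.ne'
    have h2 : z - A (((c : ℂ)⁻¹) • (v₁ - v₀)) =
        ((c : ℂ)⁻¹) • (((z₀ + (c : ℂ) • z) - A v₁) - (z₀ - A v₀)) := by
      rw [map_smul, map_sub]
      have : z = ((c : ℂ)⁻¹) • ((c : ℂ) • z) := by rw [smul_smul, inv_mul_cancel₀ hc0, one_smul]
      conv_lhs => rw [this]
      rw [← smul_sub]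
      congr 1
      abel
    rw [h2, map_smul_eq_mul, norm_inv, Complex.norm_real, Real.norm_of_nonneg hcpos.le]
    have h3 : T.n t' (((z₀ + (c : ℂ) • z) - A v₁) - (z₀ - A v₀)) ≤ c * ε :=
      (map_sub_le_add _ _ _).trans (by linarith)
    calc c⁻¹ * T.n t' (((z₀ + (c : ℂ) • z) - A v₁) - (z₀ - A v₀)) ≤ c⁻¹ * (c * ε) := by gcongr
      _ = ε := by field_simp

/-- **Open mapping theorem on scales.** -/
theorem open_mapping (hb : Bdd S T A) (Z : Submodule ℂ W) (hZ : T.Closed Z) (hAZ : ∀ v, A v ∈ Z)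
    (hA : ∀ z ∈ Z, ∃ v, A v = z) (s : ℕ) :
    ∃ (t : ℕ) (C : ℝ), 0 < C ∧ ∀ z ∈ Z, ∃ v, A v = z ∧ S.n s v ≤ C * T.n t z := by
  choose τ' C hC hτ' using almost_open S T A Z hZ hA
  -- make `τ s ≥ s`
  set τ : ℕ → ℕ := fun s => max (τ' s) s with hτdef
  have hτ : ∀ s, ∀ z ∈ Z, ∀ η > 0, ∀ t' : ℕ, ∀ ε > 0, ∃ v,
      S.n s v ≤ C s * (T.n (τ s) z + η) ∧ T.n t' (z - A v) ≤ ε := by
    intro s z hz η hη t' ε hε
    obtain ⟨v, h1, h2⟩ := hτ' s z hz η hη t' ε hε
    refine ⟨v, h1.trans ?_, h2⟩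
    have := T.mono_le (le_max_left (τ' s) s) z
    have := hC s
    gcongr
  refine ⟨τ s, 2 * (2 * C s + 1), by have := hC s; positivity, fun z hz => ?_⟩
  rcases (apply_nonneg (T.n (τ s)) z).eq_or_lt with h0 | hpos
  · refine ⟨0, ?_, by rw [← h0]; simp⟩
    rw [map_zero]; exact (T.sep' h0.symm).symm
  set ρ : ℝ := T.n (τ s) z with hρ
  set M : ℝ := (2 * C s + 1) * ρ with hM
  have hMpos : 0 < M := by have := hC s; positivity
  -- tolerance at step `j`
  set e : ℕ → ℝ := fun j => min ((1 / 2) ^ j) ((1 / 2) ^ j * M / (2 * C (s + j))) with he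
  have hepos : ∀ j, 0 < e j := fun j => by have := hC (s + j); simp only [he]; positivity
  have step : ∀ (j : ℕ) (y : Z), ∃ v, S.n (s + j) v ≤ C (s + j) * (T.n (τ (s + j)) (y : W) + (if j = 0 then ρ else e j)) ∧
      T.n (τ (s + (j + 1))) ((y : W) - A v) ≤ e (j + 1) := by
    intro j y
    apply hτ _ _ y.2 _ _ _ _ (hepos _)
    split_ifs
    · exact hpos
    · exact hepos j
  choose f hf1 hf2 using step
  obtain ⟨y, hy0, hy⟩ : ∃ y : ℕ → Z, (y 0 : W) = z ∧ ∀ j, (y (j + 1) : W) = (y j : W) - A (f j (y j)) :=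
    ⟨fun j => Nat.rec ⟨z, hz⟩ (fun j y => ⟨(y : W) - A (f j y), Z.sub_mem y.2 (hAZ _)⟩) j, rfl,
      fun j => rfl⟩
  have hynorm : ∀ j, T.n (τ (s + (j + 1))) (y (j + 1) : W) ≤ e (j + 1) := fun j => by
    rw [hy]; exact hf2 j (y j)
  have hv : ∀ j, S.n (s + j) (f j (y j)) ≤ (1 / 2) ^ j * M := by
    intro j
    refine (hf1 j (y j)).trans ?_
    rcases Nat.eq_zero_or_pos j with rfl | hj
    · simp only [add_zero, if_true, pow_zero, one_mul, hy0]
      rw [← hρ, hM]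
      nlinarith [hC s]
    · obtain ⟨i, rfl⟩ : ∃ i, j = i + 1 := ⟨j - 1, by omega⟩
      have h1 := hynorm i
      rw [if_neg (by omega)]
      have h2 : e (i + 1) ≤ (1 / 2) ^ (i + 1) * M / (2 * C (s + (i + 1))) := min_le_right _ _
      have h3 := hC (s + (i + 1))
      calc C (s + (i + 1)) * (T.n (τ (s + (i + 1))) (y (i + 1) : W) + e (i + 1))
          ≤ C (s + (i + 1)) * ((1 / 2) ^ (i + 1) * M / (2 * C (s + (i + 1))) +
            (1 / 2) ^ (i + 1) * M / (2 * C (s + (i + 1)))) := by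
            gcongr
            exact h1.trans h2
        _ = (1 / 2) ^ (i + 1) * M := by field_simp; ring
  obtain ⟨w, hw, hws⟩ := S.exists_sum (fun j => f j (y j)) s M hMpos.le hv
  refine ⟨w, ?_, by rw [hM] at hws; linarith⟩
  -- identify
  have hsum : ∀ m, A (∑ i ∈ Finset.range m, f i (y i)) = z - (y m : W) := by
    intro m
    induction m with
    | zero => simp [hy0]
    | succ m ih => rw [Finset.sum_range_succ, map_add, ih, hy]; abel
  have hzero : T.n 0 (A w - z) = 0 := by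
    apply le_antisymm _ (apply_nonneg _ _)
    apply le_of_forall_pos_le_add
    intro ε hε
    rw [zero_add]
    obtain ⟨t, C₀, hC₀⟩ := hb 0
    have hC₀' : 0 ≤ |C₀| := abs_nonneg _
    obtain ⟨N₁, hN₁⟩ := hw t (ε / (2 * (|C₀| + 1))) (by positivity)
    obtain ⟨N₂, hN₂⟩ : ∃ N : ℕ, ∀ a ≥ N, (1 / 2 : ℝ) ^ a < ε / 2 := by
      have := tendsto_pow_atTop_nhds_zero_of_lt_one (r := (1 / 2 : ℝ)) (by norm_num) (by norm_num)
      exact Filter.eventually_atTop.1 (this.eventually (gt_mem_nhds (by positivity)))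
    set m := max N₁ N₂ + 1 with hm
    have h1 := hN₁ m (by have := le_max_left N₁ N₂; omega)
    have h2 : T.n 0 (y m : W) < ε / 2 := by
      have h3 := hynorm (max N₁ N₂)
      rw [← hm] at h3
      exact (((T.mono_le (Nat.zero_le _) _).trans h3).trans (min_le_left _ _)).trans_lt
        (hN₂ m (by have := le_max_right N₁ N₂; omega))
    have h4 : A w - z = -(A ((∑ i ∈ Finset.range m, f i (y i)) - w)) - (y m : W) := by
      rw [map_sub, hsum]; abel
    rw [h4]
    refine (map_sub_le_add _ _ _).trans ?_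
    rw [map_neg_eq_map]
    have h5 : T.n 0 (A ((∑ i ∈ Finset.range m, f i (y i)) - w)) ≤ ε / 2 := by
      refine (hC₀ _).trans ?_
      calc C₀ * S.n t ((∑ i ∈ Finset.range m, f i (y i)) - w)
          ≤ |C₀| * (ε / (2 * (|C₀| + 1))) := by
            apply mul_le_mul (le_abs_self _) h1.le (apply_nonneg _ _) (abs_nonneg _)
        _ ≤ ε / 2 := by
            rw [mul_div_assoc', div_le_div_iff₀ (by positivity) (by positivity)]
            nlinarith
    linarith
  have := T.sep _ hzero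
  rwa [sub_eq_zero] at this

end open_mapping

section solve

variable {U V W : Type*} [AddCommGroup U] [Module ℂ U] [AddCommGroup V] [Module ℂ V]
  [AddCommGroup W] [Module ℂ W]


/-- `A` has order `≤ -1` -/
def OrdM (S : Scl V) (T : Scl W) (A : V →ₗ[ℂ] W) : Prop :=
  ∀ s, ∃ C, ∀ v, T.n (s + 1) (A v) ≤ C * S.n s v





/-- powers of an operator of order `-1` -/
theorem OrdM.pow {S : Scl V} {R : V →ₗ[ℂ] V} (h : OrdM S S R) (m : ℕ) :
    ∀ s, ∃ C, 0 ≤ C ∧ ∀ v, S.n (s + m) ((R ^ m) v) ≤ C * S.n s v := by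
  induction m with
  | zero => intro s; exact ⟨1, zero_le_one, fun v => by simp⟩
  | succ m ih =>
    intro s
    obtain ⟨C, hC0, hC⟩ := ih s
    obtain ⟨D, hD⟩ := h (s + m)
    refine ⟨|D| * C, by positivity, fun v => ?_⟩
    rw [pow_succ', Module.End.mul_apply, ← add_assoc]
    calc S.n (s + m + 1) (R ((R ^ m) v)) ≤ D * S.n (s + m) ((R ^ m) v) := hD _
      _ ≤ |D| * (C * S.n s v) := by
          apply mul_le_mul (le_abs_self _) (hC v) (apply_nonneg _ _) (abs_nonneg _)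
      _ = _ := by ring





end solve

section finite

variable {U V : Type*} [AddCommGroup U] [Module ℂ U] [AddCommGroup V] [Module ℂ V]



end finite

end Crest.Agent.R275.Bnd323
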