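import Crest.Agent.R275.TorE_812
import Crest.Agent.R275.TorS_666

/-!
# R275, torus block (helper812), part F: explicit constants

* `cn s p` : `C^s` norm of a periodic function (recursively defined), seminorm properties.
* `nrm_mul_explicit` : `nrm s (p * f) ≤ mc s * cn s p * nrm s f`, `mc s` depends on `s` and `d` only.
* `nrm_Tc_mul_le` : `nrm s (Tc (p·a) f) ≤ mc s * cn s p * C * nrm s f`, `C` the constant of `Tc a`.
* uniform bounds for families of operators with finitely many values.
-/

set_option autoImplicit false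
set_option linter.unusedSectionVars false
set_option linter.unusedSimpArgs false

open MeasureTheory Filter Topology Set Complex
open scoped ContDiff Real ENNReal Matrix

namespace Crest.Agent.R275.TorF812

open Tor812 TorE812 TorS666

noncomputable section

variable {d κ κ' : Type} [Fintype d] [Fintype κ] [Fintype κ']

/-! ### `C^s` norms -/

/-- `C^s` norm -/
def cn : ℕ → SPer d → ℝ
  | 0, p => ‖desc p‖
  | s + 1, p => cn s p + ∑ j, cn s (pd j p)

theorem cn_zero (p : SPer d) : cn 0 p = ‖desc p‖ := rfl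

theorem cn_succ (s : ℕ) (p : SPer d) : cn (s + 1) p = cn s p + ∑ j, cn s (pd j p) := rfl

theorem cn_nonneg (s : ℕ) (p : SPer d) : 0 ≤ cn s p := by
  induction s generalizing p with
  | zero => exact norm_nonneg _
  | succ s ih => exact add_nonneg (ih _) (Finset.sum_nonneg fun _ _ => ih _)

theorem desc_le {p : SPer d} {C : ℝ} (hC : 0 ≤ C) (h : ∀ x, ‖p x‖ ≤ C) : ‖desc p‖ ≤ C := by
  refine (ContinuousMap.norm_le _ hC).2 fun y => ?_
  obtain ⟨x, rfl⟩ := isOpenQuotientMap_pr.surjective y
  rw [desc_pr]; exact h x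

theorem cn_zero_le {p : SPer d} {C : ℝ} (hC : 0 ≤ C) (h : ∀ x, ‖p x‖ ≤ C) : cn 0 p ≤ C :=
  desc_le hC h

theorem le_cn_zero (p : SPer d) (x : d → ℝ) : ‖p x‖ ≤ cn 0 p := bdd p x





theorem cn_smul (s : ℕ) (c : ℂ) (p : SPer d) : cn s (c • p) = ‖c‖ * cn s p := by
  induction s generalizing p with
  | zero =>
    have : desc (c • p) = c • desc p := by
      ext y
      obtain ⟨x, rfl⟩ := isOpenQuotientMap_pr.surjective y
      rw [desc_pr, ContinuousMap.smul_apply, desc_pr]; rfl
    rw [cn_zero, cn_zero, this, norm_smul]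
  | succ s ih =>
    rw [cn_succ, cn_succ, mul_add, Finset.mul_sum, ih]
    congr 1
    exact Finset.sum_congr rfl fun j _ => by rw [map_smul, ih]


@[simp] theorem cn_zero_fun (s : ℕ) : cn s (0 : SPer d) = 0 := by
  have := cn_smul s 0 (0 : SPer d)
  rw [smul_zero] at this
  simpa using this




/-! ### multiplication with explicit constants -/

/-- the constant of `nrm_mul_explicit` -/
def mc (d : Type) [Fintype d] (s : ℕ) : ℝ := (1 + 2 * π * Fintype.card d) ^ s

theorem mc_pos (s : ℕ) : 0 < mc d s := by unfold mc; positivity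

theorem nrm_mul_explicit (s : ℕ) (p f : SPer d) :
    nrm s (p * f) ≤ mc d s * cn s p * nrm s f := by
  induction s generalizing p f with
  | zero => simpa [mc, cn_zero] using nrm_zero_mul_le p f
  | succ s ih =>
    refine (nrm_succ_le s (p * f)).trans ?_
    have hm := (mc_pos (d := d) s).le
    have hf := nrm_nonneg (s + 1) f
    have hf0 := nrm_mono (Nat.le_succ s) f
    have h1 : ∀ j, nrm s (pd j (p * f)) ≤ mc d s * cn s (pd j p) * nrm (s + 1) f +
        mc d s * cn s p * (2 * π * nrm (s + 1) f) := by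
      intro j
      rw [pd_mul]
      refine (nrm_add_le _ _ _).trans (add_le_add ((ih _ _).trans ?_) ((ih _ _).trans ?_))
      · exact mul_le_mul_of_nonneg_left hf0 (mul_nonneg hm (cn_nonneg _ _))
      · exact mul_le_mul_of_nonneg_left (nrm_pd_le s j f) (mul_nonneg hm (cn_nonneg _ _))
    have h2 : nrm s (p * f) ≤ mc d s * cn s p * nrm (s + 1) f :=
      (ih p f).trans (mul_le_mul_of_nonneg_left hf0 (mul_nonneg hm (cn_nonneg _ _)))
    have h3 := Finset.sum_le_sum fun j (_ : j ∈ (Finset.univ : Finset d)) => h1 j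
    rw [Finset.sum_add_distrib, Finset.sum_const, Finset.card_univ, ← Finset.sum_mul,
      ← Finset.mul_sum, nsmul_eq_mul] at h3
    have e1 : mc d (s + 1) = mc d s * (1 + 2 * π * Fintype.card d) := pow_succ _ _
    have e2 : cn (s + 1) p = cn s p + ∑ j, cn s (pd j p) := rfl
    rw [e1, e2]
    set P := ∑ j, cn s (pd j p) with hP
    have hP0 : 0 ≤ P := Finset.sum_nonneg fun j _ => cn_nonneg _ _
    have hp := cn_nonneg s p
    have hπ : (0 : ℝ) ≤ 2 * π * Fintype.card d := by positivity
    calc nrm s (p * f) + ∑ j, nrm s (pd j (p * f))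
        ≤ mc d s * cn s p * nrm (s + 1) f + (mc d s * P * nrm (s + 1) f +
          Fintype.card d * (mc d s * cn s p * (2 * π * nrm (s + 1) f))) := add_le_add h2 h3
      _ = mc d s * nrm (s + 1) f * (cn s p + P + 2 * π * Fintype.card d * cn s p) := by ring
      _ ≤ mc d s * nrm (s + 1) f * ((1 + 2 * π * Fintype.card d) * (cn s p + P)) := by
          refine mul_le_mul_of_nonneg_left ?_ (mul_nonneg hm hf)
          nlinarith [mul_nonneg hπ hP0]
      _ = mc d s * (1 + 2 * π * Fintype.card d) * (cn s p + P) * nrm (s + 1) f := by ring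





/-- amplitude `p · a` -/
theorem nrm_Tc_mul_le (c : Chg d) {a : (d → ℝ) → ℂ} (ha : IsCC c.U a) (s : ℕ) :
    ∃ C, 0 ≤ C ∧ ∀ p f : SPer d, nrm s (c.Tc (ha.mul_SPer p) f) ≤ C * cn s p * nrm s f := by
  obtain ⟨C, hC, h⟩ := c.nrm_Tc s ha
  refine ⟨mc d s * C, mul_nonneg (mc_pos s).le hC, fun p f => ?_⟩
  rw [← c.Tc_mul_left ha p f]
  refine (nrm_mul_explicit s _ _).trans ?_
  refine (mul_le_mul_of_nonneg_left (h f)
    (mul_nonneg (mc_pos s).le (cn_nonneg _ _))).trans (le_of_eq (by ring))

/-! ### families with finitely many values -/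


end

end Crest.Agent.R275.TorF812
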