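import Crest.Agent.R275.LnkP3_476
import Crest.Agent.R275.Dg5_199
import Crest.Agent.R275.NA3aProj_759
import Crest.Agent.R275.NA3m_425
import Crest.Agent.R275.DolG_763
import Crest.Agent.R275.NA13_425
import Crest.Agent.R275.FHom2_556
import Crest.Agent.R275.MI_683

-- ▼ part R275/LnkP4_476
section

/-!
R275, block LINK, leaf D4 (helper476), part 4: the Koszul type resolution of the ideal of a point.

* `lspan_iff`: the local condition of `Ip` in the language of 199's `LSpan`;
* `J_eq`: 199's ideal of the point is `Ip`;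
* `exists_pt`: three generators `h` of `Ip` (the two coordinates near `p` and a function which
  vanishes near `p`), with no common zero but `p`, and a resolution `Res h q io`.
-/

set_option autoImplicit false
set_option linter.unusedSectionVars false

open Set Filter Topology Complex
open scoped ContDiff ComplexConjugate Matrix
open Crest.Agent.R275.Geo Crest.Agent.R275.SmR425 Crest.Agent.R275.Smf798
open Crest.Agent.R275.LnkP2476 Crest.Agent.R275.Dg199

namespace Crest.Agent.R275.LnkP4476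

noncomputable section

variable {n : ℕ} {M : Type} [TopologicalSpace M]

/-- the two local conditions agree -/
theorem lspan_iff {A : Atl n M} {i : A.ι} {p : M} (hp : p ∈ (A.e i).source) (f : M → ℂ) :
    LSpan A (fun (a : Fin n) x => A.e i x a - A.e i p a) f p ↔ InI A i p f := by
  constructor
  · rintro ⟨c, h1, h2⟩
    have h3 : ∀ᶠ x in 𝓝 p, (∀ a, SmN A (c a) x) ∧
        f x = ∑ a, (A.e i x a - A.e i p a) * c a x := by
      filter_upwards [eventually_all.2 h1, h2] with x a b using ⟨a, b⟩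
    have h4 := (tendsto_symm (A := A) hp).eventually h3
    obtain ⟨r, hr, hb⟩ := Metric.eventually_nhds_iff_ball.1 (h4.and
      ((A.e i).open_target.mem_nhds ((A.e i).map_source hp)))
    refine ⟨r, hr, fun a z => c a ((A.e i).symm z), fun a z hz => ?_, fun z hz => ?_⟩
    · obtain ⟨⟨h5, -⟩, h6⟩ := hb z hz
      have h7 := (smN_iff (A := A) (i := i) ((A.e i).map_target h6)).1 (h5 a)
      rw [(A.e i).right_inv h6] at h7
      exact h7.contDiffWithinAt
    · obtain ⟨⟨-, h5⟩, h6⟩ := hb z hz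
      show f ((A.e i).symm z) = _
      rw [h5, (A.e i).right_inv h6]
  · rintro ⟨r, hr, g, hg, hF⟩
    have h1 : ∀ᶠ x in 𝓝 p, x ∈ (A.e i).source ∧ A.e i x ∈ Metric.ball (A.e i p) r := by
      filter_upwards [(A.e i).open_source.mem_nhds hp,
        ((A.e i).continuousAt hp).eventually (Metric.ball_mem_nhds _ hr)] with x a b using ⟨a, b⟩
    refine ⟨fun a x => g a (A.e i x), fun a => ?_, ?_⟩
    · filter_upwards [h1] with x hx
      refine (smN_iff (A := A) hx.1).2 ?_
      have h2 : ContDiffAt ℝ ∞ (g a) (A.e i x) :=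
        (hg a).contDiffAt (Metric.isOpen_ball.mem_nhds hx.2)
      refine h2.congr_of_eventuallyEq ?_
      filter_upwards [(A.e i).open_target.mem_nhds ((A.e i).map_source hx.1)] with z hz
      rw [(A.e i).right_inv hz]
    · filter_upwards [h1] with x hx
      have h3 : f ((A.e i).symm (A.e i x)) = _ := hF _ hx.2
      rwa [(A.e i).left_inv hx.1] at h3

variable {A : Atl 2 M} {p : M} {i : A.ι}

/-- 199's ideal of the point -/
theorem J_eq [T2Space M] (hp : p ∈ (A.e i).source) : (ptA A p).reg.J = Ip A i p hp := by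
  have key : ∀ f : smf A, LSpan A ((ptA A p).reg.u ⟨i, hp⟩) f.1 p ↔ InI A i p f.1 := by
    intro f
    rw [← lspan_iff hp]
    have e : (ptA A p).reg.u ⟨i, hp⟩ = fun (a : Fin 2) x => A.e i x a - A.e i p a := by
      funext a x
      exact ptA_uu A p ⟨i, hp⟩ a x
    rw [e]
  ext f
  rw [RegData.mem_J, mem_Ip]
  constructor
  · intro h
    exact (key f).1 (h ⟨i, hp⟩ p rfl hp)
  · intro h
    refine RegData.mem_J_of_exists _ fun q hq => ?_
    obtain rfl : q = p := hq
    exact ⟨⟨i, hp⟩, hp, (key f).2 h⟩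

variable [T2Space M] [CompactSpace M]

/-- the local generators of the ideal of a point -/
theorem exists_gens (hp : p ∈ (A.e i).source) : ∃ h : Fin 3 → smf A,
    (∀ᶠ x in 𝓝 p, (h 0).1 x = A.e i x 0 - A.e i p 0) ∧
    (∀ᶠ x in 𝓝 p, (h 1).1 x = A.e i x 1 - A.e i p 1) ∧
    (∀ᶠ x in 𝓝 p, (h 2).1 x = 0) ∧
    (∀ x ≠ p, ∃ a, (h a).1 x ≠ 0) ∧ Ideal.span (range h) = Ip A i p hp := by
  obtain ⟨χ, hχ, hχ1, -, hχs⟩ := exists_chi (A := A) hp (N := univ) univ_mem
  obtain ⟨χ', hχ', hχ1', hχn', -⟩ := exists_chi (A := A) hp (N := {x | χ x = 1}) hχ1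
  have hts : tsupport (fun x => (χ x : ℂ)) ⊆ tsupport χ := by
    refine closure_mono fun y hy h0 => hy ?_
    show (χ y : ℂ) = 0
    rw [h0]; rfl
  have hco : ∀ b : Fin 2, ∀ q ∈ (A.e i).source, SmN A (fun x => A.e i x b - A.e i p b) q := by
    intro b q hq
    have h1 := (ptA A p).uu_sm ⟨i, hp⟩ b (q := q) hq
    exact h1.congr (Eventually.of_forall fun x => (ptA_uu A p ⟨i, hp⟩ b x).symm)
  have hsm : ∀ b : Fin 2, ∀ q, SmN A (fun x => (χ x : ℂ) * (A.e i x b - A.e i p b)) q := by
    intro b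
    exact smN_mul_tsupport (fun x => (sm_iff.1 hχ x).ofReal) fun q hq => hco b q (hχs (hts hq))
  have hsm' : ∀ q, SmN A (fun x => (1 : ℂ) - (χ' x : ℂ)) q := fun q =>
    (smN_const _ q).sub (sm_iff.1 hχ' q).ofReal
  let h : Fin 3 → smf A := ![mk' _ (hsm 0), mk' _ (hsm 1), mk' _ hsm']
  have e0 : ∀ x, (h 0).1 x = (χ x : ℂ) * (A.e i x 0 - A.e i p 0) := fun x => rfl
  have e1 : ∀ x, (h 1).1 x = (χ x : ℂ) * (A.e i x 1 - A.e i p 1) := fun x => rfl
  have e2 : ∀ x, (h 2).1 x = (1 : ℂ) - (χ' x : ℂ) := fun x => rfl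
  have n0 : ∀ᶠ x in 𝓝 p, (h 0).1 x = A.e i x 0 - A.e i p 0 := by
    filter_upwards [hχ1] with x hx
    rw [e0, hx, Complex.ofReal_one, one_mul]
  have n1 : ∀ᶠ x in 𝓝 p, (h 1).1 x = A.e i x 1 - A.e i p 1 := by
    filter_upwards [hχ1] with x hx
    rw [e1, hx, Complex.ofReal_one, one_mul]
  have n2 : ∀ᶠ x in 𝓝 p, (h 2).1 x = 0 := by
    filter_upwards [hχ1'] with x hx
    rw [e2, hx, Complex.ofReal_one, sub_self]
  have nz : ∀ x ≠ p, ∃ a, (h a).1 x ≠ 0 := by
    intro x hx
    by_contra hne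
    push Not at hne
    have h2 := hne 2
    rw [e2, sub_eq_zero] at h2
    have h2' : χ' x = 1 := by exact_mod_cast h2.symm
    have h3 : x ∈ tsupport χ' := subset_tsupport _ (by
      rw [Function.mem_support, h2']; exact one_ne_zero)
    have h4 : χ x = 1 := hχn' h3
    have h5 : x ∈ (A.e i).source := hχs (subset_tsupport _ (by
      rw [Function.mem_support, h4]; exact one_ne_zero))
    refine hx ((A.e i).injOn h5 hp ?_)
    ext b
    fin_cases b
    · have := hne 0
      rw [e0, h4, Complex.ofReal_one, one_mul, sub_eq_zero] at this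
      exact this
    · have := hne 1
      rw [e1, h4, Complex.ofReal_one, one_mul, sub_eq_zero] at this
      exact this
  refine ⟨h, n0, n1, n2, nz, ?_⟩
  have hloc : ∀ a : Fin 2, LSpan A (fun b => (h b).1) (fun x => A.e i x a - A.e i p a) p := by
    intro a
    fin_cases a
    · refine (LSpan.self (A := A) (v := fun b => (h b).1) 0).congr ?_
      filter_upwards [n0] with x hx using hx.symm
    · refine (LSpan.self (A := A) (v := fun b => (h b).1) 1).congr ?_
      filter_upwards [n1] with x hx using hx.symm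
  refine le_antisymm (Ideal.span_le.2 ?_) fun f hf => ?_
  · rintro _ ⟨a, rfl⟩
    show InI A i p (h a).1
    rw [← lspan_iff hp]
    fin_cases a
    · refine (LSpan.self (A := A) (v := fun (a : Fin 2) x => A.e i x a - A.e i p a) 0).congr ?_
      exact n0
    · refine (LSpan.self (A := A) (v := fun (a : Fin 2) x => A.e i x a - A.e i p a) 1).congr ?_
      exact n1
    · exact LSpan.of_ev_zero n2
  · have hf' : LSpan A (fun (a : Fin 2) x => A.e i x a - A.e i p a) f.1 p := (lspan_iff hp _).2 hf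
    obtain ⟨C, hC⟩ := exists_glue h f fun q => by
      by_cases hq : q = p
      · subst hq
        exact hf'.trans hloc
      · obtain ⟨a, ha⟩ := nz q hq
        exact LSpan.of_ne_zero (v := fun b => (h b).1) (a := a)
          (Eventually.of_forall fun x => smN_of_mem (h a) x) ha
          (Eventually.of_forall fun x => smN_of_mem f x)
    refine Ideal.mem_span_range_iff_exists_fun.2 ⟨C, ?_⟩
    rw [hC]
    exact Finset.sum_congr rfl fun a _ => mul_comm _ _

/-- the ideal of a point is locally generated by a regular pair -/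
theorem exists_locReg (hp : p ∈ (A.e i).source) : ∃ (N : ℕ) (s : Fin N → smf A),
    Ideal.span (range s) = ⊤ ∧ ∀ a, NA3a759.LocReg (Ip A i p hp) (s a) := by
  obtain ⟨N, s, h1, h2⟩ := (ptA A p).reg.exists_loc
  refine ⟨N, s, ?_, fun a => ?_⟩
  · rw [Ideal.eq_top_iff_one, ← h1]
    exact Ideal.sum_mem _ fun a _ => Ideal.subset_span ⟨a, rfl⟩
  · rw [← J_eq hp]
    rcases h2 a with h | ⟨u1, hu1, u2, hu2, h3, h4, h5⟩
    · exact Or.inl ⟨1, by rwa [pow_one]⟩
    · refine Or.inr ⟨1, u1, u2, hu1, hu2, fun x hx => ?_, fun g hg => ?_, fun g f hgf => ?_⟩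
      · obtain ⟨c, d, hcd⟩ := h3 x hx
        rw [pow_one, hcd]
        exact Ideal.mem_span_pair.2 ⟨c, d, by ring⟩
      · rw [pow_one]; exact h4 g hg
      · rw [pow_one]; exact h5 f g hgf

/-- a resolution for any finite system of generators -/
theorem exists_res {m : Type} [Fintype m] (hp : p ∈ (A.e i).source) (h : m → smf A)
    (hspan : Ideal.span (range h) = Ip A i p hp) :
    ∃ (N : ℕ) (q : Matrix (Fin N) (Fin N) (smf A)) (io : Matrix m (Fin N) (smf A)),
      NA3m425.Res h q io := by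
  obtain ⟨N, s, h1, h2⟩ := exists_locReg (A := A) hp
  obtain ⟨h3, h4⟩ := NA3a759.projective_ker s h1 h2 1 h (by rw [hspan, pow_one])
  have e : LinearMap.ker (Fintype.linearCombination (smf A) h) =
      LinearMap.ker (NA3m425.dot (Om := smf A) h) := by
    ext v
    rw [LinearMap.mem_ker, LinearMap.mem_ker, NA3m425.dot_apply, Fintype.linearCombination_apply]
    simp only [smul_eq_mul, mul_comm]
  rw [e] at h3 h4
  exact NA3m425.exists_res h

/-- **the geometric and algebraic part of the resolution of a point** -/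
theorem exists_pt (hp : p ∈ (A.e i).source) : ∃ (h : Fin 3 → smf A) (N : ℕ)
    (q : Matrix (Fin N) (Fin N) (smf A)) (io : Matrix (Fin 3) (Fin N) (smf A)),
    NA3m425.Res h q io ∧
    (∀ᶠ x in 𝓝 p, (h 0).1 x = A.e i x 0 - A.e i p 0) ∧
    (∀ᶠ x in 𝓝 p, (h 1).1 x = A.e i x 1 - A.e i p 1) ∧
    (∀ᶠ x in 𝓝 p, (h 2).1 x = 0) ∧
    (∀ x ≠ p, ∃ a, (h a).1 x ≠ 0) ∧ Ideal.span (range h) = Ip A i p hp := by
  obtain ⟨h, h0, h1, h2, h3, h4⟩ := exists_gens (A := A) hp
  obtain ⟨N, q, io, R⟩ := exists_res hp h h4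
  exact ⟨h, N, q, io, R, h0, h1, h2, h3, h4⟩

end

end Crest.Agent.R275.LnkP4476
end

-- ▼ part R275/LnkP5_476
section

/-!
R275, block LINK, leaf D4 (helper476), part 5: the superbundle of a point.

* `dol2 A : Dol ℂ (smf A) (Sec (lam2 A))`, the Dolbeault complex of a surface;
* `cond_Ip`: the connection condition for the ideal of a point;
* `sub_st`: the supertrace of `I_p • Ω` is the one of `Ω` minus one;
* `exists_pt_super`: generators, resolution and superbundle of a point; its supertrace.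
-/

set_option autoImplicit false
set_option linter.unusedSectionVars false

open Set Filter Topology Complex
open scoped ContDiff ComplexConjugate Matrix
open Crest.Agent.R275.Geo Crest.Agent.R275.SmR425 Crest.Agent.R275.Smf798
open Crest.Agent.R275.LnkP2476 Crest.Agent.R275.Dg199 Crest.Agent.R275.LnkP4476
open Crest.Agent.R275.DolG763 Crest.Agent.R275.NA6b763 Crest.Agent.R275.NA7763
open Crest.Agent.R275.Lam2130 Crest.Agent.R275.NA13425 Crest.Agent.R275.Con425

namespace Crest.Agent.R275.LnkP5476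

noncomputable section

variable {M : Type} [TopologicalSpace M]

/-- adapted data give `∂̄`-closed local equations -/
theorem hol_reg {n r : ℕ} {A : Atl n M} (S : Adapted r A) [T2Space M] : Hol S.reg := by
  intro k a q hk i hi b
  show dbj b (fun z => S.uu k a ((A.e i).symm z)) (A.e i q) = 0
  refine dbj_holo ?_ b
  have hk' : q ∈ (A.e (S.ix k)).source := hk
  have hmem : (A.e i).symm (A.e i q) ∈ (A.e (S.ix k)).source := by rwa [(A.e i).left_inv hi]
  have h1 : DifferentiableAt ℂ (fun z => A.e (S.ix k) ((A.e i).symm z)) (A.e i q) :=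
    (A.holo i (S.ix k)).differentiableAt
      ((isOpen_ov _ _).mem_nhds ⟨(A.e i).map_source hi, hmem⟩)
  have h3 : DifferentiableAt ℂ (fun z => S.Φ k ((A.e i).symm z)) (A.e i q) :=
    DifferentiableAt.comp (g := S.T k) (A.e i q) (S.T k).differentiableAt (h1.sub_const _)
  fin_cases a
  · exact h3.fst
  · exact h3.snd.fst

/-- `∂̄² = 0` -/
theorem nabL_sq (A : Atl 2 M) (u : Sec (lam2 A)) : nabL (lam2 A) (nabL (lam2 A) u) = 0 :=
  LinearMap.congr_fun (FHom556.flat_of_alpha_zero (B := lam2 A) fun _ _ _ => rfl).nabL_comp u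

/-- the Dolbeault complex of a surface -/
def dol2 (A : Atl 2 M) : Dol ℂ (smf A) (Sec (lam2 A)) := dolP (nabL_sq A)



variable {A : Atl 2 M} {p : M} {i : A.ι} [T2Space M] [CompactSpace M]

/-- the connection condition for the ideal of a point -/
theorem cond_Ip (P : Part A) (hp : p ∈ (A.e i).source) : (dol2 A).Cond (Ip A i p hp) := by
  refine dolL_cond (nabL_sq A) (Lift.id _) P _ fun f hf j b => ?_
  rw [← J_eq hp] at hf ⊢
  exact DD_mem (hol_reg (ptA A p)) P j b hf

theorem s_Ip (hp : p ∈ (A.e i).source) : ∀ a ∈ Ip A i p hp, (dol2 A).s a ∈ Ip A i p hp :=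
  fun _ h => h

/-- **the supertrace of `I_p • Ω`** -/
theorem sub_st (hp : p ∈ (A.e i).source) (hc : (dol2 A).Cond (Ip A i p hp))
    [FiniteDimensional ℂ (dol2 A).sc.H] :
    FiniteDimensional ℂ ((dol2 A).sub (Ip A i p hp) hc (s_Ip hp)).H ∧
      ((dol2 A).sub (Ip A i p hp) hc (s_Ip hp)).st = (dol2 A).sc.st - 1 := by
  have hSd : ∀ u, ((dol2 A).sc.d u).1 = nab (lam2 A) u.1 := fun u => rfl
  have hST : ∀ u : Sec (lam2 A), ∀ i x k, ((dol2 A).sc.T u).1 i x k =
      (-1) ^ ((lam2 A).deg k) * u.1 i x k := fun u i x k => rfl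
  obtain ⟨h1, h2⟩ := LnkP3476.lam2_sub_st hp (dol2 A).sc hSd hST
  let φ : SC.Hom ((dol2 A).sub (Ip A i p hp) hc (s_Ip hp))
      (LnkP3476.sub (dol2 A).sc (LnkP3476.Fp hp (lam2 A))
        (LnkP3476.Fp_d hp _ (fun _ _ => rfl) hSd) (LnkP3476.Fp_T hp _ fun u => hST u i)) :=
    { f :=
        { toFun := fun w => ⟨w.1, w.2⟩
          map_add' := fun _ _ => rfl
          map_smul' := fun _ _ => rfl }
      d := fun _ => rfl
      T := fun _ => rfl }
  have hφ : φ.Quasi := quasi_of_bijective φ ⟨fun v w h => by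
      have h' : ((φ.f v : LnkP3476.Fp hp (lam2 A)) : Sec (lam2 A)) =
        (φ.f w : LnkP3476.Fp hp (lam2 A)) := congrArg Subtype.val h
      exact Subtype.ext h', fun w => ⟨⟨w.1, w.2⟩, rfl⟩⟩
  exact ⟨hφ.finite', by rw [hφ.st_eq, h2]⟩

/-- **the superbundle of a point**: everything of D4 which does not involve the index theory of
idempotents -/
theorem exists_pt_super (P : Part A) (hp : p ∈ (A.e i).source)
    [FiniteDimensional ℂ (dol2 A).sc.H] :
    ∃ (h : Fin 3 → smf A) (N : ℕ) (q : Matrix (Fin N) (Fin N) (smf A))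
      (io : Matrix (Fin 3) (Fin N) (smf A)),
      NA3m425.Res h q io ∧
      (∀ᶠ x in 𝓝 p, (h 0).1 x = A.e i x 0 - A.e i p 0) ∧
      (∀ᶠ x in 𝓝 p, (h 1).1 x = A.e i x 1 - A.e i p 1) ∧
      (∀ᶠ x in 𝓝 p, (h 2).1 x = 0) ∧
      (∀ x ≠ p, ∃ a, (h a).1 x ≠ 0) ∧ Ideal.span (range h) = Ip A i p hp ∧
      ∃ X : Super (dol2 A) (Fin 3 ⊕ Fin N), X.P = Matrix.fromBlocks 1 0 0 q ∧
        X.hd = Sum.elim (fun _ => 0) (fun _ => 1) ∧ X.t = (fun _ => 1) ∧
        FiniteDimensional ℂ X.sc.H ∧ X.sc.st = (dol2 A).sc.st - 1 := by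
  obtain ⟨h, N, q, io, R, h0, h1, h2, h3, h4⟩ := exists_pt (A := A) hp
  have hc := cond_Ip P hp
  obtain ⟨X, hP, hhd, ht, f, hf, -⟩ := exists_super_sec (nabL_sq A) (Lift.id _) P h q io R
    (fun _ => 1) (fun _ => 1) (fun a => (one_smul _ _).symm)
    (fun a b => by rw [one_smul, one_smul]; rfl) (fun a b => by rw [one_smul, one_smul]; rfl)
    (Ip A i p hp) h4 hc (s_Ip hp)
  obtain ⟨h5, h6⟩ := sub_st hp hc
  refine ⟨h, N, q, io, R, h0, h1, h2, h3, h4, X, hP, hhd, ?_, ?_, ?_⟩
  · rw [ht]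
    funext a
    rcases a with a | a <;> rfl
  · have : FiniteDimensional ℂ ((dolL (nabL_sq A) (Lift.id _)).sub (Ip A i p hp) hc (s_Ip hp)).H := h5
    exact hf.finite'
  · exact hf.st_eq.trans h6

end

end Crest.Agent.R275.LnkP5476
end

-- ▼ part R275/LnkP6_476

/-!
R275, block LINK, leaf D4 (helper476), part 6: the index of the resolution of a point.

`ind_pt`: for helper683's module index `G` on `Sec (lam2 A)` which computes the supertraces of the
superbundles (`IsCoh G` = the cohesive theorem), the resolution `Res h q io` of the ideal of a point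
has `ind q = 2 ind 1 + 1`.
-/

set_option autoImplicit false
set_option linter.unusedSectionVars false

open Set Filter Topology Complex
open scoped ContDiff ComplexConjugate Matrix
open Crest.Agent.R275.Geo Crest.Agent.R275.SmR425 Crest.Agent.R275.Smf798
open Crest.Agent.R275.LnkP2476 Crest.Agent.R275.LnkP4476 Crest.Agent.R275.LnkP5476
open Crest.Agent.R275.NA6b763 Crest.Agent.R275.NA7763 Crest.Agent.R275.NA3m425
open Crest.Agent.R275.Lam2130 Crest.Agent.R275.MI683

namespace Crest.Agent.R275.LnkP6476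

noncomputable section

/-! ### the trivial superbundle -/

section triv

variable {k R Om : Type*} [Field k] [CommRing R] [Algebra k R] [AddCommGroup Om] [Module k Om]
  [Module R Om] [IsScalarTower k R Om] (E : Dol k R Om)

/-- the trivial superbundle of rank `|N|` -/
def triv (N : Type) [Fintype N] [DecidableEq N] : Super E N where
  P := 1
  hd _ := 0
  t _ := 1
  Z := 0
  idem := one_mul 1
  P_hd i j h := absurd rfl h
  P_t i j := by
    rw [one_smul, one_smul, Matrix.one_apply]
    split_ifs <;> simp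
  PZ w := by simp
  ZP w := by simp
  Z_deg q w := by simp
  Z_T w := by simp
  DD w _ := by
    funext i
    simp only [act_one, LinearMap.zero_apply, add_zero, diag_apply, sgn_zero, one_smul,
      Pi.zero_apply]
    exact E.dd _

theorem triv_D {N : Type} [Fintype N] [DecidableEq N] (w : N → Om) (i : N) :
    (triv E N).D w i = E.d (w i) := by
  rw [Super.D_apply]
  show (act (1 : Matrix N N R) (diag E (fun _ => 0) w) + 0) i = _
  rw [act_one, add_zero, diag_apply, sgn_zero, one_smul]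

/-- the supercomplex of the trivial superbundle of rank one -/
def trivHom : SC.Hom (triv E (Fin 1)).sc E.sc where
  f :=
    { toFun := fun w => w.1 0
      map_add' := fun _ _ => rfl
      map_smul' := fun _ _ => rfl }
  d w := (triv_D E w.1 0).symm
  T w := by
    show E.T (w.1 0) = totT E (fun _ => 0) (fun _ => 1) w.1 0
    rw [totT_apply, sgn_zero, one_mul, one_smul]

theorem trivHom_quasi : (trivHom E).Quasi := by
  refine quasi_of_bijective _ ⟨fun v w h => ?_, fun w => ⟨⟨fun _ => w, ?_⟩, rfl⟩⟩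
  · apply Subtype.ext
    funext j
    rw [Subsingleton.elim j 0]
    exact h
  · show act (1 : Matrix (Fin 1) (Fin 1) R) (fun _ => w) = _
    rw [act_one]

end triv

variable {M : Type} [TopologicalSpace M] {A : Atl 2 M}

/-- the module index computes the supertraces of the superbundles -/
def IsCoh (G : ModSc (smf A) (Sec (lam2 A))) : Prop :=
  ∀ (N : Type) [Fintype N] (X : Super (dol2 A) N), (∀ i, 0 ≤ X.hd i) →
    FiniteDimensional ℂ X.sc.H ∧
      X.sc.st = ((G.ind X.P (fun i => sgn (X.hd i) * X.t i) : ℤ) : ℂ)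

variable {G : ModSc (smf A) (Sec (lam2 A))}

theorem IsCoh.finite (hG : IsCoh G) : FiniteDimensional ℂ (dol2 A).sc.H := by
  have := (hG (Fin 1) (triv (dol2 A) (Fin 1)) fun _ => le_rfl).1
  exact (trivHom_quasi (dol2 A)).finite

theorem IsCoh.st_eq (hG : IsCoh G) : (dol2 A).sc.st = ((G.chi : ℤ) : ℂ) := by
  rw [← (trivHom_quasi (dol2 A)).st_eq,
    (hG (Fin 1) (triv (dol2 A) (Fin 1)) fun _ => le_rfl).2]
  congr 1
  show G.ind (1 : Matrix (Fin 1) (Fin 1) (smf A)) (fun _ => sgn 0 * 1) = _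
  rw [G.ind_one]
  simp

variable {p : M} {i : A.ι} [T2Space M] [CompactSpace M]

/-- **D4**: the resolution of the ideal of a point and its index -/
theorem ind_pt (hσ : ∀ f : smf A, G.σ f = f) (hG : IsCoh G) (P : Part A)
    (hp : p ∈ (A.e i).source) :
    ∃ (h : Fin 3 → smf A) (N : ℕ) (q : Matrix (Fin N) (Fin N) (smf A))
      (io : Matrix (Fin 3) (Fin N) (smf A)) (R : NA3m425.Res h q io),
      (∀ᶠ x in 𝓝 p, (h 0).1 x = A.e i x 0 - A.e i p 0) ∧
      (∀ᶠ x in 𝓝 p, (h 1).1 x = A.e i x 1 - A.e i p 1) ∧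
      (∀ᶠ x in 𝓝 p, (h 2).1 x = 0) ∧
      (∀ x ≠ p, ∃ a, (h a).1 x ≠ 0) ∧ Ideal.span (range h) = Ip A i p hp ∧
      (G.kIndex hσ).data.indR ((G.kIndex hσ).c q R.idem) =
        2 * (G.kIndex hσ).data.indR 1 + 1 := by
  have := hG.finite
  obtain ⟨h, N, q, io, R, h0, h1, h2, h3, h4, X, hP, hhd, ht, h5, h6⟩ :=
    exists_pt_super P hp
  refine ⟨h, N, q, io, R, h0, h1, h2, h3, h4, ?_⟩
  have h7 := (hG _ X (by
    rw [hhd]
    rintro (j | j)
    · exact le_rfl
    · exact zero_le_one)).2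
  rw [h6, hG.st_eq, hP] at h7
  have h8 : (fun j => sgn (X.hd j) * X.t j) =
      Sum.elim (1 : Fin 3 → ℤˣ) (-1 : Fin N → ℤˣ) := by
    rw [hhd, ht]
    funext j
    rcases j with j | j
    · simp
    · simp
  have h9 : G.ind (Matrix.fromBlocks 1 0 0 q) (Sum.elim (1 : Fin 3 → ℤˣ) (-1 : Fin N → ℤˣ)) =
      3 * G.chi - G.ind q 1 := by
    have e1 : ∀ {N M : Type} (t : N → ℤˣ) (u : M → ℤˣ) (m : Matrix N M (smf A)),
        (∀ i j, t i * u j = 1) → G.Eqv t u m := by
      intro N M t u m htu i j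
      rw [hσ, smul_smul, htu, one_smul]
    rw [G.ind_blocks (one_mul _) R.idem (e1 _ _ _ fun _ _ => by simp)
      (e1 _ _ _ fun _ _ => by simp), G.ind_one, G.ind_neg R.idem (e1 _ _ _ fun _ _ => by simp)]
    simp
    ring
  rw [h8, h9] at h7
  have h10 : G.chi - 1 = 3 * G.chi - G.ind q 1 := by exact_mod_cast h7
  have h11 : (G.kIndex hσ).data.indR 1 = G.chi := by
    rw [← (G.kIndex hσ).c_one (n := Fin 1), KR798.KIndex.indR_c]
    show G.ind (1 : Matrix (Fin 1) (Fin 1) (smf A)) 1 = _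
    rw [G.ind_one]
    simp
  have h12 : (G.kIndex hσ).data.indR ((G.kIndex hσ).c q R.idem) = G.ind q 1 := by
    rw [KR798.KIndex.indR_c]
    rfl
  rw [h11, h12]
  linarith

end

end Crest.Agent.R275.LnkP6476
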