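import Crest.Agent.R275.NA3aLoc_759
import Crest.Agent.R275.NA3aProj_759
import Mathlib
import Crest.Agent.R275.NA3m_425
import Crest.Agent.R275.NA6c_763

-- ▼ part R275/NA3aEx_759
section

/-!
Exactness of the Koszul-power complex `Λ^j ⊗ J^(N-j)`, `N ≥ q`.
-/

set_option autoImplicit false
set_option linter.unusedSectionVars false
set_option linter.unusedVariables false

open Finset

namespace Crest.Agent.R275.NA3a759

universe u v w

variable {ι : Type u} [LinearOrder ι] {A : Type v} [CommRing A]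

/-- `⊕_{T ⊆ B} J^(N - |T|)` -/
def KJ (J : Ideal A) (B : Finset ι) (N : ℕ) : Submodule A (Finset ι → A) where
  carrier := {z | (∀ T, z T ∈ J ^ (N - T.card)) ∧ ∀ T, ¬ T ⊆ B → z T = 0}
  zero_mem' := ⟨fun T => Ideal.zero_mem _, fun T _ => rfl⟩
  add_mem' {z w} hz hw := ⟨fun T => Ideal.add_mem _ (hz.1 T) (hw.1 T), fun T hT => by
    rw [Pi.add_apply, hz.2 T hT, hw.2 T hT, add_zero]⟩
  smul_mem' c z hz := ⟨fun T => Ideal.mul_mem_left _ _ (hz.1 T), fun T hT => by
    rw [Pi.smul_apply, hz.2 T hT, smul_zero]⟩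


lemma zsmul_mem_pow {J : Ideal A} {n : ℕ} {x : A} (c : ℤ) (hx : x ∈ J ^ n) : c • x ∈ J ^ n :=
  zsmul_mem hx c

lemma E_mem_KJ {J : Ideal A} {B : Finset ι} {N : ℕ} {z : Finset ι → A} (hz : z ∈ KJ J B N)
    (i : ι) : E A i z ∈ KJ J (insert i B) (N + 1) := by
  refine ⟨fun T => ?_, fun T hT => ?_⟩
  · by_cases hi : i ∈ T
    · rw [E_apply_mem hi]
      have h1 := hz.1 (T.erase i)
      rw [card_erase_of_mem hi] at h1
      have h2 : 0 < T.card := card_pos.2 ⟨i, hi⟩
      have h3 : N - (T.card - 1) = N + 1 - T.card := by omega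
      rw [h3] at h1
      exact zsmul_mem_pow _ h1
    · rw [E_apply_notMem hi]; exact Ideal.zero_mem _
  · by_cases hi : i ∈ T
    · rw [E_apply_mem hi, hz.2, smul_zero]
      intro hs
      apply hT
      intro j hj
      by_cases hji : j = i
      · subst hji; exact mem_insert_self _ _
      · exact mem_insert_of_mem (hs (mem_erase.2 ⟨hji, hj⟩))
    · rw [E_apply_notMem hi]

lemma I_mem_KJ {J : Ideal A} {B : Finset ι} {N : ℕ} {z : Finset ι → A} {i : ι}
    (hz : z ∈ KJ J (insert i B) (N + 1)) : I A i z ∈ KJ J B N := by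
  refine ⟨fun T => ?_, fun T hT => ?_⟩
  · by_cases hi : i ∈ T
    · rw [I_apply_mem hi]; exact Ideal.zero_mem _
    · rw [I_apply_notMem hi]
      have h1 := hz.1 (insert i T)
      rw [card_insert_of_notMem hi] at h1
      have h3 : N + 1 - (T.card + 1) = N - T.card := by omega
      rw [h3] at h1
      exact zsmul_mem_pow _ h1
  · by_cases hi : i ∈ T
    · rw [I_apply_mem hi]
    · rw [I_apply_notMem hi, hz.2, smul_zero]
      intro hs
      apply hT
      intro j hj
      have := hs (mem_insert_of_mem hj)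
      rcases mem_insert.1 this with h | h
      · subst h; exact absurd hj hi
      · exact h

lemma KJ_mono {J : Ideal A} {B C : Finset ι} (h : B ⊆ C) (N : ℕ) :
    (KJ J B N : Submodule A (Finset ι → A)) ≤ KJ J C N :=
  fun _ hz => ⟨hz.1, fun T hT => hz.2 T fun h' => hT (h'.trans h)⟩

lemma mul_mem_KJ {J : Ideal A} {B : Finset ι} {N : ℕ} {z : Finset ι → A} (hz : z ∈ KJ J B N)
    {c : A} (hc : c ∈ J) (hN : B.card ≤ N) : c • z ∈ KJ J B (N + 1) := by
  refine ⟨fun T => ?_, fun T hT => by rw [Pi.smul_apply, hz.2 T hT, smul_zero]⟩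
  by_cases hT : T ⊆ B
  · have h1 : N + 1 - T.card = (N - T.card) + 1 := by
      have := card_le_card hT
      omega
    rw [h1, pow_succ', Pi.smul_apply, smul_eq_mul]
    exact Ideal.mul_mem_mul hc (hz.1 T)
  · rw [Pi.smul_apply, hz.2 T hT, smul_zero]; exact Ideal.zero_mem _

lemma KJ_succ_le {J : Ideal A} {B : Finset ι} (N : ℕ) :
    (KJ J B (N + 1) : Submodule A (Finset ι → A)) ≤ KJ J B N :=
  fun _ hz => ⟨fun T => Ideal.pow_le_pow_right (by omega) (hz.1 T), hz.2⟩

section Diff

variable [Fintype ι]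

/-- exactness near `𝔪` in all total degrees `≥ |B|` -/
def ExAt (𝔪 J : Ideal A) (h : ι → A) (B : Finset ι) : Prop :=
  ∀ N, B.card ≤ N → ∀ z ∈ KJ J B N, dK h z = 0 → ∃ t, t ∉ 𝔪 ∧ ∃ w ∈ KJ J B N, dK h w = t • z

/-- adding one more generator keeps exactness -/
lemma ExAt.insert {𝔪 J : Ideal A} [h𝔪 : 𝔪.IsPrime] {h : ι → A} (hJ : ∀ i, h i ∈ J)
    {B : Finset ι} (hB : ExAt 𝔪 J h B) {i : ι} (hi : i ∉ B) : ExAt 𝔪 J h (insert i B) := by
  intro N hN z hz hdz
  rw [card_insert_of_notMem hi] at hN
  obtain ⟨n, rfl⟩ : ∃ n, N = n + 1 := ⟨N - 1, by omega⟩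
  have hn : B.card ≤ n := by omega
  have hz1 : I A i z ∈ KJ J B n := I_mem_KJ hz
  have hdz1 : dK h (I A i z) = 0 := by
    have := I_dK h i z
    rw [hdz, map_zero] at this
    exact neg_eq_zero.1 this.symm
  obtain ⟨t₁, ht₁, w₁, hw₁, hdw₁⟩ := hB n hn _ hz1 hdz1
  -- `z₀ = I E z`
  have hz0 : I A i (E A i z) ∈ KJ J B (n + 1) := by
    have h1 : I A i (E A i z) ∈ KJ J (Insert.insert i B) (n + 1) := by
      have : I A i (E A i z) = z - E A i (I A i z) := by
        rw [eq_sub_iff_add_eq, add_comm, E_I_self]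
      rw [this]
      exact Submodule.sub_mem _ hz (E_mem_KJ hz1 i)
    refine ⟨h1.1, fun T hT => ?_⟩
    by_cases hiT : i ∈ T
    · rw [I_apply_mem hiT]
    · apply h1.2
      intro hs
      apply hT
      intro j hj
      rcases mem_insert.1 (hs hj) with h' | h'
      · subst h'; exact absurd hj hiT
      · exact h'
  have hdec : E A i (I A i z) + I A i (E A i z) = z := E_I_self i z
  have hdz0 : dK h (I A i (E A i z)) = - (h i • I A i z) := by
    have h1 : dK h (E A i (I A i z)) = h i • I A i z - E A i (dK h (I A i z)) := dK_E h i _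
    rw [hdz1, map_zero, sub_zero] at h1
    have h2 : dK h (E A i (I A i z)) + dK h (I A i (E A i z)) = 0 := by
      rw [← map_add, hdec, hdz]
    rw [h1] at h2
    exact (neg_eq_of_add_eq_zero_right h2).symm
  obtain ⟨t₂, ht₂, w₀, hw₀, hdw₀⟩ := hB (n + 1) (by omega)
    (t₁ • I A i (E A i z) + h i • w₁)
    (Submodule.add_mem _ (Submodule.smul_mem _ _ hz0) (mul_mem_KJ hw₁ (hJ i) hn)) (by
      rw [map_add, map_smul, map_smul, hdz0, hdw₁, smul_neg, smul_comm (h i)]
      simp)
  refine ⟨t₂ * t₁, mul_notMem ht₂ ht₁, w₀ - t₂ • E A i w₁, Submodule.sub_mem _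
    (KJ_mono (subset_insert i B) _ hw₀) (Submodule.smul_mem _ _ (E_mem_KJ hw₁ i)), ?_⟩
  rw [map_sub, map_smul, dK_E, hdw₀, hdw₁, map_smul]
  conv_rhs => rw [← hdec]
  simp only [smul_sub, smul_add, smul_smul]
  abel

/-- functions supported at the empty set -/
def dl (c : A) : Finset ι → A := fun T => if T = ∅ then c else 0

lemma dl_mem {J : Ideal A} {N : ℕ} {c : A} (hc : c ∈ J ^ N) : (dl c : Finset ι → A) ∈ KJ J ∅ N := by
  refine ⟨fun T => ?_, fun T hT => ?_⟩
  · unfold dl
    split_ifs with h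
    · subst h; simpa using hc
    · exact Ideal.zero_mem _
  · unfold dl
    rw [if_neg]
    rintro rfl
    exact hT (Subset.refl _)

lemma eq_dl {J : Ideal A} {N : ℕ} {z : Finset ι → A} (hz : z ∈ KJ J ∅ N) : z = dl (z ∅) := by
  funext T
  unfold dl
  split_ifs with h
  · rw [h]
  · exact hz.2 T fun h' => h (subset_empty.1 h')

lemma dl_zero : (dl 0 : Finset ι → A) = 0 := by funext T; simp [dl]
lemma dl_add (c d : A) : (dl (c + d) : Finset ι → A) = dl c + dl d := by
  funext T; simp only [dl, Pi.add_apply]; split_ifs <;> simp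
lemma dl_smul (c d : A) : (c • dl d : Finset ι → A) = dl (c * d) := by
  funext T; simp only [dl, Pi.smul_apply, smul_eq_mul]; split_ifs <;> simp

lemma dK_dl (h : ι → A) (c : A) : dK h (dl c) = 0 := by
  funext T
  rw [dK_apply_apply]
  refine Finset.sum_eq_zero fun i _ => ?_
  by_cases hi : i ∈ T
  · rw [I_apply_mem hi, mul_zero]
  · rw [I_apply_notMem hi]
    unfold dl
    rw [if_neg (insert_ne_empty i T)]; simp

lemma dK_E_dl (h : ι → A) (i : ι) (c : A) : dK h (E A i (dl c)) = dl (h i * c) := by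
  rw [dK_E, dK_dl, map_zero, sub_zero, dl_smul]

lemma dK_E_E_dl (h : ι → A) (a b : ι) (c : A) :
    dK h (E A b (E A a (dl c))) = E A a (dl (h b * c)) - E A b (dl (h a * c)) := by
  rw [dK_E, dK_E_dl, ← dl_smul (h b), map_smul]

/-- base case: a regular pair -/
lemma exAt_pair {𝔪 J : Ideal A} [h𝔪 : 𝔪.IsPrime] {h : ι → A} (hJ : ∀ i, h i ∈ J) {a b : ι}
    (hab : a ≠ b) (hp : PairReg 𝔪 J (h a) (h b)) : ExAt 𝔪 J h {a, b} := by
  intro N hN z hz hdz
  rw [card_pair hab] at hN
  obtain ⟨n, rfl⟩ : ∃ n, N = n + 2 := ⟨N - 2, by omega⟩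
  have hab' : (insert b {a} : Finset ι) = {a, b} := pair_comm b a
  rw [← hab'] at hz ⊢
  -- decomposition
  have hz1 : I A b z ∈ KJ J {a} (n + 1) := I_mem_KJ hz
  have hz0 : z - E A b (I A b z) ∈ KJ J {a} (n + 2) := by
    have h1 : z - E A b (I A b z) ∈ KJ J (insert b {a}) (n + 2) :=
      Submodule.sub_mem _ hz (E_mem_KJ hz1 b)
    have h2 : z - E A b (I A b z) = I A b (E A b z) := by
      rw [sub_eq_iff_eq_add, add_comm, E_I_self]
    refine ⟨h1.1, fun T hT => ?_⟩
    rw [h2]
    by_cases hiT : b ∈ T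
    · rw [I_apply_mem hiT]
    · rw [← h2]
      apply h1.2
      intro hs
      apply hT
      intro j hj
      rcases mem_insert.1 (hs hj) with h' | h'
      · subst h'; exact absurd hj hiT
      · exact h'
  -- split a second time
  have split2 : ∀ (m : ℕ) (y : Finset ι → A), y ∈ KJ J {a} (m + 1) →
      ∃ c₀ ∈ J ^ (m + 1), ∃ c₁ ∈ J ^ m, y = dl c₀ + E A a (dl c₁) := by
    intro m y hy
    rw [← insert_empty_eq a] at hy
    have hy1 : I A a y ∈ KJ J ∅ m := I_mem_KJ hy
    have hy0 : y - E A a (I A a y) ∈ KJ J ∅ (m + 1) := by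
      have h1 : y - E A a (I A a y) ∈ KJ J (insert a ∅) (m + 1) :=
        Submodule.sub_mem _ hy (E_mem_KJ hy1 a)
      have h2 : y - E A a (I A a y) = I A a (E A a y) := by
        rw [sub_eq_iff_eq_add, add_comm, E_I_self]
      refine ⟨h1.1, fun T hT => ?_⟩
      rw [h2]
      by_cases hiT : a ∈ T
      · rw [I_apply_mem hiT]
      · rw [← h2]
        apply h1.2
        intro hs
        apply hT
        intro j hj
        rcases mem_insert.1 (hs hj) with h' | h'
        · subst h'; exact absurd hj hiT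
        · exact h'
    have e1 := eq_dl hy1
    have e0 := eq_dl hy0
    refine ⟨(y - E A a (I A a y)) ∅, by simpa using hy0.1 ∅, (I A a y) ∅,
      by simpa using hy1.1 ∅, ?_⟩
    rw [← e0, ← e1]; abel
  obtain ⟨c00, hc00, c01, hc01, e0⟩ := split2 (n + 1) _ hz0
  obtain ⟨c10, hc10, c11, hc11, e1⟩ := split2 n _ hz1
  have ez : z = dl c00 + E A a (dl c01) + (E A b (dl c10) + E A b (E A a (dl c11))) := by
    rw [← map_add, ← e1, ← e0]; abel
  -- the differential in coordinates
  have edz : dK h z = dl (h a * c01 + h b * c10)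
      + (E A a (dl (h b * c11)) - E A b (dl (h a * c11))) := by
    rw [ez, map_add, map_add, map_add, dK_dl, dK_E_dl, dK_E_dl, dK_E_E_dl, dl_add]
    abel
  rw [hdz] at edz
  have q0 : h a * c01 + h b * c10 = 0 := by
    have := congrFun edz ∅
    simp only [Pi.add_apply, Pi.sub_apply, Pi.zero_apply, E_apply_notMem (notMem_empty _)] at this
    simpa [dl] using this.symm
  have qa : h b * c11 = 0 := by
    have := congrFun edz {a}
    simp only [Pi.add_apply, Pi.sub_apply, Pi.zero_apply, E_apply_mem (mem_singleton_self a),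
      E_apply_notMem (show b ∉ ({a} : Finset ι) by simpa using hab.symm)] at this
    have s1 : sg a ({a} : Finset ι) = 1 := by
      rw [← insert_empty_eq a, sg_insert_self]; simp [sg]
    rw [s1] at this
    simpa [dl] using this.symm
  have qb : h a * c11 = 0 := by
    have := congrFun edz {b}
    simp only [Pi.add_apply, Pi.sub_apply, Pi.zero_apply, E_apply_mem (mem_singleton_self b),
      E_apply_notMem (show a ∉ ({b} : Finset ι) by simpa using hab)] at this
    have s1 : sg b ({b} : Finset ι) = 1 := by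
      rw [← insert_empty_eq b, sg_insert_self]; simp [sg]
    rw [s1] at this
    simpa [dl] using this.symm
  obtain ⟨t₁, ht₁, r1⟩ := hp.tor c11 qb qa
  obtain ⟨t₂, ht₂, c, r2, r3⟩ := hp.syz c01 c10 q0
  obtain ⟨t₃, ht₃, r4⟩ := hp.quo n c (by rw [← r3]; exact Ideal.mul_mem_left _ _ hc10) (by
    have : h b * c = - (t₂ * c01) := by rw [r2]; ring
    rw [this]; exact Ideal.neg_mem_iff _ |>.2 (Ideal.mul_mem_left _ _ hc01))
  obtain ⟨t₄, ht₄, wa, hwa, wb, hwb, r5⟩ := hp.gen_pow (n + 1) c00 hc00
  refine ⟨t₁ * t₂ * t₃ * t₄, mul_notMem (mul_notMem (mul_notMem ht₁ ht₂) ht₃) ht₄,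
    E A a (dl (t₁ * t₂ * t₃ * wa)) + E A b (dl (t₁ * t₂ * t₃ * wb))
      + E A b (E A a (dl (-(t₁ * t₄ * (t₃ * c))))), ?_, ?_⟩
  · have m1 : E A a (dl (t₁ * t₂ * t₃ * wa)) ∈ KJ J (insert b {a}) (n + 2) := by
      have := E_mem_KJ (dl_mem (ι := ι) (Ideal.mul_mem_left _ (t₁ * t₂ * t₃) hwa)) a
      rw [insert_empty_eq] at this
      exact KJ_mono (subset_insert b {a}) _ this
    have m2 : E A b (dl (t₁ * t₂ * t₃ * wb)) ∈ KJ J (insert b {a}) (n + 2) := by
      have := E_mem_KJ (dl_mem (ι := ι) (Ideal.mul_mem_left _ (t₁ * t₂ * t₃) hwb)) b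
      exact KJ_mono (insert_subset_insert b (empty_subset _)) _ this
    have m3 : E A b (E A a (dl (-(t₁ * t₄ * (t₃ * c))))) ∈ KJ J (insert b {a}) (n + 2) := by
      have hm : -(t₁ * t₄ * (t₃ * c)) ∈ J ^ n :=
        (Ideal.neg_mem_iff _).2 (Ideal.mul_mem_left _ _ r4)
      have := E_mem_KJ (dl_mem (ι := ι) hm) a
      rw [insert_empty_eq] at this
      exact E_mem_KJ this b
    exact Submodule.add_mem _ (Submodule.add_mem _ m1 m2) m3
  · rw [map_add, map_add, dK_E_dl, dK_E_dl, dK_E_E_dl, ez]
    have f1 : h a * (t₁ * t₂ * t₃ * wa) + h b * (t₁ * t₂ * t₃ * wb) = t₁ * t₂ * t₃ * t₄ * c00 := by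
      linear_combination -(t₁ * t₂ * t₃) * r5
    have f2 : h b * (-(t₁ * t₄ * (t₃ * c))) = t₁ * t₂ * t₃ * t₄ * c01 := by
      linear_combination -(t₁ * t₃ * t₄) * r2
    have f3 : h a * (-(t₁ * t₄ * (t₃ * c))) = - (t₁ * t₂ * t₃ * t₄ * c10) := by
      linear_combination t₁ * t₃ * t₄ * r3
    have f4 : t₁ * t₂ * t₃ * t₄ * c11 = 0 := by
      linear_combination t₂ * t₃ * t₄ * r1
    rw [← dl_add, f1, f2, f3]
    simp only [smul_add, ← map_smul, dl_smul, f4, dl_zero, map_zero]
    have f5 : (dl (-(t₁ * t₂ * t₃ * t₄ * c10)) : Finset ι → A) = - dl (t₁ * t₂ * t₃ * t₄ * c10) := by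
      rw [eq_neg_iff_add_eq_zero, ← dl_add, neg_add_cancel, dl_zero]
    rw [f5, map_neg]
    abel

/-- a homotopy as soon as a combination of the generators is invertible near `𝔪` -/
lemma exAt_unit {𝔪 J : Ideal A} {h : ι → A} (hspan : Ideal.span (Set.range h) = J)
    (hJ𝔪 : ¬ J ≤ 𝔪) : ExAt 𝔪 J h univ := by
  intro N hN z hz hdz
  obtain ⟨t, ht, ht𝔪⟩ := Set.not_subset.1 hJ𝔪
  rw [← hspan] at ht
  obtain ⟨c, hc⟩ := Ideal.mem_span_range_iff_exists_fun.1 ht
  refine ⟨t, ht𝔪, ∑ i, c i • E A i z, ?_, ?_⟩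
  · refine Submodule.sum_mem _ fun i _ => Submodule.smul_mem _ _ ?_
    have h1 := E_mem_KJ hz i
    exact KJ_succ_le _ (KJ_mono (subset_univ _) _ h1)
  · rw [map_sum]
    have : ∀ i, dK h (c i • E A i z) = (c i * h i) • z := by
      intro i
      rw [map_smul, dK_E, hdz, map_zero, sub_zero, smul_smul]
    rw [Finset.sum_congr rfl fun i _ => this i, ← Finset.sum_smul, hc]

/-- exactness at every maximal ideal -/
lemma exAt_univ {J : Ideal A} {h : ι → A} (hspan : Ideal.span (Set.range h) = J)
    {κ : Type*} (s : κ → A) (hs : Ideal.span (Set.range s) = ⊤)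
    (hloc : ∀ i, LocReg J (s i)) (𝔪 : Ideal A) (h𝔪 : 𝔪.IsMaximal) : ExAt 𝔪 J h univ := by
  have : 𝔪.IsPrime := h𝔪.isPrime
  by_cases hJ𝔪 : J ≤ 𝔪
  · obtain ⟨i, hi⟩ : ∃ i, s i ∉ 𝔪 := by
      by_contra hcon
      push Not at hcon
      apply h𝔪.ne_top
      rw [eq_top_iff, ← hs, Ideal.span_le]
      rintro _ ⟨i, rfl⟩
      exact hcon i
    rcases hloc i with ⟨k, hk⟩ | ⟨k, u₁, u₂, hu1, hu2, hgen, h1, h2⟩
    · exact absurd (hJ𝔪 hk) (pow_notMem hi k)
    · obtain ⟨a, b, hab, hp⟩ := exists_pair hJ𝔪 hi h hspan hu1 hu2 hgen h1 h2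
      have hJ : ∀ i, h i ∈ J := fun i => hspan ▸ Ideal.subset_span ⟨i, rfl⟩
      have h0 := exAt_pair hJ hab hp
      have key : ∀ C : Finset ι, ExAt 𝔪 J h ({a, b} ∪ C) := by
        intro C
        induction C using Finset.induction_on with
        | empty => simpa using h0
        | insert i C _ ih =>
          rw [union_insert]
          by_cases hiC : i ∈ {a, b} ∪ C
          · rwa [insert_eq_of_mem hiC]
          · exact ih.insert hJ hiC
      have h3 := key univ
      have h4 : ({a, b} : Finset ι) ∪ univ = univ := union_eq_right.2 (subset_univ _)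
      rwa [h4] at h3
  · exact exAt_unit hspan hJ𝔪

/-- **Exactness of the Koszul-power complex** in total degree `N ≥ q`. -/
theorem exact_KJ {J : Ideal A} {h : ι → A} (hspan : Ideal.span (Set.range h) = J)
    {κ : Type*} (s : κ → A) (hs : Ideal.span (Set.range s) = ⊤)
    (hloc : ∀ i, LocReg J (s i)) {N : ℕ} (hN : Fintype.card ι ≤ N)
    {z : Finset ι → A} (hz : ∀ T, z T ∈ J ^ (N - T.card)) (hdz : dK h z = 0) :
    ∃ w : Finset ι → A, (∀ T, w T ∈ J ^ (N - T.card)) ∧ dK h w = z := by
  have hz' : z ∈ KJ J univ N := ⟨hz, fun T hT => absurd (subset_univ T) hT⟩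
  let 𝔞 : Ideal A := Submodule.comap (LinearMap.toSpanSingleton A (Finset ι → A) z)
    ((KJ J univ N).map (dK h))
  have h𝔞 : 𝔞 = ⊤ := by
    by_contra hne
    obtain ⟨𝔪, h𝔪, hle⟩ := Ideal.exists_le_maximal 𝔞 hne
    obtain ⟨t, ht, w, hw, hdw⟩ := exAt_univ hspan s hs hloc 𝔪 h𝔪 N (by simpa using hN) z hz' hdz
    apply ht
    apply hle
    exact ⟨w, hw, by rw [hdw]; rfl⟩
  have h1 : (1 : A) ∈ 𝔞 := by rw [h𝔞]; trivial
  obtain ⟨w, hw, hdw⟩ := h1
  exact ⟨w, hw.1, by rw [hdw]; simp⟩

end Diff

end Crest.Agent.R275.NA3a759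
end

-- ▼ part R275/NA3aSyz_759
section

/-!
The Koszul complex of the syzygy modules `R_m = ker (S_m → J^m)` is exact in total degree `N ≥ q`.
-/

set_option autoImplicit false
set_option linter.unusedSectionVars false

open Finset MvPolynomial

namespace Crest.Agent.R275.NA3a759

universe u v w

variable {ι : Type u} [LinearOrder ι] [Fintype ι] {A : Type v} [CommRing A]

/-- homogeneous polynomials of degree `m` vanishing at `h` -/
def RS (h : ι → A) (m : ℕ) : Submodule A (MvPolynomial ι A) where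
  carrier := {f | f.IsHomogeneous m ∧ eval h f = 0}
  zero_mem' := ⟨isHomogeneous_zero _ _ _, map_zero _⟩
  add_mem' {f g} hf hg := ⟨hf.1.add hg.1, by rw [map_add, hf.2, hg.2, add_zero]⟩
  smul_mem' c f hf := ⟨by rw [smul_eq_C_mul]; exact hf.1.C_mul c, by
    rw [smul_eval, hf.2, mul_zero]⟩


local notation "SS" => MvPolynomial ι A

/-- the operator `∑ e_i ∧ ∂_i` -/
noncomputable def del (z : Finset ι → MvPolynomial ι A) : Finset ι → MvPolynomial ι A :=
  fun T => ∑ i, pderiv i (E (MvPolynomial ι A) i z T)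

lemma EI_apply {R : Type*} {M : Type*} [CommRing R] [AddCommGroup M] [Module R M] (i : ι)
    (z : Finset ι → M) (T : Finset ι) : E R i (I R i z) T = if i ∈ T then z T else 0 := by
  by_cases h : i ∈ T
  · rw [E_apply_mem h, I_apply_notMem (notMem_erase i T), smul_smul, sg_erase_self, sg_mul_self,
      insert_erase h, if_pos h, one_smul]
  · rw [E_apply_notMem h, if_neg h]

/-- Euler homotopy -/
lemma dK_del {N : ℕ} (hN : Fintype.card ι ≤ N) (z : Finset ι → MvPolynomial ι A)
    (hz : ∀ T, (z T).IsHomogeneous (N - T.card)) (hdz : dK (X : ι → MvPolynomial ι A) z = 0) :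
    dK (X : ι → MvPolynomial ι A) (del z) = (N : MvPolynomial ι A) • z := by
  funext T
  have h1 : dK (X : ι → SS) (del z) T
      = ∑ i, ∑ j, X j * pderiv i (I SS j (E SS i z) T) := by
    rw [dK_apply_apply]
    have : ∀ j, I SS j (del z) T = ∑ i, pderiv i (I SS j (E SS i z) T) := by
      intro j
      have e1 : del z = ∑ i, (fun T => (pderiv i : Derivation A SS SS) (E SS i z T)) := by
        funext T
        simp [del, Finset.sum_apply]
      rw [e1, map_sum, Finset.sum_apply]
      refine Finset.sum_congr rfl fun i _ => ?_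
      exact (congrFun (map_I (R := SS) (R' := SS) (pderiv i : Derivation A SS SS).toAddMonoidHom j
        (E SS i z)) T).symm
    simp_rw [this, Finset.mul_sum]
    rw [Finset.sum_comm]
  have h2 : ∑ i, ∑ j, (X j * pderiv i (E SS i (I SS j z) T))
      + ∑ i, E SS i (I SS i z) T = 0 := by
    have e2 : ∑ i, pderiv i (E SS i (dK (X : ι → SS) z) T) = 0 := by
      rw [hdz]; simp
    rw [← e2, ← Finset.sum_add_distrib]
    refine Finset.sum_congr rfl fun i _ => ?_
    rw [dK_apply, map_sum, Finset.sum_apply, map_sum]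
    have : ∀ j, pderiv i (E SS i ((X j : SS) • I SS j z) T)
        = X j * pderiv i (E SS i (I SS j z) T) + (if j = i then E SS i (I SS i z) T else 0) := by
      intro j
      rw [map_smul, Pi.smul_apply, smul_eq_mul, pderiv_mul]
      by_cases hj : j = i
      · subst hj; rw [pderiv_X_self]; simp; ring
      · rw [pderiv_X_of_ne hj, if_neg hj]; ring
    simp_rw [this, Finset.sum_add_distrib]
    congr 1
    simp
  have h3 : dK (X : ι → SS) (del z) T
      = ∑ i, ∑ j, (X j * pderiv i (I SS j (E SS i z) T) + X j * pderiv i (E SS i (I SS j z) T))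
        + ∑ i, E SS i (I SS i z) T := by
    rw [h1]
    simp_rw [Finset.sum_add_distrib]
    rw [add_assoc, h2, add_zero]
  have h4 : ∀ i, ∑ j, (X j * pderiv i (I SS j (E SS i z) T) + X j * pderiv i (E SS i (I SS j z) T))
      = X i * pderiv i (z T) := by
    intro i
    rw [Finset.sum_eq_single i]
    · rw [← mul_add, ← map_add, ← Pi.add_apply, add_comm, E_I_self]
    · intro j _ hj
      rw [← mul_add, ← map_add, E_I_comm (Ne.symm hj), Pi.neg_apply, add_neg_cancel, map_zero,
        mul_zero]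
    · intro h; exact absurd (mem_univ i) h
  rw [h3, Finset.sum_congr rfl fun i _ => h4 i, (hz T).sum_X_mul_pderiv]
  have h5 : ∑ i, E SS i (I SS i z) T = (T.card : SS) * z T := by
    simp_rw [EI_apply]
    rw [← Finset.sum_filter]
    simp
  rw [h5, Pi.smul_apply, smul_eq_mul, nsmul_eq_mul, ← add_mul]
  congr 1
  have hT : T.card ≤ N := (card_le_univ T).trans hN
  rw [← Nat.cast_add, Nat.sub_add_cancel hT]

lemma isHomogeneous_zsmul {m : ℕ} {f : MvPolynomial ι A} (hf : f.IsHomogeneous m) (c : ℤ) :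
    (c • f).IsHomogeneous m := by
  rw [← mem_homogeneousSubmodule] at hf ⊢
  exact zsmul_mem hf c

lemma E_hom {N : ℕ} {z : Finset ι → MvPolynomial ι A}
    (hz : ∀ T, (z T).IsHomogeneous (N - T.card)) (i : ι) (T : Finset ι) :
    (E (MvPolynomial ι A) i z T).IsHomogeneous (N + 1 - T.card) := by
  by_cases hi : i ∈ T
  · rw [E_apply_mem hi]
    have h1 := hz (T.erase i)
    rw [card_erase_of_mem hi] at h1
    have h2 : 0 < T.card := card_pos.2 ⟨i, hi⟩
    have h3 : N - (T.card - 1) = N + 1 - T.card := by omega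
    rw [h3] at h1
    exact isHomogeneous_zsmul h1 _
  · rw [E_apply_notMem hi]; exact isHomogeneous_zero _ _ _

lemma del_hom {N : ℕ} {z : Finset ι → MvPolynomial ι A}
    (hz : ∀ T, (z T).IsHomogeneous (N - T.card)) (T : Finset ι) :
    (del z T).IsHomogeneous (N - T.card) := by
  unfold del
  refine IsHomogeneous.sum _ _ _ fun i _ => ?_
  by_cases hi : i ∈ T
  · have h1 := (E_hom hz i T).pderiv (i := i)
    have h3 : N + 1 - T.card - 1 = N - T.card := by omega
    rwa [h3] at h1
  · rw [E_apply_notMem hi, map_zero]; exact isHomogeneous_zero _ _ _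

lemma dK_hom {N : ℕ} (hN : Fintype.card ι ≤ N) {z : Finset ι → MvPolynomial ι A}
    (hz : ∀ T, (z T).IsHomogeneous (N - T.card)) (T : Finset ι) :
    (dK (X : ι → MvPolynomial ι A) z T).IsHomogeneous (N - T.card) := by
  rw [dK_apply_apply]
  refine IsHomogeneous.sum _ _ _ fun i _ => ?_
  by_cases hi : i ∈ T
  · rw [I_apply_mem hi, mul_zero]; exact isHomogeneous_zero _ _ _
  · rw [I_apply_notMem hi]
    have h1 := hz (insert i T)
    have h2 := card_le_univ (insert i T)
    rw [card_insert_of_notMem hi] at h1 h2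
    have h3 := (isHomogeneous_X A i).mul (isHomogeneous_zsmul h1 (sg i T))
    have h4 : 1 + (N - (T.card + 1)) = N - T.card := by omega
    rwa [h4] at h3

lemma eval_dK (h : ι → A) (z : Finset ι → MvPolynomial ι A) (T : Finset ι) :
    eval h (dK (X : ι → MvPolynomial ι A) z T) = dK h (fun T => eval h (z T)) T := by
  have h1 := congrFun (map_dK (eval h) (X : ι → MvPolynomial ι A) z) T
  simp only [eval_X] at h1
  exact h1

/-- `d` preserves the syzygies -/
lemma dK_mem_RS {h : ι → A} {N : ℕ} (hN : Fintype.card ι ≤ N) {z : Finset ι → MvPolynomial ι A}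
    (hz : ∀ T, z T ∈ RS h (N - T.card)) (T : Finset ι) :
    dK (X : ι → MvPolynomial ι A) z T ∈ RS h (N - T.card) := by
  refine ⟨dK_hom hN (fun T => (hz T).1) T, ?_⟩
  rw [eval_dK]
  have : (fun T => eval h (z T)) = 0 := by
    funext T; exact (hz T).2
  rw [this]; simp

/-- **Exactness of the complex of syzygies.** -/
theorem exact_RS [Algebra ℚ A] {J : Ideal A} {h : ι → A} (hspan : Ideal.span (Set.range h) = J)
    {κ : Type*} (s : κ → A) (hs : Ideal.span (Set.range s) = ⊤)
    (hloc : ∀ i, LocReg J (s i)) {N : ℕ} (hN : Fintype.card ι ≤ N) (hN0 : 0 < N)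
    {z : Finset ι → MvPolynomial ι A} (hz : ∀ T, z T ∈ RS h (N - T.card))
    (hdz : dK (X : ι → MvPolynomial ι A) z = 0) :
    ∃ w : Finset ι → MvPolynomial ι A, (∀ T, w T ∈ RS h (N - T.card)) ∧
      dK (X : ι → MvPolynomial ι A) w = z := by
  let w₀ : Finset ι → SS := (C (algebraMap ℚ A ((N : ℚ)⁻¹)) : SS) • del z
  have hNinv : (C (algebraMap ℚ A ((N : ℚ)⁻¹)) : SS) * (N : SS) = 1 := by
    have : ((N : ℕ) : SS) = C (algebraMap ℚ A (N : ℚ)) := by
      rw [map_natCast, map_natCast]
    rw [this, ← C_mul, ← map_mul, inv_mul_cancel₀ (by exact_mod_cast hN0.ne'), map_one, C_1]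
  have hw₀ : dK (X : ι → SS) w₀ = z := by
    simp only [w₀]
    rw [map_smul, dK_del hN z (fun T => (hz T).1) hdz, smul_smul, hNinv, one_smul]
  have hw₀h : ∀ T, (w₀ T).IsHomogeneous (N - T.card) := fun T =>
    (del_hom (fun T => (hz T).1) T).C_mul _
  have hJ : ∀ T, eval h (w₀ T) ∈ J ^ (N - T.card) := by
    intro T
    rw [← hspan, Ideal.mem_span_pow_iff_exists_isHomogeneous]
    exact ⟨w₀ T, hw₀h T, rfl⟩
  obtain ⟨v, hv, hdv⟩ := exact_KJ hspan s hs hloc hN hJ (by
    funext T
    rw [← eval_dK, hw₀]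
    exact (hz T).2)
  have hlift : ∀ T, ∃ p : SS, p.IsHomogeneous (N - T.card) ∧ eval h p = v T := by
    intro T
    have := hv T
    rwa [← hspan, Ideal.mem_span_pow_iff_exists_isHomogeneous] at this
  choose v' hv'h hv'e using hlift
  refine ⟨w₀ - dK (X : ι → SS) v', fun T => ⟨?_, ?_⟩, ?_⟩
  · exact (hw₀h T).sub (dK_hom hN hv'h T)
  · rw [Pi.sub_apply, map_sub, eval_dK]
    have : (fun T => eval h (v' T)) = v := by funext T; exact hv'e T
    rw [this, hdv]; simp
  · rw [map_sub, dK_dK, sub_zero, hw₀]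

/-! ### Coordinates -/

/-- monomials of degree `m` -/
def Mon (ι : Type u) (m : ℕ) : Type u := {d : ι →₀ ℕ // d.degree = m}

noncomputable instance (m : ℕ) : Fintype (Mon ι m) :=
  (Finsupp.finite_of_degree_eq (σ := ι) m).fintype

noncomputable instance (m : ℕ) : DecidableEq (Mon ι m) := Classical.decEq _

/-- the monomials in the generators -/
noncomputable def hm (h : ι → A) (m : ℕ) (d : Mon ι m) : A := eval h (monomial d.1 (1 : A))

/-- the syzygies in coordinates -/
noncomputable def Syn (h : ι → A) (m : ℕ) : Submodule A (Mon ι m → A) :=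
  LinearMap.ker (Fintype.linearCombination A (hm h m))

lemma mem_Syn {h : ι → A} {m : ℕ} {x : Mon ι m → A} : x ∈ Syn h m ↔ ∑ d, x d * hm h m d = 0 := by
  rw [Syn, LinearMap.mem_ker, Fintype.linearCombination_apply]; rfl

/-- polynomial with given coefficients -/
noncomputable def toPoly (m : ℕ) : (Mon ι m → A) →ₗ[A] MvPolynomial ι A where
  toFun x := ∑ d : Mon ι m, monomial d.1 (x d)
  map_add' x y := by simp [Finset.sum_add_distrib]
  map_smul' c x := by
    simp only [Pi.smul_apply, RingHom.id_apply, Finset.smul_sum, smul_monomial]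

lemma toPoly_apply {m : ℕ} (x : Mon ι m → A) : toPoly m x = ∑ d : Mon ι m, monomial d.1 (x d) := rfl

lemma coeff_toPoly {m : ℕ} (x : Mon ι m → A) (d : Mon ι m) : coeff d.1 (toPoly m x) = x d := by
  rw [toPoly_apply, coeff_sum, Finset.sum_eq_single d]
  · rw [coeff_monomial, if_pos rfl]
  · intro e _ he
    rw [coeff_monomial, if_neg (fun h => he (Subtype.ext h))]
  · intro h; exact absurd (mem_univ d) h

lemma toPoly_hom {m : ℕ} (x : Mon ι m → A) : (toPoly m x).IsHomogeneous m := by
  rw [toPoly_apply]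
  exact IsHomogeneous.sum _ _ _ fun d _ => isHomogeneous_monomial _ d.2

lemma toPoly_coeff {m : ℕ} {f : MvPolynomial ι A} (hf : f.IsHomogeneous m) :
    toPoly m (fun d => coeff d.1 f) = f := by
  ext e
  by_cases he : e.degree = m
  · exact coeff_toPoly _ (⟨e, he⟩ : Mon ι m)
  · rw [(toPoly_hom _).coeff_eq_zero he, hf.coeff_eq_zero he]

lemma eval_toPoly (h : ι → A) {m : ℕ} (x : Mon ι m → A) :
    eval h (toPoly m x) = ∑ d, x d * hm h m d := by
  rw [toPoly_apply, map_sum]
  refine Finset.sum_congr rfl fun d _ => ?_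
  rw [hm, eval_monomial, eval_monomial]; ring

lemma span_hm {J : Ideal A} {h : ι → A} (hspan : Ideal.span (Set.range h) = J) (m : ℕ) :
    Ideal.span (Set.range (hm h m)) = J ^ m := by
  rw [← hspan]
  apply le_antisymm
  · rw [Ideal.span_le]
    rintro _ ⟨d, rfl⟩
    exact (Ideal.mem_span_pow_iff_exists_isHomogeneous h _).2
      ⟨monomial d.1 1, isHomogeneous_monomial _ d.2, rfl⟩
  · intro y hy
    obtain ⟨p, hp, rfl⟩ := (Ideal.mem_span_pow_iff_exists_isHomogeneous h _).1 hy
    rw [← toPoly_coeff hp, eval_toPoly, Ideal.mem_span_range_iff_exists_fun]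
    exact ⟨_, rfl⟩

/-- syzygies: coordinates versus polynomials -/
noncomputable def synEquiv (h : ι → A) (m : ℕ) : Syn h m ≃ₗ[A] RS h m where
  toFun x := ⟨toPoly m x.1, toPoly_hom _, by
    rw [eval_toPoly]; exact mem_Syn.1 x.2⟩
  invFun f := ⟨fun d => coeff d.1 f.1, by
    rw [mem_Syn, ← eval_toPoly, toPoly_coeff f.2.1]; exact f.2.2⟩
  left_inv x := by
    ext d
    exact coeff_toPoly x.1 d
  right_inv f := by
    ext1
    exact toPoly_coeff f.2.1
  map_add' x y := by ext1; exact map_add (toPoly m) x.1 y.1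
  map_smul' c x := by ext1; exact map_smul (toPoly m) c x.1

/-- **Projectivity and finite generation of the syzygy modules** (coordinates). -/
theorem syn_projective {J : Ideal A} {h : ι → A} (hspan : Ideal.span (Set.range h) = J)
    {κ : Type*} (s : κ → A) (hs : Ideal.span (Set.range s) = ⊤)
    (hloc : ∀ i, LocReg J (s i)) (m : ℕ) :
    Module.Projective A (Syn h m) ∧ Module.Finite A (Syn h m) :=
  projective_ker s hs hloc m (hm h m) (span_hm hspan m)


end Crest.Agent.R275.NA3a759
end

-- ▼ part R275/NA3aContr_759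
section

/-!
Graded exact complexes of projective modules are contractible, equivariantly; the even and the odd
part are then isomorphic.
-/

set_option autoImplicit false
set_option linter.unusedSectionVars false

open Finset

namespace Crest.Agent.R275.NA3a759

universe v w

variable {A : Type v} [CommRing A] {P : Type w} [AddCommGroup P] [Module A P]

/-- A graded exact differential on a projective module has a graded contraction (up to degree `n`). -/
lemma exists_contraction_aux [Module.Projective A P] (d : P →ₗ[A] P) (π : ℕ → P →ₗ[A] P)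
    (hππ : ∀ j z, π j (π j z) = π j z) (hne : ∀ i j z, i ≠ j → π i (π j z) = 0)
    (hd0 : ∀ z, d (π 0 z) = 0) (hd : ∀ j z, d (π (j + 1) z) = π j (d z))
    (hdd : ∀ z, d (d z) = 0) (hex : ∀ z, d z = 0 → ∃ w, d w = z) (n : ℕ) :
    ∃ k : P →ₗ[A] P, (∀ j z, k (π j z) = π (j + 1) (k z)) ∧
      ∀ j < n, ∀ z, d (k (π j z)) + k (d (π j z)) = π j z := by
  induction n with
  | zero => exact ⟨0, fun j z => by simp, fun j hj => absurd hj (Nat.not_lt_zero j)⟩
  | succ n ih =>
    obtain ⟨k, hk, hkn⟩ := ih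
    -- facts on degree `n`
    have hdkd : ∀ z, d (k (d (π n z))) = d (π n z) := by
      intro z
      cases n with
      | zero => rw [hd0]; simp
      | succ m =>
        rw [hd]
        have h1 := hkn m (Nat.lt_succ_self m) (d z)
        have h2 : d (π m (d z)) = 0 := by rw [← hd, hdd]
        rw [h2, map_zero, add_zero] at h1
        exact h1
    let φ : P →ₗ[A] P := (LinearMap.id - d ∘ₗ k - k ∘ₗ d) ∘ₗ π n
    have hφ : ∀ z, φ z = π n z - d (k (π n z)) - k (d (π n z)) := fun z => rfl
    have hdφ : ∀ z, d (φ z) = 0 := by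
      intro z
      rw [hφ, map_sub, map_sub, hdd, hdkd]; simp
    -- lift through `d`
    let f : P →ₗ[A] LinearMap.range d := d.rangeRestrict
    have hf : Function.Surjective f := d.surjective_rangeRestrict
    let g : P →ₗ[A] LinearMap.range d := LinearMap.codRestrict _ φ fun z => by
      obtain ⟨w, hw⟩ := hex _ (hdφ z)
      exact ⟨w, hw⟩
    obtain ⟨ψ, hψ⟩ := Module.projective_lifting_property f g hf
    have hdψ : ∀ z, d (ψ z) = φ z := by
      intro z
      have := congrArg Subtype.val (LinearMap.congr_fun hψ z)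
      exact this
    have hπφ : ∀ z, π n (φ z) = φ z := by
      intro z
      rw [hφ, map_sub, map_sub, hππ]
      have e1 : π n (d (k (π n z))) = d (k (π n z)) := by
        rw [← hd, ← hk, hππ]
      have e2 : π n (k (d (π n z))) = k (d (π n z)) := by
        cases n with
        | zero => rw [hd0]; simp
        | succ m => rw [hd, ← hk, hππ]
      rw [e1, e2]
    let ψ' : P →ₗ[A] P := π (n + 1) ∘ₗ ψ ∘ₗ π n
    have hψ' : ∀ z, ψ' z = π (n + 1) (ψ (π n z)) := fun z => rfl
    have hdψ' : ∀ z, d (ψ' z) = φ z := by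
      intro z
      rw [hψ', hd, hdψ]
      have : φ (π n z) = φ z := by rw [hφ, hφ, hππ]
      rw [this, hπφ]
    have hψ'n : ∀ z, ψ' (π n z) = ψ' z := by
      intro z; rw [hψ', hππ]; rfl
    have hψ'ne : ∀ j z, j ≠ n → ψ' (π j z) = 0 := by
      intro j z hj
      rw [hψ', hne n j z (Ne.symm hj)]; simp
    refine ⟨k + ψ', fun j z => ?_, fun j hj z => ?_⟩
    · rw [LinearMap.add_apply, LinearMap.add_apply, map_add, hk]
      congr 1
      by_cases hjn : j = n
      · subst hjn
        rw [hψ'n, hψ', hππ]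
      · rw [hψ'ne j z hjn, hψ', hne (j + 1) (n + 1) _ (by omega)]
    · rw [LinearMap.add_apply, LinearMap.add_apply, map_add]
      have e3 : ψ' (d (π j z)) = 0 := by
        cases j with
        | zero => rw [hd0]; simp
        | succ i => rw [hd, hψ'ne i _ (by omega)]
      rw [e3, add_zero]
      by_cases hjn : j = n
      · subst hjn
        rw [hdψ', hφ, hππ]
        abel
      · rw [hψ'ne j z hjn, map_zero, add_zero]
        exact hkn j (by omega) z

/-- Equivariant contraction and the resulting automorphism `d + k`. -/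
theorem exists_swap [Module.Projective A P] [Algebra ℚ A] (d : P →ₗ[A] P) (π : ℕ → P →ₗ[A] P)
    (q : ℕ) (hsum : ∀ z, ∑ j ∈ range (q + 1), π j z = z)
    (hππ : ∀ j z, π j (π j z) = π j z) (hne : ∀ i j z, i ≠ j → π i (π j z) = 0)
    (hd0 : ∀ z, d (π 0 z) = 0) (hd : ∀ j z, d (π (j + 1) z) = π j (d z))
    (hdd : ∀ z, d (d z) = 0) (hex : ∀ z, d z = 0 → ∃ w, d w = z)
    (σA : A →+* A) (σ : P →+ P) (hσsmul : ∀ a z, σ (a • z) = σA a • σ z)
    (hσA : ∀ a, σA (σA a) = a) (hσσ : ∀ z, σ (σ z) = z)
    (hσd : ∀ z, σ (d z) = d (σ z)) (hσπ : ∀ j z, σ (π j z) = π j (σ z)) :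
    ∃ g : P ≃ₗ[A] P, (∀ z, g (σ z) = σ (g z)) ∧
      (∀ (p : ℕ → Prop), (∀ j, p (j + 1) ↔ ¬ p j) → ∀ z, (∀ j, ¬ p j → π j z = 0) →
        (∀ j, p j → π j (g z) = 0) ∧ (∀ j, p j → π j (g.symm z) = 0)) := by
  obtain ⟨k, hk, hkn⟩ := exists_contraction_aux d π hππ hne hd0 hd hdd hex (q + 1)
  have hdk : ∀ z, d (k z) + k (d z) = z := by
    intro z
    conv_rhs => rw [← hsum z]
    have h1 : d (k z) + k (d z) = ∑ j ∈ range (q + 1), (d (k (π j z)) + k (d (π j z))) := by
      simp only [Finset.sum_add_distrib, ← map_sum, hsum]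
    rw [h1]
    exact Finset.sum_congr rfl fun j hj => hkn j (Finset.mem_range.1 hj) z
  -- `c = 1/2`
  let c : A := algebraMap ℚ A (1 / 2)
  have hc2 : c + c = 1 := by
    simp only [c]; rw [← map_add]; norm_num
  have hσc : σA c = c := by
    have h1 : σA c + σA c = 1 := by rw [← map_add, hc2, map_one]
    have h2 : (c + c) * σA c = (c + c) * c := by
      have : (c + c) * σA c = c * (σA c + σA c) := by ring
      rw [this, h1, hc2]; ring
    rwa [hc2, one_mul, one_mul] at h2
  -- averaged contraction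
  let kσ : P →ₗ[A] P :=
    { toFun := fun z => σ (k (σ z))
      map_add' := fun x y => by rw [map_add, map_add, map_add]
      map_smul' := fun a x => by rw [hσsmul, map_smul, hσsmul, hσA]; rfl }
  have hkσ : ∀ z, kσ z = σ (k (σ z)) := fun z => rfl
  let k' : P →ₗ[A] P := c • (k + kσ)
  have hk' : ∀ z, k' z = c • (k z + σ (k (σ z))) := fun z => rfl
  have hdk' : ∀ z, d (k' z) + k' (d z) = z := by
    intro z
    have h1 : d (σ (k (σ z))) + σ (k (σ (d z))) = z := by
      rw [← hσd, hσd z, ← map_add, hdk, hσσ]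
    rw [hk', hk', map_smul, ← smul_add, map_add]
    have h2 : d (k z) + d (σ (k (σ z))) + (k (d z) + σ (k (σ (d z)))) = z + z := by
      have := hdk z
      calc _ = (d (k z) + k (d z)) + (d (σ (k (σ z))) + σ (k (σ (d z)))) := by abel
        _ = z + z := by rw [this, h1]
    rw [h2, smul_add, ← add_smul, hc2, one_smul]
  have hk'π : ∀ j z, k' (π j z) = π (j + 1) (k' z) := by
    intro j z
    rw [hk', hk', map_smul, map_add, hk, hσπ, hk, hσπ]
  have hk'σ : ∀ z, k' (σ z) = σ (k' z) := by
    intro z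
    rw [hk', hk', hσsmul, hσc, map_add, hσσ, hσσ, add_comm]
  -- nilpotency
  have hkpow : ∀ (m j : ℕ) z, (k' ^ m) (π j z) = π (j + m) ((k' ^ m) z) := by
    intro m
    induction m with
    | zero => intro j z; simp
    | succ m ih =>
      intro j z
      rw [pow_succ', Module.End.mul_apply, Module.End.mul_apply, ih, hk'π]
      rfl
  have hπbig : ∀ j, q < j → ∀ z, π j z = 0 := by
    intro j hj z
    conv_lhs => rw [← hsum z]
    rw [map_sum]
    refine Finset.sum_eq_zero fun i hi => hne j i z ?_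
    have := Finset.mem_range.1 hi
    omega
  have hknil : k' ^ (q + 1) = 0 := by
    ext z
    conv_lhs => rw [← hsum z]
    rw [map_sum]
    refine Finset.sum_eq_zero fun i _ => ?_
    rw [hkpow, hπbig _ (by omega)]
  let g₀ : P →ₗ[A] P := d + k'
  have hg₀ : ∀ z, g₀ z = d z + k' z := fun z => rfl
  have hgg : g₀ * g₀ = 1 + k' * k' := by
    ext z
    show g₀ (g₀ z) = z + k' (k' z)
    rw [hg₀, hg₀, map_add, map_add, hdd]
    calc _ = (d (k' z) + k' (d z)) + k' (k' z) := by abel
      _ = z + k' (k' z) := by rw [hdk']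
  have hnil : IsNilpotent (k' * k') := ⟨q + 1, by
    rw [(Commute.refl k').mul_pow, hknil, zero_mul]⟩
  have hunit : IsUnit (g₀ * g₀) := by
    rw [hgg]; exact hnil.isUnit_one_add
  have hu0 : IsUnit g₀ := by
    obtain ⟨u, hu⟩ := hunit
    refine isUnit_iff_exists.2 ⟨g₀ * (↑u⁻¹ : Module.End A P), ?_, ?_⟩
    · rw [← mul_assoc, ← hu, Units.mul_inv]
    · -- `g₀` commutes with `u`
      have hcomm : Commute g₀ (u : Module.End A P) := by
        rw [hu]; exact (Commute.refl g₀).mul_right (Commute.refl g₀)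
      have hcomm' : Commute g₀ (↑u⁻¹ : Module.End A P) := hcomm.units_inv_right
      rw [mul_assoc, ← hcomm'.eq, ← mul_assoc, ← hu, Units.mul_inv]
  have hbij : Function.Bijective g₀ := by
    obtain ⟨b, hb1, hb2⟩ := isUnit_iff_exists.1 hu0
    refine ⟨fun x y hxy => ?_, fun y => ⟨b y, ?_⟩⟩
    · have := congrArg b hxy
      rwa [← Module.End.mul_apply, ← Module.End.mul_apply, hb2, Module.End.one_apply,
        Module.End.one_apply] at this
    · rw [← Module.End.mul_apply, hb1, Module.End.one_apply]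
  let g : P ≃ₗ[A] P := LinearEquiv.ofBijective g₀ hbij
  have hg : ∀ z, g z = d z + k' z := fun z => rfl
  -- parity
  have hπd : ∀ j z, π j (d z) = d (π (j + 1) z) := fun j z => (hd j z).symm
  have hpar : ∀ (p : ℕ → Prop), (∀ j, p (j + 1) ↔ ¬ p j) → ∀ z, (∀ j, ¬ p j → π j z = 0) →
      ∀ j, p j → π j (g z) = 0 := by
    intro p hp z hz j hj
    rw [hg, map_add, hπd, hz (j + 1) (fun h => ((hp j).1 h) hj), map_zero, zero_add]
    cases j with
    | zero =>
      -- `π 0 (k' z) = 0`
      conv_lhs => rw [← hsum (k' z)]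
      have h1 : ∀ m z', π 0 (k' (π m z')) = 0 := by
        intro m z'
        rw [hk'π, hne 0 (m + 1) _ (by omega)]
      have h2 : π 0 (k' z) = 0 := by
        conv_lhs => rw [← hsum z]
        rw [map_sum, map_sum]
        exact Finset.sum_eq_zero fun i _ => h1 i z
      rw [hsum, h2]
    | succ i =>
      rw [← hk'π, hz i ((hp i).1 hj), map_zero]
  refine ⟨g, fun z => ?_, fun p hp z hz => ⟨hpar p hp z hz, ?_⟩⟩
  · rw [hg, hg, map_add, hσd, hk'σ]
  · -- split the preimage by parity
    classical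
    intro j hj
    set y := g.symm z with hy
    have hgy : g y = z := by rw [hy]; simp
    -- the `p`-part of `y`
    let y₁ : P := ∑ j ∈ (range (q + 1)).filter p, π j y
    let y₂ : P := ∑ j ∈ (range (q + 1)).filter (fun j => ¬ p j), π j y
    have hy12 : y₁ + y₂ = y := by
      simp only [y₁, y₂]
      rw [Finset.sum_filter_add_sum_filter_not]
      exact hsum y
    have hpy₁ : ∀ j, ¬ p j → π j y₁ = 0 := by
      intro j hj
      simp only [y₁]
      rw [map_sum]
      refine Finset.sum_eq_zero fun i hi => hne j i y ?_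
      rintro rfl
      exact hj (Finset.mem_filter.1 hi).2
    have hpy₂ : ∀ j, p j → π j y₂ = 0 := by
      intro j hj
      simp only [y₂]
      rw [map_sum]
      refine Finset.sum_eq_zero fun i hi => hne j i y ?_
      rintro rfl
      exact (Finset.mem_filter.1 hi).2 hj
    -- `g y₁` is supported on `¬ p`, `g y₂` on `p`
    have e1 : ∀ j, p j → π j (g y₁) = 0 := hpar p hp y₁ hpy₁
    have e2 : ∀ j, ¬ p j → π j (g y₂) = 0 := by
      intro j hj
      refine hpar (fun j => ¬ p j) (fun j => by rw [hp j]) y₂ (fun j hj => hpy₂ j (not_not.1 hj)) j hj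
    -- hence `g y₁ = 0`
    have e3 : g y₁ = 0 := by
      rw [← hsum (g y₁)]
      refine Finset.sum_eq_zero fun i _ => ?_
      by_cases hi : p i
      · exact e1 i hi
      · have h1 : π i (g y) = 0 := by rw [hgy]; exact hz i hi
        rw [← hy12, map_add, map_add, e2 i hi, add_zero] at h1
        exact h1
    have e4 : y₁ = 0 := by
      have := g.map_eq_zero_iff.1 e3
      exact this
    have e5 : y = y₂ := by rw [← hy12, e4, zero_add]
    rw [e5]
    exact hpy₂ j hj

end Crest.Agent.R275.NA3a759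
end

-- ▼ part R275/NA3aMain_759
section

/-!
NA3a, final statements: the syzygy modules `K h m = ker (dot (hm h m))` are finitely generated
projective, and the even and odd parts of `⊕_T K h (N - |T|)` are equivariantly isomorphic (`N ≥ q`).
-/

set_option autoImplicit false
set_option linter.unusedSectionVars false

open Finset MvPolynomial Crest.Agent.R275.NA3m425

namespace Crest.Agent.R275.NA3a759

universe u v w

variable {ι : Type u} [LinearOrder ι] [Fintype ι] {A : Type v} [CommRing A]

/-- syzygies of the monomials of degree `m` in `h` -/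
noncomputable abbrev K (h : ι → A) (m : ℕ) : Submodule A (Mon ι m → A) :=
  LinearMap.ker (dot (Om := A) (hm h m))

lemma mem_K {h : ι → A} {m : ℕ} {x : Mon ι m → A} : x ∈ K h m ↔ ∑ d, hm h m d * x d = 0 := by
  rw [K, LinearMap.mem_ker, dot_apply]; rfl

lemma K_eq (h : ι → A) (m : ℕ) : K h m = Syn h m := by
  ext x
  rw [mem_K, mem_Syn]
  simp_rw [mul_comm]

theorem K_projective {J : Ideal A} {h : ι → A} (hspan : Ideal.span (Set.range h) = J)
    {κ : Type*} (s : κ → A) (hs : Ideal.span (Set.range s) = ⊤)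
    (hloc : ∀ i, LocReg J (s i)) (m : ℕ) : Module.Projective A (K h m) := by
  rw [K_eq]; exact (syn_projective hspan s hs hloc m).1

theorem K_finite {J : Ideal A} {h : ι → A} (hspan : Ideal.span (Set.range h) = J)
    {κ : Type*} (s : κ → A) (hs : Ideal.span (Set.range s) = ⊤)
    (hloc : ∀ i, LocReg J (s i)) (m : ℕ) : Module.Finite A (K h m) := by
  rw [K_eq]; exact (syn_projective hspan s hs hloc m).2

/-- `K h m` versus homogeneous polynomials -/
noncomputable def kEquiv (h : ι → A) (m : ℕ) : K h m ≃ₗ[A] RS h m :=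
  (LinearEquiv.ofEq _ _ (K_eq h m)).trans (synEquiv h m)

lemma kEquiv_coe (h : ι → A) (m : ℕ) (x : K h m) : (kEquiv h m x : MvPolynomial ι A)
    = toPoly m x.1 := rfl

lemma toPoly_kEquiv_symm (h : ι → A) (m : ℕ) (f : RS h m) :
    toPoly m ((kEquiv h m).symm f).1 = f.1 := by
  rw [← kEquiv_coe, LinearEquiv.apply_symm_apply]

section Total

variable (h : ι → A) (N : ℕ)

/-- the total module `⊕_T K h (N - |T|)` -/
abbrev Tot : Type (max u v) := ∀ T : Finset ι, K h (N - T.card)

variable {h N}

/-- the family of polynomials -/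
noncomputable def toP (z : Tot h N) : Finset ι → MvPolynomial ι A := fun T => toPoly _ (z T).1

lemma toP_apply (z : Tot h N) (T : Finset ι) : toP z T = toPoly _ (z T).1 := rfl

lemma toP_mem (z : Tot h N) (T : Finset ι) : toP z T ∈ RS h (N - T.card) := by
  rw [toP_apply, ← kEquiv_coe]; exact (kEquiv h _ (z T)).2

lemma toP_inj {z w : Tot h N} (e : toP z = toP w) : z = w := by
  funext T
  apply (kEquiv h _).injective
  ext1
  exact congrFun e T

lemma toP_add (z w : Tot h N) : toP (z + w) = toP z + toP w := by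
  funext T
  simp [toP_apply]

lemma toP_smul (a : A) (z : Tot h N) : toP (a • z) = a • toP z := by
  funext T
  simp [toP_apply]

lemma toP_zero : toP (0 : Tot h N) = 0 := by
  funext T
  simp [toP_apply]

lemma exists_toP {f : Finset ι → MvPolynomial ι A} (hf : ∀ T, f T ∈ RS h (N - T.card)) :
    ∃ z : Tot h N, toP z = f :=
  ⟨fun T => (kEquiv h _).symm ⟨f T, hf T⟩, by
    funext T; rw [toP_apply, toPoly_kEquiv_symm]⟩


/-- the differential of the total module -/
noncomputable def dT (hN : Fintype.card ι ≤ N) : Tot h N →ₗ[A] Tot h N where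
  toFun z := fun T => (kEquiv h _).symm ⟨dK (X : ι → MvPolynomial ι A) (toP z) T,
    dK_mem_RS hN (toP_mem z) T⟩
  map_add' z w := by
    funext T
    rw [Pi.add_apply, ← map_add]
    congr 1
    ext1
    simp [toP_add]
  map_smul' a z := by
    funext T
    rw [RingHom.id_apply, Pi.smul_apply, ← map_smul]
    congr 1
    ext1
    simp [toP_smul]

lemma toP_dT (hN : Fintype.card ι ≤ N) (z : Tot h N) :
    toP (dT hN z) = dK (X : ι → MvPolynomial ι A) (toP z) := by
  funext T
  rw [toP_apply]
  exact toPoly_kEquiv_symm h _ _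

/-- projection to the degree `j` part -/
noncomputable def prj (j : ℕ) : Tot h N →ₗ[A] Tot h N where
  toFun z := fun T => if T.card = j then z T else 0
  map_add' z w := by
    funext T
    by_cases hT : T.card = j <;> simp [hT]
  map_smul' a z := by
    funext T
    by_cases hT : T.card = j <;> simp [hT]

lemma prj_apply (j : ℕ) (z : Tot h N) (T : Finset ι) :
    prj j z T = if T.card = j then z T else 0 := rfl

lemma toP_prj (j : ℕ) (z : Tot h N) :
    toP (prj j z) = fun T => if T.card = j then toP z T else 0 := by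
  funext T
  rw [toP_apply, prj_apply]
  by_cases hT : T.card = j
  · rw [if_pos hT, if_pos hT, toP_apply]
  · rw [if_neg hT, if_neg hT]; simp

lemma dK_cut (w : Finset ι → MvPolynomial ι A) (j : ℕ) (T : Finset ι) :
    dK (X : ι → MvPolynomial ι A) (fun T => if T.card = j then w T else 0) T
      = if T.card + 1 = j then dK (X : ι → MvPolynomial ι A) w T else 0 := by
  rw [dK_apply_apply, dK_apply_apply]
  by_cases hT : T.card + 1 = j
  · rw [if_pos hT]
    refine Finset.sum_congr rfl fun i _ => ?_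
    by_cases hi : i ∈ T
    · rw [I_apply_mem hi, I_apply_mem hi]
    · rw [I_apply_notMem hi, I_apply_notMem hi, card_insert_of_notMem hi, if_pos hT]
  · rw [if_neg hT]
    refine Finset.sum_eq_zero fun i _ => ?_
    by_cases hi : i ∈ T
    · rw [I_apply_mem hi, mul_zero]
    · rw [I_apply_notMem hi, card_insert_of_notMem hi, if_neg hT, smul_zero, mul_zero]

end Total

section Equiv

/-- monomials in odd generators -/
lemma map_hm {h : ι → A} {s : A →+* A} (hodd : ∀ i, s (h i) = - h i) (m : ℕ) (d : Mon ι m) :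
    s (hm h m d) = ((-1 : ℤˣ) ^ m) • hm h m d := by
  have h1 : hm h m d = ∏ i, h i ^ (d.1 i) := by
    rw [hm, eval_monomial, one_mul, Finsupp.prod_fintype _ _ (fun i => pow_zero _)]
  have h2 : s (hm h m d) = ∏ i, (- h i) ^ (d.1 i) := by
    rw [h1, map_prod]
    exact Finset.prod_congr rfl fun i _ => by rw [map_pow, hodd]
  have h3 : ∏ i, (- h i) ^ (d.1 i) = (-1) ^ m * ∏ i, h i ^ (d.1 i) := by
    have : ∀ i, (- h i) ^ (d.1 i) = (-1) ^ (d.1 i) * h i ^ (d.1 i) := fun i => by
      rw [neg_pow]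
    rw [Finset.prod_congr rfl fun i _ => this i, Finset.prod_mul_distrib,
      Finset.prod_pow_eq_pow_sum, ← Finsupp.degree_eq_sum, d.2]
  rw [h2, h3, h1, Units.smul_def]
  simp

variable {h : ι → A} {s : A →+* A}

/-- the involution on the syzygies: `v ↦ (-1)^m s(v)` -/
noncomputable def tauK (hodd : ∀ i, s (h i) = - h i) (m : ℕ) : K h m →+ K h m where
  toFun x := ⟨tw s (fun _ => (-1 : ℤˣ) ^ m) x.1, by
    have hx := mem_K.1 x.2
    rw [mem_K]
    have h1 := congrArg s hx
    rw [map_sum, map_zero] at h1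
    rw [← h1]
    refine Finset.sum_congr rfl fun d _ => ?_
    rw [map_mul, map_hm hodd, tw_apply, Units.smul_def, Units.smul_def, mul_smul_comm,
      smul_mul_assoc]⟩
  map_zero' := by ext; simp
  map_add' x y := by ext; simp

lemma tauK_coe (hodd : ∀ i, s (h i) = - h i) (m : ℕ) (x : K h m) (d : Mon ι m) :
    (tauK hodd m x).1 d = ((-1 : ℤˣ) ^ m) • s (x.1 d) := rfl

/-- the involution of a family: `(T r)_T = (-1)^(N-|T|) τ (r_T)` -/
noncomputable def sigT (hodd : ∀ i, s (h i) = - h i) (N : ℕ) {p : Finset ι → Prop} :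
    (∀ T : {T : Finset ι // p T}, K h (N - T.1.card)) →+
      (∀ T : {T : Finset ι // p T}, K h (N - T.1.card)) where
  toFun r := fun T => ((-1 : ℤˣ) ^ (N - T.1.card)) • tauK hodd _ (r T)
  map_zero' := by funext T; simp
  map_add' x y := by funext T; simp


/-- the same on the total module -/
noncomputable def sigTot (hodd : ∀ i, s (h i) = - h i) (N : ℕ) : Tot h N →+ Tot h N where
  toFun r := fun T => ((-1 : ℤˣ) ^ (N - T.card)) • tauK hodd _ (r T)
  map_zero' := by funext T; simp
  map_add' x y := by funext T; simp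

lemma sigTot_apply (hodd : ∀ i, s (h i) = - h i) (N : ℕ) (r : Tot h N) (T : Finset ι) :
    sigTot hodd N r T = ((-1 : ℤˣ) ^ (N - T.card)) • tauK hodd _ (r T) := rfl

lemma sigTot_coe (hodd : ∀ i, s (h i) = - h i) (N : ℕ) (r : Tot h N) (T : Finset ι)
    (d : Mon ι (N - T.card)) : (sigTot hodd N r T).1 d = s ((r T).1 d) := by
  have h1 : (sigTot hodd N r T).1 d
      = ((-1 : ℤˣ) ^ (N - T.card)) • (((-1 : ℤˣ) ^ (N - T.card)) • s ((r T).1 d)) := by
    rw [sigTot_apply]; rfl
  rw [h1, smul_smul, ← mul_pow]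
  simp

lemma toP_sigTot (hodd : ∀ i, s (h i) = - h i) (N : ℕ) (r : Tot h N) :
    toP (sigTot hodd N r) = fun T => MvPolynomial.map s (toP r T) := by
  funext T
  rw [toP_apply, toP_apply, toPoly_apply, toPoly_apply, map_sum]
  refine Finset.sum_congr rfl fun d _ => ?_
  rw [sigTot_coe, map_monomial]

end Equiv

/-- **NA3a.** The even and the odd part of the total syzygy module are equivariantly isomorphic. -/
theorem even_odd [Algebra ℚ A] {J : Ideal A} {h : ι → A} (hspan : Ideal.span (Set.range h) = J)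
    {κ : Type*} (sf : κ → A) (hs : Ideal.span (Set.range sf) = ⊤)
    (hloc : ∀ i, LocReg J (sf i)) {N : ℕ} (hN : Fintype.card ι ≤ N) (hN0 : 0 < N)
    {s : A →+* A} (hss : ∀ a, s (s a) = a) (hodd : ∀ i, s (h i) = - h i) :
    ∃ e : (∀ T : {T : Finset ι // Even T.card}, K h (N - T.1.card)) ≃ₗ[A]
        (∀ T : {T : Finset ι // ¬ Even T.card}, K h (N - T.1.card)),
      ∀ r, e (sigT hodd N r) = sigT hodd N (e r) := by
  classical
  have hproj : ∀ m, Module.Projective A (K h m) := K_projective hspan sf hs hloc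
  have hPT : Module.Projective A (Tot h N) := by
    have h1 : ∀ T : Finset ι, Module.Projective A (K h (N - T.card)) := fun T => hproj _
    exact Module.Projective.of_equiv
      (DFinsupp.linearEquivFunOnFintype (R := A) (M := fun T : Finset ι => K h (N - T.card)))
  obtain ⟨g, hgσ, hgp⟩ := exists_swap (P := Tot h N) (dT hN) prj (Fintype.card ι)
    (fun z => by
      funext T
      rw [Finset.sum_apply]
      rw [Finset.sum_eq_single T.card]
      · rw [prj_apply, if_pos rfl]
      · intro j _ hj; rw [prj_apply, if_neg (Ne.symm hj)]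
      · intro hT
        exact absurd (Finset.mem_range.2 (Nat.lt_succ_of_le (card_le_univ T))) hT)
    (fun j z => by
      funext T
      rw [prj_apply, prj_apply]
      by_cases hT : T.card = j <;> simp [hT])
    (fun i j z hij => by
      funext T
      rw [prj_apply, prj_apply]
      by_cases hT : T.card = i
      · rw [if_pos hT, if_neg (fun h' => hij (hT ▸ h'))]; rfl
      · rw [if_neg hT]; rfl)
    (fun z => by
      apply toP_inj
      rw [toP_dT, toP_prj, toP_zero]
      funext T
      rw [dK_cut, if_neg (by omega)]; rfl)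
    (fun j z => by
      apply toP_inj
      rw [toP_dT, toP_prj, toP_prj, toP_dT]
      funext T
      rw [dK_cut]
      by_cases hT : T.card = j
      · rw [if_pos hT, if_pos (by omega)]
      · rw [if_neg hT, if_neg (by omega)])
    (fun z => by
      apply toP_inj
      rw [toP_dT, toP_dT, dK_dK, toP_zero])
    (fun z hz => by
      have h1 : dK (X : ι → MvPolynomial ι A) (toP z) = 0 := by
        rw [← toP_dT hN, hz, toP_zero]
      obtain ⟨w, hw, hdw⟩ := exact_RS hspan sf hs hloc hN hN0 (toP_mem z) h1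
      obtain ⟨w', hw'⟩ := exists_toP hw
      refine ⟨w', toP_inj ?_⟩
      rw [toP_dT, hw', hdw])
    s (sigTot hodd N)
    (fun a z => by
      funext T
      ext d
      rw [sigTot_coe]
      show s (a * (z T).1 d) = s a * (sigTot hodd N z T).1 d
      rw [sigTot_coe, map_mul])
    hss
    (fun z => by
      funext T
      ext d
      rw [sigTot_coe, sigTot_coe, hss])
    (fun z => by
      apply toP_inj
      rw [toP_dT, toP_sigTot, toP_dT, toP_sigTot]
      have h1 := map_dK (MvPolynomial.map s) (X : ι → MvPolynomial ι A) (toP z)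
      simp only [map_X] at h1
      exact h1)
    (fun j z => by
      apply toP_inj
      rw [toP_sigTot, toP_prj, toP_prj, toP_sigTot]
      funext T
      by_cases hT : T.card = j <;> simp [hT])
  -- extension by zero and restriction
  let ext (p : Finset ι → Prop) [DecidablePred p] :
      (∀ T : {T : Finset ι // p T}, K h (N - T.1.card)) →ₗ[A] Tot h N :=
    { toFun := fun x T => if hT : p T then x ⟨T, hT⟩ else 0
      map_add' := fun x y => by
        funext T
        by_cases hT : p T <;> simp [hT]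
      map_smul' := fun a x => by
        funext T
        by_cases hT : p T <;> simp [hT] }
  let res (p : Finset ι → Prop) : Tot h N →ₗ[A]
      (∀ T : {T : Finset ι // p T}, K h (N - T.1.card)) :=
    { toFun := fun z T => z T.1
      map_add' := fun x y => rfl
      map_smul' := fun a x => rfl }
  have hext : ∀ (p : Finset ι → Prop) [DecidablePred p] x T, ext p x T
      = if hT : p T then x ⟨T, hT⟩ else 0 := fun p _ x T => rfl
  have hres_ext : ∀ (p : Finset ι → Prop) [DecidablePred p] x, res p (ext p x) = x := by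
    intro p _ x
    funext T
    show ext p x T.1 = x T
    rw [hext, dif_pos T.2]
  have hext_res : ∀ (p : Finset ι → Prop) [DecidablePred p] (z : Tot h N),
      (∀ T, ¬ p T → z T = 0) → ext p (res p z) = z := by
    intro p _ z hz
    funext T
    rw [hext]
    by_cases hT : p T
    · rw [dif_pos hT]; rfl
    · rw [dif_neg hT, hz T hT]
  have hsup : ∀ (p : ℕ → Prop) (z : Tot h N),
      (∀ j, ¬ p j → prj j z = 0) ↔ (∀ T : Finset ι, ¬ p T.card → z T = 0) := by
    intro p z
    constructor
    · intro h1 T hT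
      have h2 := congrFun (h1 _ hT) T
      rwa [prj_apply, if_pos rfl] at h2
    · intro h1 j hj
      funext T
      rw [prj_apply]
      by_cases hT : T.card = j
      · rw [if_pos hT, h1 T (hT ▸ hj)]; rfl
      · rw [if_neg hT]; rfl
  have hE : ∀ j : ℕ, Even (j + 1) ↔ ¬ Even j := fun j => Nat.even_add_one
  have hO : ∀ j : ℕ, ¬ Even (j + 1) ↔ ¬ ¬ Even j := fun j => by rw [Nat.even_add_one]
  -- `g` maps even to odd
  have g1 : ∀ x, ∀ T : Finset ι, ¬ ¬ Even T.card →
      g (ext (fun T => Even T.card) x) T = 0 := by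
    intro x
    have h1 := (hgp Even hE (ext (fun T => Even T.card) x)
      ((hsup Even _).2 fun T hT => by rw [hext, dif_neg hT])).1
    exact (hsup (fun j => ¬ Even j) _).1 fun j hj => h1 j (not_not.1 hj)
  have g2 : ∀ x, ∀ T : Finset ι, ¬ Even T.card →
      g.symm (ext (fun T => ¬ Even T.card) x) T = 0 := by
    intro x
    have h1 := (hgp (fun j => ¬ Even j) hO (ext (fun T => ¬ Even T.card) x)
      ((hsup (fun j => ¬ Even j) _).2 fun T hT => by rw [hext, dif_neg hT])).2
    exact (hsup Even _).1 fun j hj => h1 j hj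
  let e : (∀ T : {T : Finset ι // Even T.card}, K h (N - T.1.card)) ≃ₗ[A]
      (∀ T : {T : Finset ι // ¬ Even T.card}, K h (N - T.1.card)) :=
    LinearEquiv.ofLinearMap
      (res (fun T => ¬ Even T.card) ∘ₗ g.toLinearMap ∘ₗ ext (fun T => Even T.card))
      (res (fun T => Even T.card) ∘ₗ g.symm.toLinearMap ∘ₗ ext (fun T => ¬ Even T.card))
      (by
        refine LinearMap.ext fun x => ?_
        show res _ (g (ext (fun T => Even T.card) (res (fun T => Even T.card)
          (g.symm (ext (fun T => ¬ Even T.card) x))))) = x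
        rw [hext_res _ _ (g2 x), LinearEquiv.apply_symm_apply, hres_ext])
      (by
        refine LinearMap.ext fun x => ?_
        show res _ (g.symm (ext (fun T => ¬ Even T.card) (res (fun T => ¬ Even T.card)
          (g (ext (fun T => Even T.card) x))))) = x
        rw [hext_res _ _ (g1 x), LinearEquiv.symm_apply_apply, hres_ext])
  refine ⟨e, fun r => ?_⟩
  have he : ∀ x, e x = res (fun T => ¬ Even T.card) (g (ext (fun T => Even T.card) x)) :=
    fun x => rfl
  have h1 : ext (fun T => Even T.card) (sigT hodd N r)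
      = sigTot hodd N (ext (fun T => Even T.card) r) := by
    funext T
    rw [hext, sigTot_apply, hext]
    by_cases hT : Even T.card
    · rw [dif_pos hT, dif_pos hT]; rfl
    · rw [dif_neg hT, dif_neg hT, map_zero, smul_zero]
  rw [he, h1, hgσ]
  rfl

end Crest.Agent.R275.NA3a759
end

-- ▼ part R275/NA8a_759

/-!
R275, PART I', NA8 (helper759), part a: abstract equivariant index of signed idempotents and the
relation coming from the Koszul complex of the syzygy modules.

* `SInd E` : an equivariant index (IX2/IX3 of doc 1022) for superbundles over `E : Dol k A Om`.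
* `HasInd` : index of a module with involution having an equivariant presentation; products.
* `kos_rel` : `∑_T κ (q - |T|) = 0`.
-/

set_option autoImplicit false
set_option linter.unusedSectionVars false

noncomputable section

namespace Crest.Agent.R275.NA8759

open Crest.Agent.R275.NA7763 Crest.Agent.R275.NA6763 Crest.Agent.R275.NA3m425
open Crest.Agent.R275.NA6b763 Crest.Agent.R275.NA3a759
open Matrix

variable {k A Om : Type*} [Field k] [CommRing A] [Algebra k A] [AddCommGroup Om] [Module k Om]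
  [Module A Om] [IsScalarTower k A Om]

/-- matrices equivariant up to signs -/
def SgnM (s : A →+* A) {m n : Type*} (t : m → ℤˣ) (t' : n → ℤˣ) (B : Matrix m n A) : Prop :=
  ∀ i j, s (B i j) = t i • t' j • B i j

/-- signed idempotents -/
structure SIdem (s : A →+* A) {N : Type} [Fintype N] (p : Matrix N N A) (t : N → ℤˣ) : Prop where
  idem : p * p = p
  sgn : SgnM s t t p

/-- **Equivariant index** on signed idempotent matrices over `E`. -/
structure SInd (E : Dol k A Om) where
  /-- the index -/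
  ind : ∀ {N : Type} [Fintype N], Matrix N N A → (N → ℤˣ) → ℤ
  iso : ∀ {N N' : Type} [Fintype N] [Fintype N'] {p : Matrix N N A} {t : N → ℤˣ}
    {q : Matrix N' N' A} {t' : N' → ℤˣ}, SIdem E.s p t → SIdem E.s q t' →
    ∀ (a : Matrix N N' A) (b : Matrix N' N A), a * b = p → b * a = q →
      SgnM E.s t t' a → SgnM E.s t' t b → ind p t = ind q t'
  sum : ∀ {N N' : Type} [Fintype N] [Fintype N'] {p : Matrix N N A} {t : N → ℤˣ}
    {q : Matrix N' N' A} {t' : N' → ℤˣ}, SIdem E.s p t → SIdem E.s q t' →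
    ind (Matrix.fromBlocks p 0 0 q) (Sum.elim t t') = ind p t + ind q t'
  neg : ∀ {N : Type} [Fintype N] {p : Matrix N N A} {t : N → ℤˣ}, SIdem E.s p t →
    ind p (fun i => - t i) = - ind p t
  fin : ∀ {N : Type} [Fintype N] (X : Super E N), (∀ i, 0 ≤ X.hd i) →
    FiniteDimensional k X.sc.H
  st : ∀ {N : Type} [Fintype N] (X : Super E N), (∀ i, 0 ≤ X.hd i) →
    X.sc.st = (ind X.P (fun i => NA6b763.sgn (X.hd i) * X.t i) : k)

section basics

variable {s : A →+* A} {N N' : Type} [Fintype N] [Fintype N']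

theorem sgnM_one [DecidableEq N] (t : N → ℤˣ) : SgnM s t t (1 : Matrix N N A) := by
  intro i j
  rw [Matrix.one_apply]
  split_ifs with h
  · subst h
    rw [map_one, smul_smul, Int.units_mul_self, one_smul]
  · rw [map_zero, smul_zero, smul_zero]

theorem sIdem_one [DecidableEq N] (t : N → ℤˣ) : SIdem s (1 : Matrix N N A) t :=
  ⟨one_mul 1, sgnM_one t⟩

theorem SIdem.blocks {p : Matrix N N A} {t : N → ℤˣ} {q : Matrix N' N' A} {t' : N' → ℤˣ}
    (hp : SIdem s p t) (hq : SIdem s q t') :
    SIdem s (Matrix.fromBlocks p 0 0 q) (Sum.elim t t') where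
  idem := by rw [Matrix.fromBlocks_multiply]; simp [hp.idem, hq.idem]
  sgn := by
    rintro (i | i) (j | j)
    · exact hp.sgn i j
    · simp
    · simp
    · exact hq.sgn i j

theorem SIdem.submatrix {p : Matrix N N A} {t : N → ℤˣ} (hp : SIdem s p t) (e : N' ≃ N) :
    SIdem s (p.submatrix e e) (fun i => t (e i)) where
  idem := by
    rw [Matrix.submatrix_mul_equiv, hp.idem]
  sgn := fun i j => hp.sgn (e i) (e j)

theorem SIdem.neg {p : Matrix N N A} {t : N → ℤˣ} (hp : SIdem s p t) :
    SIdem s p (fun i => - t i) where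
  idem := hp.idem
  sgn := by
    intro i j
    rw [hp.sgn i j]
    simp [Units.smul_def]

theorem SIdem.mul_const {p : Matrix N N A} {t : N → ℤˣ} (hp : SIdem s p t) (ε : ℤˣ) :
    SIdem s p (fun i => ε * t i) := by
  rcases Int.units_eq_one_or ε with rfl | rfl
  · simpa using hp
  · simpa using hp.neg

end basics

namespace SInd

variable {E : Dol k A Om} (I : SInd E) {N N' : Type} [Fintype N] [Fintype N']

theorem ind_submatrix {p : Matrix N N A} {t : N → ℤˣ} (hp : SIdem E.s p t) (e : N' ≃ N) :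
    I.ind (p.submatrix e e) (fun i => t (e i)) = I.ind p t := by
  refine I.iso (hp.submatrix e) hp (p.submatrix e id) (p.submatrix id e) ?_ ?_
    (fun i j => hp.sgn (e i) j) (fun i j => hp.sgn i (e j))
  · have := Matrix.submatrix_mul p p (e : N' → N) (id : N → N) (e : N' → N) Function.bijective_id
    rw [← this, hp.idem]
  · rw [Matrix.submatrix_mul_equiv, hp.idem]; rfl

theorem ind_mul_const {p : Matrix N N A} {t : N → ℤˣ} (hp : SIdem E.s p t) (ε : ℤˣ) :
    I.ind p (fun i => ε * t i) = (ε : ℤ) * I.ind p t := by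
  rcases Int.units_eq_one_or ε with rfl | rfl
  · simp
  · have : (fun i => (-1 : ℤˣ) * t i) = fun i => - t i := by funext i; simp
    rw [this, I.neg hp]
    simp

theorem ind_empty [IsEmpty N] (p : Matrix N N A) (t : N → ℤˣ) : I.ind p t = 0 := by
  have hp : SIdem E.s p t := ⟨by ext i; exact isEmptyElim i, fun i => isEmptyElim i⟩
  have h1 := I.sum hp hp
  have h2 := I.ind_submatrix (hp.blocks hp) (Equiv.equivOfIsEmpty N (N ⊕ N))
  have e1 : (Matrix.fromBlocks p 0 0 p).submatrix (Equiv.equivOfIsEmpty N (N ⊕ N))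
      (Equiv.equivOfIsEmpty N (N ⊕ N)) = p := by ext i; exact isEmptyElim i
  have e2 : (fun i => Sum.elim t t (Equiv.equivOfIsEmpty N (N ⊕ N) i)) = t := by
    funext i; exact isEmptyElim i
  rw [e1, e2] at h2
  omega

/-- index of a block diagonal matrix -/
theorem ind_blockDiagonal' {ι : Type} [Fintype ι] [DecidableEq ι] {n : ι → Type}
    [∀ i, Fintype (n i)] (p : ∀ i, Matrix (n i) (n i) A) (t : ∀ i, n i → ℤˣ)
    (hp : ∀ i, SIdem E.s (p i) (t i)) :
    I.ind (Matrix.blockDiagonal' p) (fun x => t x.1 x.2) = ∑ i, I.ind (p i) (t i) := by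
  classical
  -- induction over the number of indices
  have key : ∀ (m : ℕ) (n : Fin m → Type) [∀ i, Fintype (n i)]
      (p : ∀ i, Matrix (n i) (n i) A) (t : ∀ i, n i → ℤˣ), (∀ i, SIdem E.s (p i) (t i)) →
      SIdem E.s (Matrix.blockDiagonal' p) (fun x => t x.1 x.2) ∧
      I.ind (Matrix.blockDiagonal' p) (fun x => t x.1 x.2) = ∑ i, I.ind (p i) (t i) := by
    intro m
    induction m with
    | zero =>
      intro n _ p t hp
      have : IsEmpty (Σ i, n i) := ⟨fun x => x.1.elim0⟩
      exact ⟨⟨by ext i; exact isEmptyElim i, fun i => isEmptyElim i⟩, by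
        rw [I.ind_empty]; simp⟩
    | succ m ih =>
      intro n _ p t hp
      obtain ⟨h1, h2⟩ := ih (fun i => n i.succ) (fun i => p i.succ) (fun i => t i.succ)
        (fun i => hp i.succ)
      let e : (Σ i, n i) ≃ (n 0) ⊕ (Σ i : Fin m, n i.succ) :=
        { toFun := fun x => (Fin.cases (motive := fun i => n i → (n 0) ⊕ (Σ i : Fin m, n i.succ))
            (fun y => Sum.inl y) (fun i y => Sum.inr ⟨i, y⟩) x.1) x.2
          invFun := Sum.elim (fun y => ⟨0, y⟩) (fun y => ⟨y.1.succ, y.2⟩)
          left_inv := by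
            rintro ⟨i, y⟩
            refine Fin.cases (motive := fun i => ∀ y : n i, Sum.elim (fun y => (⟨0, y⟩ : Σ i, n i))
              (fun y => ⟨y.1.succ, y.2⟩) ((Fin.cases (motive := fun i => n i → (n 0) ⊕
                (Σ i : Fin m, n i.succ)) (fun y => Sum.inl y) (fun i y => Sum.inr ⟨i, y⟩) i) y) =
                  ⟨i, y⟩) ?_ ?_ i y
            · intro y; rfl
            · intro i y; rfl
          right_inv := by rintro (y | ⟨i, y⟩) <;> rfl }
      have hb := (hp 0).blocks h1
      have e1 : (Matrix.fromBlocks (p 0) 0 0 (Matrix.blockDiagonal' fun i : Fin m => p i.succ)).submatrix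
          e e = Matrix.blockDiagonal' p := by
        ext ⟨i, y⟩ ⟨j, z⟩
        rw [Matrix.submatrix_apply]
        revert y z
        refine Fin.cases ?_ (fun i => ?_) i
        · refine Fin.cases ?_ (fun j => ?_) j
          · intro y z
            rw [Matrix.blockDiagonal'_apply_eq]
            rfl
          · intro y z
            rw [Matrix.blockDiagonal'_apply_ne _ _ _ (Fin.succ_ne_zero j).symm]
            rfl
        · refine Fin.cases ?_ (fun j => ?_) j
          · intro y z
            rw [Matrix.blockDiagonal'_apply_ne _ _ _ (Fin.succ_ne_zero i)]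
            rfl
          · intro y z
            have h3 : (Matrix.fromBlocks (p 0) 0 0 (Matrix.blockDiagonal' fun i : Fin m =>
                p i.succ)) (e ⟨i.succ, y⟩) (e ⟨j.succ, z⟩) =
                (Matrix.blockDiagonal' fun i : Fin m => p i.succ) ⟨i, y⟩ ⟨j, z⟩ := rfl
            rw [h3]
            by_cases hij : i = j
            · subst hij
              rw [Matrix.blockDiagonal'_apply_eq, Matrix.blockDiagonal'_apply_eq]
            · rw [Matrix.blockDiagonal'_apply_ne _ _ _ hij,
                Matrix.blockDiagonal'_apply_ne _ _ _ (fun h => hij (Fin.succ_injective _ h))]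
      have e2 : (fun x => Sum.elim (t 0) (fun x : (Σ i : Fin m, n i.succ) => t x.1.succ x.2)
          (e x)) = fun x => t x.1 x.2 := by
        funext ⟨i, y⟩
        revert y
        refine Fin.cases ?_ (fun i => ?_) i
        · intro y; rfl
        · intro y; rfl
      have h3 := hb.submatrix e
      have h4 := I.ind_submatrix hb e
      rw [e1] at h3 h4
      rw [e2] at h3 h4
      refine ⟨h3, ?_⟩
      rw [h4, I.sum (hp 0) h1, h2, Fin.sum_univ_succ]
  -- transport to `Fin`
  let f : Fin (Fintype.card ι) ≃ ι := (Fintype.equivFin ι).symm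
  obtain ⟨h1, h2⟩ := key (Fintype.card ι) (fun i => n (f i)) (fun i => p (f i))
    (fun i => t (f i)) (fun i => hp (f i))
  let e : (Σ i : Fin (Fintype.card ι), n (f i)) ≃ (Σ i, n i) := Equiv.sigmaCongrLeft f
  have he : ∀ i y, e ⟨i, y⟩ = ⟨f i, y⟩ := fun i y => rfl
  have hP : SIdem E.s (Matrix.blockDiagonal' p) (fun x => t x.1 x.2) := by
    refine ⟨?_, ?_⟩
    · rw [← Matrix.blockDiagonal'_mul]
      congr 1
      funext i
      exact (hp i).idem
    · rintro ⟨i, y⟩ ⟨j, z⟩
      by_cases hij : i = j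
      · subst hij
        rw [Matrix.blockDiagonal'_apply_eq]
        exact (hp i).sgn y z
      · rw [Matrix.blockDiagonal'_apply_ne _ _ _ hij, map_zero, smul_zero, smul_zero]
  have h4 := I.ind_submatrix hP e
  have e1 : (Matrix.blockDiagonal' p).submatrix e e =
      Matrix.blockDiagonal' fun i : Fin (Fintype.card ι) => p (f i) := by
    ext ⟨i, y⟩ ⟨j, z⟩
    rw [Matrix.submatrix_apply, he, he]
    by_cases hij : i = j
    · subst hij
      rw [Matrix.blockDiagonal'_apply_eq, Matrix.blockDiagonal'_apply_eq]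
    · rw [Matrix.blockDiagonal'_apply_ne _ _ _ hij,
        Matrix.blockDiagonal'_apply_ne _ _ _ (fun h => hij (f.injective h))]
  rw [e1] at h4
  have e2 : (fun x => t (e x).1 (e x).2) =
      fun x : (Σ i : Fin (Fintype.card ι), n (f i)) => t (f x.1) x.2 := by
    funext ⟨i, y⟩; rfl
  rw [e2] at h4
  rw [← h4, h2]
  exact Equiv.sum_comp f (fun i => I.ind (p i) (t i))

/-- the index of the trivial bundle of rank one -/
def u : ℤ := I.ind (1 : Matrix Unit Unit A) (fun _ => 1)

/-- index of a trivial bundle with constant sign -/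
theorem ind_one [DecidableEq N] (ε : ℤˣ) :
    I.ind (1 : Matrix N N A) (fun _ => ε) = (ε : ℤ) * (Fintype.card N * I.u) := by
  have h0 : ∀ (N : Type) [Fintype N] [DecidableEq N],
      I.ind (1 : Matrix N N A) (fun _ => 1) = Fintype.card N * I.u := by
    intro N _ _
    have h1 := I.ind_blockDiagonal' (ι := N) (n := fun _ => Unit)
      (fun _ => (1 : Matrix Unit Unit A)) (fun _ _ => 1) (fun _ => sIdem_one _)
    have h2 := I.ind_submatrix (sIdem_one (s := E.s) (A := A) (N := (Σ _ : N, Unit)) (fun _ => 1))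
      ((Equiv.sigmaPUnit N).symm)
    have e1 : (1 : Matrix (Σ _ : N, Unit) (Σ _ : N, Unit) A) =
        Matrix.blockDiagonal' (fun _ : N => (1 : Matrix Unit Unit A)) :=
      Matrix.blockDiagonal'_one.symm
    have e2 : (1 : Matrix (Σ _ : N, Unit) (Σ _ : N, Unit) A).submatrix
        (Equiv.sigmaPUnit N).symm (Equiv.sigmaPUnit N).symm = 1 := by
      rw [Matrix.submatrix_one_equiv]
    rw [e2] at h2
    rw [h2, e1, h1]
    simp [SInd.u]
  have h3 := I.ind_mul_const (sIdem_one (s := E.s) (A := A) (N := N) (fun _ => 1)) ε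
  simp only [mul_one] at h3
  rw [h3, h0]

end SInd

/-! ### modules with involution -/

section modules

variable {E : Dol k A Om} (I : SInd E)

/-- `c` is the index of the module `R` with the semilinear involution `τ` -/
def HasInd {R : Type*} [AddCommGroup R] [Module A R] (τ : R →+ R) (c : ℤ) : Prop :=
  ∃ (N : ℕ) (P : Pres A R (Fin N)) (t : Fin N → ℤˣ), EqPres E.s τ P t ∧ c = I.ind P.mat t

variable {R R' : Type*} [AddCommGroup R] [Module A R] [AddCommGroup R'] [Module A R']

theorem sIdem_of_eqPres {n : Type} [Fintype n] [DecidableEq n] {s : A →+* A} {τ : R →+ R}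
    {P : Pres A R n} {t : n → ℤˣ} (h : EqPres s τ P t) : SIdem s P.mat t :=
  ⟨P.mat_mul_mat, fun i j => h.mat_eq i j⟩

/-- isomorphic modules with involution: presentations have the same index -/
theorem ind_eq_of_equiv {n n' : Type} [Fintype n] [DecidableEq n] [Fintype n'] [DecidableEq n']
    {τ : R →+ R} {τ' : R' →+ R'} {P : Pres A R n} {P' : Pres A R' n'} {t : n → ℤˣ}
    {t' : n' → ℤˣ} (h : EqPres E.s τ P t) (h' : EqPres E.s τ' P' t') (e : R ≃ₗ[A] R')
    (he : ∀ x, e (τ x) = τ' (e x)) : I.ind P.mat t = I.ind P'.mat t' := by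
  have he' : ∀ x, e.symm (τ' x) = τ (e.symm x) := fun x => by
    apply e.injective
    rw [e.apply_symm_apply, he, e.apply_symm_apply]
  refine I.iso (sIdem_of_eqPres h) (sIdem_of_eqPres h') (P'.tr P e.symm) (P.tr P' e) ?_ ?_ ?_ ?_
  · rw [Pres.tr_mul, Pres.mat]
    congr 1
    ext x; simp
  · rw [Pres.tr_mul, Pres.mat]
    congr 1
    ext x; simp
  · exact fun i j => h'.tr_eq h (e.symm : R' →ₗ[A] R) he' i j
  · exact fun i j => h.tr_eq h' (e : R →ₗ[A] R') he i j

theorem HasInd.unique {τ : R →+ R} {τ' : R' →+ R'} {c c' : ℤ} (h : HasInd I τ c)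
    (h' : HasInd I τ' c') (e : R ≃ₗ[A] R') (he : ∀ x, e (τ x) = τ' (e x)) : c = c' := by
  obtain ⟨N, P, t, h1, rfl⟩ := h
  obtain ⟨N', P', t', h1', rfl⟩ := h'
  exact ind_eq_of_equiv I h1 h1' e he


/-- finite products with signs -/
theorem ind_pi {ι : Type} [Fintype ι] [DecidableEq ι] {R : ι → Type*} [∀ i, AddCommGroup (R i)]
    [∀ i, Module A (R i)] {n : ι → Type} [∀ i, Fintype (n i)] [∀ i, DecidableEq (n i)]
    {P : ∀ i, Pres A (R i) (n i)} {τ : ∀ i, R i →+ R i} {t : ∀ i, n i → ℤˣ}
    (h : ∀ i, EqPres E.s (τ i) (P i) (t i)) (ε : ι → ℤˣ) :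
    I.ind (Pres.pi P).mat (fun x => ε x.1 * t x.1 x.2) =
      ∑ i, (ε i : ℤ) * I.ind (P i).mat (t i) := by
  rw [Pres.mat_pi]
  have h1 := I.ind_blockDiagonal' (fun i => (P i).mat) (fun i j => ε i * t i j)
    (fun i => (sIdem_of_eqPres (h i)).mul_const (ε i))
  rw [h1]
  exact Finset.sum_congr rfl fun i _ => I.ind_mul_const (sIdem_of_eqPres (h i)) (ε i)

end modules

end Crest.Agent.R275.NA8759
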