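import Crest.Agent.R275.MIf_683
import Crest.Agent.R275.RetH_666
import Crest.Agent.R275.DolG_763
import Crest.Agent.R275.SmR_425
import Crest.Agent.R275.MIe_683
import Crest.Agent.R275.NA8a_759
import Crest.Agent.R275.TorB_812
import Crest.Agent.R275.SwLift_763
import Crest.Agent.R275.RetD_666
import Crest.Agent.R275.LnkP6_476

-- ▼ part R275/MIh_683
section

/-!
# R275, PART I' (helper683): the geometric instance

`M` compact, finite atlas, `P : Part A`, `B : FBun A` with `∇∇ = 0`, `L : Lift B` with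
`Op0 L.σ`: `gmodL P hB L hσ : GMod (dolL hB L)` on 666's scale `scS P B N`; `gmodP` for the
trivial involution.
-/

set_option autoImplicit false
set_option linter.unusedSectionVars false

open Set Filter Topology
open scoped ContDiff Matrix

noncomputable section

namespace Crest.Agent.R275.MI683

open Module LinearMap Submodule Crest.Agent.R275.Fred685
open NA6b763 Geo Ret666 RetC666 DolG763 Smf798 SmR425 Tor812 FHom556

/-! ### Rellich at every level -/

section rell

variable {d : Type} [Fintype d] {V : Type*} [AddCommGroup V] [Module ℂ V]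

theorem rell_ret (R : Ret d V) [Finite R.J] : Rell R.sc := by
  classical
  have := Fintype.ofFinite R.J
  intro s ε hε
  obtain ⟨B, hB0, hB⟩ := exists_nonneg_const (R.op0_Ext s)
  obtain ⟨S, hS⟩ := rellichT (d := d) (W := R.W) (ε := ε / (B + 1)) (by positivity)
  refine ⟨R.Ext ∘ₗ projT R.W Finset.univ S ∘ₗ R.Loc, ?_, fun v => ?_⟩
  · exact SmFin.comp_left R.op0_Ext ((smFin_projT R.W Finset.univ S).comp_right R.op0_Loc)
  · have h1 : v - (R.Ext ∘ₗ projT R.W Finset.univ S ∘ₗ R.Loc) v
        = R.Ext (R.Loc v - projT R.W Finset.univ S (R.Loc v)) := by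
      simp only [LinearMap.comp_apply, map_sub, R.left]
    rw [h1]
    refine (hB _).trans ?_
    have h2 := hS Finset.univ s (R.Loc v)
    have h3 : Ret666.cut R.W (↑(Finset.univ : Finset R.J))ᶜ (R.Loc v) = 0 := by
      apply FT.ext
      intro j
      rw [cut_apply]
      simp
    rw [h3, nT_zero, zero_add] at h2
    refine (mul_le_mul_of_nonneg_left h2 hB0).trans ?_
    have h5 : (0 : ℝ) ≤ nT (s + 1) (R.Loc v) := nT_nonneg _ _
    have h11 : B * (ε / (B + 1) * nT (s + 1) (R.Loc v))
        = (B / (B + 1)) * (ε * nT (s + 1) (R.Loc v)) := by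
      field_simp
    rw [h11]
    have h12 : B / (B + 1) ≤ 1 := by
      rw [div_le_one (by positivity)]; linarith
    exact mul_le_of_le_one_left (by positivity) h12

end rell

variable {n : ℕ} {M : Type} [TopologicalSpace M] {A : Atl n M}

theorem rell_scS [Finite A.ι] (P : Part A) (B : FBun A) (N : ℕ) : Rell (scS P B N) :=
  rell_ret (retS P B N)

/-! ### module homomorphisms which shift the degrees -/

section lin

variable [CompactSpace M] [Finite A.ι] (P : Part A) {B B' : FBun A}

theorem linMat_degZ (T : Sec B →ₗ[smf A] Sec B') {r : ℤ}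
    (hT : ∀ q v, T (prZ B q v) = prZ B' (q + r) (T v)) {i : A.ι} {x : M} {l : B'.κ} {k : B.κ}
    (h : linMat P T i x l k ≠ 0) : (B'.deg l : ℤ) = B.deg k + r := by
  classical
  have hx : x ∈ (A.e i).source := by
    by_contra hx
    exact h (by rw [linMat_off P T hx]; rfl)
  obtain ⟨u, hu⟩ := exists_sec P hx (Pi.single k (1 : ℂ))
  have h1 := hT (B.deg k) u
  have h2 : (T (prZ B (B.deg k) u)).1 i x l = linMat P T i x l k := by
    rw [linMat_mulVec P T]
    have h3 : (prZ B (B.deg k) u).1 i x = Pi.single k (1 : ℂ) := by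
      funext m
      have h4 : (prZ B (B.deg k) u).1 i x m =
          (if ((B.deg m : ℕ) : ℤ) = (B.deg k : ℤ) then (1 : ℂ) else 0) * u.1 i x m := rfl
      rw [h4, hu]
      by_cases hm : m = k
      · subst hm; simp
      · simp [hm]
    rw [h3]
    simp [Matrix.mulVec_single]
  have h5 : (prZ B' (B.deg k + r) (T u)).1 i x l =
      (if ((B'.deg l : ℕ) : ℤ) = (B.deg k : ℤ) + r then (1 : ℂ) else 0) * (T u).1 i x l := rfl
  by_contra hne
  apply h
  rw [← h2, h1, h5, if_neg hne, zero_mul]

/-- **order of a module homomorphism which shifts the degrees by `r`** -/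
theorem lin_bound {N : ℕ} (hN : ∀ k, B.deg k ≤ N) (hN' : ∀ k, B'.deg k ≤ N)
    (T : Sec B →ₗ[smf A] Sec B') (r : ℤ)
    (hT : ∀ q v, T (prZ B q v) = prZ B' (q + r) (T v)) (s t : ℕ) (hst : (t : ℤ) = s + r) :
    ∃ C : ℝ, ∀ v, (scS P B' N).nrm t (T v) ≤ C * (scS P B N).nrm s v := by
  classical
  have := Fintype.ofFinite A.ι
  -- the amplitudes
  set a : A.ι → M → Matrix B'.κ B.κ ℂ := fun i x => P.psi B'.κ i x * linMat P T i x with ha
  have hamp : ∀ i, IsAmp A i (a i) := fun i =>
    C1d194.isAmp_mul_right ((P.amp_psi B'.κ).amp i) (linMat_smooth P T i)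
  have hdeg : ∀ i x k l, a i x k l ≠ 0 → (B'.deg k : ℤ) = B.deg l + r := by
    intro i x k l h
    have h1 : (P.psi B'.κ i x * linMat P T i x) k l ≠ 0 := h
    rw [Matrix.mul_apply] at h1
    obtain ⟨p, -, hp⟩ := Finset.exists_ne_zero_of_sum_ne_zero h1
    rw [psiP_entry (left_ne_zero_of_mul hp)]
    exact linMat_degZ P T hT (right_ne_zero_of_mul hp)
  -- localisation of the image
  have hloc : ∀ (v : Sec B) (i : A.ι), loc A i (P.psi B'.κ i) ((T v).1 i) =
      loc A i (a i) (v.1 i) := by
    intro v i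
    have h1 : (T v).1 i = fun x => linMat P T i x *ᵥ v.1 i x :=
      funext fun x => linMat_mulVec P T v i x
    rw [h1]
    exact (C1c193.loc_amp_mul ((P.amp_psi B'.κ).amp i) (linMat_smooth P T i) (v.2.1 i)).symm
  -- bounds of the components
  have key : ∀ i, ∃ C, 0 ≤ C ∧ ∀ (u : Sec B) (k : B'.κ),
      nrm (t + (N - B'.deg k)) (loc A i (a i) (u.1 i) k) ≤ C * (scS P B N).nrm s u := by
    intro i
    by_cases hr : 0 ≤ r
    · obtain ⟨m, rfl⟩ := Int.eq_ofNat_of_zero_le hr
      have hts : t = s + m := by exact_mod_cast hst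
      subst hts
      refine nrm_loc_any P B (hamp i) N m (fun k => N - B'.deg k) (fun x k l h => ?_) s
      have h1 := hdeg i x k l h
      have h2 := hN' k
      have h3 := hN l
      omega
    · obtain ⟨m, hm⟩ := Int.eq_ofNat_of_zero_le (show 0 ≤ -r by omega)
      have hts : s = t + m := by omega
      subst hts
      obtain ⟨C, hC0, hC⟩ := nrm_loc_any P B (hamp i) N 0 (fun k => N - B'.deg k - m)
        (fun x k l h => by
          have h1 := hdeg i x k l h
          have h2 := hN' k
          have h3 := hN l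
          omega) (t + m)
      exact ⟨C, hC0, fun u k => (nrm_mono (by omega) _).trans (hC u k)⟩
  choose C hC0 hC using key
  refine ⟨∑ i, Fintype.card B'.κ * C i, fun v => ?_⟩
  refine (nrmS_le_sum P B' N t (T v)).trans ?_
  rw [Finset.sum_mul]
  refine Finset.sum_le_sum fun i _ => ?_
  have h1 : ∀ k ∈ (Finset.univ : Finset B'.κ),
      nrm (t + (N - B'.deg k)) (loc A i (P.psi B'.κ i) ((T v).1 i) k) ≤
        C i * (scS P B N).nrm s v := fun k _ => by
    rw [hloc]
    exact hC i v k
  refine (Finset.sum_le_sum h1).trans (le_of_eq ?_)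
  rw [Finset.sum_const, nsmul_eq_mul, Finset.card_univ, mul_assoc]

end lin

/-! ### the parametrix and the degrees -/

theorem KML_sg (P : Part A) (B : FBun A) (u : Sec B) : KML B P (sg B u) = - sg B (KML B P u) := by
  have hcomp : ∀ (q : ℕ) (v : Sec B), pqL B q (sg B v) = (-1 : ℂ) ^ q • pqL B q v := by
    intro q v
    refine sec_ext fun i x => ?_
    funext k
    have h1 : (pqL B q (sg B v)).1 i x k = if B.deg k = q then (sg B v).1 i x k else 0 :=
      pq_apply q _ i x k
    have h2 : ((-1 : ℂ) ^ q • pqL B q v).1 i x k = (-1 : ℂ) ^ q * (pqL B q v).1 i x k := rfl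
    have h3 : (pqL B q v).1 i x k = if B.deg k = q then v.1 i x k else 0 := pq_apply q _ i x k
    have h4 : (sg B v).1 i x k = (-1) ^ (B.deg k) * v.1 i x k := rfl
    rw [h1, h2, h3, h4]
    split_ifs with h
    · rw [h]
    · simp
  have hsum : ∀ v : Sec B, ∑ q ∈ Finset.range (Geo.topDeg B + 1), pqL B q v = v := fun v =>
    pqL_sum (m := Geo.topDeg B) le_rfl v
  -- compare components
  have hK : ∀ (q : ℕ) (v : Sec B), KML B P (pqL B (q + 1) v) = pqL B q (KML B P v) := fun q v =>
    LinearMap.congr_fun (KML_pqL P q) v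
  have h0 : ∀ v : Sec B, KML B P (pqL B 0 v) = 0 := fun v =>
    LinearMap.congr_fun (KML_pqL_zero P) v
  rw [← hsum (KML B P (sg B u)), ← hsum (sg B (KML B P u)), ← Finset.sum_neg_distrib]
  refine Finset.sum_congr rfl fun q _ => ?_
  rw [← hK, hcomp, map_smul, hcomp, hK, pow_succ, mul_neg_one]
  exact neg_smul ((-1 : ℂ) ^ q) (pqL B q (KML B P u))

/-! ### the instance -/

section inst

variable [CompactSpace M] [Finite A.ι] (P : Part A) {B : FBun A}

/-- non-averaged data -/
theorem preG {N : ℕ} (hN : ∀ k, B.deg k ≤ N) (hB : ∀ u : Sec B, nabL B (nabL B u) = 0)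
    (L : Lift B) (hσ : Op0 (scS P B N) (scS P B N) L.σ) :
    PreG (dolL hB L) L.σ ((sg B).restrictScalars ℂ) (scS P B N) (KML B P) where
  rell := rell_scS P B N
  hT _ := rfl
  ττ := L.σσ
  τd := L.σn
  τg u := L.σd _ u
  τs := L.σs
  gd := nabL_sg B
  gg := sg_sg B
  gK := KML_sg P B
  τ0 := hσ
  d0 := op0_nabL P B hN
  K0 := op0_KML P B N
  dK := by
    have e : (1 - ((dolL hB L).d * KML B P + KML B P * (dolL hB L).d) : Module.End ℂ (Sec B)) =
        RML B P := by
      have h := nabL_KML B P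
      apply LinearMap.ext; intro u
      have h1 := LinearMap.congr_fun h u
      change nabL B (KML B P u) + KML B P (nabL B u) = u - RML B P u at h1
      change u - (nabL B (KML B P u) + KML B P (nabL B u)) = RML B P u
      rw [h1]; abel
    rw [e]
    exact opm_RML P B hN
  Kc f := by
    have hf : A.Sm f.1 := f.2
    have h := opm_commS P (ioC_fsmul_id B hf) N
    have e : (sm f * KML B P - KML B P * sm f : Module.End ℂ (Sec B)) =
        -(KML B P ∘ₗ ((FHom.id B).fsmul f.1 hf).actL -
          ((FHom.id B).fsmul f.1 hf).actL ∘ₗ KML B P) := by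
      have e1 : ∀ u : Sec B, ((FHom.id B).fsmul f.1 hf).actL u = f • u := by
        intro u
        refine Subtype.ext ?_
        rw [FHom.actL_coe, FHom.fsmul_act, FHom.id_act]
        rfl
      apply LinearMap.ext; intro u
      change f • KML B P u - KML B P (f • u) =
        -(KML B P (((FHom.id B).fsmul f.1 hf).actL u) -
          ((FHom.id B).fsmul f.1 hf).actL (KML B P u))
      rw [e1, e1]; abel
    rw [e]
    exact opm_neg h
  lin Z r hZ s t hst := lin_bound P hN hN Z r hZ s t hst

/-- the degree sign has order zero -/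
theorem op0_sg {N : ℕ} (hN : ∀ k, B.deg k ≤ N) :
    Op0 (scS P B N) (scS P B N) ((sg B).restrictScalars ℂ) := by
  intro s
  obtain ⟨C, hC⟩ := lin_bound P hN hN (sg B) 0 (fun q v => by
    rw [add_zero, sg, prZ, degW_degW, degW_degW]
    exact degW_congr B (fun k => mul_comm _ _) v) s s (by simp)
  exact ⟨C, hC⟩

/-- **the geometric instance**, with an involution -/
def gmodL {N : ℕ} (hN : ∀ k, B.deg k ≤ N) (hB : ∀ u : Sec B, nabL B (nabL B u) = 0)
    (L : Lift B) (hσ : Op0 (scS P B N) (scS P B N) L.σ) : GMod (dolL hB L) :=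
  (preG P hN hB L hσ).toG (op0_sg P hN)

/-- **the geometric instance** -/
def gmodP (hB : ∀ u : Sec B, nabL B (nabL B u) = 0) : GMod (dolP hB) :=
  gmodL P (N := Geo.topDeg B) (fun k => deg_le_topDeg k) hB (Lift.id B) Op0.id

end inst

end Crest.Agent.R275.MI683
end
end

-- ▼ part R275/MIg_683
section

/-!
# R275, PART I' (helper683): `GMod` gives 759's equivariant index `SInd`
-/

set_option autoImplicit false
set_option linter.unusedSectionVars false

noncomputable section

namespace Crest.Agent.R275.MI683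

open Module LinearMap Submodule Crest.Agent.R275.Fred685
open NA6b763

variable {A V : Type*} [CommRing A] [Algebra ℂ A] [AddCommGroup V] [Module ℂ V] [Module A V]
  [IsScalarTower ℂ A V]

namespace GMod

variable {E : Dol ℂ A V} (G : GMod E)

/-- **the equivariant index** -/
def sind : NA8759.SInd E where
  ind p t := G.ms.ind p t
  iso hp hq _ _ hab hba _ hb := G.ms.ind_iso hp.idem hq.idem hp.sgn hq.sgn hab hba hb
  sum hp hq := G.ms.ind_blocks hp.idem hq.idem hp.sgn hq.sgn
  neg hp := G.ms.ind_neg hp.idem hp.sgn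
  fin X h0 := (G.super X h0).1
  st X h0 := (G.super X h0).2

end GMod

end Crest.Agent.R275.MI683
end
end

-- ▼ part R275/SwTor_763
section

/-!
R275 (helper763): reindexing of coordinates on smooth periodic functions is an isometry for every
Sobolev norm.
-/

set_option autoImplicit false
set_option linter.unusedSectionVars false

open Filter Topology Set Complex
open scoped ContDiff Real

namespace Crest.Agent.R275.SwTor763

open Crest.Agent.R275.Tor812

noncomputable section

variable {d : Type} [Fintype d]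

/-- reindexing the coordinates -/
def reix (e : d ≃ d) : SPer d →ₗ[ℂ] SPer d where
  toFun f := ⟨fun x => f fun j => x (e j), (sm f).comp (contDiff_pi.2 fun j => contDiff_apply ℝ ℝ (e j)),
    fun k x => per f (fun j => k (e j)) fun j => x (e j)⟩
  map_add' _ _ := rfl
  map_smul' _ _ := rfl

theorem reix_apply (e : d ≃ d) (f : SPer d) (x : d → ℝ) : reix e f x = f fun j => x (e j) := rfl

/-- the lattice automorphism -/
def lat (e : d ≃ d) : (d → ℤ) ≃ (d → ℤ) where
  toFun k j := k (e j)
  invFun k j := k (e.symm j)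
  left_inv k := by funext j; simp
  right_inv k := by funext j; simp


theorem wt_lat (e : d ≃ d) (k : d → ℤ) : wt (lat e k) = wt k := by
  unfold wt
  congr 1
  exact e.sum_comp fun i => (k i : ℝ) ^ 2

theorem ch_lat (e : d ≃ d) (k : d → ℤ) (x : d → ℝ) :
    ch (lat e k) (fun j => x (e j)) = ch k x := by
  unfold ch
  congr 2
  exact e.sum_comp fun i => (k i : ℂ) * (x i : ℂ)

theorem rapid_lat (e : d ≃ d) {a : (d → ℤ) → ℂ} (h : Rapid a) : Rapid fun k => a (lat e k) := by
  intro N
  obtain ⟨C, hC⟩ := h N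
  exact ⟨C, fun k => by rw [← wt_lat e k]; exact hC _⟩

theorem fc_reix (e : d ≃ d) (f : SPer d) (k : d → ℤ) : fc (reix e f) k = fc f (lat e k) := by
  have h : Rapid fun k => fc f (lat e k) := rapid_lat e (rapid_fc f)
  have h1 : reix e f = syn _ h := by
    refine SPer.ext fun x => ?_
    have h2 := syn_hasSum _ h x
    have h3 := hasSum_ch f fun j => x (e j)
    rw [← (lat e).hasSum_iff] at h3
    refine h3.unique ?_
    refine (funext fun k => ?_ : (fun k => fc f (lat e k) * ch k x) =
      (fun k => fc f k * ch k fun j => x (e j)) ∘ lat e) ▸ h2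
    simp only [Function.comp]
    rw [ch_lat]
  rw [h1, fc_syn]

theorem nrm_reix (e : d ≃ d) (s : ℕ) (f : SPer d) : nrm s (reix e f) = nrm s f := by
  have h := hasSum_nrm_sq s (reix e f)
  have h2 := hasSum_nrm_sq s f
  rw [← (lat e).hasSum_iff] at h2
  have h3 : nrm s (reix e f) ^ 2 = nrm s f ^ 2 := by
    refine h.unique ?_
    refine (funext fun k => ?_ : (fun k => wt k ^ s * ‖fc (reix e f) k‖ ^ 2) =
      (fun k => wt k ^ s * ‖fc f k‖ ^ 2) ∘ lat e) ▸ h2
    simp only [Function.comp]
    rw [wt_lat, fc_reix]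
  exact (pow_left_inj₀ (nrm_nonneg _ _) (nrm_nonneg _ _) two_ne_zero).1 h3

end

end Crest.Agent.R275.SwTor763
end

-- ▼ part R275/SwOp_763
section

/-!
R275, PART I' (helper763): the graded swap is an isometry of the scale of `Sec (B.prod B)` built
with the product partition `P.prod P`; in particular it is of order `0`.
-/

set_option autoImplicit false
set_option linter.unusedSectionVars false

open Set Filter Topology Complex
open scoped ContDiff Matrix ComplexConjugate

noncomputable section

namespace Crest.Agent.R275.SwOp763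

open Crest.Agent.R275.Geo Crest.Agent.R275.Tor812 Crest.Agent.R275.SwTor763
  Crest.Agent.R275.Prod363 Crest.Agent.R275.Ret666 Crest.Agent.R275.RetC666 Crest.Agent.R275.C1c193
  Crest.Agent.R275.TorS666 Crest.Agent.R275.Fred685

variable {n : ℕ} {M : Type} [TopologicalSpace M] {A : Atl n M} {B : FBun A}

/-- swap of the real coordinates -/
def swR (n : ℕ) : RI (n + n) ≃ RI (n + n) := finAddFlip.prodCongr (Equiv.refl _)

theorem fstL_cc (x : RI (n + n) → ℝ) :
    fstL n n (cc fun p => x (swR n p)) = sndL n n (cc x) := by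
  ext a
  simp [swR]

theorem sndL_cc (x : RI (n + n) → ℝ) :
    sndL n n (cc fun p => x (swR n p)) = fstL n n (cc x) := by
  ext a
  have h : (finAddFlip : Fin (n + n) ≃ Fin (n + n)) (Fin.natAdd n a) = Fin.castAdd n a :=
    finAddFlip_apply_natAdd a n
  rw [sndL_apply, fstL_apply, cc_apply, cc_apply]
  simp only [swR, Equiv.prodCongr_apply, Prod.map_apply, h, Equiv.refl_apply]

theorem rd_sw (i j : A.ι) (G : M × M → ℂ) (x : RI (n + n) → ℝ) :
    rd (A.prod A) (i, j) (fun p => G (p.2, p.1)) x =
      rd (A.prod A) (j, i) G fun p => x (swR n p) := by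
  have h : (cc x ∈ ((A.prod A).e (i, j)).target) ↔
      (cc fun p => x (swR n p)) ∈ ((A.prod A).e (j, i)).target := by
    rw [mem_prod_target, mem_prod_target, fstL_cc, sndL_cc]
    exact and_comm
  unfold rd
  by_cases h1 : cc x ∈ ((A.prod A).e (i, j)).target
  · rw [if_pos h1, if_pos (h.1 h1)]
    rw [prodE_symm_apply, prodE_symm_apply, fstL_cc, sndL_cc]
  · rw [if_neg h1, if_neg fun h2 => h1 (h.2 h2)]

theorem fr_reix (x : RI (n + n) → ℝ) : (fr fun p => x (swR n p)) = fun p => fr x (swR n p) := rfl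

variable {P : Part A}

/-- localisation of the swapped section -/
theorem loc_swp {w : (A.prod A).ι → M × M → B.κ × B.κ → ℂ} (hw : w ∈ Sec (B.prod B)) (i j : A.ι)
    (k l : B.κ) :
    loc (A.prod A) (i, j) ((P.prod P).psi (B.κ × B.κ) (i, j)) (swp (A := A) B.deg w (i, j)) (k, l) =
      ((-1 : ℂ) ^ (B.deg k * B.deg l)) • reix (swR n)
        (loc (A.prod A) (j, i) ((P.prod P).psi (B.κ × B.κ) (j, i)) (w (j, i)) (l, k)) := by
  refine SPer.ext fun x => ?_
  rw [SPer.smul_apply, reix_apply, loc_apply (((P.prod P).amp_psi (B.κ × B.κ)).amp (i, j))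
    ((swp_mem B hw).1 (i, j)), loc_apply (((P.prod P).amp_psi (B.κ × B.κ)).amp (j, i)) (hw.1 (j, i)),
    fr_reix, ← rd_sw]
  have h : (fun y : M × M => ((P.prod P).psi (B.κ × B.κ) (i, j) y *ᵥ
        swp (A := A) B.deg w (i, j) y) (k, l)) =
      fun y => (-1 : ℂ) ^ (B.deg k * B.deg l) * ((P.prod P).psi (B.κ × B.κ) (j, i) (y.2, y.1) *ᵥ
        w (j, i) (y.2, y.1)) (l, k) := by
    funext y
    obtain ⟨x, y⟩ := y
    have e1 : ∀ (i j : A.ι) (x y : M) (v : B.κ × B.κ → ℂ) (q : B.κ × B.κ),
        ((P.prod P).psi (B.κ × B.κ) (i, j) (x, y) *ᵥ v) q = (P.ψ i x * P.ψ j y : ℝ) * v q := by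
      intro i j x y v q
      show ((((P.ψ i x * P.ψ j y : ℝ) : ℂ) • (1 : Matrix (B.κ × B.κ) (B.κ × B.κ) ℂ)) *ᵥ v) q = _
      rw [Matrix.smul_mulVec, Matrix.one_mulVec]
      rfl
    rw [e1, e1, swp_apply]
    push_cast
    ring
  rw [h]
  by_cases hx : fr x ∈ rdU (A.prod A) (i, j)
  · rw [rd_of_mem hx, rd_of_mem hx]
  · rw [rd_of_not hx, rd_of_not hx, mul_zero]

/-- the swap of the index set of the localisations -/
def swJ (A : Atl n M) (κ : Type) : (A.prod A).ι × (κ × κ) ≃ (A.prod A).ι × (κ × κ) :=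
  (Equiv.prodComm A.ι A.ι).prodCongr (Equiv.prodComm κ κ)

variable [PTy (P.prod P) (B.prod B)] {w : Wt (P.prod P)} {V : Type*} [AddCommGroup V] [Module ℂ V]

/-- the graded swap is an isometry -/
theorem nrm_swap (X : SV w (B.prod B) V) (hw : ∀ i j : A.ι, w.w (i, j) = w.w (j, i))
    (S : V →ₗ[ℂ] V) (hS : ∀ v, X.inc (S v) = swpL B (X.inc v)) (N s : ℕ) (v : V) :
    (X.sc N).nrm s (S v) = (X.sc N).nrm s v := by
  rw [X.sc_nrm, X.sc_nrm]
  have h1 := hasSum_nT s (X.LocA (AF.psi (P.prod P) (B.prod B)) (shB N (B.prod B)) (S v))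
  have h2 := hasSum_nT s (X.LocA (AF.psi (P.prod P) (B.prod B)) (shB N (B.prod B)) v)
  rw [← (swJ A B.κ).hasSum_iff] at h2
  refine (pow_left_inj₀ (nT_nonneg _ _) (nT_nonneg _ _) two_ne_zero).1 (h1.unique ?_)
  refine (funext fun p => ?_ : (fun p : (A.prod A).ι × (B.κ × B.κ) => _) = _) ▸ h2
  obtain ⟨⟨i, j⟩, ⟨k, l⟩⟩ := p
  show (w.w (i, j) * nrm (s + (N - (B.deg k + B.deg l)))
      (loc (A.prod A) (i, j) ((P.prod P).psi (B.κ × B.κ) (i, j)) ((X.inc (S v)).1 (i, j)) (k, l))) ^ 2 =
    (w.w (j, i) * nrm (s + (N - (B.deg l + B.deg k)))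
      (loc (A.prod A) (j, i) ((P.prod P).psi (B.κ × B.κ) (j, i)) ((X.inc v).1 (j, i)) (l, k))) ^ 2
  have h3 : (X.inc (S v)).1 = swp (A := A) B.deg (X.inc v).1 := by
    rw [hS]; rfl
  rw [h3, loc_swp (X.inc v).2, nrm_smul, nrm_reix, norm_pow, norm_neg, norm_one, one_pow, one_mul,
    hw, add_comm (B.deg k)]

theorem op0_swap (X : SV w (B.prod B) V) (hw : ∀ i j : A.ι, w.w (i, j) = w.w (j, i))
    (S : V →ₗ[ℂ] V) (hS : ∀ v, X.inc (S v) = swpL B (X.inc v)) (N : ℕ) :
    Op0 (X.sc N) (X.sc N) S := fun s =>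
  ⟨1, fun v => by rw [one_mul]; exact (nrm_swap X hw S hS N s v).le⟩

/-- the case of a finite atlas with trivial weights -/
theorem op0_swpL [Finite (A.prod A).ι] (N : ℕ) :
    Op0 ((SV.full (Wt.one (P.prod P)) (B.prod B)).sc N)
      ((SV.full (Wt.one (P.prod P)) (B.prod B)).sc N) (swpL B) :=
  op0_swap _ (fun _ _ => rfl) _ (fun _ => rfl) N


end Crest.Agent.R275.SwOp763
end
end

-- ▼ part R275/MIi_683

/-!
# R275, PART I' (helper683): the geometric index

* `geoI P hB : KIndex (smf A)`, `ms` lemmas, degree rule of the homotopy.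
* `isCoh_geo` : 476's `IsCoh`.
* `gmodSw` : the instance on `M × M` with the swap.
-/

set_option autoImplicit false
set_option linter.unusedSectionVars false

open Set Filter Topology
open scoped ContDiff Matrix

noncomputable section

namespace Crest.Agent.R275.MI683

open Module LinearMap Submodule Crest.Agent.R275.Fred685
open NA6b763 Geo Ret666 RetC666 DolG763 Smf798 SmR425 Tor812 FHom556

variable {n : ℕ} {M : Type} [TopologicalSpace M] {A : Atl n M}

section plain

variable [CompactSpace M] [Finite A.ι] (P : Part A) {B : FBun A}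
  (hB : ∀ u : Sec B, nabL B (nabL B u) = 0)

@[simp] theorem gmodP_σ (f : smf A) : (gmodP P hB).ms.σ f = f := rfl

@[simp] theorem gmodP_d (u : Sec B) : (gmodP P hB).ms.d u = nabL B u := rfl

@[simp] theorem gmodP_T (u : Sec B) : (gmodP P hB).ms.T u = sg B u := rfl

theorem gmodP_S : (gmodP P hB).ms.S = scS P B (Geo.topDeg B) := rfl

/-- for the trivial involution the averaged homotopy is the parametrix -/
theorem gmodP_K (u : Sec B) : (gmodP P hB).K u = KML B P u := by
  change (1 / 2 : ℂ) • (KML B P u + KML B P u) = KML B P u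
  rw [← two_smul ℂ, smul_smul, one_div_mul_cancel (two_ne_zero' ℂ), one_smul]




/-- **the geometric index** of idempotent matrices over the smooth functions -/
def geoI : KR798.KIndex (smf A) := (gmodP P hB).ms.kIndex (gmodP_σ P hB)



end plain

/-! ### 476's form -/

section coh

variable {A : Atl 2 M} [CompactSpace M] [Finite A.ι]

theorem isCoh_geo (P : Part A) : LnkP6476.IsCoh (gmodP P (LnkP5476.nabL_sq A)).ms :=
  fun _ _ X h0 => (gmodP P (LnkP5476.nabL_sq A)).super X h0

end coh

/-! ### the swap -/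

section swap

variable {A : Atl 2 M} [T2Space M] [CompactSpace M] [Finite A.ι]

instance finite_prod_ι : Finite (A.prod A).ι := inferInstanceAs (Finite (A.ι × A.ι))

/-- the instance on `M × M` for a lift acting by the swap -/
def gmodSwL (P : Part A) {B : FBun A}
    (hB : ∀ u : Sec (B.prod B), nabL (B.prod B) (nabL (B.prod B) u) = 0)
    (L : Lift (B.prod B)) (hL : L.σ = Prod363.swpL B) : GMod (dolL hB L) :=
  gmodL (P.prod P) (N := Geo.topDeg (B.prod B)) (fun k => deg_le_topDeg k) hB L (by
    rw [hL]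
    exact SwOp763.op0_swpL (P := P) (B := B) (Geo.topDeg (B.prod B)))

/-- the instance on `M × M` with the swap -/
def gmodSw (P : Part A) {B : FBun A}
    (hB : ∀ u : Sec (B.prod B), nabL (B.prod B) (nabL (B.prod B) u) = 0) :
    GMod (dolL hB (swLift B)) := gmodSwL P hB (swLift B) rfl

/-- **759's index on `M × M`** -/
def sindSw (P : Part A) {B : FBun A}
    (hB : ∀ u : Sec (B.prod B), nabL (B.prod B) (nabL (B.prod B) u) = 0) :
    NA8759.SInd (dolL hB (swLift B)) := (gmodSw P hB).sind

end swap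

end Crest.Agent.R275.MI683
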