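import Crest.Agent.R275.FHom2_556
import Crest.Agent.R275.RetH_666
import Crest.Agent.R275.IndLink_509
import Crest.Agent.R275.Eul_473
import Crest.Agent.R275.MIe_683
import Crest.Agent.R275.ClsE_798

-- ▼ part R275/FHom3_556
section

/-!
# R275, block C, C9m part 3 (helper556): twisting

`twR B m`  : bundle map `m : E → F` of coefficients gives `FHom 0 (tw B E) (tw B F)`;
`twL H E`  : `FHom r (tw B E) (tw B' E)`;
`curvM_tw` : curvature of `tw B E`; `flat_tw` : `tw B E` is flat if `B` is flat and `E` integrable.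
`FIso`     : isomorphisms, `secEquiv`.
-/

set_option autoImplicit false
set_option linter.unusedSectionVars false

open Set Filter Topology Complex
open scoped ContDiff Matrix ComplexConjugate Kronecker

namespace Crest.Agent.R275.FHom556

open Crest.Agent.R275.Geo

noncomputable section

variable {n : ℕ} {M : Type} [TopologicalSpace M] {A : Atl n M}

open FHom

/-! ### coefficients on the right -/

section twR

variable (B : FBun A) {E F G : VBun A}

/-- a smooth map of coefficient bundles acts on `B`-forms with values in them -/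
def twR (m : A.ι → M → Matrix F.ρ E.ρ ℂ)
    (hm : ∀ i k l, ContDiffOn ℝ ∞ (fun z => m i ((A.e i).symm z) k l) (A.e i).target)
    (htr : ∀ i j, ∀ x ∈ (A.e i).source ∩ (A.e j).source,
      m i x * E.g i j x = F.g i j x * m j x) :
    FHom 0 (tw B E) (tw B F) where
  h i x := (1 : Matrix B.κ B.κ ℂ) ⊗ₖ m i x
  smooth := by
    rintro i ⟨k, r⟩ ⟨l, s⟩
    exact contDiffOn_const.mul (hm i r s)
  degr := by
    rintro i x ⟨k, r⟩ ⟨l, s⟩ h
    have h1 : (1 : Matrix B.κ B.κ ℂ) k l ≠ 0 := left_ne_zero_of_mul h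
    have h2 : k = l := by
      by_contra hne
      exact h1 (Matrix.one_apply_ne hne)
    show B.deg k = B.deg l + 0
    rw [h2, add_zero]
  tr i j x hx := by
    show ((1 : Matrix B.κ B.κ ℂ) ⊗ₖ m i x) * (B.τ i j x ⊗ₖ E.g i j x)
      = (B.τ i j x ⊗ₖ F.g i j x) * ((1 : Matrix B.κ B.κ ℂ) ⊗ₖ m j x)
    rw [← Matrix.mul_kronecker_mul, ← Matrix.mul_kronecker_mul, one_mul, mul_one, htr i j x hx]

variable {m : A.ι → M → Matrix F.ρ E.ρ ℂ}
  {hm : ∀ i k l, ContDiffOn ℝ ∞ (fun z => m i ((A.e i).symm z) k l) (A.e i).target}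
  {htr : ∀ i j, ∀ x ∈ (A.e i).source ∩ (A.e j).source, m i x * E.g i j x = F.g i j x * m j x}

@[simp] theorem twR_h (i : A.ι) (x : M) :
    (twR B m hm htr).h i x = (1 : Matrix B.κ B.κ ℂ) ⊗ₖ m i x := rfl



theorem dbM_kron_left {κ κ' ρ ρ' : Type} {i : A.ι} {a : Fin n} {x : M} (c : Matrix κ κ' ℂ)
    {f : M → Matrix ρ ρ' ℂ} (hf : MSm A i f x) (hx : x ∈ (A.e i).source) :
    dbM i a (fun y => c ⊗ₖ f y) x = c ⊗ₖ dbM i a f x := by
  ext ⟨k, r⟩ ⟨l, s⟩
  have h := Fm96.db_mulP a (Fm96.SmP.const (A := A) (i := i) (x := x) (c k l)) (hf r s) hx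
  rw [Fm96.db_constP, zero_mul, zero_add] at h
  exact h

theorem dbM_kron_right {κ κ' ρ ρ' : Type} {i : A.ι} {a : Fin n} {x : M} (c : Matrix ρ ρ' ℂ)
    {f : M → Matrix κ κ' ℂ} (hf : MSm A i f x) (hx : x ∈ (A.e i).source) :
    dbM i a (fun y => f y ⊗ₖ c) x = dbM i a f x ⊗ₖ c := by
  ext ⟨k, r⟩ ⟨l, s⟩
  have h := Fm96.db_mulP a (hf k l) (Fm96.SmP.const (A := A) (i := i) (x := x) (c r s)) hx
  rw [Fm96.db_constP, mul_zero, add_zero] at h
  exact h



end twR

section twR2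

variable (B : FBun A) {E F G : VBun A}
  {m : A.ι → M → Matrix F.ρ E.ρ ℂ}
  {hm : ∀ i k l, ContDiffOn ℝ ∞ (fun z => m i ((A.e i).symm z) k l) (A.e i).target}
  {htr : ∀ i j, ∀ x ∈ (A.e i).source ∩ (A.e j).source, m i x * E.g i j x = F.g i j x * m j x}
  {m' : A.ι → M → Matrix G.ρ F.ρ ℂ}
  {hm' : ∀ i k l, ContDiffOn ℝ ∞ (fun z => m' i ((A.e i).symm z) k l) (A.e i).target}
  {htr' : ∀ i j, ∀ x ∈ (A.e i).source ∩ (A.e j).source,
    m' i x * F.g i j x = G.g i j x * m' j x}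







end twR2

/-! ### bundle maps on the left -/

section twL

variable {r : ℕ} {B B' : FBun A}

/-- a map of Dolbeault bundles acts on forms with values in `E` -/
def twL (H : FHom r B B') (E : VBun A) : FHom r (tw B E) (tw B' E) where
  h i x := H.h i x ⊗ₖ (1 : Matrix E.ρ E.ρ ℂ)
  smooth := by
    rintro i ⟨k, r⟩ ⟨l, s⟩
    exact (H.smooth i k l).mul contDiffOn_const
  degr := by
    rintro i x ⟨k, r⟩ ⟨l, s⟩ h
    exact H.degr i x k l (left_ne_zero_of_mul h)
  tr i j x hx := by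
    show (H.h i x ⊗ₖ (1 : Matrix E.ρ E.ρ ℂ)) * (B.τ i j x ⊗ₖ E.g i j x)
      = (B'.τ i j x ⊗ₖ E.g i j x) * (H.h j x ⊗ₖ (1 : Matrix E.ρ E.ρ ℂ))
    rw [← Matrix.mul_kronecker_mul, ← Matrix.mul_kronecker_mul, one_mul, mul_one, H.tr i j x hx]

@[simp] theorem twL_h (H : FHom r B B') (E : VBun A) (i : A.ι) (x : M) :
    (twL H E).h i x = H.h i x ⊗ₖ (1 : Matrix E.ρ E.ρ ℂ) := rfl



end twL

/-! ### curvature of `tw B E` -/

section curvtw

variable {B : FBun A} {E : VBun A}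

theorem AC.tw (hB : AC B) (E : VBun A) : AC (tw B E) := by
  intro a i x hx
  show (B.e a ⊗ₖ (1 : Matrix E.ρ E.ρ ℂ)) * (B.α i x ⊗ₖ (1 : Matrix E.ρ E.ρ ℂ)
      + ∑ b, B.e b ⊗ₖ E.a i b x)
    = -((B.α i x ⊗ₖ (1 : Matrix E.ρ E.ρ ℂ) + ∑ b, B.e b ⊗ₖ E.a i b x)
      * (B.e a ⊗ₖ (1 : Matrix E.ρ E.ρ ℂ)))
  simp only [← Matrix.mul_kronecker_mul, Matrix.add_mul, Matrix.mul_add, Finset.sum_mul,
    Finset.mul_sum, mul_one, one_mul, neg_add, ← Finset.sum_neg_distrib]
  congr 1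
  · rw [hB a i x hx]
    ext ⟨k, t⟩ ⟨l, t'⟩
    simp [Matrix.kroneckerMap_apply]
  · refine Finset.sum_congr rfl fun b _ => ?_
    rw [eq_neg_of_add_eq_zero_left (B.ee a b)]
    ext ⟨k, t⟩ ⟨l, t'⟩
    simp [Matrix.kroneckerMap_apply]

/-- the `(a,b)` part of the curvature before antisymmetrisation -/
def Fab (E : VBun A) (i : A.ι) (a b : Fin n) (x : M) : Matrix E.ρ E.ρ ℂ :=
  dbM i a (E.a i b) x + E.a i a x * E.a i b x

/-- integrability of the `(0,1)`-connection -/
def Integrable (E : VBun A) : Prop := ∀ i, ∀ x ∈ (A.e i).source, ∀ a b,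
  Fab E i a b x = Fab E i b a x

theorem a_MSm (E : VBun A) {i : A.ι} {x : M} (hx : x ∈ (A.e i).source) (b : Fin n) :
    MSm A i (E.a i b) x := MSm.of_smAt (fun k l => E.a_smooth i b k l) hx

theorem α_MSm (B : FBun A) {i : A.ι} {x : M} (hx : x ∈ (A.e i).source) :
    MSm A i (B.α i) x := MSm.of_smAt (α_smAt B i) hx

theorem curvM_tw (hB : AC B) {i : A.ι} {x : M} (hx : x ∈ (A.e i).source) :
    curvM (tw B E) i x = curvM B i x ⊗ₖ (1 : Matrix E.ρ E.ρ ℂ)
      + ∑ a, ∑ b, (B.e a * B.e b) ⊗ₖ Fab E i a b x := by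
  rw [curvM, if_pos hx, curvM, if_pos hx]
  have h1 : ∀ a, dbM i a ((tw B E).α i) x = dbM i a (B.α i) x ⊗ₖ (1 : Matrix E.ρ E.ρ ℂ)
      + ∑ b, B.e b ⊗ₖ dbM i a (E.a i b) x := by
    intro a
    have s1 : MSm A i (fun y => B.α i y ⊗ₖ (1 : Matrix E.ρ E.ρ ℂ)) x := by
      rintro ⟨k, t⟩ ⟨l, t'⟩
      exact (α_MSm B hx k l).mul (Fm96.SmP.const _)
    have s2 : ∀ b, MSm A i (fun y => B.e b ⊗ₖ E.a i b y) x := by
      rintro b ⟨k, t⟩ ⟨l, t'⟩
      exact (Fm96.SmP.const _).mul (a_MSm E hx b t t')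
    have e1 : dbM i a (fun y => B.α i y ⊗ₖ (1 : Matrix E.ρ E.ρ ℂ) + ∑ b, B.e b ⊗ₖ E.a i b y) x
        = _ := dbM_addP s1 (MSm.sum fun b _ => s2 b) a
    rw [dbM_sumP (fun b _ => s2 b) a, dbM_kron_right 1 (α_MSm B hx) hx] at e1
    refine e1.trans ?_
    congr 1
    exact Finset.sum_congr rfl fun b _ => dbM_kron_left (B.e b) (a_MSm E hx b) hx
  simp only [h1]
  show (∑ a, (B.e a ⊗ₖ (1 : Matrix E.ρ E.ρ ℂ)) * (dbM i a (B.α i) x ⊗ₖ (1 : Matrix E.ρ E.ρ ℂ)
        + ∑ b, B.e b ⊗ₖ dbM i a (E.a i b) x))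
      + (B.α i x ⊗ₖ (1 : Matrix E.ρ E.ρ ℂ) + ∑ a, B.e a ⊗ₖ E.a i a x)
        * (B.α i x ⊗ₖ (1 : Matrix E.ρ E.ρ ℂ) + ∑ b, B.e b ⊗ₖ E.a i b x) = _
  simp only [Matrix.mul_add, Matrix.add_mul, Finset.mul_sum, Finset.sum_mul,
    ← Matrix.mul_kronecker_mul, one_mul, mul_one, Finset.sum_add_distrib]
  have h2 : ∑ a, (B.e a * B.α i x) ⊗ₖ E.a i a x
      = -∑ b, (B.α i x * B.e b) ⊗ₖ E.a i b x := by
    rw [← Finset.sum_neg_distrib]
    refine Finset.sum_congr rfl fun b _ => ?_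
    rw [hB b i x hx]
    ext ⟨k, t⟩ ⟨l, t'⟩
    simp [Matrix.kroneckerMap_apply]
  have h3 : ∑ a, ∑ b, (B.e a * B.e b) ⊗ₖ Fab E i a b x
      = (∑ a, ∑ b, (B.e a * B.e b) ⊗ₖ dbM i a (E.a i b) x)
        + ∑ a, ∑ b, (B.e a * B.e b) ⊗ₖ (E.a i a x * E.a i b x) := by
    simp only [← Finset.sum_add_distrib]
    refine Finset.sum_congr rfl fun a _ => Finset.sum_congr rfl fun b _ => ?_
    rw [Fab, Matrix.kronecker_add]
  have h4 : ((∑ a, B.e a * dbM i a (B.α i) x) + B.α i x * B.α i x) ⊗ₖ (1 : Matrix E.ρ E.ρ ℂ)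
      = (∑ a, (B.e a * dbM i a (B.α i) x) ⊗ₖ (1 : Matrix E.ρ E.ρ ℂ))
        + (B.α i x * B.α i x) ⊗ₖ (1 : Matrix E.ρ E.ρ ℂ) := by
    rw [Matrix.add_kronecker, kron_sum_left]
  rw [h2, h3, h4]
  have h5 : ∑ x_1, ∑ x_2, (B.e x_2 * B.e x_1) ⊗ₖ (E.a i x_2 x * E.a i x_1 x)
      = ∑ a, ∑ b, (B.e a * B.e b) ⊗ₖ (E.a i a x * E.a i b x) := Finset.sum_comm
  rw [h5]
  abel

theorem Flat.tw (hB : Flat B) (hE : Integrable E) : Flat (tw B E) := by
  refine ⟨hB.1.tw E, fun i x hx => ?_⟩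
  have h := curvM_tw (E := E) hB.1 hx
  rw [curvM, if_pos hx] at h
  rw [h, curvM, if_pos hx, hB.2 i x hx, Matrix.zero_kronecker, zero_add]
  exact antisymm_kron B _ (hE i x hx)

end curvtw

/-! ### isomorphisms of Dolbeault bundles -/

/-- isomorphism of Dolbeault bundles (no compatibility with `e`, `α` is asked) -/
structure FIso (B B' : FBun A) where
  f : FHom 0 B B'
  g : FHom 0 B' B
  gf : ∀ i, ∀ x ∈ (A.e i).source, g.h i x * f.h i x = 1
  fg : ∀ i, ∀ x ∈ (A.e i).source, f.h i x * g.h i x = 1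

namespace FIso

variable {B B' : FBun A}

/-- inverse -/
def symm (Φ : FIso B B') : FIso B' B := ⟨Φ.g, Φ.f, Φ.fg, Φ.gf⟩

/-- the isomorphism of the spaces of smooth sections -/
def secEquiv (Φ : FIso B B') : Sec B ≃ₗ[ℂ] Sec B' :=
  LinearEquiv.ofLinearMap Φ.f.actL Φ.g.actL
    (by
      ext u : 1
      refine Subtype.ext ?_
      funext i x
      show Φ.f.act (Φ.g.act u.1) i x = u.1 i x
      by_cases hx : x ∈ (A.e i).source
      · rw [act_apply, act_apply, Matrix.mulVec_mulVec, Φ.fg i x hx]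
        exact Matrix.one_mulVec _
      · rw [act_apply, act_apply, Sec.off B' u.2 hx, Matrix.mulVec_zero, Matrix.mulVec_zero])
    (by
      ext u : 1
      refine Subtype.ext ?_
      funext i x
      show Φ.g.act (Φ.f.act u.1) i x = u.1 i x
      by_cases hx : x ∈ (A.e i).source
      · rw [act_apply, act_apply, Matrix.mulVec_mulVec, Φ.gf i x hx]
        exact Matrix.one_mulVec _
      · rw [act_apply, act_apply, Sec.off B u.2 hx, Matrix.mulVec_zero, Matrix.mulVec_zero])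

@[simp] theorem secEquiv_coe (Φ : FIso B B') (u : Sec B) : (Φ.secEquiv u).1 = Φ.f.act u.1 := rfl

end FIso




end

end Crest.Agent.R275.FHom556
end

-- ▼ part R275/CIdx_509

/-!
# R275, block C (helper509): the index of a bundle over a finite atlas (compact manifolds)

* `gd`, `qc`  : the graded scale and the quasi-complex `(∇_B, K)` of ANY `B : FBun A`;
* `indB P B`  : its index; `indB_part` (independence of the partition), `indB_iso` (isomorphic
  bundles whose differentials differ by a zero order term), `indB_prod`;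
* `indB_euler`, `st_scB` : integrable bundles (Euler characteristic, supertrace);
* `indB_eq_ind` : `indB P (tw B E) = G.ms.ind (pr P E.sb) 1` for EVERY `E : VBun A` (integrable
  or not), `G : GMod (dolP hB)`.
-/

set_option autoImplicit false
set_option linter.unusedSectionVars false

open Filter Topology Complex
open scoped ContDiff Matrix ComplexConjugate Kronecker

namespace Crest.Agent.R275.CIdx509

open Module LinearMap Submodule Geo Smf798 KR798 SB798 SmR425 NA3m425 NA6b763 FHom556 DolG763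
  Brix509 Fred685 MI683 IndLink509 RetC666 NA7763

noncomputable section

variable {n : ℕ} {M : Type} [TopologicalSpace M] {A : Atl n M}

/-! ### degree rules -/

/-- operators lowering the degree by one -/
structure KDeg (B : FBun A) (K : Sec B →ₗ[ℂ] Sec B) : Prop where
  succ : ∀ q u, K (pqL B (q + 1) u) = pqL B q (K u)
  zero : ∀ u, K (pqL B 0 u) = 0

theorem kdeg_KML (P : Part A) (B : FBun A) : KDeg B (KML B P) where
  succ q u := LinearMap.congr_fun (KML_pqL P q) u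
  zero u := LinearMap.congr_fun (KML_pqL_zero P) u

theorem nabL_pqL' (B : FBun A) (q : ℕ) (u : Sec B) :
    nabL B (pqL B q u) = pqL B (q + 1) (nabL B u) := LinearMap.congr_fun (nabL_pqL q) u

theorem KDeg.kdk {B : FBun A} {K : Module.End ℂ (Sec B)} (h : KDeg B K)
    {d : Module.End ℂ (Sec B)} (hd : ∀ u, d u = nabL B u) :
    KDeg B (K * d * K : Module.End ℂ (Sec B)) where
  succ q u := by
    change K (d (K (pqL B (q + 1) u))) = pqL B q (K (d (K u)))
    rw [h.succ, hd, hd, nabL_pqL', h.succ]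
  zero u := by
    change K (d (K (pqL B 0 u))) = 0
    rw [h.zero, map_zero, map_zero]

theorem deg_le {B : FBun A} {m : ℕ} (hm : topDeg B ≤ m) (k : B.κ) : B.deg k ≤ m :=
  (deg_le_topDeg k).trans hm

theorem deg_nabL (B : FBun A) (m : ℕ) (hm : topDeg B ≤ m) :
    Deg (grB B m hm) (grB B m hm) 1 (nabL B) := by
  intro q r hr v
  show pqL B r (nabL B (pqL B q v)) = 0
  rw [nabL_pqL']
  exact LinearMap.congr_fun (pqL_orth (by omega)) _

theorem KDeg.deg {B : FBun A} {K : Sec B →ₗ[ℂ] Sec B} (h : KDeg B K) (m : ℕ)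
    (hm : topDeg B ≤ m) : Deg (grB B m hm) (grB B m hm) (-1) K := by
  intro q r hr v
  show pqL B r (K (pqL B q v)) = 0
  rcases q with _ | q
  · rw [h.zero, map_zero]
  · rw [h.succ]
    exact LinearMap.congr_fun (pqL_orth (by push_cast at hr; omega)) _

/-! ### the quasi-complex -/

section qc

variable [Finite A.ι] (P : Part A) (B : FBun A) (m : ℕ) (hm : topDeg B ≤ m)

/-- the graded scale of a bundle -/
def gd : Gd (scS P B m) := Gd.std (grB B m hm) (op0_pqL P B (deg_le hm))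




@[simp] theorem gd_π (q : ℕ) (u : Sec B) : (gd P B m hm).π q u = pqL B q u := rfl

@[simp] theorem gd_T (u : Sec B) : (gd P B m hm).T u = sg B u := grB_sgn B m hm u

theorem gb : GB B (gd P B m hm) := ⟨fun _ _ => rfl, gd_T P B m hm⟩

/-- **the quasi-complex of a bundle** -/
def qc : QC (gd P B m hm) where
  d := nabL B
  K := KML B P
  d_op := op0_nabL P B (deg_le hm)
  K_op := op0_KML P B m
  d_deg := deg_nabL B m hm
  K_deg := (kdeg_KML P B).deg m hm
  d_odd v := (deg_nabL B m hm).sgn (by decide) v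
  K_odd v := ((kdeg_KML P B).deg m hm).sgn (by decide) v
  sq := neg_nabL_sq P B (deg_le hm)
  htpy := neg_htpy P B (deg_le hm)

@[simp] theorem qc_d : (qc P B m hm).d = nabL B := rfl
@[simp] theorem qc_K : (qc P B m hm).K = KML B P := rfl

/-- **the index of a bundle** -/
def indB : ℤ := oidx ((sg B).restrictScalars ℂ : Module.End ℂ (Sec B))
  (nabL B + KML B P : Module.End ℂ (Sec B))

theorem qc_ind : (qc P B m hm).ind = indB P B := by
  have h : ((sg B).restrictScalars ℂ : Module.End ℂ (Sec B)) = (gd P B m hm).T :=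
    LinearMap.ext fun u => (gd_T P B m hm u).symm
  rw [indB, h]
  rfl

include hm in
/-- the index of any quasi-complex with differential `∇_B` for the standard grading -/
theorem ind_eq_indB {SE : Scale ℂ (Sec B)} {G : Gd SE} (Q : QC G)
    (hQ : Q.d = nabL B) (hG : GB B G) (h1 : Op0 (scS P B m) SE (LinearMap.id))
    (h2 : Op0 SE (scS P B m) (LinearMap.id)) : Q.ind = indB P B := by
  rw [← qc_ind P B m hm]
  refine (QC.ind_eq_of_iso (qc P B m hm) Q (Φ := LinearEquiv.refl ℂ (Sec B)) ?_ ?_).symm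
  · refine ⟨h1, h2, fun q v => ?_, fun v => ?_⟩
    · exact (hG.π q v).symm
    · exact (gd_T P B m hm v).trans (hG.T v).symm
  · have e : ((LinearEquiv.refl ℂ (Sec B) : Sec B ≃ₗ[ℂ] Sec B) : Sec B →ₗ[ℂ] Sec B) ∘ₗ
        (qc P B m hm).d - Q.d ∘ₗ
        ((LinearEquiv.refl ℂ (Sec B) : Sec B ≃ₗ[ℂ] Sec B) : Sec B →ₗ[ℂ] Sec B) = 0 := by
      rw [hQ]
      exact sub_self (nabL B)
    rw [e]
    exact Neg.zero

theorem indB_part (P' : Part A) : indB P B = indB P' B := by
  rw [← qc_ind P B (topDeg B) le_rfl]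
  exact ind_eq_indB P' B (topDeg B) le_rfl (qc P B (topDeg B) le_rfl) rfl
    (gb P B (topDeg B) le_rfl) (op0_id_part P' B P _) (op0_id_part P B P' _)

end qc

/-! ### isomorphic bundles -/

section iso

variable [Finite A.ι] (P : Part A) {B B' : FBun A}





end iso

/-! ### integrable bundles -/

section euler

variable [Finite A.ι] (P : Part A) (B : FBun A)


/-- **Euler characteristic** -/
theorem indB_euler (m : ℕ) (hm : topDeg B ≤ m) (h : ∀ u : Sec B, nabL B (nabL B u) = 0) :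
    (∀ q, FiniteDimensional ℂ (Eul473.Hq (qc P B m hm) q)) ∧
      indB P B = ∑ q ∈ Finset.range (m + 1),
        (-1 : ℤ) ^ q * (finrank ℂ (Eul473.Hq (qc P B m hm) q) : ℤ) := by
  obtain ⟨h1, _, h3⟩ := Eul473.euler (qc P B m hm) h rfl
  rw [qc_ind] at h3
  exact ⟨h1, h3⟩

end euler

/-! ### the index of a twisted bundle is the index of the idempotent -/

section link

variable [CompactSpace M] (P : Part A) {B : FBun A} (E : VBun A)

/-- the degree condition of `opm_ZC` in terms of `prZ` -/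
theorem prZ_of_degW {Z : Sec B →ₗ[smf A] Sec B}
    (h : ∀ (c : ℕ → ℂ) (u : Sec B), Z (degW B (fun j => c (j + 1)) u) = degW B c (Z u))
    (q : ℤ) (u : Sec B) : Z (prZ B q u) = prZ B (q + 1) (Z u) := by
  have h1 := h (fun j => if (j : ℤ) = q + 1 then 1 else 0) u
  rw [prZ, prZ, ← h1]
  congr 1
  refine degW_congr B (fun k => ?_) u
  by_cases hk : (B.deg k : ℤ) = q
  · rw [if_pos hk, if_pos (by push_cast; rw [hk])]
  · rw [if_neg hk, if_neg (fun h' => hk (by push_cast at h'; linarith))]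

/-- `ZE` has order `-1` -/
theorem opm_ZG {hB : ∀ u : Sec B, nabL B (nabL B u) = 0} (G : GMod (dolP hB)) :
    Opm (pw (NI P E) G.S) (pw (NI P E) G.S) (ZC P B E) := by
  refine opm_ZC fun Z hZ s => ?_
  obtain ⟨C, hC⟩ := G.lin Z 1 (prZ_of_degW hZ) s (s + 1) (by push_cast; ring)
  exact ⟨C, hC⟩

variable [Finite A.ι]

/-- **the link** -/
theorem indB_eq_ind {hB : ∀ u : Sec B, nabL B (nabL B u) = 0} (G : GMod (dolP hB)) {N : ℕ}
    (hN : topDeg B ≤ N) (hS : G.S = scS P B N) (hK : KDeg B G.K) :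
    indB P (tw B E) = G.ms.ind (pr P E.sb) 1 := by
  have hN' : topDeg (tw B E) ≤ N := Finset.sup_le fun k _ => deg_le hN k.1
  have hK' : KDeg B G.K' := hK.kdk (d := (dolP hB).d) fun _ => rfl
  rw [← qc_ind P (tw B E) N hN']
  refine ind_link (X := G.ms) (fun _ => rfl) (fun _ => rfl) (fun _ => rfl) hK'.succ hK'.zero
    (gb P (tw B E) N hN') (op0_toC fun i r => ?_) (op0_frC fun i r => ?_) (opm_ZG P E G)
    (qc P (tw B E) N hN') rfl
  · change Op0 _ G.S _
    rw [hS]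
    exact op0_actL P _ (deg_le hN)
  · change Op0 G.S _ _
    rw [hS]
    exact op0_actL P _ (deg_le hN')


end link

/-! ### the ring of classes -/

section ring

variable [CompactSpace M] (P : Part A)

/-- the index of a bundle through the ring of classes -/
theorem indE_kIndex {V : Type*} [AddCommGroup V] [Module ℂ V] [Module (smf A) V]
    [IsScalarTower ℂ (smf A) V] (X : ModSc (smf A) V) (hσ : ∀ f : smf A, X.σ f = f) (E : SB A) :
    indE P (X.kIndex hσ) E = X.ind (pr P E) 1 := by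
  classical
  set e := Fintype.equivFin (Ix P × E.ρ) with he
  have hp := pr_idem P E
  have h1 : IsoM (pr P E) (Matrix.reindex e e (pr P E)) := isoM_reindex e hp
  have h2 : cE P (X.kIndex hσ) E =
      (X.kIndex hσ).c (Matrix.reindex e e (pr P E)) (idem_reindex e hp) :=
    (X.kIndex hσ).c_congr _ _ h1
  rw [indE, h2, KIndex.indR_c]
  obtain ⟨a, b, hab, hba⟩ := h1
  exact (X.ind_iso hp (idem_reindex e hp) (X.eqv_one hσ _) (X.eqv_one hσ _) hab hba
    (X.eqv_one hσ b)).symm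

variable [Finite A.ι] {B : FBun A} (E : VBun A)



end ring

end

end Crest.Agent.R275.CIdx509
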