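import Mathlib
import Crest.Agent.R080.Cauchy
import Crest.Agent.R266.SCV
import Crest.Agent.R275.Geo_509
import Crest.Agent.R275.Fm_96
import Crest.Agent.R275.OmT_75

-- ▼ part R275/GLoc_861
section

/-!
# G-LOCAL (doc 937 G): smooth top-degree forms modulo a holomorphic function

`U` open in `ℂ²`, `s` holomorphic on `U`, nowhere locally zero.  Every smooth `φ` with compact
support in `U` is `∂̄₀ g₁ - ∂̄₁ g₀ + s η`, with `g₀, g₁, η` smooth, compactly supported in `U`.
-/

set_option autoImplicit false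

open Set Filter Topology Complex MeasureTheory
open scoped ContDiff ComplexConjugate

namespace Crest.Agent.R275.GLoc861

open Crest.Agent.R275.Geo (Cn dbj)
open Crest.Agent.R080 (Dp)
open Crest.Agent.R080.CauchyP (cauchyP cauchyP_contDiff Dp_cauchyP)
open Crest.Agent.R266

noncomputable section

/-- the complex line spanned by `v` -/
def lin {n : ℕ} (v : Cn n) : ℂ →L[ℝ] Cn n :=
  ((1 : ℂ →L[ℂ] ℂ).smulRight v).restrictScalars ℝ

@[simp] theorem lin_apply {n : ℕ} (v : Cn n) (t : ℂ) : lin v t = t • v := by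
  simp [lin]

theorem real_linear_expand {n : ℕ} (L : Cn n →L[ℝ] ℂ) (v : Cn n) :
    L v + I * L (I • v) =
      ∑ a, conj (v a) * (L (EuclideanSpace.single a 1) + I * L (EuclideanSpace.single a I)) := by
  have hv : v = ∑ a, v a • EuclideanSpace.single a (1 : ℂ) := by
    ext b
    simp [Finset.sum_apply, Pi.single_apply]
  have h1 : ∀ (c : ℂ) (a : Fin n), L (c • EuclideanSpace.single a (1 : ℂ)) =
      (c.re : ℂ) * L (EuclideanSpace.single a 1) + (c.im : ℂ) * L (EuclideanSpace.single a I) := by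
    intro c a
    have : c • EuclideanSpace.single a (1 : ℂ) =
        (c.re : ℝ) • EuclideanSpace.single a (1 : ℂ) + (c.im : ℝ) • EuclideanSpace.single a I := by
      ext b
      rcases eq_or_ne b a with rfl | hb
      · simp [Complex.re_add_im]
      · simp [hb]
    rw [this, map_add, map_smul, map_smul]
    simp
  have h2 : L v = ∑ a, ((v a).re * L (EuclideanSpace.single a 1) +
      (v a).im * L (EuclideanSpace.single a I)) := by
    conv_lhs => rw [hv]
    rw [map_sum]
    exact Finset.sum_congr rfl fun a _ => h1 _ _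
  have h3 : L (I • v) = ∑ a, ((I * v a).re * L (EuclideanSpace.single a 1) +
      (I * v a).im * L (EuclideanSpace.single a I)) := by
    conv_lhs => rw [hv, Finset.smul_sum]
    rw [map_sum]
    refine Finset.sum_congr rfl fun a _ => ?_
    rw [smul_smul, h1]
  rw [h2, h3, Finset.mul_sum, ← Finset.sum_add_distrib]
  refine Finset.sum_congr rfl fun a _ => ?_
  have e1 : conj (v a) = (v a).re - (v a).im * I := by
    apply Complex.ext <;> simp
  rw [e1]
  simp only [Complex.mul_re, Complex.mul_im, Complex.I_re, Complex.I_im]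
  push_cast
  linear_combination ((v a).im * L (EuclideanSpace.single a I)) * Complex.I_sq

theorem Dp_lin {n : ℕ} (v : Cn n) (G : Cn n → ℂ) (z : Cn n) :
    Dp (lin v) G z = ∑ a, 2 * conj (v a) * dbj a G z := by
  have h := real_linear_expand (fderiv ℝ G z) v
  unfold Dp
  rw [lin_apply, lin_apply, one_smul, h]
  refine Finset.sum_congr rfl fun a _ => ?_
  simp only [dbj, smul_eq_mul]
  ring

/-- a direction in which `s` does not vanish identically at `p` -/
theorem exists_dir {s : Cn 2 → ℂ} {U : Set (Cn 2)} (hU : IsOpen U) {p : Cn 2} (hp : p ∈ U)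
    (hs : DifferentiableOn ℂ s U) (h0 : ¬ ∀ᶠ z in 𝓝 p, s z = 0) :
    ∃ v : Cn 2, v ≠ 0 ∧ ∃ r > 0, ∀ t : ℂ, t ≠ 0 → ‖t‖ ≤ r → s (p + t • v) ≠ 0 := by
  obtain ⟨R, hR, hRU⟩ := Metric.isOpen_iff.1 hU p hp
  have hc : ContinuousAt s p := (hs.differentiableAt (hU.mem_nhds hp)).continuousAt
  -- a point `q ≠ p` with `s q ≠ 0`
  obtain ⟨q, hqp, hqR, hq⟩ : ∃ q, q ≠ p ∧ q ∈ Metric.ball p R ∧ s q ≠ 0 := by
    by_contra hcon
    push Not at hcon
    apply h0
    have hne : s =ᶠ[𝓝[≠] p] fun _ => 0 := by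
      filter_upwards [self_mem_nhdsWithin, mem_nhdsWithin_of_mem_nhds (Metric.ball_mem_nhds p hR)]
        with z hz hz2
      exact hcon z hz hz2
    exact (hc.eventuallyEq_nhds_iff_eventuallyEq_nhdsNE continuousAt_const).1 hne
  set v := q - p with hv
  have hv0 : v ≠ 0 := sub_ne_zero.2 hqp
  have hvn : 0 < ‖v‖ := norm_pos_iff.2 hv0
  have hvR : ‖v‖ < R := by rw [hv, ← dist_eq_norm]; exact hqR
  refine ⟨v, hv0, ?_⟩
  set f : ℂ → ℂ := fun t => s (p + t • v) with hf
  set ρ : ℝ := R / ‖v‖ with hρ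
  have hρ1 : 1 < ρ := by rw [hρ, one_lt_div hvn]; exact hvR
  have hmap : ∀ t ∈ Metric.ball (0 : ℂ) ρ, p + t • v ∈ U := by
    intro t ht
    apply hRU
    rw [mem_ball_zero_iff] at ht
    rw [Metric.mem_ball, dist_eq_norm, add_sub_cancel_left, norm_smul]
    rwa [hρ, lt_div_iff₀ hvn] at ht
  have hfd : DifferentiableOn ℂ f (Metric.ball (0 : ℂ) ρ) := by
    intro t ht
    have h1 : DifferentiableAt ℂ s (p + t • v) := hs.differentiableAt (hU.mem_nhds (hmap t ht))
    exact (h1.comp t (f := fun t : ℂ => p + t • v) (by fun_prop)).differentiableWithinAt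
  have hfa : AnalyticOnNhd ℂ f (Metric.ball (0 : ℂ) ρ) := hfd.analyticOnNhd Metric.isOpen_ball
  have h0m : (0 : ℂ) ∈ Metric.ball (0 : ℂ) ρ := Metric.mem_ball_self (by linarith)
  rcases (hfa 0 h0m).eventually_eq_zero_or_eventually_ne_zero with h | h
  · exfalso
    have := hfa.eqOn_zero_of_preconnected_of_eventuallyEq_zero
      (convex_ball (0 : ℂ) ρ).isPreconnected h0m h
    have h1 := this (show (1 : ℂ) ∈ Metric.ball (0 : ℂ) ρ by simpa using hρ1)
    simp only [hf, one_smul, hv, add_sub_cancel, Pi.zero_apply] at h1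
    exact hq h1
  · rw [eventually_nhdsWithin_iff, Metric.eventually_nhds_iff] at h
    obtain ⟨r, hr, h⟩ := h
    refine ⟨r / 2, by positivity, fun t ht htr => ?_⟩
    exact h (by rw [dist_zero_right]; linarith) ht

/-- the tube around the complex line: a neighbourhood with a zero-free annulus -/
theorem exists_tube {s : Cn 2 → ℂ} {U : Set (Cn 2)} (hU : IsOpen U) {p : Cn 2} (hp : p ∈ U)
    (hs : DifferentiableOn ℂ s U) (h0 : ¬ ∀ᶠ z in 𝓝 p, s z = 0) :
    ∃ v : Cn 2, v ≠ 0 ∧ ∃ r > 0, ∃ ε > 0,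
      (∀ (z : Cn 2) (t : ℂ), ‖z - p‖ ≤ ε → ‖t‖ ≤ r → z + t • v ∈ U) ∧
      (∀ (z : Cn 2) (t : ℂ), ‖z - p‖ ≤ ε → r / 2 ≤ ‖t‖ → ‖t‖ ≤ r → s (z + t • v) ≠ 0) := by
  obtain ⟨v, hv, r1, hr1, hne⟩ := exists_dir hU hp hs h0
  obtain ⟨R, hR, hRU⟩ := Metric.isOpen_iff.1 hU p hp
  have hvn : 0 < ‖v‖ := norm_pos_iff.2 hv
  set r : ℝ := min r1 (R / (2 * ‖v‖)) with hr
  have hr0 : 0 < r := lt_min hr1 (by positivity)
  have hrv : r * ‖v‖ < R := by
    have : r ≤ R / (2 * ‖v‖) := min_le_right _ _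
    have h2 : r * ‖v‖ ≤ R / (2 * ‖v‖) * ‖v‖ := mul_le_mul_of_nonneg_right this hvn.le
    have h3 : R / (2 * ‖v‖) * ‖v‖ = R / 2 := by field_simp
    linarith
  have hcont : Continuous fun q : Cn 2 × ℂ => q.1 + q.2 • v := by fun_prop
  -- first tube
  have h1 : ∃ ε > 0, ∀ (z : Cn 2) (t : ℂ), ‖z - p‖ ≤ ε → ‖t‖ ≤ r → z + t • v ∈ U := by
    refine ⟨(R - r * ‖v‖) / 2, by linarith, fun z t hz ht => hRU ?_⟩
    rw [Metric.mem_ball, dist_eq_norm]
    have : z + t • v - p = (z - p) + t • v := by abel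
    rw [this]
    have h2 := norm_add_le (z - p) (t • v)
    rw [norm_smul] at h2
    have h3 : ‖t‖ * ‖v‖ ≤ r * ‖v‖ := mul_le_mul_of_nonneg_right ht hvn.le
    linarith
  -- second tube
  have h2 : ∃ ε > 0, ∀ (z : Cn 2) (t : ℂ), ‖z - p‖ ≤ ε → r / 2 ≤ ‖t‖ → ‖t‖ ≤ r →
      s (z + t • v) ≠ 0 := by
    set O : Set (Cn 2) := {z | z ∈ U ∧ s z ≠ 0} with hO
    have hOo : IsOpen O := by
      have := hs.continuousOn.isOpen_inter_preimage hU (isOpen_ne (x := (0 : ℂ)))
      exact this
    set K : Set ℂ := {t | r / 2 ≤ ‖t‖ ∧ ‖t‖ ≤ r} with hK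
    have hKc : IsCompact K := by
      apply Metric.isCompact_of_isClosed_isBounded
      · exact (isClosed_le continuous_const continuous_norm).inter
          (isClosed_le continuous_norm continuous_const)
      · refine (Metric.isBounded_closedBall (x := (0 : ℂ)) (r := r)).subset fun t ht => ?_
        simpa using ht.2
    have hsub : {p} ×ˢ K ⊆ (fun q : Cn 2 × ℂ => q.1 + q.2 • v) ⁻¹' O := by
      rintro ⟨z, t⟩ ⟨hz, ht⟩
      rw [mem_singleton_iff] at hz
      subst hz
      refine ⟨hRU ?_, hne t ?_ (ht.2.trans (min_le_left _ _))⟩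
      · rw [Metric.mem_ball, dist_eq_norm, add_sub_cancel_left, norm_smul]
        exact (mul_le_mul_of_nonneg_right ht.2 hvn.le).trans_lt hrv
      · intro h
        have := ht.1
        simp only at h this
        rw [h, norm_zero] at this
        linarith
    obtain ⟨u, w, hu, hw, hpu, hKw, huw⟩ := generalized_tube_lemma isCompact_singleton hKc
      (hOo.preimage hcont) hsub
    obtain ⟨ε, hε, hεu⟩ := Metric.isOpen_iff.1 hu p (hpu rfl)
    refine ⟨ε / 2, by positivity, fun z t hz ht1 ht2 => ?_⟩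
    have : (z, t) ∈ u ×ˢ w := ⟨hεu (by rw [Metric.mem_ball, dist_eq_norm]; linarith),
      hKw ⟨ht1, ht2⟩⟩
    exact (huw this).2
  obtain ⟨ε1, he1, h1⟩ := h1
  obtain ⟨ε2, he2, h2⟩ := h2
  exact ⟨v, hv, r, hr0, min ε1 ε2, lt_min he1 he2,
    fun z t hz ht => h1 z t (hz.trans (min_le_left _ _)) ht,
    fun z t hz ht1 ht2 => h2 z t (hz.trans (min_le_right _ _)) ht1 ht2⟩

theorem contDiffAt_of_holo {s : Cn 2 → ℂ} {U : Set (Cn 2)} (hU : IsOpen U)
    (hs : DifferentiableOn ℂ s U) {z : Cn 2} (hz : z ∈ U) : ContDiffAt ℝ ∞ s z := by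
  have h1 : ContDiffOn ℂ ω s U := SCV.contDiffOn_omega_of_differentiableOn hU hs
  have h2 : ContDiffAt ℂ ω s z := h1.contDiffAt (hU.mem_nhds hz)
  exact (h2.restrict_scalars ℝ).of_le le_top

/-- smooth quotient, extended by zero -/
theorem contDiff_quot {R s : Cn 2 → ℂ} {U : Set (Cn 2)} (hU : IsOpen U)
    (hs : DifferentiableOn ℂ s U) (hR : ContDiff ℝ ∞ R) (hsub : tsupport R ⊆ U)
    (hne : ∀ z ∈ tsupport R, s z ≠ 0) : ContDiff ℝ ∞ (fun z => R z / s z) := by
  rw [contDiff_iff_contDiffAt]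
  intro z
  by_cases hz : z ∈ tsupport R
  · simp only [div_eq_mul_inv]
    exact hR.contDiffAt.mul ((contDiffAt_of_holo hU hs (hsub hz)).inv (hne z hz))
  · have : (fun z => R z / s z) =ᶠ[𝓝 z] fun _ => 0 := by
      have h1 : (tsupport R)ᶜ ∈ 𝓝 z := (isClosed_tsupport R).isOpen_compl.mem_nhds hz
      filter_upwards [h1] with y hy
      rw [image_eq_zero_of_notMem_tsupport hy, zero_div]
    exact contDiffAt_const.congr_of_eventuallyEq this

theorem Dp_mul {n : ℕ} (ι : ℂ →L[ℝ] Cn n) {f g : Cn n → ℂ} {z : Cn n}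
    (hf : DifferentiableAt ℝ f z) (hg : DifferentiableAt ℝ g z) :
    Dp ι (fun z => f z * g z) z = f z * Dp ι g z + g z * Dp ι f z := by
  unfold Dp
  rw [fderiv_fun_mul hf hg]
  simp only [add_apply, smul_apply, smul_eq_mul]
  ring

theorem dbj_const_mul {n : ℕ} (a : Fin n) (c : ℂ) {f : Cn n → ℂ} {z : Cn n}
    (hf : DifferentiableAt ℝ f z) : dbj a (fun z => c * f z) z = c * dbj a f z := by
  unfold dbj
  rw [fderiv_const_mul hf]
  simp only [smul_apply, smul_eq_mul]
  ring

theorem contDiff_Dp {n : ℕ} (ι : ℂ →L[ℝ] Cn n) {f : Cn n → ℂ} (hf : ContDiff ℝ ∞ f) :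
    ContDiff ℝ ∞ (Dp ι f) := by
  have h1 : ContDiff ℝ ∞ (fderiv ℝ f) := hf.fderiv_right (m := ∞) le_rfl
  show ContDiff ℝ ∞ fun x => fderiv ℝ f x (ι 1) + I * fderiv ℝ f x (ι I)
  exact (h1.clm_apply contDiff_const).add (contDiff_const.mul (h1.clm_apply contDiff_const))

/-- G-LOCAL at a point -/
theorem glocal_point {s : Cn 2 → ℂ} {U : Set (Cn 2)} (hU : IsOpen U) {p : Cn 2} (hp : p ∈ U)
    (hs : DifferentiableOn ℂ s U) (h0 : ¬ ∀ᶠ z in 𝓝 p, s z = 0) :
    ∃ W : Set (Cn 2), IsOpen W ∧ p ∈ W ∧ W ⊆ U ∧ ∀ φ : Cn 2 → ℂ, ContDiff ℝ ∞ φ →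
      tsupport φ ⊆ W → ∃ (g : Fin 2 → Cn 2 → ℂ) (η : Cn 2 → ℂ),
        (∀ a, ContDiff ℝ ∞ (g a) ∧ HasCompactSupport (g a) ∧ tsupport (g a) ⊆ U) ∧
        (ContDiff ℝ ∞ η ∧ HasCompactSupport η ∧ tsupport η ⊆ U) ∧
        ∀ z, φ z = dbj 0 (g 1) z - dbj 1 (g 0) z + s z * η z := by
  obtain ⟨v, hv, r, hr, ε, hε, hT, hA⟩ := exists_tube hU hp hs h0
  have hvn : 0 < ‖v‖ := norm_pos_iff.2 hv
  obtain ⟨l, hl⟩ := SeparatingDual.exists_eq_one (R := ℂ) hv
  set Pr : Cn 2 → Cn 2 := fun z => z - l (z - p) • v with hPr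
  have hPrc : Continuous Pr := by fun_prop
  have hlc : Continuous fun z : Cn 2 => l (z - p) := by fun_prop
  have hdec : ∀ z, z = Pr z + l (z - p) • v := fun z => by simp [hPr]
  have hPrt : ∀ (z : Cn 2) (t : ℂ), Pr (z - t • v) = Pr z := by
    intro z t
    simp only [hPr]
    have : l (z - t • v - p) = l (z - p) - t := by
      rw [show z - t • v - p = (z - p) - t • v by abel, map_sub, map_smul, hl]
      simp
    rw [this, sub_smul]
    abel
  have hPrp : Pr p = p := by simp [hPr]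
  -- bounded sets
  have hbd : ∀ z, ‖Pr z - p‖ ≤ ε → ‖l (z - p)‖ ≤ r → ‖z‖ ≤ ‖p‖ + ε + r * ‖v‖ := by
    intro z h1 h2
    have h3 : z = p + (Pr z - p) + l (z - p) • v := by
      conv_lhs => rw [hdec z]
      abel
    rw [h3]
    refine (norm_add_le _ _).trans ?_
    refine add_le_add ((norm_add_le _ _).trans (add_le_add le_rfl h1)) ?_
    rw [norm_smul]
    exact mul_le_mul_of_nonneg_right h2 hvn.le
  set K : Set (Cn 2) := {z | ‖Pr z - p‖ ≤ ε ∧ ‖l (z - p)‖ ≤ r} with hK
  have hKcl : IsClosed K := (isClosed_le (hPrc.sub continuous_const).norm continuous_const).inter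
    (isClosed_le hlc.norm continuous_const)
  have hKc : IsCompact K := by
    apply Metric.isCompact_of_isClosed_isBounded hKcl
    refine (Metric.isBounded_closedBall (x := (0 : Cn 2)) (r := ‖p‖ + ε + r * ‖v‖)).subset ?_
    intro z hz
    rw [mem_closedBall_zero_iff]
    exact hbd z hz.1 hz.2
  have hKU : K ⊆ U := fun z hz => by
    have := hT (Pr z) (l (z - p)) hz.1 hz.2
    rwa [← hdec z] at this
  set W : Set (Cn 2) := {z | ‖Pr z - p‖ < ε ∧ ‖l (z - p)‖ < r / 2} with hW
  have hWo : IsOpen W := (isOpen_lt (hPrc.sub continuous_const).norm continuous_const).inter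
    (isOpen_lt hlc.norm continuous_const)
  have hpW : p ∈ W := ⟨by simp [hPrp, hε], by simp [hr]⟩
  have hWK : W ⊆ K := fun z hz => ⟨hz.1.le, by linarith [hz.2]⟩
  refine ⟨W, hWo, hpW, hWK.trans hKU, fun φ hφ hsupp => ?_⟩
  have hφW : ∀ z, φ z ≠ 0 → z ∈ W := fun z hz => hsupp (subset_tsupport φ hz)
  set R0 : ℝ := ‖p‖ + ε + r * ‖v‖ + 1 with hR0
  have hφ0 : ∀ x, R0 ≤ ‖x‖ → φ x = 0 := by
    intro x hx
    by_contra h
    have h1 := hWK (hφW x h)
    have := hbd x h1.1 h1.2
    linarith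
  have hι : ∀ z : ℂ, ‖v‖ * ‖z‖ ≤ ‖lin v z‖ := fun z => by
    rw [lin_apply, norm_smul, mul_comm]
  set u : Cn 2 → ℂ := cauchyP (lin v) φ with hu
  have hus : ContDiff ℝ ∞ u := cauchyP_contDiff hvn hι hφ hφ0
  have hDu : ∀ x, Dp (lin v) u x = φ x :=
    Dp_cauchyP hvn hι (hφ.of_le (by exact_mod_cast le_top)) hφ0
  have husupp : ∀ z, u z ≠ 0 → ‖Pr z - p‖ < ε := by
    intro z hz
    by_contra h
    apply hz
    rw [hu]
    unfold cauchyP
    refine integral_eq_zero_of_ae (Eventually.of_forall fun t => ?_)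
    have : φ (z - lin v t) = 0 := by
      by_contra h2
      have h3 := (hφW _ h2).1
      rw [lin_apply, hPrt] at h3
      exact h h3
    show Crest.Agent.R080.CauchyP.kc t * φ (z - lin v t) = 0
    rw [this, mul_zero]
  -- the cut-off
  let b : ContDiffBump (0 : ℂ) := ⟨r / 2, 3 * r / 4, by positivity, by linarith⟩
  set θ : Cn 2 → ℂ := fun z => ((b (l (z - p)) : ℝ) : ℂ) with hθ
  have hθs : ContDiff ℝ ∞ θ := by
    have h1 : ContDiff ℝ ∞ fun z : Cn 2 => l (z - p) := by
      have : ContDiff ℝ ∞ (l.restrictScalars ℝ) := (l.restrictScalars ℝ).contDiff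
      exact this.comp (contDiff_id.sub contDiff_const)
    exact Complex.ofRealCLM.contDiff.comp (b.contDiff.comp h1)
  have hθ1 : ∀ z, ‖l (z - p)‖ ≤ r / 2 → θ z = 1 := by
    intro z hz
    have : b (l (z - p)) = 1 := b.one_of_mem_closedBall (by simpa using hz)
    show ((b (l (z - p)) : ℝ) : ℂ) = 1
    rw [this, Complex.ofReal_one]
  have hθ0 : ∀ z, 3 * r / 4 ≤ ‖l (z - p)‖ → θ z = 0 := by
    intro z hz
    have : b (l (z - p)) = 0 := b.zero_of_le_dist (by simpa using hz)
    show ((b (l (z - p)) : ℝ) : ℂ) = 0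
    rw [this, Complex.ofReal_zero]
  have hDθ : ∀ z, Dp (lin v) θ z ≠ 0 → r / 2 ≤ ‖l (z - p)‖ ∧ ‖l (z - p)‖ ≤ r := by
    intro z hz
    constructor
    · by_contra h
      push Not at h
      apply hz
      have : θ =ᶠ[𝓝 z] fun _ => 1 := by
        filter_upwards [(isOpen_lt hlc.norm continuous_const).mem_nhds h] with y hy
        exact hθ1 y (le_of_lt hy)
      simp [Dp, this.fderiv_eq]
    · by_contra h
      push Not at h
      apply hz
      have : θ =ᶠ[𝓝 z] fun _ => 0 := by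
        filter_upwards [(isOpen_lt continuous_const hlc.norm).mem_nhds h] with y hy
        exact hθ0 y (by have : r < ‖l (y - p)‖ := hy; linarith)
      simp [Dp, this.fderiv_eq]
  set G : Cn 2 → ℂ := fun z => θ z * u z with hG
  have hGs : ContDiff ℝ ∞ G := hθs.mul hus
  have hGK : tsupport G ⊆ K := by
    apply closure_minimal _ hKcl
    intro z hz
    have h1 : θ z ≠ 0 := left_ne_zero_of_mul hz
    have h2 : u z ≠ 0 := right_ne_zero_of_mul hz
    refine ⟨(husupp z h2).le, ?_⟩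
    by_contra h3
    push Not at h3
    exact h1 (hθ0 z (by linarith))
  set Rm : Cn 2 → ℂ := fun z => u z * Dp (lin v) θ z with hRm
  have hRs : ContDiff ℝ ∞ Rm := hus.mul (contDiff_Dp _ hθs)
  set S : Set (Cn 2) := {z | ‖Pr z - p‖ ≤ ε ∧ r / 2 ≤ ‖l (z - p)‖ ∧ ‖l (z - p)‖ ≤ r} with hS
  have hScl : IsClosed S := (isClosed_le (hPrc.sub continuous_const).norm continuous_const).inter
    ((isClosed_le continuous_const hlc.norm).inter (isClosed_le hlc.norm continuous_const))
  have hSK : S ⊆ K := fun z hz => ⟨hz.1, hz.2.2⟩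
  have hRS : tsupport Rm ⊆ S := by
    apply closure_minimal _ hScl
    intro z hz
    have h1 : u z ≠ 0 := left_ne_zero_of_mul hz
    have h2 := hDθ z (right_ne_zero_of_mul hz)
    exact ⟨(husupp z h1).le, h2⟩
  have hSne : ∀ z ∈ S, s z ≠ 0 := fun z hz => by
    have := hA (Pr z) (l (z - p)) hz.1 hz.2.1 hz.2.2
    rwa [← hdec z] at this
  have hRU : tsupport Rm ⊆ U := hRS.trans (hSK.trans hKU)
  set η : Cn 2 → ℂ := fun z => (-Rm z) / s z with hη
  have hηsub : tsupport η ⊆ S := by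
    apply closure_minimal _ hScl
    intro z hz
    apply hRS
    apply subset_tsupport
    intro h
    apply hz
    simp [hη, h]
  have hns : tsupport (fun z => -Rm z) = tsupport Rm := by
    unfold tsupport
    congr 1
    ext z
    simp
  have hηs : ContDiff ℝ ∞ η := by
    refine contDiff_quot hU hs hRs.neg ?_ ?_
    · rw [hns]; exact hRU
    · rw [hns]; exact fun z hz => hSne z (hRS hz)
  have hGd : ∀ z, DifferentiableAt ℝ G z := fun z => hGs.differentiable (by simp) z
  have hmain : ∀ z, φ z = Dp (lin v) G z + s z * η z := by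
    intro z
    have h1 : Dp (lin v) G z = θ z * φ z + Rm z := by
      rw [hG, Dp_mul _ (hθs.differentiable (by simp) z) (hus.differentiable (by simp) z), hDu]
    have h2 : θ z * φ z = φ z := by
      by_cases h : φ z = 0
      · rw [h, mul_zero]
      · rw [hθ1 z (hφW z h).2.le, one_mul]
    have h3 : s z * η z = -Rm z := by
      by_cases hz : z ∈ tsupport Rm
      · rw [hη]
        field_simp [hSne z (hRS hz)]
      · have : Rm z = 0 := image_eq_zero_of_notMem_tsupport hz
        simp [hη, this]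
    rw [h1, h2, h3]
    ring
  refine ⟨![fun z => (-2 * conj (v 1)) * G z, fun z => (2 * conj (v 0)) * G z], η, ?_, ?_, ?_⟩
  · intro a
    have hc : ∀ c : ℂ, ContDiff ℝ ∞ (fun z => c * G z) ∧ HasCompactSupport (fun z => c * G z) ∧
        tsupport (fun z => c * G z) ⊆ U := by
      intro c
      have h1 : tsupport (fun z => c * G z) ⊆ K := by
        apply closure_minimal _ hKcl
        intro z hz
        exact hGK (subset_tsupport _ (right_ne_zero_of_mul hz))
      exact ⟨contDiff_const.mul hGs, hKc.of_isClosed_subset (isClosed_tsupport _) h1,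
        h1.trans hKU⟩
    fin_cases a
    · exact hc _
    · exact hc _
  · exact ⟨hηs, hKc.of_isClosed_subset (isClosed_tsupport _) (hηsub.trans hSK),
      hηsub.trans (hSK.trans hKU)⟩
  · intro z
    rw [hmain z, Dp_lin, Fin.sum_univ_two]
    show _ = dbj 0 (fun z => (2 * conj (v 0)) * G z) z -
      dbj 1 (fun z => (-2 * conj (v 1)) * G z) z + s z * η z
    rw [dbj_const_mul _ _ (hGd z), dbj_const_mul _ _ (hGd z)]
    ring

/-- `φ` is a `∂̄`-exact form plus a multiple of `s`, all compactly supported in `U` -/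
def Good (U : Set (Cn 2)) (s : Cn 2 → ℂ) (φ : Cn 2 → ℂ) : Prop :=
  ∃ (g : Fin 2 → Cn 2 → ℂ) (η : Cn 2 → ℂ),
    (∀ a, ContDiff ℝ ∞ (g a) ∧ HasCompactSupport (g a) ∧ tsupport (g a) ⊆ U) ∧
    (ContDiff ℝ ∞ η ∧ HasCompactSupport η ∧ tsupport η ⊆ U) ∧
    ∀ z, φ z = dbj 0 (g 1) z - dbj 1 (g 0) z + s z * η z

theorem dbj_add {n : ℕ} (a : Fin n) {f g : Cn n → ℂ} {z : Cn n}
    (hf : DifferentiableAt ℝ f z) (hg : DifferentiableAt ℝ g z) :
    dbj a (fun z => f z + g z) z = dbj a f z + dbj a g z := by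
  unfold dbj
  rw [fderiv_fun_add hf hg]
  simp only [add_apply, smul_eq_mul]
  ring

theorem tsupport_add_subset' {f g : Cn 2 → ℂ} :
    tsupport (fun z => f z + g z) ⊆ tsupport f ∪ tsupport g := by
  apply closure_minimal _ ((isClosed_tsupport f).union (isClosed_tsupport g))
  intro z hz
  by_contra h
  rw [mem_union, not_or] at h
  apply hz
  show f z + g z = 0
  rw [image_eq_zero_of_notMem_tsupport h.1, image_eq_zero_of_notMem_tsupport h.2, add_zero]

theorem Good.zero (U : Set (Cn 2)) (s : Cn 2 → ℂ) : Good U s 0 := by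
  have h0 : tsupport (fun _ : Cn 2 => (0 : ℂ)) = ∅ := by
    simp [tsupport]
  refine ⟨fun _ _ => 0, fun _ => 0, fun a => ⟨contDiff_const, HasCompactSupport.zero, ?_⟩,
    ⟨contDiff_const, HasCompactSupport.zero, ?_⟩, fun z => ?_⟩
  · rw [h0]; exact empty_subset _
  · rw [h0]; exact empty_subset _
  · simp [dbj]

theorem Good.add {U : Set (Cn 2)} {s : Cn 2 → ℂ} {φ ψ : Cn 2 → ℂ} (h : Good U s φ)
    (k : Good U s ψ) : Good U s (φ + ψ) := by
  obtain ⟨g, η, hg, hη, h⟩ := h
  obtain ⟨g', η', hg', hη', k⟩ := k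
  refine ⟨fun a z => g a z + g' a z, fun z => η z + η' z, fun a => ⟨(hg a).1.add (hg' a).1,
    (hg a).2.1.add (hg' a).2.1, tsupport_add_subset'.trans (union_subset (hg a).2.2 (hg' a).2.2)⟩,
    ⟨hη.1.add hη'.1, hη.2.1.add hη'.2.1, tsupport_add_subset'.trans (union_subset hη.2.2 hη'.2.2)⟩,
    fun z => ?_⟩
  have d : ∀ a, DifferentiableAt ℝ (g a) z := fun a => (hg a).1.differentiable (by simp) z
  have d' : ∀ a, DifferentiableAt ℝ (g' a) z := fun a => (hg' a).1.differentiable (by simp) z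
  rw [Pi.add_apply, h z, k z, dbj_add _ (d 1) (d' 1), dbj_add _ (d 0) (d' 0)]
  ring

/-- G-LOCAL -/
theorem glocal {s : Cn 2 → ℂ} {U : Set (Cn 2)} (hU : IsOpen U)
    (hs : DifferentiableOn ℂ s U) (h0 : ∀ p ∈ U, ¬ ∀ᶠ z in 𝓝 p, s z = 0)
    {φ : Cn 2 → ℂ} (hφ : ContDiff ℝ ∞ φ) (hc : HasCompactSupport φ) (hsub : tsupport φ ⊆ U) :
    Good U s φ := by
  choose! W hWo hpW hWU hW using fun p (hp : p ∈ U) => glocal_point hU hp hs (h0 p hp)
  have hKc : IsCompact (tsupport φ) := hc
  obtain ⟨f, hf⟩ := SmoothPartitionOfUnity.exists_isSubordinate (modelWithCornersSelf ℝ (Cn 2))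
    (isClosed_tsupport φ) (fun p : tsupport φ => W p) (fun p => hWo _ (hsub p.2))
    (fun z hz => mem_iUnion.2 ⟨⟨z, hz⟩, hpW z (hsub hz)⟩)
  have hfin : {i | (Function.support (f i) ∩ tsupport φ).Nonempty}.Finite :=
    f.locallyFinite.finite_nonempty_inter_compact hKc
  set F := hfin.toFinset with hF
  have hsum : φ = ∑ i ∈ F, fun z => ((f i z : ℝ) : ℂ) * φ z := by
    funext z
    rw [Finset.sum_apply, ← Finset.sum_mul]
    by_cases hz : z ∈ tsupport φ
    · have h1 := f.sum_eq_one hz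
      have h2 : ∑ᶠ i, f i z = ∑ i ∈ F, f i z := by
        apply finsum_eq_sum_of_support_subset
        intro i hi
        rw [hF, Finite.coe_toFinset]
        exact ⟨z, hi, hz⟩
      rw [h2] at h1
      have h3 : (∑ i ∈ F, ((f i z : ℝ) : ℂ)) = 1 := by exact_mod_cast h1
      rw [h3, one_mul]
    · rw [image_eq_zero_of_notMem_tsupport hz, mul_zero]
  rw [hsum]
  refine Finset.sum_induction _ (Good U s) (fun _ _ => Good.add) (Good.zero U s) ?_
  intro i _
  refine hW i (hsub i.2) _ ?_ ?_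
  · have h1 : ContDiff ℝ ∞ (f i) := (f i).contMDiff.contDiff
    exact (Complex.ofRealCLM.contDiff.comp h1).mul hφ
  · refine Subset.trans ?_ (hf i)
    apply closure_mono
    intro z hz
    have : ((f i z : ℝ) : ℂ) ≠ 0 := left_ne_zero_of_mul hz
    exact fun h => this (by rw [h, Complex.ofReal_zero])

end

end Crest.Agent.R275.GLoc861
end

-- ▼ part R275/FmExt_861

/-!
# R275, block G (helper861): extension of compactly supported coefficients, and the global
decomposition of compactly supported `(0,2)`-forms modulo a holomorphic section.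

* `pull A i c`   : the function `c ∘ e i`, extended by zero to `M`;
* `ext1`, `ext2` : extension of coefficients in the chart `i` to `(0,1)`, `(0,2)`-forms on `M`;
* `glob` : a compactly supported `(0,2)`-form `F` (with values in `gs * g`) is
  `∂̄ γ + s η`, compactly supported `γ`, `η`.
-/

set_option autoImplicit false
set_option linter.unusedSectionVars false

open Set Filter Topology Complex
open scoped ContDiff ComplexConjugate

namespace Crest.Agent.R275.FmExt861

open Geo Fm96 GLoc861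

noncomputable section

variable {M : Type} [TopologicalSpace M] {A : Atl 2 M}

open Classical in
/-- the function `c` of the coordinates of the chart `i`, extended by zero -/
def pull (A : Atl 2 M) (i : A.ι) (c : Cn 2 → ℂ) : M → ℂ := fun x =>
  if x ∈ (A.e i).source then c (A.e i x) else 0

/-- smooth with compact support in the target of the chart `i` -/
structure Cs (A : Atl 2 M) (i : A.ι) (c : Cn 2 → ℂ) : Prop where
  smooth : ContDiff ℝ ∞ c
  cpt : HasCompactSupport c
  sub : tsupport c ⊆ (A.e i).target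

/-- the support on `M` -/
def KK (A : Atl 2 M) (i : A.ι) (c : Cn 2 → ℂ) : Set M := (A.e i).symm '' tsupport c

theorem pull_of_mem {i : A.ι} {c : Cn 2 → ℂ} {x : M} (hx : x ∈ (A.e i).source) :
    pull A i c x = c (A.e i x) := if_pos hx

theorem pull_off {i : A.ι} {c : Cn 2 → ℂ} {x : M} (hx : x ∉ KK A i c) : pull A i c x = 0 := by
  unfold pull
  split_ifs with h
  · by_contra hne
    exact hx ⟨A.e i x, subset_tsupport _ hne, (A.e i).left_inv h⟩
  · rfl

theorem pull_symm {i : A.ι} {c : Cn 2 → ℂ} {z : Cn 2} (hz : z ∈ (A.e i).target) :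
    pull A i c ((A.e i).symm z) = c z := by
  rw [pull_of_mem ((A.e i).map_target hz), (A.e i).right_inv hz]

theorem Cs.compact {i : A.ι} {c : Cn 2 → ℂ} (h : Cs A i c) : IsCompact (KK A i c) :=
  h.cpt.isCompact.image_of_continuousOn ((A.e i).continuousOn_symm.mono h.sub)

theorem Cs.sub_source {i : A.ι} {c : Cn 2 → ℂ} (h : Cs A i c) : KK A i c ⊆ (A.e i).source := by
  rintro _ ⟨z, hz, rfl⟩
  exact (A.e i).map_target (h.sub hz)

theorem Cs.ev_zero [T2Space M] {i : A.ι} {c : Cn 2 → ℂ} (h : Cs A i c) {x : M}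
    (hx : x ∉ KK A i c) : pull A i c =ᶠ[𝓝 x] fun _ => 0 := by
  filter_upwards [h.compact.isClosed.isOpen_compl.mem_nhds hx] with y hy using pull_off hy

theorem pull_read {i : A.ι} {c : Cn 2 → ℂ} {x : M} (hx : x ∈ (A.e i).source) :
    (fun z => pull A i c ((A.e i).symm z)) =ᶠ[𝓝 (A.e i x)] c := by
  filter_upwards [(A.e i).open_target.mem_nhds ((A.e i).map_source hx)] with z hz
  exact pull_symm hz

theorem smP_pull {i : A.ι} {c : Cn 2 → ℂ} (hc : ContDiff ℝ ∞ c) {x : M}
    (hx : x ∈ (A.e i).source) : SmP A i (pull A i c) x := by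
  filter_upwards [(pull_read (c := c) hx).eventually_nhds] with z hz
  exact hc.contDiffAt.congr_of_eventuallyEq hz

theorem db_pull {i : A.ι} {c : Cn 2 → ℂ} {x : M} (hx : x ∈ (A.e i).source) (a : Fin 2) :
    A.db i a (pull A i c) x = dbj a c (A.e i x) := by
  unfold Atl.db
  exact Fm96.dbj_congr (pull_read hx)

theorem smP_zero_of_ev {j : A.ι} {f : M → ℂ} {x : M} (hx : x ∈ (A.e j).source)
    (h : f =ᶠ[𝓝 x] fun _ => 0) : SmP A j f x :=
  (SmP.const (A := A) (i := j) (x := x) 0).congr hx h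

variable {g : A.ι → A.ι → M → ℂ}

open Classical in
/-- extension of `(0,1)`-coefficients in the chart `i` -/
def ext1 (A : Atl 2 M) (g : A.ι → A.ι → M → ℂ) (i : A.ι) (c : Fin 2 → Cn 2 → ℂ) :
    A.ι → M → Fin 2 → ℂ := fun j x b =>
  if x ∈ (A.e j).source then g j i x * ∑ a, conj (A.J j i x a b) * pull A i (c a) x else 0

open Classical in
/-- extension of a `(0,2)`-coefficient in the chart `i` -/
def ext2 (A : Atl 2 M) (g : A.ι → A.ι → M → ℂ) (i : A.ι) (c : Cn 2 → ℂ) :
    A.ι → M → ℂ := fun j x =>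
  if x ∈ (A.e j).source then g j i x * (dJ A j i x * pull A i c x) else 0

theorem dJ_self {i : A.ι} {x : M} (hx : x ∈ (A.e i).source) : dJ A i i x = 1 := by
  simp [dJ, OmT75.J_self i hx]

theorem dJ_mul {i j k : A.ι} {x : M}
    (hx : x ∈ (A.e i).source ∩ (A.e j).source ∩ (A.e k).source) :
    dJ A i k x = dJ A i j x * dJ A j k x := by
  simp only [dJ, OmT75.J_mul hx, Fin.sum_univ_two, map_add, map_mul]
  ring

theorem conjJ_holP_sm {i j : A.ι} {x : M} (hx : x ∈ (A.e i).source ∩ (A.e j).source)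
    (a b : Fin 2) : SmP A i (fun y => conj (A.J i j y a b)) x := (J_holP hx a b).smP.conj

theorem smP_dJ {i j : A.ι} {x : M} (hx : x ∈ (A.e i).source ∩ (A.e j).source) :
    SmP A i (fun y => dJ A i j y) x :=
  ((conjJ_holP_sm hx 0 0).mul (conjJ_holP_sm hx 1 1)).sub
    ((conjJ_holP_sm hx 0 1).mul (conjJ_holP_sm hx 1 0))

theorem ext1_off {i j : A.ι} {c : Fin 2 → Cn 2 → ℂ} {x : M} (hx : ∀ a, x ∉ KK A i (c a)) :
    ext1 A g i c j x = 0 := by
  funext b
  simp only [ext1]
  split_ifs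
  · simp [pull_off (hx _)]
  · rfl

theorem ext2_off {i j : A.ι} {c : Cn 2 → ℂ} {x : M} (hx : x ∉ KK A i c) :
    ext2 A g i c j x = 0 := by
  simp only [ext2]
  split_ifs
  · simp [pull_off hx]
  · rfl

theorem ext1_mem [T2Space M] (hg : IsLC A g) {i : A.ι} {c : Fin 2 → Cn 2 → ℂ}
    (hc : ∀ a, Cs A i (c a)) (G : Set M) : IsZ1 A g G (ext1 A g i c) where
  sm j b x hx _ := by
    have hev : (fun y => ext1 A g i c j y b) =ᶠ[𝓝 x]
        fun y => g j i y * ∑ a, conj (A.J j i y a b) * pull A i (c a) y := by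
      filter_upwards [src_nhds hx] with y hy
      simp [ext1, hy]
    by_cases hK : ∃ a, x ∈ KK A i (c a)
    · obtain ⟨a0, ha0⟩ := hK
      have hxi := (hc a0).sub_source ha0
      have hov : x ∈ (A.e j).source ∩ (A.e i).source := ⟨hx, hxi⟩
      refine SmP.congr ?_ hx hev
      exact (hg.hol j i x hov).smP.mul (SmP.sum fun a _ =>
        (conjJ_holP_sm hov a b).mul ((smP_pull (hc a).smooth hxi).change hov))
    · push Not at hK
      refine smP_zero_of_ev hx (hev.trans ?_)
      have h0 := (hc 0).ev_zero (hK 0)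
      have h1 := (hc 1).ev_zero (hK 1)
      filter_upwards [h0, h1] with y h0 h1
      simp [Fin.sum_univ_two, h0, h1]
  off j x hx := by
    funext b
    simp [ext1, hx]
  tr j k x hx _ b := by
    by_cases hxi : x ∈ (A.e i).source
    · have h3 : x ∈ (A.e j).source ∩ (A.e k).source ∩ (A.e i).source := ⟨hx, hxi⟩
      simp only [ext1, hx.1, hx.2, if_true, ← hg.mul j k i x h3, OmT75.J_mul h3,
        Fin.sum_univ_two, map_add, map_mul]
      ring
    · have h0 : ∀ a, x ∉ KK A i (c a) := fun a h => hxi ((hc a).sub_source h)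
      rw [ext1_off h0, ext1_off h0]
      simp

theorem ext2_mem [T2Space M] (hg : IsLC A g) {i : A.ι} {c : Cn 2 → ℂ}
    (hc : Cs A i c) (G : Set M) : IsZ2 A g G (ext2 A g i c) where
  sm j x hx _ := by
    have hev : (fun y => ext2 A g i c j y) =ᶠ[𝓝 x]
        fun y => g j i y * (dJ A j i y * pull A i c y) := by
      filter_upwards [src_nhds hx] with y hy
      simp [ext2, hy]
    by_cases hK : x ∈ KK A i c
    · have hxi := hc.sub_source hK
      have hov : x ∈ (A.e j).source ∩ (A.e i).source := ⟨hx, hxi⟩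
      refine SmP.congr ?_ hx hev
      exact (hg.hol j i x hov).smP.mul ((smP_dJ hov).mul ((smP_pull hc.smooth hxi).change hov))
    · refine smP_zero_of_ev hx (hev.trans ?_)
      filter_upwards [hc.ev_zero hK] with y h0
      simp [h0]
  off j x hx := by
    simp [ext2, hx]
  tr j k x hx _ := by
    by_cases hxi : x ∈ (A.e i).source
    · have h3 : x ∈ (A.e j).source ∩ (A.e k).source ∩ (A.e i).source := ⟨hx, hxi⟩
      simp only [ext2, hx.1, hx.2, if_true, ← hg.mul j k i x h3, dJ_mul h3]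
      ring
    · have h0 : x ∉ KK A i c := fun h => hxi (hc.sub_source h)
      rw [ext2_off h0, ext2_off h0]
      simp

theorem ext1_self (hg : IsLC A g) {i : A.ι} {c : Fin 2 → Cn 2 → ℂ} {x : M}
    (hx : x ∈ (A.e i).source) (b : Fin 2) : ext1 A g i c i x b = pull A i (c b) x := by
  fin_cases b <;> simp [ext1, hx, hg.self i x hx, OmT75.J_self i hx]

theorem ext2_self (hg : IsLC A g) {i : A.ι} {c : Cn 2 → ℂ} {x : M}
    (hx : x ∈ (A.e i).source) : ext2 A g i c i x = pull A i c x := by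
  simp [ext2, hx, hg.self i x hx, dJ_self hx]

/-- two `(0,2)`-forms which agree at `x` in one chart agree at `x` -/
theorem IsZ2.eq_of {u v : A.ι → M → ℂ} {G : Set M} (hu : IsZ2 A g G u) (hv : IsZ2 A g G v)
    {i : A.ι} {x : M} (hx : x ∈ (A.e i).source) (hG : x ∈ G) (h : u i x = v i x) (j : A.ι) :
    u j x = v j x := by
  by_cases hj : x ∈ (A.e j).source
  · rw [hu.tr j i x ⟨hj, hx⟩ hG, hv.tr j i x ⟨hj, hx⟩ hG, h]
  · rw [hu.off j x hj, hv.off j x hj]

theorem d1_ext1 [T2Space M] (hg : IsLC A g) {i : A.ι} {c : Fin 2 → Cn 2 → ℂ}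
    (hc : ∀ a, Cs A i (c a)) (j : A.ι) (x : M) :
    d1 A (ext1 A g i c) j x = ext2 A g i (fun z => dbj 0 (c 1) z - dbj 1 (c 0) z) j x := by
  have h1 : IsZ1 A g univ (ext1 A g i c) := ext1_mem hg hc univ
  have hcs : ∀ a b, Cs A i (dbj a (c b)) := fun a b => by
    have hsub : tsupport (dbj a (c b)) ⊆ tsupport (c b) := by
      refine closure_minimal ?_ (isClosed_tsupport _)
      intro z hz
      by_contra h
      apply hz
      have : c b =ᶠ[𝓝 z] fun _ => 0 := by
        filter_upwards [(isClosed_tsupport (c b)).isOpen_compl.mem_nhds h] with w hw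
        exact image_eq_zero_of_notMem_tsupport hw
      rw [Fm96.dbj_congr this, Fm96.dbj_const]
    refine ⟨?_, (hc b).cpt.isCompact.of_isClosed_subset (isClosed_tsupport _) hsub,
      hsub.trans (hc b).sub⟩
    rw [contDiff_iff_contDiffAt]
    intro z
    exact contDiffAt_dbj (hc b).smooth.contDiffAt
  have hcs2 : Cs A i (fun z => dbj 0 (c 1) z - dbj 1 (c 0) z) := by
    have hsub : tsupport (fun z => dbj 0 (c 1) z - dbj 1 (c 0) z) ⊆
        tsupport (dbj 0 (c 1)) ∪ tsupport (dbj 1 (c 0)) := by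
      refine closure_minimal ?_ ((isClosed_tsupport _).union (isClosed_tsupport _))
      intro z hz
      by_contra h
      rw [mem_union, not_or] at h
      apply hz
      show dbj 0 (c 1) z - dbj 1 (c 0) z = 0
      rw [image_eq_zero_of_notMem_tsupport h.1, image_eq_zero_of_notMem_tsupport h.2, sub_zero]
    exact ⟨(hcs 0 1).smooth.sub (hcs 1 0).smooth,
      ((hcs 0 1).cpt.isCompact.union (hcs 1 0).cpt.isCompact).of_isClosed_subset
        (isClosed_tsupport _) hsub, hsub.trans (union_subset (hcs 0 1).sub (hcs 1 0).sub)⟩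
  by_cases hx : x ∈ (A.e i).source
  · refine IsZ2.eq_of (d1_mem hg isOpen_univ h1) (ext2_mem hg hcs2 univ) hx (mem_univ x) ?_ j
    rw [d1_of_mem hx, ext2_self hg hx, pull_of_mem hx]
    have e : ∀ b, (fun y => ext1 A g i c i y b) =ᶠ[𝓝 x] pull A i (c b) := by
      intro b
      filter_upwards [src_nhds hx] with y hy using ext1_self hg hy b
    rw [db_congr hx (e 1), db_congr hx (e 0), db_pull hx, db_pull hx]
  · have h0 : ∀ a, x ∉ KK A i (c a) := fun a h => hx ((hc a).sub_source h)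
    have h2 : x ∉ KK A i (fun z => dbj 0 (c 1) z - dbj 1 (c 0) z) :=
      fun h => hx (hcs2.sub_source h)
    rw [ext2_off h2]
    by_cases hj : x ∈ (A.e j).source
    · have e : ext1 A g i c j =ᶠ[𝓝 x] fun _ => 0 := by
        filter_upwards [((hc 0).compact.isClosed.union (hc 1).compact.isClosed).isOpen_compl.mem_nhds
          (show x ∈ (KK A i (c 0) ∪ KK A i (c 1))ᶜ from fun h => h.elim (h0 0) (h0 1))] with y hy
        refine ext1_off fun a => ?_
        fin_cases a
        · exact fun h => hy (Or.inl h)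
        · exact fun h => hy (Or.inr h)
      have e' : ∀ b, (fun y => ext1 A g i c j y b) =ᶠ[𝓝 x] fun _ => 0 := fun b =>
        e.mono fun y hy => congrFun hy b
      rw [d1_of_mem hj, db_congr hj (e' 1), db_congr hj (e' 0), db_constP, db_constP, sub_zero]
    · exact d1_of_not_mem hj

/-! ### the global decomposition -/

variable {gs : A.ι → A.ι → M → ℂ}

/-- supported in a compact set -/
def CSupp {A : Atl 2 M} {W : Type*} [Zero W] (u : A.ι → M → W) : Prop :=
  ∃ K : Set M, IsCompact K ∧ ∀ i, ∀ x ∉ K, u i x = 0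

/-- `F = ∂̄ γ + s η` with compact supports -/
def GoodZ (A : Atl 2 M) (gs g : A.ι → A.ι → M → ℂ) (s F : A.ι → M → ℂ) : Prop :=
  ∃ (γ : A.ι → M → Fin 2 → ℂ) (η : A.ι → M → ℂ), IsZ1 A (gs * g) univ γ ∧ IsZ2 A g univ η ∧
    CSupp γ ∧ CSupp η ∧ ∀ i x, F i x = d1 A γ i x + s i x * η i x

theorem CSupp.add {W : Type*} [AddZeroClass W] {u v : A.ι → M → W} (hu : CSupp u)
    (hv : CSupp v) : CSupp (u + v) := by
  obtain ⟨K, hK, h⟩ := hu
  obtain ⟨L, hL, k⟩ := hv
  refine ⟨K ∪ L, hK.union hL, fun i x hx => ?_⟩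
  rw [mem_union, not_or] at hx
  show u i x + v i x = 0
  rw [h i x hx.1, k i x hx.2, add_zero]

theorem GoodZ.zero (s : A.ι → M → ℂ) : GoodZ A gs g s 0 := by
  refine ⟨0, 0, IsZ1.zero, IsZ2.zero, ⟨∅, isCompact_empty, fun _ _ _ => rfl⟩,
    ⟨∅, isCompact_empty, fun _ _ _ => rfl⟩, fun i x => ?_⟩
  by_cases hx : x ∈ (A.e i).source
  · rw [d1_of_mem hx]
    simp only [Pi.zero_apply, mul_zero, add_zero]
    rw [show (fun _ : M => (0 : ℂ)) = fun _ => 0 from rfl, db_constP, db_constP, sub_zero]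
  · rw [d1_of_not_mem hx]
    simp

theorem GoodZ.add {s F F' : A.ι → M → ℂ} (h : GoodZ A gs g s F) (k : GoodZ A gs g s F') :
    GoodZ A gs g s (F + F') := by
  obtain ⟨γ, η, h1, h2, h3, h4, h5⟩ := h
  obtain ⟨γ', η', k1, k2, k3, k4, k5⟩ := k
  refine ⟨γ + γ', η + η', h1.add k1, h2.add k2, h3.add k3, h4.add k4, fun i x => ?_⟩
  rw [d1_add h1 k1 i (mem_univ x), Pi.add_apply, Pi.add_apply, Pi.add_apply, Pi.add_apply, h5, k5]
  ring

/-- the form `F` read in the chart `i`, multiplied by the cut-off `ψ` -/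
theorem exists_cs [T2Space M] {i : A.ι} {ψ χ : M → ℝ} (hψ : A.Sm ψ) (hc : IsCompact (tsupport χ))
    (hsub : tsupport χ ⊆ (A.e i).source) (hψχ : tsupport ψ ⊆ tsupport χ) {f : M → ℂ}
    (hf : ∀ x ∈ (A.e i).source, SmP A i f x) :
    ∃ c : Cn 2 → ℂ, Cs A i c ∧ ∀ x ∈ (A.e i).source, c (A.e i x) = ψ x * f x := by
  classical
  set c : Cn 2 → ℂ := fun z => if z ∈ (A.e i).target then
    (ψ ((A.e i).symm z) : ℂ) * f ((A.e i).symm z) else 0 with hcdef
  set K : Set (Cn 2) := (A.e i) '' tsupport χ with hK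
  have hKc : IsCompact K := hc.image_of_continuousOn ((A.e i).continuousOn.mono hsub)
  have hKt : K ⊆ (A.e i).target := by
    rintro _ ⟨x, hx, rfl⟩
    exact (A.e i).map_source (hsub hx)
  have hcK : ∀ z, c z ≠ 0 → z ∈ K := by
    intro z hz
    by_cases hzt : z ∈ (A.e i).target
    · have h1 : ψ ((A.e i).symm z) ≠ 0 := by
        intro h
        apply hz
        simp [hcdef, hzt, h]
      exact ⟨(A.e i).symm z, hψχ (subset_tsupport _ h1), (A.e i).right_inv hzt⟩
    · exact absurd (by simp [hcdef, hzt]) hz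
  have hsup : tsupport c ⊆ K := closure_minimal hcK hKc.isClosed
  refine ⟨c, ⟨?_, hKc.of_isClosed_subset (isClosed_tsupport _) hsup, hsup.trans hKt⟩, ?_⟩
  · rw [contDiff_iff_contDiffAt]
    intro z
    by_cases hz : z ∈ K
    · have hzt := hKt hz
      have h1 : c =ᶠ[𝓝 z] fun z => (ψ ((A.e i).symm z) : ℂ) * f ((A.e i).symm z) := by
        filter_upwards [(A.e i).open_target.mem_nhds hzt] with w hw
        simp [hcdef, hw]
      refine ContDiffAt.congr_of_eventuallyEq ?_ h1
      have h2 : ContDiffAt ℝ ∞ (fun z => ψ ((A.e i).symm z)) z :=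
        (hψ i).contDiffAt ((A.e i).open_target.mem_nhds hzt)
      have h3 : ContDiffAt ℝ ∞ (fun z => f ((A.e i).symm z)) z := by
        have := (hf _ ((A.e i).map_target hzt)).self
        rwa [(A.e i).right_inv hzt] at this
      exact (Complex.ofRealCLM.contDiff.contDiffAt.comp z h2).mul h3
    · have h1 : c =ᶠ[𝓝 z] fun _ => 0 := by
        filter_upwards [hKc.isClosed.isOpen_compl.mem_nhds hz] with w hw
        by_contra h
        exact hw (hcK w h)
      exact contDiffAt_const.congr_of_eventuallyEq h1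
  · intro x hx
    simp only [hcdef, (A.e i).map_source hx, if_true, (A.e i).left_inv hx]

theorem tsupport_ψ_sub (P : Part A) (i : A.ι) : tsupport (P.ψ i) ⊆ tsupport (P.χ i) := by
  intro x hx
  have h := (P.χ_one i x hx).self_of_nhds
  exact subset_tsupport _ (by rw [Function.mem_support, h]; exact one_ne_zero)

/-- **Global decomposition modulo a holomorphic section.** -/
theorem glob [T2Space M] (P : Part A) (hgs : IsLC A gs) (hg : IsLC A g) {s : A.ι → M → ℂ}
    (hhol : ∀ i, ∀ x ∈ (A.e i).source, HolP A i (s i) x)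
    (hs : IsZ0 A gs univ s)
    (hne : ∀ i, ∀ x ∈ (A.e i).source, ∃ᶠ y in 𝓝 x, s i y ≠ 0)
    {F : A.ι → M → ℂ} (hF : IsZ2 A (gs * g) univ F) (hK : CSupp F) : GoodZ A gs g s F := by
  classical
  obtain ⟨K, hKc, hK⟩ := hK
  have hfin := P.lf K hKc
  set T := hfin.toFinset with hT
  -- decomposition of `F`
  have hsum : F = ∑ j ∈ T, fun i x => (P.ψ j x : ℂ) * F i x := by
    funext i x
    rw [Finset.sum_apply, Finset.sum_apply, ← Finset.sum_mul]
    by_cases hx : x ∈ K
    · have h1 := P.sum_one x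
      have h2 : ∑ᶠ j, P.ψ j x = ∑ j ∈ T, P.ψ j x := by
        apply finsum_eq_sum_of_support_subset
        intro j hj
        rw [hT, Finite.coe_toFinset]
        exact ⟨x, tsupport_ψ_sub P j (subset_tsupport _ hj), hx⟩
      rw [h2] at h1
      have h3 : (∑ j ∈ T, (P.ψ j x : ℂ)) = 1 := by exact_mod_cast h1
      rw [h3, one_mul]
    · rw [hK i x hx, mul_zero]
  rw [hsum]
  refine Finset.sum_induction _ (GoodZ A gs g s) (fun _ _ => GoodZ.add) (GoodZ.zero s) ?_
  intro j _
  obtain ⟨c, hc, hcv⟩ := exists_cs (P.ψ_sm j) (P.χ_cpt j) (P.χ_sub j) (tsupport_ψ_sub P j)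
    (f := F j) (fun x hx => hF.sm j x hx (mem_univ x))
  -- the local lemma
  have hgood : Good (A.e j).target (fun z => s j ((A.e j).symm z)) c := by
    refine glocal (A.e j).open_target ?_ ?_ hc.smooth hc.cpt hc.sub
    · intro z hz
      have := (hhol j _ ((A.e j).map_target hz)).self
      rw [(A.e j).right_inv hz] at this
      exact this.differentiableWithinAt
    · intro z hz h0
      have h1 := hne j _ ((A.e j).map_target hz)
      apply h1
      have h2 : ContinuousAt (A.e j) ((A.e j).symm z) :=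
        (A.e j).continuousAt ((A.e j).map_target hz)
      rw [ContinuousAt, (A.e j).right_inv hz] at h2
      filter_upwards [h2.eventually h0, src_nhds ((A.e j).map_target hz)] with y hy hy2
      rw [(A.e j).left_inv hy2] at hy
      exact fun h => h hy
  obtain ⟨gg, η, hgg, hη, heq⟩ := hgood
  have hgc : ∀ a, Cs A j (gg a) := fun a => ⟨(hgg a).1, (hgg a).2.1, (hgg a).2.2⟩
  have hηc : Cs A j η := ⟨hη.1, hη.2.1, hη.2.2⟩
  have h1 : IsZ1 A (gs * g) univ (ext1 A (gs * g) j gg) := ext1_mem (hgs.prod hg) hgc univ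
  have h2 : IsZ2 A g univ (ext2 A g j η) := ext2_mem hg hηc univ
  have h3 : IsZ2 A (gs * g) univ (fun i x => (P.ψ j x : ℂ) * F i x) := by
    refine ⟨fun i x hx hG => ?_, fun i x hx => ?_, fun i k x hx hG => ?_⟩
    · have h4 : SmP A i (fun y => (P.ψ j y : ℂ)) x := by
        filter_upwards [(A.e i).open_target.mem_nhds ((A.e i).map_source hx)] with z hz
        have := (P.ψ_sm j i).contDiffAt ((A.e i).open_target.mem_nhds hz)
        exact Complex.ofRealCLM.contDiff.contDiffAt.comp z this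
      exact h4.mul (hF.sm i x hx hG)
    · rw [hF.off i x hx, mul_zero]
    · rw [hF.tr i k x hx hG]; ring
  refine ⟨_, _, h1, h2, ?_, ?_, ?_⟩
  · refine ⟨KK A j (gg 0) ∪ KK A j (gg 1), (hgc 0).compact.union (hgc 1).compact,
      fun i x hx => ext1_off fun a => ?_⟩
    rw [mem_union, not_or] at hx
    fin_cases a
    · exact hx.1
    · exact hx.2
  · exact ⟨KK A j η, hηc.compact, fun i x hx => ext2_off hx⟩
  · intro i x
    by_cases hx : x ∈ (A.e j).source
    · have hsum2 : IsZ2 A (gs * g) univ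
          (d1 A (ext1 A (gs * g) j gg) + sm s (ext2 A g j η)) :=
        (d1_mem (hgs.prod hg) isOpen_univ h1).add (hs.sm2' h2)
      refine IsZ2.eq_of h3 hsum2 hx (mem_univ x) ?_ i
      have e1 : d1 A (ext1 A (gs * g) j gg) j x =
          dbj 0 (gg 1) (A.e j x) - dbj 1 (gg 0) (A.e j x) := by
        rw [d1_ext1 (hgs.prod hg) hgc, ext2_self (hgs.prod hg) hx, pull_of_mem hx]
      show (P.ψ j x : ℂ) * F j x =
        d1 A (ext1 A (gs * g) j gg) j x + s j x * ext2 A g j η j x
      rw [e1, ext2_self hg hx, pull_of_mem hx, ← hcv x hx, heq (A.e j x)]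
      simp only [(A.e j).left_inv hx]
    · have h0 : P.ψ j x = 0 := by
        by_contra h
        exact hx (P.χ_sub j (tsupport_ψ_sub P j (subset_tsupport _ h)))
      have e1 : d1 A (ext1 A (gs * g) j gg) i x = 0 := by
        rw [d1_ext1 (hgs.prod hg) hgc]
        simp only [ext2]
        split_ifs
        · simp [pull, hx]
        · rfl
      have e2 : ext2 A g j η i x = 0 := ext2_off fun h => hx (hηc.sub_source h)
      show (P.ψ j x : ℂ) * F i x =
        d1 A (ext1 A (gs * g) j gg) i x + s i x * ext2 A g j η i x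
      rw [e1, e2, h0]
      simp

end

end Crest.Agent.R275.FmExt861
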