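import Crest.Agent.R275.Loc2D_879
import Crest.Agent.R275.Dv1_69

/-!
Row 275 (S0418), block LOC2, part E (helper879): transfer of the local theory to charted complex
surfaces: instance of `LocFact` (helper69's divisor layer), isolated common zeros, Nullstellensatz,
bounded quotients.
-/

set_option autoImplicit false
set_option linter.unusedSectionVars false

open Set Filter Topology
open scoped Manifold ContDiff

noncomputable section

namespace Crest.Agent.R275.Loc2879

open Crest.AlgGeometry.Surface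
open Crest.Agent.R275

variable {Y : Type*} [TopologicalSpace Y] [ChartedSpace C2 Y] [IsManifold 𝓘(ℂ, C2) 1 Y]
variable {p : Y} {f h k : Y → ℂ}

lemma finrank_C2 : Module.finrank ℂ C2 = 2 := by simp

lemma holN_iff_analyticAt {e : OpenPartialHomeomorph Y C2} (he : e ∈ atlas C2 Y)
    (hp : p ∈ e.source) (f : Y → ℂ) :
    Dv69.HolN f p ↔ AnalyticAt ℂ (fun z => f (e.symm z)) (e p) := by
  rw [Dv69.holN_iff_chart he hp]
  constructor
  · exact fun h => Crest.Agent.R266.SCV.analyticAt_of_eventually_differentiableAt h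
  · intro h
    filter_upwards [h.eventually_analyticAt] with z hz using hz.differentiableAt

lemma tendsto_symm {e : OpenPartialHomeomorph Y C2} (hp : p ∈ e.source) :
    Tendsto e.symm (𝓝 (e p)) (𝓝 p) := by
  have := (e.continuousAt_symm (e.map_source hp)).tendsto
  rwa [e.left_inv hp] at this

lemma tendsto_chart {e : OpenPartialHomeomorph Y C2} (hp : p ∈ e.source) :
    Tendsto e (𝓝 p) (𝓝 (e p)) := (e.continuousAt hp).tendsto

/-- germs on the surface in a chart -/
def toOO {e : OpenPartialHomeomorph Y C2} (he : e ∈ atlas C2 Y) (hp : p ∈ e.source) :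
    Dv69.Og p →+* OO (e p) where
  toFun x := ⟨(x : Germ (𝓝 p) ℂ).compTendsto e.symm (tendsto_symm hp), by
    obtain ⟨f, hf, rfl⟩ := Dv69.exists_gm x
    exact ⟨fun z => f (e.symm z), (holN_iff_analyticAt he hp f).1 hf, rfl⟩⟩
  map_one' := rfl
  map_zero' := rfl
  map_mul' x y := by
    obtain ⟨f, hf, rfl⟩ := Dv69.exists_gm x
    obtain ⟨g, hg, rfl⟩ := Dv69.exists_gm y
    rfl
  map_add' x y := by
    obtain ⟨f, hf, rfl⟩ := Dv69.exists_gm x
    obtain ⟨g, hg, rfl⟩ := Dv69.exists_gm y
    rfl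

lemma analyticAt_holN {e : OpenPartialHomeomorph Y C2} (he : e ∈ atlas C2 Y)
    (hp : p ∈ e.source) {φ : C2 → ℂ} (hφ : AnalyticAt ℂ φ (e p)) :
    Dv69.HolN (fun y => φ (e y)) p := by
  refine Dv69.holN_pull he hp ?_
  filter_upwards [hφ.eventually_analyticAt] with z hz using hz.differentiableAt

/-- germs in a chart as germs on the surface -/
def ofOO {e : OpenPartialHomeomorph Y C2} (he : e ∈ atlas C2 Y) (hp : p ∈ e.source) :
    OO (e p) →+* Dv69.Og p where
  toFun x := ⟨(x : Germ (𝓝 (e p)) ℂ).compTendsto e (tendsto_chart hp), by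
    obtain ⟨f, hf, rfl⟩ := exists_gm x
    exact ⟨fun y => f (e y), analyticAt_holN he hp hf, rfl⟩⟩
  map_one' := rfl
  map_zero' := rfl
  map_mul' x y := by
    obtain ⟨f, hf, rfl⟩ := exists_gm x
    obtain ⟨g, hg, rfl⟩ := exists_gm y
    rfl
  map_add' x y := by
    obtain ⟨f, hf, rfl⟩ := exists_gm x
    obtain ⟨g, hg, rfl⟩ := exists_gm y
    rfl

lemma toOO_gm {e : OpenPartialHomeomorph Y C2} (he : e ∈ atlas C2 Y) (hp : p ∈ e.source)
    (hf : Dv69.HolN f p) :
    toOO he hp (Dv69.gm hf) = gm (fun z => f (e.symm z)) ((holN_iff_analyticAt he hp f).1 hf) :=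
  rfl

lemma ofOO_gm {e : OpenPartialHomeomorph Y C2} (he : e ∈ atlas C2 Y) (hp : p ∈ e.source)
    {φ : C2 → ℂ} (hφ : AnalyticAt ℂ φ (e p)) :
    ofOO he hp (gm φ hφ) = Dv69.gm (analyticAt_holN he hp hφ) := rfl

/-- the ring of germs in a chart -/
def chartEquiv {e : OpenPartialHomeomorph Y C2} (he : e ∈ atlas C2 Y) (hp : p ∈ e.source) :
    Dv69.Og p ≃+* OO (e p) :=
  RingEquiv.ofRingHom (toOO he hp) (ofOO he hp)
    (by
      refine RingHom.ext (fun x => ?_)
      obtain ⟨f, hf, rfl⟩ := exists_gm x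
      rw [RingHom.comp_apply, ofOO_gm, toOO_gm, RingHom.id_apply, gm_eq_gm]
      filter_upwards [e.open_target.mem_nhds (e.map_source hp)] with z hz
      rw [e.right_inv hz])
    (by
      refine RingHom.ext (fun x => ?_)
      obtain ⟨f, hf, rfl⟩ := Dv69.exists_gm x
      rw [RingHom.comp_apply, toOO_gm, ofOO_gm, RingHom.id_apply, Dv69.gm_eq_iff]
      filter_upwards [e.open_source.mem_nhds hp] with z hz
      rw [e.left_inv hz])

@[simp] lemma chartEquiv_gm {e : OpenPartialHomeomorph Y C2} (he : e ∈ atlas C2 Y)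
    (hp : p ∈ e.source) (hf : Dv69.HolN f p) :
    chartEquiv he hp (Dv69.gm hf) =
      gm (fun z => f (e.symm z)) ((holN_iff_analyticAt he hp f).1 hf) := rfl

lemma chartEquiv_gt {e : OpenPartialHomeomorph Y C2} (he : e ∈ atlas C2 Y)
    (hp : p ∈ e.source) (hf : Dv69.HolN f p) :
    chartEquiv he hp (Dv69.gt f p) =
      gm (fun z => f (e.symm z)) ((holN_iff_analyticAt he hp f).1 hf) := by
  rw [Dv69.gt_eq hf]; rfl

instance (p : Y) : IsNoetherianRing (Dv69.Og p) :=
  isNoetherianRing_of_ringEquiv _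
    (chartEquiv (chart_mem_atlas C2 p) (mem_chart_source C2 p)).symm

theorem ufd_Og (p : Y) : UniqueFactorizationMonoid (Dv69.Og p) :=
  MulEquiv.uniqueFactorizationMonoid
    (chartEquiv (chart_mem_atlas C2 p) (mem_chart_source C2 p)).symm.toMulEquiv inferInstance

/-- common zeros of relatively prime germs are isolated -/
theorem isolated_surface (hf : Dv69.HolN f p) (hh : Dv69.HolN h p)
    (hrp : IsRelPrime (Dv69.gt f p) (Dv69.gt h p)) : ∀ᶠ q in 𝓝 p, f q = 0 → h q = 0 → q = p := by
  have he := chart_mem_atlas C2 p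
  have hp := mem_chart_source C2 p
  set e := chartAt C2 p
  have h1 := (isRelPrime_map (chartEquiv he hp).toMulEquiv).2 hrp
  change IsRelPrime (chartEquiv he hp (Dv69.gt f p)) (chartEquiv he hp (Dv69.gt h p)) at h1
  rw [chartEquiv_gt he hp hf, chartEquiv_gt he hp hh] at h1
  have h2 := isolated_of_isRelPrime finrank_C2 h1
  filter_upwards [(tendsto_chart hp).eventually h2, e.open_source.mem_nhds hp] with q hq hq' a b
  rw [e.left_inv hq'] at hq
  exact e.injOn hq' hp (hq a b)

theorem isRelPrime_ev (hf : Dv69.HolN f p) (hh : Dv69.HolN h p)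
    (hrp : IsRelPrime (Dv69.gt f p) (Dv69.gt h p)) :
    ∀ᶠ q in 𝓝 p, IsRelPrime (Dv69.gt f q) (Dv69.gt h q) := by
  filter_upwards [isolated_surface hf hh hrp, hf.ev, hh.ev] with q hq hfq hhq
  by_cases h1 : f q = 0
  · by_cases h2 : h q = 0
    · rw [hq h1 h2]; exact hrp
    · exact IsUnit.isRelPrime_right ((Dv69.isUnit_gt_iff hhq).2 h2)
  · exact IsUnit.isRelPrime_left ((Dv69.isUnit_gt_iff hfq).2 h1)

instance instLocFact : Dv69.LocFact Y where
  ufd := ufd_Og
  rp := fun _ _ _ hf hh h => isRelPrime_ev hf hh h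


section pull

variable {e : OpenPartialHomeomorph Y C2} (he : e ∈ atlas C2 Y) (hp : p ∈ e.source)


end pull






end Crest.Agent.R275.Loc2879
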