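import Mathlib
import Crest.Prelude.Def_ComplexSurface
import Crest.Agent.R266.SCV
import Crest.Agent.R275.TbDefs_78

-- ▼ part R275/Smp_284
section

/-!
R275 (S0418), helper284, block SMP1: local geometry of a curve `C = {s = 0}` of a complex surface
whose conormal sections have exactly one simple zero.
-/

set_option autoImplicit false
set_option linter.unusedSectionVars false

open Set Filter Topology Metric Crest.AlgGeometry.Surface
open scoped Manifold ContDiff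

noncomputable section

namespace Crest.Agent.R275.Smp284

variable {M : Type} [TopologicalSpace M] [ChartedSpace C2 M] [IsManifold 𝓘(ℂ, C2) 1 M]

/-! ### Holomorphic functions in charts -/

variable {F : Type} [NormedAddCommGroup F] [NormedSpace ℂ F] [CompleteSpace F]

/-- holomorphic maps read in a chart -/
theorem analyticOnNhd_chart {f : M → F} {U : Set M} (hU : IsOpen U)
    (hf : ContMDiffOn 𝓘(ℂ, C2) 𝓘(ℂ, F) 1 f U) (p : M) :
    AnalyticOnNhd ℂ (f ∘ (chartAt C2 p).symm)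
      ((chartAt C2 p).target ∩ (chartAt C2 p).symm ⁻¹' U) := by
  set e := chartAt C2 p with he
  have hopen : IsOpen (e.target ∩ e.symm ⁻¹' U) := e.isOpen_inter_preimage_symm hU
  have h1 : ContMDiffOn 𝓘(ℂ, C2) 𝓘(ℂ, C2) 1 e.symm e.target :=
    contMDiffOn_chart_symm
  have h2 : ContMDiffOn 𝓘(ℂ, C2) 𝓘(ℂ, F) 1 (f ∘ e.symm) (e.target ∩ e.symm ⁻¹' U) :=
    hf.comp (h1.mono inter_subset_left) (fun z hz => hz.2)
  exact Crest.Agent.R266.SCV.analyticOnNhd_of_differentiableOn hopen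
    ((contMDiffOn_iff_contDiffOn.1 h2).differentiableOn (by norm_num))



/-! ### Generators of the maximal ideal have independent differentials -/

/-- `u` is a combination of `f` and `h` near `p`, with holomorphic coefficients -/
def InIdeal (f h u : M → ℂ) (p : M) : Prop :=
  ∃ α β : M → ℂ, ContMDiffAt 𝓘(ℂ, C2) 𝓘(ℂ, ℂ) 1 α p ∧ ContMDiffAt 𝓘(ℂ, C2) 𝓘(ℂ, ℂ) 1 β p ∧
    ∀ᶠ q in 𝓝 p, u q = α q * f q + β q * h q

/-- a holomorphic function is differentiable in the chart at `p` -/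
theorem differentiableAt_chart {f : M → F} {p : M}
    (hf : ContMDiffAt 𝓘(ℂ, C2) 𝓘(ℂ, F) 1 f p) :
    DifferentiableAt ℂ (f ∘ (chartAt C2 p).symm) (chartAt C2 p p) := by
  set e := chartAt C2 p with he
  have hp : p ∈ e.source := mem_chart_source C2 p
  have h1 : ContMDiffAt 𝓘(ℂ, C2) 𝓘(ℂ, C2) 1 e.symm (e p) :=
    (contMDiffOn_chart_symm (x := p)).contMDiffAt (e.open_target.mem_nhds (e.map_source hp))
  have h2 : ContMDiffAt 𝓘(ℂ, C2) 𝓘(ℂ, F) 1 f (e.symm (e p)) := by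
    rw [e.left_inv hp]; exact hf
  exact (h2.comp (e p) h1).contDiffAt.differentiableAt (by norm_num)

/-- the derivative of `f` at `p`, read in the preferred chart at `p` -/
def dch (f : M → ℂ) (p : M) : C2 →L[ℂ] ℂ :=
  fderiv ℂ (f ∘ (chartAt C2 p).symm) (chartAt C2 p p)

/-- the pair of differentials is injective -/
def Indep (f h : M → ℂ) (p : M) : Prop := ∀ v : C2, dch f p v = 0 → dch h p v = 0 → v = 0

theorem indep_of_inIdeal {f h : M → ℂ} {p : M}
    (hf : ContMDiffAt 𝓘(ℂ, C2) 𝓘(ℂ, ℂ) 1 f p) (hh : ContMDiffAt 𝓘(ℂ, C2) 𝓘(ℂ, ℂ) 1 h p)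
    (hf0 : f p = 0) (hh0 : h p = 0)
    (H : ∀ k : Fin 2, InIdeal f h (fun q => chartAt C2 p q k - chartAt C2 p p k) p) :
    Indep f h p := by
  intro v hv1 hv2
  set e := chartAt C2 p with he
  have hp : p ∈ e.source := mem_chart_source C2 p
  have hlp : e.symm (e p) = p := e.left_inv hp
  ext k
  obtain ⟨α, β, hα, hβ, hab⟩ := H k
  have hcs : ContinuousAt e.symm (e p) := e.continuousAt_symm (e.map_source hp)
  have h1 : (fun z : C2 => z k - e p k) =ᶠ[𝓝 (e p)]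
      fun z => (α ∘ e.symm) z * (f ∘ e.symm) z + (β ∘ e.symm) z * (h ∘ e.symm) z := by
    have h2 : ∀ᶠ z in 𝓝 (e p), z ∈ e.target := e.open_target.mem_nhds (e.map_source hp)
    have h3 : ∀ᶠ z in 𝓝 (e p), (e (e.symm z) k - e p k) =
        α (e.symm z) * f (e.symm z) + β (e.symm z) * h (e.symm z) := by
      have : Tendsto e.symm (𝓝 (e p)) (𝓝 p) := by
        have := hcs.tendsto
        rwa [hlp] at this
      exact this.eventually hab
    filter_upwards [h2, h3] with z hz2 hz3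
    rw [e.right_inv hz2] at hz3
    exact hz3
  have hdf := differentiableAt_chart hf
  have hdh := differentiableAt_chart hh
  have hda := differentiableAt_chart hα
  have hdb := differentiableAt_chart hβ
  rw [← he] at hdf hdh hda hdb
  have h4 : fderiv ℂ (fun z : C2 => z k - e p k) (e p) v = v k := by
    have : HasFDerivAt (fun z : C2 => z k - e p k)
        (EuclideanSpace.proj k : C2 →L[ℂ] ℂ) (e p) := by
      exact (EuclideanSpace.proj k : C2 →L[ℂ] ℂ).hasFDerivAt.sub_const _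
    rw [this.fderiv]
    rfl
  have hf0' : (f ∘ e.symm) (e p) = 0 := by simp [hlp, hf0]
  have hh0' : (h ∘ e.symm) (e p) = 0 := by simp [hlp, hh0]
  have h5 : fderiv ℂ (fun z => (α ∘ e.symm) z * (f ∘ e.symm) z + (β ∘ e.symm) z *
      (h ∘ e.symm) z) (e p) v = (α ∘ e.symm) (e p) * dch f p v + (β ∘ e.symm) (e p) * dch h p v := by
    have : HasFDerivAt (fun z => (α ∘ e.symm) z * (f ∘ e.symm) z + (β ∘ e.symm) z *
      (h ∘ e.symm) z) _ (e p) := (hda.hasFDerivAt.mul hdf.hasFDerivAt).add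
        (hdb.hasFDerivAt.mul hdh.hasFDerivAt)
    rw [this.fderiv, hf0', hh0']
    simp [dch, ← he]
  rw [← h4, h1.fderiv_eq, h5, hv1, hv2]
  simp

/-! ### Local coordinates from two independent functions -/

theorem exists_local_inverse {T W : M → ℂ} {U : Set M} (hU : IsOpen U) {p : M} (hp : p ∈ U)
    (hT : ContMDiffOn 𝓘(ℂ, C2) 𝓘(ℂ, ℂ) 1 T U) (hW : ContMDiffOn 𝓘(ℂ, C2) 𝓘(ℂ, ℂ) 1 W U)
    (hJ : Indep T W p) :
    ∃ r : ℝ, 0 < r ∧ ∃ Ψ : ℂ × ℂ → M,
      ContMDiffOn 𝓘(ℂ, ℂ × ℂ) 𝓘(ℂ, C2) 1 Ψ (ball (T p) r ×ˢ ball (W p) r) ∧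
      (∀ x ∈ ball (T p) r ×ˢ ball (W p) r, Ψ x ∈ U ∧ T (Ψ x) = x.1 ∧ W (Ψ x) = x.2) ∧
      IsOpen (Ψ '' (ball (T p) r ×ˢ ball (W p) r)) ∧ Ψ (T p, W p) = p := by
  set e := chartAt C2 p with he
  have hpe : p ∈ e.source := mem_chart_source C2 p
  have hlp : e.symm (e p) = p := e.left_inv hpe
  have hTa := analyticOnNhd_chart hU hT p
  have hWa := analyticOnNhd_chart hU hW p
  rw [← he] at hTa hWa
  have hmem : e p ∈ e.target ∩ e.symm ⁻¹' U := ⟨e.map_source hpe, by simpa [hlp] using hp⟩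
  have hopen : IsOpen (e.target ∩ e.symm ⁻¹' U) := e.isOpen_inter_preimage_symm hU
  set f : C2 → ℂ × ℂ := fun z => ((T ∘ e.symm) z, (W ∘ e.symm) z) with hf
  have hfa : AnalyticAt ℂ f (e p) := (hTa _ hmem).prod (hWa _ hmem)
  have hfd : HasFDerivAt f ((dch T p).prod (dch W p)) (e p) :=
    (hTa _ hmem).differentiableAt.hasFDerivAt.prodMk (hWa _ hmem).differentiableAt.hasFDerivAt
  have hinj : Function.Injective ((dch T p).prod (dch W p)) := by
    rw [injective_iff_map_eq_zero]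
    intro v hv
    have h1 : dch T p v = 0 := congrArg Prod.fst hv
    have h2 : dch W p v = 0 := congrArg Prod.snd hv
    exact hJ v h1 h2
  have hfin : Module.finrank ℂ C2 = Module.finrank ℂ (ℂ × ℂ) := by simp
  let L : C2 ≃ₗ[ℂ] ℂ × ℂ := LinearMap.linearEquivOfInjective
    (((dch T p).prod (dch W p) : C2 →L[ℂ] ℂ × ℂ) : C2 →ₗ[ℂ] ℂ × ℂ) hinj hfin
  let L' : C2 ≃L[ℂ] ℂ × ℂ := L.toContinuousLinearEquiv
  have hL' : (L' : C2 →L[ℂ] ℂ × ℂ) = (dch T p).prod (dch W p) := by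
    ext v <;> rfl
  obtain ⟨E, hE1, hE2, hE3, hE4, hE5⟩ :=
    Crest.Agent.R266.SCV.exists_analytic_openPartialHomeomorph hfa L' (by rw [hL']; exact hfd)
      (hopen.mem_nhds hmem)
  have hfp : E (e p) = (T p, W p) := by
    rw [hE3]
    simp [hf, hlp]
  have htgt : (T p, W p) ∈ E.target := by
    rw [← hfp]; exact E.map_source hE1
  obtain ⟨r, hr, hrs⟩ : ∃ r > 0, ball (T p) r ×ˢ ball (W p) r ⊆ E.target := by
    obtain ⟨r, hr, h⟩ := Metric.mem_nhds_iff.1 (E.open_target.mem_nhds htgt)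
    refine ⟨r, hr, ?_⟩
    rw [ball_prod_same]
    exact h
  refine ⟨r, hr, fun x => e.symm (E.symm x), ?_, ?_, ?_, ?_⟩
  · have h1 : ContMDiffOn 𝓘(ℂ, C2) 𝓘(ℂ, C2) 1 e.symm e.target := contMDiffOn_chart_symm
    have h2 : ContMDiffOn 𝓘(ℂ, ℂ × ℂ) 𝓘(ℂ, C2) 1 E.symm (ball (T p) r ×ˢ ball (W p) r) := by
      rw [contMDiffOn_iff_contDiffOn]
      exact (hE5.mono hrs).contDiffOn (by
        exact (isOpen_ball.prod isOpen_ball).uniqueDiffOn)
    refine h1.comp h2 (fun x hx => ?_)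
    exact (hE2 (E.map_target (hrs hx))).1
  · intro x hx
    have h1 := hE2 (E.map_target (hrs hx))
    refine ⟨h1.2, ?_⟩
    have h2 : E (E.symm x) = x := E.right_inv (hrs hx)
    rw [hE3] at h2
    simp only [hf, Function.comp_apply] at h2
    exact ⟨congrArg Prod.fst h2, congrArg Prod.snd h2⟩
  · have h1 : (fun x => e.symm (E.symm x)) '' (ball (T p) r ×ˢ ball (W p) r) =
        e.symm '' (E.symm '' (ball (T p) r ×ˢ ball (W p) r)) := by
      rw [image_image]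
    rw [h1]
    have h2 : IsOpen (E.symm '' (ball (T p) r ×ˢ ball (W p) r)) :=
      E.symm.isOpen_image_of_subset_source (isOpen_ball.prod isOpen_ball) hrs
    refine e.symm.isOpen_image_of_subset_source h2 ?_
    rintro _ ⟨x, hx, rfl⟩
    exact (hE2 (E.map_target (hrs hx))).1
  · show e.symm (E.symm (T p, W p)) = p
    rw [← hfp, E.left_inv hE1, hlp]

end Crest.Agent.R275.Smp284
end
end

-- ▼ part R275/SmpB_284

/-!
R275 (S0418), helper284, block SMP1: from a curve `C = {s = 0}` with two conormal sections, every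
combination of which has exactly one simple zero, to `RatData` of helper78.
-/

set_option autoImplicit false
set_option linter.unusedSectionVars false

open Set Filter Topology Metric Crest.AlgGeometry.Surface
open scoped Manifold ContDiff
open Crest.Agent.R275.Tb78

noncomputable section

namespace Crest.Agent.R275.Smp284

variable {M : Type} [TopologicalSpace M] [ChartedSpace C2 M] [IsManifold 𝓘(ℂ, C2) 1 M]

theorem dch_comb {f h : M → ℂ} {p : M} (hf : ContMDiffAt 𝓘(ℂ, C2) 𝓘(ℂ, ℂ) 1 f p)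
    (hh : ContMDiffAt 𝓘(ℂ, C2) 𝓘(ℂ, ℂ) 1 h p) (a b : ℂ) (v : C2) :
    dch (fun q => a * f q + b * h q) p v = a * dch f p v + b * dch h p v := by
  have hA := (differentiableAt_chart hf).hasFDerivAt
  have hB := (differentiableAt_chart hh).hasFDerivAt
  have h1 : HasFDerivAt (fun z => a * (f ∘ (chartAt C2 p).symm) z +
      b * (h ∘ (chartAt C2 p).symm) z) (a • dch f p + b • dch h p) (chartAt C2 p p) :=
    (hA.const_mul a).add (hB.const_mul b)
  have h2 : dch (fun q => a * f q + b * h q) p = a • dch f p + b • dch h p := h1.fderiv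
  rw [h2]
  simp

/-- local equations `s i` of a curve `C` and two families `α`, `β` of local functions which on `C`
are sections of the conormal bundle, such that every non-trivial combination has exactly one zero
on `C`, which is simple -/
structure Cono {ι : Type} (C : Set M) (U : ι → Set M) (s : ι → M → ℂ) (g : ι → ι → M → ℂ)
    (α β : ι → M → ℂ) : Prop where
  openU : ∀ i, IsOpen (U i)
  cover : ∀ p ∈ C, ∃ i, p ∈ U i
  s_hol : ∀ i, ContMDiffOn 𝓘(ℂ, C2) 𝓘(ℂ, ℂ) 1 (s i) (U i)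
  α_hol : ∀ i, ContMDiffOn 𝓘(ℂ, C2) 𝓘(ℂ, ℂ) 1 (α i) (U i)
  β_hol : ∀ i, ContMDiffOn 𝓘(ℂ, C2) 𝓘(ℂ, ℂ) 1 (β i) (U i)
  g_cont : ∀ i j, ContinuousOn (g i j) (U i ∩ U j)
  g_ne : ∀ i j, ∀ q ∈ U i ∩ U j, g i j q ≠ 0
  s_trans : ∀ i j, ∀ q ∈ U i ∩ U j, s i q = g i j q * s j q
  zero : ∀ i, ∀ q ∈ U i, (s i q = 0 ↔ q ∈ C)
  α_trans : ∀ i j, ∀ q ∈ U i ∩ U j, q ∈ C → α j q = g i j q * α i q
  β_trans : ∀ i j, ∀ q ∈ U i ∩ U j, q ∈ C → β j q = g i j q * β i q
  uniq : ∀ a b : ℂ, a ≠ 0 ∨ b ≠ 0 → ∃ p ∈ C, (∀ i, p ∈ U i → a * α i p + b * β i p = 0) ∧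
    ∀ q ∈ C, (∀ i, q ∈ U i → a * α i q + b * β i q = 0) → q = p
  indep : ∀ a b : ℂ, a ≠ 0 ∨ b ≠ 0 → ∀ p ∈ C, ∀ i, p ∈ U i → a * α i p + b * β i p = 0 →
    Indep (s i) (fun q => a * α i q + b * β i q) p

variable {ι : Type} {C : Set M} {U : ι → Set M} {s : ι → M → ℂ} {g : ι → ι → M → ℂ}
  {α β : ι → M → ℂ}

theorem Cono.swap (h : Cono C U s g α β) : Cono C U s g β α where
  openU := h.openU
  cover := h.cover
  s_hol := h.s_hol
  α_hol := h.β_hol
  β_hol := h.α_hol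
  g_cont := h.g_cont
  g_ne := h.g_ne
  s_trans := h.s_trans
  zero := h.zero
  α_trans := h.β_trans
  β_trans := h.α_trans
  uniq := by
    intro a b hab
    obtain ⟨p, hp, h1, h2⟩ := h.uniq b a hab.symm
    refine ⟨p, hp, fun i hi => by rw [add_comm]; exact h1 i hi, fun q hq h3 => h2 q hq ?_⟩
    intro i hi
    rw [add_comm]; exact h3 i hi
  indep := by
    intro a b hab p hp i hi h0
    have := h.indep b a hab.symm p hp i hi (by rw [add_comm]; exact h0)
    convert this using 2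
    ring

/-- the point of the curve with parameter `t`: the zero of `β - t α` -/
def Pt (h : Cono C U s g α β) (t : ℂ) : M :=
  (h.uniq (-t) 1 (Or.inr one_ne_zero)).choose

theorem Pt_mem (h : Cono C U s g α β) (t : ℂ) : Pt h t ∈ C :=
  (h.uniq (-t) 1 (Or.inr one_ne_zero)).choose_spec.1

theorem Pt_eq (h : Cono C U s g α β) (t : ℂ) (i : ι) (hi : Pt h t ∈ U i) :
    β i (Pt h t) = t * α i (Pt h t) := by
  have := (h.uniq (-t) 1 (Or.inr one_ne_zero)).choose_spec.2.1 i hi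
  have h2 : -t * α i (Pt h t) + 1 * β i (Pt h t) = 0 := this
  linear_combination h2

theorem Pt_unique (h : Cono C U s g α β) {t : ℂ} {q : M} (hq : q ∈ C) {i : ι} (hi : q ∈ U i)
    (he : β i q = t * α i q) : q = Pt h t := by
  refine (h.uniq (-t) 1 (Or.inr one_ne_zero)).choose_spec.2.2 q hq (fun j hj => ?_)
  rw [h.α_trans i j q ⟨hi, hj⟩ hq, h.β_trans i j q ⟨hi, hj⟩ hq, he]
  ring

/-- `α` and `β` have no common zero on the curve -/
theorem Cono.not_both (h : Cono C U s g α β) {q : M} (hq : q ∈ C) {i : ι} (hi : q ∈ U i)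
    (ha : α i q = 0) (hb : β i q = 0) : False := by
  -- all combinations vanish at `q`, one of them has differential proportional to that of `s`
  have h1 := h.indep 1 0 (Or.inl one_ne_zero) q hq i hi (by simp [ha])
  have h2 := h.indep 0 1 (Or.inr one_ne_zero) q hq i hi (by simp [hb])
  have e1 : (fun q => (1 : ℂ) * α i q + 0 * β i q) = α i := by ext; ring
  have e2 : (fun q => (0 : ℂ) * α i q + 1 * β i q) = β i := by ext; ring
  rw [e1] at h1
  rw [e2] at h2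
  have hA := differentiableAt_chart ((h.α_hol i).contMDiffAt ((h.openU i).mem_nhds hi))
  have hB := differentiableAt_chart ((h.β_hol i).contMDiffAt ((h.openU i).mem_nhds hi))
  -- a vector killed by `ds`
  obtain ⟨v, hv0, hv⟩ : ∃ v : C2, v ≠ 0 ∧ dch (s i) q v = 0 := by
    have hfr : Module.finrank ℂ ℂ < Module.finrank ℂ C2 := by simp
    have hk : LinearMap.ker ((dch (s i) q : C2 →L[ℂ] ℂ) : C2 →ₗ[ℂ] ℂ) ≠ ⊥ :=
      LinearMap.ker_ne_bot_of_finrank_lt hfr
    obtain ⟨v, hv, hv0⟩ := Submodule.exists_mem_ne_zero_of_ne_bot hk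
    exact ⟨v, hv0, hv⟩
  have ha1 : dch (α i) q v ≠ 0 := fun h0 => hv0 (h1 v hv h0)
  have h3 := h.indep (-(dch (β i) q v)) (dch (α i) q v) (Or.inr ha1) q hq i hi
    (by simp [ha, hb])
  refine hv0 (h3 v hv ?_)
  rw [dch_comb ((h.α_hol i).contMDiffAt ((h.openU i).mem_nhds hi))
    ((h.β_hol i).contMDiffAt ((h.openU i).mem_nhds hi))]
  ring

theorem α_ne (h : Cono C U s g α β) (t : ℂ) (i : ι) (hi : Pt h t ∈ U i) : α i (Pt h t) ≠ 0 := by
  intro h0
  have := Pt_eq h t i hi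
  rw [h0, mul_zero] at this
  exact h.not_both (Pt_mem h t) hi h0 this

/-- the local coordinates `(β/α, s α)` at the point with parameter `a` -/
theorem exists_tube (h : Cono C U s g α β) (a : ℂ) :
    ∃ i, ∃ r : ℝ, 0 < r ∧ ∃ Φ : ℂ × ℂ → M,
      ContMDiffOn 𝓘(ℂ, ℂ × ℂ) 𝓘(ℂ, C2) 1 Φ (ball a r ×ˢ ball 0 r) ∧
      (∀ x ∈ ball a r ×ˢ ball (0 : ℂ) r, Φ x ∈ U i ∧ α i (Φ x) ≠ 0 ∧
        β i (Φ x) = x.1 * α i (Φ x) ∧ s i (Φ x) * α i (Φ x) = x.2) ∧
      IsOpen (Φ '' (ball a r ×ˢ ball (0 : ℂ) r)) := by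
  obtain ⟨i, hi⟩ := h.cover _ (Pt_mem h a)
  set p := Pt h a with hp
  have hα := α_ne h a i hi
  rw [← hp] at hα
  have hUo : IsOpen (U i ∩ {q | α i q ≠ 0}) := by
    have := (h.α_hol i).continuousOn.isOpen_inter_preimage (h.openU i) isOpen_compl_singleton
      (t := ({0} : Set ℂ)ᶜ)
    exact this
  have hpU : p ∈ U i ∩ {q | α i q ≠ 0} := ⟨hi, hα⟩
  have hαm : ContMDiffOn 𝓘(ℂ, C2) 𝓘(ℂ, ℂ) 1 (α i) (U i ∩ {q | α i q ≠ 0}) :=
    (h.α_hol i).mono inter_subset_left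
  have hT : ContMDiffOn 𝓘(ℂ, C2) 𝓘(ℂ, ℂ) 1 (fun q => β i q / α i q)
      (U i ∩ {q | α i q ≠ 0}) :=
    ((h.β_hol i).mono inter_subset_left).div₀ hαm (fun q hq => hq.2)
  have hW : ContMDiffOn 𝓘(ℂ, C2) 𝓘(ℂ, ℂ) 1 (fun q => s i q * α i q)
      (U i ∩ {q | α i q ≠ 0}) :=
    ((h.s_hol i).mono inter_subset_left).mul hαm
  have hsp : s i p = 0 := (h.zero i p hi).2 (Pt_mem h a)
  have hβp : β i p = a * α i p := Pt_eq h a i hi
  have hTp : β i p / α i p = a := by rw [hβp]; field_simp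
  have hWp : s i p * α i p = 0 := by rw [hsp, zero_mul]
  have hAd : DifferentiableAt ℂ (α i ∘ (chartAt C2 p).symm) (chartAt C2 p p) :=
    differentiableAt_chart ((h.α_hol i).contMDiffAt ((h.openU i).mem_nhds hi))
  have hBd : DifferentiableAt ℂ (β i ∘ (chartAt C2 p).symm) (chartAt C2 p p) :=
    differentiableAt_chart ((h.β_hol i).contMDiffAt ((h.openU i).mem_nhds hi))
  have hSd : DifferentiableAt ℂ (s i ∘ (chartAt C2 p).symm) (chartAt C2 p p) :=
    differentiableAt_chart ((h.s_hol i).contMDiffAt ((h.openU i).mem_nhds hi))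
  have hcp : (chartAt C2 p).symm (chartAt C2 p p) = p :=
    (chartAt C2 p).left_inv (mem_chart_source C2 p)
  have hJ : Indep (fun q => β i q / α i q) (fun q => s i q * α i q) p := by
    intro v hv1 hv2
    -- the derivative of the quotient
    have hTd : DifferentiableAt ℂ ((fun q => β i q / α i q) ∘ (chartAt C2 p).symm)
        (chartAt C2 p p) := differentiableAt_chart (hT.contMDiffAt (hUo.mem_nhds hpU))
    have h1 : HasFDerivAt (fun z => ((fun q => β i q / α i q) ∘ (chartAt C2 p).symm) z *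
        (α i ∘ (chartAt C2 p).symm) z) _ (chartAt C2 p p) := hTd.hasFDerivAt.mul hAd.hasFDerivAt
    have h2 : α i p * dch (fun q => β i q / α i q) p v = dch (β i) p v - a * dch (α i) p v := by
      have h9 : (β i ∘ (chartAt C2 p).symm) =ᶠ[𝓝 (chartAt C2 p p)]
          (fun z => ((fun q => β i q / α i q) ∘ (chartAt C2 p).symm) z *
            (α i ∘ (chartAt C2 p).symm) z) := by
        have h10 : ∀ᶠ z in 𝓝 (chartAt C2 p p), (α i ∘ (chartAt C2 p).symm) z ≠ 0 :=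
          hAd.continuousAt.eventually_ne (by simpa [hcp] using hα)
        filter_upwards [h10] with z hz
        have hz' : α i ((chartAt C2 p).symm z) ≠ 0 := hz
        simp only [Function.comp_apply]
        field_simp
      have h3 : dch (β i) p = _ := h9.fderiv_eq.trans h1.fderiv
      rw [h3]
      simp only [Function.comp_apply, hcp, hTp]
      simp [dch]
    have h4 : HasFDerivAt (fun z => (s i ∘ (chartAt C2 p).symm) z * (α i ∘ (chartAt C2 p).symm) z)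
        _ (chartAt C2 p p) := hSd.hasFDerivAt.mul hAd.hasFDerivAt
    have h5 : dch (fun q => s i q * α i q) p v = α i p * dch (s i) p v := by
      have h6 : dch (fun q => s i q * α i q) p = _ := h4.fderiv
      rw [h6]
      simp only [Function.comp_apply, hcp, hsp]
      simp [dch]
    rw [hv1, mul_zero] at h2
    rw [h5] at hv2
    have h7 := h.indep (-a) 1 (Or.inr one_ne_zero) p (Pt_mem h a) i hi (by rw [hβp]; ring)
    refine h7 v ((mul_eq_zero.1 hv2).resolve_left hα) ?_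
    rw [dch_comb ((h.α_hol i).contMDiffAt ((h.openU i).mem_nhds hi))
      ((h.β_hol i).contMDiffAt ((h.openU i).mem_nhds hi))]
    linear_combination -h2
  obtain ⟨r, hr, Φ, h1, h2, h3, h4⟩ := exists_local_inverse hUo hpU hT hW hJ
  rw [hTp, hWp] at h1 h2 h3 h4
  refine ⟨i, r, hr, Φ, h1, fun x hx => ?_, h3⟩
  obtain ⟨⟨h5, h6⟩, h7, h8⟩ := h2 x hx
  refine ⟨h5, h6, ?_, h8⟩
  rw [← h7]
  have : α i (Φ x) ≠ 0 := h6
  field_simp


/-! ### Tubes -/

/-- the inverse coordinate map of a tube of type `i` -/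
def Th (s α β : ι → M → ℂ) (i : ι) (q : M) : ℂ × ℂ := (β i q / α i q, s i q * α i q)

/-- the data of a tube -/
structure LTube (U : ι → Set M) (s α β : ι → M → ℂ) (a : ℂ) (i : ι) (r : ℝ) (Φ : ℂ × ℂ → M) :
    Prop where
  pos : 0 < r
  hol : ContMDiffOn 𝓘(ℂ, ℂ × ℂ) 𝓘(ℂ, C2) 1 Φ (ball a r ×ˢ ball 0 r)
  mem : ∀ x ∈ ball a r ×ˢ ball (0 : ℂ) r, Φ x ∈ U i ∧ α i (Φ x) ≠ 0 ∧
        β i (Φ x) = x.1 * α i (Φ x) ∧ s i (Φ x) * α i (Φ x) = x.2
  openIm : IsOpen (Φ '' (ball a r ×ˢ ball (0 : ℂ) r))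

theorem exists_ltube (h : Cono C U s g α β) (a : ℂ) : ∃ i, ∃ r : ℝ, ∃ Φ : ℂ × ℂ → M,
    LTube U s α β a i r Φ := by
  obtain ⟨i, r, hr, Φ, h1, h2, h3⟩ := exists_tube h a
  exact ⟨i, r, Φ, hr, h1, h2, h3⟩

variable {a : ℂ} {i : ι} {r : ℝ} {Φ : ℂ × ℂ → M}

theorem LTube.th_apply (T : LTube U s α β a i r Φ) {x : ℂ × ℂ}
    (hx : x ∈ ball a r ×ˢ ball (0 : ℂ) r) : Th s α β i (Φ x) = x := by
  obtain ⟨h1, h2, h3, h4⟩ := T.mem x hx
  ext1
  · simp only [Th]
    rw [h3]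
    field_simp
  · exact h4

theorem LTube.inj (T : LTube U s α β a i r Φ) : InjOn Φ (ball a r ×ˢ ball (0 : ℂ) r) := by
  intro x hx y hy hxy
  rw [← T.th_apply hx, ← T.th_apply hy, hxy]

theorem LTube.image_sub (T : LTube U s α β a i r Φ) :
    Φ '' (ball a r ×ˢ ball (0 : ℂ) r) ⊆ U i ∩ {q | α i q ≠ 0} := by
  rintro _ ⟨x, hx, rfl⟩
  exact ⟨(T.mem x hx).1, (T.mem x hx).2.1⟩

theorem contMDiffOn_th (h : Cono C U s g α β) (i : ι) :
    ContMDiffOn 𝓘(ℂ, C2) 𝓘(ℂ, ℂ × ℂ) 1 (Th s α β i) (U i ∩ {q | α i q ≠ 0}) := by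
  have hαm : ContMDiffOn 𝓘(ℂ, C2) 𝓘(ℂ, ℂ) 1 (α i) (U i ∩ {q | α i q ≠ 0}) :=
    (h.α_hol i).mono inter_subset_left
  have hT : ContMDiffOn 𝓘(ℂ, C2) 𝓘(ℂ, ℂ) 1 (fun q => β i q / α i q)
      (U i ∩ {q | α i q ≠ 0}) :=
    ((h.β_hol i).mono inter_subset_left).div₀ hαm (fun q hq => hq.2)
  have hW : ContMDiffOn 𝓘(ℂ, C2) 𝓘(ℂ, ℂ) 1 (fun q => s i q * α i q)
      (U i ∩ {q | α i q ≠ 0}) :=
    ((h.s_hol i).mono inter_subset_left).mul hαm
  exact hT.prodMk_space hW

theorem LTube.zero (T : LTube U s α β a i r Φ) (h : Cono C U s g α β) {t : ℂ}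
    (ht : t ∈ ball a r) : Φ (t, 0) = Pt h t := by
  obtain ⟨h1, h2, h3, h4⟩ := T.mem (t, 0) ⟨ht, mem_ball_self T.pos⟩
  have h5 : s i (Φ (t, 0)) = 0 := (mul_eq_zero.1 h4).resolve_right h2
  exact Pt_unique h ((h.zero i _ h1).1 h5) h1 h3

theorem LTube.tube (T : LTube U s α β a i r Φ) (h : Cono C U s g α β) :
    Tube (Pt h) (ball a r) r Φ where
  openU := isOpen_ball
  pos := T.pos
  hol := T.hol
  inj := T.inj
  openIm := T.openIm
  inv := ⟨Th s α β i, (contMDiffOn_th h i).mono T.image_sub, fun _ hq => T.th_apply hq⟩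
  zero := fun _ ht => T.zero h ht

/-- change of tubes -/
theorem rl_of {α' β' : ι → M → ℂ} (h : Cono C U s g α β) (h' : Cono C U s g α' β')
    (T : LTube U s α β a i r Φ) {a' : ℂ} {j : ι} {r' : ℝ} {Φ' : ℂ × ℂ → M}
    (T' : LTube U s α' β' a' j r' Φ') {κ m : ℂ → ℂ} {t : ℂ} (ht : t ∈ ball a r)
    (ht' : κ t ∈ ball a' r') (hκ : ContinuousAt κ t)
    (hP : ∀ᶠ x in 𝓝 t, Pt h' (κ x) = Pt h x ∧ ∀ j, Pt h x ∈ U j →
      α' j (Pt h x) = m x * α j (Pt h x)) :
    Rl κ m Φ Φ' t := by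
  have hD : IsOpen (ball a r ×ˢ ball (0 : ℂ) r) := isOpen_ball.prod isOpen_ball
  have hD' : IsOpen (ball a' r' ×ˢ ball (0 : ℂ) r') := isOpen_ball.prod isOpen_ball
  have hcont : ContinuousOn Φ (ball a r ×ˢ ball (0 : ℂ) r) := T.hol.continuousOn
  -- the open set where the change of tubes is defined
  set O : Set (ℂ × ℂ) := (ball a r ×ˢ ball (0 : ℂ) r) ∩
    Φ ⁻¹' (Φ' '' (ball a' r' ×ˢ ball (0 : ℂ) r') ∩ U i) with hO
  have hOo : IsOpen O := hcont.isOpen_inter_preimage hD (T'.openIm.inter (h.openU i))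
  have hzero : ∀ x ∈ ball a r, κ x ∈ ball a' r' → Pt h' (κ x) = Pt h x → ((x, (0 : ℂ)) ∈ O) := by
    intro x hx hx' hPx
    refine ⟨⟨hx, mem_ball_self T.pos⟩, ?_, (T.mem (x, 0) ⟨hx, mem_ball_self T.pos⟩).1⟩
    rw [T.zero h hx]
    exact ⟨(κ x, 0), ⟨hx', mem_ball_self T'.pos⟩, by rw [T'.zero h' hx', hPx]⟩
  have htO : (t, (0 : ℂ)) ∈ O := hzero t ht ht' hP.self_of_nhds.1
  set G : ℂ × ℂ → ℂ × ℂ := fun q => Th s α' β' j (Φ q) with hG
  have hGm : ContMDiffOn 𝓘(ℂ, ℂ × ℂ) 𝓘(ℂ, ℂ × ℂ) 1 G O := by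
    have h1 : ContMDiffOn 𝓘(ℂ, C2) 𝓘(ℂ, ℂ × ℂ) 1 (Th s α' β' j)
        (Φ' '' (ball a' r' ×ˢ ball (0 : ℂ) r')) := (contMDiffOn_th h' j).mono T'.image_sub
    exact h1.comp (T.hol.mono inter_subset_left) (fun q hq => hq.2.1)
  have hGa : AnalyticOnNhd ℂ G O := Crest.Agent.R266.SCV.analyticOnNhd_of_differentiableOn hOo
    ((contMDiffOn_iff_contDiffOn.1 hGm).differentiableOn (by norm_num))
  refine ⟨G, hGa _ htO, ?_, ?_⟩
  · have e1 : ∀ᶠ x in 𝓝 t, x ∈ ball a r := isOpen_ball.mem_nhds ht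
    have e2 : ∀ᶠ x in 𝓝 t, κ x ∈ ball a' r' := hκ.eventually (isOpen_ball.mem_nhds ht')
    filter_upwards [e1, e2, hP] with x hx hx' hPx
    have hxO := hzero x hx hx' hPx.1
    have hΦx : Φ (x, 0) = Φ' (κ x, 0) := by rw [T.zero h hx, T'.zero h' hx', hPx.1]
    have hG0 : G (x, 0) = (κ x, 0) := by
      simp only [hG]
      rw [hΦx]
      exact T'.th_apply ⟨hx', mem_ball_self T'.pos⟩
    refine ⟨hG0, ?_⟩
    -- the quotient `G₂ / w`
    set y : ℂ → M := fun w => Φ (x, w) with hy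
    have hyc : ContinuousAt y 0 := by
      have h1 : ContinuousAt Φ (x, 0) := hcont.continuousAt (hD.mem_nhds hxO.1)
      exact h1.comp (f := fun w : ℂ => (x, w)) (by fun_prop)
    have hy0 : y 0 = Pt h x := T.zero h hx
    have hxi : y 0 ∈ U i := hxO.2.2
    have hxj : y 0 ∈ U j := by
      have := T'.image_sub hxO.2.1
      exact this.1
    have hUij : ∀ᶠ w in 𝓝 (0 : ℂ), y w ∈ U i ∩ U j :=
      hyc.eventually (((h.openU i).inter (h.openU j)).mem_nhds ⟨hxi, hxj⟩)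
    have hw : ∀ᶠ w in 𝓝 (0 : ℂ), (x, w) ∈ ball a r ×ˢ ball (0 : ℂ) r := by
      filter_upwards [ball_mem_nhds (0 : ℂ) T.pos] with w hw
      exact ⟨hx, hw⟩
    set k : ℂ → ℂ := fun w => α' j (y w) / (g i j (y w) * α i (y w)) with hk
    have hkc : ContinuousAt k 0 := by
      have c1 : ContinuousAt (α' j) (y 0) :=
        ((h'.α_hol j).continuousOn.continuousAt ((h.openU j).mem_nhds hxj))
      have c2 : ContinuousAt (α i) (y 0) :=
        ((h.α_hol i).continuousOn.continuousAt ((h.openU i).mem_nhds hxi))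
      have c3 : ContinuousAt (g i j) (y 0) :=
        (h.g_cont i j).continuousAt (((h.openU i).inter (h.openU j)).mem_nhds ⟨hxi, hxj⟩)
      have hne : g i j (y 0) * α i (y 0) ≠ 0 :=
        mul_ne_zero (h.g_ne i j _ ⟨hxi, hxj⟩) (T.mem (x, 0) hxO.1).2.1
      exact (c1.comp hyc).div ((c3.comp hyc).mul (c2.comp hyc)) hne
    have hk0 : k 0 = m x := by
      simp only [hk]
      rw [hy0, hPx.2 j (by rw [← hy0]; exact hxj),
        h.α_trans i j (Pt h x) (by rw [← hy0]; exact ⟨hxi, hxj⟩) (Pt_mem h x)]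
      have h1 : g i j (Pt h x) ≠ 0 := h.g_ne i j _ (by rw [← hy0]; exact ⟨hxi, hxj⟩)
      have h2 : α i (Pt h x) ≠ 0 := α_ne h x i (by rw [← hy0]; exact hxi)
      field_simp
    have hGk : (fun w => (G (x, w)).2) =ᶠ[𝓝 0] fun w => w * k w := by
      filter_upwards [hUij, hw] with w hw1 hw2
      obtain ⟨h1, h2, h3, h4⟩ := T.mem (x, w) hw2
      have h5 := h.s_trans i j (y w) hw1
      have h6 := h.g_ne i j (y w) hw1
      have h2' : α i (y w) ≠ 0 := h2
      have h4' : s i (y w) * α i (y w) = w := h4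
      simp only [hG, Th, hk]
      show s j (y w) * α' j (y w) = _
      rw [h5] at h4'
      rw [mul_div_assoc', eq_div_iff (mul_ne_zero h6 h2')]
      linear_combination (α' j (y w)) * h4'
    have hd : HasDerivAt (fun w => w * k w) (k 0) 0 := by
      rw [hasDerivAt_iff_tendsto_slope]
      have h1 : (slope (fun w => w * k w) 0) =ᶠ[𝓝[≠] 0] k := by
        filter_upwards [self_mem_nhdsWithin] with w hw
        have hw' : w ≠ 0 := hw
        rw [slope_def_field]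
        field_simp
        ring
      exact Tendsto.congr' h1.symm (hkc.tendsto.mono_left nhdsWithin_le_nhds)
    rw [← hk0]
    exact hd.congr_of_eventuallyEq hGk
  · filter_upwards [hOo.mem_nhds htO] with q hq
    obtain ⟨y, hy, hyq⟩ := hq.2.1
    simp only [hG]
    rw [← hyq, T'.th_apply hy]

/-- **SMP1**: conormal sections with one simple zero give a rational curve with reference tubes -/
theorem exists_ratData (h : Cono C U s g α β) :
    ∃ (P₀ P₁ : ℂ → M) (U₀ U₁ : ℂ → Set ℂ) (r₀ r₁ : ℂ → ℝ) (Φ₀ Φ₁ : ℂ → ℂ × ℂ → M),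
      RatData P₀ P₁ U₀ U₁ r₀ r₁ Φ₀ Φ₁ ∧ C = range P₀ ∪ {P₁ 0} := by
  choose i₀ r₀ Φ₀ T₀ using exists_ltube h
  choose i₁ r₁ Φ₁ T₁ using exists_ltube h.swap
  have hinj : ∀ {α β : ι → M → ℂ} (h : Cono C U s g α β), Function.Injective (Pt h) := by
    intro α β h t t' htt
    obtain ⟨i, hi⟩ := h.cover _ (Pt_mem h t)
    have h1 := Pt_eq h t i hi
    have h2 := Pt_eq h t' i (by rw [← htt]; exact hi)
    rw [← htt, h1] at h2
    exact mul_right_cancel₀ (α_ne h t i hi) h2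
  have hglue : ∀ t, t ≠ 0 → Pt h.swap t⁻¹ = Pt h t := by
    intro t ht
    obtain ⟨i, hi⟩ := h.cover _ (Pt_mem h t)
    refine (Pt_unique h.swap (Pt_mem h t) hi ?_).symm
    rw [Pt_eq h t i hi]
    field_simp
  have hne : ∀ t, Pt h.swap 0 ≠ Pt h t := by
    intro t ht
    obtain ⟨i, hi⟩ := h.cover _ (Pt_mem h t)
    have h1 := Pt_eq h.swap 0 i (by rw [ht]; exact hi)
    rw [ht, zero_mul] at h1
    exact α_ne h t i hi h1
  refine ⟨Pt h, Pt h.swap, fun a => ball a (r₀ a), fun a => ball a (r₁ a), r₀, r₁, Φ₀, Φ₁,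
    ⟨hinj h, hinj h.swap, ⟨fun a => (T₀ a).tube h, fun a => mem_ball_self (T₀ a).pos, ?_⟩,
      ⟨fun a => (T₁ a).tube h.swap, fun a => mem_ball_self (T₁ a).pos, ?_⟩, hglue, hne, ?_⟩, ?_⟩
  · intro a b t hta htb
    exact rl_of h h (T₀ a) (T₀ b) hta htb continuousAt_id
      (Eventually.of_forall fun x => ⟨rfl, fun j _ => by ring⟩)
  · intro a b t hta htb
    exact rl_of h.swap h.swap (T₁ a) (T₁ b) hta htb continuousAt_id
      (Eventually.of_forall fun x => ⟨rfl, fun j _ => by ring⟩)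
  · intro a b t hta ht0 htb
    refine rl_of h h.swap (T₀ a) (T₁ b) hta htb (continuousAt_inv₀ ht0) ?_
    filter_upwards [isOpen_compl_singleton.mem_nhds ht0] with x hx
    exact ⟨hglue x hx, fun j hj => Pt_eq h x j hj⟩
  · ext q
    constructor
    · intro hq
      obtain ⟨i, hi⟩ := h.cover q hq
      by_cases h0 : α i q = 0
      · right
        refine Pt_unique h.swap hq hi ?_
        rw [h0, zero_mul]
      · left
        refine ⟨β i q / α i q, (Pt_unique h hq hi ?_).symm⟩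
        field_simp
    · rintro (⟨t, rfl⟩ | rfl)
      · exact Pt_mem h t
      · exact Pt_mem h.swap 0

end Crest.Agent.R275.Smp284
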