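import Crest.Agent.R275.YBG_812
import Crest.Agent.R275.CutZ_89

/-!
# R275, block D (helper89): cut-offs and the weighted complexes on `YBase`

* `cutG B h hdd s : Cut (cx h (hts B) hdd)` for every bundle `h : BGeo B.P E` on `B : YBase Y`:
  multiplication by `theta B.h s` (`0` for `h ≤ s`, `1` for `h ≥ s + 1`); relations for
  `t + 1 ≤ s`; `le_cut_sub` : the difference of two cut-offs lives on finitely many charts.
* `cutS B L hL s : Cut (cxY B L hL)`, `cutY B L hL := cutS B L hL 0`, `dolF`, `wY`.
-/

set_option autoImplicit false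
set_option linter.unusedSectionVars false

open Set Filter Topology Complex

namespace Crest.Agent.R275.CutB89

open Geo NAtl938 Core144 Base144 WY681 YBG812 Tor812 Q74 Lam2130 LauB681 GG89 WCxY89
open Fm96 hiding isLC
open CutY89 CutZ89 WY4193 Sup912 Crest.AlgGeometry.Surface
open KerV631 (BL isLC)

noncomputable section

/-! ### the difference of two cut-offs -/

section

variable {n : ℕ} {M : Type} [TopologicalSpace M] {A : Atl n M} {P : Part A} {Q : PNb P}
  {E : FBun A}





end

/-! ### cut-offs on `YBase` -/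

variable {Y : Type} [TopologicalSpace Y] [ChartedSpace C2 Y] (B : YBase Y)

section

variable {E : FBun B.N.sm} (h : BGeo B.P E) (hdd : ∀ u, nabL E (nabL E u) = 0)

/-- the cut-off function `θ(h - s)` on the charts -/
def cutFY (s : ℝ) : CutF B.P (hts B).ht (theta B.h s) := CutF.ofHD (hd B) B.smooth_sm s

theorem cutFY_T (s : ℝ) : 0 ≤ (cutFY B s).T := CutF.ofHD_T (hd B) B.smooth_sm s

/-- **the cut-off at the height `s`** for every bundle -/
def cutG (s : ℝ) : Cut (cx h (hts B) hdd) := cut h (hts B) hdd (cutFY B s) (cutFY_T B s)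



variable {s t : ℝ} (hst : t + 1 ≤ s)
include hst





end

section

variable {E : FBun B.N.sm} (h : BGeo B.P E) (hdd : ∀ u, nabL E (nabL E u) = 0)


end

/-! ### line bundles -/

variable (L : LB B.N.sm) (hL : BGeo B.P (BL L))

/-- the cut-off at the height `s` -/
def cutS (s : ℝ) : Cut (cxY B L hL) := cutG B hL (nabL_nabL B L) s

/-- **the cut-off** -/
def cutY : Cut (cxY B L hL) := cutS B L hL 0



/-- **the Dolbeault complex of a line bundle** -/
theorem dolF : DolF (isLC L) (F := wfY B L hL) (cxY B L hL) :=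
  CutZ89.dolF (hg := isLC L) hL (hts B) (nabL_nabL B L)



/-- **the weighted complex of a line bundle** -/
def wY : WCx ℂ (ZZ0 B.N.sm L.g) (ZZ1 B.N.sm L.g) (ZZ2 B.N.sm L.g) :=
  WCxY (dolF B L hL) (cutY B L hL)

@[simp] theorem wY_d₀ : (wY B L hL).d₀ = D0 (isLC L) := rfl
@[simp] theorem wY_d₁ : (wY B L hL).d₁ = D1 (isLC L) := rfl






end

end Crest.Agent.R275.CutB89
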