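import Crest.Agent.R275.TopK_106
import Mathlib.LinearAlgebra.FreeModule.PID
import Mathlib.LinearAlgebra.FreeModule.Finite.Basic
import Mathlib.LinearAlgebra.Dual.Lemmas
import Mathlib.RingTheory.Localization.Integer
import Mathlib.RingTheory.Noetherian.Basic
import Mathlib.Algebra.Module.Projective
import Mathlib.Data.Rat.Lemmas
import Mathlib.Algebra.Module.Torsion.Free

/-!
# R275, block K: homomorphisms `Z² → ℤ` killing coboundaries are evaluations on integral 2-cycles

* `exists_cycle_of_hom` (finite nerve).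
* `slab_dual`: for a finite set `T` of triples, finitely many integral cycles supported in `T`
  detect whether a cochain is torsion on `T`.
-/

set_option autoImplicit false
set_option linter.unusedSectionVars false

open Set

namespace Crest.Agent.R275.TopK106

noncomputable section

/-- a homomorphism on a subgroup with torsion-free quotient extends -/
theorem exists_extend_of_saturated {M : Type*} [AddCommGroup M] [Module.Finite ℤ M]
    (N : AddSubgroup M) (hN : ∀ (n : ℤ) (x : M), n ≠ 0 → n • x ∈ N → x ∈ N) (φ : N →+ ℤ) :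
    ∃ Φ : M →+ ℤ, ∀ x : N, Φ x = φ x := by
  let N' : Submodule ℤ M := AddSubgroup.toIntSubmodule N
  have htf : Module.IsTorsionFree ℤ (M ⧸ N') := by
    rw [Module.isTorsionFree_iff_smul_eq_zero]
    intro n x hx
    by_contra h
    push Not at h
    induction x using Submodule.Quotient.induction_on with
    | _ x =>
      rw [← Submodule.Quotient.mk_smul, Submodule.Quotient.mk_eq_zero] at hx
      exact h.2 ((Submodule.Quotient.mk_eq_zero _).2 (hN n x h.1 hx))
  have : Module.Free ℤ (M ⧸ N') := Module.free_of_finite_type_torsion_free'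
  obtain ⟨s, hs⟩ := Module.projective_lifting_property N'.mkQ LinearMap.id
    (Submodule.mkQ_surjective N')
  have hs' : ∀ y, N'.mkQ (s y) = y := fun y => LinearMap.congr_fun hs y
  have hmem : ∀ x : M, x - s (N'.mkQ x) ∈ N := by
    intro x
    have : x - s (N'.mkQ x) ∈ N' := by
      rw [← Submodule.Quotient.mk_eq_zero, ← Submodule.mkQ_apply, map_sub, hs', sub_self]
    exact this
  refine ⟨{
    toFun := fun x => φ ⟨x - s (N'.mkQ x), hmem x⟩
    map_zero' := by
      rw [← map_zero φ]
      congr 1
      ext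
      simp
    map_add' := fun x y => by
      rw [← map_add]
      congr 1
      ext
      simp only [map_add, AddSubgroup.coe_add]
      abel }, fun x => ?_⟩
  show φ ⟨(x : M) - s (N'.mkQ (x : M)), hmem x⟩ = φ x
  congr 1
  ext
  have : N'.mkQ (x : M) = 0 := by
    rw [Submodule.mkQ_apply, Submodule.Quotient.mk_eq_zero]
    exact x.2
  simp [this]

variable {V M : Type*} {U : V → Set M}

/-- indicator cochain -/
def ind3 [DecidableEq V] (t : V × V × V) : V → V → V → ℤ := fun i j k =>
  if (i, j, k) = t then 1 else 0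


theorem exists_cycle_of_hom [Finite V] (φ : Z2 U →+ ℤ) (hφ : ∀ x : Z2 U, IsB2 U x.1 → φ x = 0) :
    ∃ z : V × V × V →₀ ℤ, IsChain2 U z ∧ bdry2 z = 0 ∧ ∀ x : Z2 U, ev2 x.1 z = φ x := by
  classical
  have := Fintype.ofFinite V
  have hsat : ∀ (n : ℤ) (c : V → V → V → ℤ), n ≠ 0 → n • c ∈ Z2 U → c ∈ Z2 U := by
    intro n c hn hc i j k l hne
    have h1 := hc i j k l hne
    simp only [Pi.smul_apply, smul_eq_mul] at h1
    have h2 : n * (c j k l - c i k l + c i j l - c i j k) = 0 := by linarith
    exact (mul_eq_zero.1 h2).resolve_left hn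
  obtain ⟨Φ, hΦ⟩ := exists_extend_of_saturated (Z2 U) hsat φ
  have hΦ' : ∀ c (hc : IsZ2 U c), Φ c = φ ⟨c, hc⟩ := fun c hc => hΦ ⟨c, hc⟩
  let z : V × V × V →₀ ℤ := Finsupp.equivFunOnFinite.symm fun t => Φ (ind3 t)
  have hz : ∀ t, z t = Φ (ind3 t) := fun t => rfl
  have hev : ∀ c : V → V → V → ℤ, ev2 c z = Φ c := by
    intro c
    have h1 : c = ∑ t : V × V × V, c t.1 t.2.1 t.2.2 • ind3 t := by
      funext i j k
      simp only [Finset.sum_apply, Pi.smul_apply, smul_eq_mul, ind3]
      rw [Finset.sum_eq_single (i, j, k)]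
      · simp
      · intro b _ hb
        rw [if_neg (fun h => hb h.symm), mul_zero]
      · intro h
        exact absurd (Finset.mem_univ _) h
    conv_rhs => rw [h1]
    rw [map_sum]
    unfold ev2
    rw [Finsupp.sum_fintype _ _ (by simp)]
    refine Finset.sum_congr rfl fun t _ => ?_
    rw [hz, map_zsmul, smul_eq_mul, mul_comm]
  refine ⟨z, ?_, ?_, fun x => by rw [hev]; exact hΦ x⟩
  · intro t ht
    by_contra hne
    rw [Finsupp.mem_support_iff, hz] at ht
    apply ht
    have hB : IsB2 U (ind3 t) := by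
      refine ⟨0, fun i j k hn => ?_⟩
      simp only [ind3, Pi.zero_apply, sub_zero, add_zero]
      rw [if_neg]
      rintro rfl
      exact hne hn
    rw [hΦ' _ hB.isZ2]
    exact hφ _ hB
  · ext ⟨a, b⟩
    have h1 := ev2_d1 (fun i j => if (i, j) = (a, b) then (1 : ℤ) else 0) z
    rw [hev, hΦ' _ (isB2_d1 (U := U) _).isZ2, hφ _ (isB2_d1 _)] at h1
    rw [Finsupp.sum_fintype _ _ (by simp), Finset.sum_eq_single (a, b)] at h1
    · simpa using h1.symm
    · intro t _ ht
      rw [if_neg ht, mul_zero]
    · intro h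
      exact absurd (Finset.mem_univ _) h

/-- the boundary as a linear map -/
def bd : (V × V × V →₀ ℤ) →ₗ[ℤ] (V × V →₀ ℤ) :=
  Finsupp.lsum ℤ fun t => Finsupp.lsingle (t.2.1, t.2.2) - Finsupp.lsingle (t.1, t.2.2)
    + Finsupp.lsingle (t.1, t.2.1)






end

end Crest.Agent.R275.TopK106
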