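import Crest.Agent.R266.SCV

/-!
# R275, block M, leaf M2 (helper632): Cousin II on closed boxes, part 1

* `exists_log` : a nonvanishing holomorphic function on a convex open set has a holomorphic logarithm;
* `cR`, `cL`   : the two halves of the Cauchy integral over the boundary of a rectangle;
* `cR_add_cL`  : their sum is the function in the interior of the rectangle.
-/

set_option autoImplicit false
set_option linter.unusedSectionVars false

open Set Filter Topology Metric Complex MeasureTheory
open scoped Real ContDiff Interval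

noncomputable section

namespace Crest.Agent.R275.Cz1632

open Crest.Agent.R266.SCV

universe u

/-! ### logarithms -/

section log

variable {V : Type u} [NormedAddCommGroup V] [NormedSpace ℂ V]

/-- a nonvanishing holomorphic function on a convex open set has a holomorphic logarithm -/
theorem exists_log {W : Set V} (hW : Convex ℝ W) (hWo : IsOpen W) {g : V → ℂ}
    (hg : DifferentiableOn ℂ g W) (h0 : ∀ q ∈ W, g q ≠ 0) :
    ∃ v : V → ℂ, DifferentiableOn ℂ v W ∧ ∀ q ∈ W, exp (v q) = g q := by
  rcases W.eq_empty_or_nonempty with rfl | hne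
  · exact ⟨0, differentiableOn_const 0, by simp⟩
  have hsc : IsSimplyConnected W := by
    have := hW.contractibleSpace hne
    show SimplyConnectedSpace W
    infer_instance
  obtain ⟨v, hvc, hv⟩ := Complex.exists_continuousOn_eqOn_exp_comp hsc hWo hg.continuousOn
    (by rintro ⟨q, hq, h⟩; exact h0 q hq h)
  refine ⟨v, fun q hq => DifferentiableAt.differentiableWithinAt ?_, hv⟩
  have hva : ContinuousAt v q := hvc.continuousAt (hWo.mem_nhds hq)
  have h1 : ∀ᶠ w in 𝓝 q, ‖v w - v q‖ < 1 := by
    have h := (hva.sub (continuousAt_const (y := v q))).norm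
    have : Tendsto (fun w => ‖v w - v q‖) (𝓝 q) (𝓝 0) := by
      simpa [ContinuousAt] using h
    exact this.eventually (gt_mem_nhds one_pos)
  have h2 : v =ᶠ[𝓝 q] fun w => v q + Complex.log (g w * (g q)⁻¹) := by
    filter_upwards [h1, hWo.mem_nhds hq] with w hw hwW
    have h3 : g w * (g q)⁻¹ = exp (v w - v q) := by
      rw [Complex.exp_sub, ← hv hwW, ← hv hq]; rfl
    rw [h3, Complex.log_exp]
    · ring
    · have := (abs_im_le_norm (v w - v q)).trans_lt hw
      have := (abs_lt.1 this).1
      linarith [Real.pi_gt_three]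
    · have := (abs_im_le_norm (v w - v q)).trans_lt hw
      have := (abs_lt.1 this).2
      linarith [Real.pi_gt_three]
  refine DifferentiableAt.congr_of_eventuallyEq ?_ h2
  refine (differentiableAt_const _).add ?_
  refine DifferentiableAt.clog ?_ ?_
  · exact (hg.differentiableAt (hWo.mem_nhds hq)).mul_const _
  · rw [mul_inv_cancel₀ (h0 q hq)]
    exact one_mem_slitPlane

end log

/-! ### one variable: the rectangle formula -/

section one

/-- horizontal segment at height `c`, `x` from `a` to `b` -/
def hs (f : ℂ → ℂ) (c a b : ℝ) (z : ℂ) : ℂ := ∫ x in a..b, f (x + c * I) / ((x + c * I) - z)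

/-- vertical segment at abscissa `a`, `y` from `c` to `d` -/
def vs (f : ℂ → ℂ) (a c d : ℝ) (z : ℂ) : ℂ := ∫ y in c..d, f (a + y * I) / ((a + y * I) - z)

/-- right half of the boundary of `[a,b] × [c,d]` cut at `Re = t` -/
def oR (f : ℂ → ℂ) (t b c d : ℝ) (z : ℂ) : ℂ := hs f c t b z + I * vs f b c d z - hs f d t b z

/-- left half of the boundary of `[a,b] × [c,d]` cut at `Re = t` -/
def oL (f : ℂ → ℂ) (t a c d : ℝ) (z : ℂ) : ℂ := hs f c a t z - I * vs f a c d z - hs f d a t z

theorem int_inv_seg (p q : ℂ) (α β : ℝ) (ε : ℂ) (hε : ε ≠ 0)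
    (h : ∀ s ∈ [[α, β]], ε * (p + s * q) ∈ slitPlane) :
    ∫ s in α..β, q / (p + s * q) = log (ε * (p + β * q)) - log (ε * (p + α * q)) := by
  have key := intervalIntegral.integral_eq_sub_of_hasDerivAt (a := α) (b := β)
    (f := fun s : ℝ => log (ε * (p + s * q))) (f' := fun s : ℝ => q / (p + s * q)) ?_ ?_
  · exact key
  · intro s hs'
    have h1 : HasDerivAt (fun s : ℝ => ε * (p + s * q)) (ε * q) s := by
      have h2 : HasDerivAt (fun s : ℝ => (s : ℂ)) 1 s := ofRealCLM.hasDerivAt
      have h3 := ((h2.mul_const q).const_add p).const_mul ε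
      simpa using h3
    have h4 := h1.clog_real (h s hs')
    have h5 : p + s * q ≠ 0 := by
      intro h0
      have := h s hs'
      rw [h0, mul_zero] at this
      exact slitPlane_ne_zero this rfl
    exact h4.congr_deriv (mul_div_mul_left _ _ hε)
  · apply ContinuousOn.intervalIntegrable
    refine ContinuousOn.div (by fun_prop) (by fun_prop) ?_
    intro s hs' h0
    have := h s hs'
    rw [h0, mul_zero] at this
    exact slitPlane_ne_zero this rfl

variable {a b c d t : ℝ}

theorem log_sub_log_neg {w : ℂ} (h : 0 < w.im) : log w - log (-w) = π * I := by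
  rw [log, log, norm_neg, arg_neg_eq_arg_sub_pi_of_im_pos h]
  push_cast
  ring

theorem log_neg_sub_log {w : ℂ} (h : w.im < 0) : log (-w) - log w = π * I := by
  rw [log, log, norm_neg, arg_neg_eq_arg_add_pi_of_im_neg h]
  push_cast
  ring

/-- the winding number of the boundary of a rectangle -/
theorem wind {z : ℂ} (hz1 : z.re ∈ Ioo a b) (hz2 : z.im ∈ Ioo c d) :
    oR (fun _ => 1) t b c d z + oL (fun _ => 1) t a c d z = 2 * π * I := by
  have e1 : ∀ (h α β : ℝ) (ε : ℂ), ε ≠ 0 → (∀ s ∈ [[α, β]], ε * ((h * I - z) + s * 1) ∈ slitPlane) →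
      hs (fun _ => 1) h α β z = log (ε * ((h * I - z) + β * 1)) - log (ε * ((h * I - z) + α * 1)) := by
    intro h α β ε hε hh
    rw [← int_inv_seg _ _ _ _ _ hε hh, hs]
    refine intervalIntegral.integral_congr fun s _ => ?_
    show (1 : ℂ) / (s + h * I - z) = 1 / (h * I - z + s * 1)
    congr 1
    ring
  have e2 : ∀ (h α β : ℝ) (ε : ℂ), ε ≠ 0 → (∀ s ∈ [[α, β]], ε * ((h - z) + s * I) ∈ slitPlane) →
      I * vs (fun _ => 1) h α β z = log (ε * ((h - z) + β * I)) - log (ε * ((h - z) + α * I)) := by
    intro h α β ε hε hh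
    rw [← int_inv_seg _ _ _ _ _ hε hh, vs, ← intervalIntegral.integral_const_mul]
    refine intervalIntegral.integral_congr fun s _ => ?_
    show I * ((1 : ℂ) / (h + s * I - z)) = I / (h - z + s * I)
    rw [mul_one_div]
    congr 1
    ring
  unfold oR oL
  rw [e1 c t b 1 one_ne_zero (fun s _ => Or.inr (by simp; linarith [hz2.1])),
    e2 b c d 1 one_ne_zero (fun s _ => Or.inl (by simp; linarith [hz1.2])),
    e1 d t b 1 one_ne_zero (fun s _ => Or.inr (by simp; linarith [hz2.2])),
    e1 c a t (-1) (by norm_num) (fun s _ => Or.inr (by simp; linarith [hz2.1])),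
    e2 a c d (-1) (by norm_num) (fun s _ => Or.inl (by simp; linarith [hz1.1])),
    e1 d a t (-1) (by norm_num) (fun s _ => Or.inr (by simp; linarith [hz2.2]))]
  have h1 := log_sub_log_neg (w := (d * I - z) + t * 1) (by simp; linarith [hz2.2])
  have h2 := log_neg_sub_log (w := (c * I - z) + t * 1) (by simp; linarith [hz2.1])
  have f1 : ((b : ℂ) - z) + d * I = (d * I - z) + b * 1 := by ring
  have f2 : ((b : ℂ) - z) + c * I = (c * I - z) + b * 1 := by ring
  have f3 : ((a : ℂ) - z) + d * I = (d * I - z) + a * 1 := by ring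
  have f4 : ((a : ℂ) - z) + c * I = (c * I - z) + a * 1 := by ring
  rw [f1, f2, f3, f4]
  simp only [one_mul, neg_one_mul] at *
  linear_combination h1 + h2




end one

/-! ### with parameters -/

section param

variable {E : Type u} [NormedAddCommGroup E] [NormedSpace ℂ E] [FiniteDimensional ℂ E]



variable {v : ℂ × E → ℂ} {W : Set (ℂ × E)} {B : Set E} {a b c d t : ℝ}






end param

end Crest.Agent.R275.Cz1632
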