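import Crest.Agent.R275.ZC4_352
import Mathlib
import Crest.Prelude.Def_ComplexSurface

-- ▼ part R275/ZC5_352
section

/-! R275, block ZC (helper352), file 5: cocycles and concatenation of paths, groups of periods,
boundedness of denominators on compact spaces. -/

set_option autoImplicit false

open Topology Set Filter

local notation "I" => unitInterval

namespace Crest.Agent.R275.ZC352

noncomputable section

/-! ### coordinates of faces -/

theorem face_apply (n : ℕ) (i : Fin (n + 2)) (x : Dn n) (j : Fin (n + 2)) :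
    face n i x j = ∑ l, if i.succAbove l = j then x l else 0 := by
  change FunOnFinite.linearMap ℝ ℝ i.succAbove (x : Fin (n + 1) → ℝ) j = _
  rw [FunOnFinite.linearMap_apply_apply, Finset.sum_filter]

theorem face_1_0_coord (x : Dn 1) :
    face 1 0 x 0 = 0 ∧ face 1 0 x 1 = x 0 ∧ face 1 0 x 2 = x 1 := by
  refine ⟨?_, ?_, ?_⟩ <;> rw [face_apply, Fin.sum_univ_two] <;> simp [Fin.succAbove]

theorem face_1_1_coord (x : Dn 1) :
    face 1 1 x 0 = x 0 ∧ face 1 1 x 1 = 0 ∧ face 1 1 x 2 = x 1 := by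
  refine ⟨?_, ?_, ?_⟩ <;> rw [face_apply, Fin.sum_univ_two] <;> simp [Fin.succAbove]

theorem face_1_2_coord (x : Dn 1) :
    face 1 2 x 0 = x 0 ∧ face 1 2 x 1 = x 1 ∧ face 1 2 x 2 = 0 := by
  refine ⟨?_, ?_, ?_⟩ <;> rw [face_apply, Fin.sum_univ_two] <;> simp [Fin.succAbove]

variable {X : Type} [TopologicalSpace X] {A : Type} [AddCommGroup A]

theorem sd_apply {x y : X} (γ : Path x y) (t : Dn 1) (s : I) (h : (s : ℝ) = t 1) :
    sd γ t = γ s := by
  change γ (stdSimplexHomeomorphUnitInterval t) = γ s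
  congr 1
  exact Subtype.ext h.symm

/-- a cocycle vanishes on constant simplices -/
theorem IsCoc.const {φ : C(Dn 1, X) → A} (h : IsCoc φ) (x : X) :
    φ (ContinuousMap.const _ x) = 0 := by
  have h1 := h (ContinuousMap.const _ x)
  have h2 : ∀ i, (ContinuousMap.const (Dn 2) x).comp (face 1 i) = ContinuousMap.const _ x :=
    fun i => rfl
  rw [h2, h2, h2, sub_self, zero_add] at h1
  exact h1

/-- a map from the triangle to the interval -/
def triI (a b : ℝ) (ha : a ∈ I) (hb : b ∈ I) : C(Dn 2, I) :=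
  ⟨fun t => ⟨a * t 1 + b * t 2, by
      have h0 := t.2.1 0
      have h1 := t.2.1 1
      have h2 := t.2.1 2
      have h3 : t 0 + t 1 + t 2 = 1 := by
        have := t.2.2
        rw [Fin.sum_univ_three] at this
        exact this
      change (0 : ℝ) ≤ t 0 at h0
      change (0 : ℝ) ≤ t 1 at h1
      change (0 : ℝ) ≤ t 2 at h2
      constructor
      · have := mul_nonneg ha.1 h1
        have := mul_nonneg hb.1 h2
        linarith
      · have := mul_le_of_le_one_left h1 ha.2
        have := mul_le_of_le_one_left h2 hb.2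
        linarith⟩, by
    apply Continuous.subtype_mk
    have h1 : Continuous fun t : Dn 2 => t 1 := (continuous_apply 1).comp continuous_subtype_val
    have h2 : Continuous fun t : Dn 2 => t 2 := (continuous_apply 2).comp continuous_subtype_val
    exact (continuous_const.mul h1).add (continuous_const.mul h2)⟩

theorem triI_coe (a b : ℝ) (ha : a ∈ I) (hb : b ∈ I) (t : Dn 2) :
    (triI a b ha hb t : ℝ) = a * t 1 + b * t 2 := rfl

theorem Dn1_sum (x : Dn 1) : x 0 + x 1 = 1 := by
  have := x.2.2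
  rw [Fin.sum_univ_two] at this
  exact this

theorem Dn1_nonneg (x : Dn 1) (i : Fin 2) : 0 ≤ x i := x.2.1 i

theorem half_mem : (1 / 2 : ℝ) ∈ I := by constructor <;> norm_num

theorem IsCoc.trans {φ : C(Dn 1, X) → A} (h : IsCoc φ) {x y z : X} (γ : Path x y)
    (γ' : Path y z) : φ (sd (γ.trans γ')) = φ (sd γ) + φ (sd γ') := by
  let t : C(Dn 2, X) := (γ.trans γ').toContinuousMap.comp
    (triI (1 / 2) 1 half_mem unitInterval.one_mem)
  have h1 := h t
  have e0 : t.comp (face 1 0) = sd γ' := by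
    ext s
    have hs := face_1_0_coord s
    have h2 := Dn1_sum s
    have h3 := Dn1_nonneg s 1
    have h4 := Dn1_nonneg s 0
    rw [sd_apply γ' s ⟨s 1, h3, by linarith⟩ rfl]
    change (γ.trans γ') (triI (1 / 2) 1 half_mem unitInterval.one_mem (face 1 0 s)) = _
    rw [Path.trans_apply]
    have h5 : (triI (1 / 2) 1 half_mem unitInterval.one_mem (face 1 0 s) : ℝ) =
        1 / 2 + s 1 / 2 := by
      rw [triI_coe, hs.2.1, hs.2.2]
      linarith
    by_cases h6 : s 1 = 0
    · rw [dif_pos (by rw [h5, h6]; norm_num)]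
      have e1 : ∀ u : I, (u : ℝ) = 1 → γ u = y := by
        intro u hu
        have : u = 1 := Subtype.ext hu
        rw [this, γ.target]
      have e2 : ∀ u : I, (u : ℝ) = 0 → γ' u = y := by
        intro u hu
        have : u = 0 := Subtype.ext hu
        rw [this, γ'.source]
      rw [e1 _ (by change 2 * _ = (1 : ℝ); rw [h5, h6]; norm_num), e2 _ h6]
    · rw [dif_neg (by
        rw [h5, not_le]
        have : 0 < s 1 := lt_of_le_of_ne h3 (Ne.symm h6)
        linarith)]
      congr 1
      apply Subtype.ext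
      change 2 * _ - 1 = s 1
      rw [h5]
      ring
  have e1 : t.comp (face 1 1) = sd (γ.trans γ') := by
    ext s
    have hs := face_1_1_coord s
    rw [sd_apply (γ.trans γ') s _ _]
    · rfl
    · change (triI (1 / 2) 1 half_mem unitInterval.one_mem (face 1 1 s) : ℝ) = s 1
      rw [triI_coe, hs.2.1, hs.2.2]
      ring
  have e2 : t.comp (face 1 2) = sd γ := by
    ext s
    have hs := face_1_2_coord s
    have h2 := Dn1_sum s
    have h3 := Dn1_nonneg s 1
    have h4 := Dn1_nonneg s 0
    rw [sd_apply γ s ⟨s 1, h3, by linarith⟩ rfl]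
    change (γ.trans γ') (triI (1 / 2) 1 half_mem unitInterval.one_mem (face 1 2 s)) = _
    rw [Path.trans_apply]
    have h5 : (triI (1 / 2) 1 half_mem unitInterval.one_mem (face 1 2 s) : ℝ) = s 1 / 2 := by
      rw [triI_coe, hs.2.1, hs.2.2]
      ring
    rw [dif_pos (by rw [h5]; linarith)]
    congr 1
    apply Subtype.ext
    change 2 * _ = s 1
    rw [h5]
    ring
  rw [e0, e1, e2] at h1
  have h7 : φ (sd (γ.trans γ')) = φ (sd γ') + φ (sd γ) := by
    have := sub_eq_zero.1 (show (φ (sd γ') + φ (sd γ)) - φ (sd (γ.trans γ')) = 0 by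
      rw [← h1]; abel)
    exact this.symm
  rw [h7, add_comm]

theorem IsCoc.symm {φ : C(Dn 1, X) → A} (h : IsCoc φ) {x y : X} (γ : Path x y) :
    φ (sd γ.symm) = - φ (sd γ) := by
  let t : C(Dn 2, X) := γ.toContinuousMap.comp
    (triI 1 0 unitInterval.one_mem unitInterval.zero_mem)
  have h1 := h t
  have e0 : t.comp (face 1 0) = sd γ.symm := by
    ext s
    have hs := face_1_0_coord s
    have h2 := Dn1_sum s
    have h3 := Dn1_nonneg s 1
    have h4 := Dn1_nonneg s 0
    rw [sd_apply γ.symm s ⟨s 1, h3, by linarith⟩ rfl]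
    change γ (triI 1 0 unitInterval.one_mem unitInterval.zero_mem (face 1 0 s)) =
      γ (unitInterval.symm _)
    congr 1
    apply Subtype.ext
    rw [triI_coe, hs.2.1, hs.2.2]
    change 1 * s 0 + 0 * s 1 = 1 - s 1
    linarith
  have e1 : t.comp (face 1 1) = ContinuousMap.const _ x := by
    ext s
    have hs := face_1_1_coord s
    change γ (triI 1 0 unitInterval.one_mem unitInterval.zero_mem (face 1 1 s)) = x
    have : triI 1 0 unitInterval.one_mem unitInterval.zero_mem (face 1 1 s) = 0 := by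
      apply Subtype.ext
      rw [triI_coe, hs.2.1, hs.2.2]
      change 1 * 0 + 0 * s 1 = (0 : ℝ)
      ring
    rw [this, γ.source]
  have e2 : t.comp (face 1 2) = sd γ := by
    ext s
    have hs := face_1_2_coord s
    rw [sd_apply γ s _ _]
    · rfl
    · change (triI 1 0 unitInterval.one_mem unitInterval.zero_mem (face 1 2 s) : ℝ) = s 1
      rw [triI_coe, hs.2.1, hs.2.2]
      ring
  rw [e0, e1, e2, h.const, sub_zero] at h1
  exact eq_neg_of_add_eq_zero_left h1

theorem sd_refl (x : X) : sd (Path.refl x) = ContinuousMap.const _ x := rfl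

/-! ### periods -/

/-- group of periods of a cocycle -/
def periods {φ : C(Dn 1, X) → A} (h : IsCoc φ) (x₀ : X) : AddSubgroup A where
  carrier := {a | ∃ γ : Path x₀ x₀, φ (sd γ) = a}
  zero_mem' := ⟨Path.refl x₀, by rw [sd_refl]; exact h.const x₀⟩
  add_mem' := by
    rintro a b ⟨γ, rfl⟩ ⟨γ', rfl⟩
    exact ⟨γ.trans γ', h.trans γ γ'⟩
  neg_mem' := by
    rintro a ⟨γ, rfl⟩
    exact ⟨γ.symm, h.symm γ⟩


/-- path of a simplex -/
def ofSd (σ : C(Dn 1, X)) : Path (σ (vx 1 0)) (σ (vx 1 1)) where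
  toFun t := σ (stdSimplexHomeomorphUnitInterval.symm t)
  continuous_toFun := σ.continuous.comp stdSimplexHomeomorphUnitInterval.symm.continuous
  source' := by
    congr 1
    exact (Homeomorph.symm_apply_eq _).2 rfl
  target' := by
    congr 1
    exact (Homeomorph.symm_apply_eq _).2 rfl

theorem sd_ofSd (σ : C(Dn 1, X)) : sd (ofSd σ) = σ := by
  ext t
  change σ (stdSimplexHomeomorphUnitInterval.symm (stdSimplexHomeomorphUnitInterval t)) = σ t
  rw [Homeomorph.symm_apply_apply]

/-- modulo its periods a cocycle is exact -/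
theorem exists_prim_mod_periods [PathConnectedSpace X] {φ : C(Dn 1, X) → A} (h : IsCoc φ)
    (x₀ : X) : ∃ f : X → A, (∀ γ : Path x₀ x₀, f x₀ ∈ periods h x₀) ∧
      ∀ σ : C(Dn 1, X), φ σ - (f (σ (vx 1 1)) - f (σ (vx 1 0))) ∈ periods h x₀ := by
  let p : ∀ x : X, Path x₀ x := fun x => PathConnectedSpace.somePath x₀ x
  refine ⟨fun x => φ (sd (p x)), fun _ => ⟨p x₀, rfl⟩, fun σ => ?_⟩
  refine ⟨((p _).trans (ofSd σ)).trans (p _).symm, ?_⟩
  rw [h.trans, h.trans, h.symm, sd_ofSd]
  abel

theorem isExact_of_periods_eq_bot [PathConnectedSpace X] {φ : C(Dn 1, X) → A} (h : IsCoc φ)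
    (x₀ : X) (hb : periods h x₀ = ⊥) : IsExact φ := by
  obtain ⟨f, -, hf⟩ := exists_prim_mod_periods h x₀
  refine ⟨f, fun σ => ?_⟩
  have := hf σ
  rw [hb, AddSubgroup.mem_bot, sub_eq_zero] at this
  exact this

theorem IsCoc.map {B : Type} [AddCommGroup B] {φ : C(Dn 1, X) → A} (h : IsCoc φ) (f : A →+ B) :
    IsCoc (fun σ => f (φ σ)) := by
  intro t
  rw [← map_sub, ← map_add, h t, map_zero]

/-! ### bounded denominators -/

theorem exists_common_den {s : Set ℚ} (hs : s.Finite) :
    ∃ D : ℕ, 0 < D ∧ ∀ q ∈ s, ∃ n : ℤ, (D : ℚ) * q = n := by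
  classical
  refine ⟨∏ q ∈ hs.toFinset, q.den, Finset.prod_pos fun q _ => q.pos, fun q hq => ?_⟩
  obtain ⟨c, hc⟩ := Finset.dvd_prod_of_mem (fun q : ℚ => q.den) (hs.mem_toFinset.2 hq)
  refine ⟨c * q.num, ?_⟩
  rw [hc]
  push_cast
  have := Rat.mul_den_eq_num q
  calc (q.den : ℚ) * c * q = c * (q * q.den) := by ring
    _ = c * q.num := by rw [this]

theorem finite_image_of_locallyConstantOn {f : X → ℚ} {K : Set X} (hK : IsCompact K)
    (hf : ∀ x ∈ K, ∀ᶠ y in 𝓝 x, f y = f x) : (f '' K).Finite := by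
  refine hK.induction_on (p := fun K => (f '' K).Finite) (by simp) ?_ ?_ ?_
  · intro s t hst ht
    exact ht.subset (image_mono hst)
  · intro s t hs ht
    rw [image_union]
    exact hs.union ht
  · intro x hx
    refine ⟨{y | f y = f x}, mem_nhdsWithin_of_mem_nhds (hf x hx), ?_⟩
    refine (finite_singleton (f x)).subset ?_
    rintro _ ⟨y, hy, rfl⟩
    exact hy

/-- **bounded denominators** -/
theorem exists_den [CompactSpace X] [T2Space X] (P : LPS X ℚ) :
    ∃ D : ℕ, 0 < D ∧ ∃ G : X → ℚ, ∀ σ : C(Dn 1, X), ∃ n : ℤ,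
      (D : ℚ) * (P.vary σ - (G (σ (vx 1 1)) - G (σ (vx 1 0)))) = n := by
  classical
  -- shrink the cover
  choose i hi using P.cover
  have h1 : ∀ x, ∃ V : Set X, IsOpen V ∧ x ∈ V ∧ closure V ⊆ P.U (i x) := by
    intro x
    obtain ⟨V, hV, hVc, hVU⟩ := exists_mem_nhds_isClosed_subset ((P.isOpen (i x)).mem_nhds (hi x))
    obtain ⟨W, hWV, hW, hxW⟩ := mem_nhds_iff.1 hV
    exact ⟨W, hW, hxW, (closure_minimal hWV hVc).trans hVU⟩
  choose V hV hxV hVU using h1
  obtain ⟨t, ht⟩ := isCompact_univ.elim_finite_subcover V hV (fun x _ => mem_iUnion.2 ⟨x, hxV x⟩)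
  have hcov : ∀ x : X, ∃ c ∈ t, x ∈ V c := by
    intro x
    have := ht (mem_univ x)
    simpa using this
  choose c hct hxc using hcov
  -- common denominator
  have hfin : (⋃ a ∈ t, ⋃ b ∈ t, (fun x => P.h (i a) x - P.h (i b) x) ''
      (closure (V a) ∩ closure (V b))).Finite := by
    refine t.finite_toSet.biUnion fun a _ => t.finite_toSet.biUnion fun b _ => ?_
    refine finite_image_of_locallyConstantOn
      ((isClosed_closure.inter isClosed_closure).isCompact) ?_
    rintro x ⟨hxa, hxb⟩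
    exact P.loc (i a) (i b) x (hVU a hxa) (hVU b hxb)
  obtain ⟨D, hD, hDq⟩ := exists_common_den hfin
  refine ⟨D, hD, fun x => P.h (i (c x)) x, fun σ => ?_⟩
  -- work modulo integers
  let Zq : AddSubgroup ℚ := (Int.castAddHom ℚ).range
  let m : ℚ →+ (ℚ ⧸ Zq) := (QuotientAddGroup.mk' Zq).comp (AddMonoidHom.mulLeft (D : ℚ))
  have hm : ∀ q : ℚ, m q = 0 ↔ ∃ n : ℤ, (D : ℚ) * q = n := by
    intro q
    change (QuotientAddGroup.mk' Zq) ((D : ℚ) * q) = 0 ↔ _
    rw [QuotientAddGroup.mk'_apply, QuotientAddGroup.eq_zero_iff]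
    constructor
    · rintro ⟨n, hn⟩
      exact ⟨n, hn.symm⟩
    · rintro ⟨n, hn⟩
      exact ⟨n, hn.symm⟩
  have hprim : (P.map m).IsPrim (fun x => m (P.h (i (c x)) x)) := by
    apply LPS.isPrim_of_exists
    intro z
    refine ⟨i (c z), hVU (c z) (subset_closure (hxc z)), ?_⟩
    filter_upwards [(hV (c z)).mem_nhds (hxc z)] with w hw
    change m (P.h (i (c w)) w) - m (P.h (i (c z)) z) = m (P.h (i (c z)) w) - m (P.h (i (c z)) z)
    congr 1
    rw [← sub_eq_zero, ← map_sub, hm]
    apply hDq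
    simp only [mem_iUnion]
    exact ⟨c w, hct w, c z, hct z, w, ⟨subset_closure (hxc w), subset_closure hw⟩, rfl⟩
  have h2 := (P.map m).vary_of_isPrim hprim σ
  rw [LPS.vary_map] at h2
  rw [← hm, map_sub, map_sub, h2, sub_self]

/-- additive subgroups of `ℚ` with bounded denominators are cyclic -/
theorem exists_zmultiples {H : AddSubgroup ℚ} {D : ℕ} (hD : 0 < D)
    (h : ∀ q ∈ H, ∃ n : ℤ, (D : ℚ) * q = n) : ∃ r : ℚ, H = AddSubgroup.zmultiples r := by
  have hD' : (D : ℚ) ≠ 0 := by exact_mod_cast hD.ne'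
  let f : ℤ →+ ℚ := (AddMonoidHom.mulLeft ((D : ℚ)⁻¹)).comp (Int.castAddHom ℚ)
  have hf : ∀ n : ℤ, f n = (D : ℚ)⁻¹ * n := fun n => rfl
  obtain ⟨a, ha⟩ := Int.subgroup_cyclic (H.comap f)
  refine ⟨f a, ?_⟩
  ext q
  constructor
  · intro hq
    obtain ⟨n, hn⟩ := h q hq
    have h1 : f n = q := by
      rw [hf, ← hn, inv_mul_cancel_left₀ hD']
    have h2 : n ∈ H.comap f := by
      rw [AddSubgroup.mem_comap, h1]
      exact hq
    rw [ha, ← AddSubgroup.zmultiples_eq_closure] at h2
    obtain ⟨k, hk⟩ := h2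
    refine ⟨k, ?_⟩
    have hk' : k • a = n := hk
    change k • f a = q
    rw [← h1, ← hk', map_zsmul]
  · rintro ⟨k, rfl⟩
    change k • f a ∈ H
    apply H.zsmul_mem
    have : a ∈ H.comap f := by
      rw [ha]
      exact AddSubgroup.subset_closure rfl
    exact this

end

end Crest.Agent.R275.ZC352
end

-- ▼ part R275/ZC6_352
section

/-! R275, block ZC (helper352), file 6: the normalised smooth local primitive system of a compact
connected complex manifold with `dim H₁(X; ℚ) = 1`. -/

set_option autoImplicit false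

open Topology Set Filter
open scoped Manifold ContDiff

namespace Crest.Agent.R275.ZC352

noncomputable section

section charts

theorem exists_contractible_nhd (E : Type) [NormedAddCommGroup E] [NormedSpace ℝ E]
    {X : Type} [TopologicalSpace X] [ChartedSpace E X] (x : X) :
    ∃ U : Set X, IsOpen U ∧ x ∈ U ∧ ContractibleSpace U := by
  let e := chartAt E x
  obtain ⟨r, hr, hb⟩ := Metric.isOpen_iff.1 e.open_target (e x) (mem_chart_target E x)
  let e' := e.symm.restrOpen (Metric.ball (e x) r) Metric.isOpen_ball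
  have hs : e'.source = Metric.ball (e x) r := by
    rw [OpenPartialHomeomorph.restrOpen_source]
    exact inter_eq_right.2 hb
  refine ⟨e'.target, e'.open_target, ?_, ?_⟩
  · have h1 : e' (e x) ∈ e'.target := e'.map_source (by
      rw [hs]; exact Metric.mem_ball_self hr)
    have h2 : e' (e x) = x := e.left_inv (mem_chart_source E x)
    rwa [h2] at h1
  · have h3 : ContractibleSpace (Metric.ball (e x) r) := Metric.contractibleSpace_ball hr
    have h4 : ContractibleSpace e'.source := by rw [hs]; exact h3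
    exact e'.toHomeomorphSourceTarget.symm.contractibleSpace

end charts

section main

variable {X : Type} [TopologicalSpace X]

/-- universal property of a real cocycle -/
def IsUniv (φ : C(Dn 1, X) → ℝ) : Prop :=
  ∀ (V : Type) [AddCommGroup V] [Module ℝ V] (ψ : C(Dn 1, X) → V), IsCoc ψ →
    ∃ (v : V) (f : X → V), ∀ σ, ψ σ = φ σ • v + (f (σ (vx 1 1)) - f (σ (vx 1 0)))

/-- the normalised rational cocycle -/
theorem exists_integral [CompactSpace X] [T2Space X] [PathConnectedSpace X]
    [LocallyPathConnectedSpace X]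
    (hc : ∀ x : X, ∃ U : Set X, IsOpen U ∧ x ∈ U ∧ ContractibleSpace U)
    (h : Module.finrank ℚ (SH ℚ 1 X) = 1) :
    ∃ P : LPS X ℝ, (∀ (x₀ : X) (a : ℝ), (∃ γ : Path x₀ x₀, P.vary (sd γ) = a) ↔
      ∃ n : ℤ, (n : ℝ) = a) ∧ IsUniv P.vary := by
  obtain ⟨φ, hφ, hne, huniv⟩ := exists_cocycle_of_finrank h
  choose U hU hxU hcU using hc
  obtain ⟨P, -, -, hPφ⟩ := exists_LPS U hU hxU hcU hφ
  obtain ⟨D, hD, G, hG⟩ := exists_den P
  have hden : ∀ x₀ : X, ∀ q ∈ periods hφ x₀, ∃ n : ℤ, (D : ℚ) * q = n := by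
    rintro x₀ q ⟨γ, rfl⟩
    obtain ⟨n, hn⟩ := hG (sd γ)
    refine ⟨n, ?_⟩
    rw [hPφ, sd_zero, sd_one, sub_self, sub_zero] at hn
    exact hn
  obtain ⟨x₁⟩ : Nonempty X := inferInstance
  obtain ⟨r, hr⟩ := exists_zmultiples hD (hden x₁)
  have hr0 : r ≠ 0 := by
    rintro rfl
    apply hne
    apply isExact_of_periods_eq_bot hφ x₁
    rw [hr, AddSubgroup.zmultiples_zero_eq_bot]
  -- periods at another base point
  have hper : ∀ x₀ : X, periods hφ x₀ = periods hφ x₁ := by
    have key : ∀ x y : X, periods hφ x ≤ periods hφ y := by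
      rintro x y _ ⟨γ, rfl⟩
      let p : Path y x := PathConnectedSpace.somePath y x
      refine ⟨(p.trans γ).trans p.symm, ?_⟩
      rw [hφ.trans, hφ.trans, hφ.symm]
      abel
    intro x₀
    exact le_antisymm (key _ _) (key _ _)
  let m : ℚ →+ ℝ := ((Rat.castHom ℝ).toAddMonoidHom).comp (AddMonoidHom.mulLeft r⁻¹)
  have hm : ∀ q : ℚ, m q = (r : ℝ)⁻¹ * (q : ℝ) := by
    intro q
    change ((r⁻¹ * q : ℚ) : ℝ) = _
    push_cast
    rfl
  have hr0' : (r : ℝ) ≠ 0 := by exact_mod_cast hr0
  have hPv : ∀ σ, (P.map m).vary σ = (r : ℝ)⁻¹ * (φ σ : ℝ) := by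
    intro σ
    rw [LPS.vary_map, hPφ, hm]
  refine ⟨P.map m, fun x₀ a => ?_, ?_⟩
  · constructor
    · rintro ⟨γ, rfl⟩
      have h1 : φ (sd γ) ∈ periods hφ x₀ := ⟨γ, rfl⟩
      rw [hper, hr] at h1
      obtain ⟨n, hn⟩ := h1
      refine ⟨n, ?_⟩
      have hn' : (n : ℚ) * r = φ (sd γ) := by
        rw [← hn]
        simp
      rw [hPv, ← hn']
      push_cast
      field_simp
    · rintro ⟨n, rfl⟩
      have h1 : n • r ∈ periods hφ x₀ := by
        rw [hper, hr]
        exact ⟨n, rfl⟩
      obtain ⟨γ, hγ⟩ := h1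
      refine ⟨γ, ?_⟩
      rw [hPv, hγ]
      push_cast [zsmul_eq_mul]
      field_simp
  · intro V _ _ ψ hψ
    let _ : Module ℚ V := Module.compHom V (algebraMap ℚ ℝ)
    obtain ⟨v, f, hf⟩ := huniv V ψ hψ
    refine ⟨(r : ℝ) • v, f, fun σ => ?_⟩
    rw [hf σ, hPv]
    congr 1
    change ((φ σ : ℚ) : ℝ) • v = _
    rw [smul_smul]
    congr 1
    field_simp

end main

section manifold

variable {E : Type} [NormedAddCommGroup E] [NormedSpace ℂ E] [FiniteDimensional ℂ E]
  {X : Type} [TopologicalSpace X] [ChartedSpace E X] [IsManifold 𝓘(ℂ, E) 1 X]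
  [T2Space X] [CompactSpace X] [ConnectedSpace X]

/-- **The normalised smooth local primitive system.** -/
theorem exists_smooth_LPS (h : Module.finrank ℚ (SH ℚ 1 X) = 1) :
    ∃ P : LPS X ℝ, (∀ i, ∀ x ∈ P.U i, ContMDiffAt 𝓘(ℝ, E) 𝓘(ℝ, ℝ) ∞ (P.h i) x) ∧
      (∀ (x₀ : X) (a : ℝ), (∃ γ : Path x₀ x₀, P.vary (sd γ) = a) ↔ ∃ n : ℤ, (n : ℝ) = a) ∧
      IsUniv P.vary := by
  have hl : LocallyPathConnectedSpace X := ChartedSpace.locallyPathConnectedSpace E X
  have hp : PathConnectedSpace X := pathConnectedSpace_iff_connectedSpace.2 inferInstance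
  have hman : IsManifold 𝓘(ℝ, E) ∞ X := isManifold_real
  have hfd : FiniteDimensional ℝ E := FiniteDimensional.complexToReal E
  obtain ⟨P, hP1, hP2⟩ := exists_integral (X := X)
    (fun x => exists_contractible_nhd E x) h
  obtain ⟨S, hS⟩ := P.exists_smoothing (E := E)
  refine ⟨P.shift S, hS, fun x₀ a => ?_, ?_⟩
  · rw [← hP1 x₀ a]
    constructor
    · rintro ⟨γ, rfl⟩
      refine ⟨γ, ?_⟩
      rw [LPS.vary_shift, sd_zero, sd_one, sub_self, sub_zero]
    · rintro ⟨γ, rfl⟩
      refine ⟨γ, ?_⟩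
      rw [LPS.vary_shift, sd_zero, sd_one, sub_self, sub_zero]
  · intro V _ _ ψ hψ
    obtain ⟨v, f, hf⟩ := hP2 V ψ hψ
    refine ⟨v, fun x => f x + S x • v, fun σ => ?_⟩
    rw [hf σ, LPS.vary_shift]
    beta_reduce
    module

end manifold

end

end Crest.Agent.R275.ZC352
end

-- ▼ part R275/ZC7_352
section

/-! R275, block ZC (helper352), file 7: pulling back charted spaces and manifold structures along a
local homeomorphism; fibre products with a local homeomorphism. -/

set_option autoImplicit false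
set_option linter.unusedSectionVars false
set_option linter.style.haveILetI false

open Topology Set Filter
open scoped Manifold ContDiff

namespace Crest.Agent.R275.ZC352

noncomputable section

section charted

variable {H : Type} [TopologicalSpace H] {M Y : Type} [TopologicalSpace M] [TopologicalSpace Y]
  [ChartedSpace H M] {p : Y → M}

/-- a local inverse of a local homeomorphism -/
def lh (hp : IsLocalHomeomorph p) (y : Y) : OpenPartialHomeomorph Y M := (hp y).choose

theorem lh_mem (hp : IsLocalHomeomorph p) (y : Y) : y ∈ (lh hp y).source :=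
  (hp y).choose_spec.1

theorem lh_apply (hp : IsLocalHomeomorph p) (y z : Y) : lh hp y z = p z :=
  (congrFun (hp y).choose_spec.2 z).symm

/-- the charts of `Y` -/
@[reducible] def pullCharted (hp : IsLocalHomeomorph p) : ChartedSpace H Y where
  atlas := {e | ∃ y : Y, ∃ c ∈ atlas H M, e = (lh hp y).trans c}
  chartAt y := (lh hp y).trans (chartAt H (p y))
  mem_chart_source y := by
    rw [OpenPartialHomeomorph.trans_source]
    refine ⟨lh_mem hp y, ?_⟩
    rw [mem_preimage, lh_apply]
    exact mem_chart_source H (p y)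
  chart_mem_atlas y := ⟨y, chartAt H (p y), chart_mem_atlas H (p y), rfl⟩

/-- transition maps upstairs are restrictions of transition maps downstairs -/
theorem pull_transition (hp : IsLocalHomeomorph p) (y y' : Y) (c c' : OpenPartialHomeomorph M H) :
    (((lh hp y).trans c).symm.trans ((lh hp y').trans c')) ≈
      (c.symm.trans c').restr (((lh hp y).trans c).symm.trans ((lh hp y').trans c')).source := by
  refine ⟨?_, ?_⟩
  · rw [OpenPartialHomeomorph.restr_source, (OpenPartialHomeomorph.open_source _).interior_eq]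
    apply Eq.symm
    apply inter_eq_right.2
    intro z hz
    have h1 := hz
    simp only [OpenPartialHomeomorph.trans_source, OpenPartialHomeomorph.symm_source,
      OpenPartialHomeomorph.trans_target, mem_inter_iff, mem_preimage,
      OpenPartialHomeomorph.coe_trans_symm, Function.comp_apply] at h1 ⊢
    refine ⟨h1.1.1, ?_⟩
    have h3 := h1.2.2
    rw [lh_apply] at h3
    have h4 : p ((lh hp y).symm (c.symm z)) = c.symm z := by
      rw [← lh_apply hp y, (lh hp y).right_inv h1.1.2]
    rwa [h4] at h3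
  · intro z hz
    simp only [OpenPartialHomeomorph.trans_source, OpenPartialHomeomorph.symm_source,
      OpenPartialHomeomorph.trans_target, mem_inter_iff, mem_preimage,
      OpenPartialHomeomorph.coe_trans_symm, Function.comp_apply] at hz
    change c' (lh hp y' ((lh hp y).symm (c.symm z))) = c' (c.symm z)
    rw [lh_apply, ← lh_apply hp y, (lh hp y).right_inv hz.1.2]

theorem pull_hasGroupoid (hp : IsLocalHomeomorph p) (G : StructureGroupoid H)
    [ClosedUnderRestriction G] [HasGroupoid M G] :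
    @HasGroupoid H _ Y _ (pullCharted hp) G := by
  letI := pullCharted (H := H) hp
  refine ⟨?_⟩
  rintro _ _ ⟨y, c, hc, rfl⟩ ⟨y', c', hc', rfl⟩
  refine G.mem_of_eqOnSource ?_ (pull_transition hp y y' c c')
  exact closedUnderRestriction' (G.compatible hc hc') (OpenPartialHomeomorph.open_source _)

end charted

section manifold

variable {𝕜 : Type} [NontriviallyNormedField 𝕜] {E : Type} [NormedAddCommGroup E]
  [NormedSpace 𝕜 E] {H : Type} [TopologicalSpace H] {I : ModelWithCorners 𝕜 E H}
  {M Y : Type} [TopologicalSpace M] [TopologicalSpace Y] [ChartedSpace H M] {p : Y → M}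
  {n : WithTop ℕ∞}

theorem pull_isManifold (hp : IsLocalHomeomorph p) [IsManifold I n M] :
    @IsManifold 𝕜 _ E _ _ H _ I n Y _ (pullCharted hp) := by
  letI := pullCharted (H := H) hp
  have := pull_hasGroupoid (H := H) hp (contDiffGroupoid n I)
  exact IsManifold.mk' I n Y

variable [IsManifold I n M]

/-- the projection is `C^n` -/
theorem contMDiff_pullProj (hp : IsLocalHomeomorph p) :
    @ContMDiff 𝕜 _ E _ _ H _ I Y _ (pullCharted hp) E _ _ H _ I M _ _ n p := by
  letI := pullCharted (H := H) hp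
  haveI := pull_isManifold (I := I) (n := n) hp
  intro y
  have hc : (lh hp y).trans (chartAt H (p y)) ∈ IsManifold.maximalAtlas I n Y :=
    IsManifold.subset_maximalAtlas ⟨y, chartAt H (p y), chart_mem_atlas H (p y), rfl⟩
  have hc' : chartAt H (p y) ∈ IsManifold.maximalAtlas I n M :=
    IsManifold.chart_mem_maximalAtlas (p y)
  have hy : y ∈ ((lh hp y).trans (chartAt H (p y))).source := mem_chart_source H y
  have h1 : ContMDiffAt I I n ((chartAt H (p y)) ∘ p) y := by
    have h2 := (contMDiffOn_of_mem_maximalAtlas hc).contMDiffAt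
      ((OpenPartialHomeomorph.open_source _).mem_nhds hy)
    refine h2.congr_of_eventuallyEq (Eventually.of_forall fun z => ?_)
    change chartAt H (p y) (p z) = chartAt H (p y) (lh hp y z)
    rw [lh_apply]
  have h3 : ContMDiffAt I I n (chartAt H (p y)).symm (chartAt H (p y) (p y)) :=
    (contMDiffOn_symm_of_mem_maximalAtlas hc').contMDiffAt
      ((OpenPartialHomeomorph.open_target _).mem_nhds (mem_chart_target H (p y)))
  have h4 : ContMDiffAt I I n ((chartAt H (p y)).symm ∘ ((chartAt H (p y)) ∘ p)) y :=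
    ContMDiffAt.comp y h3 h1
  refine h4.congr_of_eventuallyEq ?_
  have h5 : ∀ᶠ z in 𝓝 y, p z ∈ (chartAt H (p y)).source :=
    hp.continuous.continuousAt.eventually
      ((chartAt H (p y)).open_source.mem_nhds (mem_chart_source H (p y)))
  filter_upwards [h5] with z hz
  exact ((chartAt H (p y)).left_inv hz).symm

/-- local sections are `C^n` -/
theorem contMDiffAt_pullSection (hp : IsLocalHomeomorph p) (y : Y) {x : M}
    (hx : x ∈ (lh hp y).target) :
    @ContMDiffAt 𝕜 _ E _ _ H _ I M _ _ E _ _ H _ I Y _ (pullCharted hp) n (lh hp y).symm x := by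
  letI := pullCharted (H := H) hp
  haveI := pull_isManifold (I := I) (n := n) hp
  have hc : (lh hp y).trans (chartAt H x) ∈ IsManifold.maximalAtlas I n Y :=
    IsManifold.subset_maximalAtlas ⟨y, chartAt H x, chart_mem_atlas H x, rfl⟩
  have hc' : chartAt H x ∈ IsManifold.maximalAtlas I n M := IsManifold.chart_mem_maximalAtlas x
  have h1 : ContMDiffAt I I n (chartAt H x) x :=
    (contMDiffOn_of_mem_maximalAtlas hc').contMDiffAt
      ((chartAt H x).open_source.mem_nhds (mem_chart_source H x))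
  have h2 : ContMDiffAt I I n ((lh hp y).trans (chartAt H x)).symm (chartAt H x x) := by
    refine (contMDiffOn_symm_of_mem_maximalAtlas hc).contMDiffAt
      ((OpenPartialHomeomorph.open_target _).mem_nhds ?_)
    rw [OpenPartialHomeomorph.trans_target]
    refine ⟨mem_chart_target H x, ?_⟩
    rw [mem_preimage, (chartAt H x).left_inv (mem_chart_source H x)]
    exact hx
  have h3 : ContMDiffAt I I n (((lh hp y).trans (chartAt H x)).symm ∘ chartAt H x) x :=
    ContMDiffAt.comp x h2 h1
  refine h3.congr_of_eventuallyEq ?_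
  filter_upwards [(chartAt H x).open_source.mem_nhds (mem_chart_source H x)] with z hz
  change (lh hp y).symm z = (lh hp y).symm ((chartAt H x).symm (chartAt H x z))
  rw [(chartAt H x).left_inv hz]

variable {E' : Type} [NormedAddCommGroup E'] [NormedSpace 𝕜 E'] {H' : Type} [TopologicalSpace H']
  {J : ModelWithCorners 𝕜 E' H'} {N : Type} [TopologicalSpace N] [ChartedSpace H' N]

/-- maps into `Y` -/
theorem contMDiffAt_into_pull_iff (hp : IsLocalHomeomorph p) {f : N → Y} {x : N} :
    @ContMDiffAt 𝕜 _ E' _ _ H' _ J N _ _ E _ _ H _ I Y _ (pullCharted hp) n f x ↔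
      ContinuousAt f x ∧ ContMDiffAt J I n (p ∘ f) x := by
  letI := pullCharted (H := H) hp
  haveI := pull_isManifold (I := I) (n := n) hp
  constructor
  · intro h
    exact ⟨h.continuousAt, ContMDiffAt.comp x (contMDiff_pullProj hp (f x)) h⟩
  · rintro ⟨hc, h⟩
    have h1 : ContMDiffAt J I n ((lh hp (f x)).symm ∘ (p ∘ f)) x := by
      refine ContMDiffAt.comp x (contMDiffAt_pullSection hp (f x) ?_) h
      change p (f x) ∈ (lh hp (f x)).target
      rw [← lh_apply hp (f x)]
      exact (lh hp (f x)).map_source (lh_mem hp (f x))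
    refine h1.congr_of_eventuallyEq ?_
    have h2 : ∀ᶠ z in 𝓝 x, f z ∈ (lh hp (f x)).source :=
      hc.eventually ((lh hp (f x)).open_source.mem_nhds (lh_mem hp (f x)))
    filter_upwards [h2] with z hz
    change f z = (lh hp (f x)).symm (p (f z))
    rw [← lh_apply hp (f x), (lh hp (f x)).left_inv hz]

end manifold

/-! ### fibre products -/

section fibre

variable {M T S : Type} [TopologicalSpace M] [TopologicalSpace T] [TopologicalSpace S]
  (u : M → S) (q : T → S)

/-- the fibre product -/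
def FP : Type := {z : M × T // u z.1 = q z.2}

instance : TopologicalSpace (FP u q) := inferInstanceAs (TopologicalSpace {z : M × T // _})

namespace FP
variable {u q}

/-- first projection -/
def fst (z : FP u q) : M := z.1.1
/-- second projection -/
def snd (z : FP u q) : T := z.1.2

theorem eq (z : FP u q) : u z.fst = q z.snd := z.2

theorem continuous_fst : Continuous (fst : FP u q → M) :=
  _root_.continuous_fst.comp continuous_subtype_val
theorem continuous_snd : Continuous (snd : FP u q → T) :=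
  _root_.continuous_snd.comp continuous_subtype_val

/-- constructor -/
def mk (x : M) (t : T) (h : u x = q t) : FP u q := ⟨(x, t), h⟩

@[simp] theorem mk_fst (x : M) (t : T) (h : u x = q t) : (mk x t h).fst = x := rfl
@[simp] theorem mk_snd (x : M) (t : T) (h : u x = q t) : (mk x t h).snd = t := rfl

theorem ext {z z' : FP u q} (h1 : z.fst = z'.fst) (h2 : z.snd = z'.snd) : z = z' :=
  Subtype.ext (Prod.ext h1 h2)

theorem continuous_mk {W : Type} [TopologicalSpace W] {f : W → M} {k : W → T}
    (hf : Continuous f) (hk : Continuous k) (h : ∀ w, u (f w) = q (k w)) :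
    Continuous (fun w => mk (f w) (k w) (h w)) :=
  (hf.prodMk hk).subtype_mk _

open Classical in
/-- local inverse of the first projection -/
def loc (hu : Continuous u) (φ : OpenPartialHomeomorph T S) (hφ : ∀ t, q t = φ t)
    (z₀ : FP u q) : OpenPartialHomeomorph (FP u q) M where
  toFun := fst
  invFun x :=
    if h : u x ∈ φ.target then mk x (φ.symm (u x)) (by rw [hφ, φ.right_inv h]) else z₀
  source := snd ⁻¹' φ.source
  target := u ⁻¹' φ.target
  map_source' z hz := by
    change u z.fst ∈ φ.target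
    rw [z.eq, hφ]
    exact φ.map_source hz
  map_target' x hx := by
    have hx' : u x ∈ φ.target := hx
    change (dite _ _ _ : FP u q).snd ∈ φ.source
    rw [dif_pos hx']
    exact φ.map_target hx'
  left_inv' z hz := by
    have hz' : u z.fst ∈ φ.target := by
      rw [z.eq, hφ]
      exact φ.map_source hz
    change (dite _ _ _ : FP u q) = z
    rw [dif_pos hz']
    refine ext rfl ?_
    change φ.symm (u z.fst) = z.snd
    rw [z.eq, hφ, φ.left_inv hz]
  right_inv' x hx := by
    have hx' : u x ∈ φ.target := hx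
    change (dite _ _ _ : FP u q).fst = x
    rw [dif_pos hx']
    rfl
  open_source := φ.open_source.preimage continuous_snd
  open_target := φ.open_target.preimage hu
  continuousOn_toFun := continuous_fst.continuousOn
  continuousOn_invFun := by
    rw [continuousOn_iff_continuous_restrict]
    have h1 : Continuous fun x : (u ⁻¹' φ.target : Set M) =>
        mk (u := u) (q := q) (x : M) (φ.symm (u x))
          (by rw [hφ, φ.right_inv (show u x ∈ φ.target from x.2)]) := by
      refine continuous_mk continuous_subtype_val ?_ _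
      have h2 : ContinuousOn (fun x : M => φ.symm (u x)) (u ⁻¹' φ.target) :=
        φ.continuousOn_symm.comp hu.continuousOn fun x hx => hx
      exact continuousOn_iff_continuous_restrict.1 h2
    refine h1.congr fun x => ?_
    change _ = (dite _ _ _ : FP u q)
    rw [dif_pos (show u x ∈ φ.target from x.2)]

theorem isLocalHomeomorph_fst (hu : Continuous u) (hq : IsLocalHomeomorph q) :
    IsLocalHomeomorph (fst : FP u q → M) := by
  intro z
  obtain ⟨φ, hφ, hφq⟩ := hq z.snd
  exact ⟨loc hu φ (fun t => congrFun hφq t) z, hφ, rfl⟩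

theorem t2 [T2Space M] [T2Space T] : T2Space (FP u q) :=
  inferInstanceAs (T2Space {z : M × T // u z.1 = q z.2})

theorem isClosedEmbedding [T2Space S] (hu : Continuous u) (hq : Continuous q) :
    IsClosedEmbedding (fun z : FP u q => (z.fst, z.snd)) :=
  (isClosed_eq (hu.comp _root_.continuous_fst)
    (hq.comp _root_.continuous_snd)).isClosedEmbedding_subtypeVal

/-- compactness of preimages of compact sets of `T` -/
theorem isCompact_preimage_snd [T2Space S] [CompactSpace M] (hu : Continuous u)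
    (hq : Continuous q) {K : Set T} (hK : IsCompact K) :
    IsCompact (snd ⁻¹' K : Set (FP u q)) := by
  have h1 := (isClosedEmbedding (u := u) (q := q) hu hq).isCompact_preimage
    (isCompact_univ.prod hK)
  convert h1 using 1
  ext z
  simp

end FP

end fibre

end

end Crest.Agent.R275.ZC352
end

-- ▼ part R275/ZC8_352
section

/-! R275, block ZC (helper352), file 8: the circle-valued map, the infinite cyclic cover
`Yc u = {(x, r) | u x = r mod 1}`, the deck transformation, connectedness, and primitives of local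
primitive systems on the cover. -/

set_option autoImplicit false
set_option linter.unusedSectionVars false

open Topology Set Filter
open scoped Manifold ContDiff

namespace Crest.Agent.R275.ZC352

noncomputable section

/-- the circle `ℝ/ℤ` -/
abbrev Circ : Type := AddCircle (1 : ℝ)

theorem coe_eq_zero_iff {r : ℝ} : (r : Circ) = 0 ↔ ∃ n : ℤ, (n : ℝ) = r := by
  rw [AddCircle.coe_eq_zero_iff]
  simp

theorem coe_eq_coe_iff {r s : ℝ} : (r : Circ) = (s : Circ) ↔ ∃ n : ℤ, r = s + n := by
  rw [← sub_eq_zero, ← AddCircle.coe_sub, coe_eq_zero_iff]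
  constructor
  · rintro ⟨n, hn⟩
    exact ⟨n, by rw [hn]; ring⟩
  · rintro ⟨n, hn⟩
    exact ⟨n, by rw [hn]; ring⟩

theorem exists_coe_eq (c : Circ) : ∃ r : ℝ, (r : Circ) = c := QuotientAddGroup.mk_surjective c

/-! ### the cover attached to a circle-valued map -/

variable {X : Type} [TopologicalSpace X]

/-- the infinite cyclic cover -/
abbrev Yc (u : X → Circ) : Type := FP u (fun r : ℝ => (r : Circ))

namespace Yc

variable (u : X → Circ)

/-- the projection -/
def pr : Yc u → X := FP.fst

/-- the height -/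
def ht : Yc u → ℝ := FP.snd

theorem continuous_pr : Continuous (pr u) := FP.continuous_fst
theorem continuous_ht : Continuous (ht u) := FP.continuous_snd

theorem eq (y : Yc u) : u (pr u y) = (ht u y : Circ) := y.2

/-- the projection as a bundled map -/
def prC : C(Yc u, X) := ⟨pr u, continuous_pr u⟩

/-- the point `(x, r)` -/
def mk' (x : X) (r : ℝ) (h : u x = (r : Circ)) : Yc u := FP.mk x r h

@[simp] theorem pr_mk (x : X) (r : ℝ) (h : u x = (r : Circ)) : pr u (mk' u x r h) = x := rfl
@[simp] theorem ht_mk (x : X) (r : ℝ) (h : u x = (r : Circ)) : ht u (mk' u x r h) = r := rfl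

theorem ext' {y y' : Yc u} (h1 : pr u y = pr u y') (h2 : ht u y = ht u y') : y = y' :=
  FP.ext h1 h2

/-- translation by an integer -/
def tr (n : ℤ) (y : Yc u) : Yc u := mk' u (pr u y) (ht u y + n) (by
  rw [eq u y, coe_eq_coe_iff]
  exact ⟨-n, by push_cast; ring⟩)

@[simp] theorem pr_tr (n : ℤ) (y : Yc u) : pr u (tr u n y) = pr u y := rfl
@[simp] theorem ht_tr (n : ℤ) (y : Yc u) : ht u (tr u n y) = ht u y + n := rfl

theorem continuous_tr (n : ℤ) : Continuous (tr u n) :=
  FP.continuous_mk (continuous_pr u) ((continuous_ht u).add continuous_const) _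

theorem tr_tr (n m : ℤ) (y : Yc u) : tr u n (tr u m y) = tr u (n + m) y := by
  refine ext' u rfl ?_
  simp only [ht_tr]
  push_cast
  ring

theorem tr_zero (y : Yc u) : tr u 0 y = y := by
  refine ext' u rfl ?_
  simp

/-- the deck transformation `(x, r) ↦ (x, r - 1)` -/
def dk : Yc u ≃ₜ Yc u where
  toFun := tr u (-1)
  invFun := tr u 1
  left_inv y := by
    rw [tr_tr]
    exact tr_zero u y
  right_inv y := by
    rw [tr_tr]
    exact tr_zero u y
  continuous_toFun := continuous_tr u _
  continuous_invFun := continuous_tr u _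

@[simp] theorem pr_dk (y : Yc u) : pr u (dk u y) = pr u y := rfl
theorem ht_dk (y : Yc u) : ht u (dk u y) = ht u y - 1 := by
  change ht u y + ((-1 : ℤ) : ℝ) = ht u y - 1
  push_cast
  ring

@[simp] theorem pr_dk_symm (y : Yc u) : pr u ((dk u).symm y) = pr u y := rfl
theorem ht_dk_symm (y : Yc u) : ht u ((dk u).symm y) = ht u y + 1 := by
  change ht u y + ((1 : ℤ) : ℝ) = ht u y + 1
  push_cast
  ring

theorem dk_iterate (n : ℕ) (y : Yc u) : (dk u)^[n] y = tr u (-n) y := by
  induction n with
  | zero =>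
    rw [Function.iterate_zero, id]
    exact (tr_zero u y).symm
  | succ n ih =>
    rw [Function.iterate_succ_apply', ih]
    change tr u (-1) _ = _
    rw [tr_tr]
    congr 1
    push_cast
    ring

/-- points with the same projection -/
theorem exists_tr {y y' : Yc u} (h : pr u y = pr u y') : ∃ n : ℤ, tr u n y = y' := by
  have h1 : (ht u y' : Circ) = (ht u y : Circ) := by rw [← eq u y', ← eq u y, h]
  obtain ⟨n, hn⟩ := coe_eq_coe_iff.1 h1
  exact ⟨n, ext' u h hn.symm⟩

/-- the fibres are the orbits -/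
theorem fibre {y y' : Yc u} (h : pr u y = pr u y') :
    ∃ n : ℕ, (dk u)^[n] y = y' ∨ (dk u)^[n] y' = y := by
  obtain ⟨n, hn⟩ := exists_tr u h
  obtain ⟨m, rfl | rfl⟩ := n.eq_nat_or_neg
  · refine ⟨m, Or.inr ?_⟩
    rw [dk_iterate, ← hn, tr_tr]
    simp [tr_zero]
  · refine ⟨m, Or.inl ?_⟩
    rw [dk_iterate]
    exact hn

theorem pr_surjective : Function.Surjective (pr u) := by
  intro x
  obtain ⟨r, hr⟩ := exists_coe_eq (u x)
  exact ⟨mk' u x r hr.symm, rfl⟩

theorem isLocalHomeomorph (hu : Continuous u) : IsLocalHomeomorph (pr u) :=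
  FP.isLocalHomeomorph_fst hu (AddCircle.isLocalHomeomorph_coe 1)

instance [T2Space X] : T2Space (Yc u) := FP.t2

/-- slabs are compact -/
theorem isCompact_slab [CompactSpace X] (hu : Continuous u) (a b : ℝ) :
    IsCompact {y : Yc u | a ≤ ht u y ∧ ht u y ≤ b} :=
  FP.isCompact_preimage_snd hu (AddCircle.continuous_mk' (1 : ℝ)) (isCompact_Icc (a := a) (b := b))

end Yc

/-! ### the circle-valued map of a local primitive system -/

section circ

variable [PathConnectedSpace X] (P : LPS X ℝ)

/-- periods are integers -/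
def IntPeriods : Prop := ∀ (x₀ : X) (γ : Path x₀ x₀), ∃ n : ℤ, (n : ℝ) = P.vary (sd γ)

/-- the circle-valued map -/
def circ (x₀ x : X) : Circ := (P.vary (sd (PathConnectedSpace.somePath x₀ x)) : ℝ)

variable {P}

theorem circ_eq (hP : IntPeriods P) {x₀ x : X} (γ : Path x₀ x) :
    circ P x₀ x = (P.vary (sd γ) : ℝ) := by
  obtain ⟨n, hn⟩ := hP x₀ ((PathConnectedSpace.somePath x₀ x).trans γ.symm)
  rw [P.isCoc_vary.trans, P.isCoc_vary.symm] at hn
  unfold circ
  rw [coe_eq_coe_iff]
  exact ⟨n, by rw [hn]; ring⟩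

theorem circ_sub (hP : IntPeriods P) (x₀ : X) (σ : C(Dn 1, X)) :
    circ P x₀ (σ (vx 1 1)) - circ P x₀ (σ (vx 1 0)) = (P.vary σ : ℝ) := by
  rw [circ_eq hP ((PathConnectedSpace.somePath x₀ (σ (vx 1 0))).trans (ofSd σ)),
    circ_eq hP (PathConnectedSpace.somePath x₀ (σ (vx 1 0))), P.isCoc_vary.trans, sd_ofSd,
    ← AddCircle.coe_sub]
  congr 1
  ring

theorem circ_self (hP : IntPeriods P) (x₀ : X) : circ P x₀ x₀ = 0 := by
  rw [circ_eq hP (Path.refl x₀), sd_refl, P.isCoc_vary.const]
  rfl

variable [LocallyPathConnectedSpace X]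

/-- local form of the circle-valued map -/
theorem circ_local (hP : IntPeriods P) (x₀ : X) (i : P.ι) {z : X} (hz : z ∈ P.U i) :
    ∀ᶠ w in 𝓝 z, circ P x₀ w - circ P x₀ z = ((P.h i w - P.h i z : ℝ) : Circ) := by
  obtain ⟨W, ⟨hW, hWc⟩, hW2⟩ := (path_connected_basis z).mem_iff.1 ((P.isOpen i).mem_nhds hz)
  filter_upwards [hW] with w hw
  obtain ⟨σ, h0, h1, h2⟩ := exists_simplex_joinedIn (hWc.joinedIn z (mem_of_mem_nhds hW) w hw)
  have h3 := circ_sub hP x₀ σ
  rw [P.vary_of_mem i σ (fun t => hW2 (h2 t)), h0, h1] at h3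
  exact h3

/-- smooth lifts of a circle-valued map -/
def HasLifts (E : Type) [NormedAddCommGroup E] [NormedSpace ℝ E] {X : Type} [TopologicalSpace X]
    [ChartedSpace E X] (u : X → Circ) : Prop :=
  ∀ x : X, ∀ r : ℝ, (r : Circ) = u x → ∃ (W : Set X) (f : X → ℝ), IsOpen W ∧ x ∈ W ∧ f x = r ∧
    (∀ y ∈ W, (f y : Circ) = u y) ∧ ∀ y ∈ W, ContMDiffAt 𝓘(ℝ, E) 𝓘(ℝ, ℝ) ∞ f y

theorem HasLifts.continuous {E : Type} [NormedAddCommGroup E] [NormedSpace ℝ E] {X : Type}
    [TopologicalSpace X] [ChartedSpace E X] {u : X → Circ} (h : HasLifts E u) :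
    Continuous u := by
  rw [continuous_iff_continuousAt]
  intro x
  obtain ⟨r, hr⟩ := exists_coe_eq (u x)
  obtain ⟨W, f, hW, hx, -, hf, hs⟩ := h x r hr
  have h1 : ContinuousAt (fun y => (f y : Circ)) x :=
    (AddCircle.continuous_mk' (1 : ℝ)).continuousAt.comp (hs x hx).continuousAt
  refine h1.congr ?_
  filter_upwards [hW.mem_nhds hx] with y hy
  exact hf y hy

theorem circ_hasLifts {E : Type} [NormedAddCommGroup E] [NormedSpace ℝ E] [ChartedSpace E X]
    (hP : IntPeriods P)
    (hs : ∀ i, ∀ x ∈ P.U i, ContMDiffAt 𝓘(ℝ, E) 𝓘(ℝ, ℝ) ∞ (P.h i) x) (x₀ : X) :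
    HasLifts E (circ P x₀) := by
  intro x r hr
  obtain ⟨i, hi⟩ := P.cover x
  obtain ⟨W, hW, hWo, hxW⟩ := eventually_nhds_iff.1
    ((circ_local hP x₀ i hi).and ((P.isOpen i).mem_nhds hi))
  refine ⟨W, fun y => P.h i y - P.h i x + r, hWo, hxW, by ring, fun y hy => ?_, fun y hy => ?_⟩
  · have h1 := (hW y hy).1
    rw [sub_eq_iff_eq_add] at h1
    rw [h1, ← hr, ← AddCircle.coe_add]
  · exact ((hs i y (hW y hy).2).sub contMDiffAt_const).add contMDiffAt_const

/-- lifting a path to the cover -/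
theorem exists_lift_path {E : Type} [NormedAddCommGroup E] [NormedSpace ℝ E] [ChartedSpace E X]
    (hP : IntPeriods P)
    (hs : ∀ i, ∀ x ∈ P.U i, ContMDiffAt 𝓘(ℝ, E) 𝓘(ℝ, ℝ) ∞ (P.h i) x) (x₀ : X)
    {x y : X} (γ : Path x y) {r s : ℝ} (hr : circ P x₀ x = (r : Circ))
    (hsy : circ P x₀ y = (s : Circ)) (hrs : s = r + P.vary (sd γ)) :
    Joined (Yc.mk' (circ P x₀) x r hr) (Yc.mk' (circ P x₀) y s hsy) := by
  obtain ⟨F, hF⟩ := P.exists_prim_simplex (sd γ)
  -- continuity of `F`
  have hFc : Continuous F := by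
    rw [continuous_iff_continuousAt]
    intro t
    obtain ⟨i, hi⟩ := (P.pull (sd γ)).cover t
    have h1 : ContinuousAt (fun t' => P.h i (sd γ t') - P.h i (sd γ t) + F t) t := by
      refine ContinuousAt.add (ContinuousAt.sub ?_ continuousAt_const) continuousAt_const
      exact ContinuousAt.comp (f := sd γ) (hs i _ hi).continuousAt (sd γ).continuous.continuousAt
    refine h1.congr ?_
    filter_upwards [hF i t hi] with t' ht'
    have h2 : F t' - F t = P.h i (sd γ t') - P.h i (sd γ t) := ht'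
    linarith
  -- `u ∘ γ` and `F` agree modulo integers up to a constant
  let P' := (P.pull (sd γ)).map (QuotientAddGroup.mk' (AddSubgroup.zmultiples (1 : ℝ)))
  have h1 : P'.IsPrim (fun t => ((F t : ℝ) : Circ)) := hF.map _ _
  have h2 : P'.IsPrim (fun t => circ P x₀ (sd γ t)) := by
    intro i t ht
    have h3 := (sd γ).continuous.continuousAt.eventually
      (circ_local hP x₀ i (show sd γ t ∈ P.U i from ht))
    filter_upwards [h3] with t' ht'
    rw [ht', AddCircle.coe_sub]
    rfl
  have h4 : ∀ t : Dn 1, circ P x₀ (sd γ t) = ((F t - F (vx 1 0) + r : ℝ) : Circ) := by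
    intro t
    have h5 := h2.sub_eq _ h1 (vx 1 0) t
    rw [sd_zero, hr] at h5
    rw [sub_eq_iff_eq_add] at h5
    rw [h5, AddCircle.coe_add, AddCircle.coe_sub]
  let e := stdSimplexHomeomorphUnitInterval.symm
  have e0 : e 0 = vx 1 0 := (Homeomorph.symm_apply_eq _).2 rfl
  have e1 : e 1 = vx 1 1 := (Homeomorph.symm_apply_eq _).2 rfl
  refine ⟨⟨⟨fun t => Yc.mk' (circ P x₀) (sd γ (e t)) (F (e t) - F (vx 1 0) + r) (h4 (e t)), ?_⟩,
    ?_, ?_⟩⟩
  · refine FP.continuous_mk ((sd γ).continuous.comp e.continuous) ?_ _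
    exact ((hFc.comp e.continuous).sub continuous_const).add continuous_const
  · refine Yc.ext' _ ?_ ?_
    · change sd γ (e 0) = x
      rw [e0, sd_zero]
    · change F (e 0) - F (vx 1 0) + r = r
      rw [e0]
      ring
  · refine Yc.ext' _ ?_ ?_
    · change sd γ (e 1) = y
      rw [e1, sd_one]
    · change F (e 1) - F (vx 1 0) + r = s
      rw [e1, hrs, P.vary_eq hF]
      ring

/-- the cover is path connected -/
theorem pathConnected_Yc {E : Type} [NormedAddCommGroup E] [NormedSpace ℝ E] [ChartedSpace E X]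
    (hP : IntPeriods P)
    (hs : ∀ i, ∀ x ∈ P.U i, ContMDiffAt 𝓘(ℝ, E) 𝓘(ℝ, ℝ) ∞ (P.h i) x) (x₀ : X)
    (hone : ∀ n : ℤ, ∃ γ : Path x₀ x₀, P.vary (sd γ) = n) :
    PathConnectedSpace (Yc (circ P x₀)) := by
  have h0 : circ P x₀ x₀ = ((0 : ℝ) : Circ) := circ_self hP x₀
  have key : ∀ y : Yc (circ P x₀), Joined y (Yc.mk' (circ P x₀) x₀ 0 h0) := by
    intro y
    let γ := PathConnectedSpace.somePath (Yc.pr _ y) x₀
    have h1 : circ P x₀ x₀ = ((Yc.ht _ y + P.vary (sd γ) : ℝ) : Circ) := by
      have h2 := circ_sub hP x₀ (sd γ)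
      rw [sd_zero, sd_one, Yc.eq _ y, sub_eq_iff_eq_add] at h2
      rw [h2, AddCircle.coe_add, add_comm]
    have h3 := exists_lift_path (E := E) hP hs x₀ γ (Yc.eq _ y) h1 rfl
    obtain ⟨n, hn⟩ := coe_eq_zero_iff.1 (h1.symm.trans h0)
    obtain ⟨γ', hγ'⟩ := hone (-n)
    have h4 := exists_lift_path (E := E) hP hs x₀ γ' h1 h0 (by
      rw [hγ', ← hn]
      push_cast
      ring)
    exact h3.trans h4
  exact { nonempty := ⟨Yc.mk' (circ P x₀) x₀ 0 h0⟩
          joined := fun y y' => (key y).trans (key y').symm }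

end circ

/-! ### primitives on the cover -/

/-- every local primitive system of `X` has a primitive on the cover, with constant monodromy -/
def UnivPrim (u : X → Circ) : Prop :=
  ∀ (V : Type) [AddCommGroup V] [Module ℝ V] (Q : LPS X V), ∃ (v : V) (F : Yc u → V),
    (Q.pull (Yc.prC u)).IsPrim F ∧ ∀ y, F (Yc.dk u y) = F y - v

theorem univPrim_circ [PathConnectedSpace X] [LocallyPathConnectedSpace X] {P : LPS X ℝ}
    (hP : IntPeriods P) (hcont : ∀ i, ∀ x ∈ P.U i, ContinuousAt (P.h i) x) (hU : IsUniv P.vary)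
    (x₀ : X) : UnivPrim (circ P x₀) := by
  intro V _ _ Q
  obtain ⟨v, f, hf⟩ := hU V Q.vary Q.isCoc_vary
  set u := circ P x₀ with hu
  refine ⟨v, fun y => Yc.ht u y • v + f (Yc.pr u y), ?_, fun y => ?_⟩
  · intro j y hy
    have hy' : Yc.pr u y ∈ Q.U j := hy
    obtain ⟨i, hi⟩ := P.cover (Yc.pr u y)
    obtain ⟨W, ⟨hW, hWc⟩, hW2⟩ := (path_connected_basis (Yc.pr u y)).mem_iff.1
      (((P.isOpen i).inter (Q.isOpen j)).mem_nhds ⟨hi, hy'⟩)
    have h1 : ∀ᶠ w in 𝓝 y, Yc.pr u w ∈ W := (Yc.continuous_pr u).continuousAt.eventually hW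
    have h2 : ∀ᶠ w in 𝓝 y, |Yc.ht u w - Yc.ht u y - (P.h i (Yc.pr u w) - P.h i (Yc.pr u y))| < 1 := by
      have h3 : ContinuousAt (fun w => Yc.ht u w - Yc.ht u y -
          (P.h i (Yc.pr u w) - P.h i (Yc.pr u y))) y := by
        refine ((Yc.continuous_ht u).continuousAt.sub continuousAt_const).sub
          (ContinuousAt.sub ?_ continuousAt_const)
        exact ContinuousAt.comp (f := Yc.pr u) (hcont i _ hi) (Yc.continuous_pr u).continuousAt
      have h4 : ContinuousAt (fun w => |Yc.ht u w - Yc.ht u y -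
          (P.h i (Yc.pr u w) - P.h i (Yc.pr u y))|) y := h3.abs
      refine h4.eventually (gt_mem_nhds ?_)
      simp
    filter_upwards [h1, h2] with w hw hw'
    obtain ⟨σ, h0, h1, h3⟩ := exists_simplex_joinedIn
      (hWc.joinedIn _ (mem_of_mem_nhds hW) _ hw)
    have e1 := P.vary_of_mem i σ (fun t => (hW2 (h3 t)).1)
    have e2 := Q.vary_of_mem j σ (fun t => (hW2 (h3 t)).2)
    have e3 := circ_sub hP x₀ σ
    rw [h0, h1, ← hu, Yc.eq u w, Yc.eq u y, ← AddCircle.coe_sub, coe_eq_coe_iff] at e3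
    obtain ⟨n, hn⟩ := e3
    have e4 : n = 0 := by
      rw [h0, h1] at e1
      rw [hn, e1] at hw'
      have h5 : |(n : ℝ)| < 1 := by
        convert hw' using 2
        ring
      have h6 : |n| < 1 := by exact_mod_cast h5
      exact Int.abs_lt_one_iff.1 h6
    rw [e4, Int.cast_zero, add_zero] at hn
    have e5 := hf σ
    rw [e2, h0, h1, ← hn] at e5
    change Yc.ht u w • v + f (Yc.pr u w) - (Yc.ht u y • v + f (Yc.pr u y)) =
      Q.h j (Yc.pr u w) - Q.h j (Yc.pr u y)
    rw [e5]
    module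
  · change Yc.ht u (Yc.dk u y) • v + f (Yc.pr u y) = Yc.ht u y • v + f (Yc.pr u y) - v
    rw [Yc.ht_dk]
    module

/-! ### the main existence theorem -/

/-- **Existence of the Z-cover.** -/
theorem exists_circle_map {E : Type} [NormedAddCommGroup E] [NormedSpace ℂ E]
    [FiniteDimensional ℂ E] [ChartedSpace E X] [IsManifold 𝓘(ℂ, E) 1 X]
    [T2Space X] [CompactSpace X] [ConnectedSpace X]
    (h : Module.finrank ℚ (SH ℚ 1 X) = 1) :
    ∃ u : X → Circ, HasLifts E u ∧ Continuous u ∧ PathConnectedSpace (Yc u) ∧ UnivPrim u := by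
  have hl : LocallyPathConnectedSpace X := ChartedSpace.locallyPathConnectedSpace E X
  have hp : PathConnectedSpace X := pathConnectedSpace_iff_connectedSpace.2 inferInstance
  obtain ⟨P, hs, hper, hU⟩ := exists_smooth_LPS (E := E) h
  have hP : IntPeriods P := fun x₀ γ => (hper x₀ _).1 ⟨γ, rfl⟩
  obtain ⟨x₀⟩ : Nonempty X := inferInstance
  have hl := circ_hasLifts (E := E) hP hs x₀
  exact ⟨circ P x₀, hl, hl.continuous,
    pathConnected_Yc (E := E) hP hs x₀ (fun n => (hper x₀ n).2 ⟨n, rfl⟩),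
    univPrim_circ hP (fun i x hx => (hs i x hx).continuousAt) hU x₀⟩

end

end Crest.Agent.R275.ZC352
end

-- ▼ part R275/ZC9_352

/-! R275, block ZC (helper352), file 9: the Z-cover as a complex manifold, and the existence theorem
in the form used by the other blocks. -/

set_option autoImplicit false
set_option linter.unusedSectionVars false

open Topology Set Filter
open scoped Manifold ContDiff

namespace Crest.Agent.R275.ZC352

noncomputable section

section cover

variable {X : Type} [TopologicalSpace X]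

/-- the infinite cyclic cover of a continuous circle-valued map -/
def YC (u : C(X, Circ)) : Type := Yc (u : X → Circ)

namespace YC

variable (u : C(X, Circ))

instance : TopologicalSpace (YC u) := inferInstanceAs (TopologicalSpace (Yc (u : X → Circ)))
instance [T2Space X] : T2Space (YC u) := inferInstanceAs (T2Space (Yc (u : X → Circ)))

/-- projection -/
def pr : YC u → X := Yc.pr u
/-- height -/
def ht : YC u → ℝ := Yc.ht u
/-- the deck transformation -/
def dk : YC u ≃ₜ YC u := Yc.dk u

theorem lochomeo : IsLocalHomeomorph (pr u) := Yc.isLocalHomeomorph u u.continuous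

theorem continuous_pr : Continuous (pr u) := Yc.continuous_pr u
theorem continuous_ht : Continuous (ht u) := Yc.continuous_ht u
theorem pr_dk (y : YC u) : pr u (dk u y) = pr u y := Yc.pr_dk u y
theorem pr_dk_symm (y : YC u) : pr u ((dk u).symm y) = pr u y := Yc.pr_dk_symm u y
theorem ht_dk (y : YC u) : ht u (dk u y) = ht u y - 1 := Yc.ht_dk u y
theorem ht_dk_symm (y : YC u) : ht u ((dk u).symm y) = ht u y + 1 := Yc.ht_dk_symm u y
theorem pr_surjective : Function.Surjective (pr u) := Yc.pr_surjective u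
theorem eq (y : YC u) : u (pr u y) = (ht u y : Circ) := y.2
theorem fibre {y y' : YC u} (h : pr u y = pr u y') :
    ∃ n : ℕ, (dk u)^[n] y = y' ∨ (dk u)^[n] y' = y := Yc.fibre u h
theorem isCompact_slab [CompactSpace X] (a b : ℝ) :
    IsCompact {y : YC u | a ≤ ht u y ∧ ht u y ≤ b} := Yc.isCompact_slab u u.continuous a b

/-- the projection as a bundled map -/
def prC : C(YC u, X) := ⟨pr u, continuous_pr u⟩

instance {H : Type} [TopologicalSpace H] [ChartedSpace H X] : ChartedSpace H (YC u) :=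
  pullCharted (lochomeo u)

instance {𝕜 : Type} [NontriviallyNormedField 𝕜] {E : Type} [NormedAddCommGroup E]
    [NormedSpace 𝕜 E] {H : Type} [TopologicalSpace H] {I : ModelWithCorners 𝕜 E H}
    {n : WithTop ℕ∞} [ChartedSpace H X] [IsManifold I n X] : IsManifold I n (YC u) :=
  pull_isManifold (lochomeo u)

section contmdiff

variable {𝕜 : Type} [NontriviallyNormedField 𝕜] {E : Type} [NormedAddCommGroup E]
    [NormedSpace 𝕜 E] {H : Type} [TopologicalSpace H] {I : ModelWithCorners 𝕜 E H}
    {n : WithTop ℕ∞} [ChartedSpace H X] [IsManifold I n X]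

theorem contMDiff_pr : ContMDiff I I n (pr u) := contMDiff_pullProj (lochomeo u)

theorem contMDiffAt_into_iff {E' : Type} [NormedAddCommGroup E'] [NormedSpace 𝕜 E'] {H' : Type}
    [TopologicalSpace H'] {J : ModelWithCorners 𝕜 E' H'} {N : Type} [TopologicalSpace N]
    [ChartedSpace H' N] {f : N → YC u} {x : N} :
    ContMDiffAt J I n f x ↔ ContinuousAt f x ∧ ContMDiffAt J I n (pr u ∘ f) x :=
  contMDiffAt_into_pull_iff (lochomeo u)

theorem contMDiff_dk : ContMDiff I I n (dk u) := fun y =>
  (contMDiffAt_into_iff u).2 ⟨(dk u).continuous.continuousAt, contMDiff_pr u y⟩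

theorem contMDiff_dk_symm : ContMDiff I I n (dk u).symm := fun y =>
  (contMDiffAt_into_iff u).2 ⟨(dk u).symm.continuous.continuousAt, contMDiff_pr u y⟩

/-- local sections -/
theorem exists_section (y : YC u) : ∃ V : Set X, IsOpen V ∧ pr u y ∈ V ∧ ∃ σ : X → YC u,
    ContMDiffOn I I n σ V ∧ σ (pr u y) = y ∧ (∀ x ∈ V, pr u (σ x) = x) ∧ IsOpen (σ '' V) := by
  refine ⟨(lh (lochomeo u) y).target, (lh (lochomeo u) y).open_target, ?_,
    (lh (lochomeo u) y).symm, ?_, ?_, ?_, ?_⟩
  · rw [← lh_apply (lochomeo u) y]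
    exact (lh (lochomeo u) y).map_source (lh_mem (lochomeo u) y)
  · intro x hx
    exact (contMDiffAt_pullSection (lochomeo u) y hx).contMDiffWithinAt
  · rw [← lh_apply (lochomeo u) y, (lh (lochomeo u) y).left_inv (lh_mem (lochomeo u) y)]
  · intro x hx
    rw [← lh_apply (lochomeo u) y, (lh (lochomeo u) y).right_inv hx]
  · have h := (lh (lochomeo u) y).symm.image_source_eq_target
    rw [OpenPartialHomeomorph.symm_source, OpenPartialHomeomorph.symm_target] at h
    rw [h]
    exact (lh (lochomeo u) y).open_source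

end contmdiff

/-- the height is smooth -/
theorem contMDiff_ht {E : Type} [NormedAddCommGroup E] [NormedSpace ℝ E] [ChartedSpace E X]
    [IsManifold 𝓘(ℝ, E) ∞ X] (h : HasLifts E (u : X → Circ)) :
    ContMDiff 𝓘(ℝ, E) 𝓘(ℝ, ℝ) ∞ (ht u) := by
  intro y
  obtain ⟨W, f, hW, hx, hfx, hf, hs⟩ := h (pr u y) (ht u y) (eq u y).symm
  have h1 : ContMDiffAt 𝓘(ℝ, E) 𝓘(ℝ, ℝ) ∞ (f ∘ pr u) y :=
    ContMDiffAt.comp y (hs _ hx) (contMDiff_pr u y)
  refine h1.congr_of_eventuallyEq ?_
  have h2 : ∀ᶠ z in 𝓝 y, pr u z ∈ W := (continuous_pr u).continuousAt.eventually (hW.mem_nhds hx)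
  have h3 : ∀ᶠ z in 𝓝 y, |ht u z - f (pr u z)| < 1 := by
    have h4 : ContinuousAt (fun z => |ht u z - f (pr u z)|) y :=
      ((continuous_ht u).continuousAt.sub h1.continuousAt).abs
    refine h4.eventually (gt_mem_nhds ?_)
    beta_reduce
    rw [hfx]
    simp
  filter_upwards [h2, h3] with z hz hz'
  have h5 : ((ht u z : ℝ) : Circ) = (f (pr u z) : Circ) := by
    rw [hf _ hz, eq]
  obtain ⟨n, hn⟩ := coe_eq_coe_iff.1 h5
  have h6 : n = 0 := by
    rw [hn, add_sub_cancel_left] at hz'
    have h7 : |n| < 1 := by exact_mod_cast hz'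
    exact Int.abs_lt_one_iff.1 h7
  rw [h6, Int.cast_zero, add_zero] at hn
  exact hn

end YC

end cover

/-! ### the existence theorem for compact complex surfaces -/

open Crest.AlgGeometry.Surface Crest.Topology.RationalHomology

/-- **The Z-cover of a compact connected complex surface with first Betti number one.** -/
theorem exists_ZCover (X : Type) [TopologicalSpace X] [T2Space X] [CompactSpace X]
    [ConnectedSpace X] [ChartedSpace C2 X] [IsManifold 𝓘(ℂ, C2) 1 X]
    (hb₁ : rationalBettiNumber X 1 = 1) :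
    ∃ u : C(X, Circ), ConnectedSpace (YC u) ∧
      ContMDiff 𝓘(ℝ, C2) 𝓘(ℝ, ℝ) ∞ (YC.ht u) ∧
      HasLifts C2 (u : X → Circ) ∧
      ∀ (V : Type) [AddCommGroup V] [Module ℝ V] (Q : LPS X V), ∃ (v : V) (F : YC u → V),
        (Q.pull (YC.prC u)).IsPrim F ∧ ∀ y, F (YC.dk u y) = F y - v := by
  have h : Module.finrank ℚ (SH ℚ 1 X) = 1 := hb₁
  obtain ⟨u, hl, hc, hp, hU⟩ := exists_circle_map (E := C2) h
  have : PathConnectedSpace (YC ⟨u, hc⟩) := hp
  have hman : IsManifold 𝓘(ℝ, C2) ∞ X := isManifold_real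
  exact ⟨⟨u, hc⟩, inferInstance, YC.contMDiff_ht ⟨u, hc⟩ hl, hl, hU⟩

end

end Crest.Agent.R275.ZC352
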