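import Mathlib
import Crest.Prelude.Def_ComplexSurface
import Crest.Agent.R266.SCV

/-!
R275 (S0418), helper908: Montel's theorem (ultrafilter form) in several complex variables and on
complex surfaces, identity theorem on complex surfaces.
-/

set_option autoImplicit false
set_option linter.unusedSectionVars false

open Set Filter Topology Metric Crest.AlgGeometry.Surface
open scoped Manifold ContDiff

noncomputable section

namespace Crest.Agent.R275.Mon908

section Vec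

variable {E : Type} [NormedAddCommGroup E] [NormedSpace ℂ E]
variable {ι : Type*}

theorem lipschitz_of_bound {f : E → ℂ} {x : E} {r C : ℝ} (hr : 0 < r)
    (hf : DifferentiableOn ℂ f (ball x (2 * r))) (hb : ∀ w ∈ ball x (2 * r), ‖f w‖ ≤ C)
    {y z : E} (hy : y ∈ ball x r) (hz : z ∈ ball x r) : ‖f y - f z‖ ≤ C / r * ‖y - z‖ := by
  have hder : ∀ w ∈ ball x r, ‖fderiv ℂ f w‖ ≤ C / r := by
    intro w hw
    have hsub : ball w r ⊆ ball x (2 * r) := by
      intro u hu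
      rw [mem_ball] at hu hw ⊢
      linarith [dist_triangle u w x]
    exact Crest.Agent.R266.SCV.norm_fderiv_le_of_ball hr (hf.mono hsub)
      (fun u hu => hb u (hsub hu))
  refine (convex_ball x r).norm_image_sub_le_of_norm_fderiv_le (𝕜 := ℂ) ?_ hder hz hy
  intro w hw
  have hw' : w ∈ ball x (2 * r) := ball_subset_ball (by linarith) hw
  exact hf.differentiableAt (isOpen_ball.mem_nhds hw')

/-- **Montel's theorem** along an ultrafilter, with prescribed pointwise limit. -/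
theorem tendstoLocallyUniformlyOn_of_bound {U : Set E} (hU : IsOpen U)
    {f : ι → E → ℂ} (hf : ∀ i, DifferentiableOn ℂ (f i) U) {l : Filter ι}
    (hb : ∀ z ∈ U, ∃ C : ℝ, ∃ V ∈ 𝓝 z, ∀ᶠ i in l, ∀ w ∈ V, w ∈ U → ‖f i w‖ ≤ C)
    {F : E → ℂ} (hlim : ∀ z ∈ U, Tendsto (fun i => f i z) l (𝓝 (F z))) :
    TendstoLocallyUniformlyOn f F l U := by
  rcases l.eq_or_neBot with hl | hl
  · subst hl
    intro u hu x hx
    exact ⟨univ, univ_mem, by simp⟩
  have hrad : ∀ x ∈ U, ∃ r : ℝ, ∃ C : ℝ, 0 < r ∧ ball x (2 * r) ⊆ U ∧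
      ∀ᶠ i in l, ∀ w ∈ ball x (2 * r), ‖f i w‖ ≤ C := by
    intro x hx
    obtain ⟨C, V, hV, h⟩ := hb x hx
    obtain ⟨ε, hε, hεV⟩ := Metric.nhds_basis_ball.mem_iff.1 (inter_mem hV (hU.mem_nhds hx))
    refine ⟨ε / 2, C, by positivity, ?_, ?_⟩
    · rw [mul_div_cancel₀ _ (two_ne_zero)]
      exact fun w hw => (hεV hw).2
    · rw [mul_div_cancel₀ _ (two_ne_zero)]
      filter_upwards [h] with i hi w hw
      exact hi w (hεV hw).1 (hεV hw).2
  rw [Metric.tendstoLocallyUniformlyOn_iff]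
  intro ε hε x hx
  obtain ⟨r, C, hr, hB, hC⟩ := hrad x hx
  set K : ℝ := |C| / r with hK
  have hK0 : 0 ≤ K := by positivity
  have hCK : C / r ≤ K := by
    rw [hK]
    gcongr
    exact le_abs_self C
  have hsub : ball x r ⊆ U := fun w hw => hB (ball_subset_ball (by linarith) hw)
  have hlip : ∀ᶠ i in l, ∀ y ∈ ball x r, ‖f i y - f i x‖ ≤ K * ‖y - x‖ := by
    filter_upwards [hC] with i hi y hy
    refine (lipschitz_of_bound hr ((hf i).mono hB) hi hy (mem_ball_self hr)).trans ?_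
    gcongr
  have hlip0 : ∀ y ∈ ball x r, ‖F y - F x‖ ≤ K * ‖y - x‖ := by
    intro y hy
    have h1 : Tendsto (fun i => ‖f i y - f i x‖) l (𝓝 ‖F y - F x‖) :=
      ((hlim y (hsub hy)).sub (hlim x hx)).norm
    refine le_of_tendsto h1 ?_
    filter_upwards [hlip] with i hi
    exact hi y hy
  set δ : ℝ := min r (ε / (3 * (K + 1))) with hδ
  have hδ0 : 0 < δ := lt_min hr (by positivity)
  refine ⟨ball x δ, mem_nhdsWithin_of_mem_nhds (ball_mem_nhds x hδ0), ?_⟩
  have hx0 : ∀ᶠ i in l, dist (f i x) (F x) < ε / 3 :=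
    (Metric.tendsto_nhds.1 (hlim x hx)) (ε / 3) (by positivity)
  filter_upwards [hlip, hx0] with i hi hi0 y hy
  have hy' : y ∈ ball x r := ball_subset_ball (min_le_left _ _) hy
  have h1 := hlip0 y hy'
  have h2 := hi y hy'
  have hyx : ‖y - x‖ < ε / (3 * (K + 1)) := by
    rw [mem_ball, dist_eq_norm] at hy
    exact hy.trans_le (min_le_right _ _)
  have hKy : K * ‖y - x‖ ≤ ε / 3 := by
    calc K * ‖y - x‖ ≤ (K + 1) * (ε / (3 * (K + 1))) := by
          apply mul_le_mul (by linarith) hyx.le (norm_nonneg _) (by positivity)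
      _ = ε / 3 := by field_simp
  rw [dist_eq_norm] at hi0
  rw [dist_eq_norm]
  calc ‖F y - f i y‖ = ‖(F y - F x) - ((f i y - f i x) + (f i x - F x))‖ := by
        congr 1; ring
    _ ≤ ‖F y - F x‖ + (‖f i y - f i x‖ + ‖f i x - F x‖) :=
        (norm_sub_le _ _).trans (add_le_add le_rfl (norm_add_le _ _))
    _ < ε := by linarith

/-- a bounded family in `ℂ` converges along an ultrafilter -/
theorem exists_lim (l : Ultrafilter ι) (a : ι → ℂ) {C : ℝ} (h : ∀ᶠ i in (l : Filter ι), ‖a i‖ ≤ C) :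
    Tendsto a l (𝓝 (limUnder (l : Filter ι) a)) := by
  have hle : (↑(l.map a) : Filter ℂ) ≤ 𝓟 (closedBall (0 : ℂ) C) := by
    rw [le_principal_iff, Ultrafilter.coe_map, mem_map]
    filter_upwards [h] with i hi
    simpa using hi
  obtain ⟨b, -, hb⟩ := (isCompact_closedBall (0 : ℂ) C).ultrafilter_le_nhds _ hle
  exact tendsto_nhds_limUnder ⟨b, hb⟩

end Vec

section Surf

variable {Y : Type} [TopologicalSpace Y] [ChartedSpace C2 Y] [IsManifold 𝓘(ℂ, C2) 1 Y]
variable {ι : Type*}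


/-- a function which is complex differentiable in charts is holomorphic -/
theorem contMDiffOn_of_charts {f : Y → ℂ} {W : Set Y} (hW : IsOpen W)
    (h : ∀ y ∈ W, ∃ e ∈ IsManifold.maximalAtlas 𝓘(ℂ, C2) 1 Y, y ∈ e.source ∧
      DifferentiableOn ℂ (fun z => f (e.symm z)) (e.target ∩ e.symm ⁻¹' W)) :
    ContMDiffOn 𝓘(ℂ, C2) 𝓘(ℂ, ℂ) 1 f W := by
  intro y hy
  obtain ⟨e, he, hye, hd⟩ := h y hy
  have ho : IsOpen (e.target ∩ e.symm ⁻¹' W) := e.isOpen_inter_preimage_symm hW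
  have h1 : ContDiffOn ℂ 1 (fun z => f (e.symm z)) (e.target ∩ e.symm ⁻¹' W) :=
    (Crest.Agent.R266.SCV.contDiffOn_omega_of_differentiableOn ho hd).of_le le_top
  have h2 : ContMDiffOn 𝓘(ℂ, C2) 𝓘(ℂ, ℂ) 1 (fun z => f (e.symm z)) (e.target ∩ e.symm ⁻¹' W) :=
    h1.contMDiffOn
  have h3 : ContMDiffOn 𝓘(ℂ, C2) 𝓘(ℂ, C2) 1 e e.source := contMDiffOn_of_mem_maximalAtlas he
  have h4 : ContMDiffOn 𝓘(ℂ, C2) 𝓘(ℂ, ℂ) 1 (fun y => f (e.symm (e y))) (e.source ∩ W) := by
    refine h2.comp (h3.mono inter_subset_left) (fun y hy => ?_)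
    refine ⟨e.map_source hy.1, ?_⟩
    simp only [mem_preimage]
    rw [e.left_inv hy.1]
    exact hy.2
  have h5 : ContMDiffOn 𝓘(ℂ, C2) 𝓘(ℂ, ℂ) 1 f (e.source ∩ W) := by
    refine h4.congr (fun y hy => ?_)
    rw [e.left_inv hy.1]
  exact ((h5.contMDiffAt ((e.open_source.inter hW).mem_nhds ⟨hye, hy⟩))).contMDiffWithinAt





end Surf

end Crest.Agent.R275.Mon908
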