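import Crest.Agent.R275.C1a_509
import Crest.Agent.R275.HolL_631
import Crest.Agent.R275.Mon_908
import Crest.Agent.R275.Lt2_893
import Crest.Agent.R275.Lam2_130
import Crest.Agent.R275.SolA_352
import Crest.Agent.R275.HolY_631
import Crest.Agent.R275.XN3_194
import Crest.Agent.R275.QSec_74
import Crest.Agent.R275.Fm2_96
import Crest.Agent.R275.WYc_681
import Crest.Agent.R275.C10b_195
import Crest.Agent.R275.WCxY_89

-- ▼ part R275/PluriK_731
section

/-!
R275 (S0418), block Q, leaf Q1 (helper731): pluricanonical forms.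

`jd e φ x`   : complex Jacobian determinant at `x` of the map `φ` read in the chart `e`
               (`jd e e' x = transitionDet X e e' x` of the Prelude), chain rules, holomorphy.
`PC m F`     : `F` is a pluricanonical form of weight `m` (values in all charts of the maximal atlas).
`pb m q F`   : pull back under a holomorphic map.
`PC.eq_zero_of_inv`    : a form which is invariant along the fibres of a local biholomorphism onto
                         `X` vanishes if all plurigenera of `X` vanish.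
`PC.eq_zero_of_cyclic` : the same for forms with `(g^N)^* F = t F`, `t^M = 1` (norm argument).
-/

set_option autoImplicit false
set_option linter.unusedSectionVars false

open Set Filter Topology Complex Crest.AlgGeometry.Surface
open scoped Manifold ContDiff

namespace Crest.Agent.R275.PluriK731

noncomputable section

/-! ### determinants on `C2` -/

theorem det_eq (f : C2 →L[ℂ] C2) : LinearMap.det f.toLinearMap =
    f (EuclideanSpace.single 0 1) 0 * f (EuclideanSpace.single 1 1) 1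
      - f (EuclideanSpace.single 1 1) 0 * f (EuclideanSpace.single 0 1) 1 := by
  rw [← LinearMap.det_toMatrix (EuclideanSpace.basisFun (Fin 2) ℂ).toBasis, Matrix.det_fin_two]
  simp [LinearMap.toMatrix_apply]

theorem det_comp' (f g : C2 →L[ℂ] C2) : LinearMap.det (f.comp g).toLinearMap =
    LinearMap.det f.toLinearMap * LinearMap.det g.toLinearMap := by
  have : (f.comp g).toLinearMap = f.toLinearMap ∘ₗ g.toLinearMap := rfl
  rw [this, LinearMap.det_comp]

theorem differentiableOn_det {f : C2 → C2} {W : Set C2} (hW : IsOpen W)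
    (hf : DifferentiableOn ℂ f W) :
    DifferentiableOn ℂ (fun z => LinearMap.det (fderiv ℂ f z).toLinearMap) W := by
  have h1 : AnalyticOnNhd ℂ (fderiv ℂ f) W :=
    (Crest.Agent.R266.SCV.analyticOnNhd_of_differentiableOn hW hf).fderiv
  have h2 : DifferentiableOn ℂ (fderiv ℂ f) W := h1.differentiableOn
  have h3 : ∀ (v : C2) (k : Fin 2), DifferentiableOn ℂ (fun z => (fderiv ℂ f z) v k) W := by
    intro v k
    have h4 : DifferentiableOn ℂ (fun z => (fderiv ℂ f z) v) W :=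
      h2.clm_apply (differentiableOn_const v)
    exact (EuclideanSpace.proj k : C2 →L[ℂ] ℂ).differentiable.comp_differentiableOn h4
  simp only [det_eq]
  exact ((h3 _ _).mul (h3 _ _)).sub ((h3 _ _).mul (h3 _ _))

/-! ### Jacobian determinants in charts -/

section jac

variable {X : Type} [TopologicalSpace X] [ChartedSpace C2 X]
variable {Y : Type} [TopologicalSpace Y] [ChartedSpace C2 Y]
variable {Z : Type} [TopologicalSpace Z] [ChartedSpace C2 Z]

/-- the maximal atlas -/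
abbrev MA (X : Type) [TopologicalSpace X] [ChartedSpace C2 X] :
    Set (OpenPartialHomeomorph X C2) := IsManifold.maximalAtlas 𝓘(ℂ, C2) 1 X

/-- holomorphic at a point -/
abbrev HAt (q : Z → Y) (z : Z) : Prop := ContMDiffAt 𝓘(ℂ, C2) 𝓘(ℂ, C2) 1 q z

/-- complex Jacobian determinant at `x` of the map `φ` read in the chart `e` -/
def jd (e : OpenPartialHomeomorph X C2) (φ : X → C2) (x : X) : ℂ :=
  LinearMap.det ((fderiv ℂ (φ ∘ e.symm) (e x)).toLinearMap)



theorem jd_self {e : OpenPartialHomeomorph X C2} {x : X} (hx : x ∈ e.source) : jd e e x = 1 := by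
  have h1 : e ∘ e.symm =ᶠ[𝓝 (e x)] id := by
    filter_upwards [e.open_target.mem_nhds (e.map_source hx)] with w hw
    simp [e.right_inv hw]
  unfold jd
  rw [h1.fderiv_eq, fderiv_id]
  simp

theorem diffAt_read [IsManifold 𝓘(ℂ, C2) 1 Z] [IsManifold 𝓘(ℂ, C2) 1 Y] {q : Z → Y} {z : Z}
    (hq : HAt q z) {e : OpenPartialHomeomorph Z C2} (he : e ∈ MA Z)
    {e' : OpenPartialHomeomorph Y C2} (he' : e' ∈ MA Y) (hz : z ∈ e.source)
    (hz' : q z ∈ e'.source) : DifferentiableAt ℂ ((e' ∘ q) ∘ e.symm) (e z) := by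
  have h1 : ContMDiffAt 𝓘(ℂ, C2) 𝓘(ℂ, C2) 1 e.symm (e z) :=
    contMDiffAt_symm_of_mem_maximalAtlas he (e.map_source hz)
  have h2 : ContMDiffAt 𝓘(ℂ, C2) 𝓘(ℂ, C2) 1 e' (q z) := contMDiffAt_of_mem_maximalAtlas he' hz'
  have h3 : ContMDiffAt 𝓘(ℂ, C2) 𝓘(ℂ, C2) 1 (e' ∘ q) z := h2.comp z hq
  have h3' : ContMDiffAt 𝓘(ℂ, C2) 𝓘(ℂ, C2) 1 (e' ∘ q) (e.symm (e z)) := by
    rwa [e.left_inv hz]
  have h4 : ContMDiffAt 𝓘(ℂ, C2) 𝓘(ℂ, C2) 1 ((e' ∘ q) ∘ e.symm) (e z) :=
    ContMDiffAt.comp (e z) h3' h1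
  rw [contMDiffAt_iff_contDiffAt] at h4
  exact h4.differentiableAt one_ne_zero

/-- the chain rule -/
theorem jd_comp [IsManifold 𝓘(ℂ, C2) 1 Z] [IsManifold 𝓘(ℂ, C2) 1 Y] [IsManifold 𝓘(ℂ, C2) 1 X]
    {q : Z → Y} {r : Y → X} {z : Z} (hq : HAt q z) (hr : HAt r (q z))
    {e : OpenPartialHomeomorph Z C2} (he : e ∈ MA Z) {e' : OpenPartialHomeomorph Y C2}
    (he' : e' ∈ MA Y) {e'' : OpenPartialHomeomorph X C2} (he'' : e'' ∈ MA X)
    (hz : z ∈ e.source) (hz' : q z ∈ e'.source) (hz'' : r (q z) ∈ e''.source) :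
    jd e (e'' ∘ (r ∘ q)) z = jd e' (e'' ∘ r) (q z) * jd e (e' ∘ q) z := by
  have hT : Tendsto e.symm (𝓝 (e z)) (𝓝 z) := by
    have := (e.continuousAt_symm (e.map_source hz)).tendsto
    rwa [e.left_inv hz] at this
  have h1 : (e'' ∘ (r ∘ q)) ∘ e.symm =ᶠ[𝓝 (e z)]
      ((e'' ∘ r) ∘ e'.symm) ∘ ((e' ∘ q) ∘ e.symm) := by
    have h2 : ∀ᶠ w in 𝓝 (e z), q (e.symm w) ∈ e'.source :=
      (hq.continuousAt.tendsto.comp hT).eventually (e'.open_source.mem_nhds hz')
    filter_upwards [h2] with w hw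
    simp [Function.comp_def, e'.left_inv hw]
  have h3 : DifferentiableAt ℂ ((e' ∘ q) ∘ e.symm) (e z) := diffAt_read hq he he' hz hz'
  have h4 : DifferentiableAt ℂ ((e'' ∘ r) ∘ e'.symm) (e' (q z)) :=
    diffAt_read hr he' he'' hz' hz''
  have h5 : ((e' ∘ q) ∘ e.symm) (e z) = e' (q z) := by simp [e.left_inv hz]
  unfold jd
  rw [h1.fderiv_eq, fderiv_comp (e z) (by rw [h5]; exact h4) h3, h5, det_comp']

theorem hAt_id (z : Z) : HAt (id : Z → Z) z := contMDiffAt_id

/-- change of the chart in the source -/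
theorem jd_left [IsManifold 𝓘(ℂ, C2) 1 Z] [IsManifold 𝓘(ℂ, C2) 1 Y]
    {q : Z → Y} {z : Z} (hq : HAt q z)
    {e e₁ : OpenPartialHomeomorph Z C2} (he : e ∈ MA Z) (he₁ : e₁ ∈ MA Z)
    {e' : OpenPartialHomeomorph Y C2} (he' : e' ∈ MA Y)
    (hz : z ∈ e.source) (hz₁ : z ∈ e₁.source) (hz' : q z ∈ e'.source) :
    jd e (e' ∘ q) z = jd e e₁ z * jd e₁ (e' ∘ q) z := by
  have := jd_comp (q := (id : Z → Z)) (r := q) (hAt_id z) hq he he₁ he' hz hz₁ hz'
  simp only [Function.comp_id, id] at this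
  rw [this, mul_comm]

/-- change of the chart in the target -/
theorem jd_right [IsManifold 𝓘(ℂ, C2) 1 Z] [IsManifold 𝓘(ℂ, C2) 1 Y]
    {q : Z → Y} {z : Z} (hq : HAt q z)
    {e : OpenPartialHomeomorph Z C2} (he : e ∈ MA Z)
    {e' e₁ : OpenPartialHomeomorph Y C2} (he' : e' ∈ MA Y) (he₁ : e₁ ∈ MA Y)
    (hz : z ∈ e.source) (hz' : q z ∈ e'.source) (hz₁ : q z ∈ e₁.source) :
    jd e (e₁ ∘ q) z = jd e' e₁ (q z) * jd e (e' ∘ q) z := by
  have := jd_comp (q := q) (r := (id : Y → Y)) hq (hAt_id _) he he' he₁ hz hz' hz₁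
  simpa using this

/-- cocycle rule for transition determinants -/
theorem jd_mul [IsManifold 𝓘(ℂ, C2) 1 Z] {e e' e'' : OpenPartialHomeomorph Z C2}
    (he : e ∈ MA Z) (he' : e' ∈ MA Z) (he'' : e'' ∈ MA Z) {z : Z} (hz : z ∈ e.source)
    (hz' : z ∈ e'.source) (hz'' : z ∈ e''.source) : jd e e' z * jd e' e'' z = jd e e'' z := by
  have := jd_left (q := (id : Z → Z)) (hAt_id z) he he' he'' hz hz' hz''
  simp only [Function.comp_id] at this
  exact this.symm

theorem jd_ne_zero [IsManifold 𝓘(ℂ, C2) 1 Z] {e e' : OpenPartialHomeomorph Z C2}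
    (he : e ∈ MA Z) (he' : e' ∈ MA Z) {z : Z} (hz : z ∈ e.source) (hz' : z ∈ e'.source) :
    jd e e' z ≠ 0 := by
  intro h0
  have h1 := jd_mul he he' he hz hz' hz
  rw [h0, zero_mul, jd_self hz] at h1
  exact zero_ne_one h1


/-- the Jacobian determinant depends holomorphically on the point -/
theorem differentiableAt_jd [IsManifold 𝓘(ℂ, C2) 1 Z] [IsManifold 𝓘(ℂ, C2) 1 Y]
    {q : Z → Y} (hq : ContMDiff 𝓘(ℂ, C2) 𝓘(ℂ, C2) 1 q)
    {e : OpenPartialHomeomorph Z C2} (he : e ∈ MA Z)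
    {e' : OpenPartialHomeomorph Y C2} (he' : e' ∈ MA Y) {w : C2} (hw : w ∈ e.target)
    (hw' : q (e.symm w) ∈ e'.source) :
    DifferentiableAt ℂ (fun w => jd e (e' ∘ q) (e.symm w)) w := by
  set W : Set C2 := e.target ∩ e.symm ⁻¹' (q ⁻¹' e'.source) with hWdef
  have hW : IsOpen W :=
    e.isOpen_inter_preimage_symm (e'.open_source.preimage hq.continuous)
  have h1 : DifferentiableOn ℂ ((e' ∘ q) ∘ e.symm) W := by
    intro v hv
    have h2 := diffAt_read (hq (e.symm v)) he he' (e.map_target hv.1) hv.2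
    rw [e.right_inv hv.1] at h2
    exact h2.differentiableWithinAt
  have h3 := differentiableOn_det hW h1
  have h4 : DifferentiableAt ℂ
      (fun z => LinearMap.det (fderiv ℂ ((e' ∘ q) ∘ e.symm) z).toLinearMap) w :=
    h3.differentiableAt (hW.mem_nhds ⟨hw, hw'⟩)
  refine h4.congr_of_eventuallyEq ?_
  filter_upwards [e.open_target.mem_nhds hw] with v hv
  unfold jd
  rw [e.right_inv hv]

end jac

/-! ### pluricanonical forms -/

section PCsec

variable {X : Type} [TopologicalSpace X] [ChartedSpace C2 X]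
variable {Y : Type} [TopologicalSpace Y] [ChartedSpace C2 Y]
variable {Z : Type} [TopologicalSpace Z] [ChartedSpace C2 Z]

/-- pluricanonical forms of weight `m` -/
structure PC (m : ℕ) (F : OpenPartialHomeomorph Z C2 → Z → ℂ) : Prop where
  hol : ∀ e ∈ MA Z, ∀ w ∈ e.target, DifferentiableAt ℂ (fun w => F e (e.symm w)) w
  tr : ∀ e ∈ MA Z, ∀ e' ∈ MA Z, ∀ z, z ∈ e.source → z ∈ e'.source →
    F e z = jd e e' z ^ m * F e' z

/-- the form vanishes identically -/
def IsZ (F : OpenPartialHomeomorph Z C2 → Z → ℂ) : Prop := ∀ e ∈ MA Z, ∀ z ∈ e.source, F e z = 0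

theorem PC.eq_zero_iff [IsManifold 𝓘(ℂ, C2) 1 Z] {m : ℕ}
    {F : OpenPartialHomeomorph Z C2 → Z → ℂ} (hF : PC m F)
    {e e' : OpenPartialHomeomorph Z C2} (he : e ∈ MA Z) (he' : e' ∈ MA Z) {z : Z}
    (hz : z ∈ e.source) (hz' : z ∈ e'.source) : F e z = 0 ↔ F e' z = 0 := by
  rw [hF.tr e he e' he' z hz hz', mul_eq_zero]
  constructor
  · rintro (h | h)
    · exact absurd h (pow_ne_zero _ (jd_ne_zero he he' hz hz'))
    · exact h
  · exact Or.inr

theorem PC.contAt [IsManifold 𝓘(ℂ, C2) 1 Z] {m : ℕ} {F : OpenPartialHomeomorph Z C2 → Z → ℂ}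
    (hF : PC m F) {e : OpenPartialHomeomorph Z C2} (he : e ∈ MA Z) {z : Z} (hz : z ∈ e.source) :
    ContinuousAt (F e) z := by
  have h1 : ContinuousAt ((fun w => F e (e.symm w)) ∘ e) z :=
    ContinuousAt.comp (hF.hol e he _ (e.map_source hz)).continuousAt (e.continuousAt hz)
  refine h1.congr ?_
  filter_upwards [e.open_source.mem_nhds hz] with y hy
  simp [e.left_inv hy]




theorem PC.mul {m m' : ℕ} {F F' : OpenPartialHomeomorph Z C2 → Z → ℂ} (hF : PC m F)
    (hF' : PC m' F') : PC (m + m') (fun e z => F e z * F' e z) := by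
  constructor
  · intro e he w hw
    exact (hF.hol e he w hw).mul (hF'.hol e he w hw)
  · intro e he e' he' z hz hz'
    rw [hF.tr e he e' he' z hz hz', hF'.tr e he e' he' z hz hz', pow_add]
    ring

theorem PC_one : PC 0 (fun (_ : OpenPartialHomeomorph Z C2) (_ : Z) => (1 : ℂ)) :=
  ⟨fun _ _ _ _ => differentiableAt_const _, fun _ _ _ _ _ _ _ => by simp⟩

theorem PC.pow {m : ℕ} {F : OpenPartialHomeomorph Z C2 → Z → ℂ} (hF : PC m F) (k : ℕ) :
    PC (k * m) (fun e z => F e z ^ k) := by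
  induction k with
  | zero => simpa using PC_one
  | succ k ih =>
    have := ih.mul hF
    rw [Nat.succ_mul]
    simpa only [pow_succ] using this

theorem PC.prod {m : ℕ} {F : ℕ → OpenPartialHomeomorph Z C2 → Z → ℂ} (hF : ∀ k, PC m (F k))
    (N : ℕ) : PC (N * m) (fun e z => ∏ k ∈ Finset.range N, F k e z) := by
  induction N with
  | zero => simpa using PC_one
  | succ N ih =>
    have := ih.mul (hF N)
    rw [Nat.succ_mul]
    simpa only [Finset.prod_range_succ] using this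

/-- pull back of a pluricanonical form -/
def pb (m : ℕ) (q : Z → Y) (F : OpenPartialHomeomorph Y C2 → Y → ℂ) :
    OpenPartialHomeomorph Z C2 → Z → ℂ := fun e z =>
  jd e (chartAt C2 (q z) ∘ q) z ^ m * F (chartAt C2 (q z)) (q z)

theorem pb_eq [IsManifold 𝓘(ℂ, C2) 1 Z] [IsManifold 𝓘(ℂ, C2) 1 Y] {m : ℕ} {q : Z → Y}
    {F : OpenPartialHomeomorph Y C2 → Y → ℂ} (hF : PC m F) {z : Z} (hq : HAt q z)
    {e : OpenPartialHomeomorph Z C2} (he : e ∈ MA Z) (hz : z ∈ e.source)
    {e' : OpenPartialHomeomorph Y C2} (he' : e' ∈ MA Y) (hz' : q z ∈ e'.source) :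
    pb m q F e z = jd e (e' ∘ q) z ^ m * F e' (q z) := by
  have h1 : chartAt C2 (q z) ∈ MA Y := IsManifold.chart_mem_maximalAtlas _
  have h2 : q z ∈ (chartAt C2 (q z)).source := mem_chart_source C2 _
  unfold pb
  rw [hF.tr _ h1 e' he' (q z) h2 hz', jd_right hq he h1 he' hz h2 hz', mul_pow]
  ring

theorem PC.pull [IsManifold 𝓘(ℂ, C2) 1 Z] [IsManifold 𝓘(ℂ, C2) 1 Y] {m : ℕ} {q : Z → Y}
    {F : OpenPartialHomeomorph Y C2 → Y → ℂ} (hF : PC m F)
    (hq : ContMDiff 𝓘(ℂ, C2) 𝓘(ℂ, C2) 1 q) : PC m (pb m q F) := by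
  constructor
  · intro e he w hw
    set y := q (e.symm w) with hy
    have he' : chartAt C2 y ∈ MA Y := IsManifold.chart_mem_maximalAtlas _
    have hys : y ∈ (chartAt C2 y).source := mem_chart_source C2 _
    set e' := chartAt C2 y with he'def
    have hT : Tendsto e.symm (𝓝 w) (𝓝 (e.symm w)) := (e.continuousAt_symm hw).tendsto
    have h1 : DifferentiableAt ℂ (fun w => F e' (e'.symm w)) (e' y) :=
      hF.hol e' he' _ (e'.map_source hys)
    have h2 : DifferentiableAt ℂ ((e' ∘ q) ∘ e.symm) w := by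
      have := diffAt_read (hq (e.symm w)) he he' (e.map_target hw) hys
      rwa [e.right_inv hw] at this
    have h3 : DifferentiableAt ℂ (fun w => F e' (e'.symm (((e' ∘ q) ∘ e.symm) w))) w :=
      DifferentiableAt.comp w (g := fun w => F e' (e'.symm w)) (f := (e' ∘ q) ∘ e.symm) h1 h2
    have h4 : DifferentiableAt ℂ (fun w => jd e (e' ∘ q) (e.symm w)) w :=
      differentiableAt_jd hq he he' hw hys
    refine ((h4.pow m).mul h3).congr_of_eventuallyEq ?_
    have hT2 : Tendsto (fun v => q (e.symm v)) (𝓝 w) (𝓝 y) := (hq.continuous.tendsto _).comp hT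
    filter_upwards [e.open_target.mem_nhds hw, hT2.eventually (e'.open_source.mem_nhds hys)]
      with v hv hv'
    rw [pb_eq hF (hq _) he (e.map_target hv) he' hv']
    simp [e'.left_inv hv']
  · intro e₁ he₁ e₂ he₂ z hz₁ hz₂
    have h1 : chartAt C2 (q z) ∈ MA Y := IsManifold.chart_mem_maximalAtlas _
    have h2 : q z ∈ (chartAt C2 (q z)).source := mem_chart_source C2 _
    unfold pb
    rw [jd_left (hq z) he₁ he₂ h1 hz₁ hz₂ h2, mul_pow]
    ring





/-! ### the identity theorem -/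

/-- the cocycle of the `m`-th power of the canonical bundle for a covering family of charts -/
def KCoc [IsManifold 𝓘(ℂ, C2) 1 Z] {I : Type*} (m : ℕ) (e : I → OpenPartialHomeomorph Z C2)
    (he : ∀ i, e i ∈ MA Z) (hc : ∀ z, ∃ i, z ∈ (e i).source) : HolL631.Coc Z I where
  U i := (e i).source
  isOpen i := (e i).open_source
  cover := hc
  G i j z := jd (e i) (e j) z ^ m
  hol i j := by
    refine Mon908.contMDiffOn_of_charts ((e i).open_source.inter (e j).open_source) ?_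
    intro y hy
    refine ⟨e i, he i, hy.1, fun w hw => ?_⟩
    have h1 : DifferentiableAt ℂ (fun w => jd (e i) (e j ∘ id) ((e i).symm w)) w :=
      differentiableAt_jd contMDiff_id (he i) (he j) hw.1 hw.2.2
    exact ((h1.pow m)).differentiableWithinAt
  self i y hy := by rw [jd_self hy, one_pow]
  mul i j k y hi hj hk := by rw [← mul_pow, jd_mul (he i) (he j) (he k) hi hj hk]



theorem PC.isSec [IsManifold 𝓘(ℂ, C2) 1 Z] {I : Type*} {m : ℕ}
    {e : I → OpenPartialHomeomorph Z C2} {he : ∀ i, e i ∈ MA Z}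
    {hc : ∀ z, ∃ i, z ∈ (e i).source} {F : OpenPartialHomeomorph Z C2 → Z → ℂ} (hF : PC m F) :
    (KCoc m e he hc).IsSec (fun i => F (e i)) := by
  constructor
  · intro i
    refine Mon908.contMDiffOn_of_charts (e i).open_source ?_
    intro y hy
    exact ⟨e i, he i, hy, fun w hw => (hF.hol (e i) (he i) w hw.1).differentiableWithinAt⟩
  · intro i j y hi hj
    exact hF.tr _ (he i) _ (he j) y hi hj

/-- **identity theorem** for pluricanonical forms -/
theorem PC.isZ_of_eventually [IsManifold 𝓘(ℂ, C2) 1 Z] [PreconnectedSpace Z] {m : ℕ}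
    {F : OpenPartialHomeomorph Z C2 → Z → ℂ} (hF : PC m F) {z₀ : Z}
    (h : ∀ᶠ z in 𝓝 z₀, F (chartAt C2 z) z = 0) : IsZ F := by
  have he : ∀ z : Z, chartAt C2 z ∈ MA Z := fun z => IsManifold.chart_mem_maximalAtlas z
  have hc : ∀ z : Z, ∃ i : Z, z ∈ (chartAt C2 i).source := fun z => ⟨z, mem_chart_source C2 z⟩
  set L := KCoc m (fun z : Z => chartAt C2 z) he hc with hL
  have hs : L.IsSec (fun i => F (chartAt C2 i)) := hF.isSec
  have h1 : ∀ᶠ z in 𝓝 z₀, L.Van (fun i => F (chartAt C2 i)) z := by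
    filter_upwards [h] with z hz
    exact (L.van_iff hs (i := z) (mem_chart_source C2 z)).2 hz
  intro e hem z hz
  have h2 := L.eq_zero_of_eventually hs h1 z z (mem_chart_source C2 z)
  exact (hF.eq_zero_iff hem (he z) hz (mem_chart_source C2 z)).2 h2

/-- the non-vanishing set of a nonzero form is open and dense -/
theorem PC.dense [IsManifold 𝓘(ℂ, C2) 1 Z] [PreconnectedSpace Z] {m : ℕ}
    {F : OpenPartialHomeomorph Z C2 → Z → ℂ} (hF : PC m F) (h : ¬ IsZ F) :
    IsOpen {z | F (chartAt C2 z) z ≠ 0} ∧ Dense {z | F (chartAt C2 z) z ≠ 0} := by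
  constructor
  · rw [isOpen_iff_mem_nhds]
    intro z hz
    have hm : chartAt C2 z ∈ MA Z := IsManifold.chart_mem_maximalAtlas z
    have h1 : ∀ᶠ y in 𝓝 z, F (chartAt C2 z) y ≠ 0 :=
      (hF.contAt hm (mem_chart_source C2 z)).eventually_ne hz
    filter_upwards [h1, (chartAt C2 z).open_source.mem_nhds (mem_chart_source C2 z)] with y hy hy'
    intro h0
    exact hy ((hF.eq_zero_iff hm (IsManifold.chart_mem_maximalAtlas y) hy'
      (mem_chart_source C2 y)).2 h0)
  · intro z₀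
    rw [mem_closure_iff_frequently]
    intro h1
    refine h (hF.isZ_of_eventually (z₀ := z₀) ?_)
    filter_upwards [h1] with z hz
    exact not_not.1 hz

/-! ### descent -/

/-- `p` is a surjective local biholomorphism -/
structure LB (p : Z → X) : Prop where
  hol : ContMDiff 𝓘(ℂ, C2) 𝓘(ℂ, C2) 1 p
  surj : Function.Surjective p
  loc : ∀ z, ∃ σ : X → Z, HAt σ (p z) ∧ σ (p z) = z ∧ ∀ᶠ x in 𝓝 (p z), p (σ x) = x







/-! ### deck transformations and the norm -/

/-- `g` is a biholomorphism of `Z` over `X`, whose orbits are the fibres of `p` -/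
structure Dk (p : Z → X) (g : Z ≃ₜ Z) : Prop where
  hol : ContMDiff 𝓘(ℂ, C2) 𝓘(ℂ, C2) 1 g
  hol_symm : ContMDiff 𝓘(ℂ, C2) 𝓘(ℂ, C2) 1 g.symm
  pg : ∀ z, p (g z) = p z
  fib : ∀ z z', p z = p z' → ∃ k : ℤ, (g ^ k) z = z'











/-! ### the `Atl` version -/




end PCsec

end

end Crest.Agent.R275.PluriK731
namespace Crest.Agent.R275.PluriK731.LB
end Crest.Agent.R275.PluriK731.LB
end

-- ▼ part R275/KEx_967
section

/-!
# R275, block D, leaf D-K (helper967): `H⁰` of the weighted complexes of `K` on `Y` vanishes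

`ex₀_of_no_eigenvector` (algebra): a weighted complex with an operator `T` on degree zero which
preserves `W₀ a b` and the kernel of `d₀` and has no eigenvector in the kernel of `d₀`, with
finite-dimensional cohomology for arbitrarily small `a` and arbitrarily large `b`, has `Ex₀ a b` for
all `a b`.

`eig_of_pull`, `no_eig` : on the cover `YC u` with an atlas `A` covering the atlas `A'` of `X`
(helper194's `Cov A A'`), an eigen-family `D.pull v = μ • v` (`D` the deck transformation) in the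
kernel of `∂̄` with values in the pulled back cocycle gives an eigen-section with multiplier `μ` in
the sense of helper631/893; so `H⁰(X, G ⊗ L_t) = 0` for all `t ≠ 0` implies that there is none.

`ex₀_Y` : the combination.
-/

set_option autoImplicit false
set_option linter.unusedSectionVars false

open Set Filter Topology Complex
open scoped ContDiff ComplexConjugate Manifold

namespace Crest.Agent.R275.KEx967

open Geo Fm96 Q74 GG89
open Crest.AlgGeometry.Surface
open XN194 (Cov)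

noncomputable section

/-! ### algebra -/

theorem exists_rates_of_dense {P : ℝ → ℝ → Prop} {S T : Set ℝ} (hS : Dense S) (hT : Dense T)
    (h : ∀ a ∈ S, ∀ b ∈ T, P a b) (a b : ℝ) : ∃ a' ≤ a, ∃ b' ≥ b, P a' b' := by
  obtain ⟨a', h1, h2⟩ := hS.exists_lt a
  obtain ⟨b', h3, h4⟩ := hT.exists_gt b
  exact ⟨a', h2.le, b', h4.le, h a' h1 b' h3⟩

section alg

variable {Ω₀ Ω₁ Ω₂ : Type*} [AddCommGroup Ω₀] [Module ℂ Ω₀] [AddCommGroup Ω₁] [Module ℂ Ω₁]
  [AddCommGroup Ω₂] [Module ℂ Ω₂]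


end alg

/-! ### pull back of raw families along a covering -/

section pull

variable {M M' : Type} [TopologicalSpace M] [TopologicalSpace M'] {A : Atl 2 M} {A' : Atl 2 M'}
  (C : Cov A A')


/-- smoothness at a point lifts -/
theorem smP_pull {f : M' → ℂ} {F : M → ℂ} {i : A.ι} {x : M} (hx : x ∈ (A.e i).source)
    (h : SmP A' (C.r i) f (C.p x)) (he : ∀ y ∈ (A.e i).source, F y = f (C.p y)) :
    SmP A i F x := by
  unfold SmP at h ⊢
  rw [C.comp i x hx] at h
  filter_upwards [h, (A.e i).open_target.eventually_mem ((A.e i).map_source hx)] with z hz hzt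
  refine hz.congr_of_eventuallyEq ?_
  filter_upwards [(A.e i).open_target.mem_nhds hzt] with w hw
  rw [he _ ((A.e i).map_target hw), C.p_symm hw]

theorem isZ0_pull {g' : A'.ι → A'.ι → M' → ℂ} {g : A.ι → A.ι → M → ℂ}
    (hgg : ∀ i j, ∀ y ∈ (A.e i).source ∩ (A.e j).source, g i j y = g' (C.r i) (C.r j) (C.p y))
    {v : A'.ι → M' → ℂ} (hv : IsZ0 A' g' univ v) : IsZ0 A g univ (C.pull v) where
  sm i x hx _ := smP_pull C hx (hv.sm (C.r i) _ (C.src i x hx) trivial)
    fun y hy => C.pull_of_mem hy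
  off i x hx := C.pull_off hx
  tr i j x hx _ := by
    rw [C.pull_of_mem hx.1, C.pull_of_mem hx.2, hgg i j x hx]
    exact hv.tr _ _ _ (C.mem_src hx) trivial

theorem isZ1_pull {g' : A'.ι → A'.ι → M' → ℂ} {g : A.ι → A.ι → M → ℂ}
    (hgg : ∀ i j, ∀ y ∈ (A.e i).source ∩ (A.e j).source, g i j y = g' (C.r i) (C.r j) (C.p y))
    {v : A'.ι → M' → Fin 2 → ℂ} (hv : IsZ1 A' g' univ v) : IsZ1 A g univ (C.pull v) where
  sm i b x hx _ := smP_pull C (f := fun y => v (C.r i) y b) hx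
    (hv.sm (C.r i) b _ (C.src i x hx) trivial)
    fun y hy => by rw [C.pull_of_mem hy]
  off i x hx := C.pull_off hx
  tr i j x hx _ b := by
    rw [C.pull_of_mem hx.1, C.pull_of_mem hx.2, hgg i j x hx,
      hv.tr _ _ _ (C.mem_src hx) trivial b]
    congr 1
    exact Finset.sum_congr rfl fun c _ => by rw [C.J_eq hx]

theorem isZ2_pull {g' : A'.ι → A'.ι → M' → ℂ} {g : A.ι → A.ι → M → ℂ}
    (hgg : ∀ i j, ∀ y ∈ (A.e i).source ∩ (A.e j).source, g i j y = g' (C.r i) (C.r j) (C.p y))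
    {v : A'.ι → M' → ℂ} (hv : IsZ2 A' g' univ v) : IsZ2 A g univ (C.pull v) where
  sm i x hx _ := smP_pull C hx (hv.sm (C.r i) _ (C.src i x hx) trivial)
    fun y hy => C.pull_of_mem hy
  off i x hx := C.pull_off hx
  tr i j x hx _ := by
    rw [C.pull_of_mem hx.1, C.pull_of_mem hx.2, hgg i j x hx,
      hv.tr _ _ _ (C.mem_src hx) trivial]
    unfold dJ
    simp only [C.J_eq hx]

theorem d0_pull (v : A'.ι → M' → ℂ) : d0 A (C.pull v) = C.pull (d0 A' v) := by
  funext i x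
  by_cases hx : x ∈ (A.e i).source
  · rw [C.pull_of_mem hx]
    funext b
    rw [d0_of_mem hx, d0_of_mem (C.src i x hx)]
    exact C.db_of_eq (fun y hy => C.pull_of_mem hy) hx b
  · rw [C.pull_off hx, d0_of_not_mem hx]


/-- pull back of sections of line bundles -/
def pl0 {g' : A'.ι → A'.ι → M' → ℂ} {g : A.ι → A.ι → M → ℂ}
    (hgg : ∀ i j, ∀ y ∈ (A.e i).source ∩ (A.e j).source, g i j y = g' (C.r i) (C.r j) (C.p y)) :
    ZZ0 A' g' →ₗ[ℂ] ZZ0 A g where
  toFun v := ⟨C.pull v.1, isZ0_pull C hgg v.2⟩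
  map_add' u v := Subtype.ext (C.pull_add u.1 v.1)
  map_smul' c u := Subtype.ext (C.pull_smul c u.1)

/-- pull back of `(0,1)`-forms -/
def pl1 {g' : A'.ι → A'.ι → M' → ℂ} {g : A.ι → A.ι → M → ℂ}
    (hgg : ∀ i j, ∀ y ∈ (A.e i).source ∩ (A.e j).source, g i j y = g' (C.r i) (C.r j) (C.p y)) :
    ZZ1 A' g' →ₗ[ℂ] ZZ1 A g where
  toFun v := ⟨C.pull v.1, isZ1_pull C hgg v.2⟩
  map_add' u v := Subtype.ext (C.pull_add u.1 v.1)
  map_smul' c u := Subtype.ext (C.pull_smul c u.1)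

/-- pull back of `(0,2)`-forms -/
def pl2 {g' : A'.ι → A'.ι → M' → ℂ} {g : A.ι → A.ι → M → ℂ}
    (hgg : ∀ i j, ∀ y ∈ (A.e i).source ∩ (A.e j).source, g i j y = g' (C.r i) (C.r j) (C.p y)) :
    ZZ2 A' g' →ₗ[ℂ] ZZ2 A g where
  toFun v := ⟨C.pull v.1, isZ2_pull C hgg v.2⟩
  map_add' u v := Subtype.ext (C.pull_add u.1 v.1)
  map_smul' c u := Subtype.ext (C.pull_smul c u.1)

section pl

variable {g' : A'.ι → A'.ι → M' → ℂ} {g : A.ι → A.ι → M → ℂ}
  (hgg : ∀ i j, ∀ y ∈ (A.e i).source ∩ (A.e j).source, g i j y = g' (C.r i) (C.r j) (C.p y))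

@[simp] theorem coe_pl0 (v : ZZ0 A' g') : ((pl0 C hgg v : ZZ0 A g) : A.ι → M → ℂ) = C.pull v.1 :=
  rfl
@[simp] theorem coe_pl1 (v : ZZ1 A' g') :
    ((pl1 C hgg v : ZZ1 A g) : A.ι → M → Fin 2 → ℂ) = C.pull v.1 := rfl
@[simp] theorem coe_pl2 (v : ZZ2 A' g') : ((pl2 C hgg v : ZZ2 A g) : A.ι → M → ℂ) = C.pull v.1 :=
  rfl

theorem D0_pl0 (hg' : IsLC A' g') (hg : IsLC A g) (v : ZZ0 A' g') :
    D0 hg (pl0 C hgg v) = pl1 C hgg (D0 hg' v) := Subtype.ext (d0_pull C v.1)


end pl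

end pull

/-! ### eigen-families on `YC u` -/

section eig

open Lt893 HolL631 ZC352

variable {X : Type} [TopologicalSpace X] [ChartedSpace C2 X] [IsManifold 𝓘(ℂ, C2) 1 X]
  {u : C(X, Circ)} {A' : Atl 2 X} {A : Atl 2 (YC u)}

/-- the covering `A → A'` over `YC u → X` with a deck transformation over `YC.dk u` -/
structure DkCov (u : C(X, Circ)) (A : Atl 2 (YC u)) (A' : Atl 2 X) where
  C : Cov A A'
  p : ∀ y, C.p y = YC.pr u y
  D : Cov A A
  dp : ∀ y, D.p y = YC.dk u y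
  dr : ∀ i, C.r (D.r i) = C.r i

/-- the cocycle `g` is the pull back of `G` -/
def DkCov.Pb (K : DkCov u A A') (G : A'.ι → A'.ι → X → ℂ) (g : A.ι → A.ι → YC u → ℂ) : Prop :=
  ∀ i j, ∀ y ∈ (A.e i).source ∩ (A.e j).source, g i j y = G (K.C.r i) (K.C.r j) (K.C.p y)

theorem DkCov.Pb.inv {K : DkCov u A A'} {G : A'.ι → A'.ι → X → ℂ} {g : A.ι → A.ι → YC u → ℂ}
    (h : K.Pb G g) : ∀ i j, ∀ y ∈ (A.e i).source ∩ (A.e j).source,
      g i j y = g (K.D.r i) (K.D.r j) (K.D.p y) := by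
  intro i j y hy
  rw [h i j y hy, h _ _ _ (K.D.mem_src hy), K.dr, K.dr, K.p, K.p, K.dp, YC.pr_dk]

open Classical in
/-- the family indexed by the charts of `A'` -/
def ds (K : DkCov u A A') (v : A.ι → YC u → ℂ) : A'.ι → YC u → ℂ := fun i' y =>
  if h : ∃ i, K.C.r i = i' ∧ y ∈ (A.e i).source then v h.choose y else 0

theorem ds_of_mem (K : DkCov u A A') (v : A.ι → YC u → ℂ) {i : A.ι} {y : YC u}
    (hy : y ∈ (A.e i).source) : ds K v (K.C.r i) y = v i y := by
  have h : ∃ j, K.C.r j = K.C.r i ∧ y ∈ (A.e j).source := ⟨i, rfl, hy⟩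
  unfold ds
  rw [dif_pos h]
  have h1 := h.choose_spec
  rw [K.C.uniq _ _ h1.1 y h1.2 hy]

theorem exists_sheet (K : DkCov u A A') {i' : A'.ι} {y : YC u}
    (hy : YC.pr u y ∈ (A'.e i').source) : ∃ i, K.C.r i = i' ∧ y ∈ (A.e i).source := by
  refine K.C.lift y i' ?_
  rwa [K.p]

/-- holomorphic in the chart implies holomorphic -/
theorem contMDiffAt_of_holP (K : DkCov u A A') (hA : HolA A') {i : A.ι} {f : YC u → ℂ} {y : YC u}
    (hy : y ∈ (A.e i).source) (h : HolP A i f y) : ContMDiffAt 𝓘(ℂ, C2) 𝓘(ℂ) 1 f y := by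
  have h1 : ContDiffAt ℂ 1 (fun z => f ((A.e i).symm z)) (A.e i y) := h.analyticAt.contDiffAt
  have h2 : ContMDiffAt 𝓘(ℂ, C2) 𝓘(ℂ, C2) 1 (fun x => A'.e (K.C.r i) (YC.pr u x)) y := by
    have h3 : ContMDiffAt 𝓘(ℂ, C2) 𝓘(ℂ, C2) 1 (A'.e (K.C.r i)) (YC.pr u y) := by
      refine (hA.ch (K.C.r i)).contMDiffAt ((A'.e (K.C.r i)).open_source.mem_nhds ?_)
      rw [← K.p]
      exact K.C.src i y hy
    exact h3.comp y (YC.contMDiff_pr u y)
  have h4 : A'.e (K.C.r i) (YC.pr u y) = A.e i y := by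
    rw [← K.p]; exact K.C.comp i y hy
  have h5 : ContMDiffAt 𝓘(ℂ, C2) 𝓘(ℂ) 1 ((fun z => f ((A.e i).symm z)) ∘
      fun x => A'.e (K.C.r i) (YC.pr u x)) y := by
    refine ContMDiffAt.comp y ?_ h2
    rw [h4]
    exact h1.contMDiffAt
  refine h5.congr_of_eventuallyEq ?_
  filter_upwards [(A.e i).open_source.mem_nhds hy] with x hx
  show f x = f ((A.e i).symm (A'.e (K.C.r i) (YC.pr u x)))
  rw [← K.p, K.C.comp i x hx, (A.e i).left_inv hx]

/-- **eigen-families give eigen-sections** -/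
theorem eig_of_pull (K : DkCov u A A') (hA : HolA A') {G : A'.ι → A'.ι → X → ℂ} (hG : IsLC A' G)
    {g : A.ι → A.ι → YC u → ℂ} (hgG : K.Pb G g) {v : A.ι → YC u → ℂ} (hv : IsH A g univ v)
    {μ : ℂ} (hμ : K.D.pull v = μ • v) :
    Eig (cocY u hA hG) (YC.dk u) (Equiv.refl A'.ι) μ (ds K v) where
  hol i' := by
    intro y hy
    refine ContMDiffAt.contMDiffWithinAt ?_
    obtain ⟨i, rfl, hi⟩ := exists_sheet K hy
    have h1 := contMDiffAt_of_holP K hA hi (hv.holP isOpen_univ hi trivial)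
    refine h1.congr_of_eventuallyEq ?_
    filter_upwards [(A.e i).open_source.mem_nhds hi] with x hx
    exact ds_of_mem K v hx
  tr i' j' y hi' hj' := by
    obtain ⟨i, rfl, hi⟩ := exists_sheet K hi'
    obtain ⟨j, rfl, hj⟩ := exists_sheet K hj'
    rw [ds_of_mem K v hi, ds_of_mem K v hj]
    show v i y = G (K.C.r i) (K.C.r j) (YC.pr u y) * v j y
    rw [← K.p, ← hgG i j y ⟨hi, hj⟩]
    exact hv.z0.tr i j y ⟨hi, hj⟩ trivial
  eig i' y hy := by
    obtain ⟨i, rfl, hi⟩ := exists_sheet K hy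
    have h1 := K.D.src i y hi
    have h2 : v (K.D.r i) (K.D.p y) = μ * v i y := by
      have h4 := congrFun (congrFun hμ i) y
      rw [K.D.pull_of_mem hi] at h4
      exact h4
    have h3 := ds_of_mem K v h1
    rw [K.dr] at h3
    show ds K v (K.C.r i) (YC.dk u y) = μ * ds K v (K.C.r i) y
    rw [ds_of_mem K v hi, ← h2, ← h3, K.dp]

/-- pull back by the deck transformation is injective -/
theorem eq_zero_of_pull (K : DkCov u A A') {v : A.ι → YC u → ℂ}
    (hoff : ∀ i, ∀ x ∉ (A.e i).source, v i x = 0) (h : K.D.pull v = 0) : v = 0 := by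
  funext i y
  by_cases hy : y ∈ (A.e i).source
  · have h1 : K.D.p ((YC.dk u).symm y) = y := by
      rw [K.dp]; exact (YC.dk u).apply_symm_apply y
    obtain ⟨j, rfl, hj⟩ := K.D.lift ((YC.dk u).symm y) i (by rw [h1]; exact hy)
    have h2 := congrFun (congrFun h j) ((YC.dk u).symm y)
    rw [K.D.pull_of_mem hj, h1] at h2
    exact h2
  · exact hoff i y hy

/-- **no eigen-families** if `H⁰(X, G ⊗ L_t) = 0` for all `t ≠ 0` -/
theorem no_eig (K : DkCov u A A') (hA : HolA A') {G : A'.ι → A'.ι → X → ℂ} (hG : IsLC A' G)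
    {g : A.ι → A.ι → YC u → ℂ} (hgG : K.Pb G g) {Z : ZD A'} (hZ : Z.Lift u)
    (hX : ∀ t : ℂ, t ≠ 0 → ∀ w, IsH0 A' (ltc Z t * G) w → w = 0)
    {v : A.ι → YC u → ℂ} (hv : IsH A g univ v) {μ : ℂ} (hμ : K.D.pull v = μ • v) : v = 0 := by
  by_contra hne
  have hμ0 : μ ≠ 0 := by
    rintro rfl
    rw [zero_smul] at hμ
    exact hne (eq_zero_of_pull K hv.z0.off hμ)
  have h1 : ∃ i, ∃ y ∈ (A.e i).source, v i y ≠ 0 := by
    by_contra hcon
    push Not at hcon
    apply hne
    funext i y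
    by_cases hy : y ∈ (A.e i).source
    · exact hcon i y hy
    · exact hv.z0.off i y hy
  obtain ⟨i, y, hy, hvy⟩ := h1
  have h2 := eig_of_pull K hA hG hgG hv hμ
  have h3 : YC.pr u y ∈ (A'.e (K.C.r i)).source := by
    rw [← K.p]; exact K.C.src i y hy
  obtain ⟨w, hw, hw0⟩ := (exists_h0_iff hA hG hZ (t := μ⁻¹) (inv_ne_zero hμ0)).2
    ⟨ds K v, by rw [inv_inv]; exact h2, K.C.r i, y, h3, by rw [ds_of_mem K v hy]; exact hvy⟩
  exact hw0 (hX _ (inv_ne_zero hμ0) w hw)


/-! ### instances -/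

section inst

open XN194 NAtl938






end inst

end eig

end

end Crest.Agent.R275.KEx967
end

-- ▼ part R275/KInv_967

/-!
# R275, block D, leaf D-K (helper967), file 2: deck invariance of the weighted spaces

`loc_auto`, `locJ_auto` : localisation of a section pulled back by an automorphism of the atlas;
`mem_WSm_auto` : helper681's weighted spaces `WSm B w` are invariant under the pull back by an
automorphism `φ` of `(A, P)` as soon as `w' i ≤ C w (φ i)`;
`hinv` : the hypothesis `hinv` of `KEx967.ex₀_Y` for helper89's `WCxY` over the spaces `WSm`.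
-/

set_option autoImplicit false
set_option linter.unusedSectionVars false

open Set Filter Topology Complex
open scoped ContDiff ComplexConjugate Manifold

namespace Crest.Agent.R275.KEx967

open Geo Tor812 C1d194 C10195 WY681

noncomputable section

section auto

variable {n : ℕ} {M : Type} [TopologicalSpace M] {A : Atl n M} {P : Part A} {Q : PNb P}
  {B : FBun A}

theorem rd_auto (φ : Auto A) (i : A.ι) {f g : M → ℂ}
    (h : ∀ x ∈ (A.e i).source, g x = f (φ.p x)) : rd A i g = rd A (φ.r i) f := by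
  funext x
  unfold rd
  by_cases hx : cc x ∈ (A.e i).target
  · have hx' : cc x ∈ (A.e (φ.r i)).target := by rw [φ.target]; exact hx
    rw [if_pos hx, if_pos hx', h _ ((A.e i).map_target hx), φ.symm_app hx]
  · have hx' : cc x ∉ (A.e (φ.r i)).target := by rw [φ.target]; exact hx
    rw [if_neg hx, if_neg hx']

theorem loc_auto (φ : Auto A) (i : A.ι) {κ κ' : Type} [Fintype κ'] {a a' : M → Matrix κ κ' ℂ}
    {u v : M → κ' → ℂ} (ha : ∀ x ∈ (A.e i).source, a' x = a (φ.p x))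
    (huv : ∀ x ∈ (A.e i).source, v x = u (φ.p x)) (k : κ) :
    loc A i a' v k = loc A (φ.r i) a u k := by
  have h : rd A i (fun x => (a' x).mulVec (v x) k) = rd A (φ.r i) (fun x => (a x).mulVec (u x) k) :=
    rd_auto φ i fun x hx => by rw [ha x hx, huv x hx]
  unfold loc
  by_cases h1 : perFun (rd A (φ.r i) (fun x => (a x).mulVec (u x) k)) ∈ SPer (RI n)
  · have h2 : perFun (rd A i (fun x => (a' x).mulVec (v x) k)) ∈ SPer (RI n) := by
      rw [h]; exact h1
    rw [dif_pos h1, dif_pos h2]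
    exact Subtype.ext (congrArg perFun h)
  · have h2 : perFun (rd A i (fun x => (a' x).mulVec (v x) k)) ∉ SPer (RI n) := by
      rw [h]; exact h1
    rw [dif_neg h1, dif_neg h2]

/-- localisation of a pulled back section -/
theorem locJ_auto (φ : Auto A) (hP : InvP P φ) {u v : Sec B}
    (huv : ∀ i, ∀ x ∈ (A.e i).source, v.1 i x = u.1 (φ.r i) (φ.p x)) (i : A.ι) (k : B.κ) :
    locJ P B v (i, k) = locJ P B u (φ.r i, k) :=
  loc_auto φ i (fun x hx => (hP.psi B.κ i x hx).symm) (huv i) k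

/-- **the weighted spaces are invariant under automorphisms** -/
theorem mem_WSm_auto (φ : Auto A) (hP : InvP P φ) {u v : Sec B}
    (huv : ∀ i, ∀ x ∈ (A.e i).source, v.1 i x = u.1 (φ.r i) (φ.p x)) {w w' : WY681.Wt Q} {C : ℝ}
    (hw : ∀ i, w'.w i ≤ C * w.w (φ.r i)) (hu : u ∈ WSm B w) : v ∈ WSm B w' := by
  rw [mem_WSm_iff] at hu ⊢
  intro s
  have h1 := (hu s).comp_injective (i := fun p : A.ι × B.κ => (φ.r p.1, p.2)) (by
    rintro ⟨i, k⟩ ⟨j, l⟩ h
    simp only [Prod.mk.injEq] at h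
    exact Prod.ext (φ.r.injective h.1) h.2)
  have h2 := h1.mul_left (C ^ 2)
  refine Summable.of_nonneg_of_le (fun p => sq_nonneg _) (fun p => ?_) h2
  rw [locJ_auto φ hP huv]
  have h3 : 0 ≤ nrm (s + sh B p.2) (locJ P B u (φ.r p.1, p.2)) := nrm_nonneg _ _
  have h4 : w'.w p.1 * nrm (s + sh B p.2) (locJ P B u (φ.r p.1, p.2)) ≤
      C * (w.w (φ.r p.1) * nrm (s + sh B p.2) (locJ P B u (φ.r p.1, p.2))) := by
    rw [← mul_assoc]
    exact mul_le_mul_of_nonneg_right (hw p.1) h3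
  calc (w'.w p.1 * nrm (s + sh B p.2) (locJ P B u (φ.r p.1, p.2))) ^ 2
      ≤ (C * (w.w (φ.r p.1) * nrm (s + sh B p.2) (locJ P B u (φ.r p.1, p.2)))) ^ 2 :=
        pow_le_pow_left₀ (mul_nonneg (w'.pos _).le h3) h4 2
    _ = C ^ 2 * (w.w (φ.r p.1) * nrm (s + sh B p.2) (locJ P B u (φ.r p.1, p.2))) ^ 2 := by ring

end auto

section W

open Fm96 Q74 GG89 WCxY89 LauB681 Lam2130
open Crest.AlgGeometry.Surface ZC352
open XN194 (Cov)

variable {M : Type} [TopologicalSpace M] {A : Atl 2 M} {P : Part A} {Q : PNb P}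
  {g : A.ι → A.ι → M → ℂ}

/-- the weighted complexes of helper89 over the spaces `WSm` are invariant under the pull back by
an automorphism -/
theorem hinv {hg : IsLC A g} {F : WF ℂ (SecL (LV hg))} {C : Cx F} (H : DolF hg C) (c : Cut C)
    (D : Cov A A) (hgg : ∀ i j, ∀ y ∈ (A.e i).source ∩ (A.e j).source,
      g i j y = g (D.r i) (D.r j) (D.p y))
    (φ : Auto A) (hp : ∀ y, φ.p y = D.p y) (hr : ∀ i, φ.r i = D.r i) (hP : InvP P φ)
    {w : ℝ → ℝ → WY681.Wt Q} (hV : ∀ a b, F.V a b = WSm (tw (lam2 A) (LV hg)) (w a b))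
    (hw : ∀ a b, ∃ C : ℝ, ∀ i, (w a b).w i ≤ C * (w a b).w (φ.r i))
    (a b : ℝ) (v : ZZ0 A g) (hv : v ∈ (WCxY H c).W₀ a b) : pl0 D hgg v ∈ (WCxY H c).W₀ a b := by
  rw [mem_W₀, hV] at hv ⊢
  obtain ⟨C, h1⟩ := hw a b
  refine mem_WSm_auto φ hP ?_ h1 hv
  intro i x hx
  rw [hp, hr]
  have h2 : D.pull v.1 i x = v.1 (D.r i) (D.p x) := D.pull_of_mem hx
  funext k
  obtain ⟨k, r⟩ := k
  fin_cases k
  · exact h2
  · rfl
  · rfl
  · rfl

end W

end

end Crest.Agent.R275.KEx967
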