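import Mathlib
import Crest.Agent.R275.FLe_606
import Crest.Agent.R275.FLSubA_884

-- ▼ part R275/FLf_606
section

/-!
R275 (S0418), helper606: flux lemma, part f.
The limit function with the exact mean value property.
-/

set_option autoImplicit false
set_option linter.unusedSectionVars false

open MeasureTheory Set Metric Filter Topology
open scoped ENNReal NNReal

noncomputable section

namespace Crest.Agent.R275.FL606

variable {E : Type*} [NormedAddCommGroup E] [NormedSpace ℂ E] [MeasurableSpace E] [BorelSpace E]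
  [FiniteDimensional ℝ E]
  {Y : Type*} [TopologicalSpace Y] [MeasurableSpace Y] [BorelSpace Y] [PreconnectedSpace Y]
  {ι : Type*} [Finite ι]
  {g : Y ≃ₜ Y} {C : Cov E g ι} {g0 : Y → ℝ} {G C₀ : ℝ}
  (μ : Measure E) [μ.IsAddHaarMeasure]

lemma continuous_conv {κ : E → ℝ} (hκ : Ker μ κ) {ψ : E → ℝ} (hψ : Integrable ψ μ) {L : ℝ}
    (hL : ∀ v w, |κ v - κ w| ≤ L * ‖v - w‖) : Continuous (conv μ κ ψ) := by
  have hL0 : 0 ≤ L * ∫ x, |ψ x| ∂μ ∨ L * ∫ x, |ψ x| ∂μ < 0 := le_or_gt _ _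
  rw [Metric.continuous_iff]
  intro z ε hε
  refine ⟨ε / (|L * ∫ x, |ψ x| ∂μ| + 1), by positivity, fun z' hz' => ?_⟩
  rw [Real.dist_eq]
  have h1 := abs_conv_sub_le μ hκ hψ hL z' z
  rw [dist_eq_norm] at hz'
  have h2 : L * (∫ x, |ψ x| ∂μ) * ‖z' - z‖ ≤ |L * ∫ x, |ψ x| ∂μ| * ‖z' - z‖ :=
    mul_le_mul_of_nonneg_right (le_abs_self _) (norm_nonneg _)
  have h3 : (|L * ∫ x, |ψ x| ∂μ| + 1) * ‖z' - z‖ < ε := by
    rw [lt_div_iff₀ (by positivity)] at hz'
    linarith
  nlinarith [norm_nonneg (z' - z)]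

lemma integrable_circ_of_continuous {f : E → ℝ} (hf : Continuous f) {K : ℝ}
    (hK : ∀ z, |f z| ≤ K) (z v : E) : Integrable (fun θ : ℝ => f (z + ang θ • v)) circ := by
  have h : Continuous (fun θ : ℝ => z + ang θ • v) := by
    have := continuous_ang
    fun_prop
  refine Integrable.of_bound (hf.comp h).aestronglyMeasurable K (Eventually.of_forall fun θ => ?_)
  rw [Real.norm_eq_abs]; exact hK _

/-! ### one step -/

section one

variable {ε η : ℝ} (S : Step C g0 ε η) (hH : Height C g0 G C₀) (hε0 : 0 ≤ ε) (i : ι)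
  {κ : E → ℝ} (hκ : Ker μ κ) {L Kκ : ℝ} (hL : ∀ v w, |κ v - κ w| ≤ L * ‖v - w‖)
  (hKκ : ∀ v, κ v ≤ Kκ) {K K' : ℝ≥0}
  (hw : ∫⁻ x in closedBall (0:E) 3, S.w (C.p i x) ∂μ ≤ K)
  (hu : ∫⁻ x in closedBall (0:E) 3, S.u (C.p i x) ∂μ ≤ K')

include hH hw hu in
lemma Step.lg_b : lg (S.bi i) =ᵐ[μ] fun x => lg (S.abi i) x - lg (S.ai i) x := by
  filter_upwards [S.pos_a μ hH i hw, S.pos_ab μ i hu] with x h1 h2
  by_cases hx : x ∈ closedBall (0:E) 3
  · simp only [lg, indicator_of_mem hx]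
    have ha := h1 hx
    have hab := h2 hx
    have hb : 0 < S.bi i x := by
      have h3 : S.abi i x = S.ai i x * S.bi i x := rfl
      rw [h3] at hab
      exact pos_of_mul_pos_right hab ha.le
    have : S.abi i x = S.ai i x * S.bi i x := rfl
    rw [this, Real.log_mul ha.ne' hb.ne']
    ring
  · simp only [lg, indicator_of_notMem hx, sub_zero]

include hH hw hu in
lemma Step.integrable_b : Integrable (lg (S.bi i)) μ :=
  ((S.integrable_ab μ i hu).1.sub (S.integrable_a μ hH i hw).1).congr (S.lg_b μ hH i hw hu).symm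

include hH hw hu in
lemma Step.pos_b : ∀ᵐ x ∂μ, x ∈ closedBall (0:E) 3 → 0 < S.bi i x := by
  filter_upwards [S.pos_a μ hH i hw, S.pos_ab μ i hu] with x h1 h2 hx
  have ha := h1 hx
  have hab := h2 hx
  have h3 : S.abi i x = S.ai i x * S.bi i x := rfl
  rw [h3] at hab
  exact pos_of_mul_pos_right hab ha.le

include hH hw hu hκ in
lemma Step.conv_ab (z : E) :
    conv μ κ (lg (S.abi i)) z = conv μ κ (lg (S.ai i)) z + conv μ κ (lg (S.bi i)) z := by
  have hia := (S.integrable_a μ hH i hw).1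
  have hib := S.integrable_b μ hH i hw hu
  unfold conv
  rw [← integral_add (integrable_conv μ hκ hia z) (integrable_conv μ hκ hib z)]
  refine integral_congr_ae ?_
  filter_upwards [S.lg_b μ hH i hw hu] with x hx
  rw [hx]; ring

lemma Step.lg_ab_nonpos (x : E) : lg (S.abi i) x ≤ 0 := by
  unfold lg
  by_cases hx : x ∈ closedBall (0:E) 3
  · rw [indicator_of_mem hx]
    exact Real.log_nonpos (mul_nonneg (S.a0 _) (S.b0 _)) (S.able _)
  · rw [indicator_of_notMem hx]

include hκ in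
lemma Step.conv_ab_nonpos (z : E) : conv μ κ (lg (S.abi i)) z ≤ 0 := by
  unfold conv
  refine integral_nonpos fun x => ?_
  exact mul_nonpos_of_nonneg_of_nonpos (hκ.nonneg _) (S.lg_ab_nonpos i x)

include hH hε0 hκ hL hKκ hw hu in
/-- near mean value property of the convolution -/
lemma Step.near_mean {z v : E}
    (hd : ∀ w : ℂ, ‖w‖ ≤ 1 → ball (z + w • v) 1 ⊆ closedBall (0:E) 3) :
    |conv μ κ (lg (S.ai i)) z - av (conv μ κ (lg (S.ai i))) z v| ≤ ε * ‖v‖ ^ 2 + Kκ * K' := by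
  have hia := (S.integrable_a μ hH i hw).1
  have hib := S.integrable_b μ hH i hw hu
  obtain ⟨hiab, hab⟩ := S.integrable_ab μ i hu
  have hsub : closedBall (0:E) 3 ⊆ ball (0:E) 16 := closedBall_subset_ball (by norm_num)
  obtain ⟨M, hM⟩ := S.bM
  have ha := conv_le_av μ hκ (S.ma' i) (S.pos_a μ hH i hw) hia (c := ε) (M := G) hε0
    (B := ball (0:E) 16) (fun z hz => S.a_bound hH i hz) hsub (S.sa i) hd
  have hb := conv_le_av μ hκ (S.mb' i) (S.pos_b μ hH i hw hu) hib (c := ε) (M := M) hε0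
    (B := ball (0:E) 16) (fun z hz => hM i z hz) hsub (S.sb i) hd
  change conv μ κ (lg (S.ai i)) z ≤ av (conv μ κ (lg (S.ai i))) z v + ε * ‖v‖ ^ 2 at ha
  change conv μ κ (lg (S.bi i)) z ≤ av (conv μ κ (lg (S.bi i))) z v + ε * ‖v‖ ^ 2 at hb
  have hKκ0 : 0 ≤ Kκ := (hκ.nonneg 0).trans (hKκ 0)
  have h1 := S.conv_ab μ hH i hκ hw hu
  have h2 : av (conv μ κ (lg (S.abi i))) z v =
      av (conv μ κ (lg (S.ai i))) z v + av (conv μ κ (lg (S.bi i))) z v := by
    unfold av
    rw [← integral_add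
      (integrable_circ_of_continuous (continuous_conv μ hκ hia hL) (abs_conv_le μ hκ hia hKκ) z v)
      (integrable_circ_of_continuous (continuous_conv μ hκ hib hL) (abs_conv_le μ hκ hib hKκ) z v)]
    congr 1; funext θ
    exact h1 _
  have h3 : av (conv μ κ (lg (S.abi i))) z v ≤ 0 :=
    integral_nonpos fun θ => S.conv_ab_nonpos μ i hκ _
  have h4 := abs_conv_le μ hκ hiab hKκ z
  have h5 : Kκ * ∫ x, |lg (S.abi i) x| ∂μ ≤ Kκ * K' := mul_le_mul_of_nonneg_left hab hKκ0
  have h6 := abs_le.1 (h4.trans h5)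
  have h7 := h1 z
  have h8 : 0 ≤ Kκ * (K':ℝ) := by positivity
  rw [abs_le]
  constructor
  · linarith [h6.1]
  · linarith

include hH hε0 hκ hw hu in
/-- at points with small defect the function is close to its convolution -/
lemma Step.near_pt {z : E} (hz : ball z 1 ⊆ closedBall (0:E) 3) {δ : ℝ} (hδ : 0 ≤ δ)
    (huz : S.u (C.p i z) ≤ ENNReal.ofReal δ) :
    0 < S.a (C.p i z) ∧ |Real.log (S.a (C.p i z)) - conv μ κ (lg (S.ai i)) z| ≤ ε + δ := by
  have hia := (S.integrable_a μ hH i hw).1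
  have hib := S.integrable_b μ hH i hw hu
  have hsub : closedBall (0:E) 3 ⊆ ball (0:E) 16 := closedBall_subset_ball (by norm_num)
  obtain ⟨M, hM⟩ := S.bM
  have hab0 : S.a (C.p i z) * S.b (C.p i z) ≠ 0 := by
    intro h
    simp only [Step.u, costY] at huz
    rw [if_pos h, top_le_iff] at huz
    exact ENNReal.ofReal_ne_top huz
  have hapos : 0 < S.a (C.p i z) := lt_of_le_of_ne (S.a0 _) (Ne.symm (left_ne_zero_of_mul hab0))
  have hbpos : 0 < S.b (C.p i z) := lt_of_le_of_ne (S.b0 _) (Ne.symm (right_ne_zero_of_mul hab0))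
  have huz' : -Real.log (S.a (C.p i z) * S.b (C.p i z)) ≤ δ := by
    simp only [Step.u, costY] at huz
    rw [if_neg hab0, zero_sub] at huz
    exact (ENNReal.ofReal_le_ofReal_iff hδ).1 huz
  have ha : Real.log (S.a (C.p i z)) ≤ conv μ κ (lg (S.ai i)) z + ε :=
    log_le_conv μ hκ (S.ma' i) (S.pos_a μ hH i hw) hia (c := ε) (M := G) hε0
      (B := ball (0:E) 16) (fun z hz => S.a_bound hH i hz) hsub (S.sa i) hz hapos
  have hb : Real.log (S.b (C.p i z)) ≤ conv μ κ (lg (S.bi i)) z + ε :=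
    log_le_conv μ hκ (S.mb' i) (S.pos_b μ hH i hw hu) hib (c := ε) (M := M) hε0
      (B := ball (0:E) 16) (fun z hz => hM i z hz) hsub (S.sb i) hz hbpos
  have h1 := S.conv_ab μ hH i hκ hw hu z
  have h2 := S.conv_ab_nonpos μ i hκ z
  rw [Real.log_mul hapos.ne' hbpos.ne'] at huz'
  refine ⟨hapos, ?_⟩
  rw [abs_le]
  constructor <;> linarith

end one

/-! ### limits along the ultrafilter -/

lemma exists_lim_real {x : ℕ → ℝ} {M : ℝ} (h : ∀ᶠ n in UF, |x n| ≤ M) :
    ∃ l, Tendsto x UF (𝓝 l) := by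
  obtain ⟨l, _, h2⟩ := (isCompact_Icc (a := -M) (b := M)).ultrafilter_le_nhds
    (Ultrafilter.map x (hyperfilter ℕ)) (by
    rw [Ultrafilter.coe_map, le_principal_iff, mem_map]
    exact h.mono fun n hn => abs_le.1 hn)
  exact ⟨l, h2⟩

lemma ae_circ : ∀ᵐ θ ∂circ, θ ∈ Ioc (0:ℝ) (2 * Real.pi) := by
  unfold circ
  exact Measure.ae_smul_measure (ae_restrict_mem measurableSet_Ioc) _

lemma norm_ang_sub_le (s t : ℝ) : ‖ang s - ang t‖ ≤ |s - t| := by
  have h1 : ang s - ang t = ang t * (ang (s - t) - 1) := by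
    unfold ang
    rw [mul_sub, ← Complex.exp_add, mul_one]
    congr 2
    push_cast; ring
  rw [h1, norm_mul, norm_ang, one_mul]
  have h2 := Real.norm_exp_I_mul_ofReal_sub_one_le (x := s - t)
  rw [mul_comm Complex.I] at h2
  exact h2

/-- interchange of limit and circle average for uniformly Lipschitz functions -/
lemma tendsto_av {A : ℕ → E → ℝ} {H : E → ℝ} {L : ℝ}
    (hL : ∀ᶠ n in UF, ∀ z z', |A n z - A n z'| ≤ L * ‖z - z'‖)
    (hp : ∀ z, Tendsto (fun n => A n z) UF (𝓝 (H z))) (z v : E) :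
    Tendsto (fun n => av (A n) z v) UF (𝓝 (av H z v)) := by
  have hL0 : 0 ≤ L ∨ L < 0 := le_or_gt _ _
  -- `H` is Lipschitz
  have hHL : ∀ z z', |H z - H z'| ≤ L * ‖z - z'‖ := by
    intro z z'
    have h1 : Tendsto (fun n => |A n z - A n z'|) UF (𝓝 |H z - H z'|) :=
      ((hp z).sub (hp z')).abs
    exact le_of_tendsto h1 (hL.mono fun n hn => hn z z')
  set L' := |L| with hL'
  have hLL' : L ≤ L' := le_abs_self L
  have hcont : ∀ f : E → ℝ, (∀ z z', |f z - f z'| ≤ L * ‖z - z'‖) → Continuous f := by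
    intro f hf
    rw [Metric.continuous_iff]
    intro z ε hε
    refine ⟨ε / (L' + 1), by positivity, fun z' hz' => ?_⟩
    rw [Real.dist_eq]
    rw [dist_eq_norm, lt_div_iff₀ (by positivity)] at hz'
    have := hf z' z
    nlinarith [norm_nonneg (z' - z)]
  have hint : ∀ f : E → ℝ, (∀ z z', |f z - f z'| ≤ L * ‖z - z'‖) →
      Integrable (fun θ : ℝ => f (z + ang θ • v)) circ := by
    intro f hf
    have h : Continuous (fun θ : ℝ => z + ang θ • v) := by
      have := continuous_ang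
      fun_prop
    refine Integrable.of_bound ((hcont f hf).comp h).aestronglyMeasurable
      (|f z| + L' * ‖v‖) (Eventually.of_forall fun θ => ?_)
    rw [Real.norm_eq_abs]
    have h1 := hf (z + ang θ • v) z
    rw [add_sub_cancel_left, norm_smul, norm_ang, one_mul] at h1
    have h2 : |f (z + ang θ • v)| ≤ |f (z + ang θ • v) - f z| + |f z| := by
      have := abs_add_le (f (z + ang θ • v) - f z) (f z)
      simpa using this
    nlinarith [norm_nonneg v]
  rw [Metric.tendsto_nhds]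
  intro δ hδ
  -- net
  set s : ℝ := δ / (4 * (L' * ‖v‖ + 1)) with hs
  have hs0 : 0 < s := by positivity
  obtain ⟨N, hN⟩ := exists_nat_gt (2 * Real.pi / s)
  have hfin : ∀ᶠ n in UF, ∀ k ∈ Finset.range (N + 1),
      |A n (z + ang (k * s) • v) - H (z + ang (k * s) • v)| < δ / 4 := by
    rw [Filter.eventually_all_finset]
    intro k _
    have := (Metric.tendsto_nhds.1 (hp (z + ang (k * s) • v))) (δ / 4) (by positivity)
    exact this.mono fun n hn => by rwa [Real.dist_eq] at hn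
  filter_upwards [hL, hfin] with n hn hnk
  have hpt : ∀ θ ∈ Ioc (0:ℝ) (2 * Real.pi),
      ‖A n (z + ang θ • v) - H (z + ang θ • v)‖ ≤ 3 / 4 * δ := by
    intro θ hθ
    set k : ℕ := ⌊θ / s⌋₊ with hk
    have hk1 : (k:ℝ) * s ≤ θ := by
      have := Nat.floor_le (div_nonneg hθ.1.le hs0.le)
      rw [← hk] at this
      rwa [le_div_iff₀ hs0] at this
    have hk2 : θ < (k + 1) * s := by
      have := Nat.lt_floor_add_one (θ / s)
      rw [← hk] at this
      rwa [div_lt_iff₀ hs0] at this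
    have hkN : k ∈ Finset.range (N + 1) := by
      rw [Finset.mem_range]
      have h1 : (k:ℝ) < N := by
        have h2 : (k:ℝ) ≤ θ / s := by rw [le_div_iff₀ hs0]; exact hk1
        have h3 : θ / s ≤ 2 * Real.pi / s := div_le_div_of_nonneg_right hθ.2 hs0.le
        linarith
      have h2 : k < N := by exact_mod_cast h1
      omega
    have hdist : ‖(z + ang θ • v) - (z + ang (k * s) • v)‖ ≤ s * ‖v‖ := by
      have : (z + ang θ • v) - (z + ang (k * s) • v) = (ang θ - ang (k * s)) • v := by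
        rw [sub_smul]; abel
      rw [this, norm_smul]
      refine mul_le_mul_of_nonneg_right ((norm_ang_sub_le _ _).trans ?_) (norm_nonneg _)
      rw [abs_of_nonneg (by linarith)]
      linarith
    have hLs : L * (s * ‖v‖) ≤ δ / 4 := by
      have h1 : L * (s * ‖v‖) ≤ L' * (s * ‖v‖) :=
        mul_le_mul_of_nonneg_right hLL' (by positivity)
      refine h1.trans ?_
      rw [hs]
      have h2 : L' * (δ / (4 * (L' * ‖v‖ + 1)) * ‖v‖) =
          (δ / 4) * (L' * ‖v‖ / (L' * ‖v‖ + 1)) := by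
        field_simp
      rw [h2]
      have h3 : L' * ‖v‖ / (L' * ‖v‖ + 1) ≤ 1 := by
        rw [div_le_one (by positivity)]; linarith
      nlinarith
    have e1 := hn (z + ang θ • v) (z + ang (k * s) • v)
    have e2 := hHL (z + ang θ • v) (z + ang (k * s) • v)
    have e3 := (hnk k hkN).le
    have e4 : L * ‖(z + ang θ • v) - (z + ang (k * s) • v)‖ ≤ δ / 4 := by
      rcases hL0 with h | h
      · exact (mul_le_mul_of_nonneg_left hdist h).trans hLs
      · nlinarith [norm_nonneg ((z + ang θ • v) - (z + ang (k * s) • v))]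
    rw [Real.norm_eq_abs]
    have e1' := abs_le.1 (e1.trans e4)
    have e2' := abs_le.1 (e2.trans e4)
    have e3' := abs_le.1 e3
    rw [abs_le]
    constructor <;> linarith [e1'.1, e1'.2, e2'.1, e2'.2, e3'.1, e3'.2]
  rw [Real.dist_eq]
  have h1 : av (A n) z v - av H z v = ∫ θ, (A n (z + ang θ • v) - H (z + ang θ • v)) ∂circ := by
    unfold av
    rw [integral_sub (hint _ hn) (hint _ hHL)]
  rw [h1, ← Real.norm_eq_abs]
  have h2 := norm_integral_le_of_norm_le_const (μ := circ) (C := 3 / 4 * δ)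
    (ae_circ.mono fun θ hθ => hpt θ hθ)
  have h3 : circ.real univ = 1 := by simp
  rw [h3, mul_one] at h2
  linarith

end Crest.Agent.R275.FL606
end
end

-- ▼ part R275/FLg_606
section

/-!
R275 (S0418), helper606: flux lemma, part g.
Existence of the limit functions in the charts and compatibility.
-/

set_option autoImplicit false
set_option linter.unusedSectionVars false

open MeasureTheory Set Metric Filter Topology
open scoped ENNReal NNReal

noncomputable section

namespace Crest.Agent.R275.FL606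

variable {E : Type*} [NormedAddCommGroup E] [NormedSpace ℂ E] [MeasurableSpace E] [BorelSpace E]
  [FiniteDimensional ℝ E]
  {Y : Type*} [TopologicalSpace Y] [MeasurableSpace Y] [BorelSpace Y] [PreconnectedSpace Y]
  {ι : Type*} [Finite ι]
  {g : Y ≃ₜ Y} {C : Cov E g ι} {g0 : Y → ℝ} {G C₀ : ℝ}
  {ε η : ℕ → ℝ} (μ : Measure E) [μ.IsAddHaarMeasure]
  {κ : E → ℝ} (hκ : Ker μ κ) {L Kκ : ℝ} (hL : ∀ v w, |κ v - κ w| ≤ L * ‖v - w‖)
  (hL0 : 0 ≤ L) (hKκ : ∀ v, κ v ≤ Kκ)
  (S : ∀ n : ℕ, Step C g0 (ε n) (η n)) (hH : Height C g0 G C₀)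
  (hε0 : ∀ n, 0 ≤ ε n) (hε : Tendsto ε atTop (𝓝 0)) (hη : Tendsto η atTop (𝓝 0))

include hH hε0 hε hη in
lemma ev_u (i : ι) {δ : ℝ≥0} (hδ : 0 < δ) :
    ∀ᶠ n in UF, ∫⁻ x in closedBall (0:E) 3, (S n).u (C.p i x) ∂μ ≤ δ :=
  (ENNReal.tendsto_nhds_zero.1 (tendsto_u μ S hH hε0 hε hη i)) δ (by exact_mod_cast hδ)

/-- the smoothed function number `n` in the chart `i` -/
def An (κ : E → ℝ) (S : ∀ n : ℕ, Step C g0 (ε n) (η n)) (i : ι) (n : ℕ) : E → ℝ :=
  conv μ κ (lg ((S n).ai i))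

include hκ hL hL0 hH hε0 hε in
lemma exists_lip (i : ι) : ∃ Λ : ℝ, 0 ≤ Λ ∧
    ∀ᶠ n in UF, ∀ z z', |An μ κ S i n z - An μ κ S i n z'| ≤ Λ * ‖z - z'‖ := by
  obtain ⟨K, hK⟩ := bound_w μ S hH hε0 hε i
  have hG : 0 ≤ G := (abs_nonneg _).trans (hH.bound i 0 (by simp))
  refine ⟨L * (G * (μ (closedBall (0:E) 3)).toReal + K), by positivity, ?_⟩
  filter_upwards [hK] with n hn z z'
  obtain ⟨h1, h2⟩ := (S n).integrable_a μ hH i hn
  refine (abs_conv_sub_le μ hκ h1 hL z z').trans ?_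
  gcongr

include hκ hKκ hH hε0 hε in
lemma exists_bd (i : ι) : ∃ M : ℝ, ∀ᶠ n in UF, ∀ z, |An μ κ S i n z| ≤ M := by
  obtain ⟨K, hK⟩ := bound_w μ S hH hε0 hε i
  have hKκ0 : 0 ≤ Kκ := (hκ.nonneg 0).trans (hKκ 0)
  refine ⟨Kκ * (G * (μ (closedBall (0:E) 3)).toReal + K), ?_⟩
  filter_upwards [hK] with n hn z
  obtain ⟨h1, h2⟩ := (S n).integrable_a μ hH i hn
  refine (abs_conv_le μ hκ h1 hKκ z).trans ?_
  gcongr

include hκ hKκ hH hε0 hε in
lemma exists_Hi (i : ι) : ∃ H : E → ℝ, ∀ z, Tendsto (fun n => An μ κ S i n z) UF (𝓝 (H z)) := by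
  obtain ⟨M, hM⟩ := exists_bd μ hκ hKκ S hH hε0 hε i
  have : ∀ z, ∃ l, Tendsto (fun n => An μ κ S i n z) UF (𝓝 l) := fun z =>
    exists_lim_real (hM.mono fun n hn => hn z)
  choose H hH' using this
  exact ⟨H, hH'⟩

include hκ hL hL0 hKκ hH hε0 hε hη in
lemma mean_Hi (i : ι) {H : E → ℝ} (hlim : ∀ z, Tendsto (fun n => An μ κ S i n z) UF (𝓝 (H z)))
    {z v : E} (hd : ∀ w : ℂ, ‖w‖ ≤ 1 → ball (z + w • v) 1 ⊆ closedBall (0:E) 3) :
    H z = av H z v := by
  obtain ⟨Λ, hΛ0, hΛ⟩ := exists_lip μ hκ hL hL0 S hH hε0 hε i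
  have h1 := tendsto_av hΛ hlim z v
  have h2 : Tendsto (fun n => |An μ κ S i n z - av (An μ κ S i n) z v|) UF
      (𝓝 |H z - av H z v|) := ((hlim z).sub h1).abs
  have hKκ0 : 0 ≤ Kκ := (hκ.nonneg 0).trans (hKκ 0)
  have h3 : |H z - av H z v| ≤ 0 := by
    refine le_of_forall_pos_le_add fun δ hδ => ?_
    rw [zero_add]
    -- choose the smallness
    set K' : ℝ≥0 := ⟨δ / (2 * (Kκ + 1)), by positivity⟩ with hK'
    have hK'0 : 0 < K' := by
      rw [← NNReal.coe_pos]; show 0 < δ / (2 * (Kκ + 1)); positivity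
    obtain ⟨K, hK⟩ := bound_w μ S hH hε0 hε i
    have hεs : ∀ᶠ n in UF, ε n * ‖v‖ ^ 2 < δ / 2 := by
      have : Tendsto (fun n => ε n * ‖v‖ ^ 2) atTop (𝓝 (0 * ‖v‖ ^ 2)) := hε.mul_const _
      rw [zero_mul] at this
      exact UF_le (this.eventually (gt_mem_nhds (by positivity)))
    refine le_of_tendsto h2 ?_
    filter_upwards [hK, ev_u μ S hH hε0 hε hη i hK'0, hεs] with n hw hu he
    have h4 := (S n).near_mean μ hH (hε0 n) i hκ hL hKκ hw hu hd
    refine h4.trans ?_
    have h5 : Kκ * (K':ℝ) ≤ δ / 2 := by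
      show Kκ * (δ / (2 * (Kκ + 1))) ≤ δ / 2
      rw [mul_div_assoc', div_le_div_iff₀ (by positivity) (by norm_num)]
      nlinarith
    linarith
  have h4 : |H z - av H z v| = 0 := le_antisymm h3 (abs_nonneg _)
  have h5 := abs_eq_zero.1 h4
  linarith

include hκ hL hL0 hKκ hH hε0 hε hη in
lemma compat_Hi {H : ι → E → ℝ}
    (hlim : ∀ i z, Tendsto (fun n => An μ κ S i n z) UF (𝓝 (H i z)))
    (i j : ι) (m : ℤ) {z z' : E} (hz : z ∈ ball (0:E) 2) (hz' : z' ∈ ball (0:E) 2)
    (he : C.p i z = (g ^ m) (C.p j z')) : H i z = H j z' - m := by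
  obtain ⟨Λi, hΛi0, hΛi⟩ := exists_lip μ hκ hL hL0 S hH hε0 hε i
  obtain ⟨Λj, hΛj0, hΛj⟩ := exists_lip μ hκ hL hL0 S hH hε0 hε j
  have h2 : Tendsto (fun n => |An μ κ S i n z - (An μ κ S j n z' - m)|) UF
      (𝓝 |H i z - (H j z' - m)|) := ((hlim i z).sub ((hlim j z').sub_const _)).abs
  have h3 : |H i z - (H j z' - m)| ≤ 0 := by
    refine le_of_forall_pos_le_add fun δ₀ hδ₀ => ?_
    rw [zero_add]
    set δ := δ₀ / 6 with hδ6
    have hδ : 0 < δ := by positivity
    -- radius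
    obtain ⟨r, hr, hr1, hr2, hr3⟩ : ∃ r > 0, ball z r ⊆ ball (0:E) 2 ∧ ball z' r ⊆ ball (0:E) 2 ∧
        (Λi + Λj) * r ≤ δ := by
      obtain ⟨r1, hr1, h1⟩ := Metric.isOpen_iff.1 isOpen_ball z hz
      obtain ⟨r2, hr2, h2⟩ := Metric.isOpen_iff.1 isOpen_ball z' hz'
      refine ⟨min (min r1 r2) (δ / (Λi + Λj + 1)), by positivity, ?_, ?_, ?_⟩
      · exact (ball_subset_ball ((min_le_left _ _).trans (min_le_left _ _))).trans h1
      · exact (ball_subset_ball ((min_le_left _ _).trans (min_le_right _ _))).trans h2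
      · calc (Λi + Λj) * min (min r1 r2) (δ / (Λi + Λj + 1))
            ≤ (Λi + Λj) * (δ / (Λi + Λj + 1)) := by
              gcongr
              exact min_le_right _ _
          _ ≤ δ := by
              rw [mul_div_assoc', div_le_iff₀ (by positivity)]
              nlinarith
    have h216 : ball (0:E) 2 ⊆ ball (0:E) 16 := ball_subset_ball (by norm_num)
    set W : Set Y := (g ^ m) '' (C.p j '' ball z' r) with hW
    have hWo : IsOpen W :=
      (g ^ m).isOpenMap _ (C.opn j _ (hr2.trans h216) isOpen_ball)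
    set O : Set E := ball z r ∩ (C.p i) ⁻¹' W with hO
    have hOo : IsOpen O :=
      ((C.cont i).mono (hr1.trans h216)).isOpen_inter_preimage isOpen_ball hWo
    have hOz : z ∈ O := ⟨mem_ball_self hr, by
      rw [mem_preimage, he]
      exact ⟨C.p j z', ⟨z', mem_ball_self hr, rfl⟩, rfl⟩⟩
    have h23 : ball (0:E) 2 ⊆ closedBall (0:E) 3 :=
      ball_subset_closedBall.trans (closedBall_subset_closedBall (by norm_num))
    have htO : Tendsto (fun n => ∫⁻ w in O, (S n).u (C.p i w) ∂μ) UF (𝓝 0) := by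
      refine tendsto_of_tendsto_of_tendsto_of_le_of_le tendsto_const_nhds
        (tendsto_u μ S hH hε0 hε hη i) (fun n => zero_le) (fun n => ?_)
      exact lintegral_mono_set (inter_subset_left.trans (hr1.trans h23))
    have hsmall := FL884.exists_small_of_tendsto μ hOo ⟨z, hOz⟩ htO
      (ε := ENNReal.ofReal δ) (by simpa using hδ)
    obtain ⟨Ki, hKi⟩ := bound_w μ S hH hε0 hε i
    obtain ⟨Kj, hKj⟩ := bound_w μ S hH hε0 hε j
    have hεs : ∀ᶠ n in UF, ε n < δ := UF_le (hε.eventually (gt_mem_nhds hδ))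
    have hb1 : ∀ x ∈ ball (0:E) 2, ball x 1 ⊆ closedBall (0:E) 3 := by
      intro x hx y hy
      rw [mem_closedBall, dist_zero_right]
      rw [mem_ball, dist_zero_right] at hx
      rw [mem_ball, dist_eq_norm] at hy
      have : ‖y‖ ≤ ‖y - x‖ + ‖x‖ := by
        have := norm_add_le (y - x) x
        simpa using this
      linarith
    refine le_of_tendsto h2 ?_
    filter_upwards [hsmall, hKi, hKj, ev_u μ S hH hε0 hε hη i one_pos,
      ev_u μ S hH hε0 hε hη j one_pos, hεs, hΛi, hΛj] with n hn hwi hwj hui huj hen hlip hljp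
    obtain ⟨y, ⟨hyr, ⟨_, ⟨y', hy'r, rfl⟩, hyy'⟩⟩, hyu⟩ := hn
    have hyy : C.p i y = (g ^ m) (C.p j y') := hyy'.symm
    have huy' : (S n).u (C.p j y') ≤ ENNReal.ofReal δ := by
      rw [← inv_zpow (S n).u_inv m (C.p j y'), ← hyy]; exact hyu
    obtain ⟨hap, h4⟩ := (S n).near_pt μ hH (hε0 n) i hκ hwi hui (hb1 y (hr1 hyr)) hδ.le hyu
    obtain ⟨hap', h5⟩ := (S n).near_pt μ hH (hε0 n) j hκ hwj huj (hb1 y' (hr2 hy'r)) hδ.le huy'
    have h6 : Real.log ((S n).a (C.p i y)) = Real.log ((S n).a (C.p j y')) - m := by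
      rw [hyy, mul_zpow (S n).ag m, Real.log_mul (Real.exp_pos _).ne' hap'.ne', Real.log_exp]
      ring
    have h7 : |An μ κ S i n z - An μ κ S i n y| ≤ Λi * r := by
      refine (hlip z y).trans ?_
      have : ‖z - y‖ ≤ r := by
        rw [mem_ball, dist_comm, dist_eq_norm] at hyr; exact hyr.le
      gcongr
    have h8 : |An μ κ S j n z' - An μ κ S j n y'| ≤ Λj * r := by
      refine (hljp z' y').trans ?_
      have : ‖z' - y'‖ ≤ r := by
        rw [mem_ball, dist_comm, dist_eq_norm] at hy'r; exact hy'r.le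
      gcongr
    change |Real.log ((S n).a (C.p i y)) - An μ κ S i n y| ≤ ε n + δ at h4
    change |Real.log ((S n).a (C.p j y')) - An μ κ S j n y'| ≤ ε n + δ at h5
    have h4' := abs_le.1 h4
    have h5' := abs_le.1 h5
    have h7' := abs_le.1 h7
    have h8' := abs_le.1 h8
    have h9 : Λi * r + Λj * r ≤ δ := by linarith
    rw [abs_le]
    constructor <;> linarith [h4'.1, h4'.2, h5'.1, h5'.2, h7'.1, h7'.2, h8'.1, h8'.2]
  have h4 : |H i z - (H j z' - m)| = 0 := le_antisymm h3 (abs_nonneg _)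
  have h5 := abs_eq_zero.1 h4
  linarith

include hκ hL hL0 hKκ S hH hε0 hε hη in
/-- **Existence of the limit.** -/
theorem exists_H : ∃ H : ι → E → ℝ, (∀ i, Continuous (H i)) ∧
    (∀ i (z v : E), (∀ w : ℂ, ‖w‖ ≤ 1 → z + w • v ∈ ball (0:E) 2) → H i z = av (H i) z v) ∧
    (∀ i j (m : ℤ) (z z' : E), z ∈ ball (0:E) 2 → z' ∈ ball (0:E) 2 →
      C.p i z = (g ^ m) (C.p j z') → H i z = H j z' - m) := by
  have h1 : ∀ i, ∃ H : E → ℝ, ∀ z, Tendsto (fun n => An μ κ S i n z) UF (𝓝 (H z)) := fun i =>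
    exists_Hi μ hκ hKκ S hH hε0 hε i
  choose H hlim using h1
  refine ⟨H, fun i => ?_, fun i z v hd => ?_, fun i j m z z' hz hz' he => ?_⟩
  · obtain ⟨Λ, hΛ0, hΛ⟩ := exists_lip μ hκ hL hL0 S hH hε0 hε i
    have hHL : ∀ z z', |H i z - H i z'| ≤ Λ * ‖z - z'‖ := by
      intro z z'
      exact le_of_tendsto (((hlim i z).sub (hlim i z')).abs) (hΛ.mono fun n hn => hn z z')
    rw [Metric.continuous_iff]
    intro z δ hδ
    refine ⟨δ / (Λ + 1), by positivity, fun z' hz' => ?_⟩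
    rw [Real.dist_eq]
    rw [dist_eq_norm, lt_div_iff₀ (by positivity)] at hz'
    have := hHL z' z
    nlinarith [norm_nonneg (z' - z)]
  · refine mean_Hi μ hκ hL hL0 hKκ S hH hε0 hε hη i (hlim i) ?_
    intro w hw y hy
    have hx := hd w hw
    rw [mem_closedBall, dist_zero_right]
    rw [mem_ball, dist_zero_right] at hx
    rw [mem_ball, dist_eq_norm] at hy
    have : ‖y‖ ≤ ‖y - (z + w • v)‖ + ‖z + w • v‖ := by
      have := norm_add_le (y - (z + w • v)) (z + w • v)
      simpa using this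
    linarith
  · exact compat_Hi μ hκ hL hL0 hKκ S hH hε0 hε hη hlim i j m hz hz' he

end Crest.Agent.R275.FL606
end
end

-- ▼ part R275/FLh_606

/-!
R275 (S0418), helper606: flux lemma, part h.
A smooth rotation invariant kernel; a continuous function with the exact mean value property on
complex discs is smooth, and its complex Hessian vanishes.
-/

set_option autoImplicit false
set_option linter.unusedSectionVars false

open MeasureTheory Set Metric Filter Topology
open scoped ENNReal ContDiff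

noncomputable section

namespace Crest.Agent.R275.FL606

variable {E : Type*} [NormedAddCommGroup E] [InnerProductSpace ℂ E] [MeasurableSpace E]
  [BorelSpace E] [FiniteDimensional ℝ E]

theorem exists_ker (μ : Measure E) [μ.IsAddHaarMeasure] : ∃ κ : E → ℝ, Ker μ κ ∧
    ContDiff ℝ ∞ κ ∧ (∃ L : ℝ, 0 ≤ L ∧ ∀ v w, |κ v - κ w| ≤ L * ‖v - w‖) ∧ ∃ K : ℝ,
    ∀ v, κ v ≤ K := by
  set k0 : E → ℝ := fun v => Real.smoothTransition (1 - ‖v‖ ^ 2) with hk0
  have hs0 : ContDiff ℝ ∞ k0 := by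
    have h1 : ContDiff ℝ ∞ (fun v : E => 1 - ‖v‖ ^ 2) := contDiff_const.sub (contDiff_norm_sq ℂ)
    exact Real.smoothTransition.contDiff.comp h1
  have hsupp0 : ∀ v, 1 ≤ ‖v‖ → k0 v = 0 := by
    intro v hv
    apply Real.smoothTransition.zero_of_nonpos
    nlinarith
  have hcs0 : HasCompactSupport k0 := by
    refine HasCompactSupport.of_support_subset_isCompact (isCompact_closedBall (0:E) 1) ?_
    intro v hv
    rw [mem_closedBall, dist_zero_right]
    by_contra h
    exact hv (hsupp0 v (not_le.1 h).le)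
  have hnn0 : ∀ v, 0 ≤ k0 v := fun v => Real.smoothTransition.nonneg _
  have hpos : 0 < ∫ v, k0 v ∂μ := by
    refine hs0.continuous.integral_pos_of_hasCompactSupport_nonneg_nonzero hcs0 hnn0 (x := 0) ?_
    have : 0 < k0 0 := Real.smoothTransition.pos_of_pos (by simp)
    exact this.ne'
  set c : ℝ := (∫ v, k0 v ∂μ)⁻¹ with hc
  have hc0 : 0 < c := inv_pos.2 hpos
  set κ : E → ℝ := fun v => c * k0 v with hκdef
  have hsκ : ContDiff ℝ ∞ κ := contDiff_const.mul hs0
  have hK : Ker μ κ := by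
    refine ⟨fun v => mul_nonneg hc0.le (hnn0 v), hsκ.continuous, fun v hv => ?_, fun w v hw => ?_,
      ?_⟩
    · simp only [hκdef, hsupp0 v hv, mul_zero]
    · simp only [hκdef, hk0, norm_smul, hw, one_mul]
    · simp only [hκdef]
      rw [integral_const_mul, hc, inv_mul_cancel₀ hpos.ne']
  refine ⟨κ, hK, hsκ, ?_, ?_⟩
  · obtain ⟨C, hC⟩ := ContDiff.lipschitzWith_of_hasCompactSupport (hK.hasCompactSupport μ) hsκ
      (by simp)
    refine ⟨C, C.2, fun v w => ?_⟩
    have := hC.dist_le_mul v w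
    rwa [Real.dist_eq, dist_eq_norm] at this
  · obtain ⟨K, -, hK'⟩ := hK.exists_bound μ
    exact ⟨K, hK'⟩

variable (μ : Measure E) [μ.IsAddHaarMeasure] {κ : E → ℝ}

lemma Ker.symm' {μ : Measure E} (hκ : Ker μ κ) (v w : E) : κ (v - w) = κ (w - v) := by
  have := hκ.rot (-1) (v - w) (by simp)
  rw [neg_smul, one_smul, neg_sub] at this
  exact this.symm

/-- convolutions with a smooth kernel are smooth -/
lemma contDiff_conv (hκ : Ker μ κ) (hs : ContDiff ℝ ∞ κ) {ψ : E → ℝ} (hψ : Continuous ψ) :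
    ContDiff ℝ ∞ (conv μ κ ψ) := by
  have h1 := (hκ.hasCompactSupport μ).contDiff_convolution_right (μ := μ)
    (ContinuousLinearMap.mul ℝ ℝ) (f := ψ) (hψ.locallyIntegrable) (n := (⊤ : ℕ∞)) hs
  have h2 : conv μ κ ψ = (fun z => MeasureTheory.convolution ψ κ (ContinuousLinearMap.mul ℝ ℝ) μ z)
      := by
    funext z
    unfold conv MeasureTheory.convolution
    refine integral_congr_ae (Eventually.of_forall fun x => ?_)
    simp only [ContinuousLinearMap.mul_apply']
    rw [hκ.symm' x z, mul_comm]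
  rw [h2]
  exact h1

/-- exact mean value property ⇒ equal to its convolution -/
lemma eq_conv (hκ : Ker μ κ) {H : E → ℝ} (hH : Continuous H)
    (hav : ∀ z v : E, (∀ w : ℂ, ‖w‖ ≤ 1 → z + w • v ∈ ball (0:E) 2) → H z = av H z v) {z : E}
    (hz : z ∈ ball (0:E) 1) : H z = conv μ κ H z := by
  have hb : ball z 1 ⊆ ball (0:E) 2 := by
    apply ball_subset_ball'
    rw [mem_ball] at hz
    linarith
  obtain ⟨K, hK⟩ := (isCompact_closedBall (0:E) 2).exists_bound_of_continuousOn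
    (f := H) hH.continuousOn
  have hK1 : ∀ z ∈ ball (0:E) 2, |H z| ≤ K := fun z hz => hK z (ball_subset_closedBall hz)
  have hK2 : ∀ z ∈ ball (0:E) 2, |(fun x => -H x) z| ≤ K := fun z hz => by
    simpa using hK1 z hz
  have h1 : SM 0 H (ball (0:E) 2) := SM.of_le fun z v hd => by
    rw [← hav z v hd]; simp
  have h2 : SM 0 (fun x => -H x) (ball (0:E) 2) := SM.of_le fun z v hd => by
    have h3 : av (fun x => -H x) z v = - av H z v := by
      unfold av
      rw [integral_neg]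
    rw [h3, ← hav z v hd]; simp
  have h3 := SM.ker μ hκ hH.measurable hK1 le_rfl h1 hb
  have h4 := SM.ker μ hκ (u := fun x => -H x) hH.neg.measurable hK2 le_rfl h2 hb
  have h5 : conv μ κ (fun x => -H x) z = - conv μ κ H z := by
    unfold conv
    rw [← integral_neg]
    congr 1; funext x; ring
  rw [h5] at h4
  linarith

/-- the second derivatives of the restriction to a complex line -/
lemma snd_line {f : E → ℝ} (hf : ContDiff ℝ ∞ f) (z v : E) (w a b : ℂ) :
    fderiv ℝ (fderiv ℝ (fun w : ℂ => f (z + w • v))) w a b =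
      fderiv ℝ (fderiv ℝ f) (z + w • v) (a • v) (b • v) := by
  set ℓ : ℂ →L[ℝ] E := (ContinuousLinearMap.toSpanSingleton ℂ v).restrictScalars ℝ with hℓ
  have hℓa : ∀ w, ℓ w = w • v := fun w => by simp [hℓ, ContinuousLinearMap.toSpanSingleton_apply]
  have hd : Differentiable ℝ f := hf.differentiable (by simp)
  have hd2 : Differentiable ℝ (fderiv ℝ f) :=
    (hf.fderiv_right (m := 1) (by norm_cast)).differentiable (by norm_num)
  have haff : ∀ w : ℂ, HasFDerivAt (fun w : ℂ => z + w • v) ℓ w := by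
    intro w
    have h := (ℓ.hasFDerivAt (x := w)).const_add z
    refine h.congr_of_eventuallyEq (Eventually.of_forall fun w => ?_)
    simp [hℓa]
  have h1 : (fderiv ℝ (fun w : ℂ => f (z + w • v))) =
      fun w => (fderiv ℝ f (z + w • v)).comp ℓ := by
    funext w
    exact ((hd _).hasFDerivAt.comp w (haff w)).fderiv
  rw [h1]
  have h2 : HasFDerivAt (fun w : ℂ => (fderiv ℝ f (z + w • v)))
      ((fderiv ℝ (fderiv ℝ f) (z + w • v)).comp ℓ) w := (hd2 _).hasFDerivAt.comp w (haff w)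
  have h3 : HasFDerivAt (fun w : ℂ => (fderiv ℝ f (z + w • v)).comp ℓ)
      ((ContinuousLinearMap.compL ℝ ℂ E ℝ).flip ℓ |>.comp
        ((fderiv ℝ (fderiv ℝ f) (z + w • v)).comp ℓ)) w :=
    ((ContinuousLinearMap.compL ℝ ℂ E ℝ).flip ℓ).hasFDerivAt.comp w h2
  rw [h3.fderiv]
  simp [hℓa]

/-- the complex Hessian in one direction vanishes -/
lemma lap_eq_zero {H f : E → ℝ} (hf : ContDiff ℝ ∞ f) (hfH : ∀ z ∈ ball (0:E) 1, H z = f z)
    (hav : ∀ z v : E, (∀ w : ℂ, ‖w‖ ≤ 1 → z + w • v ∈ ball (0:E) 2) → H z = av H z v) {z : E}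
    (hz : z ∈ ball (0:E) 1) (v : E) :
    fderiv ℝ (fderiv ℝ f) z v v + fderiv ℝ (fderiv ℝ f) z (Complex.I • v) (Complex.I • v) = 0 := by
  -- one sided statement for `s * f`, `s = ±1`
  set Λ : E → ℝ := fun z =>
    fderiv ℝ (fderiv ℝ f) z v v + fderiv ℝ (fderiv ℝ f) z (Complex.I • v) (Complex.I • v) with hΛ
  have hΛc : Continuous Λ := by
    have h1 : Continuous (fderiv ℝ (fderiv ℝ f)) :=
      ((hf.fderiv_right (m := ∞) (by norm_cast)).continuous_fderiv (by simp))
    exact ((h1.clm_apply continuous_const).clm_apply continuous_const).add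
      ((h1.clm_apply continuous_const).clm_apply continuous_const)
  by_contra hne
  -- sign
  obtain ⟨s, hs, hsΛ⟩ : ∃ s : ℝ, (s = 1 ∨ s = -1) ∧ 0 < s * Λ z := by
    rcases lt_or_gt_of_ne hne with h | h
    · exact ⟨-1, Or.inr rfl, by have : Λ z < 0 := h; linarith⟩
    · exact ⟨1, Or.inl rfl, by have : 0 < Λ z := h; linarith⟩
  -- small radius
  have hnear : ∀ᶠ x in 𝓝 z, x ∈ ball (0:E) 1 ∧ s * Λ z / 2 < s * Λ x := by
    refine (isOpen_ball.mem_nhds hz : ball (0:E) 1 ∈ 𝓝 z) |> fun h => ?_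
    have h2 : Tendsto (fun x => s * Λ x) (𝓝 z) (𝓝 (s * Λ z)) :=
      (continuous_const.mul hΛc).continuousAt
    exact (Filter.Eventually.and h (h2.eventually (lt_mem_nhds (by linarith))))
  obtain ⟨ρ, hρ, hρb⟩ := Metric.eventually_nhds_iff_ball.1 hnear
  set r : ℝ := ρ / (2 * (‖v‖ + 1)) with hr
  have hr0 : 0 < r := by positivity
  have hin : ∀ w : ℂ, ‖w‖ ≤ 1 → z + w • (r • v) ∈ ball z ρ := by
    intro w hw
    rw [mem_ball, dist_eq_norm, add_sub_cancel_left, norm_smul, norm_smul, Real.norm_eq_abs,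
      abs_of_pos hr0]
    calc ‖w‖ * (r * ‖v‖) ≤ 1 * (r * ‖v‖) := by gcongr
      _ = ρ * (‖v‖ / (2 * (‖v‖ + 1))) := by rw [hr]; field_simp
      _ < ρ * 1 := by
          apply mul_lt_mul_of_pos_left _ hρ
          rw [div_lt_one (by positivity)]
          linarith [norm_nonneg v]
      _ = ρ := mul_one _
  set ψ : ℂ → ℝ := fun w => (fun x => s * f x) (z + w • (r • v)) with hψ
  have hsf : ContDiff ℝ ∞ (fun x => s * f x) := contDiff_const.mul hf
  have hψs : ContDiff ℝ 2 ψ := by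
    have h1 : ContDiff ℝ ∞ (fun w : ℂ => z + w • (r • v)) := by fun_prop
    exact (hsf.comp h1).of_le (by norm_cast)
  have hfd : fderiv ℝ (fderiv ℝ (fun x => s * f x)) = fun x => s • fderiv ℝ (fderiv ℝ f) x := by
    have hd : Differentiable ℝ f := hf.differentiable (by simp)
    have hd2 : Differentiable ℝ (fderiv ℝ f) :=
      (hf.fderiv_right (m := 1) (by norm_cast)).differentiable (by norm_num)
    have e1 : fderiv ℝ (fun x => s * f x) = fun x => s • fderiv ℝ f x := by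
      funext x
      exact ((hd x).hasFDerivAt.const_mul s).fderiv
    rw [e1]
    funext x
    exact ((hd2 x).hasFDerivAt.const_smul s).fderiv
  have hL : ∀ w ∈ closedBall (0:ℂ) 1, -(4 * (-(r ^ 2 * (s * Λ z) / 8))) ≤
      fderiv ℝ (fderiv ℝ ψ) w 1 1 + fderiv ℝ (fderiv ℝ ψ) w Complex.I Complex.I := by
    intro w hw
    rw [mem_closedBall, dist_zero_right] at hw
    have h1 := (hρb _ (hin w hw)).2
    rw [hψ, snd_line hsf, snd_line hsf, hfd]
    have e1 : (1:ℂ) • (r • v) = r • v := one_smul _ _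
    have e2 : Complex.I • (r • v) = r • (Complex.I • v) := smul_comm _ _ _
    rw [e1, e2]
    simp only [_root_.smul_apply, map_smul, smul_eq_mul]
    have e3 : r * (r * (s * ((fderiv ℝ (fderiv ℝ f) (z + w • r • v)) v) v)) +
        r * (r * (s * ((fderiv ℝ (fderiv ℝ f) (z + w • r • v)) (Complex.I • v)) (Complex.I • v)))
        = r ^ 2 * (s * Λ (z + w • r • v)) := by
      simp only [hΛ]; ring
    rw [e3]
    have hr2 : 0 < r ^ 2 := by positivity
    nlinarith
  have hmain := FL884.le_circleAverage_of_contDiff hψs hL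
  have hd2 : ∀ w : ℂ, ‖w‖ ≤ 1 → z + w • (r • v) ∈ ball (0:E) 2 := fun w hw =>
    ball_subset_ball (by norm_num) (hρb _ (hin w hw)).1
  have hm := hav z (r • v) hd2
  rw [av_eq_circleAverage] at hm
  have e4 : Real.circleAverage ψ 0 1 = s * Real.circleAverage (fun w : ℂ => H (z + w • (r • v))) 0 1
      := by
    have : Real.circleAverage ψ 0 1 =
        Real.circleAverage (fun w : ℂ => s • H (z + w • (r • v))) 0 1 := by
      apply Real.circleAverage_congr_sphere
      intro w hw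
      rw [abs_one] at hw
      have hw' : ‖w‖ ≤ 1 := by
        have := sphere_subset_closedBall hw
        rwa [mem_closedBall, dist_zero_right] at this
      simp only [hψ, smul_eq_mul]
      rw [hfH _ (hρb _ (hin w hw')).1]
    rw [this, Real.circleAverage_fun_smul]
    rfl
  rw [e4, ← hm] at hmain
  have e5 : ψ 0 = s * H z := by simp [hψ, hfH z hz]
  rw [e5] at hmain
  have hr2 : 0 < r ^ 2 := by positivity
  nlinarith

end Crest.Agent.R275.FL606
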