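import Mathlib

/-!
R275 / S0418, block FL, part C: finite families of parametrised balls whose `g`-translates cover.
-/

set_option autoImplicit false

namespace Crest.Agent.R275.FL884

open Set Filter Topology Metric

variable {E : Type*} [NormedAddCommGroup E] [NormedSpace ℂ E]
variable {Y : Type*} [TopologicalSpace Y] [ChartedSpace E Y]

/-- rescaled inverse chart around `y` -/
noncomputable def par (y : Y) (r : ℝ) (z : E) : Y :=
  (chartAt E y).symm (chartAt E y y + (r : ℂ) • z)


/-- the affine map -/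
lemma aff_mem_ball {c : E} {r R : ℝ} (hr : 0 < r) {z : E} (hz : z ∈ ball (0 : E) R) :
    c + (r : ℂ) • z ∈ ball c (r * R) := by
  rw [mem_ball, dist_eq_norm, add_sub_cancel_left, norm_smul, Complex.norm_real,
    Real.norm_eq_abs, abs_of_pos hr]
  rw [mem_ball_zero_iff] at hz
  gcongr

structure IsPar (p : E → Y) (R : ℝ) : Prop where
  cont : ContinuousOn p (ball 0 R)
  inj : InjOn p (ball 0 R)
  open_image : ∀ V ⊆ ball (0 : E) R, IsOpen V → IsOpen (p '' V)



/-- translates into a slab -/
lemma exists_zpow_mem_slab {Y : Type*} [TopologicalSpace Y] (g : Y ≃ₜ Y) {h : Y → ℝ}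
    (hg : ∀ y, h (g y) = h y - 1) (y : Y) : ∃ n : ℤ, h ((g ^ n : Y ≃ₜ Y) y) ∈ Icc (0 : ℝ) 1 := by
  have hn : ∀ (n : ℤ) (y : Y), h ((g ^ n : Y ≃ₜ Y) y) = h y - n := by
    intro n
    induction n using Int.induction_on with
    | zero => intro y; simp
    | succ k ih =>
      intro y
      rw [zpow_add_one]
      show h ((g ^ (k : ℤ) : Y ≃ₜ Y) (g y)) = _
      rw [ih, hg]; push_cast; ring
    | pred k ih =>
      intro y
      rw [zpow_sub_one]
      show h ((g ^ (-(k : ℤ)) : Y ≃ₜ Y) (g.symm y)) = _
      rw [ih]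
      have := hg (g.symm y)
      rw [g.apply_symm_apply] at this
      push_cast
      linarith
  refine ⟨⌊h y⌋, ?_⟩
  rw [hn]
  constructor
  · linarith [Int.floor_le (h y)]
  · linarith [(Int.lt_floor_add_one (h y)).le]

end Crest.Agent.R275.FL884
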