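import Crest.Agent.R275.HolL_631
import Crest.Agent.R275.FLSubC_884
import Crest.Agent.R275.FLe_606
import Crest.Agent.R275.FLBox_884

-- ▼ part R275/Neg2_908
section

/-!
R275 (S0418), helper908, block NEG in the model of `HolL_631` (cocycles `Coc`, deck transformation
`Deck`, eigen-sections `Eig`).
-/

set_option autoImplicit false
set_option linter.unusedSectionVars false

open Set Filter Topology Metric Crest.AlgGeometry.Surface
open scoped Manifold ContDiff

noncomputable section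

namespace Crest.Agent.R275.Neg2908

open Crest.Agent.R275.HolY631 Crest.Agent.R275.HolL631 Crest.Agent.R275.FL606
  Crest.Agent.R275.FL884

variable {Y : Type*} [TopologicalSpace Y] [ChartedSpace C2 Y] [IsManifold 𝓘(ℂ, C2) 1 Y]
variable {I : Type*} {g : Y ≃ₜ Y} {h : Y → ℝ} {ρ : I ≃ I}

/-- multipliers of nonzero eigen-sections -/
def Sp (L : Coc Y I) (g : Y ≃ₜ Y) (ρ : I ≃ I) : Set ℂ :=
  {t | t ≠ 0 ∧ ∃ s, Eig L g ρ t s ∧ ∃ i, ∃ y ∈ L.U i, s i y ≠ 0}

theorem Sp_closed {L : Coc Y I} (D : Deck g h) (E : Inv L g ρ) {t : ℕ → ℂ} {T : ℂ} (hT0 : T ≠ 0)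
    (hT : Tendsto t atTop (𝓝 T)) (ht : ∀ n, t n ∈ Sp L g ρ) : T ∈ Sp L g ρ :=
  ⟨hT0, eig_closed D E hT0 hT (fun n => (ht n).2)⟩

/-- the product of two nonzero sections is a nonzero section of the product bundle -/
theorem mul_mem_Sp [PreconnectedSpace Y] {L L' KK : Coc Y I} (hU : L'.U = L.U) (hUK : KK.U = L.U)
    (hprod : ∀ i j y, y ∈ L.U i → y ∈ L.U j → L.G i j y * L'.G i j y = KK.G i j y)
    {t t' : ℂ} (ht : t ∈ Sp L g ρ) (ht' : t' ∈ Sp L' g ρ) : t * t' ∈ Sp KK g ρ := by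
  obtain ⟨ht0, s, hs, i, y, hy, hsy⟩ := ht
  obtain ⟨ht0', s', hs', i', y', hy', hsy'⟩ := ht'
  refine ⟨mul_ne_zero ht0 ht0', fun i y => s i y * s' i y, ⟨⟨fun i => ?_, fun i j y hi hj => ?_⟩,
    fun i y hy => ?_⟩, ?_⟩
  · rw [hUK]
    have h2 := hs'.hol i
    rw [hU] at h2
    exact (hs.hol i).mul h2
  · rw [hUK] at hi hj
    have h2 := hs'.tr i j y (by rwa [hU]) (by rwa [hU])
    rw [hs.tr i j y hi hj, h2, ← hprod i j y hi hj]
    ring
  · rw [hUK] at hy
    have h2 := hs'.eig i y (by rwa [hU])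
    rw [hs.eig i y hy, h2]
    ring
  · have h2 : ∀ᶠ w in 𝓝 y, s i w ≠ 0 :=
      (((hs.hol i).continuousOn.continuousAt ((L.isOpen i).mem_nhds hy))).eventually_ne hsy
    have hy2 : y ∈ L'.U i := by rwa [hU]
    have h3 : ∃ᶠ w in 𝓝 y, s' i w ≠ 0 := by
      intro h4
      have h5 : ∀ᶠ w in 𝓝 y, L'.Van s' w := by
        filter_upwards [h4, (L'.isOpen i).mem_nhds hy2] with w hw hwi
        exact (L'.van_iff hs'.toIsSec hwi).2 (not_not.1 hw)
      exact hsy' (L'.eq_zero_of_eventually hs'.toIsSec h5 y' i' hy')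
    obtain ⟨w, hw, hw1, hw2⟩ := (h3.and_eventually (h2.and ((L.isOpen i).mem_nhds hy))).exists
    exact ⟨i, w, by rwa [hUK], mul_ne_zero hw1 hw⟩

/-- **Dichotomy**: if every multiplier carries a section of `L` or of `L' = K - L`, and `K` has no
section with multiplier one, then all multipliers carry sections of `L`, or all carry sections
of `L'`. -/
theorem dichotomy [PreconnectedSpace Y] (D : Deck g h)
    {L L' KK : Coc Y I} (E : Inv L g ρ) (E' : Inv L' g ρ) (hU : L'.U = L.U) (hUK : KK.U = L.U)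
    (hprod : ∀ i j y, y ∈ L.U i → y ∈ L.U j → L.G i j y * L'.G i j y = KK.G i j y)
    (hK : (1 : ℂ) ∉ Sp KK g ρ)
    (hcov : ∀ t : ℂ, t ≠ 0 → t ∈ Sp L g ρ ∨ t⁻¹ ∈ Sp L' g ρ) :
    (∀ t : ℂ, t ≠ 0 → t ∈ Sp L g ρ) ∨ (∀ t : ℂ, t ≠ 0 → t ∈ Sp L' g ρ) := by
  set S : Set ℂ := Sp L g ρ with hS
  set S' : Set ℂ := {t | t ≠ 0 ∧ t⁻¹ ∈ Sp L' g ρ} with hS'
  have hdisj : ∀ t, t ∈ S → t ∈ S' → False := by
    rintro t ht ⟨ht0, ht'⟩
    apply hK
    have := mul_mem_Sp hU hUK hprod ht ht'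
    rwa [mul_inv_cancel₀ ht0] at this
  have hcl : ∀ z : ℂ, z ≠ 0 → z ∈ closure S → z ∈ S := by
    intro z hz hzS
    obtain ⟨u, hu, hut⟩ := mem_closure_iff_seq_limit.1 hzS
    exact Sp_closed D E hz hut hu
  have hcl' : ∀ z : ℂ, z ≠ 0 → z ∈ closure S' → z ∈ S' := by
    intro z hz hzS
    obtain ⟨u, hu, hut⟩ := mem_closure_iff_seq_limit.1 hzS
    exact ⟨hz, Sp_closed D E' (inv_ne_zero hz) (hut.inv₀ hz) (fun n => (hu n).2)⟩
  have hconn : IsPreconnected {z : ℂ | z ≠ 0} := by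
    have := isConnected_compl_singleton_of_one_lt_rank (E := ℂ) (by simp) (0 : ℂ)
    exact this.isPreconnected
  have hpc := isPreconnected_closed_iff.1 hconn (closure S) (closure S') isClosed_closure
    isClosed_closure (fun z hz => by
      rcases hcov z hz with h1 | h1
      · exact Or.inl (subset_closure h1)
      · exact Or.inr (subset_closure ⟨hz, h1⟩))
  by_cases h1 : ({z : ℂ | z ≠ 0} ∩ closure S).Nonempty
  · by_cases h2 : ({z : ℂ | z ≠ 0} ∩ closure S').Nonempty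
    · obtain ⟨z, hz, hz1, hz2⟩ := hpc h1 h2
      exact (hdisj z (hcl z hz hz1) (hcl' z hz hz2)).elim
    · left
      intro t ht
      rcases hcov t ht with h3 | h3
      · exact h3
      · exact (h2 ⟨t, ht, subset_closure ⟨ht, h3⟩⟩).elim
  · right
    intro t ht
    rcases hcov t⁻¹ (inv_ne_zero ht) with h3 | h3
    · exact (h1 ⟨t⁻¹, inv_ne_zero ht, subset_closure h3⟩).elim
    · rwa [inv_inv] at h3

/-! ### norms of sections -/

/-- a hermitian metric on the line bundle `L`, invariant under `g`: `|s| = ‖s i‖ exp (w i)` -/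
structure Met (L : Coc Y I) (g : Y ≃ₜ Y) (ρ : I ≃ I) (w : I → Y → ℝ) : Prop where
  cont : ∀ i, ContinuousOn (w i) (L.U i)
  tr : ∀ i j y, y ∈ L.U i → y ∈ L.U j → ‖L.G i j y‖ * Real.exp (w i y) = Real.exp (w j y)
  inv : ∀ i y, y ∈ L.U i → w (ρ i) (g y) = w i y


variable {L : Coc Y I} {w : I → Y → ℝ}








end Crest.Agent.R275.Neg2908
end
end

-- ▼ part R275/NegS_908
section

/-!
R275 (S0418), helper908: from two multiplicative functions with almost plurisubharmonic logarithms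
(one small at each end) to the normalised `Step` of `FLd_606`.
-/

set_option autoImplicit false
set_option linter.unusedSectionVars false

open MeasureTheory Set Metric Filter Topology
open scoped ENNReal NNReal

noncomputable section

namespace Crest.Agent.R275.NegS908

open Crest.Agent.R275.FL606

section rpow

variable {E : Type*} [NormedAddCommGroup E] [NormedSpace ℂ E] [MeasurableSpace E] [BorelSpace E]

lemma tlog_rpow {r : ℝ} (hr : 0 < r) (T : ℝ) {x : ℝ} (hx : 0 ≤ x) :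
    tlog T (x ^ r) = r * tlog (T / r) x := by
  unfold tlog
  have h1 : Real.exp (-T) = Real.exp (-(T / r)) ^ r := by
    rw [← Real.exp_mul]
    congr 1
    field_simp
  have h2 : max (x ^ r) (Real.exp (-T)) = (max x (Real.exp (-(T / r)))) ^ r := by
    rw [h1]
    rcases le_total x (Real.exp (-(T / r))) with h | h
    · rw [max_eq_right h, max_eq_right (Real.rpow_le_rpow hx h hr.le)]
    · rw [max_eq_left h, max_eq_left (Real.rpow_le_rpow (Real.exp_pos _).le h hr.le)]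
  rw [h2, Real.log_rpow (lt_max_of_lt_right (Real.exp_pos _))]

theorem logSM_rpow {ε : ℝ} {f : E → ℝ} {B : Set E} (h0 : ∀ z, 0 ≤ f z) (h : LogSM ε f B)
    {r : ℝ} (hr : 0 < r) : LogSM (r * ε) (fun z => f z ^ r) B := by
  refine LogSM.of_sm fun T => SM.of_le fun z v hd => ?_
  have h1 := (h.sm (T / r)).le hd
  have h2 : av (fun z => tlog T (f z ^ r)) z v = r * av (fun z => tlog (T / r) (f z)) z v := by
    unfold av
    rw [← integral_const_mul]
    congr 1
    funext θ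
    exact tlog_rpow hr T (h0 _)
  rw [h2]
  show tlog T (f z ^ r) ≤ _
  rw [tlog_rpow hr T (h0 _)]
  nlinarith

end rpow

section max

variable {Y : Type*} [TopologicalSpace Y] [MeasurableSpace Y] [BorelSpace Y]
  {g : Y ≃ₜ Y} {h : Y → ℝ}

/-- an invariant continuous function attains its maximum -/
theorem exists_max (hg : ∀ y, h (g y) = h y - 1)
    (hslab : ∀ a b : ℝ, IsCompact {y | a ≤ h y ∧ h y ≤ b}) {u : Y → ℝ} (hu : Continuous u)
    (hug : ∀ y, u (g y) = u y) (y₁ : Y) : ∃ y₀, ∀ y, u y ≤ u y₀ := by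
  obtain ⟨m, hm⟩ := FL884.exists_zpow_mem_slab g hg y₁
  obtain ⟨y₀, _, h0⟩ := (hslab 0 1).exists_isMaxOn ⟨(g ^ m : Y ≃ₜ Y) y₁, hm.1, hm.2⟩
    hu.continuousOn
  refine ⟨y₀, fun y => ?_⟩
  obtain ⟨n, hn⟩ := FL884.exists_zpow_mem_slab g hg y
  have h1 := h0 (show (g ^ n : Y ≃ₜ Y) y ∈ {y | 0 ≤ h y ∧ h y ≤ 1} from ⟨hn.1, hn.2⟩)
  have h2 : u ((g ^ n : Y ≃ₜ Y) y) = u y := FL606.inv_zpow hug n y
  have h3 : u ((g ^ n : Y ≃ₜ Y) y) ≤ u y₀ := h1
  rwa [h2] at h3

end max

section step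

variable {E : Type*} [NormedAddCommGroup E] [NormedSpace ℂ E] [MeasurableSpace E] [BorelSpace E]
  [FiniteDimensional ℝ E]
  {Y : Type*} [TopologicalSpace Y] [MeasurableSpace Y] [BorelSpace Y] {ι : Type*}
  {g : Y ≃ₜ Y} {h : Y → ℝ}

/-- two multiplicative functions give a normalised step -/
theorem exists_step (C : Cov E g ι) (hc : Continuous h) (hg : ∀ y, h (g y) = h y - 1)
    (hslab : ∀ a b : ℝ, IsCompact {y | a ≤ h y ∧ h y ≤ b}) {Γ : ℝ}
    (hΓ : ∀ i, ∀ z ∈ ball (0:E) 16, |h (C.p i z)| ≤ Γ)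
    {c a b : ℝ} (hc0 : 0 ≤ c) (ha : 0 < a) (hb : 0 < b) {F H : Y → ℝ} (hF : Continuous F)
    (hH : Continuous H) (hF0 : ∀ y, 0 ≤ F y) (hH0 : ∀ y, 0 ≤ H y)
    (hFg : ∀ y, F (g y) = Real.exp (-a) * F y) (hHg : ∀ y, H (g y) = Real.exp b * H y)
    (hFs : ∀ i, LogSM c (fun z => F (C.p i z)) (ball 0 16))
    (hHs : ∀ i, LogSM c (fun z => H (C.p i z)) (ball 0 16))
    (hne : ∃ y, F y * H y ≠ 0) : Nonempty (Step C h (c / min a b) 0) := by
  obtain ⟨y₁, hy₁⟩ := hne
  -- roots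
  set A : Y → ℝ := fun y => F y ^ (1 / a) with hA
  set B : Y → ℝ := fun y => H y ^ (1 / b) with hB
  have hAc : Continuous A := hF.rpow_const fun _ => Or.inr (by positivity)
  have hBc : Continuous B := hH.rpow_const fun _ => Or.inr (by positivity)
  have hA0 : ∀ y, 0 ≤ A y := fun y => Real.rpow_nonneg (hF0 y) _
  have hB0 : ∀ y, 0 ≤ B y := fun y => Real.rpow_nonneg (hH0 y) _
  have hAg : ∀ y, A (g y) = Real.exp (-1) * A y := by
    intro y
    simp only [hA]
    rw [hFg, Real.mul_rpow (Real.exp_pos _).le (hF0 y), ← Real.exp_mul]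
    congr 2
    field_simp
  have hBg : ∀ y, B (g y) = Real.exp 1 * B y := by
    intro y
    simp only [hB]
    rw [hHg, Real.mul_rpow (Real.exp_pos _).le (hH0 y), ← Real.exp_mul]
    congr 2
    field_simp
  have hFy : 0 < F y₁ := lt_of_le_of_ne (hF0 _) (Ne.symm (left_ne_zero_of_mul hy₁))
  have hHy : 0 < H y₁ := lt_of_le_of_ne (hH0 _) (Ne.symm (right_ne_zero_of_mul hy₁))
  have hAy : 0 < A y₁ := Real.rpow_pos_of_pos hFy _
  have hBy : 0 < B y₁ := Real.rpow_pos_of_pos hHy _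
  -- first normalisation
  set u : Y → ℝ := fun y => A y * Real.exp (-h y) with hu
  have hug : ∀ y, u (g y) = u y := by
    intro y
    simp only [hu]
    rw [hAg, hg, neg_sub, sub_eq_add_neg, Real.exp_add]
    have : Real.exp (-1) * Real.exp 1 = 1 := by rw [← Real.exp_add]; simp
    linear_combination (A y * Real.exp (-h y)) * this
  obtain ⟨y₂, hy₂⟩ := exists_max hg hslab (u := u) (by fun_prop) hug y₁
  have hu2 : 0 < u y₂ := lt_of_lt_of_le (mul_pos hAy (Real.exp_pos _)) (hy₂ y₁)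
  set v : Y → ℝ := fun y => A y * B y with hv
  have hvg : ∀ y, v (g y) = v y := by
    intro y
    simp only [hv]
    rw [hAg, hBg]
    have : Real.exp (-1) * Real.exp 1 = 1 := by rw [← Real.exp_add]; simp
    linear_combination (A y * B y) * this
  obtain ⟨y₃, hy₃⟩ := exists_max hg hslab (u := v) (by fun_prop) hvg y₁
  have hv3 : 0 < v y₃ := lt_of_lt_of_le (mul_pos hAy hBy) (hy₃ y₁)
  set k : ℝ := (u y₂)⁻¹ with hk
  set k' : ℝ := (k * v y₃)⁻¹ with hk'
  have hk0 : 0 < k := inv_pos.2 hu2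
  have hk0' : 0 < k' := inv_pos.2 (mul_pos hk0 hv3)
  have hmin : 0 < min a b := lt_min ha hb
  -- boundedness on the charts
  have hbd : ∀ u : Y → ℝ, Continuous u → ∃ M : ℝ, ∀ i, ∀ z ∈ ball (0:E) 16,
      u (C.p i z) ≤ Real.exp M := by
    intro u hu
    obtain ⟨M, hM⟩ := (hslab (-Γ) Γ).exists_bound_of_continuousOn hu.continuousOn
    refine ⟨M, fun i z hz => ?_⟩
    have h1 := abs_le.1 (hΓ i z hz)
    have h2 := hM (C.p i z) ⟨h1.1, h1.2⟩
    rw [Real.norm_eq_abs] at h2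
    linarith [le_abs_self (u (C.p i z)), Real.add_one_le_exp M]
  obtain ⟨MA, hMA⟩ := hbd A hAc
  obtain ⟨MB, hMB⟩ := hbd B hBc
  refine ⟨⟨fun y => k * A y, fun y => k' * B y, ?_, ?_, ?_, ?_, ?_, ?_, ?_, ?_, ?_, ?_, ?_, ?_, ?_⟩⟩
  · exact (continuous_const.mul hAc).measurable
  · exact (continuous_const.mul hBc).measurable
  · exact fun y => mul_nonneg hk0.le (hA0 y)
  · exact fun y => mul_nonneg hk0'.le (hB0 y)
  · intro y
    rw [hAg]; ring
  · intro y
    rw [hBg]; ring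
  · intro y
    have h1 := hy₂ y
    have h2 : k * (A y * Real.exp (-h y)) ≤ 1 := by
      rw [hk, inv_mul_le_iff₀ hu2, mul_one]
      exact h1
    have h3 : Real.exp (-h y) * Real.exp (h y) = 1 := by rw [← Real.exp_add]; simp
    calc k * A y = k * (A y * Real.exp (-h y)) * Real.exp (h y) := by
          linear_combination (-(k * A y)) * h3
      _ ≤ 1 * Real.exp (h y) := mul_le_mul_of_nonneg_right h2 (Real.exp_pos _).le
      _ = Real.exp (h y) := one_mul _
  · intro y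
    have h1 := hy₃ y
    have h2 : k' * (k * v y) ≤ 1 := by
      rw [hk', inv_mul_le_iff₀ (mul_pos hk0 hv3), mul_one]
      exact mul_le_mul_of_nonneg_left h1 hk0.le
    simp only [hv] at h2
    linarith
  · refine ⟨y₂, ?_⟩
    have h1 : k * (A y₂ * Real.exp (-h y₂)) = 1 := inv_mul_cancel₀ hu2.ne'
    have h3 : Real.exp (-h y₂) * Real.exp (h y₂) = 1 := by rw [← Real.exp_add]; simp
    have h4 : k * A y₂ = Real.exp (h y₂) := by
      linear_combination (Real.exp (h y₂)) * h1 - (k * A y₂) * h3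
    show _ ≤ k * A y₂
    rw [h4]
    exact Real.exp_le_exp.2 (by linarith)
  · refine ⟨y₃, ?_⟩
    have h1 : k' * (k * v y₃) = 1 := inv_mul_cancel₀ (mul_pos hk0 hv3).ne'
    simp only [hv] at h1
    show Real.exp (-0) ≤ k * A y₃ * (k' * B y₃)
    rw [neg_zero, Real.exp_zero]
    linarith
  · intro i
    have hm : Measurable (fun z : E => A (C.p i z)) := hAc.measurable.comp (C.meas i)
    have h1 := logSM_rpow (fun z => hF0 _) (hFs i) (r := 1 / a) (by positivity)
    have h2 : 1 / a * c ≤ c / min a b := by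
      rw [one_div, inv_mul_eq_div]
      exact div_le_div_of_nonneg_left hc0 hmin (min_le_left _ _)
    exact (h1.const_mul hm (fun z hz => hMA i z hz) hk0).mono_eps h2
  · intro i
    have hm : Measurable (fun z : E => B (C.p i z)) := hBc.measurable.comp (C.meas i)
    have h1 := logSM_rpow (fun z => hH0 _) (hHs i) (r := 1 / b) (by positivity)
    have h2 : 1 / b * c ≤ c / min a b := by
      rw [one_div, inv_mul_eq_div]
      exact div_le_div_of_nonneg_left hc0 hmin (min_le_right _ _)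
    exact (h1.const_mul hm (fun z hz => hMB i z hz) hk0').mono_eps h2
  · obtain ⟨M, hM⟩ := hbd (fun y => k' * B y) (by fun_prop)
    exact ⟨M, hM⟩

end step

end Crest.Agent.R275.NegS908
end
end

-- ▼ part R275/Neg3_908

/-!
R275 (S0418), helper908, block NEG: the final contradiction.  If every nonzero complex number is the
multiplier of an eigen-section of `L`, then the sections with multipliers `exp (-n)` and `exp n`
contradict the flux lemma.
-/

set_option autoImplicit false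
set_option linter.unusedSectionVars false

open Set Filter Topology Metric Crest.AlgGeometry.Surface MeasureTheory
open scoped Manifold ContDiff

noncomputable section

namespace Crest.Agent.R275.Neg3908

open Crest.Agent.R275.HolY631 Crest.Agent.R275.HolL631 Crest.Agent.R275.FL606
  Crest.Agent.R275.FL884 Crest.Agent.R275.Neg2908 Crest.Agent.R275.NegS908

variable {Y : Type*} [TopologicalSpace Y] [ChartedSpace C2 Y] [IsManifold 𝓘(ℂ, C2) 1 Y]
variable {I : Type*} {g : Y ≃ₜ Y} {h : Y → ℝ} {ρ : I ≃ I}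

/-- two nonzero sections (of possibly different line bundles) are simultaneously nonzero at some
point -/
theorem exists_ne_ne [PreconnectedSpace Y] {L L' : Coc Y I} (hU : L'.U = L.U)
    {s s' : I → Y → ℂ} (hs : L.IsSec s) (hs' : L'.IsSec s')
    (h1 : ∃ i, ∃ y ∈ L.U i, s i y ≠ 0) (h2 : ∃ i, ∃ y ∈ L'.U i, s' i y ≠ 0) :
    ∃ i, ∃ y ∈ L.U i, s i y ≠ 0 ∧ s' i y ≠ 0 := by
  obtain ⟨i, y, hy, hsy⟩ := h1
  obtain ⟨i', y', hy', hsy'⟩ := h2
  have h2 : ∀ᶠ w in 𝓝 y, s i w ≠ 0 :=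
    (((hs.hol i).continuousOn.continuousAt ((L.isOpen i).mem_nhds hy))).eventually_ne hsy
  have hy2 : y ∈ L'.U i := by rwa [hU]
  have h3 : ∃ᶠ w in 𝓝 y, s' i w ≠ 0 := by
    intro h4
    have h5 : ∀ᶠ w in 𝓝 y, L'.Van s' w := by
      filter_upwards [h4, (L'.isOpen i).mem_nhds hy2] with w hw hwi
      exact (L'.van_iff hs' hwi).2 (not_not.1 hw)
    exact hsy' (L'.eq_zero_of_eventually hs' h5 y' i' hy')
  obtain ⟨w, hw, hw1, hw2⟩ := (h3.and_eventually (h2.and ((L.isOpen i).mem_nhds hy))).exists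
  exact ⟨i, w, hw2, hw1, hw⟩

variable [MeasurableSpace Y] [BorelSpace Y] {ι : Type*}

/-- norms of holomorphic sections: what is needed for the flux lemma -/
structure SecNorm (L : Coc Y I) (g : Y ≃ₜ Y) (ρ : I ≃ I) (C : Cov C2 g ι) (c : ℝ) where
  N : (I → Y → ℂ) → Y → ℝ
  cont : ∀ s, L.IsSec s → Continuous (N s)
  nonneg : ∀ s, L.IsSec s → ∀ y, 0 ≤ N s y
  ne_zero : ∀ s, L.IsSec s → ∀ i, ∀ y ∈ L.U i, s i y ≠ 0 → N s y ≠ 0
  eig : ∀ t s, Eig L g ρ t s → ∀ y, N s (g y) = ‖t‖ * N s y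
  logSM : ∀ s, L.IsSec s → ∀ k, LogSM c (fun z => N s (C.p k z)) (ball 0 16)

/-- the flux lemma, in the form used here -/
def Flux (C : Cov C2 g ι) (h : Y → ℝ) : Prop :=
  ∀ ε η : ℕ → ℝ, (∀ n, 0 ≤ ε n) → Tendsto ε atTop (𝓝 0) → Tendsto η atTop (𝓝 0) →
    (∀ n, Nonempty (Step C h (ε n) (η n))) → False

/-- **NEG (iv)**: not all nonzero complex numbers are multipliers of eigen-sections of `L`. -/
theorem not_all [PreconnectedSpace Y] (D : Deck g h) {L : Coc Y I} {C : Cov C2 g ι} {c : ℝ}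
    (hc : 0 ≤ c) (hN : SecNorm L g ρ C c) {Γ : ℝ}
    (hΓ : ∀ i, ∀ z ∈ ball (0:C2) 16, |h (C.p i z)| ≤ Γ)
    (hF : Flux C h) : ¬ ∀ t : ℂ, t ≠ 0 → t ∈ Sp L g ρ := by
  intro hall
  refine hF (fun n => c / (n + 1)) (fun _ => 0) (fun n => by positivity) ?_ tendsto_const_nhds ?_
  · exact tendsto_const_div_atTop_nhds_zero_nat (c : ℝ) |>.comp (tendsto_add_atTop_nat 1) |>.congr
      (fun n => by simp)
  intro n
  have hn : (0:ℝ) < n + 1 := by positivity
  obtain ⟨_, s, hs, hs0⟩ := hall (Real.exp (-(n + 1)) : ℝ)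
    (by exact_mod_cast (Real.exp_pos _).ne')
  obtain ⟨_, s', hs', hs0'⟩ := hall (Real.exp (n + 1) : ℝ)
    (by exact_mod_cast (Real.exp_pos _).ne')
  obtain ⟨i, y, hy, h1, h2⟩ := exists_ne_ne rfl hs.toIsSec hs'.toIsSec hs0 hs0'
  have hn' : ∀ x : ℝ, ‖((Real.exp x : ℝ) : ℂ)‖ = Real.exp x := by
    intro x
    rw [Complex.norm_real, Real.norm_eq_abs, abs_of_pos (Real.exp_pos _)]
  have := exists_step C D.cont D.shift D.slab hΓ hc hn hn (hN.cont s hs.toIsSec)
    (hN.cont s' hs'.toIsSec) (hN.nonneg s hs.toIsSec) (hN.nonneg s' hs'.toIsSec)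
    (fun y => by rw [hN.eig _ s hs y, hn']) (fun y => by rw [hN.eig _ s' hs' y, hn'])
    (hN.logSM s hs.toIsSec) (hN.logSM s' hs'.toIsSec)
    ⟨y, mul_ne_zero (hN.ne_zero s hs.toIsSec i y hy h1) (hN.ne_zero s' hs'.toIsSec i y hy h2)⟩
  rwa [min_self] at this

/-- **NEG**: `L` and `L' = K - L` line bundles on `X`, pulled back to `Y`.  If `K` has no section
with multiplier one, then it is not true that for every `t ≠ 0` there is an eigen-section of `L`
with multiplier `t` or an eigen-section of `L'` with multiplier `t⁻¹`. -/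
theorem neg [PreconnectedSpace Y] (D : Deck g h) {L L' KK : Coc Y I} (E : Inv L g ρ)
    (E' : Inv L' g ρ) (hU : L'.U = L.U) (hUK : KK.U = L.U)
    (hprod : ∀ i j y, y ∈ L.U i → y ∈ L.U j → L.G i j y * L'.G i j y = KK.G i j y)
    {C : Cov C2 g ι} {c : ℝ} (hc : 0 ≤ c) (hN : SecNorm L g ρ C c) (hN' : SecNorm L' g ρ C c)
    {Γ : ℝ} (hΓ : ∀ i, ∀ z ∈ ball (0:C2) 16, |h (C.p i z)| ≤ Γ) (hF : Flux C h)
    (hK : (1 : ℂ) ∉ Sp KK g ρ) :
    ∃ t : ℂ, t ≠ 0 ∧ t ∉ Sp L g ρ ∧ t⁻¹ ∉ Sp L' g ρ := by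
  by_contra hcon
  push Not at hcon
  rcases dichotomy D E E' hU hUK hprod hK (fun t ht => by
    by_cases h1 : t ∈ Sp L g ρ
    · exact Or.inl h1
    · exact Or.inr (hcon t ht h1)) with h1 | h1
  · exact not_all D hc hN hΓ hF h1
  · exact not_all D hc hN' hΓ hF h1

end Crest.Agent.R275.Neg3908
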