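import Mathlib
import Crest.Agent.R275.FLh_606
import Crest.Agent.R275.ZC1_352
import Crest.Agent.R275.ZC9_352
import Crest.Agent.R275.Neg3_908

-- ▼ part R275/FLi_606
section

/-!
R275 (S0418), helper606: flux lemma, part i.
A smooth function with vanishing complex Hessian on a ball is the real part of a holomorphic
function.
-/

set_option autoImplicit false
set_option linter.unusedSectionVars false

open MeasureTheory Set Metric Filter Topology
open scoped ENNReal ContDiff

noncomputable section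

namespace Crest.Agent.R275.FL606

section holo

variable {E : Type*} [NormedAddCommGroup E] [NormedSpace ℂ E]

/-- the `ℂ`-linear extension of the real differential -/
def om (f : E → ℝ) (z : E) : E →L[ℂ] ℂ := StrongDual.extendRCLikeₗᵢ (𝕜 := ℂ) (fderiv ℝ f z)

lemma om_apply (f : E → ℝ) (z v : E) :
    om f z v = (fderiv ℝ f z v : ℂ) - Complex.I * (fderiv ℝ f z (Complex.I • v) : ℂ) := rfl

lemma om_re (f : E → ℝ) (z v : E) : (om f z v).re = fderiv ℝ f z v := by
  rw [om_apply]; simp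

lemma fderiv_om {f : E → ℝ} (hf : ContDiff ℝ ∞ f) (z v w : E) :
    fderiv ℝ (om f) z v w = (fderiv ℝ (fderiv ℝ f) z v w : ℂ) -
      Complex.I * (fderiv ℝ (fderiv ℝ f) z v (Complex.I • w) : ℂ) := by
  have hd2 : Differentiable ℝ (fderiv ℝ f) :=
    (hf.fderiv_right (m := 1) (by norm_cast)).differentiable (by norm_num)
  set T : (E →L[ℝ] ℝ) →L[ℝ] (E →L[ℂ] ℂ) :=
    ((StrongDual.extendRCLikeₗᵢ (𝕜 := ℂ) (F := E)).toContinuousLinearEquiv :
      StrongDual ℝ E →L[ℝ] StrongDual ℂ E) with hT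
  have h1 : HasFDerivAt (om f) (T.comp (fderiv ℝ (fderiv ℝ f) z)) z :=
    T.hasFDerivAt.comp z (hd2 z).hasFDerivAt
  rw [h1.fderiv]
  rfl

lemma differentiable_om {f : E → ℝ} (hf : ContDiff ℝ ∞ f) : Differentiable ℝ (om f) := by
  have hd2 : Differentiable ℝ (fderiv ℝ f) :=
    (hf.fderiv_right (m := 1) (by norm_cast)).differentiable (by norm_num)
  intro z
  set T : (E →L[ℝ] ℝ) →L[ℝ] (E →L[ℂ] ℂ) :=
    ((StrongDual.extendRCLikeₗᵢ (𝕜 := ℂ) (F := E)).toContinuousLinearEquiv :
      StrongDual ℝ E →L[ℝ] StrongDual ℂ E) with hT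
  have h1 : HasFDerivAt (om f) (T.comp (fderiv ℝ (fderiv ℝ f) z)) z :=
    T.hasFDerivAt.comp z (hd2 z).hasFDerivAt
  exact h1.differentiableAt

/-- **Local holomorphic functions with given pluriharmonic real part.** -/
theorem exists_holo {f : E → ℝ} (hf : ContDiff ℝ ∞ f) {U : Set E} (hUc : Convex ℝ U)
    (hUo : IsOpen U)
    (hlap : ∀ z ∈ U, ∀ v, fderiv ℝ (fderiv ℝ f) z v v +
      fderiv ℝ (fderiv ℝ f) z (Complex.I • v) (Complex.I • v) = 0) :
    ∃ F : E → ℂ, (∀ z ∈ U, HasFDerivAt F (om f z) z) ∧ ∀ z ∈ U, (F z).re = f z := by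
  have hsymm : ∀ z, ∀ v w, fderiv ℝ (fderiv ℝ f) z v w = fderiv ℝ (fderiv ℝ f) z w v := by
    intro z v w
    have h := (hf.contDiffAt (x := z)).isSymmSndFDerivAt (by
      rw [minSmoothness_of_isRCLikeNormedField]; norm_cast)
    exact h.eq v w
  have hpol : ∀ z ∈ U, ∀ v w, fderiv ℝ (fderiv ℝ f) z v w +
      fderiv ℝ (fderiv ℝ f) z (Complex.I • v) (Complex.I • w) = 0 := by
    intro z hz v w
    have h1 := hlap z hz (v + w)
    have h2 := hlap z hz v
    have h3 := hlap z hz w
    rw [smul_add] at h1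
    simp only [map_add, _root_.add_apply] at h1
    have h4 := hsymm z w v
    have h5 := hsymm z (Complex.I • w) (Complex.I • v)
    linarith
  have hI : ∀ z ∈ U, ∀ v w, fderiv ℝ (fderiv ℝ f) z v (Complex.I • w) =
      fderiv ℝ (fderiv ℝ f) z (Complex.I • v) w := by
    intro z hz v w
    have h1 := hpol z hz v (Complex.I • w)
    rw [smul_smul, Complex.I_mul_I, neg_smul, one_smul, map_neg] at h1
    linarith
  obtain ⟨F₀, hF₀⟩ := hUc.exists_forall_hasFDerivAt_of_fderiv_symmetric (𝕜 := ℂ) hUo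
    (differentiable_om hf).differentiableOn (by
      intro z hz v w
      rw [fderiv_om hf, fderiv_om hf, hsymm z v w, hI z hz v w,
        hsymm z (Complex.I • v) w])
  rcases U.eq_empty_or_nonempty with rfl | ⟨a, ha⟩
  · exact ⟨F₀, hF₀, fun z hz => by simp at hz⟩
  · -- the real part
    have h1 : ∀ z ∈ U, (F₀ z).re - f z = (F₀ a).re - f a := by
      intro z hz
      have hd : Differentiable ℝ f := hf.differentiable (by simp)
      have h2 : ∀ x ∈ U, HasFDerivAt (fun x => (F₀ x).re - f x) (0 : E →L[ℝ] ℝ) x := by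
        intro x hx
        have h3 : HasFDerivAt (fun x => (F₀ x).re)
            (Complex.reCLM.comp ((om f x).restrictScalars ℝ)) x :=
          Complex.reCLM.hasFDerivAt.comp x ((hF₀ x hx).restrictScalars ℝ)
        have h4 := h3.sub (hd x).hasFDerivAt
        have h5 : Complex.reCLM.comp ((om f x).restrictScalars ℝ) - fderiv ℝ f x = 0 := by
          ext v
          change (om f x v).re - fderiv ℝ f x v = 0
          rw [om_re, sub_self]
        rw [h5] at h4
        exact h4
      have h6 := hUc.is_const_of_fderivWithin_eq_zero (𝕜 := ℝ)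
        (f := fun x => (F₀ x).re - f x)
        (fun x hx => (h2 x hx).differentiableAt.differentiableWithinAt) (by
          intro x hx
          rw [fderivWithin_of_isOpen hUo hx]
          exact (h2 x hx).fderiv) hz ha
      exact h6
    refine ⟨fun z => F₀ z - ((F₀ a).re - f a : ℝ), fun z hz => ?_, fun z hz => ?_⟩
    · exact (hF₀ z hz).sub_const _
    · have := h1 z hz
      rw [Complex.sub_re, Complex.ofReal_re]
      linarith

end holo

end Crest.Agent.R275.FL606
end
end

-- ▼ part R275/FLj_606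
section

/-!
R275 (S0418), helper606: flux lemma, part j.
Glueing of the conjugate functions, maximum principle, final contradiction.
-/

set_option autoImplicit false
set_option linter.unusedSectionVars false

open MeasureTheory Set Metric Filter Topology
open scoped ENNReal ContDiff

noncomputable section

namespace Crest.Agent.R275.FL606

open ZC352 (LPS)

/-- Every `g`-equivariant real local primitive system on `Y` has a primitive which is additive
under `g`.  (A consequence of `b₁(X) = 1`.) -/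
def B1Prop (Y : Type) [TopologicalSpace Y] (g : Y ≃ₜ Y) : Prop :=
  ∀ P : LPS Y ℝ,
    (∀ i j, ∀ y ∈ P.U i, g y ∈ P.U j → ∃ c : ℝ, ∀ᶠ w in 𝓝 y, P.h j (g w) - P.h i w = c) →
    ∃ (F : Y → ℝ) (c : ℝ), P.IsPrim F ∧ ∀ y, F (g y) = F y + c

section const

variable {E : Type*} [NormedAddCommGroup E] [NormedSpace ℂ E]

/-- a holomorphic function with constant real part is constant -/
lemma const_of_re {D : E → ℂ} {B : Set E} (hB : Convex ℝ B) (hBo : IsOpen B)
    (hD : ∀ x ∈ B, DifferentiableAt ℂ D x) {c : ℝ} (hc : ∀ x ∈ B, (D x).re = c) {x y : E}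
    (hx : x ∈ B) (hy : y ∈ B) : D x = D y := by
  have h1 : ∀ x ∈ B, fderiv ℂ D x = 0 := by
    intro x hx
    have h2 : HasFDerivAt (fun x => (D x).re)
        (Complex.reCLM.comp ((fderiv ℂ D x).restrictScalars ℝ)) x :=
      Complex.reCLM.hasFDerivAt.comp x ((hD x hx).hasFDerivAt.restrictScalars ℝ)
    have h3 : HasFDerivAt (fun x => (D x).re) (0 : E →L[ℝ] ℝ) x := by
      refine (hasFDerivAt_const c x).congr_of_eventuallyEq ?_
      filter_upwards [hBo.mem_nhds hx] with y hy using hc y hy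
    have h4 := h2.unique h3
    have h5 : ∀ v, (fderiv ℂ D x v).re = 0 := fun v =>
      congrArg (fun L : E →L[ℝ] ℝ => L v) h4
    ext v
    apply Complex.ext
    · simpa using h5 v
    · have h6 := h5 (Complex.I • v)
      rw [map_smul, smul_eq_mul, Complex.I_mul_re] at h6
      simpa using h6
  exact hB.is_const_of_fderivWithin_eq_zero (𝕜 := ℂ) (f := D)
    (fun x hx => (hD x hx).differentiableWithinAt)
    (fun x hx => by rw [fderivWithin_of_isOpen hBo hx]; exact h1 x hx) hx hy

end const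

variable {E : Type*} [NormedAddCommGroup E] [NormedSpace ℂ E] [MeasurableSpace E] [BorelSpace E]
  [FiniteDimensional ℝ E]
  {Y : Type} [TopologicalSpace Y] [MeasurableSpace Y] [BorelSpace Y] {ι : Type}
  {g : Y ≃ₜ Y} (C : Cov E g ι)

lemma zpow_neg_apply (m : ℤ) (y : Y) : (g ^ (-m)) ((g ^ m) y) = y := by
  have h1 : (g ^ (-m)) * (g ^ m) = 1 := by rw [← zpow_add]; simp
  exact congrArg (fun e : Y ≃ₜ Y => e y) h1


lemma zpow_add_apply (m n : ℤ) (y : Y) : (g ^ (m + n)) y = (g ^ m) ((g ^ n) y) := by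
  rw [zpow_add]; rfl

/-- the transition functions near a point -/
lemma Cov.exists_trans {i j : ι} {m : ℤ} {z z' : E} (hz : z ∈ ball (0:E) 1)
    (hz' : z' ∈ ball (0:E) 1) (h : C.p i z = (g ^ m) (C.p j z')) :
    ∃ ρ : ℝ, 0 < ρ ∧ ball z ρ ⊆ ball (0:E) 1 ∧ ∀ x ∈ ball z ρ,
      C.q j ((g ^ (-m)) (C.p i x)) ∈ ball (0:E) 1 ∧
      C.p i x = (g ^ m) (C.p j (C.q j ((g ^ (-m)) (C.p i x)))) ∧
      DifferentiableAt ℂ (fun y => C.q j ((g ^ (-m)) (C.p i y))) x := by
  have h1 : IsOpen (C.P (j, m) '' ball (0:E) 1) :=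
    C.P_open (j, m) _ (ball_subset_ball (by norm_num)) isOpen_ball
  have hz16 : z ∈ ball (0:E) 16 := ball_subset_ball (by norm_num) hz
  have h2 : ContinuousAt (C.p i) z := (C.cont i).continuousAt (isOpen_ball.mem_nhds hz16)
  have h3 : C.p i z ∈ C.P (j, m) '' ball (0:E) 1 := ⟨z', hz', h.symm⟩
  have h4 : ∀ᶠ x in 𝓝 z, C.p i x ∈ C.P (j, m) '' ball (0:E) 1 ∧ x ∈ ball (0:E) 1 :=
    (h2.eventually (h1.mem_nhds h3)).and (isOpen_ball.mem_nhds hz)
  obtain ⟨ρ, hρ, hρb⟩ := Metric.eventually_nhds_iff_ball.1 h4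
  refine ⟨ρ, hρ, fun x hx => (hρb x hx).2, fun x hx => ?_⟩
  obtain ⟨⟨x', hx', hxx'⟩, hx1⟩ := hρb x hx
  have hx16' : x' ∈ ball (0:E) 16 := ball_subset_ball (by norm_num) hx'
  have hx16 : x ∈ ball (0:E) 16 := ball_subset_ball (by norm_num) hx1
  have e1 : C.p i x = (g ^ m) (C.p j x') := hxx'.symm
  have e2 : C.q j ((g ^ (-m)) (C.p i x)) = x' := by
    rw [e1, zpow_neg_apply, C.qp j x' hx16']
  rw [e2]
  exact ⟨hx', e1, C.hol i j m x hx16 x' hx16' e1⟩

section glue

variable {H : ι → E → ℝ}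
  (hcomp : ∀ i j (m : ℤ) (z z' : E), z ∈ ball (0:E) 1 → z' ∈ ball (0:E) 1 →
      C.p i z = (g ^ m) (C.p j z') → H i z = H j z' - m)
  {F : ι → E → ℂ} (hF : ∀ i, ∀ z ∈ ball (0:E) 1, DifferentiableAt ℂ (F i) z)
  (hFH : ∀ i, ∀ z ∈ ball (0:E) 1, (F i z).re = H i z)

/-- the local functions on `Y` -/
def PhiL (C : Cov E g ι) (F : ι → E → ℂ) (j : ι × ℤ) (y : Y) : ℂ :=
  F j.1 (C.q j.1 ((g ^ (-j.2)) y)) - (j.2 : ℂ)

lemma PhiL_P (j : ι × ℤ) {z : E} (hz : z ∈ ball (0:E) 16) :
    PhiL C F j (C.P j z) = F j.1 z - (j.2 : ℂ) := by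
  unfold PhiL Cov.P
  rw [zpow_neg_apply, C.qp _ _ hz]

lemma PhiL_g (j : ι × ℤ) (y : Y) : PhiL C F j (g y) = PhiL C F (j.1, j.2 - 1) y - 1 := by
  unfold PhiL
  have : (g ^ (-j.2)) (g y) = (g ^ (-(j.2 - 1))) y := by
    have h1 : -(j.2 - 1) = -j.2 + 1 := by ring
    rw [h1, zpow_add_apply, zpow_one]
  rw [this]
  push_cast
  ring

include hcomp hF hFH in
lemma PhiL_loc (j k : ι × ℤ) {y : Y} (hj : y ∈ C.P j '' ball (0:E) 1)
    (hk : y ∈ C.P k '' ball (0:E) 1) :
    ∀ᶠ w in 𝓝 y, PhiL C F j w - PhiL C F k w = PhiL C F j y - PhiL C F k y := by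
  obtain ⟨z, hz, hzy⟩ := hj
  obtain ⟨z', hz', hz'y⟩ := hk
  obtain ⟨i, m⟩ := j
  obtain ⟨i', n⟩ := k
  have e1 : C.p i z = (g ^ (n - m)) (C.p i' z') := by
    have h1 : (g ^ (-m)) y = C.p i z := by
      rw [← hzy]; exact zpow_neg_apply m _
    rw [← h1, ← hz'y]
    change (g ^ (-m)) ((g ^ n) (C.p i' z')) = _
    rw [← zpow_add_apply]
    congr 2; ring
  obtain ⟨ρ, hρ, hρb, hρx⟩ := C.exists_trans hz hz' e1
  set τ : E → E := fun x => C.q i' ((g ^ (-(n - m))) (C.p i x)) with hτ
  set D : E → ℂ := fun x => F i x - F i' (τ x) with hD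
  have hDd : ∀ x ∈ ball z ρ, DifferentiableAt ℂ D x := by
    intro x hx
    obtain ⟨h1, h2, h3⟩ := hρx x hx
    have h4 : DifferentiableAt ℂ (fun x => F i' (τ x)) x :=
      DifferentiableAt.comp x (hF i' (τ x) h1) h3
    exact (hF i x (hρb hx)).sub h4
  have hDre : ∀ x ∈ ball z ρ, (D x).re = -((n - m : ℤ) : ℝ) := by
    intro x hx
    obtain ⟨h1, h2, h3⟩ := hρx x hx
    have h5 := hcomp i i' (n - m) x (τ x) (hρb hx) h1 h2
    simp only [hD, Complex.sub_re]
    rw [hFH i x (hρb hx), hFH i' _ h1, h5]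
    ring
  have hDc : ∀ x ∈ ball z ρ, D x = D z := fun x hx =>
    const_of_re (convex_ball z ρ) isOpen_ball hDd hDre hx (mem_ball_self hρ)
  have hopen : IsOpen (C.P (i, m) '' ball z ρ) :=
    C.P_open (i, m) _ (hρb.trans (ball_subset_ball (by norm_num))) isOpen_ball
  have hval : ∀ x ∈ ball z ρ, PhiL C F (i, m) (C.P (i, m) x) - PhiL C F (i', n) (C.P (i, m) x) =
      D x + ((n : ℂ) - m) := by
    intro x hx
    have hx16 : x ∈ ball (0:E) 16 := ball_subset_ball (by norm_num) (hρb hx)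
    rw [PhiL_P C (i, m) hx16]
    have e2 : (g ^ (-n)) (C.P (i, m) x) = (g ^ (-(n - m))) (C.p i x) := by
      change (g ^ (-n)) ((g ^ m) (C.p i x)) = _
      rw [← zpow_add_apply]
      congr 2; ring
    change F i x - (m : ℂ) - (F i' (C.q i' ((g ^ (-n)) (C.P (i, m) x))) - (n : ℂ)) = _
    rw [e2]
    simp only [hD, hτ]
    ring
  filter_upwards [hopen.mem_nhds ⟨z, mem_ball_self hρ, hzy⟩] with w hw
  obtain ⟨x, hx, rfl⟩ := hw
  rw [hval x hx, hDc x hx, ← hval z (mem_ball_self hρ), hzy]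

/-- the local primitive system of the imaginary parts -/
def PhiLPS : LPS Y ℝ where
  ι := ι × ℤ
  U j := C.P j '' ball (0:E) 1
  isOpen j := C.P_open j _ (ball_subset_ball (by norm_num)) isOpen_ball
  cover y := by
    obtain ⟨i, m, z, hz, rfl⟩ := C.cover y
    exact ⟨(i, m), z, hz, rfl⟩
  h j y := (PhiL C F j y).im
  loc j k y hj hk := by
    filter_upwards [PhiL_loc C hcomp hF hFH j k hj hk] with w hw
    have := congrArg Complex.im hw
    simpa using this

include hcomp hF hFH in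
/-- **the global additive holomorphic function** -/
theorem exists_additive (hB : B1Prop Y g) : ∃ (Φ : Y → ℂ) (c : ℝ),
    (∀ y, Φ (g y) = Φ y + (-1 + c * Complex.I)) ∧
    ∀ j : ι × ℤ, ∀ z ∈ ball (0:E) 1, DifferentiableAt ℂ (fun x => Φ (C.P j x)) z := by
  have hequiv : ∀ j k : ι × ℤ, ∀ y, y ∈ C.P j '' ball (0:E) 1 → g y ∈ C.P k '' ball (0:E) 1 →
      ∃ c : ℝ, ∀ᶠ w in 𝓝 y, (PhiL C F k (g w)).im - (PhiL C F j w).im = c := by
    intro j k y hj hk
    obtain ⟨z, hz, hzy⟩ := hk
    have hk' : y ∈ C.P (k.1, k.2 - 1) '' ball (0:E) 1 := by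
      refine ⟨z, hz, ?_⟩
      apply g.injective
      rw [← hzy]
      change g ((g ^ (k.2 - 1)) (C.p k.1 z)) = (g ^ k.2) (C.p k.1 z)
      rw [← zpow_succ_apply]
      congr 2; ring
    have h1 := PhiL_loc C hcomp hF hFH (k.1, k.2 - 1) j hk' hj
    refine ⟨(PhiL C F (k.1, k.2 - 1) y - PhiL C F j y).im, ?_⟩
    filter_upwards [h1] with w hw
    rw [PhiL_g, ← hw]
    simp
  obtain ⟨J, c, hJ, hJg⟩ := hB (PhiLPS C hcomp hF hFH) (fun j k y hj hk => hequiv j k y hj hk)
  choose i m z hz hy using C.cover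
  -- the real part
  set R : Y → ℝ := fun y => (PhiL C F (i y, m y) y).re with hR
  have hRj : ∀ (j : ι × ℤ) (y : Y), y ∈ C.P j '' ball (0:E) 1 → (PhiL C F j y).re = R y := by
    intro j y hj
    obtain ⟨x, hx, hxy⟩ := hj
    have hx16 : x ∈ ball (0:E) 16 := ball_subset_ball (by norm_num) hx
    have hz16 : z y ∈ ball (0:E) 16 := ball_subset_ball (by norm_num) (hz y)
    have e1 : PhiL C F j y = F j.1 x - (j.2 : ℂ) := by rw [← hxy, PhiL_P C j hx16]
    have e2 : PhiL C F (i y, m y) y = F (i y) (z y) - (m y : ℂ) := by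
      have := PhiL_P C (F := F) (i y, m y) hz16
      have h3 : C.P (i y, m y) (z y) = y := (hy y).symm
      rw [h3] at this
      exact this
    have e3 : C.p j.1 x = (g ^ (m y - j.2)) (C.p (i y) (z y)) := by
      have h1 : (g ^ (-j.2)) y = C.p j.1 x := by
        rw [← hxy]; exact zpow_neg_apply j.2 _
      have h2 : y = (g ^ (m y)) (C.p (i y) (z y)) := hy y
      rw [← h1]
      conv_lhs => rw [h2]
      rw [← zpow_add_apply]
      congr 2; ring
    have h5 := hcomp j.1 (i y) (m y - j.2) x (z y) hx (hz y) e3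
    simp only [hR]
    rw [e1, e2, Complex.sub_re, Complex.sub_re, hFH _ _ hx, hFH _ _ (hz y), h5]
    simp only [Complex.intCast_re]
    push_cast
    ring
  refine ⟨fun y => (R y : ℂ) + J y * Complex.I, c, fun y => ?_, fun j z₀ hz₀ => ?_⟩
  · -- equivariance
    have h1 : R (g y) = R y - 1 := by
      have hgy : g y ∈ C.P (i y, m y + 1) '' ball (0:E) 1 := by
        refine ⟨z y, hz y, ?_⟩
        change (g ^ (m y + 1)) (C.p (i y) (z y)) = g y
        rw [zpow_succ_apply, ← hy y]
      rw [← hRj _ _ hgy, PhiL_g]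
      simp [hR]
    beta_reduce
    rw [h1, hJg y]
    push_cast
    ring
  · -- holomorphic
    have hy0 : C.P j z₀ ∈ C.P j '' ball (0:E) 1 := ⟨z₀, hz₀, rfl⟩
    have hz16 : z₀ ∈ ball (0:E) 16 := ball_subset_ball (by norm_num) hz₀
    have hcont : ContinuousAt (C.P j) z₀ :=
      (C.P_cont j).continuousAt (isOpen_ball.mem_nhds hz16)
    have h1 := hcont.eventually (hJ j (C.P j z₀) hy0)
    have h2 : ∀ᶠ x in 𝓝 z₀, x ∈ ball (0:E) 1 := isOpen_ball.mem_nhds hz₀
    set K : ℂ := ((J (C.P j z₀) - (PhiL C F j (C.P j z₀)).im : ℝ) : ℂ) * Complex.I - (j.2 : ℂ) with hK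
    refine ((hF j.1 z₀ hz₀).add_const K).congr_of_eventuallyEq ?_
    filter_upwards [h1, h2] with x hx hx1
    have hx16 : x ∈ ball (0:E) 16 := ball_subset_ball (by norm_num) hx1
    have e1 : J (C.P j x) = (PhiL C F j (C.P j x)).im + (J (C.P j z₀) -
        (PhiL C F j (C.P j z₀)).im) := by
      have : J (C.P j x) - J (C.P j z₀) = (PhiL C F j (C.P j x)).im -
        (PhiL C F j (C.P j z₀)).im := hx
      linarith
    have e2 : R (C.P j x) = (PhiL C F j (C.P j x)).re := (hRj j _ ⟨x, hx1, rfl⟩).symm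
    rw [e1, e2, hK]
    have e3 := PhiL_P C (F := F) j hx16
    have e4 : F j.1 x = PhiL C F j (C.P j x) + (j.2 : ℂ) := by rw [e3]; ring
    rw [e4]
    conv_rhs => rw [← Complex.re_add_im (PhiL C F j (C.P j x))]
    push_cast
    ring

end glue

/-- **no additive holomorphic functions** -/
theorem no_additive [PreconnectedSpace Y] [Nonempty Y] [Finite ι]
    {Φ : Y → ℂ} {c : ℝ}
    (hg : ∀ y, Φ (g y) = Φ y + (-1 + c * Complex.I))
    (hd : ∀ j : ι × ℤ, ∀ z ∈ ball (0:E) 1, DifferentiableAt ℂ (fun x => Φ (C.P j x)) z) : False := by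
  set k : ℂ := (c : ℂ) + Complex.I with hk
  have hk0 : k ≠ 0 := by
    intro h
    have := congrArg Complex.im h
    simp [hk] at this
  set e : Y → ℂ := fun y => Complex.exp (Φ y * k⁻¹) with he
  have heg : ∀ y, e (g y) = Complex.exp Complex.I * e y := by
    intro y
    simp only [he]
    rw [hg, ← Complex.exp_add]
    congr 1
    have : (-1 + (c:ℂ) * Complex.I) = k * Complex.I := by
      rw [hk]
      linear_combination -(Complex.I_mul_I)
    rw [this]
    field_simp
    ring
  have hng : ∀ y, ‖e (g y)‖ = ‖e y‖ := by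
    intro y
    rw [heg, norm_mul]
    have h1 : ‖Complex.exp Complex.I‖ = 1 := by
      have := Complex.norm_exp_ofReal_mul_I 1
      simpa using this
    rw [h1, one_mul]
  have hed : ∀ j : ι × ℤ, ∀ z ∈ ball (0:E) 1, DifferentiableAt ℂ (fun x => e (C.P j x)) z := by
    intro j z hz
    exact ((hd j z hz).mul_const k⁻¹).cexp
  -- continuity
  have hec : Continuous e := by
    rw [continuous_iff_continuousAt]
    intro y
    obtain ⟨i, m, z, hz, hy⟩ := C.cover y
    have hy' : C.P (i, m) z = y := hy.symm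
    have h1 : ContinuousAt (fun x => e (C.P (i, m) x)) z := (hed (i, m) z hz).continuousAt
    rw [ContinuousAt, Filter.tendsto_def]
    intro V hV
    have h2 : (fun x => e (C.P (i, m) x)) ⁻¹' V ∈ 𝓝 z := h1 (by
      show V ∈ 𝓝 (e (C.P (i, m) z))
      rw [hy']; exact hV)
    have h3 : ((fun x => e (C.P (i, m) x)) ⁻¹' V ∩ ball (0:E) 1) ∈ 𝓝 z :=
      Filter.inter_mem h2 (isOpen_ball.mem_nhds hz)
    obtain ⟨ρ, hρ, hρb⟩ := Metric.mem_nhds_iff.1 h3
    have h4 : IsOpen (C.P (i, m) '' ball z ρ) :=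
      C.P_open (i, m) _ (fun x hx => ball_subset_ball (by norm_num) (hρb hx).2) isOpen_ball
    refine mem_of_superset (h4.mem_nhds ⟨z, mem_ball_self hρ, hy'⟩) ?_
    rintro _ ⟨x, hx, rfl⟩
    exact (hρb hx).1
  -- the maximum
  have hKne : C.K.Nonempty := by
    obtain ⟨y⟩ := (inferInstance : Nonempty Y)
    obtain ⟨m, y', hy', -⟩ := C.exists_K y
    exact ⟨y', hy'⟩
  obtain ⟨y₀, hy₀, hmax⟩ := C.K_compact.exists_isMaxOn hKne hec.norm.continuousOn
  have hmax' : ∀ y, ‖e y‖ ≤ ‖e y₀‖ := by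
    intro y
    obtain ⟨y', hy', h⟩ := C.exists_K_of_inv (f := fun y => ‖e y‖) hng y
    beta_reduce at h
    rw [← h]
    exact hmax hy'
  -- the set where `e = e y₀` is clopen
  have hopen : ∀ y, ‖e y‖ = ‖e y₀‖ → ∀ᶠ w in 𝓝 y, e w = e y := by
    intro y hy1
    obtain ⟨i, m, z, hz, hy⟩ := C.cover y
    have hy' : C.P (i, m) z = y := hy.symm
    have h1 : ∀ᶠ x in 𝓝 z, DifferentiableAt ℂ (fun x => e (C.P (i, m) x)) x := by
      filter_upwards [isOpen_ball.mem_nhds hz] with x hx using hed _ x hx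
    have h2 : IsLocalMax (norm ∘ fun x => e (C.P (i, m) x)) z := by
      refine Eventually.of_forall fun x => ?_
      change ‖e (C.P (i, m) x)‖ ≤ ‖e (C.P (i, m) z)‖
      rw [hy', hy1]
      exact hmax' _
    have h3 := Complex.eventually_eq_of_isLocalMax_norm h1 h2
    obtain ⟨ρ, hρ, hρb⟩ := Metric.eventually_nhds_iff_ball.1
      (h3.and (isOpen_ball.mem_nhds hz : ball (0:E) 1 ∈ 𝓝 z))
    have h4 : IsOpen (C.P (i, m) '' ball z ρ) :=
      C.P_open (i, m) _ (fun x hx => ball_subset_ball (by norm_num) (hρb x hx).2) isOpen_ball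
    filter_upwards [h4.mem_nhds ⟨z, mem_ball_self hρ, hy'⟩] with w hw
    obtain ⟨x, hx, rfl⟩ := hw
    have h5 := (hρb x hx).1
    beta_reduce at h5
    rw [h5, hy']
  have hclopen : IsClopen {y | e y = e y₀} := by
    refine ⟨isClosed_eq hec continuous_const, ?_⟩
    rw [isOpen_iff_mem_nhds]
    intro y hy
    have hy' : e y = e y₀ := hy
    filter_upwards [hopen y (by rw [hy'])] with w hw
    exact hw.trans hy'
  have huniv : {y | e y = e y₀} = univ := by
    rcases isClopen_iff.1 hclopen with h | h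
    · exact absurd (show y₀ ∈ {y | e y = e y₀} from rfl) (by rw [h]; exact notMem_empty _)
    · exact h
  have h1 : e (g y₀) = e y₀ := by
    have : g y₀ ∈ {y | e y = e y₀} := by rw [huniv]; exact mem_univ _
    exact this
  rw [heg] at h1
  have h2 : e y₀ ≠ 0 := Complex.exp_ne_zero _
  have h3 : Complex.exp Complex.I = 1 := by
    have : Complex.exp Complex.I * e y₀ = 1 * e y₀ := by rw [h1, one_mul]
    exact mul_right_cancel₀ h2 this
  rw [Complex.exp_eq_one_iff] at h3
  obtain ⟨n, hn⟩ := h3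
  have h4 : (1 : ℝ) = n * (2 * Real.pi) := by
    have := congrArg Complex.im hn
    simpa using this
  have hpi := Real.pi_gt_three
  rcases lt_trichotomy n 0 with h | h | h
  · have : (n : ℝ) ≤ -1 := by exact_mod_cast Int.le_sub_one_of_lt h
    nlinarith
  · rw [h] at h4; simp at h4
  · have : (1 : ℝ) ≤ n := by exact_mod_cast h
    nlinarith

end Crest.Agent.R275.FL606
end
end

-- ▼ part R275/FLk_606
section

/-!
R275 (S0418), helper606: flux lemma, part k.
The final theorem, and the property `B1Prop` of the `ℤ`-cover.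
-/

set_option autoImplicit false
set_option linter.unusedSectionVars false

open MeasureTheory Set Metric Filter Topology
open scoped ENNReal ContDiff

noncomputable section

namespace Crest.Agent.R275.FL606

open ZC352 (LPS)

section final

variable {E : Type*} [NormedAddCommGroup E] [InnerProductSpace ℂ E] [MeasurableSpace E]
  [BorelSpace E] [FiniteDimensional ℝ E]
  {Y : Type} [TopologicalSpace Y] [MeasurableSpace Y] [BorelSpace Y] [PreconnectedSpace Y]
  {ι : Type} [Finite ι] {g : Y ≃ₜ Y} (C : Cov E g ι) {g0 : Y → ℝ} {G C₀ : ℝ}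

/-- **Flux lemma (abstract form).**  There is no sequence of normalised pairs of multiplicative
functions with opposite multipliers whose logarithms are almost psh with constants tending to `0`
and whose product tends to `1` in the sense of `Step`. -/
theorem no_steps (hH : Height C g0 G C₀) (hB : B1Prop Y g) {ε η : ℕ → ℝ}
    (S : ∀ n : ℕ, Step C g0 (ε n) (η n)) (hε0 : ∀ n, 0 ≤ ε n)
    (hε : Tendsto ε atTop (𝓝 0)) (hη : Tendsto η atTop (𝓝 0)) : False := by
  have hμ : (MeasureTheory.Measure.addHaar : Measure E).IsAddHaarMeasure := inferInstance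
  set μ : Measure E := MeasureTheory.Measure.addHaar with hμdef
  obtain ⟨κ, hκ, hκs, ⟨L, hL0, hL⟩, K, hK⟩ := exists_ker μ
  obtain ⟨H, hHc, hav, hcomp⟩ := exists_H μ hκ hL hL0 hK S hH hε0 hε hη
  have hf : ∀ i, ContDiff ℝ ∞ (conv μ κ (H i)) := fun i => contDiff_conv μ hκ hκs (hHc i)
  have hfH : ∀ i, ∀ z ∈ ball (0:E) 1, H i z = conv μ κ (H i) z := fun i z hz =>
    eq_conv μ hκ (hHc i) (hav i) hz
  have hhol : ∀ i, ∃ F : E → ℂ, (∀ z ∈ ball (0:E) 1, HasFDerivAt F (om (conv μ κ (H i)) z) z) ∧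
      ∀ z ∈ ball (0:E) 1, (F z).re = conv μ κ (H i) z := fun i =>
    exists_holo (hf i) (convex_ball _ _) isOpen_ball fun z hz v =>
      lap_eq_zero (hf i) (hfH i) (hav i) hz v
  choose F hF hFre using hhol
  have hsub : ball (0:E) 1 ⊆ ball (0:E) 2 := ball_subset_ball (by norm_num)
  obtain ⟨Φ, c, hg, hd⟩ := exists_additive C (H := H)
    (fun i j m z z' hz hz' h => hcomp i j m z z' (hsub hz) (hsub hz') h)
    (F := F) (fun i z hz => (hF i z hz).differentiableAt)
    (fun i z hz => by rw [hFre i z hz, hfH i z hz]) hB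
  obtain ⟨y, -⟩ := (S 0).exa
  have : Nonempty Y := ⟨y⟩
  exact no_additive C hg hd

end final

end Crest.Agent.R275.FL606
end
end

-- ▼ part R275/FLl_606
section

/-!
R275 (S0418), helper606: flux lemma, part l.
The property `B1Prop` for the `ℤ`-cover of helper352.
-/

set_option autoImplicit false
set_option linter.unusedSectionVars false

open Set Metric Filter Topology

noncomputable section

namespace Crest.Agent.R275.FL606

open ZC352

section iter

variable {Y : Type} [TopologicalSpace Y] {g : Y ≃ₜ Y} {P : LPS Y ℝ}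

/-- iterates -/
lemma equi_iterate
    (hP : ∀ i j, ∀ y ∈ P.U i, g y ∈ P.U j → ∃ c : ℝ, ∀ᶠ w in 𝓝 y, P.h j (g w) - P.h i w = c)
    (n : ℕ) : ∀ i j, ∀ y ∈ P.U i, g^[n] y ∈ P.U j →
      ∃ c : ℝ, ∀ᶠ w in 𝓝 y, P.h j (g^[n] w) - P.h i w = c := by
  induction n with
  | zero =>
    intro i j y hi hj
    exact ⟨_, P.loc j i y hj hi⟩
  | succ n ih =>
    intro i j y hi hj
    obtain ⟨k, hk⟩ := P.cover (g y)
    obtain ⟨c₁, h₁⟩ := hP i k y hi hk
    obtain ⟨c₂, h₂⟩ := ih k j (g y) hk (by rwa [Function.iterate_succ_apply] at hj)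
    refine ⟨c₂ + c₁, ?_⟩
    filter_upwards [h₁, g.continuous.continuousAt.eventually h₂] with w hw hw'
    rw [Function.iterate_succ_apply]
    linarith

end iter

variable {X : Type} [TopologicalSpace X] (u : C(X, Circ))

/-- **`B1Prop` of the cover.** -/
theorem b1Prop_YC (hU : ∀ Q : LPS X ℝ, ∃ (v : ℝ) (F : YC u → ℝ),
    (Q.pull (YC.prC u)).IsPrim F ∧ ∀ y, F (YC.dk u y) = F y - v) :
    B1Prop (YC u) (YC.dk u) := by
  intro P hP
  choose ix hix using P.cover
  set e : ∀ y : YC u, OpenPartialHomeomorph (YC u) X := fun y => lh (YC.lochomeo u) y with he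
  have hea : ∀ y z, e y z = YC.pr u z := fun y z => lh_apply (YC.lochomeo u) y z
  have hem : ∀ y, y ∈ (e y).source := fun y => lh_mem (YC.lochomeo u) y
  -- local uniqueness of sections
  have hsec : ∀ (y y' : YC u) (x : X), x ∈ (e y).target → x ∈ (e y').target → ∀ n : ℕ,
      (YC.dk u)^[n] ((e y).symm x) = (e y').symm x →
      ∀ᶠ w in 𝓝 x, (YC.dk u)^[n] ((e y).symm w) = (e y').symm w := by
    intro y y' x hx hx' n h
    have hc1 : ContinuousAt (fun w => (YC.dk u)^[n] ((e y).symm w)) x :=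
      ((YC.dk u).continuous.iterate n).continuousAt.comp
        ((e y).symm.continuousAt (by simpa using hx))
    have h1 : (e y').symm x ∈ (e y').source := (e y').map_target hx'
    have h2 : ∀ᶠ w in 𝓝 x, (YC.dk u)^[n] ((e y).symm w) ∈ (e y').source :=
      hc1.eventually ((e y').open_source.mem_nhds (by
        show (YC.dk u)^[n] ((e y).symm x) ∈ (e y').source
        rw [h]; exact h1))
    filter_upwards [h2, (e y).open_target.mem_nhds hx, (e y').open_target.mem_nhds hx'] with w hw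
      hw1 hw2
    apply (e y').injOn hw ((e y').map_target hw2)
    rw [(e y').right_inv hw2, hea]
    have hpr : ∀ (k : ℕ) (z : YC u), YC.pr u ((YC.dk u)^[k] z) = YC.pr u z := by
      intro k
      induction k with
      | zero => intro z; rfl
      | succ k ih => intro z; rw [Function.iterate_succ_apply, ih, YC.pr_dk]
    rw [hpr, ← hea y, (e y).right_inv hw1]
  -- differences along the iterates
  have hdiff : ∀ (y y' : YC u) (x : X), x ∈ (e y).target → x ∈ (e y').target → ∀ n : ℕ,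
      (YC.dk u)^[n] ((e y).symm x) = (e y').symm x → ∀ i j, (e y).symm x ∈ P.U i →
      (e y').symm x ∈ P.U j → ∃ c : ℝ, ∀ᶠ w in 𝓝 x,
        P.h j ((e y').symm w) - P.h i ((e y).symm w) = c := by
    intro y y' x hx hx' n h i j hi hj
    obtain ⟨c, hc⟩ := equi_iterate hP n i j ((e y).symm x) hi (by rw [h]; exact hj)
    have hc1 : ContinuousAt (e y).symm x := (e y).symm.continuousAt (by simpa using hx)
    refine ⟨c, ?_⟩
    filter_upwards [hsec y y' x hx hx' n h, hc1.eventually hc] with w hw hw'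
    rw [← hw]; exact hw'
  -- the system on X
  let Q : LPS X ℝ :=
    { ι := YC u
      U := fun y => (e y).target ∩ (e y).symm ⁻¹' P.U (ix y)
      isOpen := fun y => (e y).isOpen_inter_preimage_symm (P.isOpen _)
      cover := by
        intro x
        obtain ⟨y, rfl⟩ := YC.pr_surjective u x
        refine ⟨y, ?_, ?_⟩
        · rw [← hea y]; exact (e y).map_source (hem y)
        · rw [mem_preimage, ← hea y, (e y).left_inv (hem y)]; exact hix y
      h := fun y x => P.h (ix y) ((e y).symm x)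
      loc := by
        intro y y' x hx hx'
        have hfib : YC.pr u ((e y).symm x) = YC.pr u ((e y').symm x) := by
          rw [← hea y, ← hea y', (e y).right_inv hx.1, (e y').right_inv hx'.1]
        obtain ⟨n, hn | hn⟩ := YC.fibre u hfib
        · obtain ⟨c, hc⟩ := hdiff y y' x hx.1 hx'.1 n hn (ix y) (ix y') hx.2 hx'.2
          have hc0 := hc.self_of_nhds
          filter_upwards [hc] with w hw
          linarith
        · obtain ⟨c, hc⟩ := hdiff y' y x hx'.1 hx.1 n hn (ix y') (ix y) hx'.2 hx.2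
          have hc0 := hc.self_of_nhds
          filter_upwards [hc] with w hw
          linarith }
  obtain ⟨v, F, hF, hFg⟩ := hU Q
  refine ⟨F, -v, ?_, fun y => by rw [hFg]; ring⟩
  refine P.isPrim_of_exists fun z => ⟨ix z, hix z, ?_⟩
  have hzU : z ∈ (Q.pull (YC.prC u)).U z := by
    change YC.pr u z ∈ (e z).target ∩ (e z).symm ⁻¹' P.U (ix z)
    refine ⟨?_, ?_⟩
    · rw [← hea z]; exact (e z).map_source (hem z)
    · rw [mem_preimage, ← hea z, (e z).left_inv (hem z)]; exact hix z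
  filter_upwards [hF z z hzU, (e z).open_source.mem_nhds (hem z)] with w hw hw'
  rw [hw]
  change P.h (ix z) ((e z).symm (YC.pr u w)) - P.h (ix z) ((e z).symm (YC.pr u z)) = _
  rw [← hea z w, ← hea z z, (e z).left_inv hw', (e z).left_inv (hem z)]

end Crest.Agent.R275.FL606
end
end

-- ▼ part R275/FLm_606

/-!
R275 (S0418), helper606: flux lemma, part m.
`Flux` of helper908 from `no_steps`; `B1Prop` for the inverse deck transformation.
-/

set_option autoImplicit false
set_option linter.unusedSectionVars false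

open Set Metric Filter Topology

noncomputable section

namespace Crest.Agent.R275.FL606

open ZC352

/-- `B1Prop` for the inverse -/
theorem B1Prop.symm {Y : Type} [TopologicalSpace Y] {g : Y ≃ₜ Y} (h : B1Prop Y g) :
    B1Prop Y g.symm := by
  intro P hP
  obtain ⟨F, c, hF, hFg⟩ := h P (by
    intro i j y hi hj
    obtain ⟨c, hc⟩ := hP j i (g y) hj (by rwa [g.symm_apply_apply])
    refine ⟨-c, ?_⟩
    filter_upwards [g.continuous.continuousAt.eventually hc] with w hw
    rw [g.symm_apply_apply] at hw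
    linarith)
  refine ⟨F, -c, hF, fun y => ?_⟩
  have := hFg (g.symm y)
  rw [g.apply_symm_apply] at this
  linarith

/-- **the flux lemma in the form used by helper908** -/
theorem flux {Y : Type} [TopologicalSpace Y] [MeasurableSpace Y] [BorelSpace Y]
    [PreconnectedSpace Y] {ι : Type} [Finite ι] {g : Y ≃ₜ Y}
    (C : Cov Crest.AlgGeometry.Surface.C2 g ι) {h : Y → ℝ} {G C₀ : ℝ}
    (hH : Height C h G C₀) (hB : B1Prop Y g) : Neg3908.Flux C h :=
  fun _ _ h0 h1 h2 hS => no_steps C hH hB (fun n => (hS n).some) h0 h1 h2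

end Crest.Agent.R275.FL606
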