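import Crest.Agent.R275.DolGerm_967
import Crest.Agent.R275.C1a_509
import Crest.Agent.R266.SCV
import Mathlib.Geometry.Manifold.PartitionOfUnity
import Mathlib.Analysis.LocallyConvex.Separation
import Crest.Agent.R275.Fm_96
import Crest.Agent.R275.Core_144
import Crest.Agent.R275.Pic_293
import Crest.Agent.R275.GAtl_293
import Crest.Agent.R275.NAtl_938
import Crest.Agent.R275.XN2_194
import Crest.Agent.R275.ChiM_825

-- ▼ part R275/HSa_328
section

/-!
# R275, HOLSTR part a (helper328): the Dolbeault lemma near compact convex sets of `ℂ²`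

`exists_near_convex` : `K` compact convex, `(f, g)` smooth and `∂̄`-closed on an open `U ⊇ K` ⇒
there is `h` smooth on the whole space with `∂̄ h = (f, g)` near `K`.
(no product structure needed: the error of the cut-off is solved along complex lines missing `K`).
-/

set_option autoImplicit false
set_option linter.unusedSectionVars false

open Set Filter Topology Complex MeasureTheory
open scoped ContDiff ComplexConjugate Manifold

namespace Crest.Agent.R275.HS328

open Crest.Agent.R275.Geo Crest.Agent.R275.Dol967 Crest.Agent.R080 Crest.Agent.R080.CauchyP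

noncomputable section

/-- the complex line through `0` in direction `v` -/
def dirL (v : Cn 2) : ℂ →L[ℝ] Cn 2 :=
  ((ContinuousLinearMap.id ℂ ℂ).smulRight v).restrictScalars ℝ

@[simp] theorem dirL_apply (v : Cn 2) (z : ℂ) : dirL v z = z • v := by
  simp [dirL]

theorem dirL_low (v : Cn 2) (z : ℂ) : ‖v‖ * ‖z‖ ≤ ‖dirL v z‖ := by
  rw [dirL_apply, norm_smul, mul_comm]

theorem Dp_dirL (v : Cn 2) (f : Cn 2 → ℂ) (x : Cn 2) :
    Dp (dirL v) f x = 2 * ∑ a, conj (v a) * dbj a f x := by
  have h := dbL_apply_vec (fderiv ℝ f x) v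
  simp only [smul_eq_mul] at h
  have h1 : ∑ a, conj (v a) * dbj a f x = ∑ b, conj (v b) * dbL b (fderiv ℝ f x) := rfl
  rw [h1, ← h]
  simp [Dp]

/-- a compactly supported `(0,2)`-form is solved along complex lines of direction `v` -/
theorem solve_dir {v : Cn 2} (hv : v ≠ 0) {φ : Cn 2 → ℂ} (hφ : ContDiff ℝ ∞ φ)
    (hc : HasCompactSupport φ) :
    ∃ b₀ b₁ : Cn 2 → ℂ, ContDiff ℝ ∞ b₀ ∧ ContDiff ℝ ∞ b₁ ∧
      (∀ x, dbj 0 b₁ x - dbj 1 b₀ x = φ x) ∧
      ∀ x, (∀ z : ℂ, φ (x - z • v) = 0) → b₀ x = 0 ∧ b₁ x = 0 := by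
  obtain ⟨R, hR⟩ := exists_radius hc
  have hvn : 0 < ‖v‖ := norm_pos_iff.2 hv
  set F : Cn 2 → ℂ := cauchyP (dirL v) φ with hF
  have h1 : ContDiff ℝ ∞ F := cauchyP_contDiff hvn (dirL_low v) hφ hR
  have hd : ∀ x, DifferentiableAt ℝ F x := fun x => h1.contDiffAt.differentiableAt (by simp)
  have h2 : ∀ x, 2 * ∑ a, conj (v a) * dbj a F x = φ x := by
    intro x
    rw [← Dp_dirL]
    exact Dp_cauchyP hvn (dirL_low v) (hφ.of_le (by exact_mod_cast le_top)) hR x
  refine ⟨fun x => (-2 * conj (v 1)) * F x, fun x => (2 * conj (v 0)) * F x,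
    contDiff_const.mul h1, contDiff_const.mul h1, fun x => ?_, fun x hx => ?_⟩
  · rw [dbj_const_mul _ (hd x), dbj_const_mul _ (hd x), ← h2 x, Fin.sum_univ_two]
    ring
  · have h0 : F x = 0 := by
      rw [hF]
      unfold cauchyP
      simp only [dirL_apply, hx, mul_zero, integral_zero]
    simp [h0]

instance : ProperSpace (Cn 2) := FiniteDimensional.proper_real _

/-- finite sums -/
theorem dbj_sum {ι : Type*} (s : Finset ι) {a : Fin 2} {f : ι → Cn 2 → ℂ} {z : Cn 2}
    (hf : ∀ i ∈ s, DifferentiableAt ℝ (f i) z) :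
    dbj a (fun x => ∑ i ∈ s, f i x) z = ∑ i ∈ s, dbj a (f i) z := by
  simp only [dbj]
  rw [fderiv_fun_sum hf]
  simp only [sum_apply, Finset.smul_sum, ← Finset.sum_add_distrib]

/-- **Dolbeault lemma near a compact convex set.** -/
theorem exists_near_convex {K U : Set (Cn 2)} (hK : IsCompact K) (hKc : Convex ℝ K)
    (hKn : K.Nonempty) (hU : IsOpen U) (hKU : K ⊆ U) {f g : Cn 2 → ℂ}
    (hf : ContDiffOn ℝ ∞ f U) (hg : ContDiffOn ℝ ∞ g U) (hfg : ∀ y ∈ U, dbj 1 f y = dbj 0 g y) :
    ∃ h : Cn 2 → ℂ, ContDiff ℝ ∞ h ∧ ∃ V, IsOpen V ∧ K ⊆ V ∧ V ⊆ U ∧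
      ∀ y ∈ V, dbj 0 h y = f y ∧ dbj 1 h y = g y := by
  classical
  -- cut-off
  obtain ⟨K', hK', hKK', hK'U⟩ := exists_compact_between hK hU hKU
  obtain ⟨χ0, hχ1, hχ0, -⟩ := exists_contMDiffMap_one_nhds_of_subset_interior (n := (⊤ : ℕ∞))
    𝓘(ℝ, Cn 2) hK.isClosed hKK'
  set χ : Cn 2 → ℂ := fun x => (χ0 x : ℂ) with hχdef
  have hχs : ContDiff ℝ ∞ χ := ofRealCLM.contDiff.comp χ0.contMDiff.contDiff
  have hχt : tsupport χ ⊆ K' := by
    apply closure_minimal _ hK'.isClosed
    intro x hx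
    by_contra hxK
    exact hx (by simp [hχdef, hχ0 x hxK])
  have hχU : tsupport χ ⊆ U := hχt.trans hK'U
  obtain ⟨N, hN, hKN, hNχ⟩ : ∃ N, IsOpen N ∧ K ⊆ N ∧ ∀ x ∈ N, χ x = 1 := by
    obtain ⟨N, h1, h2, h3⟩ := mem_nhdsSet_iff_exists.1 hχ1
    exact ⟨N, h1, h2, fun x hx => by
      have : χ0 x = 1 := h3 hx
      simp [hχdef, this]⟩
  have hF : ContDiff ℝ ∞ (fun y => χ y * f y) := contDiff_mul_of hU hχs hχU hf
  have hG : ContDiff ℝ ∞ (fun y => χ y * g y) := contDiff_mul_of hU hχs hχU hg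
  -- error
  set Ω : Cn 2 → ℂ := fun x => dbj 0 (fun y => χ y * g y) x - dbj 1 (fun y => χ y * f y) x
    with hω
  have hωs : ContDiff ℝ ∞ Ω := (contDiff_dbj hG).sub (contDiff_dbj hF)
  have hωN : ∀ x ∈ N ∩ U, Ω x = 0 := by
    rintro x ⟨hx, hxU⟩
    have e1 : (fun y => χ y * g y) =ᶠ[𝓝 x] g := by
      filter_upwards [hN.mem_nhds hx] with y hy
      rw [hNχ y hy, one_mul]
    have e2 : (fun y => χ y * f y) =ᶠ[𝓝 x] f := by
      filter_upwards [hN.mem_nhds hx] with y hy
      rw [hNχ y hy, one_mul]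
    rw [hω]
    simp only
    rw [Dol967.dbj_congr e1, Dol967.dbj_congr e2, hfg x hxU, sub_self]
  have hωK' : ∀ x ∉ K', Ω x = 0 := by
    intro x hx
    have hx' : x ∉ tsupport χ := fun h => hx (hχt h)
    have h0 := notMem_tsupport_iff_eventuallyEq.1 hx'
    have e1 : (fun y => χ y * g y) =ᶠ[𝓝 x] fun _ => 0 := by
      filter_upwards [h0] with y hy
      simp [hy]
    have e2 : (fun y => χ y * f y) =ᶠ[𝓝 x] fun _ => 0 := by
      filter_upwards [h0] with y hy
      simp [hy]
    rw [hω]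
    simp only
    rw [Dol967.dbj_congr e1, Dol967.dbj_congr e2, Dol967.dbj_const, Dol967.dbj_const, sub_self]
  have hωc : HasCompactSupport Ω := HasCompactSupport.intro hK' hωK'
  have hSK : ∀ x ∈ tsupport Ω, x ∉ K := by
    intro x hx hxK
    have h1 : Ω =ᶠ[𝓝 x] 0 := by
      filter_upwards [(hN.inter hU).mem_nhds ⟨hKN hxK, hKU hxK⟩] with y hy
      exact hωN y hy
    exact (notMem_tsupport_iff_eventuallyEq.2 h1) hx
  -- separating complex functionals
  have hsep : ∀ p : Cn 2, ∃ (l : StrongDual ℂ (Cn 2)) (u : ℝ), p ∉ K →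
      (∀ a ∈ K, (l a).re < u) ∧ u < (l p).re := by
    intro p
    by_cases hp : p ∈ K
    · exact ⟨0, 0, fun h => absurd hp h⟩
    · obtain ⟨l, u, h1, h2⟩ := RCLike.geometric_hahn_banach_closed_point (𝕜 := ℂ) hKc hK.isClosed hp
      exact ⟨l, u, fun _ => ⟨h1, h2⟩⟩
  choose l u hlu using hsep
  have hopen : ∀ p, IsOpen {x : Cn 2 | u p < (l p x).re} := fun p =>
    isOpen_lt continuous_const (Complex.continuous_re.comp (l p).continuous)
  obtain ⟨t, ht1, ht2⟩ := hωc.isCompact.elim_nhds_subcover (fun p => {x | u p < (l p x).re})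
    (fun p hp => (hopen p).mem_nhds (hlu p (hSK p hp)).2)
  obtain ⟨ρ, hρ⟩ := SmoothPartitionOfUnity.exists_isSubordinate 𝓘(ℝ, Cn 2)
    (isClosed_tsupport Ω) (fun p : t => {x | u p.1 < (l p.1 x).re}) (fun p => hopen p.1)
    (fun x hx => by
      have := ht2 hx
      simp only [mem_iUnion, exists_prop] at this
      obtain ⟨p, hp, hxp⟩ := this
      exact mem_iUnion.2 ⟨⟨p, hp⟩, hxp⟩)
  have hρs : ∀ p : t, ContDiff ℝ ∞ (fun x => (ρ p x : ℂ)) := fun p =>
    ofRealCLM.contDiff.comp (ρ p).contMDiff.contDiff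
  -- directions
  have hdir : ∀ p : t, ∃ v : Cn 2, v ≠ 0 ∧ l p.1 v = 0 := by
    intro p
    set A := l p.1 (EuclideanSpace.single 0 1) with hA
    set B := l p.1 (EuclideanSpace.single 1 1) with hB
    have hl : ∀ x : Cn 2, l p.1 x = x 0 * A + x 1 * B := by
      intro x
      have hx : x = x 0 • EuclideanSpace.single 0 1 + x 1 • EuclideanSpace.single 1 1 := by
        ext b
        fin_cases b <;> simp
      conv_lhs => rw [hx]
      rw [map_add, map_smul, map_smul, smul_eq_mul, smul_eq_mul]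
    by_cases hAB : A = 0 ∧ B = 0
    · exfalso
      obtain ⟨a, ha⟩ := hKn
      have h1 := (hlu p.1 (hSK _ (ht1 _ p.2))).1 a ha
      have h2 := (hlu p.1 (hSK _ (ht1 _ p.2))).2
      rw [hl, hAB.1, hAB.2] at h1 h2
      simp at h1 h2
      linarith
    · refine ⟨EuclideanSpace.single 0 (-B) + EuclideanSpace.single 1 A, fun h0 => hAB ?_, ?_⟩
      · have h1 := congrArg (fun x : Cn 2 => x 0) h0
        have h2 := congrArg (fun x : Cn 2 => x 1) h0
        simp at h1 h2
        exact ⟨h2, h1⟩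
      · rw [hl]
        simp
        ring
  choose v hv0 hvl using hdir
  have hφs : ∀ p : t, ContDiff ℝ ∞ (fun x => (ρ p x : ℂ) * Ω x) := fun p => (hρs p).mul hωs
  have hφc : ∀ p : t, HasCompactSupport (fun x => (ρ p x : ℂ) * Ω x) := fun p =>
    hωc.mul_left
  have hsol := fun p : t => solve_dir (hv0 p) (hφs p) (hφc p)
  choose b₀ b₁ hb₀ hb₁ hb hbz using hsol
  -- they vanish near `K`
  have hbK : ∀ (p : t) (x : Cn 2), (l p.1 x).re ≤ u p.1 → b₀ p x = 0 ∧ b₁ p x = 0 := by
    intro p x hx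
    refine hbz p x fun z => ?_
    have h1 : l p.1 (x - z • v p) = l p.1 x := by
      rw [map_sub, map_smul, hvl, smul_zero, sub_zero]
    have h2 : x - z • v p ∉ tsupport (ρ p) := by
      intro h
      have h3 := hρ p h
      simp only [mem_setOf_eq, h1] at h3
      linarith
    have h4 : ρ p (x - z • v p) = 0 := image_eq_zero_of_notMem_tsupport h2
    rw [h4]
    simp
  have hsum : ∀ x, Ω x = ∑ p : t, (ρ p x : ℂ) * Ω x := by
    intro x
    by_cases hx : x ∈ tsupport Ω
    · have h1 := ρ.sum_eq_one hx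
      rw [finsum_eq_sum_of_fintype] at h1
      rw [← Finset.sum_mul, ← ofReal_sum, h1]
      simp
    · have : Ω x = 0 := image_eq_zero_of_notMem_tsupport hx
      simp [this]
  set P : Cn 2 → ℂ := fun x => χ x * f x - ∑ p : t, b₀ p x with hP
  set Q : Cn 2 → ℂ := fun x => χ x * g x - ∑ p : t, b₁ p x with hQ
  have hPs : ContDiff ℝ ∞ P := hF.sub (ContDiff.sum fun p _ => hb₀ p)
  have hQs : ContDiff ℝ ∞ Q := hG.sub (ContDiff.sum fun p _ => hb₁ p)
  have hd : ∀ {h : Cn 2 → ℂ}, ContDiff ℝ ∞ h → ∀ x, DifferentiableAt ℝ h x := fun hh x =>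
    hh.contDiffAt.differentiableAt (by simp)
  have hPQ : ∀ y, dbj 1 P y = dbj 0 Q y := by
    intro y
    have e1 : dbj 1 P y = dbj 1 (fun y => χ y * f y) y - ∑ p : t, dbj 1 (b₀ p) y := by
      rw [hP, dbj_sub (hd hF y) (hd (ContDiff.sum fun p _ => hb₀ p) y),
        dbj_sum _ (fun p _ => hd (hb₀ p) y)]
    have e2 : dbj 0 Q y = dbj 0 (fun y => χ y * g y) y - ∑ p : t, dbj 0 (b₁ p) y := by
      rw [hQ, dbj_sub (hd hG y) (hd (ContDiff.sum fun p _ => hb₁ p) y),
        dbj_sum _ (fun p _ => hd (hb₁ p) y)]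
    have e3 : Ω y = ∑ p : t, (dbj 0 (b₁ p) y - dbj 1 (b₀ p) y) := by
      rw [hsum y]
      exact Finset.sum_congr rfl fun p _ => (hb p y).symm
    rw [Finset.sum_sub_distrib] at e3
    rw [e1, e2]
    have e4 : Ω y = dbj 0 (fun y => χ y * g y) y - dbj 1 (fun y => χ y * f y) y := rfl
    rw [e4] at e3
    linear_combination (-1 : ℂ) * e3
  -- solve on a large polydisc
  obtain ⟨R, hR⟩ := hK.isBounded.subset_ball (0 : Cn 2)
  have hRpos : 0 < R := by
    obtain ⟨a, ha⟩ := hKn
    have := hR ha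
    rw [mem_ball_zero_iff] at this
    exact (norm_nonneg a).trans_lt this
  have hKPD : K ⊆ PD 0 (16 * R / 16) := by
    intro y hy a
    have h1 := hR hy
    rw [mem_ball_zero_iff] at h1
    have h2 : ‖y a‖ ≤ ‖y‖ := EuclideanSpace.norm_eq y ▸ by
      rw [← Real.sqrt_sq (norm_nonneg (y a))]
      apply Real.sqrt_le_sqrt
      exact Finset.single_le_sum (f := fun i => ‖y i‖ ^ 2) (fun i _ => by positivity)
        (Finset.mem_univ a)
    simp only [PiLp.zero_apply, sub_zero]
    linarith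
  obtain ⟨h, hh, hh0, hh1⟩ := solve_zero_one (p := 0) (r := 16 * R) (by positivity)
    hPs.contDiffOn hQs.contDiffOn (fun y _ => hPQ y)
  refine ⟨h, hh, (⋂ p : t, {x | (l p.1 x).re < u p.1}) ∩ (N ∩ U) ∩ PD 0 (16 * R / 16), ?_, ?_, ?_,
    ?_⟩
  · refine ((isOpen_iInter_of_finite fun p => ?_).inter (hN.inter hU)).inter (isOpen_PD _ _)
    exact isOpen_lt (Complex.continuous_re.comp (l p.1).continuous) continuous_const
  · intro x hx
    refine ⟨⟨mem_iInter.2 fun p => ?_, hKN hx, hKU hx⟩, hKPD hx⟩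
    exact (hlu p.1 (hSK _ (ht1 _ p.2))).1 x hx
  · exact fun x hx => hx.1.2.2
  · rintro y ⟨⟨hy1, hy2, hy3⟩, hy4⟩
    have hz : ∀ p : t, b₀ p y = 0 ∧ b₁ p y = 0 := fun p => hbK p y (mem_iInter.1 hy1 p).le
    rw [hh0 y hy4, hh1 y hy4, hP, hQ]
    simp only [hNχ y hy2, one_mul, hz, Finset.sum_const_zero, sub_zero, and_self]

end

end Crest.Agent.R275.HS328
end

-- ▼ part R275/HSb_328
section

/-!
# R275, HOLSTR part b (helper328): Dolbeault lemma on balls of `ℂ²` without loss of domain

* `taylor_approx` : a holomorphic function on a ball is approximated by entire functions on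
  smaller balls.
* `solve_ball`    : a smooth `∂̄`-closed `(0,1)`-form on an open ball is `∂̄` of a smooth function
  on the same ball.
* `H1Z U`         : the predicate "`H¹(U, ∂̄) = 0`", invariant under `Cn 2`-affine changes.
-/

set_option autoImplicit false
set_option linter.unusedSectionVars false

open Set Filter Topology Complex MeasureTheory Metric
open scoped ContDiff ComplexConjugate NNReal

namespace Crest.Agent.R275.HS328

open Crest.Agent.R275.Geo Crest.Agent.R275.Dol967 Crest.Agent.R266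

noncomputable section

theorem taylor_approx {E : Type} [NormedAddCommGroup E] [NormedSpace ℂ E]
    [FiniteDimensional ℂ E] {c : E} {s R ε : ℝ} (hs0 : 0 < s) (hs : s < R) (hε : 0 < ε)
    {f : E → ℂ} (hf : DifferentiableOn ℂ f (ball c R)) :
    ∃ g : E → ℂ, Differentiable ℂ g ∧ ∀ x ∈ closedBall c s, ‖f x - g x‖ ≤ ε := by
  have : ProperSpace E := FiniteDimensional.proper ℂ E
  obtain ⟨p, hp⟩ := SCV.analyticOnNhd_of_differentiableOn isOpen_ball hf c
    (mem_ball_self (hs0.trans hs))
  have hp0 : HasFPowerSeriesAt (fun w => f (c + w)) p 0 := by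
    have h := hp.comp_sub (-c)
    simpa [add_comm] using h
  set R' : ℝ := (s + R) / 2 with hR'
  have hR1 : s < R' := by rw [hR']; linarith
  have hR2 : R' < R := by rw [hR']; linarith
  obtain ⟨M, hM⟩ : ∃ M, ∀ x ∈ closedBall c R', ‖f x‖ ≤ M := by
    have h1 : ContinuousOn f (closedBall c R') := hf.continuousOn.mono (closedBall_subset_ball hR2)
    obtain ⟨M, hM⟩ := (isCompact_closedBall c R').exists_bound_of_continuousOn h1
    exact ⟨M, hM⟩
  have hM0 : 0 ≤ M := (norm_nonneg _).trans (hM c (mem_closedBall_self (by linarith)))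
  set ρ : ℝ≥0 := ⟨R' / s, div_nonneg (by linarith) hs0.le⟩ with hρ
  have hρv : (ρ : ℝ) = R' / s := rfl
  have hρ1 : (1 : ℝ) < ρ := by rw [hρv, lt_div_iff₀ hs0]; linarith
  have hρ0 : (0 : ℝ) < ρ := by linarith
  have key : ∀ v : E, ‖v‖ ≤ s → HasSum (fun k => p k (fun _ => v)) (f (c + v)) ∧
      ∀ k, ‖p k (fun _ => v)‖ ≤ M * ((ρ : ℝ)⁻¹) ^ k := by
    intro v hv
    set u : ℂ →L[ℂ] E := (ContinuousLinearMap.id ℂ ℂ).smulRight v with hu
    have hu1 : ∀ z, u z = z • v := fun z => by simp [hu]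
    set F : ℂ → ℂ := fun z => f (c + u z) with hF
    have hmem : ∀ z ∈ closedBall (0 : ℂ) ρ, c + u z ∈ closedBall c R' := by
      intro z hz
      rw [mem_closedBall_zero_iff, hρv] at hz
      rw [mem_closedBall, dist_eq_norm, add_sub_cancel_left, hu1, norm_smul]
      calc ‖z‖ * ‖v‖ ≤ R' / s * s := by gcongr
        _ = R' := by field_simp
    have hFd : DifferentiableOn ℂ F (closedBall 0 ρ) := by
      intro z hz
      have h1 : DifferentiableAt ℂ f (c + u z) :=
        hf.differentiableAt (isOpen_ball.mem_nhds (closedBall_subset_ball hR2 (hmem z hz)))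
      have h2 : DifferentiableAt ℂ (fun z => c + u z) z := by fun_prop
      exact (h1.comp z h2).differentiableWithinAt
    have h1 := hFd.hasFPowerSeriesOnBall (by exact_mod_cast hρ0)
    have h2 : HasFPowerSeriesAt F (p.compContinuousLinearMap u) 0 :=
      HasFPowerSeriesAt.compContinuousLinearMap (f := fun w => f (c + w)) (u := u) (x := 0)
        (by rw [map_zero]; exact hp0)
    have h3 := h1.hasFPowerSeriesAt.eq_formalMultilinearSeries h2
    have h4 : ∀ k, cauchyPowerSeries F 0 ρ k (fun _ => 1) = p k (fun _ => v) := by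
      intro k
      rw [h3, FormalMultilinearSeries.compContinuousLinearMap_apply]
      congr 1
      funext i
      simp [hu1]
    refine ⟨?_, fun k => ?_⟩
    · have h5 := h1.hasSum (y := 1) (by
        rw [mem_eball_zero_iff]
        simpa using hρ1)
      simp only [h4] at h5
      have h6 : F (0 + 1) = f (c + v) := by simp [hF, hu1]
      rw [h6] at h5
      exact h5
    · rw [← h4 k]
      refine ((cauchyPowerSeries F 0 ρ k).le_opNorm _).trans ?_
      simp only [norm_one, Finset.prod_const_one, mul_one]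
      refine (norm_cauchyPowerSeries_le F 0 ρ k).trans ?_
      rw [abs_of_pos hρ0]
      gcongr
      have h6 : ∫ θ in (0 : ℝ)..2 * Real.pi, ‖F (circleMap 0 ρ θ)‖ ≤
          ∫ θ in (0 : ℝ)..2 * Real.pi, M := by
        have hcont : Continuous fun θ : ℝ => ‖F (circleMap 0 ρ θ)‖ :=
          (hFd.continuousOn.comp_continuous (continuous_circleMap 0 ρ)
            (fun θ => circleMap_mem_closedBall 0 hρ0.le θ)).norm
        refine intervalIntegral.integral_mono_on (by positivity) (hcont.intervalIntegrable _ _)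
          (continuous_const.intervalIntegrable _ _) fun θ _ => ?_
        exact hM _ (hmem _ (circleMap_mem_closedBall 0 hρ0.le θ))
      calc (2 * Real.pi)⁻¹ * ∫ θ in (0 : ℝ)..2 * Real.pi, ‖F (circleMap 0 ρ θ)‖
          ≤ (2 * Real.pi)⁻¹ * ∫ θ in (0 : ℝ)..2 * Real.pi, M := by gcongr
        _ = M := by
            rw [intervalIntegral.integral_const, smul_eq_mul]
            field_simp
            ring
  -- number of terms
  have hr1 : (ρ : ℝ)⁻¹ < 1 := inv_lt_one_of_one_lt₀ hρ1
  have hlim : Tendsto (fun N : ℕ => M * ((ρ : ℝ)⁻¹) ^ N / (1 - (ρ : ℝ)⁻¹)) atTop (𝓝 0) := by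
    have h1 := (tendsto_pow_atTop_nhds_zero_of_lt_one (by positivity) hr1).const_mul M
    have h2 := h1.div_const (1 - (ρ : ℝ)⁻¹)
    simpa using h2
  obtain ⟨N, hN⟩ := (hlim.eventually (ge_mem_nhds hε)).exists
  refine ⟨fun x => ∑ k ∈ Finset.range N, p k (fun _ => x - c), ?_, fun x hx => ?_⟩
  · refine Differentiable.fun_sum fun k _ => ?_
    have h1 : ContDiff ℂ 1 (p k) := (p k).contDiff
    exact (h1.comp (contDiff_pi.2 fun _ => contDiff_id.sub contDiff_const)).differentiable
      one_ne_zero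
  · rw [mem_closedBall, dist_eq_norm] at hx
    obtain ⟨h1, h2⟩ := key (x - c) hx
    rw [add_sub_cancel] at h1
    have h3 := norm_sub_le_of_geometric_bound_of_hasSum hr1 h2 h1 N
    rw [norm_sub_rev] at h3
    exact h3.trans hN

/-- `H¹(U, ∂̄) = 0` for smooth `(0,1)`-forms on an open set `U` of `ℂ²` -/
def H1Z (U : Set (Cn 2)) : Prop :=
  ∀ f g : Cn 2 → ℂ, ContDiffOn ℝ ∞ f U → ContDiffOn ℝ ∞ g U → (∀ y ∈ U, dbj 1 f y = dbj 0 g y) →
    ∃ h : Cn 2 → ℂ, ContDiffOn ℝ ∞ h U ∧ ∀ y ∈ U, dbj 0 h y = f y ∧ dbj 1 h y = g y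

/-- **Dolbeault lemma on a ball, without loss of domain.** -/
theorem solve_ball (c : Cn 2) (R : ℝ) : H1Z (ball c R) := by
  intro f g hf hg hfg
  rcases le_or_gt R 0 with hR | hR
  · rw [ball_eq_empty.2 hR]
    exact ⟨0, contDiffOn_empty, fun y hy => absurd hy (notMem_empty y)⟩
  -- radii
  set s : ℕ → ℝ := fun j => R * (1 - 1 / ((j : ℝ) + 2)) with hs
  have hsd : ∀ j : ℕ, (0 : ℝ) < 1 / ((j : ℝ) + 2) ∧ 1 / ((j : ℝ) + 2) < 1 := by
    intro j
    refine ⟨by positivity, ?_⟩
    rw [div_lt_one (by positivity)]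
    have : (0 : ℝ) ≤ j := Nat.cast_nonneg j
    linarith
  have hs0 : ∀ j, 0 < s j := fun j => mul_pos hR (by linarith [(hsd j).2])
  have hsR : ∀ j, s j < R := fun j => by
    have := (hsd j).1
    simp only [hs]
    nlinarith
  have hsm : StrictMono s := by
    refine strictMono_nat_of_lt_succ fun j => ?_
    simp only [hs]
    have h1 : 1 / (((j + 1 : ℕ) : ℝ) + 2) < 1 / ((j : ℝ) + 2) := by
      apply one_div_lt_one_div_of_lt (by positivity)
      push_cast
      linarith
    nlinarith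
  have hex : ∀ x ∈ ball c R, ∃ j, x ∈ ball c (s j) := by
    intro x hx
    have h1 : Tendsto s atTop (𝓝 (R * (1 - 0))) := by
      refine Tendsto.const_mul R (tendsto_const_nhds.sub ?_)
      have h2 := tendsto_const_div_atTop_nhds_zero_nat (1 : ℝ)
      exact (h2.comp (tendsto_add_atTop_nat 2)).congr fun j => by simp
    rw [sub_zero, mul_one] at h1
    obtain ⟨j, hj⟩ := (h1.eventually (lt_mem_nhds (mem_ball.1 hx))).exists
    exact ⟨j, hj⟩
  -- local solutions
  have hloc : ∀ j, ∃ h : Cn 2 → ℂ, ContDiff ℝ ∞ h ∧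
      ∀ y ∈ ball c (s (j + 1)), dbj 0 h y = f y ∧ dbj 1 h y = g y := by
    intro j
    obtain ⟨h, h1, V, -, h3, -, h4⟩ := exists_near_convex (isCompact_closedBall c (s (j + 1)))
      (convex_closedBall c _) ⟨c, mem_closedBall_self (hs0 _).le⟩ isOpen_ball
      (closedBall_subset_ball (hsR (j + 1))) hf hg hfg
    exact ⟨h, h1, fun y hy => h4 y (h3 (ball_subset_closedBall hy))⟩
  have hdd : ∀ {h : Cn 2 → ℂ}, ContDiff ℝ ∞ h → ∀ x, DifferentiableAt ℝ h x := fun hh x =>
    hh.contDiffAt.differentiableAt (by simp)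
  -- inductive step
  have hstep : ∀ (j : ℕ) (F : {F : Cn 2 → ℂ // ContDiff ℝ ∞ F ∧
      ∀ y ∈ ball c (s (j + 1)), dbj 0 F y = f y ∧ dbj 1 F y = g y}),
      ∃ F' : {F : Cn 2 → ℂ // ContDiff ℝ ∞ F ∧
        ∀ y ∈ ball c (s (j + 1 + 1)), dbj 0 F y = f y ∧ dbj 1 F y = g y},
        ∀ x ∈ closedBall c (s j), ‖F'.1 x - F.1 x‖ ≤ 1 / 2 / 2 ^ j := by
    intro j F
    obtain ⟨h, hh, hh'⟩ := hloc (j + 1)
    have hd : DifferentiableOn ℂ (fun x => F.1 x - h x) (ball c (s (j + 1))) := by
      refine holo_of_dbj isOpen_ball (F.2.1.sub hh).contDiffOn fun a z hz => ?_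
      have hz' : z ∈ ball c (s (j + 1 + 1)) := ball_subset_ball (hsm (Nat.lt_succ_self _)).le hz
      rw [dbj_sub (hdd F.2.1 z) (hdd hh z)]
      fin_cases a
      · change dbj 0 F.1 z - dbj 0 h z = 0
        rw [(F.2.2 z hz).1, (hh' z hz').1, sub_self]
      · change dbj 1 F.1 z - dbj 1 h z = 0
        rw [(F.2.2 z hz).2, (hh' z hz').2, sub_self]
    obtain ⟨q, hq, hqb⟩ := taylor_approx (hs0 j) (hsm (Nat.lt_succ_self j))
      (ε := 1 / 2 / 2 ^ j) (by positivity) hd
    have hqs : ContDiff ℝ ∞ q := by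
      have h1 : ContDiffOn ℂ (⊤ : WithTop ℕ∞) q univ :=
        SCV.contDiffOn_omega_of_differentiableOn isOpen_univ hq.differentiableOn
      exact ((contDiffOn_univ.1 h1).restrict_scalars ℝ).of_le le_top
    refine ⟨⟨fun x => h x + q x, hh.add hqs, fun y hy => ?_⟩, fun x hx => ?_⟩
    · rw [Dol967.dbj_add (hdd hh y) (hdd hqs y), Dol967.dbj_add (hdd hh y) (hdd hqs y),
        dbj_of_holo (hq y), dbj_of_holo (hq y), add_zero, add_zero]
      exact hh' y hy
    · have := hqb x hx
      rw [← norm_neg]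
      have e : -(h x + q x - F.1 x) = F.1 x - h x - q x := by ring
      change ‖-(h x + q x - F.1 x)‖ ≤ _
      rw [e]
      exact this
  obtain ⟨h0, hh0, hh0'⟩ := hloc 0
  choose nxt hnxt using hstep
  let F : (j : ℕ) → {F : Cn 2 → ℂ // ContDiff ℝ ∞ F ∧
      ∀ y ∈ ball c (s (j + 1)), dbj 0 F y = f y ∧ dbj 1 F y = g y} := fun j =>
    Nat.rec ⟨h0, hh0, hh0'⟩ (fun j F => nxt j F) j
  have hF : ∀ j, ∀ x ∈ closedBall c (s j), ‖(F (j + 1)).1 x - (F j).1 x‖ ≤ 1 / 2 / 2 ^ j :=
    fun j => hnxt j (F j)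
  -- Cauchy estimates
  have hcau : ∀ j i, j ≤ i → ∀ x ∈ closedBall c (s j), ‖(F (i + 1)).1 x - (F i).1 x‖ ≤
      1 / 2 / 2 ^ i := by
    intro j i hji x hx
    exact hF i x (closedBall_subset_closedBall (hsm.monotone hji) hx)
  have hlimex : ∀ x ∈ ball c R, ∃ a, Tendsto (fun i => (F i).1 x) atTop (𝓝 a) := by
    intro x hx
    obtain ⟨j, hj⟩ := hex x hx
    have h1 : CauchySeq fun i => (F (i + j)).1 x := by
      refine cauchySeq_of_le_geometric_two (C := 1) fun i => ?_
      rw [dist_comm, dist_eq_norm]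
      have h2 := hcau j (i + j) (Nat.le_add_left j i) x (ball_subset_closedBall hj)
      have h3 : i + 1 + j = i + j + 1 := by omega
      rw [h3]
      refine h2.trans ?_
      gcongr
      · norm_num
      · omega
    obtain ⟨a, ha⟩ := cauchySeq_tendsto_of_complete h1
    exact ⟨a, (tendsto_add_atTop_iff_nat j).1 ha⟩
  choose! G hG using hlimex
  have hGF : ∀ j, ∀ x ∈ ball c (s j), ∀ i, j ≤ i → ‖G x - (F i).1 x‖ ≤ 1 / 2 ^ i := by
    intro j x hx i hji
    have hxR : x ∈ ball c R := ball_subset_ball (hsR j).le hx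
    have h1 : Tendsto (fun k => (F (k + i)).1 x) atTop (𝓝 (G x)) :=
      (hG x hxR).comp (tendsto_add_atTop_nat i)
    have h2 := dist_le_of_le_geometric_two_of_tendsto₀ (C := 1 / 2 ^ i)
      (f := fun k => (F (k + i)).1 x) (fun k => by
        rw [dist_comm, dist_eq_norm]
        have h2 := hcau j (k + i) (by omega) x (ball_subset_closedBall hx)
        have h3 : k + 1 + i = k + i + 1 := by omega
        rw [h3]
        refine h2.trans (le_of_eq ?_)
        rw [pow_add]
        field_simp) h1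
    rw [dist_comm, dist_eq_norm] at h2
    have e : (F (0 + i)).1 x = (F i).1 x := by rw [zero_add]
    rw [e] at h2
    exact h2
  -- smoothness and the equation on each ball
  have hloc2 : ∀ j, ∃ D : Cn 2 → ℂ, DifferentiableOn ℂ D (ball c (s j)) ∧
      ∀ x ∈ ball c (s j), G x = (F j).1 x + D x := by
    intro j
    refine ⟨fun x => G x - (F j).1 x, ?_, fun x _ => by ring⟩
    have h1 : TendstoLocallyUniformlyOn (fun i x => (F i).1 x - (F j).1 x)
        (fun x => G x - (F j).1 x) atTop (ball c (s j)) := by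
      refine TendstoUniformlyOn.tendstoLocallyUniformlyOn ?_
      rw [Metric.tendstoUniformlyOn_iff]
      intro ε hε
      have h2 : Tendsto (fun i : ℕ => (1 : ℝ) / 2 ^ i) atTop (𝓝 0) := by
        have := tendsto_pow_atTop_nhds_zero_of_lt_one (r := (1 / 2 : ℝ)) (by norm_num) (by norm_num)
        refine this.congr fun i => by rw [div_pow, one_pow]
      filter_upwards [h2.eventually (gt_mem_nhds hε), eventually_ge_atTop j] with i hi hji x hx
      rw [dist_eq_norm]
      have h3 := hGF j x hx i hji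
      have e : G x - (F j).1 x - ((F i).1 x - (F j).1 x) = G x - (F i).1 x := by ring
      rw [e]
      exact h3.trans_lt hi
    refine (SCV.analyticOnNhd_of_tendstoLocallyUniformlyOn isOpen_ball h1 ?_).differentiableOn
    filter_upwards [eventually_ge_atTop j] with i hji
    refine holo_of_dbj isOpen_ball ((F i).2.1.sub (F j).2.1).contDiffOn fun a z hz => ?_
    have hzj : z ∈ ball c (s (j + 1)) := ball_subset_ball (hsm (Nat.lt_succ_self _)).le hz
    have hzi : z ∈ ball c (s (i + 1)) := ball_subset_ball (hsm.monotone (by omega)) hz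
    rw [dbj_sub (hdd (F i).2.1 z) (hdd (F j).2.1 z)]
    fin_cases a
    · change dbj 0 (F i).1 z - dbj 0 (F j).1 z = 0
      rw [((F i).2.2 z hzi).1, ((F j).2.2 z hzj).1, sub_self]
    · change dbj 1 (F i).1 z - dbj 1 (F j).1 z = 0
      rw [((F i).2.2 z hzi).2, ((F j).2.2 z hzj).2, sub_self]
  have hfin : ∀ x ∈ ball c R, ContDiffAt ℝ ∞ G x ∧ dbj 0 G x = f x ∧ dbj 1 G x = g x := by
    intro x hx
    obtain ⟨j, hj⟩ := hex x hx
    obtain ⟨D, hD, hGD⟩ := hloc2 j
    have hev : G =ᶠ[𝓝 x] fun y => (F j).1 y + D y := by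
      filter_upwards [isOpen_ball.mem_nhds hj] with y hy
      exact hGD y hy
    have hDs : ContDiffAt ℝ ∞ D x := by
      have h1 : ContDiffOn ℂ (⊤ : WithTop ℕ∞) D (ball c (s j)) :=
        SCV.contDiffOn_omega_of_differentiableOn isOpen_ball hD
      exact ((h1.contDiffAt (isOpen_ball.mem_nhds hj)).restrict_scalars ℝ).of_le le_top
    have hDd : DifferentiableAt ℂ D x := hD.differentiableAt (isOpen_ball.mem_nhds hj)
    have hj' : x ∈ ball c (s (j + 1)) := ball_subset_ball (hsm (Nat.lt_succ_self _)).le hj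
    refine ⟨((F j).2.1.contDiffAt.add hDs).congr_of_eventuallyEq hev, ?_, ?_⟩
    · rw [Dol967.dbj_congr hev, Dol967.dbj_add (hdd (F j).2.1 x) (hDs.differentiableAt (by simp)),
        dbj_of_holo hDd, add_zero]
      exact ((F j).2.2 x hj').1
    · rw [Dol967.dbj_congr hev, Dol967.dbj_add (hdd (F j).2.1 x) (hDs.differentiableAt (by simp)),
        dbj_of_holo hDd, add_zero]
      exact ((F j).2.2 x hj').2
  exact ⟨G, fun x hx => (hfin x hx).1.contDiffWithinAt, fun y hy => (hfin y hy).2⟩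

end

end Crest.Agent.R275.HS328
end

-- ▼ part R275/HSc_328
section

/-!
# R275 (helper328), HOLSTR: holomorphic structures on smooth line bundles of a surface

Raw families of helper96 (`A : Atl 2 M`).

* `IsSC A g`       : smooth raw line cocycle; bridges `IsSC.of_slb`, `IsSC.toSLB` (293's `SLB`),
                     `isLC_lb`, `lbOf` (144's `LB`), `slbOf : LB A → SLB A`;
* `IsConn A g a`   : `∂̄ + a` is a `(0,1)`-connection on the smooth bundle `g` (same convention as
                     `VBun.a_tr` of Geo_509); sums / differences with `IsZ1 A 1 univ` forms,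
                     tensor products, duals;
* `IsConn.isZ2_d1` : the curvature `d1 A a` is an honest `(0,2)`-form;
* `exists_conn`    : existence (partition of unity);
* `H2Z A`          : every `(0,2)`-form on `M` is `∂̄`-exact (`H²(M; O) = 0`, i.e. `p_g = 0`);
* `exists_integrable` : under `H2Z A` every smooth bundle has a connection with `d1 A a = 0`;
* `exists_hol`     : **HOLSTR**: if the chart targets have the Dolbeault property `H1Z` (balls do),
                     the smooth bundle `g` is isomorphic, by `exp (f i)`, to a holomorphic one;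
* `exists_lb`, `exists_lb_isC1` : the same with `LB A`, `SLB A`, Chern cocycles.
-/

set_option autoImplicit false
set_option linter.unusedSectionVars false

open Set Filter Topology Complex
open scoped ContDiff ComplexConjugate

namespace Crest.Agent.R275.HS328

open Geo Fm96
open Crest.Agent.R275.Core144 (LB HolAt)

noncomputable section

variable {M : Type} [TopologicalSpace M] {A : Atl 2 M} {g g' : A.ι → A.ι → M → ℂ}
  {a a' : A.ι → M → Fin 2 → ℂ}

/-! ### bridges between the notions of smoothness -/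

theorem smP_of_smOn {U : Set M} (hU : IsOpen U) {f : M → ℂ} (h : GC293.SmOn A U f) {i : A.ι}
    {x : M} (hx : x ∈ (A.e i).source) (hxU : x ∈ U) : SmP A i f x := by
  have h1 : ∀ᶠ y in 𝓝 x, y ∈ U ∩ (A.e i).source :=
    inter_mem (hU.mem_nhds hxU) (src_nhds hx)
  filter_upwards [GC293.symm_eventually hx h1,
    (A.e i).open_target.mem_nhds ((A.e i).map_source hx)] with z hz hzt
  have := h _ hz.1 i hz.2
  rwa [(A.e i).right_inv hzt] at this

theorem smOn_of_smP {U : Set M} {f : M → ℂ} {i : A.ι} (hU : U ⊆ (A.e i).source)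
    (h : ∀ x ∈ U, SmP A i f x) : GC293.SmOn A U f :=
  (GC293.smOn_iff_chart i hU).2 fun x hx => (h x hx).self

theorem holP_of_holAt {i : A.ι} {U : Set M} (hU : IsOpen U) {f : M → ℂ} (h : HolAt A i U f)
    {x : M} (hx : x ∈ (A.e i).source) (hxU : x ∈ U) : HolP A i f x := by
  have h1 : ∀ᶠ y in 𝓝 x, y ∈ U ∩ (A.e i).source :=
    inter_mem (hU.mem_nhds hxU) (src_nhds hx)
  filter_upwards [GC293.symm_eventually hx h1,
    (A.e i).open_target.mem_nhds ((A.e i).map_source hx)] with z hz hzt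
  have := h.diffAt hU hz.2 hz.1
  rwa [(A.e i).right_inv hzt] at this

theorem holAt_of_holP {i : A.ι} {U : Set M} {f : M → ℂ}
    (h : ∀ x ∈ (A.e i).source, x ∈ U → HolP A i f x) : HolAt A i U f := by
  intro z hz
  have h1 := (h ((A.e i).symm z) ((A.e i).map_target hz.1) hz.2).self
  rw [(A.e i).right_inv hz.1] at h1
  exact h1.differentiableWithinAt

/-! ### smooth cocycles -/

/-- raw smooth line cocycle -/
structure IsSC (A : Atl 2 M) (g : A.ι → A.ι → M → ℂ) : Prop where
  sm : ∀ i j, ∀ x ∈ (A.e i).source ∩ (A.e j).source, SmP A i (g i j) x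
  self : ∀ i, ∀ x ∈ (A.e i).source, g i i x = 1
  mul : ∀ i j k, ∀ x ∈ (A.e i).source ∩ (A.e j).source ∩ (A.e k).source,
    g i j x * g j k x = g i k x

theorem IsSC.symm_mul (h : IsSC A g) {i j : A.ι} {x : M}
    (hx : x ∈ (A.e i).source ∩ (A.e j).source) : g i j x * g j i x = 1 := by
  rw [h.mul i j i x ⟨hx, hx.1⟩, h.self i x hx.1]

theorem IsSC.ne (h : IsSC A g) {i j : A.ι} {x : M}
    (hx : x ∈ (A.e i).source ∩ (A.e j).source) : g i j x ≠ 0 :=
  left_ne_zero_of_mul_eq_one (h.symm_mul hx)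

theorem IsSC.one : IsSC A 1 where
  sm _ _ _ _ := SmP.const 1
  self _ _ _ := rfl
  mul _ _ _ _ _ := by simp

theorem IsSC.prod (h : IsSC A g) (h' : IsSC A g') : IsSC A (g * g') where
  sm i j x hx := (h.sm i j x hx).mul (h'.sm i j x hx)
  self i x hx := by simp [h.self i x hx, h'.self i x hx]
  mul i j k x hx := by
    simp only [Pi.mul_apply, ← h.mul i j k x hx, ← h'.mul i j k x hx]; ring

theorem IsSC.inv (h : IsSC A g) : IsSC A g⁻¹ where
  sm i j x hx := (h.sm i j x hx).inv (h.ne hx) hx.1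
  self i x hx := by simp [h.self i x hx]
  mul i j k x hx := by
    simp only [Pi.inv_apply, ← h.mul i j k x hx, mul_inv]

theorem isSC_of_isLC (h : IsLC A g) : IsSC A g where
  sm i j x hx := (h.hol i j x hx).smP
  self := h.self
  mul := h.mul

theorem IsSC.of_slb (L : GC293.SLB A) : IsSC A L.g where
  sm i j _ hx := smP_of_smOn ((A.e i).open_source.inter (A.e j).open_source) (L.sm i j) hx.1 hx
  self := L.one
  mul := L.mul

/-- a raw smooth cocycle as a bundle of helper293 -/
def IsSC.toSLB (h : IsSC A g) : GC293.SLB A where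
  g := g
  sm i j := smOn_of_smP inter_subset_left (h.sm i j)
  one := h.self
  mul := h.mul

theorem isLC_lb (L : LB A) : IsLC A L.g where
  hol i j _ hx := holP_of_holAt (A.e j).open_source (L.hol i j) hx.1 hx.2
  ne i j x _ := L.ne_zero i j x
  self i x _ := L.self i x
  mul := L.mul

/-- the smooth bundle of a holomorphic one -/
def slbOf (L : LB A) : GC293.SLB A := (isSC_of_isLC (isLC_lb L)).toSLB

@[simp] theorem slbOf_g (L : LB A) : (slbOf L).g = L.g := rfl

open Classical in
/-- a raw holomorphic cocycle as an `LB A` -/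
def lbOf (h : IsLC A g) : LB A where
  g i j x := if x ∈ (A.e i).source ∩ (A.e j).source then g i j x else 1
  hol i j := holAt_of_holP fun x hx hxj => (h.hol i j x ⟨hx, hxj⟩).congr hx (by
    filter_upwards [ov_nhds (A := A) (i := i) (j := j) ⟨hx, hxj⟩] with y hy using if_pos hy)
  off i j x hx := if_neg hx
  self i x := by
    by_cases hx : x ∈ (A.e i).source
    · rw [if_pos ⟨hx, hx⟩, h.self i x hx]
    · rw [if_neg fun h => hx h.1]
  mul i j k x hx := by
    rw [if_pos hx.1, if_pos ⟨hx.1.2, hx.2⟩, if_pos ⟨hx.1.1, hx.2⟩, h.mul i j k x hx]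

theorem lbOf_g (h : IsLC A g) {i j : A.ι} {x : M} (hx : x ∈ (A.e i).source ∩ (A.e j).source) :
    (lbOf h).g i j x = g i j x := if_pos hx

/-! ### connections -/

/-- `∂̄ + a` is a `(0,1)`-connection on the smooth line bundle `g` -/
structure IsConn (A : Atl 2 M) (g : A.ι → A.ι → M → ℂ) (a : A.ι → M → Fin 2 → ℂ) : Prop where
  sm : ∀ i b, ∀ x ∈ (A.e i).source, SmP A i (fun y => a i y b) x
  off : ∀ i, ∀ x ∉ (A.e i).source, a i x = 0
  tr : ∀ i j, ∀ x ∈ (A.e i).source ∩ (A.e j).source, ∀ b,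
    A.db i b (g i j) x + a i x b * g i j x = g i j x * ∑ c, conj (A.J i j x c b) * a j x c

/-- a holomorphic bundle has the trivial connection -/
theorem IsConn.zero (h : IsLC A g) : IsConn A g 0 where
  sm _ _ _ _ := SmP.const 0
  off _ _ _ := rfl
  tr i j x hx b := by simp [(h.hol i j x hx).db_eq b]

theorem IsConn.add_form (ha : IsConn A g a) (hb : IsZ1 A 1 univ a') : IsConn A g (a + a') where
  sm i b x hx := (ha.sm i b x hx).add (hb.sm i b x hx trivial)
  off i x hx := by simp [ha.off i x hx, hb.off i x hx]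
  tr i j x hx b := by
    have h1 := ha.tr i j x hx b
    have h2 := hb.tr i j x hx trivial b
    simp only [Pi.one_apply, one_mul, Fin.sum_univ_two] at h1 h2 ⊢
    simp only [Pi.add_apply]
    linear_combination h1 + g i j x * h2

theorem IsConn.sub_form (ha : IsConn A g a) (hb : IsZ1 A 1 univ a') : IsConn A g (a - a') := by
  rw [sub_eq_add_neg]
  exact ha.add_form hb.neg




/-- tensor product -/
theorem IsConn.prod (hg : IsSC A g) (hg' : IsSC A g') (ha : IsConn A g a)
    (ha' : IsConn A g' a') : IsConn A (g * g') (a + a') where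
  sm i b x hx := (ha.sm i b x hx).add (ha'.sm i b x hx)
  off i x hx := by simp [ha.off i x hx, ha'.off i x hx]
  tr i j x hx b := by
    have h1 := ha.tr i j x hx b
    have h2 := ha'.tr i j x hx b
    have h3 : A.db i b ((g * g') i j) x =
        A.db i b (g i j) x * g' i j x + g i j x * A.db i b (g' i j) x :=
      db_mulP b (hg.sm i j x hx) (hg'.sm i j x hx) hx.1
    simp only [Fin.sum_univ_two] at h1 h2 ⊢
    simp only [Pi.add_apply]
    rw [h3]
    simp only [Pi.mul_apply]
    linear_combination g' i j x * h1 + g i j x * h2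

/-- dual -/
theorem IsConn.inv (hg : IsSC A g) (ha : IsConn A g a) : IsConn A g⁻¹ (-a) where
  sm i b x hx := (ha.sm i b x hx).neg
  off i x hx := by simp [ha.off i x hx]
  tr i j x hx b := by
    have h1 := ha.tr i j x hx b
    have h0 := hg.ne hx
    have h3 : A.db i b (g⁻¹ i j) x = - (g i j x)⁻¹ * (g i j x)⁻¹ * A.db i b (g i j) x :=
      db_invP b (hg.sm i j x hx) h0 hx.1
    simp only [Fin.sum_univ_two] at h1 ⊢
    simp only [Pi.neg_apply]
    rw [h3]
    simp only [Pi.inv_apply]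
    have h4 : A.db i b (g i j) x = g i j x * (conj (A.J i j x 0 b) * a j x 0 +
      conj (A.J i j x 1 b) * a j x 1) - a i x b * g i j x := by linear_combination h1
    rw [h4]
    field_simp
    ring

/-! ### logarithmic derivative -/

/-- `g⁻¹ ∂̄ g` -/
def th (A : Atl 2 M) (g : A.ι → A.ι → M → ℂ) (i j : A.ι) (b : Fin 2) (x : M) : ℂ :=
  (g i j x)⁻¹ * A.db i b (g i j) x

theorem smP_th (hg : IsSC A g) {i j : A.ι} (b : Fin 2) {x : M}
    (hx : x ∈ (A.e i).source ∩ (A.e j).source) : SmP A i (th A g i j b) x :=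
  ((hg.sm i j x hx).inv (hg.ne hx) hx.1).mul ((hg.sm i j x hx).db b hx.1)

/-- `∂̄ (g⁻¹ ∂̄ g) = 0` -/
theorem th_comm (hg : IsSC A g) {i j : A.ι} {x : M} (hx : x ∈ (A.e i).source ∩ (A.e j).source) :
    A.db i 0 (th A g i j 1) x = A.db i 1 (th A g i j 0) x := by
  have hs := hg.sm i j x hx
  have h0 := hg.ne hx
  have h1 : ∀ c b : Fin 2, A.db i c (th A g i j b) x =
      - (g i j x)⁻¹ * (g i j x)⁻¹ * A.db i c (g i j) x * A.db i b (g i j) x +
        (g i j x)⁻¹ * A.db i c (A.db i b (g i j)) x := by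
    intro c b
    have h2 : A.db i c (th A g i j b) x = A.db i c (fun y => (g i j y)⁻¹) x * A.db i b (g i j) x +
        (g i j x)⁻¹ * A.db i c (A.db i b (g i j)) x :=
      db_mulP c (hs.inv h0 hx.1) (hs.db b hx.1) hx.1
    rw [h2, db_invP c hs h0 hx.1]
  rw [h1, h1, db_comm 0 1 hs hx.1]
  ring

/-- cocycle relation of the logarithmic derivatives -/
theorem th_cocycle (hg : IsSC A g) {i j k : A.ι} (b : Fin 2) {x : M}
    (hx : x ∈ (A.e i).source ∩ (A.e j).source) (hk : x ∈ (A.e k).source) :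
    th A g i k b x = th A g i j b x + ∑ c, conj (A.J i j x c b) * th A g j k c x := by
  have hs := hg.sm i j x hx
  have hs' := hg.sm j k x ⟨hx.2, hk⟩
  have n1 := hg.ne hx
  have n2 := hg.ne (i := j) (j := k) ⟨hx.2, hk⟩
  have h1 : A.db i b (g i k) x =
      A.db i b (g i j) x * g j k x + g i j x * ∑ c, conj (A.J i j x c b) * A.db j c (g j k) x := by
    rw [← db_chain b hs' hx, ← db_mulP b hs (hs'.change hx) hx.1]
    refine db_congr hx.1 ?_
    filter_upwards [ov_nhds hx, src_nhds hk] with y hy hyk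
    exact (hg.mul i j k y ⟨hy, hyk⟩).symm
  simp only [th, h1, ← hg.mul i j k x ⟨hx, hk⟩, Fin.sum_univ_two]
  field_simp

theorem IsConn.eq_th (hg : IsSC A g) (ha : IsConn A g a) {i j : A.ι} (b : Fin 2) {x : M}
    (hx : x ∈ (A.e i).source ∩ (A.e j).source) :
    a i x b = (∑ c, conj (A.J i j x c b) * a j x c) - th A g i j b x := by
  have h1 := ha.tr i j x hx b
  have h0 := hg.ne hx
  simp only [th]
  field_simp
  linear_combination h1

theorem IsConn.of_eq_th (hg : IsSC A g)
    (h1 : ∀ i b, ∀ x ∈ (A.e i).source, SmP A i (fun y => a i y b) x)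
    (h2 : ∀ i, ∀ x ∉ (A.e i).source, a i x = 0)
    (h3 : ∀ i j, ∀ x ∈ (A.e i).source ∩ (A.e j).source, ∀ b,
      a i x b = (∑ c, conj (A.J i j x c b) * a j x c) - th A g i j b x) : IsConn A g a where
  sm := h1
  off := h2
  tr i j x hx b := by
    rw [h3 i j x hx b, th]
    have h0 := hg.ne hx
    field_simp
    ring

/-- the curvature of a connection is a `(0,2)`-form -/
theorem IsConn.isZ2_d1 (hg : IsSC A g) (ha : IsConn A g a) : IsZ2 A 1 univ (d1 A a) where
  sm i x hx _ := by
    refine (((ha.sm i 1 x hx).db 0 hx).sub ((ha.sm i 0 x hx).db 1 hx)).congr hx ?_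
    filter_upwards [src_nhds hx] with y hy using d1_of_mem hy
  off i x hx := d1_of_not_mem hx
  tr i j x hx _ := by
    have h1 : ∀ b, (fun y => a i y b) =ᶠ[𝓝 x]
        fun y => (∑ c, conj (A.J i j y c b) * a j y c) - th A g i j b y := by
      intro b
      filter_upwards [ov_nhds hx] with y hy using ha.eq_th hg b hy
    have h2 : ∀ c, SmP A j (fun y => a j y c) x := fun c => ha.sm j c x hx.2
    have h3 : ∀ c b, SmP A i (fun y => conj (A.J i j y c b)) x := fun c b =>
      (J_holP hx c b).smP.conj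
    have key : ∀ e b : Fin 2, A.db i e (fun y => a i y b) x =
        (∑ c, (A.db i e (fun y => conj (A.J i j y c b)) x * a j x c
          + conj (A.J i j x c b) * ∑ d, conj (A.J i j x d e) * A.db j d (fun y => a j y c) x))
          - A.db i e (th A g i j b) x := by
      intro e b
      rw [db_congr hx.1 (h1 b), db_subP e (SmP.sum fun c _ => (h3 c b).mul ((h2 c).change hx))
        (smP_th hg b hx), db_sumP e (F := fun c y => conj (A.J i j y c b) * a j y c)
          fun c _ => (h3 c b).mul ((h2 c).change hx)]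
      congr 1
      refine Finset.sum_congr rfl fun c _ => ?_
      rw [db_mulP e (h3 c b) ((h2 c).change hx) hx.1, db_chain e (h2 c) hx]
    rw [d1_of_mem hx.1, d1_of_mem hx.2, key, key, th_comm hg hx]
    simp only [Fin.sum_univ_two, dJ, Pi.one_apply, one_mul]
    rw [db_conjJ_symm hx 0 0 1, db_conjJ_symm hx 1 0 1]
    ring

theorem IsConn.d1_sub (ha : IsConn A g a) (hb : IsZ1 A 1 univ a') (i : A.ι) (x : M) :
    d1 A (a - a') i x = d1 A a i x - d1 A a' i x := by
  by_cases hx : x ∈ (A.e i).source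
  · simp only [Pi.sub_apply, d1_of_mem hx]
    rw [db_subP 0 (ha.sm i 1 x hx) (hb.sm i 1 x hx trivial),
      db_subP 1 (ha.sm i 0 x hx) (hb.sm i 0 x hx trivial)]
    ring
  · simp [d1_of_not_mem hx]


/-! ### existence of a connection -/

theorem exists_conn (P : Part A) (hg : IsSC A g) : ∃ a, IsConn A g a := by
  classical
  set a : A.ι → M → Fin 2 → ℂ := fun i x b =>
    if x ∈ (A.e i).source then - GC293.glue P (fun k => th A g i k b) x else 0 with ha
  refine ⟨a, IsConn.of_eq_th hg ?_ ?_ ?_⟩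
  · intro i b x hx
    have h1 : GC293.SmOn A (A.e i).source (GC293.glue P (fun k => th A g i k b)) :=
      GC293.smOn_glue P fun l => smOn_of_smP (i := i) inter_subset_left fun y hy =>
        smP_th hg b hy
    refine (smP_of_smOn (A.e i).open_source h1 hx hx).neg.congr hx ?_
    filter_upwards [src_nhds hx] with y hy
    simp only [ha, if_pos hy]
  · intro i x hx
    funext b
    simp only [ha, if_neg hx]; rfl
  · intro i j x hx b
    have hS : ∀ l, P.ψ l x ≠ 0 → l ∈ (GC293.finite_psi P x).toFinset := fun l hl => by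
      simpa using hl
    set S := (GC293.finite_psi P x).toFinset with hSdef
    have hsum : ∑ l ∈ S, (P.ψ l x : ℂ) = 1 := by
      have h1 := P.sum_one x
      rw [finsum_eq_sum_of_support_subset (s := S) _ (fun l hl => hS l hl)] at h1
      exact_mod_cast h1
    simp only [ha, if_pos hx.1, if_pos hx.2]
    rw [GC293.glue_eq_sum P hS]
    simp only [GC293.glue_eq_sum P hS, Fin.sum_univ_two, Complex.real_smul]
    have h2 : ∀ l ∈ S, (P.ψ l x : ℂ) * th A g i l b x = (P.ψ l x : ℂ) * (th A g i j b x +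
        (conj (A.J i j x 0 b) * th A g j l 0 x + conj (A.J i j x 1 b) * th A g j l 1 x)) := by
      intro l hl
      by_cases h0 : P.ψ l x = 0
      · simp [h0]
      · have := th_cocycle hg b hx (GC293.mem_source_of_psi P h0)
        rw [this, Fin.sum_univ_two]
    rw [Finset.sum_congr rfl h2]
    simp only [mul_add, Finset.sum_add_distrib, ← Finset.sum_mul, hsum, one_mul]
    have h3 : ∀ c : Fin 2, ∑ l ∈ S, (P.ψ l x : ℂ) * (conj (A.J i j x c b) * th A g j l c x) =
        conj (A.J i j x c b) * ∑ l ∈ S, (P.ψ l x : ℂ) * th A g j l c x := by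
      intro c
      rw [Finset.mul_sum]
      exact Finset.sum_congr rfl fun l _ => by ring
    rw [h3, h3]
    ring

/-! ### integrable connections -/

/-- every `(0,2)`-form on `M` is `∂̄`-exact -/
def H2Z (A : Atl 2 M) : Prop :=
  ∀ F : A.ι → M → ℂ, IsZ2 A 1 univ F → ∃ β, IsZ1 A 1 univ β ∧ ∀ i x, d1 A β i x = F i x

theorem exists_integrable (P : Part A) (hg : IsSC A g) (h2 : H2Z A) :
    ∃ a, IsConn A g a ∧ ∀ i x, d1 A a i x = 0 := by
  obtain ⟨a, ha⟩ := exists_conn P hg
  obtain ⟨β, hβ, h3⟩ := h2 _ (ha.isZ2_d1 hg)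
  refine ⟨a - β, ha.sub_form hβ, fun i x => ?_⟩
  rw [ha.d1_sub hβ, h3, sub_self]

/-- primitives in one chart -/
theorem exists_prim {i : A.ι} (h1 : H1Z (A.e i).target) {u : M → Fin 2 → ℂ}
    (hs : ∀ b, ∀ x ∈ (A.e i).source, SmP A i (fun y => u y b) x)
    (h0 : ∀ x ∈ (A.e i).source, A.db i 0 (fun y => u y 1) x = A.db i 1 (fun y => u y 0) x) :
    ∃ f : M → ℂ, (∀ x ∈ (A.e i).source, SmP A i f x) ∧
      ∀ x ∈ (A.e i).source, ∀ b, A.db i b f x = u x b := by
  have k0 : ContDiffOn ℝ ∞ (fun z => u ((A.e i).symm z) 0) (A.e i).target :=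
    (smAt_iff (f := fun y => u y 0)).2 (hs 0)
  have k1 : ContDiffOn ℝ ∞ (fun z => u ((A.e i).symm z) 1) (A.e i).target :=
    (smAt_iff (f := fun y => u y 1)).2 (hs 1)
  obtain ⟨h, hh, e01⟩ := h1 _ _ k0 k1 (fun z hz => by
    have := h0 _ ((A.e i).map_target hz)
    simp only [Atl.db, (A.e i).right_inv hz] at this
    exact this.symm)
  have hr : ∀ z ∈ (A.e i).target, (fun z => h (A.e i ((A.e i).symm z))) =ᶠ[𝓝 z] h := by
    intro z hz
    filter_upwards [(A.e i).open_target.mem_nhds hz] with w hw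
    rw [(A.e i).right_inv hw]
  refine ⟨fun x => h (A.e i x), ?_, ?_⟩
  · refine smAt_iff.1 ?_
    exact ContDiffOn.congr hh fun z hz => by
      show h (A.e i ((A.e i).symm z)) = h z
      rw [(A.e i).right_inv hz]
  · intro x hx b
    have hz := (A.e i).map_source hx
    have h3 : A.db i b (fun x => h (A.e i x)) x = dbj b h (A.e i x) := dbj_congr (hr _ hz)
    rw [h3]
    fin_cases b
    · have := (e01 _ hz).1
      rw [(A.e i).left_inv hx] at this
      exact this
    · have := (e01 _ hz).2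
      rw [(A.e i).left_inv hx] at this
      exact this

/-- changing the frames by `exp (f i)` with `∂̄ f = a` makes the cocycle holomorphic -/
theorem isLC_exp (hg : IsSC A g) (ha : IsConn A g a) {f : A.ι → M → ℂ}
    (hf : ∀ i, ∀ x ∈ (A.e i).source, SmP A i (f i) x)
    (hf' : ∀ i, ∀ x ∈ (A.e i).source, ∀ b, A.db i b (f i) x = a i x b) :
    IsLC A (fun i j x => Complex.exp (f i x) * g i j x * Complex.exp (- f j x)) where
  hol i j x hx := by
    have s1 : ∀ y ∈ (A.e i).source ∩ (A.e j).source, SmP A i (fun y => Complex.exp (f i y)) y :=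
      fun y hy => (hf i y hy.1).exp
    have s2 : ∀ y ∈ (A.e i).source ∩ (A.e j).source, SmP A i (f j) y :=
      fun y hy => (hf j y hy.2).change hy
    have s3 : ∀ y ∈ (A.e i).source ∩ (A.e j).source,
        SmP A i (fun y => Complex.exp (- f j y)) y := fun y hy => (s2 y hy).neg.exp
    refine holP_of_db hx.1 (((s1 x hx).mul (hg.sm i j x hx)).mul (s3 x hx)) ?_
    filter_upwards [ov_nhds hx] with y hy b
    rw [db_mulP b ((s1 y hy).mul (hg.sm i j y hy)) (s3 y hy) hy.1,
      db_mulP b (s1 y hy) (hg.sm i j y hy) hy.1, db_expP b (hf i y hy.1) hy.1,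
      db_expP b (s2 y hy).neg hy.1, db_negP b (s2 y hy), db_chain b (hf j y hy.2) hy, hf' i y hy.1]
    have h1 := ha.tr i j y hy b
    simp only [Fin.sum_univ_two] at h1 ⊢
    rw [hf' j y hy.2, hf' j y hy.2]
    linear_combination Complex.exp (f i y) * Complex.exp (- f j y) * h1
  ne i j x hx := mul_ne_zero (mul_ne_zero (Complex.exp_ne_zero _) (hg.ne hx))
    (Complex.exp_ne_zero _)
  self i x hx := by
    rw [hg.self i x hx, mul_one, ← Complex.exp_add, add_neg_cancel, Complex.exp_zero]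
  mul i j k x hx := by
    rw [← hg.mul i j k x hx]
    have : Complex.exp (- f j x) * Complex.exp (f j x) = 1 := by
      rw [← Complex.exp_add, neg_add_cancel, Complex.exp_zero]
    linear_combination (Complex.exp (f i x) * g i j x * g j k x * Complex.exp (- f k x)) * this

/-- a bundle with an integrable connection is holomorphic -/
theorem exists_hol_of_integrable (h1 : ∀ i, H1Z (A.e i).target) (hg : IsSC A g)
    (ha : IsConn A g a) (h0 : ∀ i x, d1 A a i x = 0) :
    ∃ f : A.ι → M → ℂ, (∀ i, ∀ x ∈ (A.e i).source, SmP A i (f i) x) ∧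
      (∀ i, ∀ x ∈ (A.e i).source, ∀ b, A.db i b (f i) x = a i x b) ∧
      IsLC A (fun i j x => Complex.exp (f i x) * g i j x * Complex.exp (- f j x)) := by
  have h2 : ∀ i, ∃ f : M → ℂ, (∀ x ∈ (A.e i).source, SmP A i f x) ∧
      ∀ x ∈ (A.e i).source, ∀ b, A.db i b f x = a i x b := fun i =>
    exists_prim (h1 i) (fun b => ha.sm i b) fun x hx => by
      have := h0 i x
      rw [d1_of_mem hx, sub_eq_zero] at this
      exact this
  choose f hf hf' using h2
  exact ⟨f, hf, hf', isLC_exp hg ha hf hf'⟩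

/-- **HOLSTR** (raw form) -/
theorem exists_hol (P : Part A) (h1 : ∀ i, H1Z (A.e i).target) (h2 : H2Z A) (hg : IsSC A g) :
    ∃ (f : A.ι → M → ℂ) (L : LB A), (∀ i, ∀ x ∈ (A.e i).source, SmP A i (f i) x) ∧
      ∀ i j, ∀ x ∈ (A.e i).source ∩ (A.e j).source,
        L.g i j x = Complex.exp (f i x) * g i j x * Complex.exp (- f j x) := by
  obtain ⟨a, ha, h0⟩ := exists_integrable P hg h2
  obtain ⟨f, hf, -, hL⟩ := exists_hol_of_integrable h1 hg ha h0
  exact ⟨f, lbOf hL, hf, fun i j x hx => lbOf_g hL hx⟩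

/-- **HOLSTR**: every smooth line bundle is smoothly isomorphic to a holomorphic one, with the same
Chern cocycles -/
theorem exists_lb (P : Part A) (h1 : ∀ i, H1Z (A.e i).target) (h2 : H2Z A) (L : GC293.SLB A) :
    ∃ L' : LB A, GC293.SLB.Iso (slbOf L') L ∧
      ∀ c, GC293.IsC1 L c → GC293.IsC1 (slbOf L') c := by
  obtain ⟨f, L', hf, h3⟩ := exists_hol P h1 h2 (IsSC.of_slb L)
  have hf' : ∀ i, GC293.SmOn A (A.e i).source (f i) := fun i => smOn_of_smP Subset.rfl (hf i)
  refine ⟨L', ⟨fun i x => Complex.exp (f i x), fun i => (hf' i).cexp,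
    fun i x _ => Complex.exp_ne_zero _, fun i j x hx => ?_⟩, ?_⟩
  · rw [slbOf_g, h3 i j x hx]
    have : Complex.exp (- f j x) * Complex.exp (f j x) = 1 := by
      rw [← Complex.exp_add, neg_add_cancel, Complex.exp_zero]
    linear_combination (- Complex.exp (f i x) * L.g i j x) * this
  · rintro c ⟨φ, k1, k2, k3⟩
    have hpi : (2 * Real.pi * Complex.I : ℂ) ≠ 0 := Complex.two_pi_I_ne_zero
    refine ⟨fun i j x => φ i j x + (2 * Real.pi * Complex.I)⁻¹ * (f i x - f j x), fun i j => ?_,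
      fun i j x hx => ?_, fun i j k x hx => ?_⟩
    · exact (k1 i j).add ((((hf' i).mono inter_subset_left).sub
        ((hf' j).mono inter_subset_right)).const_mul _)
    · rw [mul_add, Complex.exp_add, k2 i j x hx, slbOf_g, h3 i j x hx, ← mul_assoc,
        mul_inv_cancel₀ hpi, one_mul, sub_eq_add_neg, Complex.exp_add]
      ring
    · rw [← k3 i j k x hx]
      ring


end

end Crest.Agent.R275.HS328
end

-- ▼ part R275/HSd_328
section

/-!
# R275 (helper328), HOLSTR: complements

* `target_goodAtl`, `h1z_goodAtl`, `h1z_lift`, `h1z_nested` : the chart targets of the atlases in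
  use are balls, so they satisfy `H1Z`;
* `IsConn.toVB` : rank one `VBun A` of a connection; `exists_flat_vb`;
* `twE f u` : multiplication by `exp (f i)`; it carries `(∂̄ + a)` on `g` to `∂̄` on the holomorphic
  bundle `L` (degrees 0 and 1);
* `HolStr A`, `holStr_goodAtl` : the final packaging.
-/

set_option autoImplicit false
set_option linter.unusedSectionVars false

open Set Filter Topology Complex Metric
open scoped ContDiff ComplexConjugate Manifold

namespace Crest.Agent.R275.HS328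

open Geo Fm96
open Crest.Agent.R275.Core144 (LB HolAt)

noncomputable section

/-! ### the chart targets are balls -/

section Targets



theorem h1z_lift {M Z K : Type} [TopologicalSpace M] [TopologicalSpace Z] [AddCommGroup K]
    {A : Atl 2 M} (C : XN194.KCov A Z K) (h : ∀ i, H1Z (A.e i).target) (q : C.lift.ι) :
    H1Z (C.lift.e q).target := h q.1

theorem h1z_nested {Y : Type} [TopologicalSpace Y] (N : NAtl938.NAtl 2 Y) {ρ : ℝ} (hρ : N.r ≤ ρ)
    (h : ρ ≤ N.R) (i : N.ι) : H1Z ((N.at' ρ hρ).e i).target := by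
  rw [N.at'_target hρ h]
  exact solve_ball _ _

end Targets

variable {M : Type} [TopologicalSpace M] {A : Atl 2 M} {g g' : A.ι → A.ι → M → ℂ}
  {a a' : A.ι → M → Fin 2 → ℂ}

/-! ### `VBun` -/

/-- the rank one bundle with connection -/
def IsConn.toVB (hg : IsSC A g) (ha : IsConn A g a) : VBun A where
  ρ := Unit
  g i j x := Matrix.of fun _ _ => g i j x
  g_smooth i j _ _ := (GC293.smOn_inter_iff i j).1 (hg.toSLB.sm i j)
  g_self i x hx := by ext p q; simp [hg.self i x hx]
  g_mul i j k x hx := by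
    ext p q
    simp [Matrix.mul_apply, hg.mul i j k x hx]
  a i b x := Matrix.of fun _ _ => a i x b
  a_smooth i b _ _ := (smAt_iff (f := fun y => a i y b)).2 (ha.sm i b)
  a_tr i j x hx b := by
    ext p q
    have h1 := ha.tr i j x hx b
    simp only [Fin.sum_univ_two] at h1
    simp only [Matrix.add_apply, Matrix.of_apply, Matrix.mul_apply, Fin.sum_univ_two,
      Matrix.smul_apply, Finset.univ_unique, Finset.sum_singleton, smul_eq_mul]
    linear_combination h1

@[simp] theorem toVB_g (hg : IsSC A g) (ha : IsConn A g a) (i j : A.ι) (x : M) (k l : Unit) :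
    (ha.toVB hg).g i j x k l = g i j x := rfl

@[simp] theorem toVB_a (hg : IsSC A g) (ha : IsConn A g a) (i : A.ι) (b : Fin 2) (x : M)
    (k l : Unit) : (ha.toVB hg).a i b x k l = a i x b := rfl



/-! ### the isomorphism on sections and forms -/





section Intertwine

variable {f : A.ι → M → ℂ} (hf : ∀ i, ∀ x ∈ (A.e i).source, SmP A i (f i) x)
  {G : Set M} {L : A.ι → A.ι → M → ℂ}
  (hL : ∀ i j, ∀ x ∈ (A.e i).source ∩ (A.e j).source,
    L i j x = Complex.exp (f i x) * g i j x * Complex.exp (- f j x))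

include hf hL






end Intertwine

/-! ### packaging -/




end

end Crest.Agent.R275.HS328
end

-- ▼ part R275/HSe_328

/-!
# R275 (helper328), HOLSTR: adapters to helper825's `ChiM_825`

* `exact2_of_hq`, `exact1_of_hq` : vanishing of `hq 2 L`, `hq 1 L` (finite-dimensional) = solvability of
  `∂̄ β = F`;
* `h2z_of_serre` : `H2Z A` from finiteness, Serre duality and `H⁰(K) = 0`;
* `hol_of` : the field `hol` of `CMData`, exact shape.
-/

set_option autoImplicit false
set_option linter.unusedSectionVars false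

open Set Filter Topology Complex Metric
open scoped ContDiff ComplexConjugate

namespace Crest.Agent.R275.HS328

open Geo Fm96 Q74
open Crest.Agent.R275.Core144 (LB HolAt IsHS KB)
open Crest.Agent.R275.ChiM825 (isLC slb hq)

noncomputable section

variable {M : Type} [TopologicalSpace M] {A : Atl 2 M}


/-- a subquotient of dimension zero -/
theorem mem_of_finrank_HQ {V : Type*} [AddCommGroup V] [Module ℂ V] {Z B : Submodule ℂ V}
    [FiniteDimensional ℂ (HQ Z B)] (h : Module.finrank ℂ (HQ Z B) = 0) {x : V} (hx : x ∈ Z) :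
    x ∈ B := by
  have h1 : Subsingleton (HQ Z B) := Module.finrank_zero_iff.1 h
  have h2 : (Submodule.Quotient.mk (⟨x, hx⟩ : Z) : HQ Z B) = 0 := Subsingleton.elim _ _
  rw [Submodule.Quotient.mk_eq_zero] at h2
  exact h2

/-- `H²(L) = 0` -/
theorem exact2_of_hq (L : LB A) (hf : FiniteDimensional ℂ (H2 (D1 (isLC L)) ⊥))
    (h : hq 2 L = 0) {F : A.ι → M → ℂ} (hF : IsZ2 A L.g univ F) :
    ∃ β, IsZ1 A L.g univ β ∧ ∀ i x, d1 A β i x = F i x := by
  have h1 := mem_of_finrank_HQ (Z := (⊤ : Submodule ℂ (ZZ2 A L.g)))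
    (B := ⊥ ⊔ LinearMap.range (D1 (isLC L))) h (x := ⟨F, hF⟩) trivial
  rw [bot_sup_eq] at h1
  obtain ⟨β, hβ⟩ := h1
  refine ⟨β.1, β.2, fun i x => ?_⟩
  have h2 : d1 A β.1 = F := congrArg Subtype.val hβ
  rw [h2]


/-- `H²(M; O) = 0` from finiteness, Serre duality and `p_g = 0` -/
theorem h2z_of_serre (hf : FiniteDimensional ℂ (H2 (D1 (isLC (1 : LB A))) ⊥))
    (hs : hq 2 (1 : LB A) = hq 0 (KB A * (1 : LB A)⁻¹))
    (hK : ∀ u, IsHS (KB A) univ u → u = 0) : H2Z A := by
  have h1 : hq 2 (1 : LB A) = 0 := by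
    rw [hs, inv_one, mul_one]
    exact ChiM825.hq0_eq_zero hK
  intro F hF
  exact exact2_of_hq (1 : LB A) hf h1 hF

/-- the field `hol` of `CMData` -/
theorem hol_of_h2z (P : Part A) (h1 : ∀ i, H1Z (A.e i).target) (h2 : H2Z A) :
    ∀ L : GC293.SLB A, ∃ L' : LB A, GC293.SLB.Iso L (slb L') := by
  intro L
  obtain ⟨L', h3, -⟩ := exists_lb P h1 h2 L
  exact ⟨L', h3.symm⟩

/-- the field `hol` of `CMData` -/
theorem hol_of (P : Part A) (h1 : ∀ i, H1Z (A.e i).target)
    (hf : FiniteDimensional ℂ (H2 (D1 (isLC (1 : LB A))) ⊥))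
    (hs : hq 2 (1 : LB A) = hq 0 (KB A * (1 : LB A)⁻¹))
    (hK : ∀ u, IsHS (KB A) univ u → u = 0) :
    ∀ L : GC293.SLB A, ∃ L' : LB A, GC293.SLB.Iso L (slb L') :=
  hol_of_h2z P h1 (h2z_of_serre hf hs hK)

end

end Crest.Agent.R275.HS328
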