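import Crest.Agent.R275.Dg2_199
import Crest.Agent.R240.SmInt

-- ▼ part R275/Dg3_199
section

/-!
# R275, leaf NA3g, part 3 (helper199): involutions, odd generators

`Swap R` : a smooth involution `σ` of `M` under which the local equations are odd and which has
no fixed point outside `D`.
* `Swap.τ : smf A ≃+* smf A` composition with `σ`;
* `Swap.exists_gens` (G2): `R.J` is generated by finitely many odd functions;
* `Swap.exists_loc` : G1 with `σ`-invariant `s i` and odd `u1, u2`.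
-/

set_option autoImplicit false
set_option linter.unusedSectionVars false

open Set Filter Topology Complex
open scoped ContDiff Matrix ComplexConjugate
open Crest.Agent.R275.Geo Crest.Agent.R275.Smf798

namespace Crest.Agent.R275.Dg199

noncomputable section

variable {n : ℕ} {M : Type} [TopologicalSpace M] {A : Atl n M}

/-- a smooth involution under which the local equations are odd -/
structure Swap (R : RegData A) where
  σ : M → M
  cont : Continuous σ
  invol : ∀ q, σ (σ q) = q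
  sm : ∀ (f : M → ℂ) (q : M), SmN A f (σ q) → SmN A (fun x => f (σ x)) q
  V_inv : ∀ k, ∀ q ∈ R.V k, σ q ∈ R.V k
  odd : ∀ k a, ∀ q ∈ R.V k, R.u k a (σ q) = - R.u k a q
  ne : ∀ q, q ∉ R.D → σ q ≠ q

namespace Swap

variable {R : RegData A} (S : Swap R)

theorem mem_D {q : M} (hq : q ∈ R.D) : S.σ q ∈ R.D := by
  obtain ⟨k, hk⟩ := R.cover q hq
  rw [R.zero_iff k _ (S.V_inv k q hk)]
  intro a
  rw [S.odd k a q hk, (R.zero_iff k q hk).1 hq a, neg_zero]

/-- composition with `σ` on the ring of smooth functions -/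
def τ : smf A ≃+* smf A where
  toFun f := mk' (fun x => f.1 (S.σ x)) fun x => S.sm _ _ (smN_of_mem f _)
  invFun f := mk' (fun x => f.1 (S.σ x)) fun x => S.sm _ _ (smN_of_mem f _)
  left_inv f := smf_ext fun x => by
    show f.1 (S.σ (S.σ x)) = f.1 x
    rw [S.invol]
  right_inv f := smf_ext fun x => by
    show f.1 (S.σ (S.σ x)) = f.1 x
    rw [S.invol]
  map_mul' _ _ := rfl
  map_add' _ _ := rfl

@[simp] theorem τ_apply (f : smf A) (x : M) : (S.τ f).1 x = f.1 (S.σ x) := rfl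

theorem τ_τ (f : smf A) : S.τ (S.τ f) = f := smf_ext fun x => by
  show f.1 (S.σ (S.σ x)) = f.1 x
  rw [S.invol]

theorem tsupport_comp {f : M → ℂ} {q : M} (h : q ∈ tsupport (fun x => f (S.σ x))) :
    S.σ q ∈ tsupport f := by
  by_contra hcon
  have h1 : ∀ᶠ y in 𝓝 (S.σ q), y ∉ tsupport f :=
    (isClosed_tsupport f).isOpen_compl.mem_nhds hcon
  have h2 : ∀ᶠ x in 𝓝 q, S.σ x ∉ tsupport f := (S.cont.tendsto q).eventually h1
  obtain ⟨x, hx1, hx2⟩ := mem_closure_iff_nhds.1 h _ h2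
  exact hx2 (image_eq_zero_of_notMem_tsupport hx1)

theorem ev_σ {P : M → Prop} {q : M} (h : ∀ᶠ x in 𝓝 (S.σ q), P x) : ∀ᶠ x in 𝓝 q, P (S.σ x) :=
  (S.cont.tendsto q).eventually h


/-- the symmetrisation -/
def symm (f : smf A) : smf A := cst A (1 / 2) * (f + S.τ f)

theorem τ_cst (c : ℂ) : S.τ (cst A c) = cst A c := smf_ext fun _ => rfl

theorem τ_symm (f : smf A) : S.τ (S.symm f) = S.symm f := by
  unfold symm
  rw [map_mul, map_add, S.τ_τ, S.τ_cst, add_comm f]

theorem symm_apply (f : smf A) (x : M) : (S.symm f).1 x = 1 / 2 * (f.1 x + f.1 (S.σ x)) := rfl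

theorem symm_add (f g : smf A) : S.symm (f + g) = S.symm f + S.symm g := by
  unfold symm
  rw [map_add]; ring

theorem symm_sum {ι : Type*} (s : Finset ι) (f : ι → smf A) :
    S.symm (∑ i ∈ s, f i) = ∑ i ∈ s, S.symm (f i) := by
  unfold symm
  rw [map_sum, ← Finset.sum_add_distrib, Finset.mul_sum]

theorem symm_one : S.symm 1 = 1 := by
  refine smf_ext fun x => ?_
  rw [symm_apply]
  show (1 / 2 : ℂ) * (1 + 1) = 1
  norm_num


theorem tsupport_symm {f : smf A} {q : M} (h : q ∈ tsupport (S.symm f).1) :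
    q ∈ tsupport f.1 ∨ S.σ q ∈ tsupport f.1 := by
  by_contra hcon
  rw [not_or] at hcon
  have h1 : ∀ᶠ y in 𝓝 q, y ∉ tsupport f.1 :=
    (isClosed_tsupport f.1).isOpen_compl.mem_nhds hcon.1
  have h2 : ∀ᶠ y in 𝓝 (S.σ q), y ∉ tsupport f.1 :=
    (isClosed_tsupport f.1).isOpen_compl.mem_nhds hcon.2
  obtain ⟨x, ⟨hx1, hx3⟩, hx2⟩ := mem_closure_iff_nhds.1 h _ (h1.and (S.ev_σ h2))
  apply hx2
  rw [symm_apply, image_eq_zero_of_notMem_tsupport hx1, image_eq_zero_of_notMem_tsupport hx3]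
  ring

variable [T2Space M] [CompactSpace M]

/-- pieces with `σ`-invariant cut-off and odd global equations -/
theorem exists_piece_inv (k : R.K) (s : smf A) (hs : tsupport s.1 ⊆ R.V k) :
    ∃ P : RegData.Piece R, P.k = k ∧ P.s = S.symm s ∧ ∀ a, S.τ (P.U a) = - P.U a := by
  have hs' : tsupport (S.symm s).1 ⊆ R.V k := by
    intro q hq
    rcases S.tsupport_symm hq with h | h
    · exact hs h
    · have := S.V_inv k _ (hs h)
      rwa [S.invol] at this
  have hinv : ∀ q ∈ tsupport (S.symm s).1, S.σ q ∈ tsupport (S.symm s).1 := by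
    intro q hq
    have h1 : (fun x => (S.symm s).1 (S.σ x)) = (S.symm s).1 :=
      congrArg Subtype.val (S.τ_symm s)
    refine S.tsupport_comp (f := (S.symm s).1) ?_
    rw [h1]
    exact hq
  obtain ⟨ψ, h1, h2, h3, -, -, -⟩ := exists_bump_compact A
    (isClosed_tsupport (S.symm s).1).isCompact (R.V_open k) hs'
  let ψ' : smf A := mk' (fun x => (ψ x : ℂ)) fun x => (h1 x).ofReal
  have hts : tsupport ψ'.1 ⊆ tsupport ψ := by
    refine closure_mono fun y hy h0 => hy ?_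
    show (ψ y : ℂ) = 0
    rw [h0]; rfl
  let θ : smf A := S.symm ψ'
  have hθs : tsupport θ.1 ⊆ R.V k := by
    intro q hq
    rcases S.tsupport_symm hq with h | h
    · exact h3 (hts h)
    · have := S.V_inv k _ (h3 (hts h))
      rwa [S.invol] at this
  have hsm : ∀ a q, SmN A (fun x => θ.1 x * R.u k a x) q := fun a =>
    smN_mul_tsupport (fun x => smN_of_mem θ x) fun q hq => R.sm k a q (hθs hq)
  refine ⟨⟨k, S.symm s, hs', fun a => mk' _ (hsm a), fun a => ?_, fun q hq => ?_⟩, rfl, rfl,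
    fun a => ?_⟩
  · intro l q hq hl
    by_cases hk : q ∈ R.V k
    · exact LSpan.mul_left (R.compat k l q hq hk hl a)
        (Eventually.of_forall fun x => smN_of_mem θ x)
    · refine LSpan.of_ev_zero ?_
      have hk' : q ∉ tsupport θ.1 := fun h => hk (hθs h)
      filter_upwards [(isClosed_tsupport θ.1).isOpen_compl.mem_nhds hk'] with x hx
      show θ.1 x * R.u k a x = 0
      rw [image_eq_zero_of_notMem_tsupport hx, zero_mul]
  · filter_upwards [h2 q hq, S.ev_σ (h2 _ (hinv q hq))] with x hx hx' a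
    show θ.1 x * R.u k a x = R.u k a x
    have : θ.1 x = 1 := by
      show 1 / 2 * ((ψ x : ℂ) + (ψ (S.σ x) : ℂ)) = 1
      rw [hx, hx']; norm_num
    rw [this, one_mul]
  · refine smf_ext fun x => ?_
    show θ.1 (S.σ x) * R.u k a (S.σ x) = - (θ.1 x * R.u k a x)
    have h5 : θ.1 (S.σ x) = θ.1 x := congrFun (congrArg Subtype.val (S.τ_symm ψ')) x
    rw [h5]
    by_cases hx : x ∈ R.V k
    · rw [S.odd k a x hx]; ring
    · have : x ∉ tsupport θ.1 := fun h => hx (hθs h)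
      rw [image_eq_zero_of_notMem_tsupport this]; ring

/-- invariant pieces summing up to one -/
theorem exists_pieces : ∃ (N : ℕ) (P : Fin N → RegData.Piece R) (s : smf A),
    (s + ∑ i, (P i).s = 1) ∧ (∀ q ∈ R.D, ∀ᶠ x in 𝓝 q, s.1 x = 0) ∧ S.τ s = s ∧
    (∀ i, S.τ (P i).s = (P i).s) ∧ ∀ i a, S.τ ((P i).U a) = - (P i).U a := by
  obtain ⟨N, P, s, h1, h2⟩ := R.exists_pieces
  choose Q hQ1 hQ2 hQ3 using fun i => S.exists_piece_inv (P i).k (P i).s (P i).sup
  refine ⟨N, Q, S.symm s, ?_, ?_, S.τ_symm s, fun i => ?_, hQ3⟩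
  · have e1 : ∑ i, (Q i).s = S.symm (∑ i, (P i).s) := by
      rw [symm_sum]
      exact Finset.sum_congr rfl fun i _ => hQ2 i
    rw [e1, ← symm_add, h1, symm_one]
  · intro q hq
    filter_upwards [h2 q hq, S.ev_σ (h2 _ (S.mem_D hq))] with x hx hx'
    rw [symm_apply, hx, hx']; ring
  · rw [hQ2, S.τ_symm]

/-- **G1** with symmetric cut-offs and odd local equations -/
theorem exists_loc : ∃ (N : ℕ) (s : Fin N → smf A), ∑ i, s i = 1 ∧ (∀ i, S.τ (s i) = s i) ∧
    ∀ i, s i ∈ R.J ∨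
    ∃ u1 ∈ R.J, ∃ u2 ∈ R.J, S.τ u1 = - u1 ∧ S.τ u2 = - u2 ∧
      (∀ f ∈ R.J, ∃ a b, s i * f = u1 * a + u2 * b) ∧
      (∀ g, u1 * g = 0 → s i * g = 0) ∧ (∀ f g, u1 * g = u2 * f → ∃ c, s i * f = u1 * c) := by
  obtain ⟨N, P, s, h1, h2, h3, h4, h5⟩ := S.exists_pieces
  refine ⟨N + 1, Fin.cons s fun i => (P i).s, ?_, ?_, ?_⟩
  · rw [Fin.sum_univ_succ]
    simpa using h1
  · intro i
    refine Fin.cases ?_ (fun i => ?_) i
    · simpa using h3
    · simpa using h4 i
  · intro i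
    refine Fin.cases ?_ (fun i => ?_) i
    · left
      simpa using R.mem_J_of_ev_zero h2
    · right
      refine ⟨(P i).U 0, (P i).mem 0, (P i).U 1, (P i).mem 1, h5 i 0, h5 i 1, ?_, ?_, ?_⟩
      · intro f hf
        simpa using (P i).exists_comb_J hf
      · intro g hg
        simpa using (P i).reg_zero hg
      · intro f g h
        simpa using (P i).reg_one h

/-- odd functions separating points off `D` -/
theorem exists_odd {q : M} (hq : q ∉ R.D) : ∃ v : smf A, v.1 q ≠ 0 ∧ S.τ v = - v ∧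
    ∀ p ∈ R.D, ∀ᶠ x in 𝓝 p, v.1 x = 0 := by
  have hO : R.Dᶜ ∩ {S.σ q}ᶜ ∈ 𝓝 q :=
    (R.closed.isOpen_compl.inter isOpen_compl_singleton).mem_nhds
      ⟨hq, fun h => S.ne q hq h.symm⟩
  obtain ⟨φ, h1, h2, h3, -, -, -⟩ := exists_bump A hO
  have hD : ∀ p ∈ R.D, ∀ᶠ x in 𝓝 p, φ x = 0 := by
    intro p hp
    have : p ∉ tsupport φ := fun h => (h3 h).1 hp
    filter_upwards [(isClosed_tsupport φ).isOpen_compl.mem_nhds this] with x hx
    exact image_eq_zero_of_notMem_tsupport hx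
  refine ⟨mk' (fun x => (φ x : ℂ) - (φ (S.σ x) : ℂ)) fun x => ((h1 x).ofReal).sub ?_, ?_, ?_, ?_⟩
  · exact S.sm (fun y => (φ y : ℂ)) x (h1 _).ofReal
  · show (φ q : ℂ) - (φ (S.σ q) : ℂ) ≠ 0
    have h4 : φ (S.σ q) = 0 := by
      refine image_eq_zero_of_notMem_tsupport fun h => (h3 h).2 rfl
    rw [h2.self_of_nhds, h4]
    simp
  · refine smf_ext fun x => ?_
    show (φ (S.σ x) : ℂ) - (φ (S.σ (S.σ x)) : ℂ) = - ((φ x : ℂ) - (φ (S.σ x) : ℂ))
    rw [S.invol]; ring
  · intro p hp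
    filter_upwards [hD p hp, S.ev_σ (hD _ (S.mem_D hp))] with x hx hx'
    show (φ x : ℂ) - (φ (S.σ x) : ℂ) = 0
    rw [hx, hx']; simp

/-- **G2**: the ideal is generated by finitely many odd functions -/
theorem exists_gens : ∃ (r : ℕ) (h : Fin r → smf A), 4 ≤ r ∧ (∀ a, S.τ (h a) = - h a) ∧
    (∀ a, h a ∈ R.J) ∧ ∀ f ∈ R.J, ∃ c : Fin r → smf A, f = ∑ a, h a * c a := by
  classical
  obtain ⟨N, P, s, h1, h2, h3, h4, h5⟩ := S.exists_pieces
  have hsD : ∀ q ∈ tsupport s.1, q ∉ R.D := by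
    intro q hq hD
    obtain ⟨y, hy1, hy2⟩ := mem_closure_iff_nhds.1 hq _ (h2 q hD)
    exact hy2 hy1
  choose! v hv1 hv2 hv3 using fun q (hq : q ∉ R.D) => S.exists_odd hq
  obtain ⟨t, ht2⟩ := (isClosed_tsupport s.1).isCompact.elim_nhds_subcover'
    (fun q _ => {x | (v q).1 x ≠ 0})
    (fun q hq => (smN_of_mem (v q) q).continuousAt.eventually_ne (hv1 q (hsD q hq)))
  let ι : Type := (Fin N × Fin 2) ⊕ ({q // q ∈ t} ⊕ Fin 4)
  let h : ι → smf A := Sum.elim (fun p => (P p.1).U p.2)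
    (Sum.elim (fun q => v q.1.1) (fun _ => 0))
  have hodd : ∀ a, S.τ (h a) = - h a := by
    rintro (p | q | a)
    · exact h5 p.1 p.2
    · exact hv2 _ (hsD _ q.1.2)
    · show S.τ (0 : smf A) = - 0
      rw [map_zero, neg_zero]
  have hJ : ∀ a, h a ∈ R.J := by
    rintro (p | q | a)
    · exact (P p.1).mem p.2
    · exact R.mem_J_of_ev_zero (hv3 _ (hsD _ q.1.2))
    · exact Ideal.zero_mem _
  have hgen : ∀ f ∈ R.J, ∃ c : ι → smf A, f = ∑ a, h a * c a := by
    intro f hf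
    choose a b hab using fun i => (P i).exists_comb_J hf
    have hg := exists_glue (fun q : {q // q ∈ t} => v q.1.1) (s * f) (fun q => by
      by_cases hq : q ∈ tsupport s.1
      · obtain ⟨p, hp1, hp2⟩ := mem_iUnion₂.1 (ht2 hq)
        exact LSpan.of_ne_zero (a := ⟨p, hp1⟩)
          (Eventually.of_forall fun x => smN_of_mem _ x) hp2
          (Eventually.of_forall fun x => smN_of_mem _ x)
      · refine LSpan.of_ev_zero ?_
        filter_upwards [(isClosed_tsupport s.1).isOpen_compl.mem_nhds hq] with x hx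
        show s.1 x * f.1 x = 0
        rw [image_eq_zero_of_notMem_tsupport hx, zero_mul])
    obtain ⟨C, hC⟩ := hg
    refine ⟨Sum.elim (fun p => if p.2 = 0 then a p.1 else b p.1) (Sum.elim C fun _ => 0), ?_⟩
    rw [Fintype.sum_sum_type, Fintype.sum_sum_type, Fintype.sum_prod_type]
    simp only [h, Sum.elim_inl, Sum.elim_inr, Fin.sum_univ_two, if_true, mul_zero,
      Finset.sum_const_zero, add_zero]
    rw [← hC]
    have e1 : f = s * f + ∑ i, (P i).s * f := by
      rw [← Finset.sum_mul, ← add_mul, h1, one_mul]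
    conv_lhs => rw [e1]
    rw [add_comm]
    congr 1
    refine Finset.sum_congr rfl fun i _ => ?_
    rw [hab i]
    simp
  let e := Fintype.equivFin ι
  refine ⟨Fintype.card ι, fun i => h (e.symm i), ?_, fun i => hodd _, fun i => hJ _, ?_⟩
  · simp only [ι, Fintype.card_sum, Fintype.card_fin]
    omega
  · intro f hf
    obtain ⟨c, hc⟩ := hgen f hf
    refine ⟨fun i => c (e.symm i), ?_⟩
    rw [hc]
    exact (Equiv.sum_comp e.symm (fun a => h a * c a)).symm

theorem exists_gens_span : ∃ (r : ℕ) (h : Fin r → smf A), 4 ≤ r ∧ (∀ a, S.τ (h a) = - h a) ∧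
    Ideal.span (range h) = R.J := by
  obtain ⟨r, h, h1, h2, h3, h4⟩ := S.exists_gens
  refine ⟨r, h, h1, h2, le_antisymm (Ideal.span_le.2 ?_) fun f hf => ?_⟩
  · rintro _ ⟨a, rfl⟩
    exact h3 a
  · obtain ⟨c, hc⟩ := h4 f hf
    rw [hc]
    exact Ideal.sum_mem _ fun a _ => Ideal.mul_mem_right _ _ (Ideal.subset_span ⟨a, rfl⟩)

end Swap

/-- generators without involution -/
theorem RegData.exists_gens [T2Space M] [CompactSpace M] (R : RegData A) :
    ∃ (r : ℕ) (h : Fin r → smf A), 4 ≤ r ∧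
    (∀ a, h a ∈ R.J) ∧ ∀ f ∈ R.J, ∃ c : Fin r → smf A, f = ∑ a, h a * c a := by
  classical
  obtain ⟨N, P, s, h1, h2⟩ := R.exists_pieces
  let ι : Type := (Fin N × Fin 2) ⊕ (Unit ⊕ Fin 4)
  let h : ι → smf A := Sum.elim (fun p => (P p.1).U p.2)
    (Sum.elim (fun _ => s) (fun _ => 0))
  have hJ : ∀ a, h a ∈ R.J := by
    rintro (p | q | a)
    · exact (P p.1).mem p.2
    · exact R.mem_J_of_ev_zero h2
    · exact Ideal.zero_mem _
  have hgen : ∀ f ∈ R.J, ∃ c : ι → smf A, f = ∑ a, h a * c a := by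
    intro f hf
    choose a b hab using fun i => (P i).exists_comb_J hf
    refine ⟨Sum.elim (fun p => if p.2 = 0 then a p.1 else b p.1) (Sum.elim (fun _ => f)
      fun _ => 0), ?_⟩
    rw [Fintype.sum_sum_type, Fintype.sum_sum_type, Fintype.sum_prod_type]
    simp only [h, Sum.elim_inl, Sum.elim_inr, Fin.sum_univ_two, if_true, mul_zero,
      Finset.sum_const_zero, add_zero, Finset.univ_unique, Finset.sum_singleton]
    have e1 : f = s * f + ∑ i, (P i).s * f := by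
      rw [← Finset.sum_mul, ← add_mul, h1, one_mul]
    conv_lhs => rw [e1]
    rw [add_comm]
    congr 1
    refine Finset.sum_congr rfl fun i _ => ?_
    rw [hab i]
    simp
  let e := Fintype.equivFin ι
  refine ⟨Fintype.card ι, fun i => h (e.symm i), ?_, fun i => hJ _, ?_⟩
  · simp only [ι, Fintype.card_sum, Fintype.card_fin]
    omega
  · intro f hf
    obtain ⟨c, hc⟩ := hgen f hf
    refine ⟨fun i => c (e.symm i), ?_⟩
    rw [hc]
    exact (Equiv.sum_comp e.symm (fun a => h a * c a)).symm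

end

end Crest.Agent.R275.Dg199
end

-- ▼ part R275/Div_940
section

/-!
# Row 275, leaf NA2 (helper940): smooth division by a complex coordinate

`E` a real normed space (parameters), `U ⊆ ℂ × E` open, `f : ℂ × E → ℂ` smooth (real `C^∞`) on `U`.

* `dbar`, `dz` : Wirtinger derivatives in the first variable;
* `exists_div` : if all iterated derivatives `dbar^[k] f` vanish at the points `(0, e)` of `U` then
  there is `c`, smooth on `U`, with `f p = p.1 * c p` on `U`;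
* `exists_div_of_mul_eq` : if `z * g = h * f` on `U` and `{h ≠ 0}` is dense in `{z = 0} ∩ U` then
  `f` is divisible by `z` (no condition on `h` besides smoothness);
* `exists_div_pow` : the case `h = w ^ m` for a second complex coordinate `w`.
-/

set_option autoImplicit false
open Set Filter Topology MeasureTheory
open scoped ContDiff ComplexConjugate
set_option linter.unusedSectionVars false
open Crest.Agent.R240.SmJ

namespace Crest.Agent.R275.Div940

noncomputable section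

variable {E : Type} [NormedAddCommGroup E] [NormedSpace ℝ E]

/-- the derivative `∂/∂z̄` in the first variable -/
def dbar (g : ℂ × E → ℂ) (p : ℂ × E) : ℂ :=
  (1 / 2 : ℂ) * (fderiv ℝ g p (1, 0) + Complex.I * fderiv ℝ g p (Complex.I, 0))

/-- the derivative `∂/∂z` in the first variable -/
def dz (g : ℂ × E → ℂ) (p : ℂ × E) : ℂ :=
  (1 / 2 : ℂ) * (fderiv ℝ g p (1, 0) - Complex.I * fderiv ℝ g p (Complex.I, 0))

theorem fderiv_fst (g : ℂ × E → ℂ) (p : ℂ × E) (z : ℂ) :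
    fderiv ℝ g p (z, 0) = z * dz g p + conj z * dbar g p := by
  have h : (z, (0 : E)) = z.re • ((1 : ℂ), (0 : E)) + z.im • (Complex.I, (0 : E)) := by
    ext
    · simp [Complex.real_smul]
    · simp
  rw [h, map_add, map_smul, map_smul, Complex.real_smul, Complex.real_smul]
  unfold dz dbar
  have h1 : z = z.re + z.im * Complex.I := (Complex.re_add_im z).symm
  have h2 : conj z = z.re - z.im * Complex.I := by
    apply Complex.ext <;> simp
  rw [h2]
  conv_rhs => rw [h1]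
  have h3 : ∀ w : ℂ, ((w.re : ℂ) + w.im * Complex.I).re = w.re := by intro w; simp
  simp only [Complex.add_re, Complex.ofReal_re, Complex.mul_re, Complex.I_re, mul_zero,
    Complex.ofReal_im, Complex.I_im, mul_one, sub_self, add_zero, Complex.add_im, Complex.mul_im,
    zero_add]
  ring_nf
  simp only [Complex.I_sq]
  ring

theorem contDiffOn_fderiv_apply {U : Set (ℂ × E)} (hU : IsOpen U) {g : ℂ × E → ℂ}
    (hg : ContDiffOn ℝ ∞ g U) (v : ℂ × E) : ContDiffOn ℝ ∞ (fun p => fderiv ℝ g p v) U :=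
  (hg.fderiv_of_isOpen hU (m := ∞) (by simp)).clm_apply contDiffOn_const

theorem contDiffOn_dbar {U : Set (ℂ × E)} (hU : IsOpen U) {g : ℂ × E → ℂ}
    (hg : ContDiffOn ℝ ∞ g U) : ContDiffOn ℝ ∞ (dbar g) U :=
  contDiffOn_const.mul ((contDiffOn_fderiv_apply hU hg _).add
    (contDiffOn_const.mul (contDiffOn_fderiv_apply hU hg _)))

theorem contDiffOn_dz {U : Set (ℂ × E)} (hU : IsOpen U) {g : ℂ × E → ℂ}
    (hg : ContDiffOn ℝ ∞ g U) : ContDiffOn ℝ ∞ (dz g) U :=
  contDiffOn_const.mul ((contDiffOn_fderiv_apply hU hg _).sub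
    (contDiffOn_const.mul (contDiffOn_fderiv_apply hU hg _)))

theorem contDiffOn_dbar_iter {U : Set (ℂ × E)} (hU : IsOpen U) {g : ℂ × E → ℂ}
    (hg : ContDiffOn ℝ ∞ g U) (k : ℕ) : ContDiffOn ℝ ∞ (dbar^[k] g) U := by
  induction k with
  | zero => simpa using hg
  | succ k ih => rw [Function.iterate_succ_apply']; exact contDiffOn_dbar hU ih

theorem dbar_congr {U : Set (ℂ × E)} (hU : IsOpen U) {g h : ℂ × E → ℂ} (hgh : EqOn g h U) :
    EqOn (dbar g) (dbar h) U := by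
  intro p hp
  have : fderiv ℝ g p = fderiv ℝ h p :=
    (hgh.eventuallyEq_of_mem (hU.mem_nhds hp)).fderiv_eq
  simp only [dbar, this]

theorem dbar_iter_congr {U : Set (ℂ × E)} (hU : IsOpen U) {g h : ℂ × E → ℂ} (hgh : EqOn g h U)
    (k : ℕ) : EqOn (dbar^[k] g) (dbar^[k] h) U := by
  induction k with
  | zero => simpa using hgh
  | succ k ih =>
    rw [Function.iterate_succ_apply', Function.iterate_succ_apply']
    exact dbar_congr hU ih

/-- star shaped in the first variable -/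
def Star (U : Set (ℂ × E)) : Prop := ∀ p ∈ U, ∀ s ∈ Icc (0 : ℝ) 1, (s • p.1, p.2) ∈ U

/-- the integrand of the Hadamard integral -/
def IG (m : ℕ) (g : ℂ × E → ℂ) (q : (ℂ × E) × ℝ) : ℂ :=
  ((q.2 : ℂ) ^ m) * g (q.2 • q.1.1, q.1.2)

/-- the Hadamard integral -/
def II (m : ℕ) (g : ℂ × E → ℂ) (p : ℂ × E) : ℂ := ∫ s in Icc (0 : ℝ) 1, IG m g (p, s)

/-- the scaled domain -/
def SU (U : Set (ℂ × E)) : Set ((ℂ × E) × ℝ) := {q | (q.2 • q.1.1, q.1.2) ∈ U}

theorem isOpen_SU {U : Set (ℂ × E)} (hU : IsOpen U) : IsOpen (SU U) :=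
  hU.preimage (by fun_prop)

theorem subset_SU {U : Set (ℂ × E)} (hS : Star U) : U ×ˢ Icc (0 : ℝ) 1 ⊆ SU U :=
  fun q hq => hS q.1 hq.1 q.2 hq.2

theorem contDiffOn_IG {U : Set (ℂ × E)} (m : ℕ) {g : ℂ × E → ℂ}
    (hg : ContDiffOn ℝ ∞ g U) : ContDiffOn ℝ ∞ (IG m g) (SU U) := by
  unfold IG
  refine ContDiffOn.mul ?_ ?_
  · refine ContDiff.contDiffOn ?_
    have : ContDiff ℝ ∞ (fun q : (ℂ × E) × ℝ => ((q.2 : ℝ) : ℂ)) :=
      Complex.ofRealCLM.contDiff.comp contDiff_snd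
    exact this.pow m
  · have h1 : ContDiff ℝ ∞ (fun q : (ℂ × E) × ℝ => (q.2 • q.1.1, q.1.2)) := by
      fun_prop
    exact hg.comp h1.contDiffOn (fun q hq => hq)

theorem contDiffOn_II {U : Set (ℂ × E)} (hU : IsOpen U) (hS : Star U) (m : ℕ) {g : ℂ × E → ℂ}
    (hg : ContDiffOn ℝ ∞ g U) : ContDiffOn ℝ ∞ (II m g) U := by
  have h := contDiffOn_integral (E := ℂ × E) (E' := ℝ) (V := ℂ) (g := IG m g) (K := Icc (0 : ℝ) 1)
    (isOpen_SU hU) hU isCompact_Icc (subset_SU hS) volume (contDiffOn_IG m hg)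
  exact h

theorem dx_IG {U : Set (ℂ × E)} (hU : IsOpen U) (m : ℕ) {g : ℂ × E → ℂ}
    (hg : ContDiffOn ℝ ∞ g U) {p : ℂ × E} {s : ℝ} (hp : (p, s) ∈ SU U) (v : ℂ) :
    dx (IG m g) (p, s) (v, 0)
      = ((s : ℂ) ^ (m + 1)) * fderiv ℝ g (s • p.1, p.2) (v, 0) := by
  have hd : DifferentiableAt ℝ (IG m g) (p, s) :=
    ((contDiffOn_IG m hg).contDiffAt ((isOpen_SU hU).mem_nhds hp)).differentiableAt (by simp)
  have h1 : HasFDerivAt (fun x => IG m g (x, s)) (dx (IG m g) (p, s)) p :=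
    hasFDerivAt_dx (p := (p, s)) hd
  have hgd : DifferentiableAt ℝ g (s • p.1, p.2) :=
    (hg.contDiffAt (hU.mem_nhds hp)).differentiableAt (by simp)
  let L : ℂ × E →L[ℝ] ℂ × E := (s • ContinuousLinearMap.fst ℝ ℂ E).prod
    (ContinuousLinearMap.snd ℝ ℂ E)
  have hL : HasFDerivAt (fun x : ℂ × E => (s • x.1, x.2)) L p := L.hasFDerivAt
  have h2 : HasFDerivAt (fun x => IG m g (x, s))
      (((s : ℂ) ^ m) • ((fderiv ℝ g (s • p.1, p.2)).comp L)) p := by
    have h3 : HasFDerivAt (fun x : ℂ × E => g (s • x.1, x.2))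
        ((fderiv ℝ g (s • p.1, p.2)).comp L) p :=
      HasFDerivAt.comp p (by exact hgd.hasFDerivAt) hL
    change HasFDerivAt (fun x : ℂ × E => ((s : ℂ) ^ m) * g (s • x.1, x.2)) _ p
    exact h3.const_mul _
  rw [h1.unique h2]
  have h4 : L (v, 0) = s • ((v, 0) : ℂ × E) := by
    ext
    · simp [L]
    · simp [L]
  rw [smul_apply, ContinuousLinearMap.comp_apply, h4, map_smul]
  rw [Complex.real_smul, smul_eq_mul, pow_succ]
  ring

theorem fderiv_II {U : Set (ℂ × E)} (hU : IsOpen U) (hS : Star U) (m : ℕ) {g : ℂ × E → ℂ}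
    (hg : ContDiffOn ℝ ∞ g U) {p : ℂ × E} (hp : p ∈ U) (v : ℂ) :
    fderiv ℝ (II m g) p (v, 0)
      = ∫ s in Icc (0 : ℝ) 1, ((s : ℂ) ^ (m + 1)) * fderiv ℝ g (s • p.1, p.2) (v, 0) := by
  have h := hasFDerivAt_integral (E := ℂ × E) (E' := ℝ) (V := ℂ) (g := IG m g)
    (K := Icc (0 : ℝ) 1) (isOpen_SU hU) hU isCompact_Icc (subset_SU hS) volume
    (contDiffOn_IG m hg) hp
  have h' : HasFDerivAt (II m g) (∫ y in Icc (0 : ℝ) 1, dx (IG m g) (p, y)) p := h
  rw [h'.fderiv]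
  have hint : Integrable (fun s => dx (IG m g) (p, s)) (volume.restrict (Icc (0 : ℝ) 1)) := by
    have hc : ContinuousOn (fun s => dx (IG m g) (p, s)) (Icc (0 : ℝ) 1) := by
      have h1 : ContinuousOn (dx (IG m g)) (SU U) :=
        (contDiffOn_dx (E := ℂ × E) (E' := ℝ) (V := ℂ) (g := IG m g) (s := SU U)
          (isOpen_SU hU) (contDiffOn_IG m hg)).continuousOn
      refine h1.comp (f := fun s : ℝ => (p, s)) (by fun_prop) ?_
      intro s hs
      exact subset_SU hS ⟨hp, hs⟩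
    exact hc.integrableOn_Icc
  rw [ContinuousLinearMap.integral_apply hint]
  refine setIntegral_congr_fun measurableSet_Icc fun s hs => ?_
  exact dx_IG hU m hg (subset_SU hS ⟨hp, hs⟩) v

theorem cont_aux {U : Set (ℂ × E)} (hU : IsOpen U) (hS : Star U) (m : ℕ) {g : ℂ × E → ℂ}
    (hg : ContDiffOn ℝ ∞ g U) {p : ℂ × E} (hp : p ∈ U) (v : ℂ × E) :
    ContinuousOn (fun s : ℝ => ((s : ℂ) ^ m) * fderiv ℝ g (s • p.1, p.2) v) (Icc (0 : ℝ) 1) := by
  refine ContinuousOn.mul (by fun_prop) ?_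
  refine (contDiffOn_fderiv_apply hU hg v).continuousOn.comp
    (f := fun s : ℝ => (s • p.1, p.2)) (by fun_prop) ?_
  intro s hs
  exact hS p hp s hs

theorem dbar_II {U : Set (ℂ × E)} (hU : IsOpen U) (hS : Star U) (m : ℕ) {g : ℂ × E → ℂ}
    (hg : ContDiffOn ℝ ∞ g U) : EqOn (dbar (II m g)) (II (m + 1) (dbar g)) U := by
  intro p hp
  have h1 := fderiv_II hU hS m hg hp 1
  have h2 := fderiv_II hU hS m hg hp Complex.I
  have i1 : IntegrableOn (fun s : ℝ => ((s : ℂ) ^ (m + 1)) * fderiv ℝ g (s • p.1, p.2) (1, 0))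
      (Icc (0 : ℝ) 1) := (cont_aux hU hS (m + 1) hg hp _).integrableOn_Icc
  have i2 : IntegrableOn (fun s : ℝ => ((s : ℂ) ^ (m + 1)) *
      fderiv ℝ g (s • p.1, p.2) (Complex.I, 0))
      (Icc (0 : ℝ) 1) := (cont_aux hU hS (m + 1) hg hp _).integrableOn_Icc
  unfold dbar
  rw [h1, h2, ← integral_const_mul, ← integral_add i1 (i2.const_mul _), ← integral_const_mul]
  unfold II
  refine setIntegral_congr_fun measurableSet_Icc fun s hs => ?_
  simp only [IG]
  ring

theorem dbar_iter_II {U : Set (ℂ × E)} (hU : IsOpen U) (hS : Star U) {g : ℂ × E → ℂ}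
    (hg : ContDiffOn ℝ ∞ g U) (k m : ℕ) :
    EqOn (dbar^[k] (II m g)) (II (m + k) (dbar^[k] g)) U := by
  induction k with
  | zero => intro p _; rfl
  | succ k ih =>
    intro p hp
    rw [Function.iterate_succ_apply', Function.iterate_succ_apply']
    rw [dbar_congr hU ih hp]
    exact dbar_II hU hS (m + k) (contDiffOn_dbar_iter hU hg k) hp

theorem II_zero (m : ℕ) (g : ℂ × E → ℂ) (e : E) (h : g (0, e) = 0) : II m g (0, e) = 0 := by
  unfold II IG
  simp [h]

/-- all `z̄`-derivatives vanish on `z = 0` -/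
def Van (U : Set (ℂ × E)) (g : ℂ × E → ℂ) : Prop :=
  ∀ (k : ℕ) (e : E), ((0 : ℂ), e) ∈ U → dbar^[k] g (0, e) = 0

theorem Van.II {U : Set (ℂ × E)} (hU : IsOpen U) (hS : Star U) {g : ℂ × E → ℂ}
    (hg : ContDiffOn ℝ ∞ g U) (h : Van U g) : Van U (II 0 (dbar g)) := by
  intro k e he
  rw [dbar_iter_II hU hS (contDiffOn_dbar hU hg) k 0 he]
  apply II_zero
  have := h (k + 1) e he
  rwa [Function.iterate_succ_apply] at this

/-- Hadamard's lemma -/
theorem hadamard {U : Set (ℂ × E)} (hU : IsOpen U) (hS : Star U) {g : ℂ × E → ℂ}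
    (hg : ContDiffOn ℝ ∞ g U) {p : ℂ × E} (hp : p ∈ U) :
    g p = g (0, p.2) + p.1 * II 0 (dz g) p + conj p.1 * II 0 (dbar g) p := by
  have hderiv : ∀ s ∈ uIcc (0 : ℝ) 1, HasDerivAt (fun s : ℝ => g (s • p.1, p.2))
      (fderiv ℝ g (s • p.1, p.2) (p.1, 0)) s := by
    intro s hs
    rw [uIcc_of_le zero_le_one] at hs
    have hgd : DifferentiableAt ℝ g (s • p.1, p.2) :=
      (hg.contDiffAt (hU.mem_nhds (hS p hp s hs))).differentiableAt (by simp)
    have h1 : HasDerivAt (fun s : ℝ => (s • p.1, p.2)) (p.1, (0 : E)) s := by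
      refine HasDerivAt.prodMk ?_ (hasDerivAt_const _ _)
      simpa using (hasDerivAt_id s).smul_const p.1
    exact hgd.hasFDerivAt.comp_hasDerivAt s h1
  have hcont : ContinuousOn (fun s : ℝ => fderiv ℝ g (s • p.1, p.2) (p.1, 0)) (Icc (0 : ℝ) 1) := by
    have := cont_aux hU hS 0 hg hp (p.1, 0)
    simpa using this
  have hint : IntervalIntegrable (fun s : ℝ => fderiv ℝ g (s • p.1, p.2) (p.1, 0)) volume 0 1 :=
    ContinuousOn.intervalIntegrable_of_Icc zero_le_one hcont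
  have hftc := intervalIntegral.integral_eq_sub_of_hasDerivAt hderiv hint
  rw [intervalIntegral.integral_of_le zero_le_one, ← integral_Icc_eq_integral_Ioc] at hftc
  simp only [one_smul, zero_smul] at hftc
  have h0 : ∫ s in Icc (0 : ℝ) 1, fderiv ℝ g (s • p.1, p.2) (p.1, 0)
      = p.1 * II 0 (dz g) p + conj p.1 * II 0 (dbar g) p := by
    unfold II
    have c1 : ContinuousOn (fun s : ℝ => IG 0 (dz g) (p, s)) (Icc (0 : ℝ) 1) := by
      refine (contDiffOn_IG 0 (contDiffOn_dz hU hg)).continuousOn.comp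
        (f := fun s : ℝ => (p, s)) (by fun_prop) ?_
      intro s hs
      exact subset_SU hS ⟨hp, hs⟩
    have c2 : ContinuousOn (fun s : ℝ => IG 0 (dbar g) (p, s)) (Icc (0 : ℝ) 1) := by
      refine (contDiffOn_IG 0 (contDiffOn_dbar hU hg)).continuousOn.comp
        (f := fun s : ℝ => (p, s)) (by fun_prop) ?_
      intro s hs
      exact subset_SU hS ⟨hp, hs⟩
    have i1 : IntegrableOn (fun s : ℝ => p.1 * IG 0 (dz g) (p, s)) (Icc (0 : ℝ) 1) :=
      (continuousOn_const.mul c1).integrableOn_Icc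
    have i2 : IntegrableOn (fun s : ℝ => conj p.1 * IG 0 (dbar g) (p, s)) (Icc (0 : ℝ) 1) :=
      (continuousOn_const.mul c2).integrableOn_Icc
    rw [← integral_const_mul, ← integral_const_mul, ← integral_add i1 i2]
    refine setIntegral_congr_fun measurableSet_Icc fun s hs => ?_
    simp only [IG, pow_zero, one_mul]
    exact fderiv_fst g _ p.1
  rw [h0] at hftc
  have h5 : g p = g (p.1, p.2) := rfl
  rw [h5]
  linear_combination -hftc

/-- the expansion `g = z A + z̄ ^ N B` -/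
theorem exists_decomp {U : Set (ℂ × E)} (hU : IsOpen U) (hS : Star U) {g : ℂ × E → ℂ}
    (hg : ContDiffOn ℝ ∞ g U) (hv : Van U g) (N : ℕ) :
    ∃ A B : ℂ × E → ℂ, ContDiffOn ℝ ∞ A U ∧ ContDiffOn ℝ ∞ B U ∧ Van U B ∧
      ∀ p ∈ U, g p = p.1 * A p + (conj p.1) ^ N * B p := by
  induction N with
  | zero =>
    refine ⟨fun _ => 0, g, contDiffOn_const, hg, hv, fun p _ => by simp⟩
  | succ N ih =>
    obtain ⟨A, B, hA, hB, hvB, h⟩ := ih
    refine ⟨fun p => A p + (conj p.1) ^ N * II 0 (dz B) p, II 0 (dbar B), ?_,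
      contDiffOn_II hU hS 0 (contDiffOn_dbar hU hB), hvB.II hU hS hB, ?_⟩
    · refine hA.add (ContDiffOn.mul ?_ (contDiffOn_II hU hS 0 (contDiffOn_dz hU hB)))
      have : ContDiff ℝ ∞ (fun p : ℂ × E => (conj p.1 : ℂ)) :=
        Complex.conjCLE.contDiff.comp contDiff_fst
      exact (this.pow N).contDiffOn
    · intro p hp
      have h0 : B (0, p.2) = 0 := by
        have h1 : ((0 : ℂ), p.2) ∈ U := by
          have := hS p hp 0 (by simp)
          simpa using this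
        simpa using hvB 0 p.2 h1
      have h1 := hadamard hU hS hB hp
      rw [h0, zero_add] at h1
      rw [h p hp, h1, pow_succ]
      ring

/-- `z̄ ^ N / z ^ m` -/
def hh (N m : ℕ) (z : ℂ) : ℂ := (conj z) ^ N / z ^ m

theorem norm_hh {N m : ℕ} (h : m ≤ N) (hN : 1 ≤ N) (z : ℂ) (hz : N = m → z ≠ 0) :
    ‖hh N m z‖ = ‖z‖ ^ (N - m) := by
  unfold hh
  rw [norm_div, norm_pow, norm_pow, Complex.norm_conj]
  by_cases h0 : z = 0
  · subst h0
    have h1 : N ≠ m := fun e => hz e rfl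
    have h2 : N - m ≠ 0 := by omega
    simp only [norm_zero]
    rw [zero_pow (by omega : N ≠ 0), zero_pow h2, zero_div]
  · have h1 : ‖z‖ ^ m ≠ 0 := pow_ne_zero _ (norm_ne_zero_iff.2 h0)
    rw [div_eq_iff h1, ← pow_add, Nat.sub_add_cancel h]

/-- the derivative of `hh` -/
def dhh (N m : ℕ) (z : ℂ) : ℂ →L[ℝ] ℂ :=
  ((N : ℂ) * hh (N - 1) m z) • (Complex.conjCLE : ℂ →L[ℝ] ℂ)
    - ((m : ℂ) * hh N (m + 1) z) • (ContinuousLinearMap.id ℝ ℂ)

theorem hasFDerivAt_hh {N m : ℕ} (h : m + 2 ≤ N) (z : ℂ) :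
    HasFDerivAt (hh N m) (dhh N m z) z := by
  by_cases hz : z = 0
  · subst hz
    have e1 : dhh N m 0 = 0 := by
      have a1 : hh (N - 1) m 0 = 0 := by
        unfold hh; rw [map_zero, zero_pow (by omega), zero_div]
      have a2 : hh N (m + 1) 0 = 0 := by
        unfold hh; rw [map_zero, zero_pow (by omega), zero_div]
      unfold dhh
      rw [a1, a2]
      ext v
      simp
    rw [e1]
    have e2 : hh N m 0 = 0 := by unfold hh; rw [map_zero, zero_pow (by omega), zero_div]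
    rw [hasFDerivAt_iff_isLittleO_nhds_zero]
    simp only [zero_add, e2, sub_zero, zero_apply]
    refine Asymptotics.IsLittleO.of_norm_left ?_
    have e3 : (fun z : ℂ => ‖hh N m z‖) = fun z => ‖z‖ ^ (N - m) := by
      funext z
      exact norm_hh (by omega) (by omega) z (fun e => by omega)
    rw [e3]
    have : (fun z : ℂ => ‖z‖ ^ (N - m)) =o[𝓝 0] fun z : ℂ => ‖z‖ ^ 1 := by
      exact Asymptotics.isLittleO_pow_pow (𝕜 := ℝ) (by omega : 1 < N - m) |>.comp_tendsto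
        (tendsto_norm_zero)
    simp only [pow_one] at this
    exact this.of_norm_right
  · have h1 : HasFDerivAt (fun z : ℂ => (conj z : ℂ)) (Complex.conjCLE : ℂ →L[ℝ] ℂ) z :=
      (Complex.conjCLE : ℂ →L[ℝ] ℂ).hasFDerivAt
    have h2 : HasFDerivAt (fun z : ℂ => (conj z : ℂ) ^ N)
        (((N : ℂ) * (conj z) ^ (N - 1)) • (Complex.conjCLE : ℂ →L[ℝ] ℂ)) z := by
      have := h1.pow N
      simpa [nsmul_eq_mul, smul_smul] using this
    have hzm : z ^ m ≠ 0 := pow_ne_zero _ hz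
    have h3 : HasFDerivAt (fun z : ℂ => (z ^ m)⁻¹) ((-((m : ℂ) * z ^ (m - 1)) / (z ^ m) ^ 2) •
        (ContinuousLinearMap.id ℝ ℂ)) z := by
      have h5 : HasDerivAt (fun z : ℂ => (z ^ m)⁻¹) (-((m : ℂ) * z ^ (m - 1)) / (z ^ m) ^ 2) z :=
        (hasDerivAt_pow m z).inv hzm
      have h6 := h5.hasFDerivAt.restrictScalars ℝ
      refine h6.congr_fderiv ?_
      ext v
      simp [mul_comm]
    have h4 := h2.mul h3
    refine (h4.congr_fderiv ?_).congr_of_eventuallyEq ?_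
    · ext v
      simp only [dhh, hh, sub_apply, smul_apply,
        add_apply, smul_eq_mul, ContinuousLinearMap.id_apply]
      rcases m with _ | m
      · simp
        try ring
      · simp only [Nat.add_sub_cancel]
        field_simp
        try ring
    · exact Filter.Eventually.of_forall fun z => by simp [hh, div_eq_mul_inv]

theorem contDiff_hh (k : ℕ) : ∀ {N m : ℕ}, m + 1 + k ≤ N → ContDiff ℝ k (hh N m) := by
  induction k with
  | zero =>
    intro N m h
    rw [Nat.cast_zero, contDiff_zero, continuous_iff_continuousAt]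
    intro z
    by_cases hz : z = 0
    · subst hz
      have e2 : hh N m 0 = 0 := by unfold hh; rw [map_zero, zero_pow (by omega), zero_div]
      unfold ContinuousAt
      rw [e2, tendsto_zero_iff_norm_tendsto_zero]
      have e3 : (fun z : ℂ => ‖hh N m z‖) = fun z => ‖z‖ ^ (N - m) := by
        funext z
        exact norm_hh (by omega) (by omega) z (fun e => by omega)
      rw [e3]
      have h5 : Continuous fun z : ℂ => ‖z‖ ^ (N - m) := by fun_prop
      have h6 := h5.tendsto 0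
      simpa [zero_pow (by omega : N - m ≠ 0)] using h6
    · unfold hh
      refine ContinuousAt.div (by fun_prop) (by fun_prop) (pow_ne_zero _ hz)
  | succ k ih =>
    intro N m h
    rw [Nat.cast_add, Nat.cast_one, contDiff_succ_iff_hasFDerivAt]
    refine ⟨dhh N m, ?_, fun z => hasFDerivAt_hh (by omega) z⟩
    unfold dhh
    have h1 : ContDiff ℝ k (hh (N - 1) m) := ih (by omega)
    have h2 : ContDiff ℝ k (hh N (m + 1)) := ih (by omega)
    exact ((contDiff_const.mul h1).smul contDiff_const).sub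
      ((contDiff_const.mul h2).smul contDiff_const)

/-- the quotient `f / z`, completed on `z = 0` by the derivative -/
def quo (f : ℂ × E → ℂ) (p : ℂ × E) : ℂ :=
  open Classical in if p.1 = 0 then fderiv ℝ f p (1, 0) else f p / p.1

theorem quo_mul {f : ℂ × E → ℂ} {p : ℂ × E} (h : p.1 = 0 → f p = 0) : f p = p.1 * quo f p := by
  unfold quo
  split_ifs with h0
  · rw [h h0, h0, zero_mul]
  · rw [mul_div_cancel₀ _ h0]

theorem contDiffOn_quo_star {U : Set (ℂ × E)} (hU : IsOpen U) (hS : Star U) {f : ℂ × E → ℂ}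
    (hf : ContDiffOn ℝ ∞ f U) (hv : Van U f) : ContDiffOn ℝ ∞ (quo f) U := by
  rw [contDiffOn_infty]
  intro k
  obtain ⟨A, B, hA, hB, hvB, h⟩ := exists_decomp hU hS hf hv (k + 2)
  have key : ∀ p ∈ U, quo f p = A p + hh (k + 2) 1 p.1 * B p := by
    intro p hp
    unfold quo
    split_ifs with h0
    · have e0 : hh (k + 2) 1 p.1 = 0 := by
        unfold hh; rw [h0, map_zero, zero_pow (by omega), zero_div]
      rw [e0, zero_mul, add_zero]
      -- derivative along the real axis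
      have hgd : DifferentiableAt ℝ f p :=
        (hf.contDiffAt (hU.mem_nhds hp)).differentiableAt (by simp)
      have hAd : DifferentiableAt ℝ A p :=
        (hA.contDiffAt (hU.mem_nhds hp)).differentiableAt (by simp)
      have hBd : DifferentiableAt ℝ B p :=
        (hB.contDiffAt (hU.mem_nhds hp)).differentiableAt (by simp)
      have h1 : HasFDerivAt (fun q : ℂ × E => q.1 * A q + (conj q.1) ^ (k + 2) * B q)
          ((p.1 • fderiv ℝ A p + A p • ContinuousLinearMap.fst ℝ ℂ E)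
            + (((conj p.1) ^ (k + 2)) • fderiv ℝ B p
              + B p • ((((k + 2 : ℕ) : ℂ) * (conj p.1) ^ (k + 2 - 1)) •
                ((Complex.conjCLE : ℂ →L[ℝ] ℂ).comp (ContinuousLinearMap.fst ℝ ℂ E))))) p := by
        refine HasFDerivAt.add ?_ ?_
        · exact (ContinuousLinearMap.fst ℝ ℂ E).hasFDerivAt.mul hAd.hasFDerivAt
        · refine HasFDerivAt.mul ?_ hBd.hasFDerivAt
          have h2 : HasFDerivAt (fun q : ℂ × E => (conj q.1 : ℂ))
              ((Complex.conjCLE : ℂ →L[ℝ] ℂ).comp (ContinuousLinearMap.fst ℝ ℂ E)) p :=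
            ((Complex.conjCLE : ℂ →L[ℝ] ℂ).comp (ContinuousLinearMap.fst ℝ ℂ E)).hasFDerivAt
          have := h2.pow (k + 2)
          simpa [nsmul_eq_mul, smul_smul] using this
      have h3 : fderiv ℝ f p = _ := ((h1.congr_of_eventuallyEq
        ((hU.eventually_mem hp).mono fun q hq => h q hq))).fderiv
      rw [h3]
      simp [h0]
    · rw [h p hp]
      unfold hh
      field_simp
  refine ContDiffOn.congr ?_ key
  refine (hA.of_le (by exact_mod_cast le_top)).add (ContDiffOn.mul ?_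
    (hB.of_le (by exact_mod_cast le_top)))
  have h4 : ContDiff ℝ k (hh (k + 2) 1) := contDiff_hh k (by omega)
  exact (h4.comp contDiff_fst).contDiffOn

theorem contDiffOn_quo {U : Set (ℂ × E)} (hU : IsOpen U) {f : ℂ × E → ℂ}
    (hf : ContDiffOn ℝ ∞ f U) (hv : Van U f) : ContDiffOn ℝ ∞ (quo f) U := by
  intro p hp
  apply ContDiffAt.contDiffWithinAt
  by_cases h0 : p.1 = 0
  · obtain ⟨a, b, ha, hb, ha0, hb0, hab⟩ :=
      isOpen_prod_iff.1 hU p.1 p.2 hp
    obtain ⟨r, hr, hra⟩ := Metric.isOpen_iff.1 ha p.1 ha0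
    rw [h0] at hra
    let U' : Set (ℂ × E) := Metric.ball 0 r ×ˢ b
    have hU' : IsOpen U' := Metric.isOpen_ball.prod hb
    have hUU : U' ⊆ U := (prod_mono hra subset_rfl).trans hab
    have hS' : Star U' := by
      intro q hq s hs
      refine ⟨?_, hq.2⟩
      have h1 : ‖q.1‖ < r := by simpa using hq.1
      rw [mem_ball_zero_iff, norm_smul, Real.norm_of_nonneg hs.1]
      calc s * ‖q.1‖ ≤ 1 * ‖q.1‖ := by
            exact mul_le_mul_of_nonneg_right hs.2 (norm_nonneg _)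
        _ < r := by rw [one_mul]; exact h1
    have hv' : Van U' f := fun k e he => hv k e (hUU he)
    have h2 := contDiffOn_quo_star hU' hS' (hf.mono hUU) hv'
    refine h2.contDiffAt (hU'.mem_nhds ⟨?_, hb0⟩)
    rw [h0]
    exact Metric.mem_ball_self hr
  · have h1 : ContDiffAt ℝ ∞ (fun q : ℂ × E => f q * (q.1)⁻¹) p := by
      refine (hf.contDiffAt (hU.mem_nhds hp)).mul ?_
      exact contDiffAt_fst.inv h0
    refine h1.congr_of_eventuallyEq ?_
    have h2 : ∀ᶠ q : ℂ × E in 𝓝 p, q.1 ≠ 0 :=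
      (continuous_fst.tendsto p).eventually_ne h0
    filter_upwards [h2] with q hq
    unfold quo
    rw [if_neg hq, div_eq_mul_inv]

/-- **smooth division**: NA2 of doc 1022 -/
theorem exists_div {U : Set (ℂ × E)} (hU : IsOpen U) {f : ℂ × E → ℂ}
    (hf : ContDiffOn ℝ ∞ f U) (hv : Van U f) :
    ∃ c : ℂ × E → ℂ, ContDiffOn ℝ ∞ c U ∧ ∀ p ∈ U, f p = p.1 * c p := by
  refine ⟨quo f, contDiffOn_quo hU hf hv, fun p hp => quo_mul fun h0 => ?_⟩
  have h1 : p = (0, p.2) := by rw [← h0]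
  have := hv 0 p.2 (by rw [← h1]; exact hp)
  rw [h1]
  simpa using this

theorem dbar_fst_mul {V : Set (ℂ × E)} (hV : IsOpen V) {u : ℂ × E → ℂ}
    (hu : ContDiffOn ℝ ∞ u V) : EqOn (dbar fun p => p.1 * u p) (fun p => p.1 * dbar u p) V := by
  intro p hp
  have hud : DifferentiableAt ℝ u p :=
    (hu.contDiffAt (hV.mem_nhds hp)).differentiableAt (by simp)
  have h1 : HasFDerivAt (fun q : ℂ × E => q.1 * u q)
      (p.1 • fderiv ℝ u p + u p • ContinuousLinearMap.fst ℝ ℂ E) p :=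
    (ContinuousLinearMap.fst ℝ ℂ E).hasFDerivAt.mul hud.hasFDerivAt
  unfold dbar
  rw [h1.fderiv]
  simp only [add_apply, smul_apply, smul_eq_mul,
    ContinuousLinearMap.coe_fst']
  have h2 := Complex.I_mul_I
  linear_combination (1 / 2 * u p) * h2

theorem dbar_iter_fst_mul {V : Set (ℂ × E)} (hV : IsOpen V) {u : ℂ × E → ℂ}
    (hu : ContDiffOn ℝ ∞ u V) (k : ℕ) :
    EqOn (dbar^[k] fun p => p.1 * u p) (fun p => p.1 * (dbar^[k] u) p) V := by
  induction k with
  | zero => intro p _; rfl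
  | succ k ih =>
    rw [Function.iterate_succ_apply', Function.iterate_succ_apply']
    exact (dbar_congr hV ih).trans (dbar_fst_mul hV (contDiffOn_dbar_iter hV hu k))

/-- if `z g = h f` and `h ≠ 0` on a dense subset of `{z = 0}` then `z ∣ f` -/
theorem van_of_mul_eq {U : Set (ℂ × E)} (hU : IsOpen U) {f g h : ℂ × E → ℂ}
    (hf : ContDiffOn ℝ ∞ f U) (hg : ContDiffOn ℝ ∞ g U) (hh : ContDiffOn ℝ ∞ h U)
    (heq : ∀ p ∈ U, p.1 * g p = h p * f p)
    (hd : ∀ e : E, ((0 : ℂ), e) ∈ U → e ∈ closure {e' : E | ((0 : ℂ), e') ∈ U ∧ h (0, e') ≠ 0}) :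
    Van U f := by
  -- the case `h ≠ 0`
  have key : ∀ (k : ℕ) (e : E), ((0 : ℂ), e) ∈ U → h (0, e) ≠ 0 → dbar^[k] f (0, e) = 0 := by
    intro k e he hne
    let V : Set (ℂ × E) := U ∩ {p | h p ≠ 0}
    have hV : IsOpen V := by
      have := hh.continuousOn.isOpen_inter_preimage hU (isOpen_ne (x := (0 : ℂ)))
      exact this
    have hVU : V ⊆ U := inter_subset_left
    have hu : ContDiffOn ℝ ∞ (fun p => g p * (h p)⁻¹) V :=
      (hg.mono hVU).mul ((hh.mono hVU).inv fun p hp => hp.2)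
    have h1 : EqOn f (fun p => p.1 * (g p * (h p)⁻¹)) V := by
      intro p hp
      have h2 := heq p hp.1
      have h3 : h p ≠ 0 := hp.2
      change f p = p.1 * (g p * (h p)⁻¹)
      rw [← mul_assoc, h2]
      field_simp
    have h2 := dbar_iter_congr hV h1 k (x := ((0 : ℂ), e)) ⟨he, hne⟩
    rw [h2, dbar_iter_fst_mul hV hu k ⟨he, hne⟩]
    simp
  intro k e he
  have hc : ContinuousOn (dbar^[k] f) U := (contDiffOn_dbar_iter hU hf k).continuousOn
  have hca : ContinuousAt (fun e' : E => dbar^[k] f ((0 : ℂ), e')) e := by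
    have h1 : ContinuousAt (dbar^[k] f) ((0 : ℂ), e) := hc.continuousAt (hU.mem_nhds he)
    have h2 : ContinuousAt (fun e' : E => ((0 : ℂ), e')) e := by fun_prop
    exact ContinuousAt.comp (f := fun e' : E => ((0 : ℂ), e')) h1 h2
  by_contra hne
  have h3 : ∀ᶠ e' in 𝓝 e, dbar^[k] f ((0 : ℂ), e') ≠ 0 := hca.eventually_ne hne
  obtain ⟨e', he', hne'⟩ := mem_closure_iff_nhds.1 (hd e he) _ h3
  exact he' (key k e' hne'.1 hne'.2)

theorem exists_div_of_mul_eq {U : Set (ℂ × E)} (hU : IsOpen U) {f g h : ℂ × E → ℂ}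
    (hf : ContDiffOn ℝ ∞ f U) (hg : ContDiffOn ℝ ∞ g U) (hh : ContDiffOn ℝ ∞ h U)
    (heq : ∀ p ∈ U, p.1 * g p = h p * f p)
    (hd : ∀ e : E, ((0 : ℂ), e) ∈ U → e ∈ closure {e' : E | ((0 : ℂ), e') ∈ U ∧ h (0, e') ≠ 0}) :
    ∃ c : ℂ × E → ℂ, ContDiffOn ℝ ∞ c U ∧ ∀ p ∈ U, f p = p.1 * c p :=
  exists_div hU hf (van_of_mul_eq hU hf hg hh heq hd)

/-- two complex coordinates: `z₁ g = z₂ ^ m f` implies `z₁ ∣ f` -/
theorem exists_div_pow {E' : Type} [NormedAddCommGroup E'] [NormedSpace ℝ E']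
    {U : Set (ℂ × (ℂ × E'))} (hU : IsOpen U) {f g : ℂ × (ℂ × E') → ℂ}
    (hf : ContDiffOn ℝ ∞ f U) (hg : ContDiffOn ℝ ∞ g U) (m : ℕ)
    (heq : ∀ p ∈ U, p.1 * g p = p.2.1 ^ m * f p) :
    ∃ c : ℂ × (ℂ × E') → ℂ, ContDiffOn ℝ ∞ c U ∧ ∀ p ∈ U, f p = p.1 * c p := by
  refine exists_div_of_mul_eq hU hf hg (h := fun p => p.2.1 ^ m) ?_ heq ?_
  · exact (ContDiff.pow (contDiff_fst.comp contDiff_snd) m).contDiffOn
  · intro e he
    rw [mem_closure_iff_nhds]
    intro T hT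
    have h1 : Continuous fun t : ℝ => (e.1 + t, e.2) := by fun_prop
    have h2 : Tendsto (fun t : ℝ => (e.1 + (t : ℂ), e.2)) (𝓝 0) (𝓝 e) := by
      have := h1.tendsto 0
      simpa using this
    have h3 : ∀ᶠ t : ℝ in 𝓝 0, (e.1 + (t : ℂ), e.2) ∈ T := h2 hT
    have h4 : ∀ᶠ t : ℝ in 𝓝 0, ((0 : ℂ), (e.1 + (t : ℂ), e.2)) ∈ U := by
      have h5 : Continuous fun q : ℂ × E' => ((0 : ℂ), q) := by fun_prop
      exact h2 ((hU.preimage h5).mem_nhds he)
    have h5 : ∃ᶠ t : ℝ in 𝓝[≠] 0, True := by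
      rw [frequently_true_iff_neBot]; infer_instance
    have h6 : ∀ᶠ t : ℝ in 𝓝[≠] 0, e.1 + (t : ℂ) ≠ 0 := by
      by_cases h0 : e.1 = 0
      · filter_upwards [self_mem_nhdsWithin] with t ht
        rw [h0, zero_add]
        exact_mod_cast ht
      · have h7 : Continuous fun t : ℝ => e.1 + (t : ℂ) := by fun_prop
        have h8 : ∀ᶠ t : ℝ in 𝓝 0, e.1 + (t : ℂ) ≠ 0 := by
          refine (h7.tendsto 0).eventually_ne ?_
          simpa using h0
        exact h8.filter_mono nhdsWithin_le_nhds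
    obtain ⟨t, _, ht1, ht2, ht3⟩ := (h5.and_eventually (h6.and
      ((h3.filter_mono nhdsWithin_le_nhds).and (h4.filter_mono nhdsWithin_le_nhds)))).exists
    exact ⟨(e.1 + (t : ℂ), e.2), ht2, ht3, pow_ne_zero _ ht1⟩

end

end Crest.Agent.R275.Div940
end

-- ▼ part R275/Dg4_199

/-!
# R275, leaf NA3g, part 4 (helper199): adapted charts

`Adapted r A` : a closed set `D` of the complex manifold `(M, A)` which in some charts of `A` is
`{w₁ = w₂ = 0}`, `(w₁, (w₂, y)) = T (z - c)` affine coordinates on `Cn n ≃ ℂ × (ℂ × Cn r)`.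

`Adapted.reg : RegData A`.
-/

set_option autoImplicit false
set_option linter.unusedSectionVars false

open Set Filter Topology Complex
open scoped ContDiff Matrix ComplexConjugate
open Crest.Agent.R275.Geo Crest.Agent.R275.Smf798

namespace Crest.Agent.R275.Dg199

noncomputable section

/-! ### holomorphic functions vanishing on `{w₁ = w₂ = 0}` -/

section hadamard

open Div940

theorem dbar_holo {E : Type} [NormedAddCommGroup E] [NormedSpace ℂ E] {g : ℂ × E → ℂ} {p : ℂ × E}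
    (hg : DifferentiableAt ℂ g p) : dbar g p = 0 := by
  have h1 : fderiv ℝ g p = (fderiv ℂ g p).restrictScalars ℝ := by
    rw [hg.fderiv_restrictScalars ℝ]
  have h2 : fderiv ℝ g p (Complex.I, 0) = Complex.I * fderiv ℝ g p (1, 0) := by
    rw [h1]
    show fderiv ℂ g p (Complex.I, 0) = Complex.I * fderiv ℂ g p (1, 0)
    have h3 : ((Complex.I, 0) : ℂ × E) = Complex.I • ((1, 0) : ℂ × E) := by
      ext <;> simp
    rw [h3, map_smul, smul_eq_mul]
  unfold dbar
  rw [h2, ← mul_assoc, Complex.I_mul_I]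
  ring


theorem iter_dbar_of_zero {E : Type} [NormedAddCommGroup E] [NormedSpace ℝ E] {U : Set (ℂ × E)}
    (hU : IsOpen U) {g : ℂ × E → ℂ} (hg : ∀ p ∈ U, dbar g p = 0) (k : ℕ) :
    ∀ p ∈ U, (dbar^[k + 1] g) p = 0 := by
  induction k with
  | zero => exact hg
  | succ k ih =>
    intro p hp
    rw [Function.iterate_succ_apply']
    have h1 : EqOn (dbar^[k + 1] g) (fun _ => 0) U := fun q hq => ih q hq
    rw [dbar_congr hU h1 hp]
    unfold dbar
    simp

/-- one variable division of a function vanishing at `z = 0` and holomorphic in `z` -/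
theorem exists_div_holo {E : Type} [NormedAddCommGroup E] [NormedSpace ℝ E] {U : Set (ℂ × E)}
    (hU : IsOpen U) {g : ℂ × E → ℂ} (hs : ContDiffOn ℝ ∞ g U) (hg : ∀ p ∈ U, dbar g p = 0)
    (h0 : ∀ e, ((0 : ℂ), e) ∈ U → g (0, e) = 0) :
    ∃ c : ℂ × E → ℂ, ContDiffOn ℝ ∞ c U ∧ ∀ p ∈ U, g p = p.1 * c p := by
  refine exists_div hU hs fun k e he => ?_
  rcases k with _ | k
  · exact h0 e he
  · exact iter_dbar_of_zero hU hg k _ he

variable {r : ℕ}

/-- a holomorphic function near `(0,0,y)` vanishing on `{w₁ = w₂ = 0}` is in `(w₁, w₂)` -/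
theorem exists_div_two {O : Set (ℂ × (ℂ × Cn r))} (hO : IsOpen O) {H : ℂ × (ℂ × Cn r) → ℂ}
    (hH : DifferentiableOn ℂ H O) (h0 : ∀ y : Cn r, ((0 : ℂ), ((0 : ℂ), y)) ∈ O →
      H (0, (0, y)) = 0) {w : ℂ × (ℂ × Cn r)} (hw : w ∈ O) (hw1 : w.1 = 0) (hw2 : w.2.1 = 0) :
    ∃ c d : ℂ × (ℂ × Cn r) → ℂ, ∃ U : Set (ℂ × (ℂ × Cn r)), IsOpen U ∧ w ∈ U ∧
      ContDiffOn ℝ ∞ c U ∧ ContDiffOn ℝ ∞ d U ∧ ∀ p ∈ U, H p = p.1 * c p + p.2.1 * d p := by
  obtain ⟨w1, w2, y⟩ := w
  simp only at hw1 hw2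
  subst hw1; subst hw2
  obtain ⟨ε, hε, hball⟩ := Metric.isOpen_iff.1 hO _ hw
  have hsub : Metric.ball (0 : ℂ) ε ×ˢ (Metric.ball (0 : ℂ) ε ×ˢ Metric.ball y ε) ⊆ O := by
    rw [ball_prod_same, ball_prod_same]
    exact hball
  set U1 : Set (ℂ × Cn r) := Metric.ball (0 : ℂ) ε ×ˢ Metric.ball y ε with hU1
  set U : Set (ℂ × (ℂ × Cn r)) := Metric.ball (0 : ℂ) ε ×ˢ U1 with hUdef
  have hU1o : IsOpen U1 := Metric.isOpen_ball.prod Metric.isOpen_ball
  have hUo : IsOpen U := Metric.isOpen_ball.prod hU1o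
  have hHs : ContDiffOn ℝ ∞ H O := by
    have h1 := R266.SCV.analyticOnNhd_of_differentiableOn hO hH
    have : ContDiffOn ℂ ∞ H O := fun x hx => (h1 x hx).contDiffAt.contDiffWithinAt
    exact this.restrict_scalars ℝ
  have hin : ∀ v ∈ U1, ((0 : ℂ), v) ∈ U := fun v hv => ⟨Metric.mem_ball_self hε, hv⟩
  -- the slice
  let G : ℂ × Cn r → ℂ := fun v => H (0, v)
  have hGs : ContDiffOn ℝ ∞ G U1 := by
    refine hHs.comp (t := O) (g := H) (f := fun v : ℂ × Cn r => ((0 : ℂ), v)) ?_ ?_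
    · exact (contDiff_const.prodMk contDiff_id).contDiffOn
    · intro v hv; exact hsub (hin v hv)
  have hGd : ∀ p ∈ U1, DifferentiableAt ℂ G p := by
    intro p hp
    have h1 : DifferentiableAt ℂ H (0, p) := hH.differentiableAt (hO.mem_nhds (hsub (hin p hp)))
    exact DifferentiableAt.comp (g := H) p h1
      ((differentiableAt_const (0 : ℂ)).prodMk differentiableAt_id)
  obtain ⟨d, hd1, hd2⟩ := exists_div_holo (E := Cn r) hU1o hGs
    (fun p hp => dbar_holo (hGd p hp)) (fun e he => h0 e (hsub (hin _ he)))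
  -- the difference
  have hFs : ContDiffOn ℝ ∞ (fun p : ℂ × (ℂ × Cn r) => H p - G p.2) U := by
    refine (hHs.mono hsub).sub ?_
    exact hGs.comp contDiff_snd.contDiffOn fun p hp => hp.2
  obtain ⟨c, hc1, hc2⟩ := exists_div_holo (E := ℂ × Cn r) hUo hFs (fun p hp => by
    have h1 : DifferentiableAt ℂ H p := hH.differentiableAt (hO.mem_nhds (hsub hp))
    have h2 : DifferentiableAt ℂ (fun p : ℂ × (ℂ × Cn r) => H p - G p.2) p :=
      h1.sub (DifferentiableAt.comp (g := G) p (hGd p.2 hp.2) differentiableAt_snd)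
    exact dbar_holo h2) (fun e _ => by simp [G])
  refine ⟨c, fun p => d p.2, U, hUo, ⟨Metric.mem_ball_self hε, Metric.mem_ball_self hε,
    Metric.mem_ball_self hε⟩, hc1, ?_, ?_⟩
  · exact hd1.comp contDiff_snd.contDiffOn fun p hp => hp.2
  · intro p hp
    have e1 := hc2 p hp
    have e2 := hd2 p.2 hp.2
    have e3 : H p = (H p - G p.2) + G p.2 := by ring
    rw [e3, e1, e2]

end hadamard

variable {n r : ℕ} {M : Type} [TopologicalSpace M]

/-- a closed set which is `{w₁ = w₂ = 0}` in affine coordinates of suitable charts of `A` -/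
structure Adapted (r : ℕ) (A : Atl n M) where
  D : Set M
  closed : IsClosed D
  K : Type
  ix : K → A.ι
  T : K → (Cn n ≃L[ℂ] ℂ × (ℂ × Cn r))
  c : K → Cn n
  cover : ∀ p ∈ D, ∃ k, p ∈ (A.e (ix k)).source
  eq : ∀ k, ∀ q ∈ (A.e (ix k)).source, (q ∈ D ↔
    (T k (A.e (ix k) q - c k)).1 = 0 ∧ (T k (A.e (ix k) q - c k)).2.1 = 0)

namespace Adapted

variable {A : Atl n M} (S : Adapted r A)

/-- adapted coordinates -/
def Φ (k : S.K) (q : M) : ℂ × (ℂ × Cn r) := S.T k (A.e (S.ix k) q - S.c k)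

/-- inverse of the adapted coordinates -/
def Ψ (k : S.K) (w : ℂ × (ℂ × Cn r)) : M := (A.e (S.ix k)).symm ((S.T k).symm w + S.c k)

/-- the image of the adapted coordinates -/
def Tg (k : S.K) : Set (ℂ × (ℂ × Cn r)) := {w | (S.T k).symm w + S.c k ∈ (A.e (S.ix k)).target}

theorem isOpen_Tg (k : S.K) : IsOpen (S.Tg k) :=
  (A.e (S.ix k)).open_target.preimage ((S.T k).symm.continuous.add continuous_const)

theorem Ψ_mem {k : S.K} {w : ℂ × (ℂ × Cn r)} (hw : w ∈ S.Tg k) :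
    S.Ψ k w ∈ (A.e (S.ix k)).source := (A.e (S.ix k)).map_target hw

theorem Φ_mem {k : S.K} {q : M} (hq : q ∈ (A.e (S.ix k)).source) : S.Φ k q ∈ S.Tg k := by
  show (S.T k).symm (S.T k (A.e (S.ix k) q - S.c k)) + S.c k ∈ (A.e (S.ix k)).target
  rw [ContinuousLinearEquiv.symm_apply_apply, sub_add_cancel]
  exact (A.e (S.ix k)).map_source hq

theorem Φ_Ψ {k : S.K} {w : ℂ × (ℂ × Cn r)} (hw : w ∈ S.Tg k) : S.Φ k (S.Ψ k w) = w := by
  unfold Φ Ψ
  rw [(A.e (S.ix k)).right_inv hw, add_sub_cancel_right, ContinuousLinearEquiv.apply_symm_apply]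

theorem Ψ_Φ {k : S.K} {q : M} (hq : q ∈ (A.e (S.ix k)).source) : S.Ψ k (S.Φ k q) = q := by
  unfold Φ Ψ
  rw [ContinuousLinearEquiv.symm_apply_apply, sub_add_cancel, (A.e (S.ix k)).left_inv hq]


theorem continuousAt_Φ {k : S.K} {q : M} (hq : q ∈ (A.e (S.ix k)).source) :
    ContinuousAt (S.Φ k) q := by
  have h1 : ContinuousAt (fun q => A.e (S.ix k) q - S.c k) q :=
    ((A.e (S.ix k)).continuousAt hq).sub continuousAt_const
  exact ContinuousAt.comp (g := S.T k) (S.T k).continuous.continuousAt h1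

theorem continuousAt_Ψ {k : S.K} {w : ℂ × (ℂ × Cn r)} (hw : w ∈ S.Tg k) :
    ContinuousAt (S.Ψ k) w := by
  have h1 : ContinuousAt (fun w => (S.T k).symm w + S.c k) w :=
    ((S.T k).symm.continuous.add continuous_const).continuousAt
  exact ContinuousAt.comp (g := (A.e (S.ix k)).symm) ((A.e (S.ix k)).continuousAt_symm hw) h1

/-- smoothness of a function written in adapted coordinates -/
theorem smN_comp {k : S.K} {q : M} (hq : q ∈ (A.e (S.ix k)).source) {G : ℂ × (ℂ × Cn r) → ℂ}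
    (hG : ContDiffAt ℝ ∞ G (S.Φ k q)) : SmN A (fun x => G (S.Φ k x)) q := by
  refine ⟨S.ix k, hq, ?_⟩
  let L : Cn n →L[ℝ] (ℂ × (ℂ × Cn r)) :=
    ((S.T k : Cn n →L[ℂ] (ℂ × (ℂ × Cn r)))).restrictScalars ℝ
  have h2 : ContDiff ℝ ∞ fun z : Cn n => L (z - S.c k) :=
    L.contDiff.comp (contDiff_id.sub contDiff_const)
  have h1 : ContDiffAt ℝ ∞ (fun z : Cn n => S.T k (z - S.c k)) (A.e (S.ix k) q) :=
    h2.contDiffAt
  have h3 : ContDiffAt ℝ ∞ (G ∘ fun z : Cn n => S.T k (z - S.c k)) (A.e (S.ix k) q) :=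
    ContDiffAt.comp _ hG h1
  refine h3.congr_of_eventuallyEq ?_
  filter_upwards [(A.e (S.ix k)).open_target.mem_nhds ((A.e (S.ix k)).map_source hq)] with z hz
  show G (S.T k (A.e (S.ix k) ((A.e (S.ix k)).symm z) - S.c k)) = G (S.T k (z - S.c k))
  rw [(A.e (S.ix k)).right_inv hz]

theorem contDiffAt_Ψ {k : S.K} {w : ℂ × (ℂ × Cn r)} (hw : w ∈ S.Tg k) {f : M → ℂ}
    (hf : SmN A f (S.Ψ k w)) : ContDiffAt ℝ ∞ (fun w => f (S.Ψ k w)) w := by
  have h1 := (smN_iff (S.Ψ_mem hw)).1 hf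
  have h2 : A.e (S.ix k) (S.Ψ k w) = (S.T k).symm w + S.c k := (A.e (S.ix k)).right_inv hw
  rw [h2] at h1
  let L : (ℂ × (ℂ × Cn r)) →L[ℝ] Cn n :=
    (((S.T k).symm : (ℂ × (ℂ × Cn r)) →L[ℂ] Cn n)).restrictScalars ℝ
  have h4 : ContDiff ℝ ∞ fun w : ℂ × (ℂ × Cn r) => L w + S.c k :=
    L.contDiff.add contDiff_const
  have h3 : ContDiffAt ℝ ∞ (fun w : ℂ × (ℂ × Cn r) => (S.T k).symm w + S.c k) w :=
    h4.contDiffAt
  exact ContDiffAt.comp (g := fun z => f ((A.e (S.ix k)).symm z)) w h1 h3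

/-- the local equations -/
def uu (k : S.K) (a : Fin 2) (q : M) : ℂ := if a = 0 then (S.Φ k q).1 else (S.Φ k q).2.1

@[simp] theorem uu_zero (k : S.K) (q : M) : S.uu k 0 q = (S.Φ k q).1 := rfl
@[simp] theorem uu_one (k : S.K) (q : M) : S.uu k 1 q = (S.Φ k q).2.1 := rfl

theorem uu_sm (k : S.K) (a : Fin 2) {q : M} (hq : q ∈ (A.e (S.ix k)).source) :
    SmN A (S.uu k a) q := by
  fin_cases a
  · exact S.smN_comp hq (G := fun w => w.1) contDiffAt_fst
  · exact S.smN_comp hq (G := fun w => w.2.1) (contDiffAt_fst.comp _ contDiffAt_snd)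

theorem uu_holo (k l : S.K) (a : Fin 2) {w : ℂ × (ℂ × Cn r)} (hw : w ∈ S.Tg l)
    (hk : S.Ψ l w ∈ (A.e (S.ix k)).source) :
    DifferentiableAt ℂ (fun w => S.uu k a (S.Ψ l w)) w := by
  have h1 : DifferentiableAt ℂ (fun z => A.e (S.ix k) ((A.e (S.ix l)).symm z))
      ((S.T l).symm w + S.c l) :=
    (A.holo (S.ix l) (S.ix k)).differentiableAt ((isOpen_ov _ _).mem_nhds ⟨hw, hk⟩)
  have h2 : DifferentiableAt ℂ (fun w => A.e (S.ix k) (S.Ψ l w)) w :=
    DifferentiableAt.comp (g := fun z => A.e (S.ix k) ((A.e (S.ix l)).symm z)) w h1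
      ((S.T l).symm.differentiableAt.add_const _)
  have h3 : DifferentiableAt ℂ (fun w => S.Φ k (S.Ψ l w)) w :=
    DifferentiableAt.comp (g := S.T k) w (S.T k).differentiableAt (h2.sub_const _)
  fin_cases a
  · exact h3.fst
  · exact h3.snd.fst

theorem dense_aux (k : S.K) {q : M} (hq : q ∈ (A.e (S.ix k)).source) :
    ∃ᶠ x in 𝓝 q, (S.Φ k x).1 ≠ 0 := by
  intro hcon
  simp only [not_not] at hcon
  have hmem := S.Φ_mem hq
  have h1 : ∀ᶠ w in 𝓝 (S.Φ k q), (S.Φ k (S.Ψ k w)).1 = 0 := by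
    have h2 := S.continuousAt_Ψ hmem
    rw [ContinuousAt, S.Ψ_Φ hq] at h2
    exact h2.eventually hcon
  have h2 : ∀ᶠ w in 𝓝 (S.Φ k q), w.1 = 0 := by
    filter_upwards [h1, (S.isOpen_Tg k).mem_nhds hmem] with w hw1 hw2
    rwa [S.Φ_Ψ hw2] at hw1
  have h3 : Tendsto (fun t : ℝ => S.Φ k q + (t : ℂ) • ((1 : ℂ), ((0 : ℂ), (0 : Cn r)))) (𝓝 0)
      (𝓝 (S.Φ k q)) := by
    have hc : Continuous (fun t : ℝ => S.Φ k q + (t : ℂ) • ((1 : ℂ), ((0 : ℂ), (0 : Cn r)))) := by
      fun_prop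
    have := hc.tendsto 0
    simpa using this
  have h4 := h3.eventually h2
  have h5 : (S.Φ k q).1 = 0 := h2.self_of_nhds
  have h6 : ∀ᶠ t : ℝ in 𝓝 0, t = 0 := by
    filter_upwards [h4] with t ht
    simpa [h5] using ht
  obtain ⟨ε, hε, hb⟩ := Metric.eventually_nhds_iff.1 h6
  have := hb (y := ε / 2) (by rw [Real.dist_eq, sub_zero, abs_of_pos (by positivity)]; linarith)
  linarith

theorem div_aux (k : S.K) (U : Set M) (hU : IsOpen U) (hUs : U ⊆ (A.e (S.ix k)).source)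
    (f g : M → ℂ) (hf : ∀ q ∈ U, SmN A f q) (hg : ∀ q ∈ U, SmN A g q)
    (h : ∀ q ∈ U, S.uu k 0 q * g q = S.uu k 1 q * f q) :
    ∃ c : M → ℂ, (∀ q ∈ U, SmN A c q) ∧ ∀ q ∈ U, f q = S.uu k 0 q * c q := by
  let O : Set (ℂ × (ℂ × Cn r)) := {w | w ∈ S.Tg k ∧ S.Ψ k w ∈ U}
  have hO : IsOpen O := by
    rw [isOpen_iff_mem_nhds]
    rintro w ⟨hw1, hw2⟩
    filter_upwards [(S.isOpen_Tg k).mem_nhds hw1, (S.continuousAt_Ψ hw1).eventually
      (hU.mem_nhds hw2)] with v h1 h2 using ⟨h1, h2⟩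
  obtain ⟨c, hc1, hc2⟩ := Div940.exists_div_pow (E' := Cn r) hO
    (f := fun w => f (S.Ψ k w)) (g := fun w => g (S.Ψ k w))
    (fun w hw => (S.contDiffAt_Ψ hw.1 (hf _ hw.2)).contDiffWithinAt)
    (fun w hw => (S.contDiffAt_Ψ hw.1 (hg _ hw.2)).contDiffWithinAt) 1
    (fun w hw => by
      have := h _ hw.2
      rw [uu_zero, uu_one, S.Φ_Ψ hw.1] at this
      rw [pow_one]
      exact this)
  have hΦ : ∀ q ∈ U, S.Φ k q ∈ O := fun q hq => ⟨S.Φ_mem (hUs hq), by
    rw [S.Ψ_Φ (hUs hq)]; exact hq⟩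
  refine ⟨fun q => c (S.Φ k q), fun q hq => ?_, fun q hq => ?_⟩
  · exact S.smN_comp (hUs hq) (hc1.contDiffAt (hO.mem_nhds (hΦ q hq)))
  · have := hc2 _ (hΦ q hq)
    simp only [S.Ψ_Φ (hUs hq)] at this
    exact this

/-- functions holomorphic in an adapted chart and vanishing on `D` are locally in the ideal -/
theorem lspan_of_holo (l : S.K) {q : M} (hq : q ∈ S.D) (hl : q ∈ (A.e (S.ix l)).source)
    {H : M → ℂ} (hH : ∀ᶠ w in 𝓝 (S.Φ l q), DifferentiableAt ℂ (fun w => H (S.Ψ l w)) w)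
    (h0 : ∀ᶠ x in 𝓝 q, x ∈ S.D → H x = 0) : LSpan A (S.uu l) H q := by
  have hmem := S.Φ_mem hl
  have h1 : ∀ᶠ w in 𝓝 (S.Φ l q), w ∈ S.Tg l ∧ DifferentiableAt ℂ (fun w => H (S.Ψ l w)) w ∧
      (S.Ψ l w ∈ S.D → H (S.Ψ l w) = 0) := by
    have h2 := S.continuousAt_Ψ hmem
    rw [ContinuousAt, S.Ψ_Φ hl] at h2
    filter_upwards [(S.isOpen_Tg l).mem_nhds hmem, hH, h2.eventually h0] with w a b c
      using ⟨a, b, c⟩
  obtain ⟨O, hO1, hO2, hO3⟩ := _root_.eventually_nhds_iff.1 h1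
  obtain ⟨c, d, U, hU1, hU2, hU3, hU4, hU5⟩ := exists_div_two hO2
    (H := fun w => H (S.Ψ l w)) (fun w hw => (hO1 w hw).2.1.differentiableWithinAt)
    (fun y hy => by
      refine (hO1 _ hy).2.2 ?_
      rw [S.eq l _ (S.Ψ_mem (hO1 _ hy).1)]
      have := S.Φ_Ψ (hO1 _ hy).1
      unfold Φ at this
      rw [this]
      exact ⟨rfl, rfl⟩) hO3 ((S.eq l q hl).1 hq).1 ((S.eq l q hl).1 hq).2
  have h3 : ∀ᶠ x in 𝓝 q, S.Φ l x ∈ U := (S.continuousAt_Φ hl).eventually (hU1.mem_nhds hU2)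
  refine ⟨fun a x => if a = 0 then c (S.Φ l x) else d (S.Φ l x), fun a => ?_, ?_⟩
  · filter_upwards [h3, (A.e (S.ix l)).open_source.mem_nhds hl] with x hx1 hx2
    fin_cases a
    · exact S.smN_comp hx2 (hU3.contDiffAt (hU1.mem_nhds hx1))
    · exact S.smN_comp hx2 (hU4.contDiffAt (hU1.mem_nhds hx1))
  · filter_upwards [h3, (A.e (S.ix l)).open_source.mem_nhds hl] with x hx1 hx2
    have := hU5 _ hx1
    simp only [S.Ψ_Φ hx2] at this
    rw [this, Fin.sum_univ_two]
    simp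

/-- the regular data of an adapted set -/
def reg : RegData A where
  D := S.D
  closed := S.closed
  K := S.K
  V := fun k => (A.e (S.ix k)).source
  V_open := fun k => (A.e (S.ix k)).open_source
  cover := S.cover
  u := S.uu
  sm := fun k a _ hq => S.uu_sm k a hq
  zero_iff := fun k q hq => by
    rw [S.eq k q hq, Fin.forall_fin_two]
    rfl
  dense := fun k _ hq => S.dense_aux k hq
  div := fun k U hU hUs f g hf hg h => S.div_aux k U hU hUs f g hf hg h
  compat := fun k l q hq hk hl a => by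
    have hmem := S.Φ_mem hl
    have h2 := S.continuousAt_Ψ hmem
    rw [ContinuousAt, S.Ψ_Φ hl] at h2
    refine S.lspan_of_holo l hq hl ?_ ?_
    · filter_upwards [(S.isOpen_Tg l).mem_nhds hmem, h2.eventually
        ((A.e (S.ix k)).open_source.mem_nhds hk)] with w hw1 hw2 using S.uu_holo k l a hw1 hw2
    · filter_upwards [(A.e (S.ix k)).open_source.mem_nhds hk] with x hx hD
      have := (S.eq k x hx).1 hD
      fin_cases a
      · exact this.1
      · exact this.2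


end Adapted

end

end Crest.Agent.R275.Dg199
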