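import Crest.Agent.R275.Sec4_95
import Crest.Agent.R275.Dv4_69
import Crest.Agent.R275.Loc3_572
import Crest.Agent.R275.BR4b_672

-- ▼ part R275/Sec4Geo_95
section

namespace Crest.Agent.R275.Sec495

/-- The geometric input of section 4.  -/
structure Geo495 (B C : Type*) [DecidableEq B] where
  /-- deck transformation on indices -/
  g : Equiv.Perm B
  lev : B → ℤ
  lev_g : ∀ β, lev (g β) = lev β + 1
  fin : ∀ n, {β | lev β = n}.Finite
  /-- deck transformation on curves -/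
  σ : Equiv.Perm C
  /-- the class of a curve in the orthonormal basis `e_β` -/
  x : C → B →₀ ℤ
  x_g : ∀ c β, x (σ c) (g β) = x c β
  /-- `q(-[c]) = -1` (genus formula, `h⁰(O_c) = 1`, `h¹(O_c) = 0`) -/
  x_q : ∀ c, ∑ β ∈ (x c).support, x c β * (x c β + 1) = 2
  /-- `-[c]` is not a sum of unit vectors (`V_{-[c]} = 0`) -/
  x_pos : ∀ c, ∃ β, 0 < x c β
  /-- minimality: `K · c ≥ 0` -/
  x_K : ∀ c, ∑ β ∈ (x c).support, x c β ≤ 0
  /-- `c · c' ≥ 0` for `c ≠ c'` -/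
  x_inter : ∀ c c', c ≠ c' → ∑ β ∈ (x c).support, x c β * x c' β ≤ 0
  /-- multiplicity of `c` in `D_β` -/
  mult : B → C → ℕ
  mult_g : ∀ β c, mult (g β) (σ c) = mult β c
  /-- `D_β · e_β = -1`: some component of `D_β` has positive coefficient at `β` -/
  exists_pos : ∀ β, ∃ c, mult β c ≠ 0 ∧ 0 < x c β
  /-- `V_{e_β}` is one-dimensional: if `e_β = [c] + ∑ e_j` then `D_β = c + ∑ D_j` -/
  unique : ∀ β c (J : Finset B), x c = Finsupp.single β 1 - ∑ j ∈ J, Finsupp.single j 1 →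
    ∀ c', mult β c' = (open Classical in if c = c' then 1 else 0) + ∑ j ∈ J, mult j c'
  L : ℤ
  /-- `D_β` is bounded towards the large end and curves have bounded size -/
  bdd : ∀ β c γ, mult β c ≠ 0 → x c γ ≠ 0 → lev β - L ≤ lev γ
  /-- Lemma D, far-apart case -/
  far : ∀ β δ, lev β + L ≤ lev δ → ∀ c, mult δ c ≤ mult β c

namespace Geo495

variable {B C : Type*} [DecidableEq B] (S : Geo495 B C)

lemma term_nonneg (n : ℤ) : 0 ≤ n * (n + 1) := by
  rcases le_or_gt 0 n with h | h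
  · positivity
  · nlinarith [mul_nonneg (by omega : 0 ≤ -n) (by omega : 0 ≤ -(n + 1))]

/-- there is a unique index with `x c β > 0`, and there `x c β = 1`; all other coefficients are
`0` or `-1`. -/
lemma exists_index (c : C) : ∃ β, S.x c β = 1 ∧ ∀ γ, γ ≠ β → S.x c γ = 0 ∨ S.x c γ = -1 := by
  obtain ⟨β, hβ⟩ := S.x_pos c
  have hs : β ∈ (S.x c).support := by rw [Finsupp.mem_support_iff]; omega
  have h := S.x_q c
  rw [← Finset.add_sum_erase _ _ hs] at h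
  have h1 : 2 ≤ S.x c β * (S.x c β + 1) := by nlinarith
  have h2 : 0 ≤ ∑ γ ∈ (S.x c).support.erase β, S.x c γ * (S.x c γ + 1) :=
    Finset.sum_nonneg (fun γ _ => term_nonneg _)
  refine ⟨β, by nlinarith, fun γ hγ => ?_⟩
  by_cases hγs : γ ∈ (S.x c).support
  · have h3 := Finset.single_le_sum (f := fun γ => S.x c γ * (S.x c γ + 1))
      (fun γ _ => term_nonneg _) (Finset.mem_erase.2 ⟨hγ, hγs⟩)
    have h4 := term_nonneg (S.x c γ)
    have h5 : S.x c γ * (S.x c γ + 1) = 0 := by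
      omega
    rcases mul_eq_zero.1 h5 with h6 | h6
    · exact Or.inl h6
    · exact Or.inr (by omega)
  · left
    exact Finsupp.notMem_support_iff.1 hγs

/-- the index of a curve -/
noncomputable def idx (c : C) : B := (S.exists_index c).choose

lemma x_idx (c : C) : S.x c (S.idx c) = 1 := (S.exists_index c).choose_spec.1

lemma x_ne_idx {c : C} {γ : B} (h : γ ≠ S.idx c) : S.x c γ = 0 ∨ S.x c γ = -1 :=
  (S.exists_index c).choose_spec.2 γ h

lemma eq_idx {c : C} {γ : B} (h : 0 < S.x c γ) : γ = S.idx c := by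
  by_contra hne
  rcases S.x_ne_idx hne with h1 | h1 <;> omega

/-- the set `J` of a curve -/
noncomputable def Jc (c : C) : Finset B := (S.x c).support.erase (S.idx c)

lemma mem_Jc {c : C} {γ : B} : γ ∈ S.Jc c ↔ S.x c γ = -1 := by
  unfold Jc
  rw [Finset.mem_erase, Finsupp.mem_support_iff]
  constructor
  · rintro ⟨h1, h2⟩
    exact (S.x_ne_idx h1).resolve_left h2
  · intro h
    refine ⟨?_, by omega⟩
    rintro rfl
    rw [S.x_idx] at h
    omega

lemma x_eq_zero {c : C} {γ : B} (h1 : γ ≠ S.idx c) (h2 : γ ∉ S.Jc c) : S.x c γ = 0 :=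
  (S.x_ne_idx h1).resolve_right (fun h => h2 (S.mem_Jc.2 h))

lemma idx_notMem (c : C) : S.idx c ∉ S.Jc c := by
  rw [S.mem_Jc, S.x_idx]; omega

lemma x_apply (c : C) (γ : B) : S.x c γ =
    (if S.idx c = γ then 1 else 0) - (if γ ∈ S.Jc c then 1 else 0) := by
  by_cases h1 : γ = S.idx c
  · subst h1
    rw [if_pos rfl, if_neg (S.idx_notMem c), S.x_idx, sub_zero]
  · rw [if_neg (Ne.symm h1)]
    by_cases h2 : γ ∈ S.Jc c
    · rw [if_pos h2, S.mem_Jc.1 h2]; rfl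
    · rw [if_neg h2, S.x_eq_zero h1 h2]; rfl

lemma x_eq (c : C) : S.x c = Finsupp.single (S.idx c) 1 - ∑ j ∈ S.Jc c, Finsupp.single j 1 := by
  ext γ
  rw [S.x_apply, Finsupp.sub_apply, Finsupp.finsetSum_apply, Finsupp.single_apply]
  congr 1
  simp only [Finsupp.single_apply]
  rw [Finset.sum_ite_eq']

lemma supp_eq (c : C) : (S.x c).support = insert (S.idx c) (S.Jc c) := by
  unfold Jc
  rw [Finset.insert_erase]
  rw [Finsupp.mem_support_iff, S.x_idx]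
  exact one_ne_zero

/-- intersection number in terms of `J` -/
lemma sum_mul (c c' : C) : ∑ β ∈ (S.x c).support, S.x c β * S.x c' β =
    S.x c' (S.idx c) - ∑ j ∈ S.Jc c, S.x c' j := by
  rw [S.supp_eq, Finset.sum_insert (S.idx_notMem c), S.x_idx, one_mul, sub_eq_add_neg,
    ← Finset.sum_neg_distrib]
  congr 1
  refine Finset.sum_congr rfl (fun j hj => ?_)
  rw [S.mem_Jc.1 hj]
  ring

lemma sum_Jc (c c' : C) : ∑ j ∈ S.Jc c, S.x c' j =
    (if S.idx c' ∈ S.Jc c then 1 else 0) - ((S.Jc c ∩ S.Jc c').card : ℤ) := by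
  simp only [S.x_apply c']
  rw [Finset.sum_sub_distrib]
  congr 1
  · rw [Finset.sum_ite_eq]
  · rw [Finset.card_eq_sum_ones, ← Finset.sum_ite_mem]
    push_cast
    rfl

lemma inter_J {c c' : C} (h : c ≠ c') : 0 ≤ -(if S.idx c' = S.idx c then (1 : ℤ) else 0) +
    (if S.idx c ∈ S.Jc c' then (1 : ℤ) else 0) + (if S.idx c' ∈ S.Jc c then 1 else 0) -
    ((S.Jc c ∩ S.Jc c').card : ℤ) := by
  have h1 := S.x_inter c c' h
  rw [S.sum_mul, S.sum_Jc, S.x_apply c'] at h1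
  linarith

lemma idx_injective : Function.Injective S.idx := by
  intro c c' h
  by_contra hne
  have h1 := S.inter_J hne
  have h2 : S.idx c ∉ S.Jc c' := by rw [h]; exact S.idx_notMem c'
  have h3 : S.idx c' ∉ S.Jc c := by rw [← h]; exact S.idx_notMem c
  rw [if_pos h.symm, if_neg h2, if_neg h3] at h1
  omega

lemma idx_surjective : Function.Surjective S.idx := by
  intro β
  obtain ⟨c, _, hc⟩ := S.exists_pos β
  exact ⟨c, (S.eq_idx hc).symm⟩

/-- the curves are numbered by the indices. -/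
noncomputable def idxEquiv : C ≃ B := Equiv.ofBijective S.idx ⟨S.idx_injective, S.idx_surjective⟩

/-- the curve `C_β` -/
noncomputable def cur (β : B) : C := S.idxEquiv.symm β

@[simp] lemma idx_cur (β : B) : S.idx (S.cur β) = β := S.idxEquiv.apply_symm_apply β

@[simp] lemma cur_idx (c : C) : S.cur (S.idx c) = c := S.idxEquiv.symm_apply_apply c

lemma cur_injective : Function.Injective S.cur := S.idxEquiv.symm.injective

lemma idx_g (c : C) : S.idx (S.σ c) = S.g (S.idx c) := by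
  symm
  apply S.eq_idx
  rw [S.x_g, S.x_idx]
  exact one_pos

lemma cur_g (β : B) : S.cur (S.g β) = S.σ (S.cur β) := by
  apply S.idx_injective
  rw [S.idx_cur, S.idx_g, S.idx_cur]

lemma Jc_g (c : C) : S.Jc (S.σ c) = (S.Jc c).image S.g := by
  ext γ
  rw [S.mem_Jc, Finset.mem_image]
  constructor
  · intro h
    refine ⟨S.g.symm γ, ?_, by simp⟩
    rw [S.mem_Jc, ← S.x_g, Equiv.apply_symm_apply]
    exact h
  · rintro ⟨γ, hγ, rfl⟩
    rw [S.x_g]
    exact S.mem_Jc.1 hγ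

lemma mult_self_pos (β : B) : S.mult β (S.cur β) ≠ 0 := by
  obtain ⟨c, h1, h2⟩ := S.exists_pos β
  have : S.cur β = c := by
    rw [S.eq_idx h2, S.cur_idx]
  rw [this]
  exact h1

/-- **From geometry to combinatorics.** -/
noncomputable def toData : Data495 B where
  g := S.g
  lev := S.lev
  lev_g := S.lev_g
  fin := S.fin
  J := fun β => S.Jc (S.cur β)
  J_ne := fun β => by
    have h := S.x_K (S.cur β)
    rw [S.supp_eq, Finset.sum_insert (S.idx_notMem _), S.x_idx] at h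
    by_contra hcon
    rw [Finset.not_nonempty_iff_eq_empty] at hcon
    rw [hcon, Finset.sum_empty] at h
    omega
  J_g := fun β => by
    show S.Jc (S.cur (S.g β)) = _
    rw [S.cur_g, S.Jc_g]
  m := fun β γ => S.mult β (S.cur γ)
  m_g := fun β γ => by rw [S.cur_g, S.mult_g]
  m_rec := fun β γ => by
    have h := S.unique β (S.cur β) (S.Jc (S.cur β)) (by
      have := S.x_eq (S.cur β)
      rwa [S.idx_cur] at this) (S.cur γ)
    rw [h]
    congr 1
    by_cases hβ : β = γ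
    · rw [if_pos hβ, if_pos (by rw [hβ])]
    · rw [if_neg hβ, if_neg (fun h => hβ (S.cur_injective h))]
  L := S.L
  m_lev := fun β γ h => by
    refine S.bdd β (S.cur γ) γ h ?_
    have := S.x_idx (S.cur γ)
    rw [S.idx_cur] at this
    rw [this]
    exact one_ne_zero
  far := fun β δ h => by
    have h1 := S.far β δ h (S.cur δ)
    have h2 := S.mult_self_pos δ
    omega
  inter := fun β γ h => by
    have h1 := S.inter_J (c := S.cur β) (c' := S.cur γ) (fun h' => h (S.cur_injective h'))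
    rw [S.idx_cur, S.idx_cur, if_neg (Ne.symm h)] at h1
    linarith

end Geo495

end Crest.Agent.R275.Sec495
end

-- ▼ part R275/Sec4Div_95
section

set_option autoImplicit false

open scoped Manifold
open Crest.AlgGeometry.Surface
open Crest.Agent.R275.Dv69 Crest.Agent.R275.Dv69.EffDiv

namespace Crest.Agent.R275.Sec495

/-- Input of section 4.  `R c D` : `D` is the divisor of a nonzero `s ∈ V_c`;
`Rc c D` : moreover the limit of `s` at the small end is `≠ 0` (then `D` is compact and determines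
`c`).  `g` = deck transformation on indices, `γ` on the surface, `γ (C_β) = C_(g β)`. -/
structure DivData (Y B : Type) [TopologicalSpace Y] [ChartedSpace C2 Y]
    [IsManifold 𝓘(ℂ, C2) 1 Y] [LocFact Y] [DivFin Y] [DecidableEq B] where
  g : Equiv.Perm B
  lev : B → ℤ
  lev_g : ∀ β, lev (g β) = lev β + 1
  fin : ∀ n, {β | lev β = n}.Finite
  γ : Y ≃ₜ Y
  γ_hol : IsBihol γ
  R : (B →₀ ℤ) → EffDiv Y → Prop
  Rc : (B →₀ ℤ) → EffDiv Y → Prop
  Rc_R : ∀ c D, Rc c D → R c D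
  /-- `V_0 = ℂ` -/
  R_zero : ∀ D, R 0 D → D = 0
  Rc_zero : Rc 0 0
  R_add : ∀ c c' D D', R c D → R c' D' → R (c + c') (D + D')
  Rc_add : ∀ c c' D D', Rc c D → Rc c' D' → Rc (c + c') (D + D')
  /-- `dim V_c ≤ 1` -/
  R_uniq : ∀ c D D', R c D → R c D' → D = D'
  /-- `V_{e_β} ≠ 0` -/
  R_ex : ∀ β, ∃ D, R (Finsupp.single β 1) D
  /-- every compact prime divisor has a class -/
  Rc_ex : ∀ C : CPr Y, ∃ c, Rc c C.1
  /-- ... which is unique -/
  Rc_inj : ∀ c c' D, Rc c D → Rc c' D → c = c'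
  R_pull : ∀ c D, R c D → R (c.mapDomain g.symm) (pull γ_hol D)
  Rc_pull : ∀ c D, Rc c D → Rc (c.mapDomain g.symm) (pull γ_hol D)
  /-- `q(-[C]) = -1` -/
  x_q : ∀ (C : CPr Y) c, Rc c C.1 → ∑ β ∈ c.support, c β * (c β + 1) = 2
  /-- `K · C ≥ 0` (minimality) -/
  x_K : ∀ (C : CPr Y) c, Rc c C.1 → ∑ β ∈ c.support, c β ≤ 0
  /-- `C · C' ≥ 0` -/
  x_inter : ∀ (C C' : CPr Y) c c', C ≠ C' → Rc c C.1 → Rc c' C'.1 →
    ∑ β ∈ c.support, c β * c' β ≤ 0
  /-- section 3 and locality: `D_β` contains a compact `Z` with `e_β · Z = -1` -/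
  s3 : ∀ β D, R (Finsupp.single β 1) D → ∃ Z ≤ D, IsCompact Z.supp ∧ ∀ c, Rc c Z → c β = 1
  L : ℤ
  bdd : ∀ β D (C : CPr Y) c γ', R (Finsupp.single β 1) D → C.1 ≤ D → Rc c C.1 → c γ' ≠ 0 →
    lev β - L ≤ lev γ'
  /-- Lemma D, far-apart case -/
  far : ∀ β δ D D', lev β + L ≤ lev δ → R (Finsupp.single β 1) D → R (Finsupp.single δ 1) D' →
    D' ≤ D

namespace DivData

noncomputable section

variable {Y B : Type} [TopologicalSpace Y] [ChartedSpace C2 Y]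
    [IsManifold 𝓘(ℂ, C2) 1 Y] [LocFact Y] [DivFin Y] [DecidableEq B] (S : DivData Y B)

/-- the divisor `D_β` -/
def D (β : B) : EffDiv Y := (S.R_ex β).choose

lemma R_D (β : B) : S.R (Finsupp.single β 1) (S.D β) := (S.R_ex β).choose_spec

lemma D_eq {β : B} {E : EffDiv Y} (h : S.R (Finsupp.single β 1) E) : E = S.D β :=
  S.R_uniq _ _ _ h (S.R_D β)

/-- the class of a compact prime -/
def cls (C : CPr Y) : B →₀ ℤ := (S.Rc_ex C).choose

lemma Rc_cls (C : CPr Y) : S.Rc (S.cls C) C.1 := (S.Rc_ex C).choose_spec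

lemma cls_eq {C : CPr Y} {c : B →₀ ℤ} (h : S.Rc c C.1) : c = S.cls C :=
  S.Rc_inj _ _ _ h (S.Rc_cls C)

lemma pull_D (β : B) : pull S.γ_hol (S.D (S.g β)) = S.D β := by
  apply S.D_eq
  have h := S.R_pull _ _ (S.R_D (S.g β))
  rwa [Finsupp.mapDomain_single, Equiv.symm_apply_apply] at h

/-- translate of a compact prime -/
def tr (C : CPr Y) : CPr Y := ⟨pull S.γ_hol C.1, pull_isPr S.γ_hol C.2.1,
  isCompact_supp_pull S.γ_hol C.2.2⟩

/-- translate of a compact prime -/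
def tr' (C : CPr Y) : CPr Y := ⟨pull S.γ_hol.symm C.1, pull_isPr S.γ_hol.symm C.2.1,
  isCompact_supp_pull S.γ_hol.symm C.2.2⟩

/-- deck transformation on compact primes: `C ↦ γ(C)` -/
def σ : Equiv.Perm (CPr Y) where
  toFun := S.tr'
  invFun := S.tr
  left_inv C := Subtype.ext (pull_symm S.γ_hol.symm C.1)
  right_inv C := Subtype.ext (pull_symm S.γ_hol C.1)

lemma pull_σ (C : CPr Y) : pull S.γ_hol (S.σ C).1 = C.1 := pull_symm S.γ_hol.symm C.1

lemma cls_σ (C : CPr Y) (β : B) : S.cls (S.σ C) (S.g β) = S.cls C β := by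
  have h := S.Rc_pull _ _ (S.Rc_cls (S.σ C))
  rw [S.pull_σ] at h
  have h2 := S.cls_eq h
  rw [← h2]
  have h3 : β = S.g.symm (S.g β) := by simp
  conv_rhs => rw [h3]
  rw [Finsupp.mapDomain_apply S.g.symm.injective]

lemma R_nsmul {c : B →₀ ℤ} {E : EffDiv Y} (h : S.R c E) (n : ℕ) : S.R (n • c) (n • E) := by
  induction n with
  | zero => simpa using S.Rc_R _ _ S.Rc_zero
  | succ n ih => rw [succ_nsmul, succ_nsmul]; exact S.R_add _ _ _ _ ih h

lemma Rc_nsmul {c : B →₀ ℤ} {E : EffDiv Y} (h : S.Rc c E) (n : ℕ) : S.Rc (n • c) (n • E) := by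
  induction n with
  | zero => simpa using S.Rc_zero
  | succ n ih => rw [succ_nsmul, succ_nsmul]; exact S.Rc_add _ _ _ _ ih h

lemma R_sum {ι : Type*} (s : Finset ι) (c : ι → B →₀ ℤ) (E : ι → EffDiv Y)
    (h : ∀ i ∈ s, S.R (c i) (E i)) : S.R (∑ i ∈ s, c i) (∑ i ∈ s, E i) := by
  classical
  induction s using Finset.induction_on with
  | empty => simpa using S.Rc_R _ _ S.Rc_zero
  | insert a s ha ih =>
    rw [Finset.sum_insert ha, Finset.sum_insert ha]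
    exact S.R_add _ _ _ _ (h a (by simp)) (ih fun i hi => h i (by simp [hi]))

lemma Rc_sum {ι : Type*} (s : Finset ι) (c : ι → B →₀ ℤ) (E : ι → EffDiv Y)
    (h : ∀ i ∈ s, S.Rc (c i) (E i)) : S.Rc (∑ i ∈ s, c i) (∑ i ∈ s, E i) := by
  classical
  induction s using Finset.induction_on with
  | empty => simpa using S.Rc_zero
  | insert a s ha ih =>
    rw [Finset.sum_insert ha, Finset.sum_insert ha]
    exact S.Rc_add _ _ _ _ (h a (by simp)) (ih fun i hi => h i (by simp [hi]))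

/-- some coefficient of the class of a compact prime is positive -/
lemma cls_pos (C : CPr Y) : ∃ β, 0 < S.cls C β := by
  by_contra hcon
  push Not at hcon
  -- `-[C] = ∑ |x_β| e_β`
  have h1 : S.R (∑ β ∈ (S.cls C).support, (-(S.cls C β)).toNat • Finsupp.single β (1 : ℤ))
      (∑ β ∈ (S.cls C).support, (-(S.cls C β)).toNat • S.D β) :=
    S.R_sum _ _ _ fun β _ => S.R_nsmul (S.R_D β) _
  have h2 : S.cls C + ∑ β ∈ (S.cls C).support,
      (-(S.cls C β)).toNat • Finsupp.single β (1 : ℤ) = 0 := by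
    ext β
    rw [Finsupp.add_apply, Finsupp.finsetSum_apply, Finsupp.zero_apply]
    have h3 : ∀ i ∈ (S.cls C).support, ((-(S.cls C i)).toNat • Finsupp.single i (1 : ℤ)) β =
        if i = β then -(S.cls C β) else 0 := by
      intro i _
      rw [Finsupp.smul_apply, Finsupp.single_apply, nsmul_eq_mul]
      split_ifs with h
      · subst h
        rw [mul_one, Int.toNat_of_nonneg (by have := hcon i; omega)]
      · simp
    rw [Finset.sum_congr rfl h3, Finset.sum_ite_eq']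
    split_ifs with h
    · ring
    · rw [Finsupp.notMem_support_iff.1 h]; rfl
  have h3 := S.R_add _ _ _ _ (S.Rc_R _ _ (S.Rc_cls C)) h1
  rw [h2] at h3
  have h4 := S.R_zero _ h3
  apply C.2.1.1
  exact Mon.eq_zero_of_le_zero (h4 ▸ le_self_add)

/-- **Producer of `Geo495`.** -/
def toGeo : Geo495 B (CPr Y) where
  g := S.g
  lev := S.lev
  lev_g := S.lev_g
  fin := S.fin
  σ := S.σ
  x := S.cls
  x_g := fun C β => S.cls_σ C β
  x_q := fun C => S.x_q C _ (S.Rc_cls C)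
  x_pos := S.cls_pos
  x_K := fun C => S.x_K C _ (S.Rc_cls C)
  x_inter := fun C C' h => S.x_inter C C' _ _ h (S.Rc_cls C) (S.Rc_cls C')
  mult := fun β C => Mon.ord C.1 (S.D β)
  mult_g := fun β C => by
    rw [← pull_ord S.γ_hol (S.σ C).2.1.1, S.pull_σ, S.pull_D]
  exists_pos := fun β => by
    obtain ⟨Z, hZ, hZc, hcls⟩ := S.s3 β _ (S.R_D β)
    obtain ⟨s, hs⟩ := exists_eq_pSum hZc
    have h1 : S.Rc (∑ C ∈ s, Mon.ord C.1 Z • S.cls C) Z := by
      conv_rhs => rw [hs]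
      exact S.Rc_sum _ _ _ fun C _ => S.Rc_nsmul (S.Rc_cls C) _
    have h2 := hcls _ h1
    rw [Finsupp.finsetSum_apply] at h2
    obtain ⟨C, hC, hpos⟩ : ∃ C ∈ s, 0 < (Mon.ord C.1 Z • S.cls C) β := by
      by_contra hcon
      push Not at hcon
      have := Finset.sum_nonpos hcon
      omega
    rw [Finsupp.smul_apply, nsmul_eq_mul] at hpos
    refine ⟨C, ?_, ?_⟩
    · have h3 : Mon.ord C.1 Z ≠ 0 := by
        rintro h
        rw [h] at hpos
        simp at hpos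
      have h4 := ord_mono hZ C.2.1.1
      omega
    · by_contra hcon
      push Not at hcon
      have : ((Mon.ord C.1 Z : ℕ) : ℤ) * (S.cls C) β ≤ 0 :=
        mul_nonpos_of_nonneg_of_nonpos (by positivity) hcon
      omega
  unique := fun β C J hx C' => by
    have h1 : S.R (S.cls C + ∑ j ∈ J, Finsupp.single j 1) (C.1 + ∑ j ∈ J, S.D j) :=
      S.R_add _ _ _ _ (S.Rc_R _ _ (S.Rc_cls C)) (S.R_sum _ _ _ fun j _ => S.R_D j)
    rw [hx, sub_add_cancel] at h1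
    rw [← S.D_eq h1, ord_add C'.2.1, ord_sum C'.2.1]
    congr 1
    split_ifs with h
    · rw [h]
      exact (Mon.ord_self C'.2.1).2
    · exact (Mon.ord_of_ne C'.2.1 C.2.1 (fun h' => h (Subtype.ext h'.symm))).2
  L := S.L
  bdd := fun β C γ' h1 h2 => by
    refine S.bdd β _ C _ γ' (S.R_D β) ?_ (S.Rc_cls C) h2
    rw [← ord_pos_iff C.2.1.1]
    omega
  far := fun β δ h C => ord_mono (S.far β δ _ _ h (S.R_D β) (S.R_D δ)) C.2.1.1

/-- the combinatorial data -/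
def toData : Data495 B := S.toGeo.toData

/-- `D_β = C_β + ∑_(j ∈ J β) D_j` as divisors -/
lemma D_rec (β : B) : S.D β = (S.toGeo.cur β).1 + ∑ j ∈ S.toData.J β, S.D j := by
  symm
  apply S.D_eq
  have h1 : S.R (S.cls (S.toGeo.cur β) + ∑ j ∈ S.toData.J β, Finsupp.single j 1)
      ((S.toGeo.cur β).1 + ∑ j ∈ S.toData.J β, S.D j) :=
    S.R_add _ _ _ _ (S.Rc_R _ _ (S.Rc_cls _)) (S.R_sum _ _ _ fun j _ => S.R_D j)
  have h2 := S.toGeo.x_eq (S.toGeo.cur β)
  rw [S.toGeo.idx_cur] at h2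
  have h3 : S.cls (S.toGeo.cur β) = Finsupp.single β 1 - ∑ j ∈ S.toData.J β, Finsupp.single j 1 :=
    h2
  rwa [h3, sub_add_cancel] at h1

end

end DivData

end Crest.Agent.R275.Sec495
end

-- ▼ part R275/DivP_572

/-!
# R275, block T (section 4), helper572: producer of `Sec495.DivData`

`TIn A h γ Q P E q s` : the inputs of section 4 over Core_144 (class P, class lattice, D1, S3, LOC,
ODIV, D7, D8, D9, Lemma D far-apart).
`TIn.toDivData`       : `DivData Y B`.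
-/

set_option autoImplicit false
set_option linter.unusedSectionVars false

open Set Filter Topology
open scoped Manifold ContDiff

namespace Crest.Agent.R275.GeoP572

open Crest.AlgGeometry.Surface Crest.Agent.R275.Geo Crest.Agent.R275.Core144
open Crest.Agent.R275.Dv69 (HolN LEq EffDiv gt LocFact DivFin)
open Crest.Agent.R275.Dv69.EffDiv (CPr)
open Crest.Agent.R275.HolY631 (Deck)
open Crest.Agent.R275.BR4672 (BdG LowE NZ NowZ)

noncomputable section

variable {Y : Type} [TopologicalSpace Y] [ChartedSpace C2 Y] [IsManifold 𝓘(ℂ, C2) 1 Y]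
variable {A : Atl 2 Y} {h : Y → ℝ} {γ : Y ≃ₜ Y}


/-! ### transport of `V_L` under the deck transformation -/

theorem pull_mem_VL (Q : Equi A γ) (hh : ∀ y, h (γ y) = h y - 1) {L : LB A} {s : A.ι → Y → ℂ}
    (hs : s ∈ VL h L) : pullS Q s ∈ VL h (pullL Q L) := by
  refine ⟨by have := isHS_pull Q hs.1; rwa [preimage_univ] at this, fun ε hε => ?_⟩
  obtain ⟨C, hC0, hC⟩ := (hs.2 ε hε).exists_nonneg fun t => (wgt_pos _ _ t).le
  refine ⟨C * Real.exp ε, fun i x hx => ?_⟩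
  have h1 := hC (Q.sh i) (γ x) ((Q.src' i x).2 hx)
  rw [hh, wgt_gg] at h1
  rw [wgt_gg, mul_assoc, ← Real.exp_add]
  refine h1.trans (mul_le_mul_of_nonneg_left (Real.exp_le_exp.2 ?_) hC0)
  have h2 : |h x - 1| ≤ |h x| + 1 := by
    have := abs_sub (h x) 1
    simpa using this
  nlinarith

theorem pullS_inv (Q : Equi A γ) (s : A.ι → Y → ℂ) : pullS Q s⁻¹ = (pullS Q s)⁻¹ := rfl

theorem pullL_inv (Q : Equi A γ) (L : LB A) : pullL Q L⁻¹ = (pullL Q L)⁻¹ :=
  map_inv (pullHom Q) L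

theorem trivP_pull (Q : Equi A γ) (hh : ∀ y, h (γ y) = h y - 1) {L : LB A} (H : TrivP h L) :
    TrivP h (pullL Q L) := by
  obtain ⟨s, hs, h0, hs'⟩ := H
  refine ⟨pullS Q s, pull_mem_VL Q hh hs, fun i x hx => h0 _ _ ((Q.src' i x).2 hx), ?_⟩
  rw [← pullS_inv, ← pullL_inv]
  exact pull_mem_VL Q hh hs'

/-! ### the input of section 4 -/

/-- inputs of section 4 -/
structure TIn [LocFact Y] (A : Atl 2 Y) (h : Y → ℝ) (γ : Y ≃ₜ Y) (Q : Equi A γ)
    (P : Subgroup (LB A)) {B : Type} (g : Equiv.Perm B) (lev : B → ℤ) (E : B → LB A)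
    (q : LB A → ℤ) (s : B → A.ι → Y → ℂ) : Prop where
  adm : Adm A
  deck : Deck γ h
  bdg : ∀ L ∈ P, BdG L
  P_pull : ∀ L ∈ P, pullL Q L ∈ P
  lev_g : ∀ β, lev (g β) = lev β + 1
  fin : ∀ n, {β | lev β = n}.Finite
  lat : Lat P (TG A h) E q
  /-- `γ^* E_(g β) ≅ E_β` -/
  E_pull : ∀ β, pullL Q (E (g β)) * (E β)⁻¹ ∈ TG A h
  /-- D1: the limit at the large end exists and is injective -/
  lim : ∀ L ∈ P, ∀ σ ∈ VL h L, σ ≠ 0 → ∃ c : ℂ, c ≠ 0 ∧ LimL (A := A) h σ c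
  s_mem : ∀ β, s β ∈ VL h (E β)
  s_ne : ∀ β, s β ≠ 0
  /-- locality of the intersection form -/
  loc : ∃ W : ℝ, ∀ β, ∀ L ∈ P, ∀ σ ∈ VL h L, σ ≠ 0 → ∀ T : ℝ,
    (∀ i, ∀ x ∈ (A.e i).source, T < h x → σ i x ≠ 0) → T + W ≤ -(lev β : ℝ) → bq q L (E β) = 0
  /-- section 3 -/
  sec3 : ∀ β (T : ℝ), ∃ Z D' : EffDiv Y, dvs A (s β) = Z + D' ∧ IsCompact Z.supp ∧
    ∀ x ∈ D'.supp, h x < -T
  /-- ODIV -/
  odiv : ∀ D : EffDiv Y, IsCompact D.supp → ∃ L ∈ P, ∃ σ ∈ VL h L, σ ≠ 0 ∧ dvs A σ = D ∧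
    LowE A h σ
  /-- D9: `q(-C) = -1` -/
  genus : ∀ C : EffDiv Y, Dv69.Mon.IsPr C → IsCompact C.supp → ∀ L ∈ P, ∀ σ ∈ VL h L, σ ≠ 0 →
    dvs A σ = C → q L⁻¹ = -1
  /-- D7: `K · C ≥ 0` -/
  nef : ∀ C : EffDiv Y, Dv69.Mon.IsPr C → IsCompact C.supp → ∀ L ∈ P, ∀ σ ∈ VL h L, σ ≠ 0 →
    dvs A σ = C → 2 * q L ≤ bq q L L
  /-- D8: `C · C' ≥ 0` for `C ≠ C'` -/
  inter : ∀ C : EffDiv Y, Dv69.Mon.IsPr C → IsCompact C.supp → ∀ L ∈ P, ∀ σ ∈ VL h L, σ ≠ 0 →
    dvs A σ = C → ∀ C' : EffDiv Y, Dv69.Mon.IsPr C' → IsCompact C'.supp → C ≠ C' → ∀ L' ∈ P,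
    ∀ σ' ∈ VL h L', σ' ≠ 0 → dvs A σ' = C' → 0 ≤ bq q L L'
  /-- Lemma D, far-apart case -/
  far : ∃ N : ℤ, ∀ β δ, lev β + N ≤ lev δ → dvs A (s δ) ≤ dvs A (s β)

namespace TIn

variable [LocFact Y] {Q : Equi A γ} {P : Subgroup (LB A)} {B : Type} {g : Equiv.Perm B}
  {lev : B → ℤ} {E : B → LB A} {q : LB A → ℤ} {s : B → A.ι → Y → ℂ}
  (H : TIn A h γ Q P g lev E q s) [PreconnectedSpace Y] [Nonempty Y]
include H

theorem hol : Dv69.EffDiv.IsBihol γ where
  fwd := H.deck.hol.mdifferentiable one_ne_zero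
  bwd := H.deck.hol_symm.mdifferentiable one_ne_zero

/-- `h` is unbounded above -/
theorem unbdd (T : ℝ) : ∃ y : Y, T < h y := by
  obtain ⟨y⟩ := ‹Nonempty Y›
  have h1 : ∀ n : ℕ, ∀ z : Y, ∃ w, h w = h z + n := by
    intro n
    induction n with
    | zero => intro z; exact ⟨z, by simp⟩
    | succ n ih =>
      intro z
      obtain ⟨w, hw⟩ := ih z
      refine ⟨γ.symm w, ?_⟩
      rw [H.deck.shift_symm, hw]; push_cast; ring
  obtain ⟨n, hn⟩ := exists_nat_gt (T - h y)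
  obtain ⟨w, hw⟩ := h1 n y
  exact ⟨w, by rw [hw]; linarith⟩

/-- `V_L` is at most one-dimensional -/
theorem dim1 : ∀ L ∈ P, ∀ σ ∈ VL h L, ∀ τ ∈ VL h L, τ ≠ 0 → ∃ c : ℂ, σ = c • τ := by
  intro L hL σ hσ τ hτ hτ0
  refine BR4672.exists_smul_eq (L := L) (h := h) ?_ ?_ hτ hτ0 hσ
  · intro t ht
    by_cases h0 : t = 0
    · refine ⟨0, ?_⟩
      rw [h0]
      exact fun ε hε => ⟨0, fun i x _ _ => by simpa using hε⟩
    · obtain ⟨c, _, hc⟩ := H.lim L hL t ht h0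
      exact ⟨c, hc⟩
  · intro t ht h1
    by_contra h0
    obtain ⟨c, hc0, hc⟩ := H.lim L hL t ht h0
    exact hc0 (BR4672.LimL.unique H.unbdd hc h1)

/-- a nonzero section without zeros has a trivial bundle -/
theorem triv_of_nowhere {L : LB A} (hL : L ∈ P) {σ : A.ι → Y → ℂ} (hσ : σ ∈ VL h L)
    (h0 : ∀ i, ∀ x ∈ (A.e i).source, σ i x ≠ 0) : L ∈ TG A h := by
  have hσ0 : σ ≠ 0 := ne_zero_of_nowhere h0
  obtain ⟨W, hW⟩ := H.loc
  have hc : cls P (TG A h) E L = cls P (TG A h) E 1 := by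
    rw [H.lat.cls_one]
    ext β
    rw [H.lat.cls_apply hL,
      hW β L hL σ hσ hσ0 (-(lev β) - W) (fun i x hx _ => h0 i x hx) (by linarith)]
    simp
  have := H.lat.mem_of_cls_eq P.one_mem hL hc
  rwa [inv_one, mul_one] at this

/-- the divisor only depends on the class -/
theorem dvs_congr {L L' : LB A} (hL : L ∈ P) (hL' : L' ∈ P) {σ σ' : A.ι → Y → ℂ}
    (hσ : σ ∈ VL h L) (hσ0 : σ ≠ 0) (hσ' : σ' ∈ VL h L') (hσ0' : σ' ≠ 0)
    (hc : cls P (TG A h) E L' = cls P (TG A h) E L) : dvs A σ' = dvs A σ := by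
  obtain ⟨u, hu, hu0, hu'⟩ := H.lat.mem_of_cls_eq hL hL' hc
  have hune : u ≠ 0 := ne_zero_of_nowhere hu0
  have h1 : u * σ ∈ VL h L' := by
    have := mul_mem_VL hu hσ
    rwa [mul_assoc, inv_mul_cancel, mul_one] at this
  have h2 : u * σ ≠ 0 := mul_ne_zero' H.adm hu.1 hune hσ.1 hσ0
  obtain ⟨c, hc⟩ := H.dim1 L' hL' σ' hσ' (u * σ) h1 h2
  have hc0 : c ≠ 0 := by
    rintro rfl
    rw [zero_smul] at hc
    exact hσ0' hc
  rw [hc, dvs_smul H.adm h1.1 h2 hc0, dvs_mul H.adm hu.1 hune hσ.1 hσ0,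
    (dvs_eq_zero_iff H.adm hu.1 hune).2 hu0, zero_add]

/-- quotients by sections which are bounded below near the ends -/
theorem quot_low {L L' : LB A} (hL : L ∈ P) (hL' : L' ∈ P) {σ τ : A.ι → Y → ℂ}
    (hσ : σ ∈ VL h L) (hσ0 : σ ≠ 0) (hlow : LowE A h σ) (hτ : τ ∈ VL h L') (hτ0 : τ ≠ 0)
    (hle : dvs A σ ≤ dvs A τ) : ∃ w ∈ VL h (L' * L⁻¹), τ = σ * w := by
  obtain ⟨k, hk, e, -, -⟩ := BR4672.exists_quot_VL H.deck H.adm (H.bdg L hL) (H.bdg L' hL') hσ.1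
    (BR4672.nz_of_ne H.adm hσ.1 hσ0) hlow hτ (BR4672.nz_of_ne H.adm hτ.1 hτ0) hle
  exact ⟨k, hk, e⟩

/-- quotients by sections with compact divisor -/
theorem quotVL : QuotVL A h P := by
  intro L hL σ hσ hσ0 hc L' hL' τ hτ hτ0 hle
  obtain ⟨M, hM, μ, hμ, hμ0, hμd, hlow⟩ := H.odiv _ hc
  obtain ⟨w, hw, e⟩ := H.quot_low hM hL' hμ hμ0 hlow hτ hτ0 (hμd ▸ hle)
  obtain ⟨v, hv, e'⟩ := H.quot_low hM hL hμ hμ0 hlow hσ hσ0 hμd.le
  have hv0 : v ≠ 0 := by rintro rfl; rw [mul_zero] at e'; exact hσ0 e'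
  -- `v` is nowhere zero
  have h1 : dvs A v = 0 := by
    have := dvs_mul H.adm hμ.1 hμ0 hv.1 hv0
    rw [← e', hμd] at this
    exact (left_eq_add.1 this)
  have h2 := (dvs_eq_zero_iff H.adm hv.1 hv0).1 h1
  -- so `L * M⁻¹` is trivial and `v` has an inverse in `V`
  obtain ⟨u, hu, hu0, hu'⟩ := H.triv_of_nowhere (P.mul_mem hL (P.inv_mem hM)) hv h2
  obtain ⟨c, hcc⟩ := H.dim1 _ (P.mul_mem hL (P.inv_mem hM)) v hv u hu (ne_zero_of_nowhere hu0)
  have hc0 : c ≠ 0 := by rintro rfl; rw [zero_smul] at hcc; exact hv0 hcc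
  refine ⟨c⁻¹ • (w * u⁻¹), ?_, ?_⟩
  · refine (VL h _).smul_mem _ ?_
    have := mul_mem_VL hw hu'
    rwa [show L' * M⁻¹ * (L * M⁻¹)⁻¹ = L' * L⁻¹ by
      rw [mul_inv, inv_inv, mul_mul_mul_comm, inv_mul_cancel, mul_one]] at this
  · rw [e, e', hcc]
    ext i x
    by_cases hx : x ∈ (A.e i).source
    · have h3 := hu0 i x hx
      simp only [Pi.mul_apply, Pi.smul_apply, smul_eq_mul, Pi.inv_apply]
      field_simp
    · simp [hμ.1.off i x hx]

/-- locality in the form used for `e_β · Z = -1` -/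
theorem locB : LocB A h P E q := by
  intro β
  obtain ⟨W, hW⟩ := H.loc
  refine ⟨lev β + W + 1, fun L hL w hw hnz => ?_⟩
  by_cases h0 : w = 0
  · exfalso
    obtain ⟨y, hy⟩ := H.unbdd (-(lev β + W + 1))
    obtain ⟨i, hi⟩ := A.cover y
    apply hnz i y hi hy.le
    rw [h0]; rfl
  · rw [bq_comm]
    exact hW β L hL w hw h0 (-(lev β + W + 1)) (fun i x hx hx' => hnz i x hx hx'.le) (by linarith)

/-- compact divisors determine the class -/
theorem cls_unique {L L' : LB A} (hL : L ∈ P) (hL' : L' ∈ P) {σ σ' : A.ι → Y → ℂ}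
    (hσ : σ ∈ VL h L) (hσ0 : σ ≠ 0) (hσ' : σ' ∈ VL h L') (hσ0' : σ' ≠ 0)
    (hc : IsCompact (dvs A σ).supp) (hd : dvs A σ' = dvs A σ) :
    cls P (TG A h) E L' = cls P (TG A h) E L :=
  H.lat.cls_congr hL hL' (uniq_of_quot H.adm H.quotVL hL hL' hσ hσ0 hσ' hσ0' hc hd)

/-- `s_β` has no zeros beyond `T0 - lev β` -/
theorem exists_top : ∃ T0 : ℝ, ∀ β, ∀ x ∈ (dvs A (s β)).supp, h x ≤ T0 - lev β := by
  classical
  -- every `β` separately
  have h1 : ∀ β, ∃ T : ℝ, ∀ x ∈ (dvs A (s β)).supp, h x ≤ T := by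
    intro β
    obtain ⟨c, hc0, hc⟩ := H.lim (E β) (H.lat.E_mem β) (s β) (H.s_mem β) (H.s_ne β)
    obtain ⟨T, δ, hδ, hT⟩ := BR4672.lowL hc hc0
    refine ⟨T, fun x hx => ?_⟩
    by_contra hcon
    push Not at hcon
    obtain ⟨i, hi⟩ := A.cover x
    have h2 := (mem_supp_dvs H.adm (H.s_mem β).1 (H.s_ne β) hi).1 hx
    have h3 := hT i x hi hcon
    rw [h2, norm_zero] at h3
    linarith
  choose T hT using h1
  -- equivariance
  have hpull : ∀ β, dvs A (s β) = Dv69.EffDiv.pull H.hol (dvs A (s (g β))) := by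
    intro β
    rw [← dvs_pull H.adm Q H.hol (H.s_mem (g β)).1 (H.s_ne (g β))]
    have hP1 : pullL Q (E (g β)) ∈ P := H.P_pull _ (H.lat.E_mem _)
    exact H.dvs_congr hP1 (H.lat.E_mem β)
      (pull_mem_VL Q H.deck.shift (H.s_mem (g β)))
      (pullS_ne_zero Q (H.s_mem (g β)).1 (H.s_ne (g β))) (H.s_mem β) (H.s_ne β)
      (H.lat.cls_congr (H.lat.E_mem β) hP1 (H.E_pull β)).symm
  have hshift : ∀ β (t : ℝ), (∀ x ∈ (dvs A (s β)).supp, h x ≤ t) ↔
      ∀ x ∈ (dvs A (s (g β))).supp, h x ≤ t - 1 := by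
    intro β t
    rw [hpull β, Dv69.EffDiv.supp_pull]
    constructor
    · intro h2 x hx
      have h3 := h2 (γ.symm x) (by simpa using hx)
      rw [H.deck.shift_symm] at h3
      linarith
    · intro h2 x hx
      have h3 := h2 (γ x) hx
      rw [H.deck.shift] at h3
      linarith
  have hshift' : ∀ (n : ℕ) β (t : ℝ), (∀ x ∈ (dvs A (s β)).supp, h x ≤ t) ↔
      ∀ x ∈ (dvs A (s ((g ^ n) β))).supp, h x ≤ t - n := by
    intro n
    induction n with
    | zero => intro β t; simp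
    | succ n ih =>
      intro β t
      rw [ih β t, hshift ((g ^ n) β) (t - n), pow_succ']
      simp only [Equiv.Perm.coe_mul, Function.comp_apply]
      push_cast
      rw [sub_sub]
  have hlev : ∀ (n : ℕ) β, lev ((g ^ n) β) = lev β + n := by
    intro n
    induction n with
    | zero => intro β; simp
    | succ n ih =>
      intro β
      rw [pow_succ']
      simp only [Equiv.Perm.coe_mul, Function.comp_apply]
      rw [H.lev_g, ih]
      push_cast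
      ring
  -- bound over the finite set of level `0`
  obtain ⟨T0, hT0⟩ : ∃ T0 : ℝ, ∀ β, lev β = 0 → T β ≤ T0 := by
    have hf := (H.fin 0).image T
    obtain ⟨M, hM⟩ := hf.bddAbove
    exact ⟨M, fun β hβ => hM ⟨β, hβ, rfl⟩⟩
  refine ⟨T0, fun β => ?_⟩
  rcases le_total 0 (lev β) with hl | hl
  · -- `β = g^n β₀`
    obtain ⟨n, hn⟩ := Int.eq_ofNat_of_zero_le hl
    have e1 : (g ^ n) ((g ^ n)⁻¹ β) = β := by simp
    have h3 : lev ((g ^ n)⁻¹ β) = 0 := by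
      have := hlev n ((g ^ n)⁻¹ β)
      rw [e1] at this
      omega
    have h4 := (hshift' n ((g ^ n)⁻¹ β) T0).1 fun x hx => (hT _ x hx).trans (hT0 _ h3)
    rw [e1] at h4
    rw [hn]
    exact_mod_cast h4
  · obtain ⟨n, hn⟩ := Int.eq_ofNat_of_zero_le (neg_nonneg.2 hl)
    have h3 : lev ((g ^ n) β) = 0 := by rw [hlev]; omega
    have h4 := (hshift' n β (T0 - lev β)).2 fun x hx => by
      have h5 := (hT _ x hx).trans (hT0 _ h3)
      have h6 : (lev β : ℝ) = -(n : ℝ) := by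
        have : lev β = -(n : ℤ) := by omega
        rw [this]; push_cast; ring
      rw [h6]; linarith
    exact h4

end TIn

/-! ### the data of `Sec4Div_95` -/

section data

variable [LocFact Y] {Q : Equi A γ} {P : Subgroup (LB A)} {B : Type} {g : Equiv.Perm B}
  {lev : B → ℤ} {E : B → LB A} {q : LB A → ℤ} {s : B → A.ι → Y → ℂ}
  [PreconnectedSpace Y] [Nonempty Y]

/-- `D` is the divisor of a nonzero section of a bundle of class `c` -/
def RR (A : Atl 2 Y) (h : Y → ℝ) (P : Subgroup (LB A)) (E : B → LB A) (c : B →₀ ℤ)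
    (D : EffDiv Y) : Prop :=
  ∃ L ∈ P, cls P (TG A h) E L = c ∧ ∃ σ ∈ VL h L, σ ≠ 0 ∧ dvs A σ = D

theorem RR_add (H : TIn A h γ Q P g lev E q s) {c c' : B →₀ ℤ} {D D' : EffDiv Y}
    (h1 : RR A h P E c D) (h2 : RR A h P E c' D') : RR A h P E (c + c') (D + D') := by
  obtain ⟨L, hL, rfl, σ, hσ, hσ0, rfl⟩ := h1
  obtain ⟨L', hL', rfl, σ', hσ', hσ0', rfl⟩ := h2
  exact ⟨L * L', P.mul_mem hL hL', H.lat.cls_mul hL hL', σ * σ', mul_mem_VL hσ hσ',
    mul_ne_zero' H.adm hσ.1 hσ0 hσ'.1 hσ0', dvs_mul H.adm hσ.1 hσ0 hσ'.1 hσ0'⟩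

theorem RR_zero (H : TIn A h γ Q P g lev E q s) : RR A h P E 0 0 :=
  ⟨1, P.one_mem, H.lat.cls_one, oneS A, oneS_mem_VL, oneS_ne_zero, dvs_oneS H.adm⟩

theorem RR_uniq (H : TIn A h γ Q P g lev E q s) {c : B →₀ ℤ} {D D' : EffDiv Y}
    (h1 : RR A h P E c D) (h2 : RR A h P E c D') : D = D' := by
  obtain ⟨L, hL, e, σ, hσ, hσ0, rfl⟩ := h1
  obtain ⟨L', hL', e', σ', hσ', hσ0', rfl⟩ := h2
  exact H.dvs_congr hL' hL hσ' hσ0' hσ hσ0 (e.trans e'.symm)

theorem RR_s (H : TIn A h γ Q P g lev E q s) (β : B) :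
    RR A h P E (Finsupp.single β 1) (dvs A (s β)) :=
  ⟨E β, H.lat.E_mem β, H.lat.cls_E β, s β, H.s_mem β, H.s_ne β, rfl⟩

theorem RR_pull (H : TIn A h γ Q P g lev E q s) {c : B →₀ ℤ} {D : EffDiv Y}
    (h1 : RR A h P E c D) : RR A h P E (c.mapDomain g.symm) (Dv69.EffDiv.pull H.hol D) := by
  obtain ⟨L, hL, rfl, σ, hσ, hσ0, rfl⟩ := h1
  refine ⟨pullL Q L, H.P_pull L hL, ?_, pullS Q σ, pull_mem_VL Q H.deck.shift hσ,
    pullS_ne_zero Q hσ.1 hσ0, dvs_pull H.adm Q H.hol hσ.1 hσ0⟩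
  ext β
  have h2 := H.lat.cls_equiv (pullHom Q) g (L := pullL Q L) (L' := L) (H.P_pull L hL) hL H.P_pull
    (fun x hx => trivP_pull Q H.deck.shift hx) H.E_pull (by
      show pullL Q L * (pullL Q L)⁻¹ ∈ TG A h
      rw [mul_inv_cancel]; exact (TG A h).one_mem) β
  rw [← h2]
  have h3 : β = g.symm (g β) := by simp
  conv_rhs => rw [h3]
  rw [Finsupp.mapDomain_apply g.symm.injective]

/-- **Producer of `DivData`.** -/
def TIn.toDivData [DivFin Y] [DecidableEq B] (H : TIn A h γ Q P g lev E q s) :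
    Sec495.DivData Y B where
  g := g
  lev := lev
  lev_g := H.lev_g
  fin := H.fin
  γ := γ
  γ_hol := H.hol
  R := RR A h P E
  Rc c D := RR A h P E c D ∧ IsCompact D.supp
  Rc_R _ _ h1 := h1.1
  R_zero D h1 := RR_uniq H h1 (RR_zero H)
  Rc_zero := ⟨RR_zero H, by rw [Dv69.EffDiv.supp_zero]; exact isCompact_empty⟩
  R_add _ _ _ _ h1 h2 := RR_add H h1 h2
  Rc_add c c' D D' h1 h2 := ⟨RR_add H h1.1 h2.1, by
    rw [Dv69.EffDiv.supp_add]; exact h1.2.union h2.2⟩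
  R_uniq _ _ _ h1 h2 := RR_uniq H h1 h2
  R_ex β := ⟨_, RR_s H β⟩
  Rc_ex C := by
    obtain ⟨L, hL, σ, hσ, hσ0, hd, -⟩ := H.odiv C.1 C.2.2
    exact ⟨_, ⟨L, hL, rfl, σ, hσ, hσ0, hd⟩, C.2.2⟩
  Rc_inj c c' D h1 h2 := by
    obtain ⟨⟨L, hL, rfl, σ, hσ, hσ0, rfl⟩, hc⟩ := h1
    obtain ⟨⟨L', hL', rfl, σ', hσ', hσ0', hd⟩, -⟩ := h2
    exact (H.cls_unique hL hL' hσ hσ0 hσ' hσ0' hc hd).symm
  R_pull _ _ h1 := RR_pull H h1
  Rc_pull c D h1 := ⟨RR_pull H h1.1, Dv69.EffDiv.isCompact_supp_pull H.hol h1.2⟩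
  x_q C c h1 := by
    obtain ⟨⟨L, hL, rfl, σ, hσ, hσ0, hd⟩, hc⟩ := h1
    have h2 := H.lat.two_q_inv hL
    rw [H.genus C.1 C.2.1 C.2.2 L hL σ hσ hσ0 hd] at h2
    linarith
  x_K C c h1 := by
    obtain ⟨⟨L, hL, rfl, σ, hσ, hσ0, hd⟩, hc⟩ := h1
    have h2 := H.lat.knum hL
    have h3 := H.nef C.1 C.2.1 C.2.2 L hL σ hσ hσ0 hd
    linarith
  x_inter C C' c c' hne h1 h2 := by
    obtain ⟨⟨L, hL, rfl, σ, hσ, hσ0, hd⟩, hc⟩ := h1
    obtain ⟨⟨L', hL', rfl, σ', hσ', hσ0', hd'⟩, hc'⟩ := h2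
    have h3 := H.lat.b_cls hL hL'
    have h4 := H.inter C.1 C.2.1 C.2.2 L hL σ hσ hσ0 hd C'.1 C'.2.1 C'.2.2
      (fun e => hne (Subtype.ext e)) L' hL' σ' hσ' hσ0' hd'
    linarith
  s3 β D h1 := by
    have hD : D = dvs A (s β) := RR_uniq H h1 (RR_s H β)
    obtain ⟨Z, hZ, hZc, hZ1⟩ := s3_of H.adm H.lat H.s_mem H.s_ne H.quotVL H.locB H.sec3 β
    refine ⟨Z, hD ▸ hZ, hZc, ?_⟩
    rintro c ⟨⟨L, hL, rfl, σ, hσ, hσ0, hd⟩, -⟩
    exact hZ1 L hL σ hσ hσ0 hd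
  L := max ⌈H.exists_top.choose + H.loc.choose⌉ H.far.choose
  bdd β D C c γ' h1 hCD h2 hne := by
    have hD : D = dvs A (s β) := RR_uniq H h1 (RR_s H β)
    obtain ⟨⟨L, hL, rfl, σ, hσ, hσ0, hd⟩, -⟩ := h2
    have hT0 := H.exists_top.choose_spec
    have hW := H.loc.choose_spec
    set T0 := H.exists_top.choose
    set W := H.loc.choose
    by_contra hcon
    push Not at hcon
    apply hne
    rw [H.lat.cls_apply hL]
    have h3 : ∀ i, ∀ x ∈ (A.e i).source, T0 - lev β < h x → σ i x ≠ 0 := by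
      intro i x hx hlt h0
      have h4 := (mem_supp_dvs H.adm hσ.1 hσ0 hx).2 h0
      rw [hd] at h4
      have h5 := hT0 β x (hD ▸ Dv69.EffDiv.supp_mono hCD h4)
      linarith
    have h6 : T0 - lev β + W ≤ -(lev γ' : ℝ) := by
      have h7 : T0 + W ≤ (⌈T0 + W⌉ : ℤ) := Int.le_ceil _
      have h8 : (lev γ' : ℤ) + ⌈T0 + W⌉ ≤ lev β := by
        have := le_max_left ⌈T0 + W⌉ H.far.choose
        omega
      have h9 : ((lev γ' + ⌈T0 + W⌉ : ℤ) : ℝ) ≤ ((lev β : ℤ) : ℝ) := by exact_mod_cast h8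
      push_cast at h9
      linarith
    rw [hW γ' L hL σ hσ hσ0 _ h3 h6, neg_zero]
  far β δ D D' hle h1 h2 := by
    have hD : D = dvs A (s β) := RR_uniq H h1 (RR_s H β)
    have hD' : D' = dvs A (s δ) := RR_uniq H h2 (RR_s H δ)
    rw [hD, hD']
    refine H.far.choose_spec β δ ?_
    have := le_max_right ⌈H.exists_top.choose + H.loc.choose⌉ H.far.choose
    omega

theorem TIn.D_eq [DivFin Y] [DecidableEq B] (H : TIn A h γ Q P g lev E q s) (β : B) :
    H.toDivData.D β = dvs A (s β) :=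
  (H.toDivData.D_eq (RR_s H β)).symm

end data

end

end Crest.Agent.R275.GeoP572
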