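import Crest.Agent.R275.LocCnt_647
import Crest.Agent.R275.LocT_474
import Crest.Agent.R275.Eqv_672
import Crest.Agent.R275.GeoP_572
import Crest.Agent.R275.Cls_938
import Crest.Agent.R275.Cls_672

-- ▼ part R275/Loc_647
section

/-!
R275 (S0418), helper647, block K': **LOCALISATION**: the unit classes of all `X_N` come from
compactly supported integral classes of `Y`, and these form an orthonormal basis (modulo the
radical) of `H^2_c(Y, ℤ)` on which the shift acts freely.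
-/

set_option autoImplicit false

open Finset

noncomputable section

namespace Crest.Agent.R275.Loc647

namespace Forms

variable {V : Type*} {P : Nerve V} (F : Forms P)

theorem UN_sub_rad {N : ℕ} (hN : 1 ≤ N) {c1 x b : C2 V} {c : C2 V} (hc1 : c1 ∈ P.Z2p N)
    (hx : x ∈ P.Z2p N) (hb : b ∈ P.Z2p N) (h : c = c1 + x + b) (h1 : F.IN N c1 c1 = 0)
    (h2 : ∀ w ∈ P.Z2p N, F.IN N b w = 0) {w : C2 V} (hw : w ∈ P.Z2p N) :
    F.IN N c w = F.IN N x w := by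
  rw [h, F.IN_add_left N hN _ ((P.Z2p N).add_mem hc1 hx) _ hb _ hw,
    F.IN_add_left N hN _ hc1 _ hx _ hw, h2 w hw, F.IN_rad hN hc1 h1 hw]
  ring

/-- **Step 3 and 4.** For suitable large `N` every unit class of `X_N` comes from a compactly
supported unit class of `Y`. -/
theorem exists_lift : ∃ N₀ : ℕ, 0 < N₀ ∧ ∃ N₁ : ℕ, ∀ N : ℕ, N₁ < N → N₀ ∣ N →
    ∀ e, F.UN N e → ∃ x ∈ P.Z2c, F.IY x x = -1 ∧ F.IY F.kap x = -1 ∧
      ∀ w ∈ P.Z2p N, F.IN N e w = F.IN N (P.per N x) w := by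
  classical
  let L : ℕ := F.f + 2 * P.s + 1
  let w₀ : ℕ := 2 * P.s + L
  let q : ℕ := F.f + L + 4 * P.s + 3
  obtain ⟨T, hT⟩ := P.pigeon (P.finp 0 w₀)
  let w₁ : ℕ := T * q + w₀
  obtain ⟨N₂, hN₂⟩ := F.exists_good w₁
  refine ⟨T.factorial * q, Nat.mul_pos T.factorial_pos (by omega), N₂ + w₁, ?_⟩
  intro N hN hdvd e he
  have hN1 : 1 ≤ N := by omega
  obtain ⟨j, d, hd0, u, hu⟩ := hN₂ N (by omega) e he
  -- the good translate
  set c := P.sh (j : ℤ) e with hcdef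
  have hc : F.UN N c := he.sh F hN1 j
  -- pigeonhole
  obtain ⟨m, m', hmm, hm'T, v, hv⟩ := hT (fun m => P.sh ((m * q : ℕ) : ℤ) c) (by
    intro m hm
    refine ⟨d, hd0, fun x y => u ((P.g ^ ((m * q : ℕ) : ℤ)) x) ((P.g ^ ((m * q : ℕ) : ℤ)) y), ?_⟩
    intro i₁ h1 i₂ h2 i₃ h3 h
    have hmq : ((m * q : ℕ) : ℤ) + w₀ ≤ w₁ := by
      have : m * q + w₀ ≤ w₁ := by
        have := Nat.mul_le_mul_right q hm
        omega
      exact_mod_cast this
    have key : ∀ i, i ∈ {v | 0 ≤ P.p v ∧ P.p v ≤ (w₀ : ℤ)} →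
        P.Win 0 w₁ ((P.g ^ ((m * q : ℕ) : ℤ)) i) := by
      intro i hi
      have h0 : (0 : ℤ) ≤ ((m * q : ℕ) : ℤ) := Int.natCast_nonneg _
      constructor
      · rw [P.p_pow]; linarith [hi.1]
      · rw [P.p_pow]; linarith [hi.2]
    exact hu _ _ _ ((P.N3_pow _ _ _ _).2 h) (key _ h1) (key _ h2) (key _ h3))
  -- parameters
  obtain ⟨r, hr⟩ : ∃ r, m' = m + r := ⟨m' - m, by omega⟩
  have hr0 : 0 < r := by omega
  have hrT : r ≤ T := by omega
  let k : ℕ := r * q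
  have hqk : q ≤ k := Nat.le_mul_of_pos_left q hr0
  have hk1 : 1 ≤ k := by omega
  have hkT : k ≤ T * q := Nat.mul_le_mul_right q hrT
  have hkN : k ∣ N := (Nat.mul_dvd_mul_right (Nat.dvd_factorial hr0 hrT) q).trans hdvd
  obtain ⟨n', hn'⟩ := hkN
  have hn'1 : 1 ≤ n' := by
    rcases Nat.eq_zero_or_pos n' with h | h
    · rw [h] at hn'; omega
    · exact h
  have hkN : k ∣ N := ⟨n', hn'⟩
  let a : ℤ := ((m * q : ℕ) : ℤ)
  have ha0 : 0 ≤ a := Int.natCast_nonneg _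
  have hak : a + k + (2 * P.s + L) ≤ w₁ := by
    have : m * q + r * q + (2 * P.s + L) ≤ w₁ := by
      have h1 := Nat.mul_le_mul_right q hm'T
      rw [hr, add_mul] at h1
      omega
    have h2 : ((m * q + r * q + (2 * P.s + L) : ℕ) : ℤ) ≤ w₁ := by exact_mod_cast this
    push_cast at h2
    simp only [a, k]
    push_cast
    linarith
  have hw₀ : ((w₀ : ℕ) : ℤ) = 2 * P.s + L := by simp only [w₀]; push_cast; ring
  have e1 : ∀ i : V, (P.g ^ ((m' * q : ℕ) : ℤ)) ((P.g ^ (-a)) i) = (P.g ^ (k : ℤ)) i := by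
    intro i
    rw [P.pow_pow]
    congr 2
    rw [hr]; simp only [a, k]; push_cast; ring
  have e2 : ∀ i : V, (P.g ^ ((m * q : ℕ) : ℤ)) ((P.g ^ (-a)) i) = i := by
    intro i
    rw [P.pow_pow]
    simp [a]
  have hmem : ∀ i, P.Win a (a + (2 * P.s + L)) i →
      (P.g ^ (-a)) i ∈ {v | 0 ≤ P.p v ∧ P.p v ≤ (w₀ : ℤ)} := by
    intro i hi
    constructor
    · rw [P.p_pow]; linarith [hi.1]
    · rw [P.p_pow, hw₀]; linarith [hi.2]
  -- glue
  obtain ⟨b, hb, c1, hc1, x, hx, hcx, hxs, u1, hu1⟩ := P.glue (N := N) (k := k) (L := L) hkN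
    (by omega) (by omega) hc.1 (a := a) (d := d)
    (v := fun x y => v ((P.g ^ (-a)) x) ((P.g ^ (-a)) y)) (u := u)
    (by
      intro i₁ i₂ i₃ h h1 h2 h3
      have := hv _ (hmem _ h1) _ (hmem _ h2) _ (hmem _ h3) ((P.N3_pow _ _ _ _).2 h)
      simp only [P.sh_apply] at this
      rw [e1, e1, e1, e2, e2, e2] at this
      exact this)
    (by
      intro i₁ i₂ i₃ h h1 h2 h3
      exact hu _ _ _ h ⟨by linarith [h1.1], by linarith [h1.2]⟩
        ⟨by linarith [h2.1], by linarith [h2.2]⟩ ⟨by linarith [h3.1], by linarith [h3.2]⟩)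
  -- `c1` is in the radical
  have hperx := P.per_mem hN1 hx
  have hcob : ∀ {M : ℕ} (_ : 1 ≤ M) {b' : V → V → ℤ} (_ : P.Per1 M b') (w : C2 V)
      (_ : w ∈ P.Z2p M), F.IN M (P.d1 b') w = 0 := fun hM b' hb' w hw => F.IN_cob _ hM b' hb' w hw
  have hsq : F.IN k c1 c1 = 0 := by
    have hs0 : (0 : ℤ) ≤ P.s := Int.natCast_nonneg _
    have hL0 : (0 : ℤ) ≤ L := Int.natCast_nonneg _
    obtain ⟨xA, hxA, bA, hbA, hA, hAs⟩ := P.cut_at (L := L) (by omega) hc1 hu1 (A := a + P.s)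
      (by linarith) (by linarith)
    obtain ⟨xB, hxB, bB, hbB, hB, hBs⟩ := P.cut_at (L := L) (by omega) hc1 hu1
      (A := a + P.s + L) (by linarith) (by linarith)
    have pA := P.per_mem hk1 hxA
    have pB := P.per_mem hk1 hxB
    have hdc : d • c1 ∈ P.Z2p k := (P.Z2p k).zsmul_mem hc1 d
    have gA : ∀ w ∈ P.Z2p k, F.IN k (d • c1) w = F.IN k (P.per k xA) w := fun w hw => by
      rw [hA, F.IN_add_left k hk1 _ pA _ (P.d1_mem_Z2p hbA) _ hw, hcob hk1 hbA _ hw, add_zero]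
    have gB : ∀ w ∈ P.Z2p k, F.IN k (d • c1) w = F.IN k (P.per k xB) w := fun w hw => by
      rw [hB, F.IN_add_left k hk1 _ pB _ (P.d1_mem_Z2p hbB) _ hw, hcob hk1 hbB _ hw, add_zero]
    have h1 : F.IN k (d • c1) (d • c1) = F.IN k (P.per k xA) (P.per k xB) := by
      rw [gA _ hdc, F.IN_symm k hk1 _ pA _ hdc, gB _ pA, F.IN_symm k hk1 _ pB _ pA]
    have h2 : F.IN k (P.per k xA) (P.per k xB) = 0 := by
      have : ((F.IN k (P.per k xA) (P.per k xB) : ℤ) : ℝ) = 0 := by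
        rw [F.IN_per k hk1 _ pA _ hxB]
        refine F.IY_far _ pA.1 _ hxB fun i₁ i₂ i₃ j₁ j₂ j₃ h h' => ?_
        obtain ⟨l, hl⟩ : ∃ l : ℤ, P.sh (l * k) xA i₁ i₂ i₃ ≠ 0 := by
          by_contra hcon
          push Not at hcon
          apply h
          rw [Nerve.per]
          simp [hcon]
        have g1 := hAs _ _ _ hl
        have g2 := hBs _ _ _ h'
        rw [P.p_pow] at g1
        have hL : (L : ℤ) = F.f + 2 * P.s + 1 := by simp only [L]; push_cast; ring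
        have hq : (F.f : ℤ) + L + 4 * P.s + 3 ≤ k := by
          have : F.f + L + 4 * P.s + 3 ≤ k := hqk
          exact_mod_cast this
        rcases le_or_gt 0 l with hl0 | hl0
        · have hlk : 0 ≤ l * (k : ℤ) := by positivity
          rw [abs_sub_comm]
          refine lt_of_lt_of_le ?_ (le_abs_self _)
          linarith [g1.2, g2.1]
        · have hlk : l * (k : ℤ) ≤ -(k : ℤ) := by nlinarith
          refine lt_of_lt_of_le ?_ (le_abs_self _)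
          linarith [g1.1, g2.2]
      exact_mod_cast this
    have h3 : F.IN k (d • c1) (d • c1) = d * (d * F.IN k c1 c1) := by
      have g : F.B hk1 (d • ⟨c1, hc1⟩) (d • ⟨c1, hc1⟩) = d * (d * F.B hk1 ⟨c1, hc1⟩ ⟨c1, hc1⟩) := by
        rw [map_zsmul, smul_eq_mul, map_zsmul, AddMonoidHom.smul_apply, smul_eq_mul]
      exact g
    rw [h1, h2] at h3
    rcases mul_eq_zero.1 h3.symm with h | h
    · exact absurd h hd0
    · rcases mul_eq_zero.1 h with h | h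
      · exact absurd h hd0
      · exact h
  have hsqN : F.IN N c1 c1 = 0 := by
    have := F.IN_mul k n' hk1 hn'1 _ hc1 _ hc1
    rw [hsq, mul_zero, mul_comm n' k, ← hn'] at this
    exact this
  have key : ∀ w ∈ P.Z2p N, F.IN N c w = F.IN N (P.per N x) w := fun w hw =>
    F.UN_sub_rad hN1 (P.Z2p_mono hkN hc1) hperx (P.d1_mem_Z2p hb) hcx hsqN
      (fun w hw => hcob hN1 hb w hw) hw
  -- norm of `x`
  have hxx : F.IN N (P.per N x) (P.per N x) = -1 := by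
    rw [← key _ hperx, F.IN_symm N hN1 _ hc.1 _ hperx, ← key _ hc.1, hc.2.1]
  have hxxR : F.IY x x = -1 := by
    have g1 := F.IN_per N hN1 _ hperx _ hx
    rw [hxx] at g1
    have g2 : F.IY (P.per N x - x) x = 0 := by
      refine F.IY_far _ (P.Z2.sub_mem hperx.1 hx.1) _ hx fun i₁ i₂ i₃ j₁ j₂ j₃ h h' => ?_
      obtain ⟨l, hl0, hl⟩ : ∃ l : ℤ, l ≠ 0 ∧ P.sh (l * N) x i₁ i₂ i₃ ≠ 0 := by
        by_contra hcon
        push Not at hcon
        apply h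
        have : P.per N x i₁ i₂ i₃ = x i₁ i₂ i₃ := by
          rw [Nerve.per, finsum_eq_single _ 0 (fun l hl => hcon l hl)]
          simp
        simp only [Pi.sub_apply, this, sub_self]
      have g3 := hxs _ _ _ hl
      have g4 := hxs _ _ _ h'
      rw [P.p_pow] at g3
      have hk : (F.f : ℤ) ≤ k := by
        have : F.f ≤ k := by omega
        exact_mod_cast this
      have hs0 : (0 : ℤ) ≤ P.s := Int.natCast_nonneg _
      have hL0 : (0 : ℤ) ≤ L := Int.natCast_nonneg _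
      have hN0 : (0 : ℤ) < N := by exact_mod_cast hN1
      rcases lt_or_gt_of_ne hl0 with hl0 | hl0
      · have hlk : l * (N : ℤ) ≤ -(N : ℤ) := by nlinarith
        refine lt_of_lt_of_le ?_ (le_abs_self _)
        linarith [g3.1, g3.2, g4.1, g4.2]
      · have hlk : (N : ℤ) ≤ l * (N : ℤ) := by nlinarith
        rw [abs_sub_comm]
        refine lt_of_lt_of_le ?_ (le_abs_self _)
        linarith [g3.1, g3.2, g4.1, g4.2]
    rw [F.IY_sub_left hperx.1 hx.1 hx] at g2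
    rw [← g1] at g2
    push_cast at g2
    linarith
  have hxk : F.IY F.kap x = -1 := by
    have g1 := F.IN_per N hN1 _ (F.kap_mem_N N) _ hx
    have g2 : F.IN N F.kap (P.per N x) = -1 := by
      rw [F.IN_symm N hN1 _ (F.kap_mem_N N) _ hperx, ← key _ (F.kap_mem_N N),
        F.IN_symm N hN1 _ hc.1 _ (F.kap_mem_N N), hc.2.2]
    rw [g2] at g1
    rw [← g1]
    push_cast
    ring
  -- shift back
  refine ⟨P.sh (-(j : ℤ)) x, P.sh_mem_Z2c hx _, ?_, ?_, fun w hw => ?_⟩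
  · rw [F.IY_shz _ hx.1 hx, hxxR]
  · rw [F.IY_kap_sh _ hx, hxk]
  · have g1 : F.IN N e w = F.IN N c (P.sh j w) := by
      rw [hcdef, F.IN_shz hN1 _ he.1 hw]
    rw [g1, key _ (P.sh_mem_Z2p hw _), P.per_sh]
    have g2 := F.IN_shz hN1 (j : ℤ) (P.sh_mem_Z2p hperx (-(j : ℤ))) hw
    rw [P.sh_sh, add_neg_cancel, P.sh_zero] at g2
    exact g2

end Forms

end Crest.Agent.R275.Loc647
end
end

-- ▼ part R275/LocFin_647
section

/-!
R275 (S0418), helper647, block K': final theorem `Forms.localisation`: the group of compactly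
supported integral 2-cocycles of `Y` has, modulo the radical, an orthonormal basis
`g^n e_i` (`i : Fin b`, `n : ℤ`) with `κ . e_i = -1`.
-/

set_option autoImplicit false

open Finset

noncomputable section

namespace Crest.Agent.R275.Loc647

namespace Forms

variable {V : Type*} {P : Nerve V} (F : Forms P)

/-- the shift on compactly supported cocycles -/
def tH (P : Nerve V) (n : ℤ) : ↥P.Z2c →+ ↥P.Z2c where
  toFun x := ⟨P.sh n x, P.sh_mem_Z2c x.2 n⟩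
  map_zero' := Subtype.ext (map_zero _)
  map_add' x y := Subtype.ext (map_add _ _ _)

theorem exists_BZ : ∃ B : ↥P.Z2c →+ ↥P.Z2c →+ ℤ, ∀ x y : ↥P.Z2c, ((B x y : ℤ) : ℝ) = F.IY x y := by
  choose b hb using fun x y : ↥P.Z2c => F.IY_int x x.2 y y.2
  refine ⟨AddMonoidHom.mk' (fun x => AddMonoidHom.mk' (fun y => b x y) ?_) ?_, ?_⟩
  · intro y z
    have : ((b x (y + z) : ℤ) : ℝ) = ((b x y + b x z : ℤ) : ℝ) := by
      push_cast
      rw [← hb, ← hb, ← hb]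
      exact F.IY_add_right _ x.2.1 _ y.2 _ z.2
    exact_mod_cast this
  · intro x y
    ext z
    have : ((b (x + y) z : ℤ) : ℝ) = ((b x z + b y z : ℤ) : ℝ) := by
      push_cast
      rw [← hb, ← hb, ← hb]
      exact F.IY_add_left _ x.2.1 _ y.2.1 _ z.2
    exact_mod_cast this
  · intro x y
    exact (hb x y).symm

theorem exists_kZ : ∃ κ : ↥P.Z2c →+ ℤ, ∀ x : ↥P.Z2c, ((κ x : ℤ) : ℝ) = F.IY F.kap x := by
  have h : ∀ x : ↥P.Z2c, ∃ n : ℤ, (n : ℝ) = F.IY F.kap x := fun x =>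
    ⟨_, F.IN_per 1 le_rfl _ F.kap_mem _ x.2⟩
  choose k hk using h
  refine ⟨AddMonoidHom.mk' k ?_, hk⟩
  intro x y
  have : ((k (x + y) : ℤ) : ℝ) = ((k x + k y : ℤ) : ℝ) := by
    push_cast
    rw [hk, hk, hk]
    exact F.IY_add_right _ (P.Z2p_le 1 F.kap_mem) _ x.2 _ y.2
  exact_mod_cast this

theorem IY_nonpos {x : C2 V} (hx : x ∈ P.Z2c) : F.IY x x ≤ 0 := by
  obtain ⟨N₀, h⟩ := F.IN_per_large hx hx
  rw [← h (N₀ + 1) (Nat.lt_succ_self _)]
  exact_mod_cast F.IN_nonpos (by omega) (P.per_mem (by omega) hx)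

theorem IY_kap_of_rad {x : C2 V} (hx : x ∈ P.Z2c) (h0 : F.IY x x = 0) : F.IY F.kap x = 0 := by
  obtain ⟨N₀, h⟩ := F.IN_per_large hx hx
  have h1 := h (N₀ + 1) (Nat.lt_succ_self _)
  have hN : 1 ≤ N₀ + 1 := by omega
  rw [h0] at h1
  have h2 : F.IN (N₀ + 1) (P.per (N₀ + 1) x) (P.per (N₀ + 1) x) = 0 := by exact_mod_cast h1
  have h3 := F.IN_rad hN (P.per_mem hN hx) h2 (F.kap_mem_N _)
  rw [F.IN_symm _ hN _ (P.per_mem hN hx) _ (F.kap_mem_N _)] at h3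
  rw [← F.IN_per _ hN _ (F.kap_mem_N _) _ hx, h3]
  simp

theorem IY_rad {x : C2 V} (hx : x ∈ P.Z2c) (h0 : F.IY x x = 0) {y : C2 V} (hy : y ∈ P.Z2c) :
    F.IY x y = 0 := by
  obtain ⟨B, hB⟩ := F.exists_BZ
  have h := rad_of (B := B) (fun a b => by
      have : ((B a b : ℤ) : ℝ) = B b a := by rw [hB, hB]; exact F.IY_symm _ a.2 _ b.2
      exact_mod_cast this) (fun a => by
      have : ((B a a : ℤ) : ℝ) ≤ 0 := by rw [hB]; exact F.IY_nonpos a.2
      exact_mod_cast this) (x := ⟨x, hx⟩) (by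
      have : ((B ⟨x, hx⟩ ⟨x, hx⟩ : ℤ) : ℝ) = 0 := by rw [hB]; exact h0
      exact_mod_cast this) ⟨y, hy⟩
  have := hB ⟨x, hx⟩ ⟨y, hy⟩
  rw [h] at this
  simpa using this.symm

/-- a good `N` for the comparison `Y → X_N`, as large as we want -/
theorem exists_N (M : ℕ) : ∃ N : ℕ, M < N ∧ 1 ≤ N ∧ ∀ e, F.UN N e → ∃ x ∈ P.Z2c,
    F.IY x x = -1 ∧ F.IY F.kap x = -1 ∧ ∀ w ∈ P.Z2p N, F.IN N e w = F.IN N (P.per N x) w := by
  obtain ⟨N₀, h0, N₁, h⟩ := F.exists_lift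
  refine ⟨N₀ * (M + N₁ + 1), ?_, ?_, h _ ?_ (dvd_mul_right _ _)⟩
  · nlinarith [Nat.one_le_iff_ne_zero.2 h0.ne']
  · exact Nat.mul_pos h0 (by omega)
  · nlinarith [Nat.one_le_iff_ne_zero.2 h0.ne']

/-- **LOCALISATION (block K').** -/
theorem localisation : ∃ (b : ℕ) (e : Fin b → C2 V), 0 < b ∧ (∀ i, e i ∈ P.Z2c) ∧
    (∀ i, F.IY F.kap (e i) = -1) ∧
    (∀ i j n m, F.IY (P.sh n (e i)) (P.sh m (e j)) = if i = j ∧ n = m then -1 else 0) ∧
    ∀ x ∈ P.Z2c, ∃ (S : Finset (Fin b × ℤ)) (a : Fin b × ℤ → ℤ),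
      (∀ s, F.IY x (P.sh s.2 (e s.1)) = -(a s)) ∧ (∀ s, s ∉ S → a s = 0) ∧
      x - ∑ s ∈ S, a s • P.sh s.2 (e s.1) ∈ P.Z2c ∧
      F.IY (x - ∑ s ∈ S, a s • P.sh s.2 (e s.1)) (x - ∑ s ∈ S, a s • P.sh s.2 (e s.1)) = 0 := by
  classical
  obtain ⟨B, hB⟩ := F.exists_BZ
  obtain ⟨κ, hκ⟩ := F.exists_kZ
  have ht0 : ∀ x : ↥P.Z2c, tH P 0 x = x := fun x => Subtype.ext (P.sh_zero _)
  have htadd : ∀ m n (x : ↥P.Z2c), tH P m (tH P n x) = tH P (m + n) x := fun m n x =>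
    Subtype.ext (P.sh_sh _ _ _)
  have hsymm : ∀ x y, B x y = B y x := fun x y => by
    have : ((B x y : ℤ) : ℝ) = B y x := by rw [hB, hB]; exact F.IY_symm _ x.2 _ y.2
    exact_mod_cast this
  have hBt : ∀ n x y, B (tH P n x) (tH P n y) = B x y := fun n x y => by
    have : ((B (tH P n x) (tH P n y) : ℤ) : ℝ) = B x y := by
      rw [hB, hB]; exact F.IY_shz n x.2.1 y.2
    exact_mod_cast this
  have hκt : ∀ n x, κ (tH P n x) = κ x := fun n x => by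
    have : ((κ (tH P n x) : ℤ) : ℝ) = κ x := by
      rw [hκ, hκ]; exact F.IY_kap_sh n x.2
    exact_mod_cast this
  have hfar : ∀ x y, ∃ m : ℕ, ∀ n : ℤ, (m : ℤ) < |n| → B (tH P n x) y = 0 := fun x y => by
    obtain ⟨m, hm⟩ := F.IY_far_sh x.2 y.2
    refine ⟨m, fun n hn => ?_⟩
    have : ((B (tH P n x) y : ℤ) : ℝ) = 0 := by rw [hB]; exact hm n hn
    exact_mod_cast this
  have hneg : ∀ x, B x x ≤ 0 := fun x => by
    have : ((B x x : ℤ) : ℝ) ≤ 0 := by rw [hB]; exact F.IY_nonpos x.2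
    exact_mod_cast this
  have hrad : ∀ x, B x x = 0 → κ x = 0 := fun x hx => by
    have h1 : F.IY x x = 0 := by rw [← hB, hx]; simp
    have : ((κ x : ℤ) : ℝ) = 0 := by rw [hκ]; exact F.IY_kap_of_rad x.2 h1
    exact_mod_cast this
  -- comparison with `X_N`
  have hper : ∀ {N : ℕ} (hN : 1 ≤ N) (x y : ↥P.Z2c), ∃ M : ℕ, ∀ M' : ℤ, (M : ℤ) ≤ M' →
      F.IN N (P.per N x) (P.per N y) = ∑ m ∈ Icc (-M') M', B (tH P (m * N) x) y := by
    intro N hN x y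
    obtain ⟨M, hM⟩ := F.IN_per_per hN x.2 y.2
    refine ⟨M, fun M' hM' => ?_⟩
    have h1 := hM M' hM'
    have h2 : ((F.IN N (P.per N x) (P.per N y) : ℤ) : ℝ) =
        ((∑ m ∈ Icc (-M') M', B (tH P (m * N) x) y : ℤ) : ℝ) := by
      rw [h1]
      push_cast
      refine sum_congr rfl fun m _ => ?_
      rw [hB]; rfl
    exact_mod_cast h2
  -- units of `Y` give units of `X_N`
  have hunit : ∀ {N : ℕ} (hN : 1 ≤ N) (u : ↥P.Z2c), B u u = -1 → κ u = -1 →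
      F.UN N (P.per N u) := by
    intro N hN u hu hu'
    refine ⟨P.per_mem hN u.2, ?_, ?_⟩
    · obtain ⟨M, hM⟩ := hper hN u u
      rw [hM M le_rfl, sum_eq_single 0]
      · rw [zero_mul, ht0, hu]
      · intro m _ hm
        refine u_free ht0 htadd hsymm hBt hκt hfar hneg hrad hu hu' (mul_ne_zero hm ?_)
        exact_mod_cast (by omega : N ≠ 0)
      · intro h
        exact absurd (mem_Icc.2 ⟨by linarith [Int.natCast_nonneg M], Int.natCast_nonneg _⟩) h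
    · have h1 := F.IN_per N hN _ (F.kap_mem_N N) _ u.2
      rw [← hκ, hu'] at h1
      exact_mod_cast h1
  have hne : ∃ u, B u u = -1 ∧ κ u = -1 := by
    obtain ⟨N, -, hN, h⟩ := F.exists_N 0
    obtain ⟨n, e, hn, hOB⟩ := F.exists_OB hN
    have g1 := hOB.gram ⟨0, hn⟩ ⟨0, hn⟩
    rw [if_pos rfl] at g1
    obtain ⟨x, hx, h1, h2, -⟩ := h (e ⟨0, hn⟩) ⟨(e _).2, g1, hOB.kap _⟩
    refine ⟨⟨x, hx⟩, ?_, ?_⟩
    · have : ((B ⟨x, hx⟩ ⟨x, hx⟩ : ℤ) : ℝ) = ((-1 : ℤ) : ℝ) := by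
        rw [hB]; push_cast; exact h1
      exact_mod_cast this
    · have : ((κ ⟨x, hx⟩ : ℤ) : ℝ) = ((-1 : ℤ) : ℝ) := by
        rw [hκ]; push_cast; exact h2
      exact_mod_cast this
  have hfin : ∃ n : ℕ, ∀ v : Fin (n + 1) → ↥P.Z2c, (∀ i, B (v i) (v i) = -1 ∧ κ (v i) = -1) →
      ∃ i j, i ≠ j ∧ ∃ m : ℤ, B (tH P m (v i)) (v j) ≠ 0 := by
    obtain ⟨n, e, hn, hOB⟩ := F.exists_OB (N := 1) le_rfl
    refine ⟨n, fun v hv => ?_⟩
    have hex : ∀ i, ∃ l : Fin n, ∀ w : ↥(P.Z2p 1), F.IN 1 (P.per 1 (v i)) w = F.IN 1 (e l) w := by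
      intro i
      have hu := hunit le_rfl (v i) (hv i).1 (hv i).2
      exact hOB.unit (x := ⟨_, hu.1⟩) hu.2
    choose l hl using hex
    obtain ⟨i, j, hij, hlij⟩ := Fintype.exists_ne_map_eq_of_card_lt l (by simp)
    refine ⟨i, j, hij, ?_⟩
    by_contra hcon
    push Not at hcon
    have hj := hunit le_rfl (v j) (hv j).1 (hv j).2
    have h1 : F.IN 1 (P.per 1 (v i)) (P.per 1 (v j)) = -1 := by
      rw [hl i ⟨_, hj.1⟩, hlij, ← hl j ⟨_, hj.1⟩]
      exact hj.2.1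
    obtain ⟨M, hM⟩ := hper le_rfl (v i) (v j)
    rw [hM M le_rfl, sum_eq_zero fun m _ => hcon _] at h1
    norm_num at h1
  have hloc : ∀ y, (∀ u, B u u = -1 → κ u = -1 → B y u = 0) → B y y = 0 := by
    intro y hy
    obtain ⟨N₂, hN₂⟩ := F.IN_per_large y.2 y.2
    obtain ⟨N, hN2, hN, h⟩ := F.exists_N N₂
    obtain ⟨n, e, hn, hOB⟩ := F.exists_OB hN
    have h1 : ∀ i, F.IN N (P.per N y) (e i) = 0 := by
      intro i
      have g1 := hOB.gram i i
      rw [if_pos rfl] at g1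
      obtain ⟨x, hx, h1, h2, h3⟩ := h (e i) ⟨(e i).2, g1, hOB.kap _⟩
      have hxu : B ⟨x, hx⟩ ⟨x, hx⟩ = -1 := by
        have : ((B ⟨x, hx⟩ ⟨x, hx⟩ : ℤ) : ℝ) = ((-1 : ℤ) : ℝ) := by
          rw [hB]; push_cast; exact h1
        exact_mod_cast this
      have hxk : κ ⟨x, hx⟩ = -1 := by
        have : ((κ ⟨x, hx⟩ : ℤ) : ℝ) = ((-1 : ℤ) : ℝ) := by
          rw [hκ]; push_cast; exact h2
        exact_mod_cast this
      rw [F.IN_symm N hN _ (P.per_mem hN y.2) _ (e i).2, h3 _ (P.per_mem hN y.2)]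
      obtain ⟨M, hM⟩ := hper hN ⟨x, hx⟩ y
      have hM' := hM M le_rfl
      rw [hM']
      refine sum_eq_zero fun m _ => ?_
      rw [hsymm]
      exact hy _ (by rw [hBt, hxu]) (by rw [hκt, hxk])
    have h2 : F.IN N (P.per N y) (P.per N y) = 0 := by
      have := hOB.span ⟨P.per N y, P.per_mem hN y.2⟩ ⟨P.per N y, P.per_mem hN y.2⟩
      have g : F.IN N (P.per N y) (P.per N y) =
        - ∑ i, F.IN N (P.per N y) (e i) * F.IN N (P.per N y) (e i) := this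
      rw [g, sum_eq_zero fun i _ => by rw [h1 i, zero_mul], neg_zero]
    have h3 := hN₂ N hN2
    rw [h2] at h3
    have : ((B y y : ℤ) : ℝ) = 0 := by rw [hB, ← h3]; simp
    exact_mod_cast this
  obtain ⟨b, e, hb, he, hgram, hspan⟩ := orthobasis ht0 htadd hsymm hBt hκt hfar hneg hrad hne
    hfin hloc
  refine ⟨b, fun i => e i, hb, fun i => (e i).2, fun i => ?_, fun i j n m => ?_, fun x hx => ?_⟩
  · rw [← hκ, (he i).2]; simp
  · have := hB (tH P n (e i)) (tH P m (e j))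
    rw [hgram] at this
    refine Eq.trans this.symm ?_
    split_ifs <;> simp
  · obtain ⟨S, hS, hS0⟩ := hspan ⟨x, hx⟩
    have hmem : ∑ s ∈ S, (-(B ⟨x, hx⟩ (tH P s.2 (e s.1)))) • P.sh s.2 (e s.1) ∈ P.Z2c :=
      P.Z2c.sum_mem fun s _ => P.Z2c.zsmul_mem (P.sh_mem_Z2c (e s.1).2 _) _
    refine ⟨S, fun s => -(B ⟨x, hx⟩ (tH P s.2 (e s.1))), fun s => ?_, fun s hs => ?_,
      P.Z2c.sub_mem hx hmem, ?_⟩
    · have := hB ⟨x, hx⟩ (tH P s.2 (e s.1))
      push_cast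
      rw [this, neg_neg]
      rfl
    · change -(B ⟨x, hx⟩ (tH P s.2 (e s.1))) = 0
      rw [hS s hs, neg_zero]
    · have e1 : (((⟨x, hx⟩ : ↥P.Z2c) + ∑ s ∈ S, B ⟨x, hx⟩ (tH P s.2 (e s.1)) • tH P s.2 (e s.1) :
          ↥P.Z2c) : C2 V) = x - ∑ s ∈ S, (-(B ⟨x, hx⟩ (tH P s.2 (e s.1)))) • P.sh s.2 (e s.1) := by
        rw [AddSubgroup.coe_add, AddSubgroup.val_finsetSum, sub_eq_add_neg, ← sum_neg_distrib]
        congr 1
        refine sum_congr rfl fun s _ => ?_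
        rw [neg_smul, neg_neg]
        rfl
      have := hB ((⟨x, hx⟩ : ↥P.Z2c) + ∑ s ∈ S, B ⟨x, hx⟩ (tH P s.2 (e s.1)) • tH P s.2 (e s.1))
        ((⟨x, hx⟩ : ↥P.Z2c) + ∑ s ∈ S, B ⟨x, hx⟩ (tH P s.2 (e s.1)) • tH P s.2 (e s.1))
      rw [hS0, e1] at this
      rw [← this]
      simp

end Forms

end Crest.Agent.R275.Loc647
end
end

-- ▼ part R275/LocQ_647
section

/-!
R275 (S0418), helper647, block K': packaged form of the localisation theorem (numbers, the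
quadratic function `q`, properties (D3)-(D6) of doc 1015 at the level of `Z2c`).
-/

set_option autoImplicit false

open Finset

noncomputable section

namespace Crest.Agent.R275.Loc647

namespace Forms

variable {V : Type*} {P : Nerve V} (F : Forms P)

theorem IY_sum_right {ι : Type*} (S : Finset ι) {c : C2 V} {x : ι → C2 V}
    (hc : c ∈ P.Z2) (hx : ∀ i, x i ∈ P.Z2c) :
    F.IY c (∑ i ∈ S, x i) = ∑ i ∈ S, F.IY c (x i) := by
  have e : (⟨∑ i ∈ S, x i, P.Z2c.sum_mem fun i _ => hx i⟩ : ↥P.Z2c) = ∑ i ∈ S, ⟨x i, hx i⟩ := by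
    apply Subtype.ext
    rw [AddSubgroup.val_finsetSum]
  have := congrArg (fun t => F.BR ⟨c, hc⟩ t) e
  simp only [map_sum] at this
  exact this

theorem IY_zsmul_right {c x : C2 V} (hc : c ∈ P.Z2) (hx : x ∈ P.Z2c) (m : ℤ) :
    F.IY c (m • x) = m * F.IY c x := by
  have : F.BR ⟨c, hc⟩ (m • ⟨x, hx⟩) = m • F.BR ⟨c, hc⟩ ⟨x, hx⟩ := map_zsmul _ _ _
  rw [zsmul_eq_mul] at this
  exact this

theorem IY_neg_right {c x : C2 V} (hc : c ∈ P.Z2) (hx : x ∈ P.Z2c) :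
    F.IY c (-x) = - F.IY c x := by
  have : F.BR ⟨c, hc⟩ (-⟨x, hx⟩) = - F.BR ⟨c, hc⟩ ⟨x, hx⟩ := map_neg _ _
  exact this

/-- Data of the orthonormal basis `e i n = g^n e i 0` of `H^2_c(Y, ℤ)` modulo the radical, with the
coordinates `a x : Fin b × ℤ →₀ ℤ` of a class. -/
structure Basis (F : Forms P) where
  b : ℕ
  hb : 0 < b
  e : Fin b → ℤ → C2 V
  a : ↥P.Z2c → (Fin b × ℤ →₀ ℤ)
  e_mem : ∀ i n, e i n ∈ P.Z2c
  /-- `e i (n + m)` is the pull-back of `e i n` by `g^m` -/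
  e_sh : ∀ i n m, P.sh m (e i n) = e i (n + m)
  gram : ∀ i j n m, F.IY (e i n) (e j m) = if i = j ∧ n = m then -1 else 0
  kap_e : ∀ i n, F.IY F.kap (e i n) = -1
  IY_e : ∀ (x : ↥P.Z2c) (s : Fin b × ℤ), F.IY x (e s.1 s.2) = -(a x s)
  /-- every class is a combination of the `e i n` modulo the radical -/
  IY_eq : ∀ x y : ↥P.Z2c, F.IY x y = - ∑ s ∈ (a x).support, (a x s : ℝ) * a y s
  IY_kap : ∀ x : ↥P.Z2c, F.IY F.kap x = - ∑ s ∈ (a x).support, (a x s : ℝ)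
  a_add : ∀ x y, a (x + y) = a x + a y

theorem exists_Basis : Nonempty F.Basis := by
  classical
  obtain ⟨b, e, hb, he, hk, hgram, hspan⟩ := F.localisation
  choose S a ha hS hmem hrad using fun x : ↥P.Z2c => hspan x x.2
  have hem : ∀ i n, P.sh n (e i) ∈ P.Z2c := fun i n => P.sh_mem_Z2c (he i) n
  let A : ↥P.Z2c → (Fin b × ℤ →₀ ℤ) := fun x =>
    Finsupp.onFinset (S x) (a x) (fun s hs => by by_contra h; exact hs (hS x s h))
  have hAa : ∀ x s, A x s = a x s := fun x s => rfl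
  have hIe : ∀ (x : ↥P.Z2c) (s : Fin b × ℤ), F.IY x (P.sh s.2 (e s.1)) = -(a x s) := ha
  -- expansion
  have hsum : ∀ (x : ↥P.Z2c) (c : C2 V) (_ : c ∈ P.Z2),
      F.IY c x = F.IY c (x - ∑ s ∈ S x, a x s • P.sh s.2 (e s.1)) +
        ∑ s ∈ S x, (a x s : ℝ) * F.IY c (P.sh s.2 (e s.1)) := by
    intro x c hc
    have h1 : ∀ s ∈ S x, (a x s : ℝ) * F.IY c (P.sh s.2 (e s.1)) =
        F.IY c (a x s • P.sh s.2 (e s.1)) := fun s _ => (F.IY_zsmul_right hc (hem _ _) _).symm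
    rw [sum_congr rfl h1, ← F.IY_sum_right _ hc (fun s => P.Z2c.zsmul_mem (hem _ _) _),
      ← F.IY_add_right _ hc _ (hmem x) _
        (P.Z2c.sum_mem fun s _ => P.Z2c.zsmul_mem (hem _ _) _), sub_add_cancel]
  have hsupp : ∀ (x : ↥P.Z2c) (f : Fin b × ℤ → ℝ),
      ∑ s ∈ S x, (a x s : ℝ) * f s = ∑ s ∈ (A x).support, (A x s : ℝ) * f s := by
    intro x f
    symm
    refine sum_subset (Finsupp.support_onFinset_subset) fun s _ hs => ?_
    rw [Finsupp.notMem_support_iff] at hs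
    rw [hs]; simp
  have hIY : ∀ x y : ↥P.Z2c, F.IY x y = - ∑ s ∈ (A x).support, (A x s : ℝ) * A y s := by
    intro x y
    rw [F.IY_symm _ x.2 _ y.2, hsum x y y.2.1, F.IY_symm _ y.2 _ (hmem x),
      F.IY_rad (hmem x) (hrad x) y.2, zero_add, ← hsupp x (fun s => (A y s : ℝ)),
      ← sum_neg_distrib]
    refine sum_congr rfl fun s _ => ?_
    rw [hIe y s]
    rw [hAa]
    ring
  refine ⟨⟨b, hb, fun i n => P.sh n (e i), A, hem, fun i n m => ?_, fun i j n m => hgram i j n m,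
    fun i n => ?_, fun x s => hIe x s, hIY, fun x => ?_, fun x y => ?_⟩⟩
  · rw [P.sh_sh, add_comm]
  · rw [F.IY_kap_sh n (he i), hk]
  · rw [hsum x _ (P.Z2p_le 1 F.kap_mem), F.IY_kap_of_rad (hmem x) (hrad x), zero_add]
    have h1 : ∀ s ∈ S x, (a x s : ℝ) * F.IY F.kap (P.sh s.2 (e s.1)) = (a x s : ℝ) * (-1) := by
      intro s _
      rw [F.IY_kap_sh _ (he _), hk]
    rw [sum_congr rfl h1, hsupp x (fun _ => (-1 : ℝ)), ← sum_neg_distrib]
    exact sum_congr rfl fun s _ => by ring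
  · ext s
    rw [Finsupp.add_apply, hAa, hAa, hAa]
    have h1 := hIe (x + y) s
    have h2 := hIe x s
    have h3 := hIe y s
    have h4 : F.IY ((x + y : ↥P.Z2c) : C2 V) (P.sh s.2 (e s.1)) =
        F.IY x (P.sh s.2 (e s.1)) + F.IY y (P.sh s.2 (e s.1)) :=
      F.IY_add_left _ x.2.1 _ y.2.1 _ (hem _ _)
    rw [h1, h2, h3] at h4
    have h5 : ((a (x + y) s : ℤ) : ℝ) = ((a x s + a y s : ℤ) : ℝ) := by
      push_cast
      linarith
    exact_mod_cast h5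

namespace Basis

variable {F} (D : F.Basis)

/-- the quadratic function `q(c) = (c.c - κ.c)/2 = -½ ∑ a (a - 1)` -/
theorem q_eq (x : ↥P.Z2c) : F.IY x x - F.IY F.kap x =
    - ∑ s ∈ (D.a x).support, (D.a x s : ℝ) * ((D.a x s : ℝ) - 1) := by
  rw [D.IY_eq, D.IY_kap, ← sum_neg_distrib, ← sum_neg_distrib, ← sum_neg_distrib,
    ← sum_sub_distrib]
  exact sum_congr rfl fun s _ => by ring

include D in
/-- `c.c - κ.c` is twice a nonpositive integer -/
theorem exists_q (x : ↥P.Z2c) : ∃ q : ℤ, q ≤ 0 ∧ F.IY x x - F.IY F.kap x = 2 * q := by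
  have h : ∀ s, ∃ m : ℤ, 0 ≤ m ∧ D.a x s * (D.a x s - 1) = 2 * m := by
    intro s
    obtain ⟨m, hm⟩ := Int.even_mul_pred_self (D.a x s)
    have h1 : 0 ≤ D.a x s * (D.a x s - 1) := by
      rcases le_or_gt (D.a x s) 0 with h | h
      · exact mul_nonneg_of_nonpos_of_nonpos h (by linarith)
      · exact mul_nonneg h.le (by linarith [Int.add_one_le_iff.2 h])
    exact ⟨m, by omega, by omega⟩
  choose m hm0 hm using h
  refine ⟨-∑ s ∈ (D.a x).support, m s, ?_, ?_⟩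
  · have := sum_nonneg fun s (_ : s ∈ (D.a x).support) => hm0 s
    linarith
  · rw [D.q_eq]
    push_cast
    rw [mul_neg, mul_sum]
    congr 1
    refine sum_congr rfl fun s _ => ?_
    have := hm s
    have h2 : ((D.a x s * (D.a x s - 1) : ℤ) : ℝ) = ((2 * m s : ℤ) : ℝ) := by rw [this]
    push_cast at h2
    linarith


/-- a class with vanishing coordinates is in the radical -/
theorem rad_iff (x : ↥P.Z2c) : F.IY x x = 0 ↔ D.a x = 0 := by
  constructor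
  · intro h
    ext s
    have h1 := D.IY_e x s
    rw [F.IY_rad x.2 h (D.e_mem _ _)] at h1
    have : (D.a x s : ℝ) = 0 := by linarith
    simpa using this
  · intro h
    rw [D.IY_eq, h]
    simp

/-- coordinates of a basis vector -/
theorem a_e (i : Fin D.b) (n : ℤ) :
    D.a ⟨D.e i n, D.e_mem i n⟩ = Finsupp.single (i, n) 1 := by
  classical
  ext s
  have h1 := D.IY_e ⟨D.e i n, D.e_mem i n⟩ s
  rw [D.gram] at h1
  rw [Finsupp.single_apply]
  by_cases h : (i, n) = s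
  · rw [if_pos h]
    have h2 : i = s.1 ∧ n = s.2 := by rw [← h]; exact ⟨rfl, rfl⟩
    rw [if_pos h2] at h1
    have : (D.a ⟨D.e i n, D.e_mem i n⟩ s : ℝ) = 1 := by linarith
    exact_mod_cast this
  · rw [if_neg h]
    have h2 : ¬ (i = s.1 ∧ n = s.2) := fun h' => h (Prod.ext h'.1 h'.2)
    rw [if_neg h2] at h1
    have : (D.a ⟨D.e i n, D.e_mem i n⟩ s : ℝ) = 0 := by linarith
    exact_mod_cast this

end Basis

end Forms

end Crest.Agent.R275.Loc647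
end
end

-- ▼ part R275/EB_938

/-!
# R275, block P: the class lattice of the end line bundles (helper938)

`q0 F x` : reduced index of a compactly supported class, `2 q0 = x.x - κ.x`
`HN`     : `L` has the normalised class `c ∈ Nerve.Z2c`
`qL F L` : reduced index of an end line bundle
`exists_lat` (OUT8): `Lat (PP N h) (TG N.sm h) E (qL F)` (572) with an equivariant choice (672)
-/

set_option autoImplicit false
set_option linter.unusedSectionVars false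

open Set Filter Topology Complex
open scoped Manifold ContDiff

namespace Crest.Agent.R275.EB938

open Crest.AlgGeometry.Surface
open Crest.Agent.R275.Geo Crest.Agent.R275.GC293 Crest.Agent.R275.NAtl938
open Crest.Agent.R275.WD977 Crest.Agent.R275.Core144 Crest.Agent.R275.Cls938
open Crest.Agent.R275.LocT474 Crest.Agent.R275.Loc647
open Crest.Agent.R275.GeoP572 (TG Lat bq prodE)
open Crest.Agent.R275.BR4672 (gB)

noncomputable section

/-! ### the reduced index of a class -/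

section Q0

variable {V : Type*} {P : Nerve V} (F : Forms P)

/-- reduced index of a class -/
def q0 (x : C2 V) : ℤ := ⌊(F.IY x x - F.IY F.kap x) / 2⌋

theorem q0_spec {x : C2 V} (hx : x ∈ P.Z2c) :
    F.IY x x - F.IY F.kap x = 2 * (q0 F x : ℝ) ∧ q0 F x ≤ 0 := by
  obtain ⟨D⟩ := F.exists_Basis
  obtain ⟨q, hq0, hq⟩ := D.exists_q ⟨x, hx⟩
  have h1 : q0 F x = q := by
    unfold q0
    have : F.IY x x - F.IY F.kap x = 2 * (q : ℝ) := hq
    rw [this, mul_div_cancel_left₀ _ (two_ne_zero), Int.floor_intCast]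
  rw [h1]
  exact ⟨hq, hq0⟩

variable {F}

theorem q0_add {x y : C2 V} (hx : x ∈ P.Z2c) (hy : y ∈ P.Z2c) :
    ((q0 F (x + y) - q0 F x - q0 F y : ℤ) : ℝ) = F.IY x y := by
  have e1 := (q0_spec F hx).1
  have e2 := (q0_spec F hy).1
  have e3 := (q0_spec F (P.Z2c.add_mem hx hy)).1
  have hk := P.Z2p_le 1 F.kap_mem
  rw [F.IY_add_right _ hk _ hx _ hy, F.IY_add_left _ hx.1 _ hy.1 _ (P.Z2c.add_mem hx hy),
    F.IY_add_right _ hx.1 _ hx _ hy, F.IY_add_right _ hy.1 _ hx _ hy, F.IY_symm _ hy _ hx] at e3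
  push_cast
  linarith

theorem IY_zero_left {x : C2 V} (hx : x ∈ P.Z2c) : F.IY 0 x = 0 := by
  have := F.IY_add_left 0 P.Z2.zero_mem 0 P.Z2.zero_mem x hx
  rw [add_zero] at this
  linarith

theorem q0_zero : q0 F 0 = 0 := by
  have h1 := q0_add (F := F) P.Z2c.zero_mem P.Z2c.zero_mem
  rw [IY_zero_left P.Z2c.zero_mem, add_zero] at h1
  have h2 : q0 F 0 - q0 F 0 - q0 F 0 = 0 := by exact_mod_cast h1
  omega

theorem q0_neg {x : C2 V} (hx : x ∈ P.Z2c) :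
    ((q0 F x + q0 F (-x) : ℤ) : ℝ) = F.IY x x := by
  have h1 := q0_add (F := F) hx (P.Z2c.neg_mem hx)
  rw [add_neg_cancel, q0_zero, F.IY_neg_right hx.1 hx] at h1
  push_cast at h1 ⊢
  linarith

/-- `q0 x = q0 (-x) = 0` iff `x` is in the radical -/
theorem q0_eq_zero {x : C2 V} (hx : x ∈ P.Z2c) (h0 : F.IY x x = 0) :
    q0 F x = 0 ∧ q0 F (-x) = 0 := by
  have h1 := q0_neg (F := F) hx
  rw [h0] at h1
  have h2 : q0 F x + q0 F (-x) = 0 := by exact_mod_cast h1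
  have h3 := (q0_spec F hx).2
  have h4 := (q0_spec F (P.Z2c.neg_mem hx)).2
  omega

theorem q0_d1 {b : V → V → ℤ} {R : ℤ} (hR : ∀ i j, b i j ≠ 0 → |P.p i| ≤ R) {x x' : C2 V}
    (hx' : x' ∈ P.Z2c) (he : x = x' + P.d1 b) : q0 F x = q0 F x' := by
  have hb := d1_mem_Z2c (P := P) hR
  have h1 := q0_add (F := F) hx' hb
  rw [F.IY_symm _ hx' _ hb, Forms.IY_cob F hR hx'] at h1
  have h2 : q0 F (x' + P.d1 b) - q0 F x' - q0 F (P.d1 b) = 0 := by exact_mod_cast h1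
  have h3 := (q0_eq_zero (F := F) hb (Forms.IY_cob F hR hb)).1
  rw [he]
  omega

end Q0

/-! ### normalised classes -/

section Cl

variable {Y : Type} [TopologicalSpace Y] {N : NAtl 2 Y} {g : Y ≃ₜ Y} {h : Y → ℝ}
  {Pn : Nerve N.ι}

/-- `L` has the normalised class `c` -/
def HN (Pn : Nerve N.ι) (h : Y → ℝ) (L : LB N.sm) (c : C2 N.ι) : Prop :=
  c ∈ Pn.Z2c ∧ HasCls N.sm h L.g c

variable {L L' : LB N.sm} {c c' : C2 N.ι}

theorem HN.hc (H : NL N h Pn) (hc : HN Pn h L c) : HC N h L c :=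
  ⟨⟨mem_Z2_of_Z2c H hc.1.1, fin3_of_Z2c hc.1⟩, hc.2⟩

theorem hn_of_hc (H : NL N h Pn) (hc : HC N h L c) : HN Pn h L (nz Pn c) :=
  ⟨mem_Z2c_nz H hc.1.1 hc.1.2, hasCls_nz H hc.2⟩

theorem mem_PP_iff (H : NL N h Pn) : L ∈ PP N h ↔ ∃ c, HN Pn h L c :=
  ⟨fun ⟨_, hc⟩ => ⟨_, hn_of_hc H hc⟩, fun ⟨c, hc⟩ => ⟨c, hc.hc H⟩⟩

theorem HN.mul (H : HN Pn h L c) (H' : HN Pn h L' c') : HN Pn h (L * L') (c + c') :=
  ⟨Pn.Z2c.add_mem H.1 H'.1, H.2.mul H'.2⟩

theorem HN.inv (H : HN Pn h L c) : HN Pn h L⁻¹ (-c) := ⟨Pn.Z2c.neg_mem H.1, H.2.inv⟩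

theorem HN.one : HN Pn h (1 : LB N.sm) 0 := ⟨Pn.Z2c.zero_mem, hasCls_one⟩

theorem HN.pow (H : HN Pn h L c) (n : ℕ) : HN Pn h (L ^ n) (n • c) := by
  induction n with
  | zero => rw [pow_zero, zero_smul]; exact HN.one
  | succ n ih => rw [pow_succ, succ_nsmul]; exact ih.mul H

theorem HN.zpow (H : HN Pn h L c) (n : ℤ) : HN Pn h (L ^ n) (n • c) := by
  obtain ⟨m, rfl | rfl⟩ := n.eq_nat_or_neg
  · rw [zpow_natCast, natCast_zsmul]; exact H.pow m
  · rw [zpow_neg, zpow_natCast, neg_smul, natCast_zsmul]; exact (H.pow m).inv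

theorem HN.prodE {B : Type*} {E : B → LB N.sm} {e : B → C2 N.ι} (H : ∀ β, HN Pn h (E β) (e β))
    (a : B →₀ ℤ) : HN Pn h (GeoP572.prodE E a) (a.sum fun β n => n • e β) := by
  classical
  induction a using Finsupp.induction_linear with
  | zero => rw [GeoP572.prodE_zero, Finsupp.sum_zero_index]; exact HN.one
  | add f f' hf hf' =>
    rw [GeoP572.prodE_add, Finsupp.sum_add_index' (h := fun β (n : ℤ) => n • e β)
      (fun β => zero_smul _ _) (fun β m n => add_smul _ _ _)]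
    exact hf.mul hf'
  | single β n =>
    rw [GeoP572.prodE_single, Finsupp.sum_single_index (h := fun β (n : ℤ) => n • e β)
      (zero_smul _ _)]
    exact (H β).zpow n

/-- uniqueness of the normalised class -/
theorem HN.unique (G : N.Good) (Q : N.Per g h) (Pa : Part N.sm) (H : NL N h Pn)
    (hc : HN Pn h L c) (hc' : HN Pn h L c') :
    ∃ (b : N.ι → N.ι → ℤ) (R : ℤ), (∀ i j, b i j ≠ 0 → |Pn.p i| ≤ R) ∧ c = c' + Pn.d1 b := by
  obtain ⟨b, fb, hb⟩ := HC.cob G Q Pa (hc.hc H) (hc'.hc H)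
  have h1 : ((fun p : N.ι × N.ι => |Pn.p p.1|) '' {p | b p.1 p.2 ≠ 0}).Finite := fb.image _
  obtain ⟨R, hR⟩ := h1.bddAbove
  refine ⟨b, R, fun i j hij => hR ⟨(i, j), hij, rfl⟩, ?_⟩
  funext i j k
  by_cases h3 : Pn.N3 i j k
  · have := hb i j k (H.n3_big.1 h3)
    rw [Pi.add_apply, Pi.add_apply, Pi.add_apply, Pn.d1_of b h3]
    linarith
  · rw [Pi.add_apply, Pi.add_apply, Pi.add_apply, Pn.d1_of_not b h3, hc.1.1.1 i j k h3,
      hc'.1.1.1 i j k h3, add_zero]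

open Classical in
/-- reduced index of an end line bundle -/
def qL (F : Forms Pn) (h : Y → ℝ) (L : LB N.sm) : ℤ :=
  if hL : ∃ c, HN Pn h L c then q0 F hL.choose else 0

theorem qL_eq (G : N.Good) (Q : N.Per g h) (Pa : Part N.sm) (H : NL N h Pn) (F : Forms Pn)
    (hc : HN Pn h L c) : qL F h L = q0 F c := by
  have hex : ∃ c, HN Pn h L c := ⟨c, hc⟩
  unfold qL
  rw [dif_pos hex]
  obtain ⟨b, R, hR, hb⟩ := HN.unique G Q Pa H hex.choose_spec hc
  exact q0_d1 hR hc.1 hb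


theorem bq_eq (G : N.Good) (Q : N.Per g h) (Pa : Part N.sm) (H : NL N h Pn) (F : Forms Pn)
    (hc : HN Pn h L c) (hc' : HN Pn h L' c') :
    ((bq (qL F h) L L' : ℤ) : ℝ) = F.IY c c' := by
  unfold bq
  rw [qL_eq G Q Pa H F hc, qL_eq G Q Pa H F hc', qL_eq G Q Pa H F (hc.mul hc')]
  exact q0_add hc.1 hc'.1

end Cl

/-! ### the class lattice -/

section Lattice

variable {Y : Type} [TopologicalSpace Y] {N : NAtl 2 Y} {g : Y ≃ₜ Y} {h : Y → ℝ}
  {Pn : Nerve N.ι}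

/-- the classes of the unit bundles, `(i, n) ↦ e i (-n)` -/
def eB {F : Forms Pn} (D : F.Basis) (β : Fin D.b × ℤ) : C2 N.ι := D.e β.1 (-β.2)

theorem eB_mem {F : Forms Pn} (D : F.Basis) (β : Fin D.b × ℤ) : eB D β ∈ Pn.Z2c := D.e_mem _ _

theorem eB_sh {F : Forms Pn} (D : F.Basis) (β : Fin D.b × ℤ) :
    Pn.sh 1 (eB D (gB _ β)) = eB D β := by
  unfold eB
  rw [D.e_sh]
  congr 1
  simp

theorem eB_gram {F : Forms Pn} (D : F.Basis) (β β' : Fin D.b × ℤ) :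
    F.IY (eB D β) (eB D β') = if β = β' then -1 else 0 := by
  unfold eB
  rw [D.gram]
  congr 1
  rw [neg_inj, Prod.ext_iff]

theorem q0_eB {F : Forms Pn} (D : F.Basis) (β : Fin D.b × ℤ) : q0 F (eB D β) = 0 := by
  have h1 := (q0_spec F (eB_mem D β)).1
  have h2 : F.IY (eB D β) (eB D β) = -1 := by rw [eB_gram, if_pos rfl]
  have h3 : F.IY F.kap (eB D β) = -1 := D.kap_e _ _
  rw [h2, h3] at h1
  have : (q0 F (eB D β) : ℝ) = 0 := by linarith
  exact_mod_cast this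

/-- every class is a combination of the unit classes modulo the radical -/
theorem exists_coord {F : Forms Pn} (D : F.Basis) {c : C2 N.ι} (hc : c ∈ Pn.Z2c) :
    ∃ a : Fin D.b × ℤ →₀ ℤ, c - (a.sum fun β n => n • eB D β) ∈ Pn.Z2c ∧
      F.IY (c - (a.sum fun β n => n • eB D β)) (c - (a.sum fun β n => n • eB D β)) = 0 := by
  classical
  -- the coordinate map
  let aH : ↥Pn.Z2c →+ (Fin D.b × ℤ →₀ ℤ) := AddMonoidHom.mk' D.a D.a_add
  -- index change `(i, n) ↦ (i, -n)`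
  let σ : Fin D.b × ℤ ≃ Fin D.b × ℤ := (Equiv.refl _).prodCongr (Equiv.neg ℤ)
  refine ⟨(D.a ⟨c, hc⟩).equivMapDomain σ, ?_⟩
  set a := D.a ⟨c, hc⟩ with ha
  have hs : ((a.equivMapDomain σ).sum fun β n => n • eB D β) = a.sum fun s n => n • D.e s.1 s.2 := by
    rw [Finsupp.equivMapDomain_eq_mapDomain, Finsupp.sum_mapDomain_index]
    · refine Finsupp.sum_congr fun s _ => ?_
      simp [eB, σ]
    · intro β; exact zero_smul _ _
    · intro β m n; exact add_smul _ _ _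
  rw [hs]
  have hm : (a.sum fun s n => n • D.e s.1 s.2) ∈ Pn.Z2c :=
    Pn.Z2c.sum_mem fun s _ => Pn.Z2c.zsmul_mem (D.e_mem _ _) _
  have hmem := Pn.Z2c.sub_mem hc hm
  refine ⟨hmem, ?_⟩
  have h1 : D.a ⟨_, hmem⟩ = 0 := by
    have e1 : (⟨_, hmem⟩ : ↥Pn.Z2c) = ⟨c, hc⟩ - a.sum fun s n => n • ⟨D.e s.1 s.2, D.e_mem _ _⟩ := by
      apply Subtype.ext
      rw [AddSubgroup.coe_sub]
      unfold Finsupp.sum
      rw [AddSubgroup.val_finsetSum]
      rfl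
    have e2 : D.a ⟨_, hmem⟩ = aH ⟨_, hmem⟩ := rfl
    have e3 : ∀ s : Fin D.b × ℤ, aH ⟨D.e s.1 s.2, D.e_mem _ _⟩ = Finsupp.single s 1 :=
      fun s => D.a_e s.1 s.2
    rw [e2, e1, map_sub, Finsupp.sum, map_sum]
    simp only [map_zsmul, e3]
    have e4 : aH ⟨c, hc⟩ = a := rfl
    rw [e4]
    have e5 : ∑ s ∈ a.support, a s • Finsupp.single s (1 : ℤ) = a := by
      conv_rhs => rw [← Finsupp.sum_single a]
      rw [Finsupp.sum]
      refine Finset.sum_congr rfl fun s _ => ?_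
      rw [Finsupp.smul_single, smul_eq_mul, mul_one]
    rw [e5, sub_self]
  exact (D.rad_iff ⟨_, hmem⟩).2 h1

/-- **the class lattice (OUT8)**: hypotheses `hT` = TRIV (`q(L) = q(L⁻¹) = 0 ⟹ L` trivial),
`hI` = ISO (a trivial end line bundle has a trivial class) -/
theorem lat (G : N.Good) (Q : N.Per g h) (Pa : Part N.sm) (H : NL N h Pn) {F : Forms Pn}
    (D : F.Basis)
    (hT : ∀ L ∈ PP N h, qL F h L = 0 → qL F h L⁻¹ = 0 → TrivP h L)
    (hI : ∀ L ∈ PP N h, TrivP h L → ∃ s, IsIso N.sm h (1 : LB N.sm).g L.g s)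
    {E : Fin D.b × ℤ → LB N.sm} (hE : ∀ β, HN Pn h (E β) (eB D β)) :
    Lat (PP N h) (TG N.sm h) E (qL F h) where
  E_mem β := (mem_PP_iff H).2 ⟨_, hE β⟩
  q_iso L hL L' hL' hLL' := by
    obtain ⟨c, hc⟩ := (mem_PP_iff H).1 hL
    obtain ⟨c', hc'⟩ := (mem_PP_iff H).1 hL'
    have hK := hc'.mul hc.inv
    obtain ⟨s, hs⟩ := hI _ ((mem_PP_iff H).2 ⟨_, hK⟩) hLL'
    have h0 : HC N h (1 : LB N.sm) 0 := HC.one
    have hK' := HN.hc H hK
    obtain ⟨b, fb, -, hb⟩ := Loc2474.exists_cob_of_iso G Pa Q h0.1.1 h0.1.2 hK'.1.1 hK'.1.2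
      h0.2 hK.2 hs
    have h1 : ((fun p : N.ι × N.ι => |Pn.p p.1|) '' {p | b p.1 p.2 ≠ 0}).Finite := fb.image _
    obtain ⟨R, hR⟩ := h1.bddAbove
    have hcc : c' = c + Pn.d1 b := by
      funext i j k
      by_cases h3 : Pn.N3 i j k
      · have := hb i j k ((H.n3 i j k).1 h3)
        rw [Pi.add_apply, Pi.add_apply, Pi.add_apply, Pn.d1_of b h3]
        simp only [Pi.add_apply, Pi.neg_apply, Pi.zero_apply] at this
        linarith
      · rw [Pi.add_apply, Pi.add_apply, Pi.add_apply, Pn.d1_of_not b h3, hc.1.1.1 i j k h3,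
          hc'.1.1.1 i j k h3, add_zero]
    rw [qL_eq G Q Pa H F hc, qL_eq G Q Pa H F hc']
    exact q0_d1 (fun i j hij => hR ⟨(i, j), hij, rfl⟩) hc.1 hcc
  b_add L hL L' hL' L'' hL'' := by
    obtain ⟨c, hc⟩ := (mem_PP_iff H).1 hL
    obtain ⟨c', hc'⟩ := (mem_PP_iff H).1 hL'
    obtain ⟨c'', hc''⟩ := (mem_PP_iff H).1 hL''
    have e1 := bq_eq G Q Pa H F (hc.mul hc') hc''
    have e2 := bq_eq G Q Pa H F hc hc''
    have e3 := bq_eq G Q Pa H F hc' hc''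
    rw [F.IY_add_left _ hc.1.1 _ hc'.1.1 _ hc''.1, ← e2, ← e3] at e1
    exact_mod_cast e1
  b_self β := by
    have e1 := bq_eq G Q Pa H F (hE β) (hE β)
    rw [eB_gram, if_pos rfl] at e1
    exact_mod_cast e1
  b_ne β β' hne := by
    have e1 := bq_eq G Q Pa H F (hE β) (hE β')
    rw [eB_gram, if_neg hne] at e1
    exact_mod_cast e1
  q_E β := by rw [qL_eq G Q Pa H F (hE β), q0_eB]
  span L hL := by
    obtain ⟨c, hc⟩ := (mem_PP_iff H).1 hL
    obtain ⟨a, ha1, ha2⟩ := exists_coord D hc.1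
    refine ⟨a, ?_⟩
    have hK := hc.mul (HN.prodE hE a).inv
    rw [← sub_eq_add_neg] at hK
    obtain ⟨z1, z2⟩ := q0_eq_zero ha1 ha2
    refine hT _ ((mem_PP_iff H).2 ⟨_, hK⟩) ?_ ?_
    · rw [qL_eq G Q Pa H F hK, z1]
    · rw [qL_eq G Q Pa H F hK.inv, z2]

end Lattice

/-! ### existence of the equivariant unit bundles -/

section Exist

variable {Y : Type} [TopologicalSpace Y] [ChartedSpace C2 Y] [IsManifold 𝓘(ℂ, C2) 1 Y]
  {N : NAtl 2 Y} {g : Y ≃ₜ Y} {h : Y → ℝ} {Pn : Nerve N.ι}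

/-- classes of pull backs -/
theorem hn_pull_iff (Qe : Equi N.sm g) (hs : ∀ i, Qe.sh i = Pn.g i) (hh : ∀ y, h (g y) = h y - 1)
    {L : LB N.sm} {c : C2 N.ι} : HN Pn h (pullL Qe L) (Pn.sh 1 c) ↔ HN Pn h L c := by
  have e1 : Pn.sh 1 c = Cls672.twc (Qe.sh : Equiv.Perm N.ι) c := by
    funext i j k
    have h1 : ∀ i : N.ι, (Pn.g ^ (1 : ℤ)) i = Qe.sh i := fun i => by rw [zpow_one]; exact (hs i).symm
    show c ((Pn.g ^ (1 : ℤ)) i) ((Pn.g ^ (1 : ℤ)) j) ((Pn.g ^ (1 : ℤ)) k) =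
      c (Qe.sh i) (Qe.sh j) (Qe.sh k)
    rw [h1, h1, h1]
  constructor
  · rintro ⟨h1, h2⟩
    refine ⟨?_, ?_⟩
    · have := Pn.sh_mem_Z2c h1 (-1)
      rwa [Pn.sh_sh, neg_add_cancel, Pn.sh_zero] at this
    · rw [e1, BR4672.pullL_eq] at h2
      exact (Cls672.twL_hasCls_iff (BR4672.sy_equi Qe) hh).1 h2
  · rintro ⟨h1, h2⟩
    refine ⟨Pn.sh_mem_Z2c h1 1, ?_⟩
    rw [e1, BR4672.pullL_eq]
    exact (Cls672.twL_hasCls_iff (BR4672.sy_equi Qe) hh).2 h2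

theorem pull_mem_PP_iff (H : NL N h Pn) (Qe : Equi N.sm g) (hs : ∀ i, Qe.sh i = Pn.g i)
    (hh : ∀ y, h (g y) = h y - 1) (L : LB N.sm) : pullL Qe L ∈ PP N h ↔ L ∈ PP N h := by
  rw [mem_PP_iff H, mem_PP_iff H]
  constructor
  · rintro ⟨c, hc⟩
    refine ⟨Pn.sh (-1) c, (hn_pull_iff Qe hs hh).1 ?_⟩
    rwa [Pn.sh_sh, add_neg_cancel, Pn.sh_zero]
  · rintro ⟨c, hc⟩
    exact ⟨_, (hn_pull_iff Qe hs hh).2 hc⟩

/-- **OUT8.**  Equivariant unit bundles with their sections.  Hypotheses: `hEX` existence of the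
bundles, `hT` = TRIV, `hI` = ISO, `hS` = existence of sections. -/
theorem exists_lat (G : N.Good) (Q : N.Per g h) (Pa : Part N.sm) (H : NL N h Pn) (F : Forms Pn)
    (Qe : Equi N.sm g) (hs : ∀ i, Qe.sh i = Pn.g i)
    (hEX : ∀ c ∈ Pn.Z2c, ∃ L : LB N.sm, HasCls N.sm h L.g c)
    (hT : ∀ L ∈ PP N h, qL F h L = 0 → qL F h L⁻¹ = 0 → TrivP h L)
    (hI : ∀ L ∈ PP N h, TrivP h L → ∃ s, IsIso N.sm h (1 : LB N.sm).g L.g s)
    (hS : ∀ K ∈ PP N h, qL F h K = 0 → ∃ s ∈ VL h K, LimL h s 1) :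
    ∃ (b : ℕ) (E : Fin b × ℤ → LB N.sm) (s : Fin b × ℤ → N.ι → Y → ℂ), 0 < b ∧
      Lat (PP N h) (TG N.sm h) E (qL F h) ∧
      (∀ β, pullL Qe (E (gB _ β)) = E β) ∧ (∀ β, pullS Qe (s (gB _ β)) = s β) ∧
      (∀ β, s β ∈ VL h (E β)) ∧ (∀ β, LimL (A := N.sm) h (s β) 1) ∧
      ∃ R : ℝ, ∀ β, ∃ e, HN Pn h (E β) e ∧ ∀ i j k, e i j k ≠ 0 → |(Pn.p i : ℝ) - β.2| ≤ R := by
  classical
  obtain ⟨D⟩ := F.exists_Basis
  have hh := Q.shift
  choose L hL using fun β => hEX (eB D β) (eB_mem D β)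
  have hLN : ∀ β, HN Pn h (L β) (eB D β) := fun β => ⟨eB_mem D β, hL β⟩
  have hlat := lat G Q Pa H D hT hI hLN
  have hP := pull_mem_PP_iff H Qe hs hh
  have hiso : ∀ β, IsoP h (pullL Qe (L (gB _ β))) (L β) := by
    intro β
    have h1 := (hn_pull_iff Qe hs hh).2 (hLN (gB _ β))
    rw [eB_sh] at h1
    have h2 := (hLN β).mul h1.inv
    rw [add_neg_cancel] at h2
    have h3 : HN Pn h (L β * (pullL Qe (L (gB _ β)))⁻¹)⁻¹ 0 := by
      have := h2.inv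
      rwa [neg_zero] at this
    refine hT _ ((mem_PP_iff H).2 ⟨_, h2⟩) ?_ ?_
    · rw [qL_eq G Q Pa H F h2, q0_zero]
    · rw [qL_eq G Q Pa H F h3, q0_zero]
  obtain ⟨E, s, hE, hE1, hs1, hs2, hs3, -⟩ := BR4672.exists_equi Qe hh (fun _ => Iff.rfl) hP hlat
    hiso hS
  refine ⟨D.b, E, s, D.hb, hE, hE1, hs1, hs2, hs3, ?_⟩
  -- classes and levels
  choose e0 he0 using fun i : Fin D.b => (mem_PP_iff H).1 (hE.E_mem (i, 0))
  have key : ∀ (i : Fin D.b) (n : ℤ), HN Pn h (E (i, n)) (Pn.sh (-n) (e0 i)) := by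
    intro i n
    induction n using Int.induction_on with
    | zero => rw [neg_zero, Pn.sh_zero]; exact he0 i
    | succ n ih =>
      rw [← hn_pull_iff Qe hs hh, Pn.sh_sh]
      have e1 : pullL Qe (E (i, (n : ℤ) + 1)) = E (i, (n : ℤ)) := hE1 (i, (n : ℤ))
      rw [e1, show (1 : ℤ) + -((n : ℤ) + 1) = -(n : ℤ) by ring]
      exact ih
    | pred n ih =>
      have e1 : pullL Qe (E (i, -(n : ℤ))) = E (i, -(n : ℤ) - 1) := by
        have := hE1 (i, -(n : ℤ) - 1)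
        rw [BR4672.gB_apply] at this
        rwa [show (-(n : ℤ) - 1 + 1) = -(n : ℤ) by ring] at this
      rw [← e1, show (-(-(n : ℤ) - 1)) = 1 + (- -(n : ℤ)) by ring, ← Pn.sh_sh,
        hn_pull_iff Qe hs hh]
      exact ih
  choose R hR using fun i => (he0 i).1.2
  refine ⟨∑ i, |(R i : ℝ)|, fun β => ⟨_, key β.1 β.2, fun i j k hne => ?_⟩⟩
  rw [Pn.sh_apply] at hne
  have h1 := hR β.1 _ _ _ hne
  rw [Pn.p_pow] at h1
  have h2 : |(Pn.p i : ℝ) - β.2| ≤ R β.1 := by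
    have : ((|Pn.p i + -β.2| : ℤ) : ℝ) ≤ R β.1 := by exact_mod_cast h1
    rwa [Int.cast_abs, Int.cast_add, Int.cast_neg, ← sub_eq_add_neg] at this
  refine h2.trans ((le_abs_self _).trans ?_)
  exact Finset.single_le_sum (f := fun i => |(R i : ℝ)|) (fun _ _ => abs_nonneg _)
    (Finset.mem_univ β.1)

end Exist

end

end Crest.Agent.R275.EB938
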