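import Crest.Agent.R275.EDRWd_890
import Crest.Agent.R213.ParamInt
import Crest.Agent.R275.NA7_763
import Crest.Agent.R266.Osgood

-- ▼ part R275/EDRFock_890
section

/-!
# R275, block EDR (helper890): the exterior differential in Fock form, Poincaré lemma

`Fock n κ` : the fibre `Λ^* (ℂ^n)_ℝ^* ⊗ ℂ` as an abstract Fock space: `E s` exterior
multiplication by `dz_a`, `dz̄_a`, `J s` the contractions.
`Φ.D u = ∑ s, E s (∂_s u)`; `D D = 0`; on convex sets `u = D (K u) + const` if `D u = 0`.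
-/

set_option autoImplicit false
set_option linter.unusedSectionVars false

open Set Filter Topology Complex MeasureTheory
open scoped ContDiff Matrix ComplexConjugate

namespace Crest.Agent.R275.EDR890

open Geo

noncomputable section

/-- Fock space data -/
structure Fock (n : ℕ) (κ : Type) [Fintype κ] [DecidableEq κ] where
  E : WI n → Matrix κ κ ℂ
  J : WI n → Matrix κ κ ℂ
  deg : κ → ℕ
  E_deg : ∀ s k l, E s k l ≠ 0 → deg k = deg l + 1
  EE : ∀ s r, E s * E r + E r * E s = 0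
  EJ : ∀ s r, E s * J r + J r * E s = if s = r then 1 else 0
  num : ∑ s, E s * J s = Matrix.diagonal (fun k => (deg k : ℂ))

namespace Fock

variable {n : ℕ} {κ : Type} [Fintype κ] [DecidableEq κ] (Φ : Fock n κ)

/-- the exterior differential -/
def D (u : Cn n → κ → ℂ) (z : Cn n) : κ → ℂ := ∑ s, Φ.E s *ᵥ wd s u z

theorem D_congr {u v : Cn n → κ → ℂ} {z : Cn n} (h : u =ᶠ[𝓝 z] v) : Φ.D u z = Φ.D v z := by
  simp only [D, wd_congr h]

theorem D_add {u v : Cn n → κ → ℂ} {z : Cn n} (hu : DifferentiableAt ℝ u z)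
    (hv : DifferentiableAt ℝ v z) : Φ.D (fun w => u w + v w) z = Φ.D u z + Φ.D v z := by
  simp only [D, wd_add hu hv, Matrix.mulVec_add, Finset.sum_add_distrib]

theorem D_const_smul {u : Cn n → κ → ℂ} {z : Cn n} (c : ℂ) (hu : DifferentiableAt ℝ u z) :
    Φ.D (fun w => c • u w) z = c • Φ.D u z := by
  simp only [D, wd_const_smul c hu, Matrix.mulVec_smul, Finset.smul_sum]

theorem D_const (c : κ → ℂ) (z : Cn n) : Φ.D (fun _ => c) z = 0 := by
  simp [D, wd_const]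

theorem contDiffAt_mulVec_const {κ' : Type} [Fintype κ'] (m : Matrix κ' κ ℂ) {u : Cn n → κ → ℂ}
    {z : Cn n} (hu : ContDiffAt ℝ ∞ u z) : ContDiffAt ℝ ∞ (fun w => m *ᵥ u w) z :=
  (((LinearMap.toContinuousLinearMap (Matrix.mulVecLin m)).restrictScalars ℝ).contDiff.contDiffAt
    (x := u z)).comp z hu

theorem contDiffAt_D {u : Cn n → κ → ℂ} {z : Cn n} (hu : ContDiffAt ℝ ∞ u z) :
    ContDiffAt ℝ ∞ (Φ.D u) z := by
  have : ContDiffAt ℝ ∞ (fun w => ∑ s, Φ.E s *ᵥ wd s u w) z :=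
    ContDiffAt.sum fun s _ => contDiffAt_mulVec_const _ (contDiffAt_wd hu s)
  exact this


/-- components of degree zero of `D u` vanish -/
theorem D_zero_comp (u : Cn n → κ → ℂ) (z : Cn n) (k : κ) (hk : Φ.deg k = 0) :
    Φ.D u z k = 0 := by
  simp only [D, Finset.sum_apply, Matrix.mulVec, dotProduct]
  refine Finset.sum_eq_zero fun s _ => Finset.sum_eq_zero fun l _ => ?_
  have : Φ.E s k l = 0 := by
    by_contra h
    have := Φ.E_deg s k l h
    omega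
  rw [this, zero_mul]

theorem sum_EE {W : WI n → WI n → κ → ℂ} (hW : ∀ r s, W r s = W s r) :
    ∑ s, ∑ r, (Φ.E s * Φ.E r) *ᵥ W s r = 0 := by
  have h : ∑ s, ∑ r, (Φ.E s * Φ.E r) *ᵥ W s r = - ∑ s, ∑ r, (Φ.E s * Φ.E r) *ᵥ W s r := by
    conv_lhs => rw [Finset.sum_comm]
    rw [← Finset.sum_neg_distrib]
    refine Finset.sum_congr rfl fun s _ => ?_
    rw [← Finset.sum_neg_distrib]
    refine Finset.sum_congr rfl fun r _ => ?_
    rw [hW r s, ← Matrix.neg_mulVec]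
    congr 1
    exact eq_neg_of_add_eq_zero_left (Φ.EE r s)
  have h2 : (2 : ℂ) • ∑ s, ∑ r, (Φ.E s * Φ.E r) *ᵥ W s r = 0 := by
    rw [two_smul]
    nth_rewrite 1 [h]
    exact neg_add_cancel _
  exact (smul_eq_zero.1 h2).resolve_left two_ne_zero

/-- `D ∘ D = 0` -/
theorem DD {u : Cn n → κ → ℂ} {z : Cn n} (hu : ContDiffAt ℝ ∞ u z) : Φ.D (Φ.D u) z = 0 := by
  have h1 : ∀ s, wd s (Φ.D u) z = ∑ r, Φ.E r *ᵥ wd s (wd r u) z := by
    intro s
    have h2 : ∀ r, DifferentiableAt ℝ (fun w => Φ.E r *ᵥ wd r u w) z := fun r =>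
      (contDiffAt_mulVec_const _ (contDiffAt_wd hu r)).differentiableAt (by simp)
    have h3 : wd s (Φ.D u) z = ∑ r, wd s (fun w => Φ.E r *ᵥ wd r u w) z :=
      wd_sum Finset.univ (fun r _ => h2 r) s
    rw [h3]
    refine Finset.sum_congr rfl fun r _ => ?_
    exact wd_const_mulVec _ ((contDiffAt_wd hu r).differentiableAt (by simp)) s
  have h4 : Φ.D (Φ.D u) z = ∑ s, ∑ r, (Φ.E s * Φ.E r) *ᵥ wd s (wd r u) z := by
    show ∑ s, Φ.E s *ᵥ wd s (Φ.D u) z = _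
    refine Finset.sum_congr rfl fun s _ => ?_
    rw [h1 s, Matrix.mulVec_sum]
    refine Finset.sum_congr rfl fun r _ => ?_
    rw [Matrix.mulVec_mulVec]
  rw [h4]
  exact Φ.sum_EE fun r s => wd_comm hu r s

/-! ### The homotopy operator -/

/-- the dilation `t^deg` -/
def T (t : ℝ) (v : κ → ℂ) : κ → ℂ := fun k => (t : ℂ) ^ Φ.deg k * v k

/-- integrand of the homotopy operator -/
def Kg (z₀ : Cn n) (u : Cn n → κ → ℂ) (p : Cn n × ℝ) : κ → ℂ :=
  ∑ s, ze s (p.1 - z₀) • Φ.T p.2 (Φ.J s *ᵥ u (z₀ + p.2 • (p.1 - z₀)))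

/-- the homotopy operator -/
def K (z₀ : Cn n) (u : Cn n → κ → ℂ) (z : Cn n) : κ → ℂ := ∫ t in (0:ℝ)..1, Φ.Kg z₀ u (z, t)

theorem T_add (t : ℝ) (v w : κ → ℂ) : Φ.T t (v + w) = Φ.T t v + Φ.T t w := by
  funext k
  simp only [T, Pi.add_apply]
  ring

theorem T_smul (t : ℝ) (c : ℂ) (v : κ → ℂ) : Φ.T t (c • v) = c • Φ.T t v := by
  funext k
  simp only [T, Pi.smul_apply, smul_eq_mul]
  ring

/-- `T t` as a linear map -/
def Tl (t : ℝ) : (κ → ℂ) →L[ℂ] (κ → ℂ) :=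
  LinearMap.toContinuousLinearMap
    { toFun := Φ.T t, map_add' := Φ.T_add t, map_smul' := Φ.T_smul t }


/-- matrices as continuous linear maps -/
def mL (m : Matrix κ κ ℂ) : (κ → ℂ) →L[ℂ] (κ → ℂ) :=
  LinearMap.toContinuousLinearMap (Matrix.mulVecLin m)


theorem E_T (s : WI n) (t : ℝ) (v : κ → ℂ) (k : κ) :
    (Φ.E s *ᵥ Φ.T t v) k = (t : ℂ) ^ (Φ.deg k - 1) * (Φ.E s *ᵥ v) k := by
  simp only [Matrix.mulVec, dotProduct, Finset.mul_sum]
  refine Finset.sum_congr rfl fun l _ => ?_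
  by_cases h : Φ.E s k l = 0
  · rw [h]; ring
  · have := Φ.E_deg s k l h
    rw [T, this, Nat.add_sub_cancel]
    ring

theorem t_E_T (s : WI n) (t : ℝ) (v : κ → ℂ) (k : κ) :
    (t : ℂ) * (Φ.E s *ᵥ Φ.T t v) k = (t : ℂ) ^ Φ.deg k * (Φ.E s *ᵥ v) k := by
  rw [E_T]
  by_cases h : Φ.deg k = 0
  · have h0 : (Φ.E s *ᵥ v) k = 0 := by
      simp only [Matrix.mulVec, dotProduct]
      refine Finset.sum_eq_zero fun l _ => ?_
      have : Φ.E s k l = 0 := by
        by_contra h'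
        have := Φ.E_deg s k l h'
        omega
      rw [this, zero_mul]
    rw [h0, mul_zero, mul_zero, mul_zero]
  · obtain ⟨m, hm⟩ := Nat.exists_eq_succ_of_ne_zero h
    rw [hm, Nat.succ_eq_add_one, Nat.add_sub_cancel, pow_succ]
    ring

theorem sum_EJ (v : κ → ℂ) (k : κ) : (∑ s, (Φ.E s *ᵥ (Φ.J s *ᵥ v))) k = (Φ.deg k : ℂ) * v k := by
  have h := congrArg (fun m => m *ᵥ v) Φ.num
  simp only [Matrix.sum_mulVec] at h
  simp only [Matrix.mulVec_mulVec]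
  rw [h, Matrix.mulVec_diagonal]

section homotopy

variable {V : Set (Cn n)} {z₀ : Cn n} {u : Cn n → κ → ℂ}

theorem mem_seg (hc : Convex ℝ V) (h0 : z₀ ∈ V) {z : Cn n} (hz : z ∈ V) {t : ℝ}
    (ht : t ∈ Icc (0:ℝ) 1) : z₀ + t • (z - z₀) ∈ V :=
  hc.add_smul_sub_mem h0 hz ht

theorem contDiffOn_Kg (hc : Convex ℝ V) (h0 : z₀ ∈ V) (hu : ContDiffOn ℝ ∞ u V) :
    ContDiffOn ℝ ∞ (Φ.Kg z₀ u) (V ×ˢ Icc (0:ℝ) 1) := by
  have h1 : ContDiffOn ℝ ∞ (fun p : Cn n × ℝ => u (z₀ + p.2 • (p.1 - z₀))) (V ×ˢ Icc (0:ℝ) 1) := by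
    refine hu.comp (t := V) ?_ ?_
    · fun_prop
    · rintro ⟨z, t⟩ ⟨hz, ht⟩
      exact mem_seg hc h0 hz ht
  rw [contDiffOn_pi]
  intro k
  have h2 : ∀ s : WI n, ContDiffOn ℝ ∞ (fun p : Cn n × ℝ => (Φ.J s *ᵥ u (z₀ + p.2 • (p.1 - z₀))) k)
      (V ×ˢ Icc (0:ℝ) 1) := fun s =>
    (((ContinuousLinearMap.proj k : (κ → ℂ) →L[ℂ] ℂ).restrictScalars ℝ).comp
      ((mL (Φ.J s)).restrictScalars ℝ)).contDiff.comp_contDiffOn h1
  have h3 : ContDiffOn ℝ ∞ (fun p : Cn n × ℝ => (p.2 : ℂ) ^ Φ.deg k) (V ×ˢ Icc (0:ℝ) 1) := by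
    have : ContDiff ℝ ∞ (fun p : Cn n × ℝ => ((p.2 : ℝ) : ℂ)) :=
      Complex.ofRealCLM.contDiff.comp contDiff_snd
    exact (this.pow _).contDiffOn
  have h4 : ∀ s : WI n, ContDiffOn ℝ ∞ (fun p : Cn n × ℝ => ze s (p.1 - z₀)) (V ×ˢ Icc (0:ℝ) 1) :=
    fun s => by
      have : ContDiff ℝ ∞ (fun p : Cn n × ℝ => ze s (p.1 - z₀)) :=
        (ze s).contDiff.comp (contDiff_fst.sub contDiff_const)
      exact this.contDiffOn
  have h5 : ContDiffOn ℝ ∞ (fun p : Cn n × ℝ => ∑ s, ze s (p.1 - z₀) *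
      ((p.2 : ℂ) ^ Φ.deg k * (Φ.J s *ᵥ u (z₀ + p.2 • (p.1 - z₀))) k)) (V ×ˢ Icc (0:ℝ) 1) :=
    ContDiffOn.sum fun s _ => (h4 s).mul (h3.mul (h2 s))
  refine h5.congr fun p _ => ?_
  simp only [Kg, T, Finset.sum_apply, Pi.smul_apply, smul_eq_mul]

/-- `D` as a continuous linear map in the derivative -/
def DL : (Cn n →L[ℝ] (κ → ℂ)) →L[ℝ] (κ → ℂ) :=
  ∑ s, ((mL (Φ.E s)).restrictScalars ℝ).comp (wdLc s)

theorem DL_apply (G : Cn n →L[ℝ] (κ → ℂ)) : Φ.DL G = ∑ s, Φ.E s *ᵥ wdL s G := by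
  simp only [DL, _root_.sum_apply, ContinuousLinearMap.comp_apply]
  rfl

theorem D_eq_DL (u : Cn n → κ → ℂ) (z : Cn n) : Φ.D u z = Φ.DL (fderiv ℝ u z) := by
  rw [DL_apply]
  rfl

/-- derivative of the integrand in the space variable -/
def Kg' (V : Set (Cn n)) (z₀ : Cn n) (u : Cn n → κ → ℂ) (p : Cn n × ℝ) : Cn n →L[ℝ] (κ → ℂ) :=
  (fderivWithin ℝ (Φ.Kg z₀ u) (V ×ˢ Icc (0:ℝ) 1) p).comp (ContinuousLinearMap.inl ℝ (Cn n) ℝ)

theorem hasFDerivAt_Kg (hV : IsOpen V) (hc : Convex ℝ V) (h0 : z₀ ∈ V) (hu : ContDiffOn ℝ ∞ u V)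
    {z : Cn n} (hz : z ∈ V) {t : ℝ} (ht : t ∈ Icc (0:ℝ) 1) :
    HasFDerivAt (fun y => Φ.Kg z₀ u (y, t)) (Φ.Kg' V z₀ u (z, t)) z := by
  have h1 : HasFDerivWithinAt (Φ.Kg z₀ u)
      (fderivWithin ℝ (Φ.Kg z₀ u) (V ×ˢ Icc (0:ℝ) 1) (z, t)) (V ×ˢ Icc (0:ℝ) 1) (z, t) :=
    (((Φ.contDiffOn_Kg hc h0 hu) (z, t) ⟨hz, ht⟩).differentiableWithinAt
      (by simp)).hasFDerivWithinAt
  have h2 : HasFDerivWithinAt (fun y : Cn n => (y, t)) (ContinuousLinearMap.inl ℝ (Cn n) ℝ) V z :=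
    (hasFDerivAt_prodMk_left z t).hasFDerivWithinAt
  have hm : MapsTo (fun y : Cn n => (y, t)) V (V ×ˢ Icc (0:ℝ) 1) := fun y hy => ⟨hy, ht⟩
  have h3 := h1.comp z h2 hm
  exact h3.hasFDerivAt (hV.mem_nhds hz)

theorem continuousOn_Kg' (hV : IsOpen V) (hc : Convex ℝ V) (h0 : z₀ ∈ V)
    (hu : ContDiffOn ℝ ∞ u V) : ContinuousOn (Φ.Kg' V z₀ u) (V ×ˢ Icc (0:ℝ) 1) := by
  have hud : UniqueDiffOn ℝ (V ×ˢ Icc (0:ℝ) 1) :=
    hV.uniqueDiffOn.prod (uniqueDiffOn_Icc zero_lt_one)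
  exact ((Φ.contDiffOn_Kg hc h0 hu).continuousOn_fderivWithin hud (by simp)).clm_comp
    continuousOn_const

theorem contDiffOn_K (hV : IsOpen V) (hc : Convex ℝ V) (h0 : z₀ ∈ V)
    (hu : ContDiffOn ℝ ∞ u V) : ContDiffOn ℝ ∞ (Φ.K z₀ u) V :=
  R213.ParamInt.contDiffOn_param hc hV.uniqueDiffOn zero_lt_one (Φ.contDiffOn_Kg hc h0 hu)

theorem D_K (hV : IsOpen V) (hc : Convex ℝ V) (h0 : z₀ ∈ V) (hu : ContDiffOn ℝ ∞ u V)
    {z : Cn n} (hz : z ∈ V) :
    Φ.D (Φ.K z₀ u) z = ∫ t in (0:ℝ)..1, Φ.D (fun y => Φ.Kg z₀ u (y, t)) z ∧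
      IntervalIntegrable (fun t => Φ.D (fun y => Φ.Kg z₀ u (y, t)) z) volume 0 1 := by
  have h1 : HasFDerivAt (Φ.K z₀ u) (∫ t in (0:ℝ)..1, Φ.Kg' V z₀ u (z, t)) z :=
    (R213.ParamInt.hasFDerivWithinAt_param hc zero_le_one (Φ.contDiffOn_Kg hc h0 hu).continuousOn
      (Φ.continuousOn_Kg' hV hc h0 hu)
      (fun y hy s hs => (Φ.hasFDerivAt_Kg hV hc h0 hu hy hs).hasFDerivWithinAt) hz).hasFDerivAt
      (hV.mem_nhds hz)
  have hint : IntervalIntegrable (fun t => Φ.Kg' V z₀ u (z, t)) volume 0 1 :=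
    R213.ParamInt.slice_int zero_le_one (Φ.continuousOn_Kg' hV hc h0 hu) hz
  have h2 : ∀ t ∈ Icc (0:ℝ) 1, Φ.DL (Φ.Kg' V z₀ u (z, t)) = Φ.D (fun y => Φ.Kg z₀ u (y, t)) z := by
    intro t ht
    rw [D_eq_DL, (Φ.hasFDerivAt_Kg hV hc h0 hu hz ht).fderiv]
  have h3 : IntervalIntegrable (fun t => Φ.DL (Φ.Kg' V z₀ u (z, t))) volume 0 1 := by
    apply ContinuousOn.intervalIntegrable
    rw [uIcc_of_le zero_le_one]
    exact Φ.DL.continuous.comp_continuousOn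
      (R213.ParamInt.slice_cont (Φ.continuousOn_Kg' hV hc h0 hu) hz)
  constructor
  · rw [D_eq_DL, h1.fderiv, ← ContinuousLinearMap.intervalIntegral_comp_comm _ hint]
    refine intervalIntegral.integral_congr fun t ht => ?_
    rw [uIcc_of_le zero_le_one] at ht
    exact h2 t ht
  · refine h3.congr fun t ht => ?_
    rw [uIoc_of_le zero_le_one] at ht
    exact h2 t (Ioc_subset_Icc_self ht)

theorem wd_T (t : ℝ) {f : Cn n → κ → ℂ} {z : Cn n} (hf : DifferentiableAt ℝ f z) (s : WI n) :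
    wd s (fun y => Φ.T t (f y)) z = Φ.T t (wd s f z) := wd_clm hf (Φ.Tl t) s

theorem wd_dil {f : Cn n → κ → ℂ} {z z₀ : Cn n} {t : ℝ}
    (hf : DifferentiableAt ℝ f (z₀ + t • (z - z₀))) (s : WI n) :
    wd s (fun y => f (z₀ + t • (y - z₀))) z = (t : ℂ) • wd s f (z₀ + t • (z - z₀)) := by
  have h2 : HasFDerivAt (fun y : Cn n => z₀ + t • (y - z₀)) (t • ContinuousLinearMap.id ℝ (Cn n)) z :=
    (((hasFDerivAt_id z).sub_const z₀).const_smul t).const_add z₀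
  have h3 : fderiv ℝ (fun y => f (z₀ + t • (y - z₀))) z =
      (fderiv ℝ f (z₀ + t • (z - z₀))).comp (t • ContinuousLinearMap.id ℝ (Cn n)) :=
    (hf.hasFDerivAt.comp z h2).fderiv
  rw [wd, h3]
  have h4 : (fderiv ℝ f (z₀ + t • (z - z₀))).comp (t • ContinuousLinearMap.id ℝ (Cn n)) =
      (t : ℂ) • fderiv ℝ f (z₀ + t • (z - z₀)) := by
    refine ContinuousLinearMap.ext fun v => ?_
    simp
  rw [h4, wdL_smul]
  rfl

/-- the pointwise homotopy identity -/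
theorem pointwise (hV : IsOpen V) (hc : Convex ℝ V) (h0 : z₀ ∈ V) (hu : ContDiffOn ℝ ∞ u V)
    {z : Cn n} (hz : z ∈ V) {t : ℝ} (ht : t ∈ Icc (0:ℝ) 1) (k : κ) :
    Φ.D (fun y => Φ.Kg z₀ u (y, t)) z k + Φ.Kg z₀ (Φ.D u) (z, t) k =
      (Φ.deg k : ℂ) * (t : ℂ) ^ (Φ.deg k - 1) * u (z₀ + t • (z - z₀)) k +
        (t : ℂ) ^ Φ.deg k * fderiv ℝ u (z₀ + t • (z - z₀)) (z - z₀) k := by
  have hw := mem_seg hc h0 hz ht
  set w := z₀ + t • (z - z₀) with hwdef
  have hd : DifferentiableAt ℝ u w := (hu.contDiffAt (hV.mem_nhds hw)).differentiableAt (by simp)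
  have hd1 : DifferentiableAt ℝ (fun y => u (z₀ + t • (y - z₀))) z := by
    have h2 : HasFDerivAt (fun y : Cn n => z₀ + t • (y - z₀))
        (t • ContinuousLinearMap.id ℝ (Cn n)) z :=
      (((hasFDerivAt_id z).sub_const z₀).const_smul t).const_add z₀
    exact (hd.hasFDerivAt.comp z h2).differentiableAt
  have hd2 : ∀ s, DifferentiableAt ℝ (fun y => Φ.J s *ᵥ u (z₀ + t • (y - z₀))) z := fun s => by
    have := (((mL (Φ.J s)).restrictScalars ℝ).hasFDerivAt (x := u w)).comp z hd1.hasFDerivAt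
    exact this.differentiableAt
  have hd3 : ∀ s, DifferentiableAt ℝ (fun y => Φ.T t (Φ.J s *ᵥ u (z₀ + t • (y - z₀)))) z :=
    fun s => by
      have := (((Φ.Tl t).restrictScalars ℝ).hasFDerivAt (x := Φ.J s *ᵥ u w)).comp z
        (hd2 s).hasFDerivAt
      exact this.differentiableAt
  have hd4 : ∀ s : WI n, HasFDerivAt (fun y : Cn n => ze s (y - z₀)) (ze s) z := fun s =>
    (ze s).hasFDerivAt.comp z ((hasFDerivAt_id z).sub_const z₀)
  -- the Wirtinger derivatives of the integrand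
  have h1 : ∀ r, wd r (fun y => Φ.Kg z₀ u (y, t)) z =
      Φ.T t (Φ.J r *ᵥ u w) + (t : ℂ) • ∑ s, ze s (z - z₀) • Φ.T t (Φ.J s *ᵥ wd r u w) := by
    intro r
    have e1 : wd r (fun y => Φ.Kg z₀ u (y, t)) z =
        ∑ s, wd r (fun y => ze s (y - z₀) • Φ.T t (Φ.J s *ᵥ u (z₀ + t • (y - z₀)))) z :=
      wd_sum Finset.univ (fun s _ => (hd4 s).differentiableAt.smul (hd3 s)) r
    rw [e1]
    have e2 : ∀ s, wd r (fun y => ze s (y - z₀) • Φ.T t (Φ.J s *ᵥ u (z₀ + t • (y - z₀)))) z =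
        (if r = s then (1:ℂ) else 0) • Φ.T t (Φ.J s *ᵥ u w) +
          (t : ℂ) • (ze s (z - z₀) • Φ.T t (Φ.J s *ᵥ wd r u w)) := by
      intro s
      rw [wd_smul (hd4 s).differentiableAt (hd3 s) r]
      have e3 : wd r (fun y : Cn n => ze s (y - z₀)) z = if r = s then (1:ℂ) else 0 := by
        rw [wd, (hd4 s).fderiv, wdL_ze]
      rw [e3, Φ.wd_T t (hd2 s) r, wd_const_mulVec _ hd1 r, wd_dil hd r, Matrix.mulVec_smul,
        Φ.T_smul, smul_comm (t : ℂ)]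
    simp only [e2]
    rw [Finset.sum_add_distrib, ← Finset.smul_sum]
    congr 1
    simp [Finset.sum_ite_eq]
  have h2 : Φ.D (fun y => Φ.Kg z₀ u (y, t)) z k =
      (t : ℂ) ^ (Φ.deg k - 1) * ((Φ.deg k : ℂ) * u w k) +
        (t : ℂ) ^ Φ.deg k * ∑ r, ∑ s, ze s (z - z₀) * (Φ.E r *ᵥ (Φ.J s *ᵥ wd r u w)) k := by
    simp only [D, h1, Matrix.mulVec_add, Finset.sum_add_distrib, Pi.add_apply, Finset.sum_apply,
      E_T, Matrix.mulVec_smul, Matrix.mulVec_sum, Pi.smul_apply, smul_eq_mul]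
    congr 1
    · rw [← Finset.mul_sum, ← Φ.sum_EJ (u w) k, Finset.sum_apply]
    · rw [Finset.mul_sum]
      refine Finset.sum_congr rfl fun r _ => ?_
      rw [Finset.mul_sum, Finset.mul_sum]
      refine Finset.sum_congr rfl fun s _ => ?_
      have := Φ.t_E_T r t (Φ.J s *ᵥ wd r u w) k
      rw [E_T] at this
      linear_combination (ze s (z - z₀)) * this
  have h3 : Φ.Kg z₀ (Φ.D u) (z, t) k =
      (t : ℂ) ^ Φ.deg k * ∑ r, ∑ s, ze s (z - z₀) * (Φ.J s *ᵥ (Φ.E r *ᵥ wd r u w)) k := by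
    simp only [Kg, D, T, Finset.sum_apply, Pi.smul_apply, smul_eq_mul, Matrix.mulVec_sum]
    rw [Finset.sum_comm, Finset.mul_sum]
    refine Finset.sum_congr rfl fun s _ => ?_
    rw [Finset.mul_sum, Finset.mul_sum, Finset.mul_sum]
    refine Finset.sum_congr rfl fun r _ => ?_
    ring
  have h4 : ∀ r s, (Φ.E r *ᵥ (Φ.J s *ᵥ wd r u w)) k + (Φ.J s *ᵥ (Φ.E r *ᵥ wd r u w)) k =
      if r = s then wd r u w k else 0 := by
    intro r s
    rw [Matrix.mulVec_mulVec, Matrix.mulVec_mulVec, ← Pi.add_apply, ← Matrix.add_mulVec, Φ.EJ]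
    split_ifs
    · rw [Matrix.one_mulVec]
    · rw [Matrix.zero_mulVec]; rfl
  have h5 : fderiv ℝ u w (z - z₀) k = ∑ s, ze s (z - z₀) * wd s u w k := by
    rw [apply_eq_sum (fderiv ℝ u w) (z - z₀), Finset.sum_apply]
    rfl
  rw [h2, h3, h5]
  have h6 : ∑ r, ∑ s, ze s (z - z₀) * (Φ.E r *ᵥ (Φ.J s *ᵥ wd r u w)) k +
      ∑ r, ∑ s, ze s (z - z₀) * (Φ.J s *ᵥ (Φ.E r *ᵥ wd r u w)) k =
      ∑ s, ze s (z - z₀) * wd s u w k := by
    rw [← Finset.sum_add_distrib]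
    refine Finset.sum_congr rfl fun r _ => ?_
    rw [← Finset.sum_add_distrib]
    simp only [← mul_add, h4]
    simp
  rw [← h6]
  ring

/-- **the homotopy formula** -/
theorem homotopy_formula (hV : IsOpen V) (hc : Convex ℝ V) (h0 : z₀ ∈ V)
    (hu : ContDiffOn ℝ ∞ u V) {z : Cn n} (hz : z ∈ V) (k : κ) :
    Φ.D (Φ.K z₀ u) z k + Φ.K z₀ (Φ.D u) z k = u z k - (0:ℂ) ^ Φ.deg k * u z₀ k := by
  have hDu : ContDiffOn ℝ ∞ (Φ.D u) V := fun y hy =>
    (Φ.contDiffAt_D (hu.contDiffAt (hV.mem_nhds hy))).contDiffWithinAt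
  obtain ⟨h1, h1i⟩ := Φ.D_K hV hc h0 hu hz
  have h2i : IntervalIntegrable (fun t => Φ.Kg z₀ (Φ.D u) (z, t)) volume 0 1 :=
    R213.ParamInt.slice_int zero_le_one (Φ.contDiffOn_Kg hc h0 hDu).continuousOn hz
  have hsum : Φ.D (Φ.K z₀ u) z + Φ.K z₀ (Φ.D u) z =
      ∫ t in (0:ℝ)..1, (Φ.D (fun y => Φ.Kg z₀ u (y, t)) z + Φ.Kg z₀ (Φ.D u) (z, t)) := by
    rw [intervalIntegral.integral_add h1i h2i, h1]
    rfl
  have hproj : ∀ f : ℝ → κ → ℂ, IntervalIntegrable f volume 0 1 →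
      (∫ t in (0:ℝ)..1, f t) k = ∫ t in (0:ℝ)..1, f t k := fun f hf =>
    (ContinuousLinearMap.intervalIntegral_comp_comm
      (ContinuousLinearMap.proj k : (κ → ℂ) →L[ℝ] ℂ) hf).symm
  have hk := congrFun hsum k
  rw [Pi.add_apply, hproj _ (h1i.add h2i)] at hk
  rw [hk]
  -- the derivative
  have hder : ∀ t ∈ uIcc (0:ℝ) 1, HasDerivAt (fun t : ℝ => (t : ℂ) ^ Φ.deg k *
      u (z₀ + t • (z - z₀)) k)
      ((Φ.deg k : ℂ) * (t : ℂ) ^ (Φ.deg k - 1) * u (z₀ + t • (z - z₀)) k +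
        (t : ℂ) ^ Φ.deg k * fderiv ℝ u (z₀ + t • (z - z₀)) (z - z₀) k) t := by
    intro t ht
    rw [uIcc_of_le zero_le_one] at ht
    have hw := mem_seg hc h0 hz ht
    have hd : HasFDerivAt u (fderiv ℝ u (z₀ + t • (z - z₀))) (z₀ + t • (z - z₀)) :=
      ((hu.contDiffAt (hV.mem_nhds hw)).differentiableAt (by simp)).hasFDerivAt
    have e1 : HasDerivAt (fun t : ℝ => z₀ + t • (z - z₀)) (z - z₀) t := by
      have := ((hasDerivAt_id t).smul_const (z - z₀)).const_add z₀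
      simpa using this
    have e2 : HasDerivAt (fun t : ℝ => u (z₀ + t • (z - z₀)))
        (fderiv ℝ u (z₀ + t • (z - z₀)) (z - z₀)) t := hd.comp_hasDerivAt t e1
    have e3 : HasDerivAt (fun t : ℝ => u (z₀ + t • (z - z₀)) k)
        (fderiv ℝ u (z₀ + t • (z - z₀)) (z - z₀) k) t := (hasDerivAt_pi.1 e2) k
    have e4 : HasDerivAt (fun t : ℝ => (t : ℂ)) 1 t := Complex.ofRealCLM.hasDerivAt
    have e5 := e4.pow (Φ.deg k)
    have e6 := e5.mul e3
    have e7 : (Φ.deg k : ℂ) * (t : ℂ) ^ (Φ.deg k - 1) * u (z₀ + t • (z - z₀)) k +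
        (t : ℂ) ^ Φ.deg k * fderiv ℝ u (z₀ + t • (z - z₀)) (z - z₀) k =
        (Φ.deg k : ℂ) * (t : ℂ) ^ (Φ.deg k - 1) * 1 * u (z₀ + t • (z - z₀)) k +
        (t : ℂ) ^ Φ.deg k * fderiv ℝ u (z₀ + t • (z - z₀)) (z - z₀) k := by rw [mul_one]
    rw [e7]
    exact e6
  have hint : IntervalIntegrable (fun t : ℝ =>
      (Φ.deg k : ℂ) * (t : ℂ) ^ (Φ.deg k - 1) * u (z₀ + t • (z - z₀)) k +
        (t : ℂ) ^ Φ.deg k * fderiv ℝ u (z₀ + t • (z - z₀)) (z - z₀) k) volume 0 1 := by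
    have e1 : IntervalIntegrable (fun t => (Φ.D (fun y => Φ.Kg z₀ u (y, t)) z +
        Φ.Kg z₀ (Φ.D u) (z, t)) k) volume 0 1 := by
      have := h1i.add h2i
      exact ⟨(ContinuousLinearMap.proj k : (κ → ℂ) →L[ℝ] ℂ).integrable_comp this.1,
        (ContinuousLinearMap.proj k : (κ → ℂ) →L[ℝ] ℂ).integrable_comp this.2⟩
    refine e1.congr fun t ht => ?_
    rw [uIoc_of_le zero_le_one] at ht
    exact Φ.pointwise hV hc h0 hu hz (Ioc_subset_Icc_self ht) k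
  have hfin : ∫ t in (0:ℝ)..1, (Φ.D (fun y => Φ.Kg z₀ u (y, t)) z + Φ.Kg z₀ (Φ.D u) (z, t)) k =
      ∫ t in (0:ℝ)..1, ((Φ.deg k : ℂ) * (t : ℂ) ^ (Φ.deg k - 1) * u (z₀ + t • (z - z₀)) k +
        (t : ℂ) ^ Φ.deg k * fderiv ℝ u (z₀ + t • (z - z₀)) (z - z₀) k) := by
    refine intervalIntegral.integral_congr fun t ht => ?_
    rw [uIcc_of_le zero_le_one] at ht
    exact Φ.pointwise hV hc h0 hu hz ht k
  rw [hfin, intervalIntegral.integral_eq_sub_of_hasDerivAt hder hint]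
  simp

end homotopy

end Fock

end

end Crest.Agent.R275.EDR890
end

-- ▼ part R275/EDRBun_890

/-!
# R275, block EDR (helper890): the bundle of all complex forms and its sections over open sets

`DRS B` : a "de Rham structure" on a Dolbeault bundle `B` with `α = 0` (`B` = all `(p,q)`-forms).
`SecOn B W` : sections over the open set `W` (families which vanish off `W`).
`R.dOn W` : the exterior differential on `SecOn B W`, `R.sc W` the supercomplex.
-/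

set_option autoImplicit false
set_option linter.unusedSectionVars false

open Set Filter Topology Complex TopologicalSpace
open scoped ContDiff Matrix ComplexConjugate

namespace Crest.Agent.R275.EDR890

open Geo NA7763

noncomputable section

variable {n : ℕ} {M : Type} [TopologicalSpace M] {A : Atl n M}

/-- a de Rham structure on `B` -/
structure DRS (B : FBun A) where
  α0 : ∀ i x, B.α i x = 0
  pdeg : B.κ → ℕ
  f : Fin n → Matrix B.κ B.κ ℂ
  jo : Fin n → Matrix B.κ B.κ ℂ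
  e_pdeg : ∀ a k l, B.e a k l ≠ 0 → pdeg k = pdeg l
  f_deg : ∀ a k l, f a k l ≠ 0 → B.deg k = B.deg l
  f_pdeg : ∀ a k l, f a k l ≠ 0 → pdeg k = pdeg l + 1
  ff : ∀ a b, f a * f b + f b * f a = 0
  fe : ∀ a b, f a * B.e b + B.e b * f a = 0
  fj : ∀ a b, f a * jo b + jo b * f a = if a = b then 1 else 0
  fi : ∀ a b, f a * B.io b + B.io b * f a = 0
  ej : ∀ a b, B.e a * jo b + jo b * B.e a = 0
  num : ∑ a, B.e a * B.io a + ∑ a, f a * jo a =
    Matrix.diagonal (fun k => ((B.deg k + pdeg k : ℕ) : ℂ))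
  τ_pdeg : ∀ i j x k l, B.τ i j x k l ≠ 0 → pdeg k = pdeg l
  f_symb : ∀ i j, ∀ x ∈ (A.e i).source ∩ (A.e j).source, ∀ b,
    ∑ a, A.J i j x b a • (f a * B.τ i j x) = B.τ i j x * f b
  f_closed : ∀ i j, ∀ x ∈ (A.e i).source ∩ (A.e j).source,
    ∑ a, f a * Matrix.of (fun k l =>
      wd (false, a) (fun z => B.τ i j ((A.e i).symm z) k l) (A.e i x)) = 0
  k0 : B.κ
  vac : ∀ k, B.deg k + pdeg k = 0 ↔ k = k0

/-! ### Smoothness at a point -/

/-- smoothness at `x` in the chart `i` -/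
def SmP (A : Atl n M) {W : Type*} [NormedAddCommGroup W] [NormedSpace ℝ W] (i : A.ι) (f : M → W)
    (x : M) : Prop := ContDiffAt ℝ ∞ (fun z => f ((A.e i).symm z)) (A.e i x)

section SmP

variable {W : Type*} [NormedAddCommGroup W] [NormedSpace ℝ W]

theorem tendsto_symm {i : A.ι} {x : M} (hx : x ∈ (A.e i).source) :
    Tendsto (A.e i).symm (𝓝 (A.e i x)) (𝓝 x) := by
  have := (A.e i).symm.continuousAt (x := A.e i x) ((A.e i).map_source hx)
  rwa [ContinuousAt, (A.e i).left_inv hx] at this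

theorem ev_chart {i : A.ι} {x : M} (hx : x ∈ (A.e i).source) {P : M → Prop}
    (h : ∀ᶠ y in 𝓝 x, P y) : ∀ᶠ z in 𝓝 (A.e i x), P ((A.e i).symm z) :=
  (tendsto_symm hx).eventually h

theorem SmP.congr {i : A.ι} {f g : M → W} {x : M} (hx : x ∈ (A.e i).source) (hf : SmP A i f x)
    (h : g =ᶠ[𝓝 x] f) : SmP A i g x :=
  ContDiffAt.congr_of_eventuallyEq hf (ev_chart hx h)

theorem smAt_iff {i : A.ι} {f : M → W} : A.SmAt i f ↔ ∀ x ∈ (A.e i).source, SmP A i f x := by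
  constructor
  · intro h x hx
    exact h.contDiffAt ((A.e i).open_target.mem_nhds ((A.e i).map_source hx))
  · intro h z hz
    have := h _ ((A.e i).map_target hz)
    rw [SmP, (A.e i).right_inv hz] at this
    exact this.contDiffWithinAt

/-- the transition maps are real smooth -/
theorem trans_contDiffAt {i j : A.ι} {x : M} (hx : x ∈ (A.e i).source ∩ (A.e j).source) :
    ContDiffAt ℝ ∞ (fun z => A.e j ((A.e i).symm z)) (A.e i x) := by
  have h1 : ContDiffOn ℂ ω (fun z => A.e j ((A.e i).symm z)) (A.ov i j) :=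
    R266.SCV.contDiffOn_omega_of_differentiableOn (isOpen_ov i j) (A.holo i j)
  have h2 : ContDiffOn ℝ ω (fun z => A.e j ((A.e i).symm z)) (A.ov i j) := h1.restrict_scalars ℝ
  exact (h2.contDiffAt ((isOpen_ov i j).mem_nhds (mem_ov hx))).of_le le_top

/-- smoothness is independent of the chart -/
theorem SmP.change {i j : A.ι} {f : M → W} {x : M} (hx : x ∈ (A.e i).source ∩ (A.e j).source)
    (hf : SmP A j f x) : SmP A i f x := by
  have h1 := trans_contDiffAt hx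
  have hxx : A.e j ((A.e i).symm (A.e i x)) = A.e j x := by rw [(A.e i).left_inv hx.1]
  have h2 : ContDiffAt ℝ ∞ (fun z => f ((A.e j).symm z)) (A.e j ((A.e i).symm (A.e i x))) := by
    rw [hxx]
    exact hf
  have h3 := ContDiffAt.comp (A.e i x) h2 h1
  refine h3.congr_of_eventuallyEq ?_
  filter_upwards [(isOpen_ov i j).mem_nhds (mem_ov hx)] with z hz
  show f ((A.e i).symm z) = f ((A.e j).symm (A.e j ((A.e i).symm z)))
  rw [(A.e j).left_inv hz.2]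

end SmP

/-! ### Sections over open sets -/

/-- smooth sections over the open set `W` -/
def SecOn (B : FBun A) (W : Opens M) : Submodule ℂ (A.ι → M → B.κ → ℂ) where
  carrier := {u | (∀ i, ∀ x ∈ (A.e i).source, x ∈ W → SmP A i (u i) x) ∧
    (∀ i, ∀ x, ¬(x ∈ (A.e i).source ∧ x ∈ W) → u i x = 0) ∧
    ∀ i j, ∀ x ∈ (A.e i).source ∩ (A.e j).source, x ∈ W → u i x = (B.τ i j x) *ᵥ (u j x)}
  add_mem' := by
    rintro u v ⟨h1, h2, h3⟩ ⟨k1, k2, k3⟩
    refine ⟨fun i x hx hW => (h1 i x hx hW).add (k1 i x hx hW), fun i x hx => ?_,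
      fun i j x hx hW => ?_⟩
    · simp [h2 i x hx, k2 i x hx]
    · simp [h3 i j x hx hW, k3 i j x hx hW, Matrix.mulVec_add]
  zero_mem' := ⟨fun i x hx hW => contDiffAt_const, fun i x hx => rfl, fun i j x hx hW => by simp⟩
  smul_mem' := by
    rintro c u ⟨h1, h2, h3⟩
    refine ⟨fun i x hx hW => (h1 i x hx hW).const_smul c, fun i x hx => ?_,
      fun i j x hx hW => ?_⟩
    · simp [h2 i x hx]
    · simp [h3 i j x hx hW, Matrix.mulVec_smul]

theorem secOn_top (B : FBun A) : SecOn B ⊤ = Sec B := by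
  ext u
  constructor
  · rintro ⟨h1, h2, h3⟩
    refine ⟨fun i k => ?_, fun i x hx => h2 i x (fun h => hx h.1),
      fun i j x hx => h3 i j x hx trivial⟩
    rw [smAt_iff]
    intro x hx
    exact contDiffAt_pi.1 (h1 i x hx trivial) k
  · rintro ⟨h1, h2, h3⟩
    refine ⟨fun i x hx _ => ?_, fun i x hx => h2 i x (fun h => hx ⟨h, trivial⟩),
      fun i j x hx _ => h3 i j x hx⟩
    rw [SmP, contDiffAt_pi]
    exact fun k => smAt_iff.1 (h1 i k) x hx

theorem secOn_bot (B : FBun A) : SecOn B ⊥ = ⊥ := by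
  rw [eq_bot_iff]
  rintro u ⟨-, h2, -⟩
  rw [Submodule.mem_bot]
  funext i x
  exact h2 i x (fun h => h.2)

namespace SecOn

variable {B : FBun A} {W W' : Opens M} {u v : A.ι → M → B.κ → ℂ}

theorem diffAt (hu : u ∈ SecOn B W) {i : A.ι} {x : M} (hx : x ∈ (A.e i).source) (hW : x ∈ W) :
    DifferentiableAt ℝ (fun z => u i ((A.e i).symm z)) (A.e i x) :=
  ContDiffAt.differentiableAt (hu.1 i x hx hW) (by simp)

theorem ext_of (hu : u ∈ SecOn B W) (hv : v ∈ SecOn B W)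
    (h : ∀ x ∈ W, ∃ j, x ∈ (A.e j).source ∧ u j x = v j x) : u = v := by
  funext i x
  by_cases hx : x ∈ (A.e i).source ∧ x ∈ W
  · obtain ⟨j, hj, he⟩ := h x hx.2
    rw [hu.2.2 i j x ⟨hx.1, hj⟩ hx.2, hv.2.2 i j x ⟨hx.1, hj⟩ hx.2, he]
  · rw [hu.2.1 i x hx, hv.2.1 i x hx]

open Classical in
/-- restriction of families -/
def res {κ : Type} (W : Set M) (u : A.ι → M → κ → ℂ) : A.ι → M → κ → ℂ :=
  fun i x => if x ∈ W then u i x else 0

theorem res_of_mem {κ : Type} {W : Set M} {u : A.ι → M → κ → ℂ} {i : A.ι} {x : M} (h : x ∈ W) :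
    res W u i x = u i x := if_pos h

theorem res_of_notMem {κ : Type} {W : Set M} {u : A.ι → M → κ → ℂ} {i : A.ι} {x : M}
    (h : x ∉ W) : res W u i x = 0 := if_neg h

theorem res_ev {κ : Type} (W : Opens M) (u : A.ι → M → κ → ℂ) (i : A.ι) {x : M} (h : x ∈ W) :
    res (W : Set M) u i =ᶠ[𝓝 x] u i := by
  filter_upwards [W.isOpen.mem_nhds h] with y hy
  exact res_of_mem hy

theorem res_mem (hu : u ∈ SecOn B W) (hle : W' ≤ W) : res (W' : Set M) u ∈ SecOn B W' := by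
  refine ⟨fun i x hx hW => ?_, fun i x hx => ?_, fun i j x hx hW => ?_⟩
  · exact (hu.1 i x hx (hle hW)).congr hx (res_ev W' u i hW)
  · by_cases h : x ∈ (W' : Set M)
    · rw [res_of_mem h]
      exact hu.2.1 i x (fun h' => hx ⟨h'.1, h⟩)
    · exact res_of_notMem h
  · rw [res_of_mem hW, res_of_mem hW]
    exact hu.2.2 i j x hx (hle hW)

end SecOn

/-! ### The differential -/

namespace DRS

variable {B : FBun A} (R : DRS B)

/-- the Fock space of a de Rham structure -/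
def Φ : Fock n B.κ where
  E s := bif s.1 then B.e s.2 else R.f s.2
  J s := bif s.1 then B.io s.2 else R.jo s.2
  deg k := B.deg k + R.pdeg k
  E_deg := by
    rintro ⟨b, a⟩ k l h
    cases b
    · have h1 := R.f_deg a k l h
      have h2 := R.f_pdeg a k l h
      omega
    · have h1 := B.e_deg a k l h
      have h2 := R.e_pdeg a k l h
      omega
  EE := by
    rintro ⟨b, a⟩ ⟨c, d⟩
    cases b <;> cases c
    · exact R.ff a d
    · exact R.fe a d
    · have := R.fe d a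
      rw [add_comm] at this
      exact this
    · exact B.ee a d
  EJ := by
    rintro ⟨b, a⟩ ⟨c, d⟩
    cases b <;> cases c
    · simpa using R.fj a d
    · simpa using R.fi a d
    · simpa using R.ej a d
    · simpa using B.ei a d
  num := by
    rw [Fintype.sum_prod_type, Fintype.sum_bool]
    exact R.num

theorem E_symb {i j : A.ι} {x : M} (hx : x ∈ (A.e i).source ∩ (A.e j).source) (b : Bool)
    (c : Fin n) :
    ∑ a, cj b (A.J i j x c a) • (R.Φ.E (b, a) * B.τ i j x) = B.τ i j x * R.Φ.E (b, c) := by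
  cases b
  · exact R.f_symb i j x hx c
  · exact B.τ_symb i j x hx c

theorem E_closed {i j : A.ι} {x : M} (hx : x ∈ (A.e i).source ∩ (A.e j).source) :
    ∑ s, R.Φ.E s * Matrix.of (fun k l =>
      wd s (fun z => B.τ i j ((A.e i).symm z) k l) (A.e i x)) = 0 := by
  rw [Fintype.sum_prod_type, Fintype.sum_bool]
  have h1 := B.α_tr i j x hx
  rw [R.α0, R.α0, zero_mul, mul_zero, add_zero] at h1
  have h2 := R.f_closed i j x hx
  have h3 : ∑ a, R.Φ.E (true, a) * Matrix.of (fun k l =>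
      wd (true, a) (fun z => B.τ i j ((A.e i).symm z) k l) (A.e i x)) = 0 := h1
  have h4 : ∑ a, R.Φ.E (false, a) * Matrix.of (fun k l =>
      wd (false, a) (fun z => B.τ i j ((A.e i).symm z) k l) (A.e i x)) = 0 := h2
  rw [h3, h4, add_zero]

open Classical in
/-- the differential over `W` -/
def dOn (W : Set M) (u : A.ι → M → B.κ → ℂ) : A.ι → M → B.κ → ℂ := fun i x =>
  if x ∈ (A.e i).source ∧ x ∈ W then R.Φ.D (fun z => u i ((A.e i).symm z)) (A.e i x) else 0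

theorem dOn_apply {W : Set M} {u : A.ι → M → B.κ → ℂ} {i : A.ι} {x : M}
    (hx : x ∈ (A.e i).source) (hW : x ∈ W) :
    R.dOn W u i x = R.Φ.D (fun z => u i ((A.e i).symm z)) (A.e i x) := if_pos ⟨hx, hW⟩

theorem dOn_off {W : Set M} {u : A.ι → M → B.κ → ℂ} {i : A.ι} {x : M}
    (hx : ¬(x ∈ (A.e i).source ∧ x ∈ W)) : R.dOn W u i x = 0 := if_neg hx

theorem dOn_congr {W W' : Set M} {u v : A.ι → M → B.κ → ℂ} {i : A.ι} {x : M}
    (hx : x ∈ (A.e i).source) (hW : x ∈ W) (hW' : x ∈ W') (h : u i =ᶠ[𝓝 x] v i) :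
    R.dOn W u i x = R.dOn W' v i x := by
  rw [R.dOn_apply hx hW, R.dOn_apply hx hW']
  exact R.Φ.D_congr (ev_chart hx h)

theorem dOn_ev {W : Opens M} {u : A.ι → M → B.κ → ℂ} {i : A.ι} {x : M}
    (hx : x ∈ (A.e i).source) (hW : x ∈ W) :
    ∀ᶠ z in 𝓝 (A.e i x), R.dOn (W : Set M) u i ((A.e i).symm z) =
      R.Φ.D (fun z => u i ((A.e i).symm z)) z := by
  have h1 : ∀ᶠ z in 𝓝 (A.e i x), z ∈ (A.e i).target :=
    (A.e i).open_target.mem_nhds ((A.e i).map_source hx)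
  filter_upwards [h1, ev_chart hx (W.isOpen.mem_nhds hW)] with z hz hz'
  have hz'' : (A.e i).symm z ∈ (W : Set M) := hz'
  rw [R.dOn_apply ((A.e i).map_target hz) hz'', (A.e i).right_inv hz]

theorem dOn_smP {W : Opens M} {u : A.ι → M → B.κ → ℂ} (hu : u ∈ SecOn B W) {i : A.ι} {x : M}
    (hx : x ∈ (A.e i).source) (hW : x ∈ W) : SmP A i (R.dOn (W : Set M) u i) x :=
  (R.Φ.contDiffAt_D (hu.1 i x hx hW)).congr_of_eventuallyEq (R.dOn_ev hx hW)

/-- covariance of the differential -/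
theorem dOn_tr {W : Opens M} {u : A.ι → M → B.κ → ℂ} (hu : u ∈ SecOn B W) {i j : A.ι} {x : M}
    (hx : x ∈ (A.e i).source ∩ (A.e j).source) (hW : x ∈ W) :
    R.dOn (W : Set M) u i x = (B.τ i j x) *ᵥ (R.dOn (W : Set M) u j x) := by
  rw [R.dOn_apply hx.1 hW, R.dOn_apply hx.2 hW]
  set φ : Cn n → Cn n := fun z => A.e j ((A.e i).symm z) with hφ
  set v : Cn n → B.κ → ℂ := fun z => u j ((A.e j).symm z) with hv
  set m : Cn n → Matrix B.κ B.κ ℂ := fun z => B.τ i j ((A.e i).symm z) with hm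
  have hxx : φ (A.e i x) = A.e j x := by
    show A.e j ((A.e i).symm (A.e i x)) = A.e j x
    rw [(A.e i).left_inv hx.1]
  have hev : (fun z => u i ((A.e i).symm z)) =ᶠ[𝓝 (A.e i x)] fun z => m z *ᵥ v (φ z) := by
    have h1 : ∀ᶠ y in 𝓝 x, u i y = B.τ i j y *ᵥ u j y := by
      filter_upwards [((A.e i).open_source.inter (A.e j).open_source).mem_nhds hx,
        W.isOpen.mem_nhds hW] with y hy hyW
      exact hu.2.2 i j y hy hyW
    filter_upwards [ev_chart hx.1 h1, (isOpen_ov i j).mem_nhds (mem_ov hx)] with z hz hz'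
    rw [hz]
    show _ = B.τ i j ((A.e i).symm z) *ᵥ u j ((A.e j).symm (A.e j ((A.e i).symm z)))
    rw [(A.e j).left_inv hz'.2]
  have hφd : DifferentiableAt ℂ φ (A.e i x) := Atl.diff_trans hx
  have hvd : DifferentiableAt ℝ v (φ (A.e i x)) := by
    rw [hxx]
    exact SecOn.diffAt hu hx.2 hW
  have hvφ : DifferentiableAt ℝ (fun z => v (φ z)) (A.e i x) :=
    hvd.comp _ (hφd.restrictScalars ℝ)
  have hmd : ∀ k l, DifferentiableAt ℝ (fun z => m z k l) (A.e i x) := fun k l =>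
    ((B.τ_smooth i j k l).contDiffAt ((isOpen_ov i j).mem_nhds (mem_ov hx))).differentiableAt
      (by simp)
  rw [R.Φ.D_congr hev]
  have hm0 : m (A.e i x) = B.τ i j x := by
    show B.τ i j ((A.e i).symm (A.e i x)) = _
    rw [(A.e i).left_inv hx.1]
  have h1 : ∀ s : WI n, wd s (fun z => m z *ᵥ v (φ z)) (A.e i x) =
      Matrix.of (fun k l => wd s (fun z => m z k l) (A.e i x)) *ᵥ v (A.e j x) +
        B.τ i j x *ᵥ ∑ b, cj s.1 (A.J i j x b s.2) • wd (s.1, b) v (A.e j x) := by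
    intro s
    rw [wd_mulVec hmd hvφ s, hm0, hxx, wd_comp hvd hφd s, hxx]
    rfl
  unfold Fock.D
  simp only [h1, Matrix.mulVec_add, Finset.sum_add_distrib, Matrix.mulVec_mulVec]
  rw [← Matrix.sum_mulVec, R.E_closed hx, Matrix.zero_mulVec, zero_add]
  rw [Fintype.sum_prod_type, Fintype.sum_prod_type, Matrix.mulVec_sum]
  refine Finset.sum_congr rfl fun b _ => ?_
  have h2 : ∀ c, B.τ i j x *ᵥ (R.Φ.E (b, c) *ᵥ wd (b, c) v (A.e j x)) =
      ∑ a, cj b (A.J i j x c a) • ((R.Φ.E (b, a) * B.τ i j x) *ᵥ wd (b, c) v (A.e j x)) := by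
    intro c
    rw [Matrix.mulVec_mulVec, ← R.E_symb hx b c, Matrix.sum_mulVec]
    refine Finset.sum_congr rfl fun a _ => ?_
    rw [Matrix.smul_mulVec]
  rw [Matrix.mulVec_sum]
  simp only [h2, Matrix.mulVec_sum, Matrix.mulVec_smul]
  rw [Finset.sum_comm]

theorem dOn_mem {W : Opens M} {u : A.ι → M → B.κ → ℂ} (hu : u ∈ SecOn B W) :
    R.dOn (W : Set M) u ∈ SecOn B W :=
  ⟨fun _ _ hx hW => R.dOn_smP hu hx hW, fun _ _ hx => R.dOn_off hx,
    fun _ _ _ hx hW => R.dOn_tr hu hx hW⟩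

/-- the differential as a linear map -/
def dLin (W : Opens M) : SecOn B W →ₗ[ℂ] SecOn B W where
  toFun u := ⟨R.dOn (W : Set M) u.1, R.dOn_mem u.2⟩
  map_add' u v := by
    apply Subtype.ext
    funext i x
    show R.dOn (W : Set M) (u.1 + v.1) i x =
      R.dOn (W : Set M) u.1 i x + R.dOn (W : Set M) v.1 i x
    by_cases hx : x ∈ (A.e i).source ∧ x ∈ (W : Set M)
    · rw [R.dOn_apply hx.1 hx.2, R.dOn_apply hx.1 hx.2, R.dOn_apply hx.1 hx.2]
      exact R.Φ.D_add (SecOn.diffAt u.2 hx.1 hx.2) (SecOn.diffAt v.2 hx.1 hx.2)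
    · rw [R.dOn_off hx, R.dOn_off hx, R.dOn_off hx, add_zero]
  map_smul' c u := by
    apply Subtype.ext
    funext i x
    show R.dOn (W : Set M) (c • u.1) i x = c • R.dOn (W : Set M) u.1 i x
    by_cases hx : x ∈ (A.e i).source ∧ x ∈ (W : Set M)
    · rw [R.dOn_apply hx.1 hx.2, R.dOn_apply hx.1 hx.2]
      exact R.Φ.D_const_smul c (SecOn.diffAt u.2 hx.1 hx.2)
    · rw [R.dOn_off hx, R.dOn_off hx, smul_zero]


theorem dd (W : Opens M) (u : SecOn B W) : R.dLin W (R.dLin W u) = 0 := by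
  apply Subtype.ext
  funext i x
  show R.dOn (W : Set M) (R.dOn (W : Set M) u.1) i x = 0
  by_cases hx : x ∈ (A.e i).source ∧ x ∈ (W : Set M)
  · rw [R.dOn_apply hx.1 hx.2, R.Φ.D_congr (R.dOn_ev hx.1 hx.2)]
    exact R.Φ.DD (u.2.1 i x hx.1 hx.2)
  · exact R.dOn_off hx

/-- sign of a basis element -/
def sg (k : B.κ) : ℂ := (-1) ^ (B.deg k + R.pdeg k)

/-- the grading operator on families -/
def Tf (u : A.ι → M → B.κ → ℂ) : A.ι → M → B.κ → ℂ := fun i x k => R.sg k * u i x k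

theorem Tf_eq (u : A.ι → M → B.κ → ℂ) (i : A.ι) (x : M) :
    R.Tf u i x = Matrix.diagonal R.sg *ᵥ u i x := by
  funext k
  rw [Matrix.mulVec_diagonal]
  rfl

theorem sg_τ (i j : A.ι) (x : M) : Matrix.diagonal R.sg * B.τ i j x =
    B.τ i j x * Matrix.diagonal R.sg := by
  ext k l
  rw [Matrix.diagonal_mul, Matrix.mul_diagonal]
  by_cases h : B.τ i j x k l = 0
  · rw [h, mul_zero, zero_mul]
  · rw [sg, sg, B.τ_deg i j x k l h, R.τ_pdeg i j x k l h, mul_comm]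

theorem sg_E (s : WI n) : R.Φ.E s * Matrix.diagonal R.sg = - (Matrix.diagonal R.sg * R.Φ.E s) := by
  ext k l
  rw [Matrix.neg_apply, Matrix.diagonal_mul, Matrix.mul_diagonal]
  by_cases h : R.Φ.E s k l = 0
  · rw [h, mul_zero, zero_mul, neg_zero]
  · have h1 : B.deg k + R.pdeg k = B.deg l + R.pdeg l + 1 := R.Φ.E_deg s k l h
    rw [sg, sg, h1, pow_succ]
    ring

theorem Tf_mem {W : Opens M} {u : A.ι → M → B.κ → ℂ} (hu : u ∈ SecOn B W) :
    R.Tf u ∈ SecOn B W := by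
  refine ⟨fun i x hx hW => ?_, fun i x hx => ?_, fun i j x hx hW => ?_⟩
  · have := Fock.contDiffAt_mulVec_const (Matrix.diagonal R.sg) (hu.1 i x hx hW)
    refine this.congr_of_eventuallyEq (Eventually.of_forall fun z => ?_)
    exact R.Tf_eq u i _
  · rw [R.Tf_eq, hu.2.1 i x hx, Matrix.mulVec_zero]
  · rw [R.Tf_eq, R.Tf_eq, hu.2.2 i j x hx hW, Matrix.mulVec_mulVec, Matrix.mulVec_mulVec, R.sg_τ]

/-- the grading operator -/
def Tlin (W : Opens M) : SecOn B W →ₗ[ℂ] SecOn B W where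
  toFun u := ⟨R.Tf u.1, R.Tf_mem u.2⟩
  map_add' u v := by
    apply Subtype.ext
    funext i x k
    exact mul_add _ _ _
  map_smul' c u := by
    apply Subtype.ext
    funext i x k
    exact mul_left_comm _ _ _

theorem dT (W : Opens M) (u : SecOn B W) : R.dLin W (R.Tlin W u) = - R.Tlin W (R.dLin W u) := by
  apply Subtype.ext
  funext i x
  show R.dOn (W : Set M) (R.Tf u.1) i x = - R.Tf (R.dOn (W : Set M) u.1) i x
  rw [R.Tf_eq]
  by_cases hx : x ∈ (A.e i).source ∧ x ∈ (W : Set M)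
  · rw [R.dOn_apply hx.1 hx.2, R.dOn_apply hx.1 hx.2]
    have h1 : (fun z => R.Tf u.1 i ((A.e i).symm z)) =
        fun z => Matrix.diagonal R.sg *ᵥ (u.1 i ((A.e i).symm z)) := by
      funext z
      exact R.Tf_eq _ _ _
    rw [h1]
    unfold Fock.D
    rw [Matrix.mulVec_sum, ← Finset.sum_neg_distrib]
    refine Finset.sum_congr rfl fun s _ => ?_
    rw [wd_const_mulVec _ (SecOn.diffAt u.2 hx.1 hx.2), Matrix.mulVec_mulVec, R.sg_E,
      Matrix.mulVec_mulVec, Matrix.neg_mulVec]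
  · rw [R.dOn_off hx, R.dOn_off hx, Matrix.mulVec_zero, neg_zero]

/-- the de Rham supercomplex of the open set `W` -/
def sc (W : Opens M) : SC ℂ (SecOn B W) where
  d := R.dLin W
  T := R.Tlin W
  dd := R.dd W
  dT := R.dT W

end DRS

end

end Crest.Agent.R275.EDR890
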