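import Crest.Agent.R275.NA7_763
import Crest.Agent.R275.EDRMV_890
import Crest.Agent.R275.EDRBun_890
import Crest.Agent.R275.GC2_293

-- ▼ part R275/EDRSC_890
section

/-!
# R275, block EDR (helper890): Mayer-Vietoris and filtrations for supercomplexes (`NA7763.SC`)
-/

set_option autoImplicit false
set_option linter.unusedSectionVars false

open Set
open Crest.Agent.R275.NA7763 Module

namespace Crest.Agent.R275.EDR890

universe u v w

namespace SCx

variable {k : Type*} [Field k] {VA VB VC : Type*} [AddCommGroup VA] [Module k VA]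
  [AddCommGroup VB] [Module k VB] [AddCommGroup VC] [Module k VC]

/-- binary products -/
def prod (A : SC k VA) (B : SC k VB) : SC k (VA × VB) where
  d := A.d.prodMap B.d
  T := A.T.prodMap B.T
  dd x := by
    simp only [LinearMap.prodMap_apply, A.dd, B.dd]
    rfl
  dT x := by
    simp only [LinearMap.prodMap_apply, A.dT, B.dT]
    rfl

/-- the split sequence -/
def prodSES (A : SC k VA) (B : SC k VB) : SC.SES A (prod A B) B where
  i := { f := LinearMap.inl k VA VB
         d := fun x => by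
          show (A.d x, B.d 0) = (A.d x, (0 : VB))
          rw [map_zero]
         T := fun x => by
          show (A.T x, B.T 0) = (A.T x, (0 : VB))
          rw [map_zero] }
  p := { f := LinearMap.snd k VA VB, d := fun x => rfl, T := fun x => rfl }
  inj := LinearMap.inl_injective
  surj := LinearMap.snd_surjective
  exact y h := ⟨y.1, Prod.ext rfl (Eq.symm h)⟩
  zero x := rfl

theorem prod_finite (A : SC k VA) (B : SC k VB) [FiniteDimensional k A.H] [FiniteDimensional k B.H] :
    FiniteDimensional k (prod A B).H := (prodSES A B).finite_mid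

theorem prod_st (A : SC k VA) (B : SC k VB) [FiniteDimensional k A.H] [FiniteDimensional k B.H] :
    (prod A B).st = A.st + B.st := by
  have := prod_finite A B
  exact (prodSES A B).st_eq

/-- restriction of a supercomplex to an invariant subspace -/
def sub (A : SC k VA) (F : Submodule k VA) (hd : ∀ x ∈ F, A.d x ∈ F) (hT : ∀ x ∈ F, A.T x ∈ F) :
    SC k F where
  d := A.d.restrict hd
  T := A.T.restrict hT
  dd x := Subtype.ext (A.dd x)
  dT x := Subtype.ext (A.dT x)

/-- inclusion of invariant subspaces -/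
def subIncl (A : SC k VA) (F G : Submodule k VA) (hd : ∀ x ∈ F, A.d x ∈ F)
    (hT : ∀ x ∈ F, A.T x ∈ F) (hd' : ∀ x ∈ G, A.d x ∈ G) (hT' : ∀ x ∈ G, A.T x ∈ G) (h : F ≤ G) :
    SC.Hom (sub A F hd hT) (sub A G hd' hT') where
  f := Submodule.inclusion h
  d x := rfl
  T x := rfl

/-- an isomorphism of supercomplexes -/
theorem iso_quasi {A : SC k VA} {B : SC k VB} (φ : SC.Hom A B) (hi : Function.Injective φ.f)
    (hs : Function.Surjective φ.f) : φ.Quasi := by
  constructor
  · rw [injective_iff_map_eq_zero]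
    refine A.ind fun x hx h => ?_
    rw [SC.Hom.mapH_cls, SC.cls_eq_zero] at h
    obtain ⟨y, hy⟩ := h
    obtain ⟨y', rfl⟩ := hs y
    refine (SC.cls_eq_zero _ _).2 ⟨y', hi ?_⟩
    rw [← φ.d, hy]
  · refine B.ind fun y hy => ?_
    obtain ⟨x, rfl⟩ := hs y
    have hx : A.d x = 0 := by
      apply hi
      rw [← φ.d, hy, map_zero]
    exact ⟨A.cls x hx, rfl⟩

/-- **filtered supercomplexes**, one-step form: `F' ≤ F`, `F / F' ≃ G` -/
theorem filt_step (A : SC k VA) (F F' : Submodule k VA) (hd : ∀ x ∈ F, A.d x ∈ F)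
    (hT : ∀ x ∈ F, A.T x ∈ F) (hd' : ∀ x ∈ F', A.d x ∈ F') (hT' : ∀ x ∈ F', A.T x ∈ F')
    (hle : F' ≤ F) (G : SC k VC) (π : SC.Hom (sub A F hd hT) G) (hπ : Function.Surjective π.f)
    (hker : ∀ x : F, π.f x = 0 ↔ (x : VA) ∈ F')
    (h1 : FiniteDimensional k (sub A F' hd' hT').H) (h2 : FiniteDimensional k G.H) :
    FiniteDimensional k (sub A F hd hT).H ∧
      (sub A F hd hT).st = (sub A F' hd' hT').st + G.st := by
  let S : SC.SES (sub A F' hd' hT') (sub A F hd hT) G :=
    { i := subIncl A F' F hd' hT' hd hT hle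
      p := π
      inj := Submodule.inclusion_injective hle
      surj := hπ
      exact := fun y hy => ⟨⟨y, (hker y).1 hy⟩, rfl⟩
      zero := fun x => (hker _).2 x.2 }
  have h3 := S.finite_mid
  exact ⟨h3, S.st_eq⟩

theorem st_subsingleton (A : SC k VA) [Subsingleton VA] : A.st = 0 :=
  SC.Acyclic.st_eq_zero fun x _ => ⟨0, Subsingleton.elim _ _⟩

theorem finite_subsingleton (A : SC k VA) [Subsingleton VA] : FiniteDimensional k A.H :=
  SC.Acyclic.finite fun x _ => ⟨0, Subsingleton.elim _ _⟩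

/-- **filtered supercomplexes** -/
theorem filtration (A : SC k VA) (L : ℕ) (F : ℕ → Submodule k VA) (hd : ∀ p, ∀ x ∈ F p, A.d x ∈ F p)
    (hT : ∀ p, ∀ x ∈ F p, A.T x ∈ F p) (hle : ∀ p, F (p + 1) ≤ F p) (h0 : F 0 = ⊤) (hL : F L = ⊥)
    (W : ℕ → Type*) [∀ p, AddCommGroup (W p)] [∀ p, Module k (W p)] (G : ∀ p, SC k (W p))
    (π : ∀ p, p < L → SC.Hom (sub A (F p) (hd p) (hT p)) (G p))
    (hπ : ∀ p (hp : p < L), Function.Surjective (π p hp).f)
    (hker : ∀ p (hp : p < L), ∀ x : F p, (π p hp).f x = 0 ↔ (x : VA) ∈ F (p + 1))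
    (hG : ∀ p < L, FiniteDimensional k (G p).H) :
    FiniteDimensional k A.H ∧ A.st = ∑ p ∈ Finset.range L, (G p).st := by
  have key : ∀ j ≤ L, FiniteDimensional k (sub A (F (L - j)) (hd _) (hT _)).H ∧
      (sub A (F (L - j)) (hd _) (hT _)).st = ∑ p ∈ Finset.Ico (L - j) L, (G p).st := by
    intro j
    induction j with
    | zero =>
      intro _
      have hs : Subsingleton (F (L - 0)) := by
        rw [Nat.sub_zero, hL]
        infer_instance
      refine ⟨finite_subsingleton _, ?_⟩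
      rw [Nat.sub_zero, Finset.Ico_self, Finset.sum_empty]
      rw [Nat.sub_zero] at hs
      exact st_subsingleton _
    | succ j ih =>
      intro hj
      obtain ⟨ih1, ih2⟩ := ih (by omega)
      have e : L - j = (L - (j + 1)) + 1 := by omega
      rw [e] at ih1 ih2
      have hlt : L - (j + 1) < L := by omega
      obtain ⟨r1, r2⟩ := filt_step A (F (L - (j + 1))) (F (L - (j + 1) + 1)) (hd _) (hT _) (hd _)
        (hT _) (hle _) (G _) (π _ hlt) (hπ _ hlt) (hker _ hlt) ih1 (hG _ hlt)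
      refine ⟨r1, ?_⟩
      rw [r2, ih2, add_comm, Finset.sum_eq_sum_Ico_succ_bot hlt]
  obtain ⟨k1, k2⟩ := key L le_rfl
  rw [Nat.sub_self] at k1 k2
  have hq : SC.Hom.Quasi ({ f := (F 0).subtype, d := fun x => rfl, T := fun x => rfl } :
      SC.Hom (sub A (F 0) (hd 0) (hT 0)) A) :=
    iso_quasi _ Subtype.val_injective (fun x => ⟨⟨x, by rw [h0]; trivial⟩, rfl⟩)
  exact ⟨hq.finite, by rw [← hq.st_eq, k2, Finset.range_eq_Ico]⟩

end SCx

/-! ### The Mayer-Vietoris Euler formula -/

section MV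

variable {k : Type*} [Field k] {X : Type w} {F : Type v} [AddCommGroup F] [Module k F]

/-- **Abstract Mayer-Vietoris Euler formula** for supercomplexes `A W` on subspaces `V W` of a
fixed vector space. -/
theorem mv_euler_sc (op : Set X → Prop) (V : Set X → Submodule k F) (A : ∀ W, SC k (V W))
    (hopU : ∀ W U, op W → op U → op (W ∪ U)) (hopE : op ∅)
    (hE : V ∅ = ⊥)
    (mv : ∀ W U, op W → op U →
      Nonempty (SC.SES (A (W ∪ U)) (SCx.prod (A W) (A U)) (A (W ∩ U))))
    {ι : Type*} (S : Finset ι) (U : ι → Set X)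
    (hop : ∀ s ⊆ S, s.Nonempty → op (⋂ i ∈ s, U i))
    (hfin : ∀ s ⊆ S, s.Nonempty → (⋂ i ∈ s, U i).Nonempty →
      FiniteDimensional k (A (⋂ i ∈ s, U i)).H)
    (hst : ∀ s ⊆ S, s.Nonempty → (⋂ i ∈ s, U i).Nonempty → (A (⋂ i ∈ s, U i)).st = 1) :
    op (⋃ i ∈ S, U i) ∧ FiniteDimensional k (A (⋃ i ∈ S, U i)).H ∧
      (A (⋃ i ∈ S, U i)).st = (nerveChi U S : k) := by
  classical
  have hE1 : ∀ W : Set X, ¬ W.Nonempty → FiniteDimensional k (A W).H ∧ (A W).st = 0 := by
    intro W hW
    rw [Set.not_nonempty_iff_eq_empty] at hW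
    subst hW
    have : Subsingleton (V ∅) := by
      rw [hE]
      infer_instance
    exact ⟨SCx.finite_subsingleton _, SCx.st_subsingleton _⟩
  induction S using Finset.induction_on generalizing U with
  | empty =>
    have e : (⋃ i ∈ (∅ : Finset ι), U i) = ∅ := by simp
    rw [e, nerveChi_empty]
    obtain ⟨h1, h2⟩ := hE1 ∅ (by simp)
    exact ⟨hopE, h1, by rw [h2]; simp⟩
  | insert a S ha ih =>
    have hsub : ∀ s ⊆ S, s ⊆ insert a S := fun s hs => hs.trans (Finset.subset_insert a S)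
    obtain ⟨o1, f1, c1⟩ := ih U (fun s hs => hop s (hsub s hs)) (fun s hs => hfin s (hsub s hs))
      (fun s hs => hst s (hsub s hs))
    have hset : ∀ s : Finset ι, s.Nonempty → (⋂ i ∈ s, U i ∩ U a) = ⋂ i ∈ insert a s, U i := by
      intro s hne
      obtain ⟨i₀, hi₀⟩ := hne
      ext x
      simp only [Set.mem_iInter, Finset.mem_insert, Set.mem_inter_iff]
      constructor
      · rintro h i (rfl | hi)
        · exact (h i₀ hi₀).2
        · exact (h i hi).1
      · intro h i hi
        exact ⟨h i (Or.inr hi), h a (Or.inl rfl)⟩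
    have hins : ∀ s ⊆ S, insert a s ⊆ insert a S := fun s hs => Finset.insert_subset_insert a hs
    obtain ⟨o2, f2, c2⟩ := ih (fun i => U i ∩ U a)
      (fun s hs hne => by
        rw [hset s hne]
        exact hop _ (hins s hs) (Finset.insert_nonempty a s))
      (fun s hs hne => by
        rw [hset s hne]
        exact hfin _ (hins s hs) (Finset.insert_nonempty a s))
      (fun s hs hne => by
        rw [hset s hne]
        exact hst _ (hins s hs) (Finset.insert_nonempty a s))
    have hinter : (⋃ i ∈ S, U i) ∩ U a = ⋃ i ∈ S, U i ∩ U a := by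
      rw [Set.iUnion₂_inter]
    have hunion : (⋃ i ∈ insert a S, U i) = (⋃ i ∈ S, U i) ∪ U a := by
      rw [Finset.set_biUnion_insert, Set.union_comm]
    have hsing : (⋂ i ∈ ({a} : Finset ι), U i) = U a := by simp
    have hsa : ({a} : Finset ι) ⊆ insert a S := by simp
    have oa : op (U a) := by
      have := hop {a} hsa (Finset.singleton_nonempty a)
      rwa [hsing] at this
    have fca : FiniteDimensional k (A (U a)).H ∧ (A (U a)).st = if (U a).Nonempty then 1 else 0 := by
      by_cases h : (U a).Nonempty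
      · rw [if_pos h]
        have h1 := hfin {a} hsa (Finset.singleton_nonempty a)
        have h2 := hst {a} hsa (Finset.singleton_nonempty a)
        rw [hsing] at h1 h2
        exact ⟨h1 h, h2 h⟩
      · rw [if_neg h]
        exact hE1 _ h
    obtain ⟨fa, ca⟩ := fca
    rw [← hinter] at o2 f2 c2
    obtain ⟨Sq⟩ := mv _ _ o1 oa
    have fp := SCx.prod_finite (A (⋃ i ∈ S, U i)) (A (U a))
    rw [hunion]
    have fu := Sq.finite_left
    refine ⟨hopU _ _ o1 oa, fu, ?_⟩
    have h1 := Sq.st_eq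
    have h2 := SCx.prod_st (A (⋃ i ∈ S, U i)) (A (U a))
    rw [nerveChi_insert U S a ha]
    push_cast
    rw [← c1, ← c2, ← ca]
    rw [h2] at h1
    linear_combination -h1

end MV

end Crest.Agent.R275.EDR890
end

-- ▼ part R275/EDRGood_890
section

/-!
# R275, block EDR (helper890): de Rham cohomology of chart-convex open sets
-/

set_option autoImplicit false
set_option linter.unusedSectionVars false

open Set Filter Topology Complex TopologicalSpace
open scoped ContDiff Matrix ComplexConjugate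

namespace Crest.Agent.R275.EDR890

open Geo NA7763

noncomputable section

/-! ### The one-dimensional supercomplex -/

/-- `ℂ` in degree zero -/
def trivSC : SC ℂ ℂ where
  d := 0
  T := LinearMap.id
  dd _ := rfl
  dT _ := by simp

theorem trivSC_d (c : ℂ) : trivSC.d c = 0 := rfl

theorem trivSC_equiv : Nonempty (ℂ ≃ₗ[ℂ] trivSC.H) := by
  let f : ℂ →ₗ[ℂ] trivSC.H :=
    { toFun := fun c => trivSC.cls c (trivSC_d c)
      map_add' := fun a b => map_add (Coh.mk trivSC.d) ⟨a, rfl⟩ ⟨b, rfl⟩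
      map_smul' := fun a b => map_smul (Coh.mk trivSC.d) a ⟨b, rfl⟩ }
  refine ⟨LinearEquiv.ofBijective f ⟨?_, ?_⟩⟩
  · rw [injective_iff_map_eq_zero]
    intro c hc
    obtain ⟨y, hy⟩ := (trivSC.cls_eq_zero (x := c) (trivSC_d c)).1 hc
    exact hy.symm
  · exact trivSC.ind fun x hx => ⟨x, rfl⟩

theorem trivSC_finite : FiniteDimensional ℂ trivSC.H := by
  obtain ⟨e⟩ := trivSC_equiv
  exact e.finiteDimensional

theorem trivSC_st : trivSC.st = 1 := by
  obtain ⟨e⟩ := trivSC_equiv
  have h1 : trivSC.TH = LinearMap.id := by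
    ext a
    revert a
    exact trivSC.ind fun x hx => rfl
  have := trivSC_finite
  rw [SC.st, h1, LinearMap.trace_id, ← e.finrank_eq, Module.finrank_self, Nat.cast_one]

variable {n : ℕ} {M : Type} [TopologicalSpace M] {A : Atl n M} {B : FBun A}

/-! ### Sections from one chart -/

open Classical in
/-- the section over `W ⊆ source i` with `i`-th component `g` -/
def ofChart (B : FBun A) (W : Opens M) (i : A.ι) (g : M → B.κ → ℂ) : A.ι → M → B.κ → ℂ :=
  fun j x => if x ∈ (A.e j).source ∧ x ∈ W then B.τ j i x *ᵥ g x else 0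

theorem ofChart_apply {W : Opens M} {i j : A.ι} {g : M → B.κ → ℂ} {x : M}
    (hx : x ∈ (A.e j).source) (hW : x ∈ W) : ofChart B W i g j x = B.τ j i x *ᵥ g x :=
  if_pos ⟨hx, hW⟩

theorem ofChart_off {W : Opens M} {i j : A.ι} {g : M → B.κ → ℂ} {x : M}
    (hx : ¬(x ∈ (A.e j).source ∧ x ∈ W)) : ofChart B W i g j x = 0 := if_neg hx

theorem ofChart_self {W : Opens M} {i : A.ι} (hWi : (W : Set M) ⊆ (A.e i).source)
    {g : M → B.κ → ℂ} {x : M} (hW : x ∈ W) : ofChart B W i g i x = g x := by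
  rw [ofChart_apply (hWi hW) hW, B.τ_self i x (hWi hW), Matrix.one_mulVec]

theorem ofChart_mem {W : Opens M} {i : A.ι} (hWi : (W : Set M) ⊆ (A.e i).source)
    {g : M → B.κ → ℂ} (hg : ∀ x ∈ W, SmP A i g x) : ofChart B W i g ∈ SecOn B W := by
  refine ⟨fun j x hx hW => ?_, fun j x hx => ofChart_off hx, fun j k x hx hW => ?_⟩
  · have hxi := hWi hW
    have h1 : SmP A j (fun y => B.τ j i y *ᵥ g y) x := by
      have hgj : SmP A j g x := (hg x hW).change ⟨hx, hxi⟩
      rw [SmP, contDiffAt_pi] at hgj ⊢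
      intro k
      have hτ : ∀ l, ContDiffAt ℝ ∞ (fun z => B.τ j i ((A.e j).symm z) k l) (A.e j x) := fun l =>
        (B.τ_smooth j i k l).contDiffAt ((isOpen_ov j i).mem_nhds (mem_ov ⟨hx, hxi⟩))
      exact ContDiffAt.sum fun l _ => (hτ l).mul (hgj l)
    refine h1.congr hx ?_
    filter_upwards [(A.e j).open_source.mem_nhds hx, W.isOpen.mem_nhds hW] with y hy hyW
    exact ofChart_apply hy hyW
  · rw [ofChart_apply hx.1 hW, ofChart_apply hx.2 hW, Matrix.mulVec_mulVec,
      B.τ_mul j k i x ⟨hx, hWi hW⟩]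

namespace DRS

variable (R : DRS B)

/-- constants -/
def cst (W : Opens M) (i : A.ι) (hWi : (W : Set M) ⊆ (A.e i).source) : ℂ →ₗ[ℂ] SecOn B W where
  toFun c := ⟨ofChart B W i (fun _ => Pi.single R.k0 c), ofChart_mem hWi fun _ _ =>
    contDiffAt_const⟩
  map_add' a b := by
    apply Subtype.ext
    funext j x
    show ofChart B W i (fun _ => Pi.single R.k0 (a + b)) j x =
      ofChart B W i (fun _ => Pi.single R.k0 a) j x + ofChart B W i (fun _ => Pi.single R.k0 b) j x
    by_cases h : x ∈ (A.e j).source ∧ x ∈ W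
    · rw [ofChart_apply h.1 h.2, ofChart_apply h.1 h.2, ofChart_apply h.1 h.2, Pi.single_add,
        Matrix.mulVec_add]
    · rw [ofChart_off h, ofChart_off h, ofChart_off h, add_zero]
  map_smul' a b := by
    apply Subtype.ext
    funext j x
    show ofChart B W i (fun _ => Pi.single R.k0 (a • b)) j x =
      a • ofChart B W i (fun _ => Pi.single R.k0 b) j x
    by_cases h : x ∈ (A.e j).source ∧ x ∈ W
    · rw [ofChart_apply h.1 h.2, ofChart_apply h.1 h.2, Pi.single_smul, Matrix.mulVec_smul]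
    · rw [ofChart_off h, ofChart_off h, smul_zero]

theorem cst_self (W : Opens M) (i : A.ι) (hWi : (W : Set M) ⊆ (A.e i).source) (c : ℂ) {x : M}
    (hx : x ∈ W) : (R.cst W i hWi c).1 i x = Pi.single R.k0 c :=
  ofChart_self (B := B) (g := fun _ => Pi.single R.k0 c) hWi hx

theorem cst_d (W : Opens M) (i : A.ι) (hWi : (W : Set M) ⊆ (A.e i).source) (c : ℂ) :
    R.dLin W (R.cst W i hWi c) = 0 := by
  apply Subtype.ext
  refine SecOn.ext_of (R.dLin W _).2 (SecOn B W).zero_mem fun x hx => ⟨i, hWi hx, ?_⟩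
  show R.dOn (W : Set M) (R.cst W i hWi c).1 i x = 0
  rw [R.dOn_apply (hWi hx) hx]
  have h1 : (fun z => (R.cst W i hWi c).1 i ((A.e i).symm z)) =ᶠ[𝓝 (A.e i x)]
      fun _ => Pi.single R.k0 c := by
    filter_upwards [ev_chart (hWi hx) (W.isOpen.mem_nhds hx)] with z hz
    exact R.cst_self W i hWi c hz
  rw [R.Φ.D_congr h1, R.Φ.D_const]

theorem cst_T (W : Opens M) (i : A.ι) (hWi : (W : Set M) ⊆ (A.e i).source) (c : ℂ) :
    R.Tlin W (R.cst W i hWi c) = R.cst W i hWi c := by
  apply Subtype.ext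
  refine SecOn.ext_of (R.Tlin W _).2 (R.cst W i hWi c).2 fun x hx => ⟨i, hWi hx, ?_⟩
  show R.Tf (R.cst W i hWi c).1 i x = _
  rw [R.Tf_eq, R.cst_self W i hWi c hx]
  funext k
  rw [Matrix.mulVec_diagonal]
  by_cases h : k = R.k0
  · have h0 := (R.vac k).2 h
    rw [sg, h0, pow_zero, one_mul]
  · rw [Pi.single_eq_of_ne h, mul_zero]

/-- the morphism from the constants -/
def cstHom (W : Opens M) (i : A.ι) (hWi : (W : Set M) ⊆ (A.e i).source) :
    SC.Hom trivSC (R.sc W) where
  f := R.cst W i hWi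
  d c := by
    show R.dLin W (R.cst W i hWi c) = R.cst W i hWi 0
    rw [R.cst_d, map_zero]
  T c := R.cst_T W i hWi c

/-- **Poincaré lemma** for chart-convex open sets -/
theorem cst_quasi (W : Opens M) (i : A.ι) (hWi : (W : Set M) ⊆ (A.e i).source)
    (hc : Convex ℝ (A.e i '' (W : Set M))) (hne : (W : Set M).Nonempty) :
    (R.cstHom W i hWi).Quasi := by
  obtain ⟨x₀, hx₀⟩ := hne
  set V : Set (Cn n) := A.e i '' (W : Set M) with hV
  have hVo : IsOpen V := (A.e i).isOpen_image_of_subset_source W.isOpen hWi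
  have hsymm : ∀ z ∈ V, (A.e i).symm z ∈ W ∧ A.e i ((A.e i).symm z) = z := by
    rintro _ ⟨x, hx, rfl⟩
    rw [(A.e i).left_inv (hWi hx)]
    exact ⟨hx, rfl⟩
  have hz₀ : A.e i x₀ ∈ V := ⟨x₀, hx₀, rfl⟩
  constructor
  · rw [injective_iff_map_eq_zero]
    refine trivSC.ind fun c hc' h => ?_
    rw [SC.Hom.mapH_cls, SC.cls_eq_zero] at h
    obtain ⟨y, hy⟩ := h
    have h1 : (R.dLin W y).1 i x₀ R.k0 = (R.cst W i hWi c).1 i x₀ R.k0 := by
      rw [show R.dLin W y = R.cst W i hWi c from hy]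
    rw [R.cst_self W i hWi c hx₀, Pi.single_eq_same] at h1
    have h2 : (R.dLin W y).1 i x₀ R.k0 = 0 := by
      show R.dOn (W : Set M) y.1 i x₀ R.k0 = 0
      rw [R.dOn_apply (hWi hx₀) hx₀]
      exact R.Φ.D_zero_comp _ _ _ ((R.vac R.k0).2 rfl)
    have h3 : c = 0 := by rw [← h1, h2]
    exact (trivSC.cls_eq_zero hc').2 ⟨0, by rw [map_zero, h3]⟩
  · refine (R.sc W).ind fun u hu => ?_
    set g : Cn n → B.κ → ℂ := fun z => u.1 i ((A.e i).symm z) with hg
    have hgs : ContDiffOn ℝ ∞ g V := by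
      intro z hz
      obtain ⟨h1, h2⟩ := hsymm z hz
      have h3 := u.2.1 i _ (hWi h1) h1
      rw [SmP, h2] at h3
      exact h3.contDiffWithinAt
    have hDg : ∀ z ∈ V, R.Φ.D g z = 0 := by
      intro z hz
      obtain ⟨h1, h2⟩ := hsymm z hz
      have h3 : (R.dLin W u).1 i ((A.e i).symm z) = 0 := by
        rw [show R.dLin W u = 0 from hu]
        rfl
      have h4 : R.dOn (W : Set M) u.1 i ((A.e i).symm z) = 0 := h3
      rw [R.dOn_apply (hWi h1) h1, h2] at h4
      exact h4
    set w : Cn n → B.κ → ℂ := R.Φ.K (A.e i x₀) g with hw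
    have hws : ContDiffOn ℝ ∞ w V := R.Φ.contDiffOn_K hVo hc hz₀ hgs
    have hsm : ∀ x ∈ W, SmP A i (fun x => w (A.e i x)) x := by
      intro x hx
      have h1 : ContDiffAt ℝ ∞ w (A.e i x) := hws.contDiffAt (hVo.mem_nhds ⟨x, hx, rfl⟩)
      refine h1.congr_of_eventuallyEq ?_
      filter_upwards [(A.e i).open_target.mem_nhds ((A.e i).map_source (hWi hx))] with z hz
      show w (A.e i ((A.e i).symm z)) = w z
      rw [(A.e i).right_inv hz]
    refine ⟨trivSC.cls (g (A.e i x₀) R.k0) (trivSC_d _), ?_⟩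
    rw [SC.Hom.mapH_cls]
    refine ((R.sc W).cls_eq _ _).2 ⟨- ⟨ofChart B W i (fun x => w (A.e i x)), ofChart_mem hWi hsm⟩, ?_⟩
    rw [map_neg, neg_eq_iff_eq_neg, neg_sub]
    apply Subtype.ext
    refine SecOn.ext_of (R.dLin W _).2 (SecOn B W |>.sub_mem u.2 (R.cst W i hWi _).2)
      fun x hx => ⟨i, hWi hx, ?_⟩
    have hxV : A.e i x ∈ V := ⟨x, hx, rfl⟩
    show R.dOn (W : Set M) (ofChart B W i (fun x => w (A.e i x))) i x =
      u.1 i x - (R.cst W i hWi (g (A.e i x₀) R.k0)).1 i x
    rw [R.dOn_apply (hWi hx) hx, R.cst_self W i hWi _ hx]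
    have h1 : (fun z => ofChart B W i (fun x => w (A.e i x)) i ((A.e i).symm z))
        =ᶠ[𝓝 (A.e i x)] w := by
      filter_upwards [hVo.mem_nhds hxV] with z hz
      obtain ⟨h1, h2⟩ := hsymm z hz
      rw [ofChart_self hWi h1, h2]
    rw [R.Φ.D_congr h1]
    funext k
    have h2 := R.Φ.homotopy_formula hVo hc hz₀ hgs hxV k
    have h3 : R.Φ.K (A.e i x₀) (R.Φ.D g) (A.e i x) = 0 := by
      unfold Fock.K
      have : ∀ t ∈ uIcc (0:ℝ) 1, R.Φ.Kg (A.e i x₀) (R.Φ.D g) (A.e i x, t) = 0 := by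
        intro t ht
        rw [uIcc_of_le zero_le_one] at ht
        have h4 := hDg _ (Fock.mem_seg hc hz₀ hxV ht)
        simp only [Fock.Kg, h4, Matrix.mulVec_zero]
        refine Finset.sum_eq_zero fun s _ => ?_
        have : R.Φ.T t 0 = 0 := by
          funext k
          simp [Fock.T]
        rw [this, smul_zero]
      rw [intervalIntegral.integral_congr this, intervalIntegral.integral_zero]
    rw [h3, Pi.zero_apply, add_zero] at h2
    rw [hw, h2, Pi.sub_apply]
    have h4 : g (A.e i x) k = u.1 i x k := by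
      show u.1 i ((A.e i).symm (A.e i x)) k = _
      rw [(A.e i).left_inv (hWi hx)]
    rw [h4]
    congr 1
    by_cases hk : k = R.k0
    · have h0 : R.Φ.deg k = 0 := (R.vac k).2 hk
      rw [h0, pow_zero, one_mul, hk, Pi.single_eq_same]
    · have h0 : R.Φ.deg k ≠ 0 := fun h => hk ((R.vac k).1 h)
      rw [zero_pow h0, zero_mul, Pi.single_eq_of_ne hk]

theorem good_finite (W : Opens M) (i : A.ι) (hWi : (W : Set M) ⊆ (A.e i).source)
    (hc : Convex ℝ (A.e i '' (W : Set M))) (hne : (W : Set M).Nonempty) :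
    FiniteDimensional ℂ (R.sc W).H := by
  have := trivSC_finite
  exact (R.cst_quasi W i hWi hc hne).finite

theorem good_st (W : Opens M) (i : A.ι) (hWi : (W : Set M) ⊆ (A.e i).source)
    (hc : Convex ℝ (A.e i '' (W : Set M))) (hne : (W : Set M).Nonempty) :
    (R.sc W).st = 1 := by
  rw [← (R.cst_quasi W i hWi hc hne).st_eq, trivSC_st]

end DRS

end

end Crest.Agent.R275.EDR890
end

-- ▼ part R275/EDRMVx_890
section

/-!
# R275, block EDR (helper890): Mayer-Vietoris for the de Rham supercomplex, nerve formula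
-/

set_option autoImplicit false
set_option linter.unusedSectionVars false

open Set Filter Topology Complex TopologicalSpace
open scoped ContDiff Matrix ComplexConjugate

namespace Crest.Agent.R275.EDR890

open Geo NA7763

noncomputable section

variable {n : ℕ} {M : Type} [TopologicalSpace M] {A : Atl n M} {B : FBun A}

/-! ### Smooth cutoff -/

/-- `f` is a smooth nonnegative function with support exactly `W` -/
structure IsBump (A : Atl n M) (W : Set M) (f : M → ℝ) : Prop where
  sm : A.Sm f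
  nonneg : ∀ x, 0 ≤ f x
  supp : ∀ x, f x ≠ 0 ↔ x ∈ W

theorem Sm.smP {A : Atl n M} {W : Type*} [NormedAddCommGroup W] [NormedSpace ℝ W] {f : M → W}
    (hf : A.Sm f) {i : A.ι} {x : M} (hx : x ∈ (A.e i).source) : SmP A i f x :=
  smAt_iff.1 (hf i) x hx

theorem Sm.continuous {A : Atl n M} {W : Type*} [NormedAddCommGroup W] [NormedSpace ℝ W]
    {f : M → W} (hf : A.Sm f) : Continuous f := by
  rw [continuous_iff_continuousAt]
  intro x
  obtain ⟨i, hi⟩ := A.cover x
  have h1 : ContinuousAt (fun z => f ((A.e i).symm z)) (A.e i x) :=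
    ContDiffAt.continuousAt (Sm.smP hf hi)
  have h2 : ContinuousAt (fun y => (fun z => f ((A.e i).symm z)) (A.e i y)) x :=
    ContinuousAt.comp (f := A.e i) (g := fun z => f ((A.e i).symm z)) h1 ((A.e i).continuousAt hi)
  refine h2.congr ?_
  filter_upwards [(A.e i).open_source.mem_nhds hi] with y hy
  show f ((A.e i).symm (A.e i y)) = f y
  rw [(A.e i).left_inv hy]

theorem IsBump.isOpen {A : Atl n M} {W : Set M} {f : M → ℝ} (h : IsBump A W f) : IsOpen W := by
  have : W = {x | f x ≠ 0} := by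
    ext x
    exact (h.supp x).symm
  rw [this]
  exact isOpen_ne_fun (Sm.continuous h.sm) continuous_const

theorem IsBump.union {A : Atl n M} {W U : Set M} {f g : M → ℝ} (hf : IsBump A W f)
    (hg : IsBump A U g) : IsBump A (W ∪ U) (fun x => f x + g x) where
  sm i := (hf.sm i).add (hg.sm i)
  nonneg x := add_nonneg (hf.nonneg x) (hg.nonneg x)
  supp x := by
    have h1 := hf.nonneg x
    have h2 := hg.nonneg x
    rw [mem_union, ← hf.supp x, ← hg.supp x]
    constructor
    · intro h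
      by_contra h'
      push Not at h'
      rw [h'.1, h'.2, add_zero] at h
      exact h rfl
    · intro h h0
      rcases h with h | h
      · exact h (by linarith)
      · exact h (by linarith)

theorem IsBump.inter {A : Atl n M} {W U : Set M} {f g : M → ℝ} (hf : IsBump A W f)
    (hg : IsBump A U g) : IsBump A (W ∩ U) (fun x => f x * g x) where
  sm i := (hf.sm i).mul (hg.sm i)
  nonneg x := mul_nonneg (hf.nonneg x) (hg.nonneg x)
  supp x := by
    rw [mem_inter_iff, ← hf.supp x, ← hg.supp x]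
    exact mul_ne_zero_iff

theorem isBump_empty (A : Atl n M) : IsBump A (∅ : Set M) (fun _ => 0) where
  sm i := contDiffOn_const
  nonneg x := le_rfl
  supp x := by simp

/-- smooth step: `0` on `(-∞, 1/3]`, `1` on `[2/3, ∞)` -/
def step (t : ℝ) : ℝ := Real.smoothTransition (3 * t - 1)

theorem step_contDiff : ContDiff ℝ ∞ step :=
  Real.smoothTransition.contDiff.comp ((contDiff_const.mul contDiff_id).sub contDiff_const)

theorem step_zero {t : ℝ} (h : t ≤ 1 / 3) : step t = 0 :=
  Real.smoothTransition.zero_of_nonpos (by linarith)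

theorem step_one {t : ℝ} (h : 2 / 3 ≤ t) : step t = 1 :=
  Real.smoothTransition.one_of_one_le (by linarith)

/-- the cutoff function: `0` near `W \ U`, `1` near `U \ W` -/
def cut (f g : M → ℝ) (x : M) : ℝ := step (g x / (f x + g x))

theorem cut_smP {A : Atl n M} {W U : Set M} {f g : M → ℝ} (hf : IsBump A W f)
    (hg : IsBump A U g) {i : A.ι} {x : M} (hx : x ∈ (A.e i).source) (hWU : x ∈ W ∪ U) :
    SmP A i (cut f g) x := by
  have h0 : f x + g x ≠ 0 := ((hf.union hg).supp x).2 hWU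
  have h1 : SmP A i f x := Sm.smP hf.sm hx
  have h2 : SmP A i g x := Sm.smP hg.sm hx
  have h3 : ContDiffAt ℝ ∞ (fun z => g ((A.e i).symm z) / (f ((A.e i).symm z) +
      g ((A.e i).symm z))) (A.e i x) := by
    refine ContDiffAt.div h2 (ContDiffAt.add h1 h2) ?_
    rw [(A.e i).left_inv hx]
    exact h0
  exact step_contDiff.contDiffAt.comp _ h3

theorem cut_zero {A : Atl n M} {W U : Set M} {f g : M → ℝ} (hf : IsBump A W f)
    (hg : IsBump A U g) {x : M} (hW : x ∈ W) (hU : x ∉ U) : cut f g =ᶠ[𝓝 x] fun _ => 0 := by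
  have hg0 : g x = 0 := by
    by_contra h
    exact hU ((hg.supp x).1 h)
  have hf0 : f x ≠ 0 := (hf.supp x).2 hW
  have hcont : ContinuousAt (fun y => g y / (f y + g y)) x := by
    refine ContinuousAt.div (Sm.continuous hg.sm).continuousAt
      ((Sm.continuous hf.sm).continuousAt.add (Sm.continuous hg.sm).continuousAt) ?_
    rw [hg0, add_zero]
    exact hf0
  have h1 : ∀ᶠ y in 𝓝 x, g y / (f y + g y) < 1 / 3 := by
    refine hcont.eventually_lt continuousAt_const ?_
    rw [hg0]
    norm_num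
  filter_upwards [h1] with y hy
  exact step_zero hy.le

theorem cut_one {A : Atl n M} {W U : Set M} {f g : M → ℝ} (hf : IsBump A W f)
    (hg : IsBump A U g) {x : M} (hW : x ∉ W) (hU : x ∈ U) : cut f g =ᶠ[𝓝 x] fun _ => 1 := by
  have hf0 : f x = 0 := by
    by_contra h
    exact hW ((hf.supp x).1 h)
  have hg0 : g x ≠ 0 := (hg.supp x).2 hU
  have hcont : ContinuousAt (fun y => g y / (f y + g y)) x := by
    refine ContinuousAt.div (Sm.continuous hg.sm).continuousAt
      ((Sm.continuous hf.sm).continuousAt.add (Sm.continuous hg.sm).continuousAt) ?_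
    rw [hf0, zero_add]
    exact hg0
  have h1 : ∀ᶠ y in 𝓝 x, 2 / 3 < g y / (f y + g y) := by
    refine continuousAt_const.eventually_lt hcont ?_
    rw [hf0, zero_add, div_self hg0]
    norm_num
  filter_upwards [h1] with y hy
  exact step_one hy.le

/-! ### The Mayer-Vietoris sequence -/

section fmul

variable {W U : Opens M}

/-- a section over `W ⊓ U`, multiplied by a function which vanishes near `W \ U`, is a section
over `W` -/
theorem fmul_mem_left {ρ : M → ℝ} (hρ : ∀ i, ∀ x ∈ (A.e i).source, x ∈ W → SmP A i ρ x)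
    (h0 : ∀ x ∈ W, x ∉ U → ρ =ᶠ[𝓝 x] fun _ => 0) {c : A.ι → M → B.κ → ℂ}
    (hc : c ∈ SecOn B (W ⊓ U)) : (fun i x => (ρ x : ℂ) • c i x) ∈ SecOn B W := by
  refine ⟨fun i x hx hW => ?_, fun i x hx => ?_, fun i j x hx hW => ?_⟩
  · by_cases hU : x ∈ U
    · have h1 : ContDiffAt ℝ ∞ (fun z => ((ρ ((A.e i).symm z) : ℝ) : ℂ)) (A.e i x) :=
        Complex.ofRealCLM.contDiff.contDiffAt.comp _ (hρ i x hx hW)
      exact ContDiffAt.smul h1 (hc.1 i x hx ⟨hW, hU⟩)
    · have h2 : SmP A i (fun _ : M => (0 : B.κ → ℂ)) x := contDiffAt_const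
      refine h2.congr hx ?_
      filter_upwards [h0 x hW hU] with y hy
      rw [hy, ofReal_zero, zero_smul]
  · have : c i x = 0 := hc.2.1 i x (fun h => hx ⟨h.1, h.2.1⟩)
    show (ρ x : ℂ) • c i x = 0
    rw [this, smul_zero]
  · show (ρ x : ℂ) • c i x = B.τ i j x *ᵥ ((ρ x : ℂ) • c j x)
    by_cases hU : x ∈ U
    · rw [Matrix.mulVec_smul, hc.2.2 i j x hx ⟨hW, hU⟩]
    · rw [hc.2.1 i x (fun h => hU h.2.2), hc.2.1 j x (fun h => hU h.2.2), smul_zero,
        Matrix.mulVec_zero]

theorem fmul_mem_right {ρ : M → ℝ} (hρ : ∀ i, ∀ x ∈ (A.e i).source, x ∈ U → SmP A i ρ x)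
    (h0 : ∀ x ∈ U, x ∉ W → ρ =ᶠ[𝓝 x] fun _ => 0) {c : A.ι → M → B.κ → ℂ}
    (hc : c ∈ SecOn B (W ⊓ U)) : (fun i x => (ρ x : ℂ) • c i x) ∈ SecOn B U := by
  rw [inf_comm] at hc
  exact fmul_mem_left hρ h0 hc

end fmul

namespace DRS

variable (R : DRS B)

/-- restriction as a linear map -/
def resL (B : FBun A) {W W' : Opens M} (h : W' ≤ W) : SecOn B W →ₗ[ℂ] SecOn B W' where
  toFun u := ⟨SecOn.res (W' : Set M) u.1, SecOn.res_mem u.2 h⟩
  map_add' u v := by
    apply Subtype.ext
    funext i x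
    show SecOn.res (W' : Set M) (u.1 + v.1) i x =
      SecOn.res (W' : Set M) u.1 i x + SecOn.res (W' : Set M) v.1 i x
    by_cases hx : x ∈ (W' : Set M)
    · rw [SecOn.res_of_mem hx, SecOn.res_of_mem hx, SecOn.res_of_mem hx]
      rfl
    · rw [SecOn.res_of_notMem hx, SecOn.res_of_notMem hx, SecOn.res_of_notMem hx, add_zero]
  map_smul' c u := by
    apply Subtype.ext
    funext i x
    show SecOn.res (W' : Set M) (c • u.1) i x = c • SecOn.res (W' : Set M) u.1 i x
    by_cases hx : x ∈ (W' : Set M)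
    · rw [SecOn.res_of_mem hx, SecOn.res_of_mem hx]
      rfl
    · rw [SecOn.res_of_notMem hx, SecOn.res_of_notMem hx, smul_zero]

theorem resL_apply {W W' : Opens M} (h : W' ≤ W) (u : SecOn B W) {i : A.ι} {x : M} (hx : x ∈ W') :
    (resL B h u).1 i x = u.1 i x := SecOn.res_of_mem (W := (W' : Set M)) hx

theorem resL_d {W W' : Opens M} (h : W' ≤ W) (u : SecOn B W) :
    R.dLin W' (resL B h u) = resL B h (R.dLin W u) := by
  apply Subtype.ext
  funext i x
  by_cases hx : x ∈ (A.e i).source ∧ x ∈ W'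
  · rw [resL_apply h _ hx.2]
    exact R.dOn_congr hx.1 hx.2 (h hx.2) (SecOn.res_ev W' u.1 i hx.2)
  · rw [(R.dLin W' _).2.2.1 i x hx, (resL B h _).2.2.1 i x hx]

theorem resL_T {W W' : Opens M} (h : W' ≤ W) (u : SecOn B W) :
    R.Tlin W' (resL B h u) = resL B h (R.Tlin W u) := by
  apply Subtype.ext
  funext i x
  by_cases hx : x ∈ (A.e i).source ∧ x ∈ W'
  · rw [resL_apply h _ hx.2]
    show R.Tf _ i x = R.Tf _ i x
    rw [R.Tf_eq, R.Tf_eq, resL_apply h _ hx.2]
  · rw [(R.Tlin W' _).2.2.1 i x hx, (resL B h _).2.2.1 i x hx]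


open Classical in
/-- gluing -/
theorem glue {W U : Opens M} (a : SecOn B W) (b : SecOn B U)
    (hab : ∀ i x, x ∈ W → x ∈ U → a.1 i x = b.1 i x) :
    ∃ u : SecOn B (W ⊔ U), resL B le_sup_left u = a ∧ resL B le_sup_right u = b := by
  set w : A.ι → M → B.κ → ℂ := fun i x => if x ∈ W then a.1 i x else b.1 i x with hw
  have hwW : ∀ i x, x ∈ W → w i x = a.1 i x := fun i x hx => if_pos hx
  have hwU : ∀ i x, x ∈ U → w i x = b.1 i x := by
    intro i x hx
    by_cases hW : x ∈ W
    · rw [hwW i x hW, hab i x hW hx]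
    · exact if_neg hW
  have hmem : w ∈ SecOn B (W ⊔ U) := by
    refine ⟨fun i x hx hWU => ?_, fun i x hx => ?_, fun i j x hx hWU => ?_⟩
    · rcases hWU with h | h
      · refine (a.2.1 i x hx h).congr hx ?_
        filter_upwards [W.isOpen.mem_nhds h] with y hy
        exact hwW i y hy
      · refine (b.2.1 i x hx h).congr hx ?_
        filter_upwards [U.isOpen.mem_nhds h] with y hy
        exact hwU i y hy
    · by_cases hW : x ∈ W
      · rw [hwW i x hW]
        exact a.2.2.1 i x (fun h => hx ⟨h.1, Or.inl h.2⟩)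
      · have : w i x = b.1 i x := if_neg hW
        rw [this]
        exact b.2.2.1 i x (fun h => hx ⟨h.1, Or.inr h.2⟩)
    · rcases hWU with h | h
      · rw [hwW i x h, hwW j x h]
        exact a.2.2.2 i j x hx h
      · rw [hwU i x h, hwU j x h]
        exact b.2.2.2 i j x hx h
  refine ⟨⟨w, hmem⟩, ?_, ?_⟩
  · apply Subtype.ext
    funext i x
    by_cases hx : x ∈ W
    · rw [resL_apply le_sup_left _ hx]
      exact hwW i x hx
    · rw [(resL B le_sup_left _).2.2.1 i x (fun h => hx h.2), a.2.2.1 i x (fun h => hx h.2)]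
  · apply Subtype.ext
    funext i x
    by_cases hx : x ∈ U
    · rw [resL_apply le_sup_right _ hx]
      exact hwU i x hx
    · rw [(resL B le_sup_right _).2.2.1 i x (fun h => hx h.2), b.2.2.1 i x (fun h => hx h.2)]

/-- the Mayer-Vietoris sequence -/
theorem mvSES {W U : Opens M} {f g : M → ℝ} (hf : IsBump A (W : Set M) f)
    (hg : IsBump A (U : Set M) g) :
    Nonempty (SC.SES (R.sc (W ⊔ U)) (SCx.prod (R.sc W) (R.sc U)) (R.sc (W ⊓ U))) := by
  let p : (SecOn B W × SecOn B U) →ₗ[ℂ] SecOn B (W ⊓ U) :=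
    (resL B (inf_le_left : W ⊓ U ≤ W)) ∘ₗ LinearMap.fst ℂ _ _ -
      (resL B (inf_le_right : W ⊓ U ≤ U)) ∘ₗ LinearMap.snd ℂ _ _
  have hp : ∀ a b, p (a, b) = resL B (inf_le_left : W ⊓ U ≤ W) a -
      resL B (inf_le_right : W ⊓ U ≤ U) b := fun a b => rfl
  refine ⟨{ i := { f := (resL B le_sup_left).prod (resL B le_sup_right)
                   d := fun u => Prod.ext (R.resL_d _ u) (R.resL_d _ u)
                   T := fun u => Prod.ext (R.resL_T _ u) (R.resL_T _ u) }
            p := { f := p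
                   d := ?_
                   T := ?_ }
            inj := ?_
            surj := ?_
            exact := ?_
            zero := ?_ }⟩
  · rintro ⟨a, b⟩
    show R.dLin (W ⊓ U) (p (a, b)) = p (R.dLin W a, R.dLin U b)
    rw [hp, hp, map_sub, R.resL_d, R.resL_d]
  · rintro ⟨a, b⟩
    show R.Tlin (W ⊓ U) (p (a, b)) = p (R.Tlin W a, R.Tlin U b)
    rw [hp, hp, map_sub, R.resL_T, R.resL_T]
  · rw [injective_iff_map_eq_zero]
    intro u hu
    have h1 : resL B le_sup_left u = (0 : SecOn B W) := congrArg Prod.fst hu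
    have h2 : resL B le_sup_right u = (0 : SecOn B U) := congrArg Prod.snd hu
    apply Subtype.ext
    funext i x
    by_cases hW : x ∈ W
    · rw [← resL_apply le_sup_left u hW, h1]
      rfl
    · by_cases hU : x ∈ U
      · rw [← resL_apply le_sup_right u hU, h2]
        rfl
      · exact u.2.2.1 i x (fun h => h.2.elim hW hU)
  · intro c
    have hρ1 : ∀ i, ∀ x ∈ (A.e i).source, x ∈ W → SmP A i (cut f g) x := fun i x hx hW =>
      cut_smP hf hg hx (Or.inl hW)
    have hρ2 : ∀ i, ∀ x ∈ (A.e i).source, x ∈ U → SmP A i (fun x => cut f g x - 1) x :=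
      fun i x hx hU => ContDiffAt.sub (cut_smP hf hg hx (Or.inr hU)) contDiffAt_const
    have h01 : ∀ x ∈ W, x ∉ U → cut f g =ᶠ[𝓝 x] fun _ => 0 := fun x hW hU =>
      cut_zero hf hg hW hU
    have h02 : ∀ x ∈ U, x ∉ W → (fun x => cut f g x - 1) =ᶠ[𝓝 x] fun _ => 0 := by
      intro x hU hW
      filter_upwards [cut_one hf hg hW hU] with y hy
      rw [hy, sub_self]
    refine ⟨(⟨_, fmul_mem_left hρ1 h01 c.2⟩, ⟨_, fmul_mem_right hρ2 h02 c.2⟩), ?_⟩
    show p _ = c
    rw [hp]
    apply Subtype.ext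
    funext i x
    by_cases hx : x ∈ W ⊓ U
    · have e : ∀ (a b : SecOn B (W ⊓ U)), (a - b).1 i x = a.1 i x - b.1 i x := fun a b => rfl
      rw [e, resL_apply inf_le_left _ hx, resL_apply inf_le_right _ hx]
      show ((cut f g x : ℝ) : ℂ) • c.1 i x - ((cut f g x - 1 : ℝ) : ℂ) • c.1 i x = c.1 i x
      rw [← sub_smul]
      have : ((cut f g x : ℝ) : ℂ) - ((cut f g x - 1 : ℝ) : ℂ) = 1 := by push_cast; ring
      rw [this, one_smul]
    · have off : ∀ c' : SecOn B (W ⊓ U), c'.1 i x = 0 := fun c' => c'.2.2.1 i x (fun h => hx h.2)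
      rw [off, off]
  · rintro ⟨a, b⟩ h
    have h' : resL B (inf_le_left : W ⊓ U ≤ W) a - resL B (inf_le_right : W ⊓ U ≤ U) b = 0 := h
    rw [sub_eq_zero] at h'
    obtain ⟨u, h1, h2⟩ := glue a b (fun i x hW hU => by
      have : (resL B (inf_le_left : W ⊓ U ≤ W) a).1 i x =
        (resL B (inf_le_right : W ⊓ U ≤ U) b).1 i x := by rw [h']
      rwa [resL_apply inf_le_left _ ⟨hW, hU⟩, resL_apply inf_le_right _ ⟨hW, hU⟩] at this)
    exact ⟨u, Prod.ext h1 h2⟩
  · intro u
    show resL B (inf_le_left : W ⊓ U ≤ W) (resL B le_sup_left u) -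
      resL B (inf_le_right : W ⊓ U ≤ U) (resL B le_sup_right u) = 0
    rw [sub_eq_zero]
    apply Subtype.ext
    funext i x
    by_cases hx : x ∈ W ⊓ U
    · rw [resL_apply inf_le_left _ hx, resL_apply inf_le_right _ hx,
        resL_apply le_sup_left _ hx.1, resL_apply le_sup_right _ hx.2]
    · rw [(resL B inf_le_left _).2.2.1 i x (fun h => hx h.2),
        (resL B inf_le_right _).2.2.1 i x (fun h => hx h.2)]

/-! ### The nerve formula -/

theorem sc_congr {W W' : Opens M} (h : W = W') :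
    (FiniteDimensional ℂ (R.sc W).H ↔ FiniteDimensional ℂ (R.sc W').H) ∧
      (R.sc W).st = (R.sc W').st := by
  subst h
  exact ⟨Iff.rfl, rfl⟩

/-- **The nerve formula** for the de Rham supercomplex -/
theorem nerve_formula {ι : Type*} (S : Finset ι) (U : ι → Set M)
    (hbump : ∀ k ∈ S, ∃ f : M → ℝ, IsBump A (U k) f)
    (hgood : ∀ s ⊆ S, s.Nonempty → (⋂ k ∈ s, U k).Nonempty →
      ∃ i, (⋂ k ∈ s, U k) ⊆ (A.e i).source ∧ Convex ℝ (A.e i '' (⋂ k ∈ s, U k)))
    (hcov : (⋃ k ∈ S, U k) = univ) :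
    FiniteDimensional ℂ (R.sc ⊤).H ∧ (R.sc ⊤).st = (nerveChi U S : ℂ) := by
  classical
  let I : Set M → Opens M := fun W => ⟨interior W, isOpen_interior⟩
  have hI : ∀ W : Opens M, I (W : Set M) = W := fun W => by
    apply Opens.ext
    exact W.isOpen.interior_eq
  let op : Set M → Prop := fun W => ∃ f : M → ℝ, IsBump A W f
  have key := mv_euler_sc (k := ℂ) (X := M) (F := A.ι → M → B.κ → ℂ) op
    (fun W => SecOn B (I W)) (fun W => R.sc (I W))
    (by
      rintro W U ⟨f, hf⟩ ⟨g, hg⟩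
      exact ⟨_, hf.union hg⟩)
    ⟨_, isBump_empty A⟩
    (by
      have : I ∅ = ⊥ := by
        apply Opens.ext
        exact interior_empty
      show SecOn B (I ∅) = ⊥
      rw [this]
      exact secOn_bot B)
    (by
      rintro W U ⟨f, hf⟩ ⟨g, hg⟩
      obtain ⟨W', rfl⟩ : ∃ W' : Opens M, (W' : Set M) = W := ⟨⟨W, hf.isOpen⟩, rfl⟩
      obtain ⟨U', rfl⟩ : ∃ U' : Opens M, (U' : Set M) = U := ⟨⟨U, hg.isOpen⟩, rfl⟩
      have h1 : I ((W' : Set M) ∪ U') = W' ⊔ U' := by
        rw [← Opens.coe_sup, hI]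
      have h2 : I ((W' : Set M) ∩ U') = W' ⊓ U' := by
        rw [← Opens.coe_inf, hI]
      show Nonempty (SC.SES (R.sc (I ((W' : Set M) ∪ U'))) (SCx.prod (R.sc (I W')) (R.sc (I U')))
        (R.sc (I ((W' : Set M) ∩ U'))))
      rw [h1, h2, hI, hI]
      exact R.mvSES hf hg)
    S U
    (by
      intro s
      induction s using Finset.induction_on with
      | empty => intro _ h; exact absurd h (by simp)
      | insert a s ha ih =>
        intro hs _
        obtain ⟨f, hf⟩ := hbump a (hs (Finset.mem_insert_self a s))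
        rcases s.eq_empty_or_nonempty with rfl | hne
        · refine ⟨f, ?_⟩
          simpa using hf
        · obtain ⟨g, hg⟩ := ih ((Finset.subset_insert a s).trans hs) hne
          rw [Finset.set_biInter_insert]
          exact ⟨_, hf.inter hg⟩)
    (by
      intro s hs hne hnon
      obtain ⟨i, h1, h2⟩ := hgood s hs hne hnon
      have hop : IsOpen (⋂ k ∈ s, U k) := isOpen_biInter_finset fun k hk => by
        obtain ⟨f, hf⟩ := hbump k (hs hk)
        exact hf.isOpen
      obtain ⟨W', hW'⟩ : ∃ W' : Opens M, (W' : Set M) = ⋂ k ∈ s, U k := ⟨⟨_, hop⟩, rfl⟩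
      show FiniteDimensional ℂ (R.sc (I (⋂ k ∈ s, U k))).H
      rw [← hW'] at h1 h2 hnon ⊢
      rw [hI]
      exact R.good_finite W' i h1 h2 hnon)
    (by
      intro s hs hne hnon
      obtain ⟨i, h1, h2⟩ := hgood s hs hne hnon
      have hop : IsOpen (⋂ k ∈ s, U k) := isOpen_biInter_finset fun k hk => by
        obtain ⟨f, hf⟩ := hbump k (hs hk)
        exact hf.isOpen
      obtain ⟨W', hW'⟩ : ∃ W' : Opens M, (W' : Set M) = ⋂ k ∈ s, U k := ⟨⟨_, hop⟩, rfl⟩
      show (R.sc (I (⋂ k ∈ s, U k))).st = 1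
      rw [← hW'] at h1 h2 hnon ⊢
      rw [hI]
      exact R.good_st W' i h1 h2 hnon)
  obtain ⟨-, h1, h2⟩ := key
  have h3 : I (⋃ k ∈ S, U k) = ⊤ := by
    rw [hcov]
    apply Opens.ext
    exact interior_univ
  have h4 := R.sc_congr h3
  exact ⟨h4.1.1 h1, by rw [← h4.2]; exact h2⟩

end DRS

end

end Crest.Agent.R275.EDR890
end

-- ▼ part R275/EDRHodge_890
section

/-!
# R275, block EDR (helper890): the filtration by holomorphic degree

`Piece R p B'` : `B'` is the part of `B` of holomorphic degree `p`.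
`hodge` : `st (R.sc ⊤) = ∑ p, (-1)^p st (Sec (B' p), nab)`.
-/

set_option autoImplicit false
set_option linter.unusedSectionVars false

open Set Filter Topology Complex TopologicalSpace
open scoped ContDiff Matrix ComplexConjugate

namespace Crest.Agent.R275.EDR890

open Geo NA7763

noncomputable section

variable {n : ℕ} {M : Type} [TopologicalSpace M] {A : Atl n M} {B : FBun A}

/-- `B'` is the part of `B` of holomorphic degree `p` -/
structure Piece (R : DRS B) (p : ℕ) (B' : FBun A) where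
  ep : B'.κ ≃ {k : B.κ // R.pdeg k = p}
  e_eq : ∀ a k l, B'.e a k l = B.e a (ep k) (ep l)
  τ_eq : ∀ i j, ∀ x ∈ (A.e i).source ∩ (A.e j).source, ∀ k l,
    B'.τ i j x k l = B.τ i j x (ep k) (ep l)
  deg_eq : ∀ k, B'.deg k = B.deg (ep k)
  α0 : ∀ i x, B'.α i x = 0

namespace Piece

variable {R : DRS B} {p : ℕ} {B' : FBun A} (P : Piece R p B')

theorem sum_eq {f : B.κ → ℂ} (hf : ∀ l, R.pdeg l ≠ p → f l = 0) :
    ∑ l, f l = ∑ l', f (P.ep l') := by
  classical
  have h1 : ∑ l, f l = ∑ l ∈ Finset.univ.filter (fun l => R.pdeg l = p), f l := by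
    rw [Finset.sum_filter]
    refine Finset.sum_congr rfl fun l _ => ?_
    split_ifs with h
    · rfl
    · exact hf l h
  have h2 : ∑ l ∈ Finset.univ.filter (fun l => R.pdeg l = p), f l =
      ∑ l : {l : B.κ // R.pdeg l = p}, f l :=
    Finset.sum_subtype _ (by simp) _
  rw [h1, h2]
  exact (Equiv.sum_comp P.ep (fun l => f l)).symm

theorem mulVec_eq {m : Matrix B.κ B.κ ℂ} {m' : Matrix B'.κ B'.κ ℂ}
    (hm : ∀ k l, m k l ≠ 0 → R.pdeg k = R.pdeg l) (hm' : ∀ k l, m' k l = m (P.ep k) (P.ep l))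
    (v : B.κ → ℂ) (k : B'.κ) : (m *ᵥ v) (P.ep k) = (m' *ᵥ fun l => v (P.ep l)) k := by
  simp only [Matrix.mulVec, dotProduct]
  rw [P.sum_eq]
  · exact Finset.sum_congr rfl fun l _ => by rw [hm']
  · intro l hl
    have : m (P.ep k) l = 0 := by
      by_contra h
      exact hl (by rw [← hm _ _ h, (P.ep k).2])
    rw [this, zero_mul]

theorem pr_mem {u : A.ι → M → B.κ → ℂ} (hu : u ∈ SecOn B ⊤) :
    (fun i x k => u i x (P.ep k)) ∈ Sec B' := by
  rw [secOn_top] at hu
  obtain ⟨h1, h2, h3⟩ := hu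
  refine ⟨fun i k => h1 i _, fun i x hx => ?_, fun i j x hx => ?_⟩
  · funext k
    show u i x _ = 0
    rw [h2 i x hx]
    rfl
  · funext k
    show u i x (P.ep k) = _
    rw [h3 i j x hx]
    exact P.mulVec_eq (B.τ i j x |> fun _ => R.τ_pdeg i j x) (P.τ_eq i j x hx) _ _

/-- projection to the part of degree `p` -/
def pr : SecOn B (⊤ : Opens M) →ₗ[ℂ] Sec B' where
  toFun u := ⟨fun i x k => u.1 i x (P.ep k), P.pr_mem u.2⟩
  map_add' u v := rfl
  map_smul' c u := rfl

theorem pr_apply (u : SecOn B (⊤ : Opens M)) (i : A.ι) (x : M) (k : B'.κ) :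
    (P.pr u).1 i x k = u.1 i x (P.ep k) := rfl

open Classical in
/-- extension by zero -/
def inc (w : A.ι → M → B'.κ → ℂ) : A.ι → M → B.κ → ℂ := fun i x k =>
  if h : R.pdeg k = p then w i x (P.ep.symm ⟨k, h⟩) else 0

theorem inc_of {w : A.ι → M → B'.κ → ℂ} {i : A.ι} {x : M} {k : B.κ} (h : R.pdeg k = p) :
    P.inc w i x k = w i x (P.ep.symm ⟨k, h⟩) := dif_pos h

theorem inc_not {w : A.ι → M → B'.κ → ℂ} {i : A.ι} {x : M} {k : B.κ} (h : R.pdeg k ≠ p) :
    P.inc w i x k = 0 := dif_neg h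

theorem inc_ep {w : A.ι → M → B'.κ → ℂ} {i : A.ι} {x : M} (k : B'.κ) :
    P.inc w i x (P.ep k) = w i x k := by
  rw [P.inc_of (P.ep k).2, Subtype.coe_eta, Equiv.symm_apply_apply]

theorem inc_mem {w : A.ι → M → B'.κ → ℂ} (hw : w ∈ Sec B') : P.inc w ∈ SecOn B ⊤ := by
  rw [secOn_top]
  obtain ⟨h1, h2, h3⟩ := hw
  refine ⟨fun i k => ?_, fun i x hx => ?_, fun i j x hx => ?_⟩
  · by_cases h : R.pdeg k = p
    · refine (h1 i (P.ep.symm ⟨k, h⟩)).congr fun z _ => ?_
      exact P.inc_of h
    · refine (contDiffOn_const (c := (0 : ℂ))).congr fun z _ => ?_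
      exact P.inc_not h
  · funext k
    by_cases h : R.pdeg k = p
    · rw [P.inc_of h, h2 i x hx]
      rfl
    · exact P.inc_not h
  · funext k
    by_cases h : R.pdeg k = p
    · obtain ⟨k', hk'⟩ : ∃ k', (P.ep k' : B.κ) = k := ⟨P.ep.symm ⟨k, h⟩, by simp⟩
      subst hk'
      rw [P.inc_ep, P.mulVec_eq (R.τ_pdeg i j x) (P.τ_eq i j x hx)]
      simp only [P.inc_ep]
      rw [h3 i j x hx]
    · rw [P.inc_not h]
      simp only [Matrix.mulVec, dotProduct]
      refine (Finset.sum_eq_zero fun l _ => ?_).symm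
      by_cases hl : B.τ i j x k l = 0
      · rw [hl, zero_mul]
      · rw [P.inc_not (fun h' => h (by rw [R.τ_pdeg i j x k l hl, h'])), mul_zero]

theorem pr_inc {w : A.ι → M → B'.κ → ℂ} (hw : w ∈ Sec B') :
    P.pr ⟨P.inc w, P.inc_mem hw⟩ = ⟨w, hw⟩ := by
  apply Subtype.ext
  funext i x k
  exact P.inc_ep k

end Piece

namespace DRS

variable (R : DRS B)

/-- the filtration by holomorphic degree -/
def Fil (p : ℕ) : Submodule ℂ (SecOn B (⊤ : Opens M)) where
  carrier := {u | ∀ i x k, u.1 i x k ≠ 0 → p ≤ R.pdeg k}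
  add_mem' := by
    intro u v hu hv i x k h
    by_contra hlt
    have h1 : u.1 i x k = 0 := by
      by_contra h'
      exact hlt (hu i x k h')
    have h2 : v.1 i x k = 0 := by
      by_contra h'
      exact hlt (hv i x k h')
    apply h
    show u.1 i x k + v.1 i x k = 0
    rw [h1, h2, add_zero]
  zero_mem' := fun i x k h => absurd rfl h
  smul_mem' := by
    intro c u hu i x k h
    exact hu i x k (right_ne_zero_of_mul h)

theorem mem_Fil {p : ℕ} {u : SecOn B (⊤ : Opens M)} :
    u ∈ R.Fil p ↔ ∀ i x k, R.pdeg k < p → u.1 i x k = 0 := by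
  constructor
  · intro h i x k hk
    by_contra h'
    exact absurd (h i x k h') (not_le.2 hk)
  · intro h i x k hk
    by_contra h'
    exact hk (h i x k (not_le.1 h'))

theorem wd_comp_zero {u : SecOn B (⊤ : Opens M)} {i : A.ι} {x : M} (hx : x ∈ (A.e i).source)
    {k : B.κ} (h : ∀ y, u.1 i y k = 0) (s : WI n) :
    wd s (fun z => u.1 i ((A.e i).symm z)) (A.e i x) k = 0 := by
  rw [wd_pi (SecOn.diffAt u.2 hx trivial)]
  have : (fun z => u.1 i ((A.e i).symm z) k) = fun _ => (0 : ℂ) := by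
    funext z
    exact h _
  rw [this, wd_const]

theorem Fil_d {p : ℕ} {u : SecOn B (⊤ : Opens M)} (hu : u ∈ R.Fil p) : R.dLin ⊤ u ∈ R.Fil p := by
  rw [mem_Fil] at hu ⊢
  intro i x k hk
  show R.dOn _ u.1 i x k = 0
  by_cases hx : x ∈ (A.e i).source
  · rw [R.dOn_apply hx (show x ∈ ((⊤ : Opens M) : Set M) from trivial)]
    simp only [Fock.D, Finset.sum_apply, Matrix.mulVec, dotProduct]
    refine Finset.sum_eq_zero fun s _ => Finset.sum_eq_zero fun l _ => ?_
    by_cases hE : R.Φ.E s k l = 0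
    · rw [hE, zero_mul]
    · have hl : R.pdeg l < p := by
        obtain ⟨b, a⟩ := s
        cases b
        · have := R.f_pdeg a k l hE
          omega
        · have := R.e_pdeg a k l hE
          omega
      rw [wd_comp_zero hx (fun y => hu i y l hl), mul_zero]
  · rw [R.dOn_off (fun h => hx h.1)]
    rfl

theorem Fil_T {p : ℕ} {u : SecOn B (⊤ : Opens M)} (hu : u ∈ R.Fil p) : R.Tlin ⊤ u ∈ R.Fil p := by
  rw [mem_Fil] at hu ⊢
  intro i x k hk
  show R.sg k * u.1 i x k = 0
  rw [hu i x k hk, mul_zero]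

theorem Fil_le (p : ℕ) : R.Fil (p + 1) ≤ R.Fil p := fun u hu i x k h =>
  (Nat.le_succ p).trans (hu i x k h)

theorem Fil_zero : R.Fil 0 = ⊤ := by
  rw [eq_top_iff]
  intro u _ i x k _
  exact Nat.zero_le _

theorem Fil_top {L : ℕ} (hL : ∀ k, R.pdeg k < L) : R.Fil L = ⊥ := by
  rw [eq_bot_iff]
  intro u hu
  rw [mem_Fil] at hu
  rw [Submodule.mem_bot]
  apply Subtype.ext
  funext i x k
  exact hu i x k (hL k)

/-- compatibility of the projection with the differentials -/
theorem pr_d {p : ℕ} {B' : FBun A} (P : Piece R p B') {u : SecOn B (⊤ : Opens M)}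
    (hu : u ∈ R.Fil p) : nab B' (P.pr u).1 = (P.pr (R.dLin ⊤ u)).1 := by
  funext i x k
  rw [P.pr_apply]
  show _ = R.dOn _ u.1 i x (P.ep k)
  rw [mem_Fil] at hu
  by_cases hx : x ∈ (A.e i).source
  · rw [R.dOn_apply hx (show x ∈ ((⊤ : Opens M) : Set M) from trivial), nab_apply B' hx, P.α0,
      Matrix.zero_mulVec, add_zero]
    unfold Fock.D
    rw [Fintype.sum_prod_type, Fintype.sum_bool, Pi.add_apply, Finset.sum_apply, Finset.sum_apply,
      Finset.sum_apply]
    have h1 : ∑ a, (R.Φ.E (false, a) *ᵥ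
        wd (false, a) (fun z => u.1 i ((A.e i).symm z)) (A.e i x)) (P.ep k) = 0 := by
      refine Finset.sum_eq_zero fun a _ => ?_
      simp only [Matrix.mulVec, dotProduct]
      refine Finset.sum_eq_zero fun l _ => ?_
      by_cases hE : R.Φ.E (false, a) (P.ep k) l = 0
      · rw [hE, zero_mul]
      · have h2 := R.f_pdeg a _ l hE
        have h3 := (P.ep k).2
        rw [wd_comp_zero hx (fun y => hu i y l (by omega)), mul_zero]
    rw [h1, add_zero]
    refine Finset.sum_congr rfl fun a _ => ?_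
    have h2 := P.mulVec_eq (m := B.e a) (m' := B'.e a) (R.e_pdeg a) (P.e_eq a)
      (wd (true, a) (fun z => u.1 i ((A.e i).symm z)) (A.e i x)) k
    show _ = (B.e a *ᵥ wd (true, a) (fun z => u.1 i ((A.e i).symm z)) (A.e i x)) (P.ep k)
    rw [h2]
    congr 2
    funext l
    have hsm : ∀ k, A.SmAt i (fun x => (P.pr u).1 i x k) := fun k => (P.pr u).2.1 i k
    rw [Atl.db_pi hsm hx a l]
    rw [wd_pi (SecOn.diffAt u.2 hx trivial)]
    rfl
  · rw [nab_off B' hx, R.dOn_off (fun h => hx h.1)]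
    rfl

/-- **the Euler characteristic of the filtration by holomorphic degree** -/
theorem hodge (L : ℕ) (hL : ∀ k, R.pdeg k < L) (B' : ℕ → FBun A)
    (P : ∀ p, p < L → Piece R p (B' p)) (C : ∀ p, SC ℂ (Sec (B' p)))
    (hd : ∀ p < L, ∀ u, ((C p).d u).1 = nab (B' p) u.1)
    (hT : ∀ p < L, ∀ u i x k, ((C p).T u).1 i x k = (-1) ^ ((B' p).deg k) * u.1 i x k)
    (hfin : ∀ p < L, FiniteDimensional ℂ (C p).H) :
    FiniteDimensional ℂ (R.sc ⊤).H ∧
      (R.sc ⊤).st = ∑ p ∈ Finset.range L, (-1) ^ p * (C p).st := by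
  have key := SCx.filtration (R.sc (⊤ : Opens M)) L R.Fil (fun p u hu => R.Fil_d hu)
    (fun p u hu => R.Fil_T hu) R.Fil_le R.Fil_zero (R.Fil_top hL)
    (fun p => Sec (B' p)) (fun p => (C p).scaleT ((-1) ^ p))
    (fun p hp =>
      { f := (P p hp).pr.comp (R.Fil p).subtype
        d := fun u => by
          apply Subtype.ext
          show ((C p).d ((P p hp).pr u.1)).1 = _
          rw [hd p hp]
          exact R.pr_d (P p hp) u.2
        T := fun u => by
          apply Subtype.ext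
          funext i x k
          show (-1) ^ p * ((C p).T ((P p hp).pr u.1)).1 i x k =
            R.sg ((P p hp).ep k) * u.1.1 i x ((P p hp).ep k)
          rw [hT p hp, (P p hp).pr_apply, sg, (P p hp).deg_eq, ((P p hp).ep k).2, pow_add]
          ring })
    (fun p hp w => by
      have hmem : (⟨(P p hp).inc w.1, (P p hp).inc_mem w.2⟩ : SecOn B (⊤ : Opens M)) ∈ R.Fil p := by
        rw [mem_Fil]
        intro i x k hk
        exact (P p hp).inc_not (by omega)
      exact ⟨⟨_, hmem⟩, (P p hp).pr_inc w.2⟩)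
    (fun p hp u => by
      constructor
      · intro h
        have h' : (P p hp).pr u.1 = 0 := h
        rw [mem_Fil]
        intro i x k hk
        rcases Nat.lt_succ_iff_lt_or_eq.1 hk with h1 | h1
        · exact ((R.mem_Fil).1 u.2) i x k h1
        · have h2 : ((P p hp).pr u.1).1 i x ((P p hp).ep.symm ⟨k, h1⟩) = 0 := by
            rw [h']
            rfl
          rw [(P p hp).pr_apply, Equiv.apply_symm_apply] at h2
          exact h2
      · intro h
        rw [mem_Fil] at h
        show (P p hp).pr u.1 = 0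
        apply Subtype.ext
        funext i x k
        rw [(P p hp).pr_apply]
        exact h i x _ (by rw [((P p hp).ep k).2]; omega))
    (fun p hp => by
      have := hfin p hp
      exact this)
  refine ⟨key.1, ?_⟩
  rw [key.2]
  exact Finset.sum_congr rfl fun p _ => (C p).scaleT_st _


end DRS

end

end Crest.Agent.R275.EDR890
end

-- ▼ part R275/EDRAtl_890

/-!
# R275, block EDR (helper890): good atlases: every open set is the exact support of a smooth
function; the nerve formula for a finite good atlas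
-/

set_option autoImplicit false
set_option linter.unusedSectionVars false

open Set Filter Topology Complex TopologicalSpace
open scoped ContDiff Matrix ComplexConjugate

namespace Crest.Agent.R275.EDR890

open Geo NA7763

noncomputable section

variable {n : ℕ} {M : Type} [TopologicalSpace M] {A : Atl n M} {B : FBun A}

theorem smP_chart {W : Type*} [NormedAddCommGroup W] [NormedSpace ℝ W] {i : A.ι} {g : Cn n → W}
    (hg : ContDiff ℝ ∞ g) {x : M} (hx : x ∈ (A.e i).source) :
    SmP A i (fun y => g (A.e i y)) x := by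
  refine (hg.contDiffAt (x := A.e i x)).congr_of_eventuallyEq ?_
  filter_upwards [(A.e i).open_target.mem_nhds ((A.e i).map_source hx)] with z hz
  show g (A.e i ((A.e i).symm z)) = g z
  rw [(A.e i).right_inv hz]

theorem part_sub (P : Part A) (i : A.ι) : tsupport (P.ψ i) ⊆ (A.e i).source := by
  intro x hx
  apply P.χ_sub i
  apply subset_tsupport
  have := (P.χ_one i x hx).self_of_nhds
  rw [Function.mem_support, this]
  exact one_ne_zero

/-- every open set is the exact support of a smooth nonnegative function -/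
theorem exists_isBump [Fintype A.ι] (P : Part A) (W : Opens M) :
    ∃ f : M → ℝ, IsBump A (W : Set M) f := by
  have h1 : ∀ i : A.ι, ∃ g : Cn n → ℝ, ContDiff ℝ ∞ g ∧ (∀ z, 0 ≤ g z) ∧
      ∀ z, g z ≠ 0 ↔ z ∈ (A.e i).target ∩ (A.e i).symm ⁻¹' (W : Set M) := by
    intro i
    have ho : IsOpen ((A.e i).target ∩ (A.e i).symm ⁻¹' (W : Set M)) :=
      (A.e i).isOpen_inter_preimage_symm W.isOpen
    obtain ⟨g, h1, h2, h3⟩ := ho.exists_contDiff_support_eq (n := ⊤)
    refine ⟨g, h2, fun z => (h3 ⟨z, rfl⟩).1, fun z => ?_⟩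
    rw [← h1, Function.mem_support]
  choose g g1 g2 g3 using h1
  have gW : ∀ i x, x ∈ (A.e i).source → (g i (A.e i x) ≠ 0 ↔ x ∈ W) := by
    intro i x hx
    rw [g3, mem_inter_iff, mem_preimage, (A.e i).left_inv hx]
    exact ⟨fun h => h.2, fun h => ⟨(A.e i).map_source hx, h⟩⟩
  refine ⟨fun x => ∑ i, P.ψ i x ^ 2 * g i (A.e i x), ?_, ?_, ?_⟩
  · intro j
    refine (smAt_iff (A := A) (i := j) (f := fun x => ∑ i, P.ψ i x ^ 2 * g i (A.e i x))).2
      fun x hx => ?_
    have h2 : ∀ i, SmP A j (fun x => P.ψ i x ^ 2 * g i (A.e i x)) x := by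
      intro i
      by_cases hi : x ∈ tsupport (P.ψ i)
      · have hxi := part_sub P i hi
        have e1 : SmP A j (P.ψ i) x := Sm.smP (P.ψ_sm i) hx
        have e2 : SmP A j (fun y => g i (A.e i y)) x :=
          (smP_chart (g1 i) hxi).change ⟨hx, hxi⟩
        exact (ContDiffAt.pow e1 2).mul e2
      · have e1 : SmP A j (fun _ : M => (0 : ℝ)) x := contDiffAt_const
        refine e1.congr hx ?_
        filter_upwards [notMem_tsupport_iff_eventuallyEq.1 hi] with y hy
        rw [hy]
        simp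
    exact ContDiffAt.sum fun i _ => h2 i
  · intro x
    exact Finset.sum_nonneg fun i _ => mul_nonneg (sq_nonneg _) (g2 i _)
  · intro x
    constructor
    · intro h
      obtain ⟨i, -, hi⟩ := Finset.exists_ne_zero_of_sum_ne_zero h
      have h2 : P.ψ i x ≠ 0 := fun h0 => hi (by rw [h0]; simp)
      have hxi : x ∈ (A.e i).source := part_sub P i (subset_tsupport _ h2)
      exact (gW i x hxi).1 (right_ne_zero_of_mul hi)
    · intro hW
      obtain ⟨i, hi⟩ : ∃ i, P.ψ i x ≠ 0 := by
        by_contra hcon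
        push Not at hcon
        have := P.sum_one x
        simp only [hcon, finsum_zero] at this
        exact zero_ne_one this
      have hxi : x ∈ (A.e i).source := part_sub P i (subset_tsupport _ hi)
      have hpos : 0 < P.ψ i x ^ 2 * g i (A.e i x) :=
        mul_pos (by positivity) ((g2 i _).lt_of_ne' ((gW i x hxi).2 hW))
      have := Finset.single_le_sum (f := fun i => P.ψ i x ^ 2 * g i (A.e i x))
        (fun i _ => mul_nonneg (sq_nonneg _) (g2 i _)) (Finset.mem_univ i)
      exact (hpos.trans_le this).ne'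

/-- the cover by the chart domains of a finite good atlas satisfies the hypotheses of the nerve
formula -/
theorem good_of_goodA [Fintype A.ι] (hA : GC293.GoodA A) (s : Finset A.ι) (hs : s.Nonempty) :
    ∃ i, (⋂ k ∈ s, (A.e k).source) ⊆ (A.e i).source ∧
      Convex ℝ (A.e i '' (⋂ k ∈ s, (A.e k).source)) := by
  obtain ⟨i, hi⟩ := hs
  refine ⟨i, fun x hx => mem_iInter₂.1 hx i hi, ?_⟩
  have h1 : (⋂ k ∈ s, (A.e k).source) = GC293.inter A (s : Set A.ι) := by
    ext x
    simp [GC293.inter]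
  rw [h1, GC293.image_inter (s := (s : Set A.ι)) hi]
  exact hA.convex _ i

theorem DRS.nerve_atl [Fintype A.ι] (R : DRS B) (hA : GC293.GoodA A) (P : Part A) :
    FiniteDimensional ℂ (R.sc ⊤).H ∧
      (R.sc ⊤).st = (nerveChi (fun i => (A.e i).source) Finset.univ : ℂ) := by
  refine R.nerve_formula Finset.univ _ (fun i _ => ?_) (fun s _ hs _ => good_of_goodA hA s hs) ?_
  · exact exists_isBump P ⟨(A.e i).source, (A.e i).open_source⟩
  · rw [eq_univ_iff_forall]
    intro x
    obtain ⟨i, hi⟩ := A.cover x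
    exact mem_iUnion₂.2 ⟨i, Finset.mem_univ i, hi⟩


end

end Crest.Agent.R275.EDR890
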