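import Crest.Agent.R275.EDRAtl_890
import Crest.Agent.R275.EDRBun_890
import Crest.Agent.R275.Lam2_130
import Crest.Agent.R275.SymBun_585

-- ▼ part R275/EDRTw_890
section

/-!
# R275, block EDR (helper890): pieces of twisted bundles; the Dolbeault supercomplex of a piece
-/

set_option autoImplicit false
set_option linter.unusedSectionVars false

open Set Filter Topology Complex TopologicalSpace
open scoped ContDiff Matrix ComplexConjugate Kronecker

namespace Crest.Agent.R275.EDR890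

open Geo NA7763

noncomputable section

variable {n : ℕ} {M : Type} [TopologicalSpace M] {A : Atl n M}

section tw

variable {B₀ : FBun A} {E E' : VBun A}

/-- the pieces of `B₀ ⊗ E` when `E` is graded -/
def pieceTw (R : DRS (tw B₀ E)) (rdeg : E.ρ → ℕ) (hR : ∀ k r, R.pdeg (k, r) = rdeg r) (p : ℕ)
    (er : E'.ρ ≃ {r : E.ρ // rdeg r = p})
    (hg : ∀ i j, ∀ x ∈ (A.e i).source ∩ (A.e j).source, ∀ r s,
      E'.g i j x r s = E.g i j x (er r) (er s))
    (hα : ∀ i x, B₀.α i x = 0) (ha : ∀ i b x, E'.a i b x = 0) : Piece R p (tw B₀ E') where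
  ep :=
    { toFun := fun q => ⟨(q.1, (er q.2 : E.ρ)), by rw [hR]; exact (er q.2).2⟩
      invFun := fun q => (q.1.1, er.symm ⟨q.1.2, by
        have h1 := q.2
        have h2 := hR q.1.1 q.1.2
        exact h2.symm.trans h1⟩)
      left_inv := fun q => by
        obtain ⟨k, r⟩ := q
        exact Prod.ext rfl (by simp)
      right_inv := fun q => by
        obtain ⟨⟨k, r⟩, h⟩ := q
        exact Subtype.ext (Prod.ext rfl (by simp)) }
  e_eq := by
    rintro a ⟨k, r⟩ ⟨l, s⟩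
    show B₀.e a k l * (1 : Matrix E'.ρ E'.ρ ℂ) r s =
      B₀.e a k l * (1 : Matrix E.ρ E.ρ ℂ) (er r) (er s)
    congr 1
    rw [Matrix.one_apply, Matrix.one_apply]
    by_cases h : r = s
    · rw [if_pos h, if_pos (by rw [h])]
    · rw [if_neg h, if_neg (fun h' => h (er.injective (Subtype.ext h')))]
  τ_eq := by
    rintro i j x hx ⟨k, r⟩ ⟨l, s⟩
    show B₀.τ i j x k l * E'.g i j x r s = B₀.τ i j x k l * E.g i j x (er r) (er s)
    rw [hg i j x hx]
  deg_eq := by
    rintro ⟨k, r⟩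
    rfl
  α0 i x := by
    show B₀.α i x ⊗ₖ (1 : Matrix E'.ρ E'.ρ ℂ) + ∑ a, B₀.e a ⊗ₖ E'.a i a x = 0
    simp only [hα, ha, Matrix.zero_kronecker, Matrix.kronecker_zero, Finset.sum_const_zero,
      add_zero]


end tw

/-! ### The Dolbeault supercomplex of a piece -/

namespace Piece

variable {B : FBun A} {R : DRS B} {p : ℕ} {B' : FBun A} (P : Piece R p B')








end Piece

end

end Crest.Agent.R275.EDR890
end

-- ▼ part R275/EDRConc_585
section

/-!
# R275, block EDR, leaf (B) (helper585): the de Rham structure of a complex surface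

`OmAll A : VBun A` : `1 ⊕ Ω¹ ⊕ K`, fibre `Fin 4` (basis `1, dz₀, dz₁, dz₀∧dz₁`);
`DRS.conc A : DRS (tw (lam2 A) (OmAll A))` : the bundle of all complex forms.
`e0, e1, e2` : identification of the parts of holomorphic degree `p` with `Ω^p`.
-/

set_option autoImplicit false
set_option linter.unusedSectionVars false
set_option linter.unusedSimpArgs false

open Set Filter Topology Complex TopologicalSpace
open scoped ContDiff Matrix ComplexConjugate Kronecker

namespace Crest.Agent.R275.EDRConc585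

open Geo NA7763 Lam2130 EDR890

noncomputable section

/-! ### Matrices -/

/-- transition matrix of `1 ⊕ Ω¹ ⊕ K` attached to the Jacobian `m` (`(b, a)`) -/
def omM (m : Matrix (Fin 2) (Fin 2) ℂ) : Matrix (Fin 4) (Fin 4) ℂ :=
  !![1, 0, 0, 0;
     0, m 0 0, m 1 0, 0;
     0, m 0 1, m 1 1, 0;
     0, 0, 0, m.det]

theorem omM_one : omM 1 = 1 := by
  ext k l
  fin_cases k <;> fin_cases l <;> simp [omM]

theorem omM_mul (m m' : Matrix (Fin 2) (Fin 2) ℂ) : omM m * omM m' = omM (m' * m) := by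
  ext k l
  fin_cases k <;> fin_cases l <;>
    simp [omM, Matrix.mul_apply, Fin.sum_univ_four, Fin.sum_univ_two, Matrix.det_fin_two] <;> ring

theorem omM_symb (m : Matrix (Fin 2) (Fin 2) ℂ) (b : Fin 2) :
    ∑ a, m b a • (eM a * omM m) = omM m * eM b := by
  ext k l
  fin_cases b <;> fin_cases k <;> fin_cases l <;>
    simp [omM, eM, Matrix.mul_apply, Fin.sum_univ_four, Fin.sum_univ_two, Matrix.det_fin_two,
      Matrix.sum_apply] <;> ring

theorem omM_dg (m : Matrix (Fin 2) (Fin 2) ℂ) (k l : Fin 4) (h : omM m k l ≠ 0) :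
    dg k = dg l := by
  fin_cases k <;> fin_cases l <;> simp_all [omM, dg]

/-- the sign operator `(-1)^q` on `Λ^{0,*}` -/
def sgn : Matrix (Fin 4) (Fin 4) ℂ := Matrix.diagonal (fun k => (-1) ^ dg k)

theorem sgn_sgn : sgn * sgn = 1 := by
  rw [sgn, Matrix.diagonal_mul_diagonal, ← Matrix.diagonal_one]
  congr 1
  funext k
  rw [← pow_add, ← two_mul, pow_mul]
  norm_num

theorem sgn_anti {m : Matrix (Fin 4) (Fin 4) ℂ}
    (h : ∀ k l, m k l ≠ 0 → (dg k = dg l + 1 ∨ dg l = dg k + 1)) : sgn * m + m * sgn = 0 := by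
  ext k l
  rw [Matrix.add_apply, sgn, Matrix.diagonal_mul, Matrix.mul_diagonal, Matrix.zero_apply]
  by_cases h0 : m k l = 0
  · rw [h0, mul_zero, zero_mul, add_zero]
  · rcases h k l h0 with h1 | h1
    · rw [h1, pow_succ]
      ring
    · rw [h1, pow_succ]
      ring

theorem eM_dg {a : Fin 2} {k l : Fin 4} (h : eM a k l ≠ 0) : dg k = dg l + 1 := by
  fin_cases a <;> fin_cases k <;> fin_cases l <;> simp_all [eM, dg]

theorem ioM_dg {a : Fin 2} {k l : Fin 4} (h : ioM a k l ≠ 0) : dg l = dg k + 1 := by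
  fin_cases a <;> fin_cases k <;> fin_cases l <;> simp_all [ioM, dg]

theorem tauM_dg {m : Matrix (Fin 2) (Fin 2) ℂ} {k l : Fin 4} (h : tauM m k l ≠ 0) :
    dg k = dg l := by
  fin_cases k <;> fin_cases l <;> simp_all [tauM, dg]

theorem sgn_e (a : Fin 2) : sgn * eM a + eM a * sgn = 0 :=
  sgn_anti fun _ _ h => Or.inl (eM_dg h)

theorem sgn_io (a : Fin 2) : sgn * ioM a + ioM a * sgn = 0 :=
  sgn_anti fun _ _ h => Or.inr (ioM_dg h)

theorem sgn_tau (m : Matrix (Fin 2) (Fin 2) ℂ) : sgn * tauM m = tauM m * sgn := by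
  ext k l
  rw [sgn, Matrix.diagonal_mul, Matrix.mul_diagonal]
  by_cases h0 : tauM m k l = 0
  · rw [h0, mul_zero, zero_mul]
  · rw [tauM_dg h0, mul_comm]

theorem sgn_apply_ne {k l : Fin 4} (h : sgn k l ≠ 0) : k = l := by
  by_contra hne
  exact h (Matrix.diagonal_apply_ne _ hne)

theorem num4 : ∑ a, eM a * ioM a = Matrix.diagonal (fun k => ((dg k : ℕ) : ℂ)) := by
  ext k l
  fin_cases k <;> fin_cases l <;>
    simp [eM, ioM, dg, Matrix.mul_apply, Fin.sum_univ_four, Fin.sum_univ_two, Matrix.sum_apply]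
  norm_num

theorem dg_eq_zero (k : Fin 4) : dg k = 0 ↔ k = 0 := by
  fin_cases k <;> simp [dg]

theorem vac4 (k r : Fin 4) : dg k + dg r = 0 ↔ (k, r) = ((0 : Fin 4), (0 : Fin 4)) := by
  rw [Nat.add_eq_zero_iff, dg_eq_zero, dg_eq_zero, Prod.ext_iff]

variable {M : Type} [TopologicalSpace M]

/-- `1 ⊕ Ω¹ ⊕ K` -/
def OmAll (A : Atl 2 M) : VBun A :=
  ofHolo (Fin 4) (fun i j x => omM (Jm A i j x))
    (fun i j k l => by
      have hJ : ∀ b a, DifferentiableOn ℂ (fun z => A.J i j ((A.e i).symm z) b a) (A.ov i j) :=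
        fun b a => J_holo i j b a
      have hd := det_holo i j
      fin_cases k <;> fin_cases l <;>
        first
          | exact differentiableOn_const _
          | exact hJ _ _
          | exact hd)
    (fun i x hx => by rw [Jm_self hx, omM_one])
    (fun i j k x hx => by rw [omM_mul, ← Jm_mul hx])



/-! ### The `∂`-derivatives of the transition matrices -/

theorem tauM_eq (m : Matrix (Fin 2) (Fin 2) ℂ) (k l : Fin 4) :
    tauM m k l = conj (omM m k l) := by
  fin_cases k <;> fin_cases l <;> simp [tauM, omM]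

/-- `∂` of a holomorphic function -/
theorem wd_holo {f : Cn 2 → ℂ} {z : Cn 2} (hf : DifferentiableAt ℂ f z) (c : Fin 2) :
    wd (false, c) f z = fderiv ℂ f z (EuclideanSpace.single c 1) := by
  have h : fderiv ℝ f z = (fderiv ℂ f z).restrictScalars ℝ :=
    (hf.hasFDerivAt.restrictScalars ℝ).fderiv
  have hI : (EuclideanSpace.single c I : Cn 2) = I • EuclideanSpace.single c (1 : ℂ) := by
    ext d
    simp [PiLp.single_apply]
  rw [wd, wdL, h]
  simp only [ContinuousLinearMap.coe_restrictScalars', hI, map_smul, smul_smul, smul_eq_mul,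
    cI_false]
  linear_combination (-(1 / 2 : ℂ) * fderiv ℂ f z (EuclideanSpace.single c 1)) * I_mul_I

/-- `∂` of an antiholomorphic function -/
theorem wd_conj_holo {f : Cn 2 → ℂ} {z : Cn 2} (hf : DifferentiableAt ℂ f z) (c : Fin 2) :
    wd (false, c) (fun w => conj (f w)) z = 0 := by
  have h0 : HasFDerivAt f ((fderiv ℂ f z).restrictScalars ℝ) z :=
    hf.hasFDerivAt.restrictScalars ℝ
  have h : fderiv ℝ (fun w => conj (f w)) z
      = (conjCLE : ℂ →L[ℝ] ℂ).comp ((fderiv ℂ f z).restrictScalars ℝ) :=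
    ((conjCLE : ℂ →L[ℝ] ℂ).hasFDerivAt.comp z h0).fderiv
  have hI : (EuclideanSpace.single c I : Cn 2) = I • EuclideanSpace.single c (1 : ℂ) := by
    ext d
    simp [PiLp.single_apply]
  rw [wd, wdL, h]
  simp only [ContinuousLinearMap.comp_apply, ContinuousLinearMap.coe_restrictScalars', hI,
    map_smul, smul_eq_mul, cI_false]
  simp only [ContinuousLinearEquiv.coe_coe, conjCLE_apply, map_mul, conj_I]
  linear_combination ((1 / 2 : ℂ) * conj (fderiv ℂ f z (EuclideanSpace.single c 1))) * I_mul_I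

variable {A : Atl 2 M}

theorem omM_diffAt {i j : A.ι} {x : M} (hx : x ∈ (A.e i).source ∩ (A.e j).source)
    (k l : Fin 4) :
    DifferentiableAt ℂ (fun z => omM (Jm A i j ((A.e i).symm z)) k l) (A.e i x) := by
  have hJ : ∀ b a, DifferentiableAt ℂ (fun z => A.J i j ((A.e i).symm z) b a) (A.e i x) :=
    fun b a => J_diffAt hx b a
  have hd : DifferentiableAt ℂ (fun z => (Jm A i j ((A.e i).symm z)).det) (A.e i x) :=
    (det_holo i j).differentiableAt ((isOpen_ov i j).mem_nhds (mem_ov hx))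
  fin_cases k <;> fin_cases l <;>
    first
      | exact differentiableAt_const _
      | exact hJ _ _
      | exact hd

/-- the `∂_c`-derivative of the transition matrix of `1 ⊕ Ω¹ ⊕ K` -/
def dOm (A : Atl 2 M) (i j : A.ι) (x : M) (c : Fin 2) : Matrix (Fin 4) (Fin 4) ℂ :=
  Matrix.of fun k l => fderiv ℂ (fun z => omM (Jm A i j ((A.e i).symm z)) k l) (A.e i x)
    (EuclideanSpace.single c 1)

theorem dOm_closed {i j : A.ι} {x : M} (hx : x ∈ (A.e i).source ∩ (A.e j).source) :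
    ∑ a, eM a * dOm A i j x a = 0 := by
  have hs : ∀ b, H2 A i j x b 0 1 = H2 A i j x b 1 0 := fun b => H2_symm hx b 0 1
  have h11 : ∀ c, dOm A i j x c 1 1 = H2 A i j x 0 0 c := fun c => rfl
  have h12 : ∀ c, dOm A i j x c 1 2 = H2 A i j x 1 0 c := fun c => rfl
  have h21 : ∀ c, dOm A i j x c 2 1 = H2 A i j x 0 1 c := fun c => rfl
  have h22 : ∀ c, dOm A i j x c 2 2 = H2 A i j x 1 1 c := fun c => rfl
  have hc : ∀ (c : Fin 2) (k l : Fin 4) (v : ℂ), (∀ m, omM m k l = v) →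
      dOm A i j x c k l = 0 := by
    intro c k l v h
    have : (fun z => omM (Jm A i j ((A.e i).symm z)) k l) = fun _ => v := by
      funext z
      exact h _
    show fderiv ℂ (fun z => omM (Jm A i j ((A.e i).symm z)) k l) (A.e i x)
      (EuclideanSpace.single c 1) = 0
    rw [this]
    simp
  have h00 : ∀ c, dOm A i j x c 0 0 = 0 := fun c => hc c 0 0 1 fun _ => rfl
  have h01 : ∀ c, dOm A i j x c 0 1 = 0 := fun c => hc c 0 1 0 fun _ => rfl
  have h02 : ∀ c, dOm A i j x c 0 2 = 0 := fun c => hc c 0 2 0 fun _ => rfl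
  have h03 : ∀ c, dOm A i j x c 0 3 = 0 := fun c => hc c 0 3 0 fun _ => rfl
  have h10 : ∀ c, dOm A i j x c 1 0 = 0 := fun c => hc c 1 0 0 fun _ => rfl
  have h13 : ∀ c, dOm A i j x c 1 3 = 0 := fun c => hc c 1 3 0 fun _ => rfl
  have h20 : ∀ c, dOm A i j x c 2 0 = 0 := fun c => hc c 2 0 0 fun _ => rfl
  have h23 : ∀ c, dOm A i j x c 2 3 = 0 := fun c => hc c 2 3 0 fun _ => rfl
  ext k l
  rw [Fin.sum_univ_two, Matrix.add_apply, Matrix.mul_apply, Matrix.mul_apply,
    Fin.sum_univ_four, Fin.sum_univ_four]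
  fin_cases k <;> fin_cases l <;>
    simp [eM, h11, h12, h21, h22, h00, h01, h02, h03, h10, h13, h20, h23, hs]

/-! ### The de Rham structure -/

theorem tau_closed {i j : A.ι} {x : M} (hx : x ∈ (A.e i).source ∩ (A.e j).source) (a : Fin 2) :
    Matrix.of (fun k l : Fin 4 × Fin 4 =>
      wd (false, a) (fun z => (tauM (Jm A i j ((A.e i).symm z)) ⊗ₖ
        omM (Jm A i j ((A.e i).symm z))) k l) (A.e i x)) =
      tauM (Jm A i j x) ⊗ₖ dOm A i j x a := by
  ext ⟨k, r⟩ ⟨l, s⟩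
  rw [Matrix.of_apply, Matrix.kroneckerMap_apply]
  have h1 : DifferentiableAt ℂ (fun z => omM (Jm A i j ((A.e i).symm z)) k l) (A.e i x) :=
    omM_diffAt hx k l
  have h2 : DifferentiableAt ℂ (fun z => omM (Jm A i j ((A.e i).symm z)) r s) (A.e i x) :=
    omM_diffAt hx r s
  have h3 : (fun z => (tauM (Jm A i j ((A.e i).symm z)) ⊗ₖ
        omM (Jm A i j ((A.e i).symm z))) (k, r) (l, s)) =
      fun z => conj (omM (Jm A i j ((A.e i).symm z)) k l) *
        omM (Jm A i j ((A.e i).symm z)) r s := by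
    funext z
    rw [Matrix.kroneckerMap_apply, tauM_eq]
  have h4 : DifferentiableAt ℝ (fun z => conj (omM (Jm A i j ((A.e i).symm z)) k l)) (A.e i x) :=
    ((conjCLE : ℂ →L[ℝ] ℂ).differentiableAt).comp _ (h1.restrictScalars ℝ)
  rw [h3, wd_mul h4 (h2.restrictScalars ℝ), wd_conj_holo h1, wd_holo h2, zero_mul, zero_add,
    (A.e i).left_inv hx.1, ← tauM_eq]
  rfl

/-- the bundle of all complex forms of a complex surface, with its de Rham structure -/
def drs (A : Atl 2 M) : DRS (tw (lam2 A) (OmAll A)) where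
  α0 i x := by
    show (0 : Matrix (Fin 4) (Fin 4) ℂ) ⊗ₖ (1 : Matrix (Fin 4) (Fin 4) ℂ) +
      ∑ a, eM a ⊗ₖ (0 : Matrix (Fin 4) (Fin 4) ℂ) = 0
    simp
  pdeg p := dg p.2
  f a := (sgn ⊗ₖ eM a : Matrix (Fin 4 × Fin 4) (Fin 4 × Fin 4) ℂ)
  jo a := (sgn ⊗ₖ ioM a : Matrix (Fin 4 × Fin 4) (Fin 4 × Fin 4) ℂ)
  e_pdeg := by
    rintro a ⟨k, r⟩ ⟨l, s⟩ h
    have h1 : (1 : Matrix (Fin 4) (Fin 4) ℂ) r s ≠ 0 := right_ne_zero_of_mul h
    have h2 : r = s := by
      by_contra hne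
      exact h1 (Matrix.one_apply_ne hne)
    show dg r = dg s
    rw [h2]
  f_deg := by
    rintro a ⟨k, r⟩ ⟨l, s⟩ h
    have h1 : sgn k l ≠ 0 := left_ne_zero_of_mul h
    show dg k = dg l
    rw [sgn_apply_ne h1]
  f_pdeg := by
    rintro a ⟨k, r⟩ ⟨l, s⟩ h
    exact eM_dg (right_ne_zero_of_mul h)
  ff a b := by
    show sgn ⊗ₖ eM a * sgn ⊗ₖ eM b + sgn ⊗ₖ eM b * sgn ⊗ₖ eM a = 0
    have h : eM a * eM b + eM b * eM a = 0 := (lam2 A).ee a b
    rw [← Matrix.mul_kronecker_mul, ← Matrix.mul_kronecker_mul, ← Matrix.kronecker_add, h,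
      Matrix.kronecker_zero]
  fe a b := by
    show sgn ⊗ₖ eM a * eM b ⊗ₖ (1 : Matrix (Fin 4) (Fin 4) ℂ) +
      eM b ⊗ₖ (1 : Matrix (Fin 4) (Fin 4) ℂ) * sgn ⊗ₖ eM a = 0
    rw [← Matrix.mul_kronecker_mul, ← Matrix.mul_kronecker_mul, mul_one, one_mul,
      ← Matrix.add_kronecker, sgn_e, Matrix.zero_kronecker]
  fj a b := by
    show sgn ⊗ₖ eM a * sgn ⊗ₖ ioM b + sgn ⊗ₖ ioM b * sgn ⊗ₖ eM a =
      if a = b then (1 : Matrix (Fin 4 × Fin 4) (Fin 4 × Fin 4) ℂ) else 0
    have h : eM a * ioM b + ioM b * eM a = if a = b then 1 else 0 := (lam2 A).ei a b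
    rw [← Matrix.mul_kronecker_mul, ← Matrix.mul_kronecker_mul, ← Matrix.kronecker_add, h,
      sgn_sgn]
    split_ifs
    · rw [Matrix.one_kronecker_one]
    · rw [Matrix.kronecker_zero]
  fi a b := by
    show sgn ⊗ₖ eM a * ioM b ⊗ₖ (1 : Matrix (Fin 4) (Fin 4) ℂ) +
      ioM b ⊗ₖ (1 : Matrix (Fin 4) (Fin 4) ℂ) * sgn ⊗ₖ eM a = 0
    rw [← Matrix.mul_kronecker_mul, ← Matrix.mul_kronecker_mul, mul_one, one_mul,
      ← Matrix.add_kronecker, sgn_io, Matrix.zero_kronecker]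
  ej a b := by
    show eM a ⊗ₖ (1 : Matrix (Fin 4) (Fin 4) ℂ) * sgn ⊗ₖ ioM b +
      sgn ⊗ₖ ioM b * eM a ⊗ₖ (1 : Matrix (Fin 4) (Fin 4) ℂ) = 0
    rw [← Matrix.mul_kronecker_mul, ← Matrix.mul_kronecker_mul, mul_one, one_mul,
      ← Matrix.add_kronecker, add_comm, sgn_e, Matrix.zero_kronecker]
  num := by
    show ∑ a, eM a ⊗ₖ (1 : Matrix (Fin 4) (Fin 4) ℂ) * ioM a ⊗ₖ (1 : Matrix (Fin 4) (Fin 4) ℂ) +
      ∑ a, sgn ⊗ₖ eM a * sgn ⊗ₖ ioM a =
      Matrix.diagonal (fun k : Fin 4 × Fin 4 => ((dg k.1 + dg k.2 : ℕ) : ℂ))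
    have h1 : ∑ a, eM a ⊗ₖ (1 : Matrix (Fin 4) (Fin 4) ℂ) * ioM a ⊗ₖ
        (1 : Matrix (Fin 4) (Fin 4) ℂ) =
        Matrix.diagonal (fun k => ((dg k : ℕ) : ℂ)) ⊗ₖ (1 : Matrix (Fin 4) (Fin 4) ℂ) := by
      rw [← num4, kron_sum_left]
      refine Finset.sum_congr rfl fun a _ => ?_
      rw [← Matrix.mul_kronecker_mul, one_mul]
    have h2 : ∑ a, sgn ⊗ₖ eM a * sgn ⊗ₖ ioM a =
        (1 : Matrix (Fin 4) (Fin 4) ℂ) ⊗ₖ Matrix.diagonal (fun k => ((dg k : ℕ) : ℂ)) := by
      rw [← num4, kron_sum_right]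
      refine Finset.sum_congr rfl fun a _ => ?_
      rw [← Matrix.mul_kronecker_mul, sgn_sgn]
    rw [h1, h2, ← Matrix.diagonal_one, Matrix.diagonal_kronecker_diagonal,
      Matrix.diagonal_kronecker_diagonal, Matrix.diagonal_add]
    congr 1
    funext k
    simp
  τ_pdeg := by
    rintro i j x ⟨k, r⟩ ⟨l, s⟩ h
    exact omM_dg _ r s (right_ne_zero_of_mul h)
  f_symb i j x hx b := by
    show ∑ a, Jm A i j x b a • (sgn ⊗ₖ eM a * tauM (Jm A i j x) ⊗ₖ omM (Jm A i j x)) =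
      tauM (Jm A i j x) ⊗ₖ omM (Jm A i j x) * sgn ⊗ₖ eM b
    rw [← Matrix.mul_kronecker_mul, ← omM_symb, kron_sum_right, ← sgn_tau]
    refine Finset.sum_congr rfl fun a _ => ?_
    rw [← Matrix.mul_kronecker_mul, Matrix.kronecker_smul]
  f_closed i j x hx := by
    show ∑ a, sgn ⊗ₖ eM a * Matrix.of (fun k l : Fin 4 × Fin 4 =>
      wd (false, a) (fun z => (tauM (Jm A i j ((A.e i).symm z)) ⊗ₖ
        omM (Jm A i j ((A.e i).symm z))) k l) (A.e i x)) = 0
    simp only [tau_closed hx, ← Matrix.mul_kronecker_mul]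
    rw [← kron_sum_right, dOm_closed hx, Matrix.kronecker_zero]
  k0 := ((0 : Fin 4), (0 : Fin 4))
  vac := by
    rintro ⟨k, r⟩
    exact vac4 k r

/-! ### The pieces of holomorphic degree `p` -/

/-- `E` (with zero connection) is the part of holomorphic degree `p` of `1 ⊕ Ω¹ ⊕ K` -/
structure Comp (A : Atl 2 M) (p : ℕ) (E : VBun A) where
  e : {r : Fin 4 // dg r = p} ≃ E.ρ
  g_eq : ∀ i j, ∀ x ∈ (A.e i).source ∩ (A.e j).source, ∀ r s : {r : Fin 4 // dg r = p},
    (OmAll A).g i j x r.1 s.1 = E.g i j x (e r) (e s)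
  a_eq : ∀ i b x, E.a i b x = 0

theorem dg_one {r : Fin 4} (h : dg r = 1) : r = 1 ∨ r = 2 := by
  fin_cases r <;> simp_all [dg]

theorem dg_two {r : Fin 4} (h : dg r = 2) : r = 3 := by
  fin_cases r <;> simp_all [dg]

/-- indices of degree `0` -/
def eq0 : {r : Fin 4 // dg r = 0} ≃ Fin 1 where
  toFun _ := 0
  invFun _ := ⟨0, rfl⟩
  left_inv r := Subtype.ext ((dg_eq_zero r.1).1 r.2).symm
  right_inv _ := Subsingleton.elim _ _

/-- indices of degree `1` -/
def eq1 : {r : Fin 4 // dg r = 1} ≃ Fin 2 where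
  toFun r := if r.1 = 1 then 0 else 1
  invFun s := if s = 0 then ⟨1, rfl⟩ else ⟨2, rfl⟩
  left_inv := by
    rintro ⟨r, hr⟩
    rcases dg_one hr with rfl | rfl <;> rfl
  right_inv s := by
    fin_cases s <;> rfl

/-- indices of degree `2` -/
def eq2 : {r : Fin 4 // dg r = 2} ≃ Unit where
  toFun _ := ()
  invFun _ := ⟨3, rfl⟩
  left_inv := by
    rintro ⟨r, hr⟩
    obtain rfl := dg_two hr
    rfl
  right_inv _ := rfl

/-- degree `0` : `Sym^0 Ω¹` -/
def comp0 (A : Atl 2 M) : Comp A 0 (SymBun585.symV A 0) where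
  e := eq0
  g_eq i j x _ r s := by
    obtain ⟨r, hr⟩ := r
    obtain ⟨s, hs⟩ := s
    rw [dg_eq_zero] at hr hs
    subst hr
    subst hs
    have h : (SymBun585.symV A 0).g i j x = (1 : Matrix (Fin 1) (Fin 1) ℂ) :=
      SymBun585.Coc2.symV_zero_g _ i j x
    rw [h]
    rfl
  a_eq _ _ _ := rfl

/-- degree `1` : `Ω¹` -/
def comp1 (A : Atl 2 M) : Comp A 1 (OmT75.Om1 A) where
  e := eq1
  g_eq i j x _ r s := by
    obtain ⟨r, hr⟩ := r
    obtain ⟨s, hs⟩ := s
    rcases dg_one hr with rfl | rfl <;> rcases dg_one hs with rfl | rfl <;> rfl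
  a_eq _ _ _ := rfl

/-- degree `2` : `K = det Ω¹` -/
def comp2 (A : Atl 2 M) : Comp A 2 (SymBun585.KV A) where
  e := eq2
  g_eq i j x _ r s := by
    obtain ⟨r, hr⟩ := r
    obtain ⟨s, hs⟩ := s
    obtain rfl := dg_two hr
    obtain rfl := dg_two hs
    exact (Matrix.det_transpose (Jm A i j x)).symm
  a_eq _ _ _ := rfl

end

end Crest.Agent.R275.EDRConc585
end

-- ▼ part R275/EDR_890

/-!
# R275, block EDR (helper890): `χ(O) - χ(Ω¹) + χ(K) = χ(nerve)` on a complex surface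

For `A : Atl 2 M` finite, good, with a `Part`, and ANY supercomplex structures (`d = nab`,
`T = (-1)^deg`) with finite-dimensional cohomology on the spaces of `(0,*)`-forms with values in
`1`, `Ω¹`, `K`:   `st C0 - st C1 + st C2 = nerveChi`.
-/

set_option autoImplicit false
set_option linter.unusedSectionVars false

open Set Filter Topology Complex TopologicalSpace
open scoped ContDiff Matrix ComplexConjugate Kronecker

namespace Crest.Agent.R275.EDR890

open Geo NA7763 Lam2130 EDRConc585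

noncomputable section

section three

variable {n : ℕ} {M : Type} [TopologicalSpace M] {A : Atl n M} {B : FBun A}

/-- the three bundles as a family -/
def BB (B0 B1 B2 : FBun A) : ℕ → FBun A
  | 0 => B0
  | 1 => B1
  | _ + 2 => B2

/-- the three supercomplexes as a family -/
def CC {B0 B1 B2 : FBun A} (C0 : SC ℂ (Sec B0)) (C1 : SC ℂ (Sec B1)) (C2 : SC ℂ (Sec B2)) :
    ∀ p, SC ℂ (Sec (BB B0 B1 B2 p))
  | 0 => C0
  | 1 => C1
  | _ + 2 => C2

/-- a supercomplex on `Sec B` with `d = nab` and `T = (-1)^deg` -/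
structure IsDol (B : FBun A) (C : SC ℂ (Sec B)) : Prop where
  d : ∀ u, (C.d u).1 = nab B u.1
  T : ∀ u i x k, (C.T u).1 i x k = (-1) ^ (B.deg k) * u.1 i x k

theorem DRS.hodge_three (R : DRS B) (hL : ∀ k, R.pdeg k < 3) {B0 B1 B2 : FBun A}
    (P0 : Piece R 0 B0) (P1 : Piece R 1 B1) (P2 : Piece R 2 B2)
    (C0 : SC ℂ (Sec B0)) (C1 : SC ℂ (Sec B1)) (C2 : SC ℂ (Sec B2))
    (h0 : IsDol B0 C0) (h1 : IsDol B1 C1) (h2 : IsDol B2 C2)
    (f0 : FiniteDimensional ℂ C0.H) (f1 : FiniteDimensional ℂ C1.H)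
    (f2 : FiniteDimensional ℂ C2.H) :
    FiniteDimensional ℂ (R.sc ⊤).H ∧ (R.sc ⊤).st = C0.st - C1.st + C2.st := by
  have P : ∀ p, p < 3 → Piece R p (BB B0 B1 B2 p) := fun p hp =>
    match p, hp with
    | 0, _ => P0
    | 1, _ => P1
    | 2, _ => P2
    | q + 3, h => absurd h (by omega)
  have key := R.hodge 3 hL (BB B0 B1 B2) P (CC C0 C1 C2)
    (fun p hp => match p, hp with
      | 0, _ => h0.d
      | 1, _ => h1.d
      | 2, _ => h2.d
      | q + 3, h => absurd h (by omega))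
    (fun p hp => match p, hp with
      | 0, _ => h0.T
      | 1, _ => h1.T
      | 2, _ => h2.T
      | q + 3, h => absurd h (by omega))
    (fun p hp => match p, hp with
      | 0, _ => f0
      | 1, _ => f1
      | 2, _ => f2
      | q + 3, h => absurd h (by omega))
  refine ⟨key.1, ?_⟩
  rw [key.2, Finset.sum_range_succ, Finset.sum_range_succ, Finset.sum_range_succ,
    Finset.sum_range_zero]
  show 0 + (-1) ^ 0 * C0.st + (-1) ^ 1 * C1.st + (-1) ^ 2 * C2.st = _
  ring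

end three

section surface

variable {M : Type} [TopologicalSpace M] (A : Atl 2 M)

theorem drs_pdeg_lt (k : (tw (lam2 A) (OmAll A)).κ) : (drs A).pdeg k < 3 := by
  obtain ⟨k, r⟩ := k
  show dg r < 3
  fin_cases r <;> simp [dg]

/-- the piece of degree `p` from 585's component data -/
def pieceOf {p : ℕ} {E : VBun A} (C : Comp A p E) : Piece (drs A) p (tw (lam2 A) E) :=
  pieceTw (B₀ := lam2 A) (E := OmAll A) (E' := E) (drs A) dg (fun _ _ => rfl) p C.e.symm
    (fun i j x hx r s => by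
      have h := C.g_eq i j x hx (C.e.symm r) (C.e.symm s)
      rw [Equiv.apply_symm_apply, Equiv.apply_symm_apply] at h
      exact h.symm)
    (fun _ _ => rfl) (fun i b x => C.a_eq i b x)


variable {A}


/-- the same for arbitrary component data -/
theorem edr' [Fintype A.ι] (hA : GC293.GoodA A) (P : Part A) {E0 E1 E2 : VBun A}
    (c0 : Comp A 0 E0) (c1 : Comp A 1 E1) (c2 : Comp A 2 E2)
    (C0 : SC ℂ (Sec (tw (lam2 A) E0))) (C1 : SC ℂ (Sec (tw (lam2 A) E1)))
    (C2 : SC ℂ (Sec (tw (lam2 A) E2)))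
    (h0 : IsDol _ C0) (h1 : IsDol _ C1) (h2 : IsDol _ C2)
    (f0 : FiniteDimensional ℂ C0.H) (f1 : FiniteDimensional ℂ C1.H)
    (f2 : FiniteDimensional ℂ C2.H) :
    C0.st - C1.st + C2.st = (nerveChi (fun i => (A.e i).source) Finset.univ : ℂ) := by
  rw [← ((drs A).hodge_three (drs_pdeg_lt A) (pieceOf A c0) (pieceOf A c1) (pieceOf A c2)
    C0 C1 C2 h0 h1 h2 f0 f1 f2).2]
  exact ((drs A).nerve_atl hA P).2


end surface

end

end Crest.Agent.R275.EDR890
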