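import Crest.Agent.R275.FmP_96
import Crest.Agent.R275.FlNerve_161
import Crest.Agent.R275.Lt_893
import Crest.Agent.R275.Fm_96
import Crest.Agent.R275.ZC9_352
import Crest.Agent.R275.XN2_194
import Crest.Agent.R275.XN3_194
import Crest.Agent.R275.Lt2_893

-- ▼ part R275/FlCore_161
section

/-!
# R275, leaf R4 (helper161): cohomology with values in a unitary flat line bundle

`A : Atl n M`, `g i j` a locally constant unitary cocycle.  If every closed `(0,1)`-form with
values in `g` (and in `conj g`) is `∂̄`-exact and `M` is compact (or: moduli of smooth sections of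
`conj g` attain their maximum), then every locally constant `g`-valued Čech 1-cocycle is the
coboundary of a locally constant 0-cochain.
-/

set_option autoImplicit false
set_option linter.unusedSectionVars false

open Set Filter Topology Complex
open scoped ContDiff ComplexConjugate

namespace Crest.Agent.R275.Fl161

open Geo Fm96

noncomputable section

variable {n : ℕ} {M : Type} [TopologicalSpace M] {A : Atl n M}

/-- every `∂̄`-closed smooth `(0,1)`-form with values in the line cocycle `g` is `∂̄`-exact -/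
def H1Zero (A : Atl n M) (g : A.ι → A.ι → M → ℂ) : Prop :=
  ∀ a : A.ι → M → Fin n → ℂ,
    (∀ i b, A.SmAt i (fun x => a i x b)) →
    (∀ i, ∀ x ∉ (A.e i).source, a i x = 0) →
    (∀ i j, ∀ x ∈ (A.e i).source ∩ (A.e j).source, ∀ b,
      a i x b = ∑ c, g i j x * conj (A.J i j x c b) * a j x c) →
    (∀ i, ∀ x ∈ (A.e i).source, ∀ b c,
      A.db i b (fun y => a i y c) x = A.db i c (fun y => a i y b) x) →
    ∃ w : A.ι → M → ℂ, (∀ i, A.SmAt i (w i)) ∧ (∀ i, ∀ x ∉ (A.e i).source, w i x = 0) ∧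
      (∀ i j, ∀ x ∈ (A.e i).source ∩ (A.e j).source, w i x = g i j x * w j x) ∧
      ∀ i, ∀ x ∈ (A.e i).source, ∀ b, A.db i b (w i) x = a i x b

/-- locally constant unitary cocycle -/
structure Flat (A : Atl n M) (g : A.ι → A.ι → M → ℂ) : Prop where
  lc : ∀ i j, ∀ x ∈ (A.e i).source ∩ (A.e j).source, ∀ᶠ y in 𝓝 x, g i j y = g i j x
  unit : ∀ i j, ∀ x ∈ (A.e i).source ∩ (A.e j).source, ‖g i j x‖ = 1

theorem Flat.conj' {g : A.ι → A.ι → M → ℂ} (h : Flat A g) :
    Flat A (fun i j x => conj (g i j x)) where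
  lc i j x hx := (h.lc i j x hx).mono fun y hy => by simp only [hy]
  unit i j x hx := by simpa using h.unit i j x hx

/-! ### the local maximum argument -/

theorem eq_of_re_eq {w : ℂ} {m : ℝ} (h1 : w.re = m) (h2 : ‖w‖ ≤ m) : w = m := by
  have h3 : w.im = 0 := by
    have h4 := Complex.sq_norm w
    rw [Complex.normSq_apply, h1] at h4
    have h5 : 0 ≤ ‖w‖ := norm_nonneg w
    have h6 : ‖w‖ ^ 2 ≤ m ^ 2 := by nlinarith
    have h7 : w.im * w.im ≤ 0 := by nlinarith
    nlinarith [mul_self_nonneg w.im, mul_self_eq_zero.1 (le_antisymm h7 (mul_self_nonneg w.im))]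
  apply Complex.ext <;> simp [h1, h3]

/-- transport of an eventual statement from the chart to the manifold -/
theorem eventually_of_chart {i : A.ι} {x : M} (hx : x ∈ (A.e i).source) {p : M → Prop}
    (h : ∀ᶠ z in 𝓝 (A.e i x), p ((A.e i).symm z)) : ∀ᶠ y in 𝓝 x, p y := by
  have h2 : ContinuousAt (A.e i) x := (A.e i).continuousAt hx
  filter_upwards [h2.eventually h, (A.e i).open_source.mem_nhds hx] with y hy hy2
  rwa [(A.e i).left_inv hy2] at hy

theorem eventually_to_chart {i : A.ι} {x : M} (hx : x ∈ (A.e i).source) {p : M → Prop}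
    (h : ∀ᶠ y in 𝓝 x, p y) : ∀ᶠ z in 𝓝 (A.e i x), p ((A.e i).symm z) := by
  have h1 : Tendsto (A.e i).symm (𝓝 (A.e i x)) (𝓝 x) := by
    have := (A.e i).continuousAt_symm ((A.e i).map_source hx)
    rw [ContinuousAt, (A.e i).left_inv hx] at this
    exact this
  exact h1.eventually h

/-- a holomorphic function whose conjugate is killed by `∂̄` is locally constant -/
theorem locConst_of_db_conj {i : A.ι} {f : M → ℂ} {x : M} (hx : x ∈ (A.e i).source)
    (hf : HolP A i f x) (h : ∀ᶠ y in 𝓝 x, ∀ b, A.db i b (fun y => conj (f y)) y = 0) :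
    ∀ᶠ y in 𝓝 x, f y = f x := by
  set F : Cn n → ℂ := fun z => f ((A.e i).symm z) with hF
  have h1 : ∀ᶠ z in 𝓝 (A.e i x), fderiv ℂ F z = 0 := by
    filter_upwards [eventually_to_chart hx h, hf,
      (A.e i).open_target.mem_nhds ((A.e i).map_source hx)] with z k1 k2 k3
    ext v
    have k4 : ∀ b, fderiv ℂ F z (bs b) = 0 := by
      intro b
      have := k1 b
      rw [Atl.db, (A.e i).right_inv k3, dbj_conj k2] at this
      simpa using this
    have k5 := sum_bs v
    rw [k5, map_sum]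
    simp only [map_smul, k4, smul_zero, Finset.sum_const_zero, _root_.zero_apply]
  obtain ⟨r, hr, hball⟩ := Metric.eventually_nhds_iff_ball.1 (h1.and hf)
  have h2 : ∀ z ∈ Metric.ball (A.e i x) r, F z = F (A.e i x) := by
    intro z hz
    refine (convex_ball (A.e i x) r).is_const_of_fderivWithin_eq_zero (𝕜 := ℂ)
      (fun y hy => (hball y hy).2.differentiableWithinAt) (fun y hy => ?_) hz
      (Metric.mem_ball_self hr)
    rw [fderivWithin_of_isOpen Metric.isOpen_ball hy]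
    exact (hball y hy).1
  have h3 : ∀ᶠ z in 𝓝 (A.e i x), F z = F (A.e i x) :=
    Filter.eventually_of_mem (Metric.ball_mem_nhds _ hr) h2
  have h4 : F (A.e i x) = f x := by simp only [hF, (A.e i).left_inv hx]
  rw [h4] at h3
  exact eventually_of_chart hx h3

theorem local_max {i : A.ι} {u u' : M → ℂ} {x : M} {m : ℝ} (hx : x ∈ (A.e i).source)
    (hu : ∀ y ∈ (A.e i).source, HolP A i u y) (hu' : ∀ y ∈ (A.e i).source, SmP A i u' y)
    (hdb : ∀ y ∈ (A.e i).source, ∀ b, A.db i b u' y = A.db i b (fun y => conj (u y)) y)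
    (hle : ∀ y ∈ (A.e i).source, ‖u' y‖ ≤ m) (heq : ‖u' x‖ = m) :
    (∀ᶠ y in 𝓝 x, u' y = u' x) ∧ ∀ᶠ y in 𝓝 x, u y = u x := by
  have hsrc : ∀ᶠ y in 𝓝 x, y ∈ (A.e i).source := (A.e i).open_source.mem_nhds hx
  -- a unit number rotating the maximum to the positive axis
  obtain ⟨ζ, hζ, hζm⟩ : ∃ ζ : ℂ, ‖ζ‖ = 1 ∧ ζ * u' x = m := by
    by_cases h0 : u' x = 0
    · refine ⟨1, by simp, ?_⟩
      rw [h0, norm_zero] at heq
      simp [h0, ← heq]
    · have hm : (m : ℂ) ≠ 0 := by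
        rw [← heq]; exact_mod_cast norm_ne_zero_iff.2 h0
      have hm' : m ≠ 0 := by exact_mod_cast hm
      refine ⟨conj (u' x) / m, ?_, ?_⟩
      · rw [norm_div, RCLike.norm_conj, heq, Complex.norm_real, Real.norm_eq_abs,
          abs_of_nonneg (heq ▸ norm_nonneg _), div_self hm']
      · rw [div_mul_eq_mul_div, mul_comm, Complex.mul_conj, Complex.normSq_eq_norm_sq, heq,
          div_eq_iff hm]
        push_cast; ring
  -- the holomorphic function
  have hf : HolP A i (fun y => u' y - conj (u y)) x := by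
    refine holP_of_db hx ((hu' x hx).sub (hu x hx).smP.conj) ?_
    filter_upwards [hsrc] with y hy b
    rw [db_subP b (hu' y hy) (hu y hy).smP.conj, hdb y hy b, sub_self]
  have hG : HolP A i (fun y => ζ * (u' y - conj (u y)) + conj ζ * u y) x :=
    ((HolP.const ζ).mul hf).add ((HolP.const (conj ζ)).mul (hu x hx))
  set G : M → ℂ := fun y => ζ * (u' y - conj (u y)) + conj ζ * u y with hGdef
  have hre : ∀ y, (G y).re = (ζ * u' y).re := by
    intro y
    simp only [hGdef, Complex.add_re, Complex.mul_re, Complex.sub_re, Complex.sub_im,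
      Complex.conj_re, Complex.conj_im]
    ring
  set F : Cn n → ℂ := fun z => Complex.exp (G ((A.e i).symm z)) with hF
  have hFd : ∀ᶠ z in 𝓝 (A.e i x), DifferentiableAt ℂ F z := hG.mono fun z hz => hz.cexp
  have hFm : IsLocalMax (norm ∘ F) (A.e i x) := by
    filter_upwards [eventually_to_chart hx hsrc] with z hz
    simp only [hF, Function.comp_apply, Complex.norm_exp, hre]
    rw [(A.e i).left_inv hx, hζm]
    refine Real.exp_le_exp.2 ?_
    calc (ζ * u' ((A.e i).symm z)).re ≤ ‖ζ * u' ((A.e i).symm z)‖ := Complex.re_le_norm _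
      _ = ‖u' ((A.e i).symm z)‖ := by rw [norm_mul, hζ, one_mul]
      _ ≤ m := hle _ hz
      _ = ((m : ℂ)).re := (Complex.ofReal_re m).symm
  have hconst := Complex.eventually_eq_of_isLocalMax_norm hFd hFm
  have h1 : ∀ᶠ z in 𝓝 (A.e i x), ζ * u' ((A.e i).symm z) = m := by
    filter_upwards [hconst, eventually_to_chart hx hsrc] with z hz hz2
    have h2 : ‖F z‖ = ‖F (A.e i x)‖ := by rw [hz]
    simp only [hF, Complex.norm_exp, hre, (A.e i).left_inv hx, hζm, Complex.ofReal_re] at h2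
    refine eq_of_re_eq (Real.exp_injective h2) ?_
    rw [norm_mul, hζ, one_mul]
    exact hle _ hz2
  have h2 : ∀ᶠ y in 𝓝 x, ζ * u' y = m := eventually_of_chart hx h1
  have hζ0 : ζ ≠ 0 := by
    intro h0; rw [h0, norm_zero] at hζ; exact zero_ne_one hζ
  have h3 : ∀ᶠ y in 𝓝 x, u' y = u' x := by
    filter_upwards [h2] with y hy
    have : ζ * u' y = ζ * u' x := by rw [hy, hζm]
    exact mul_left_cancel₀ hζ0 this
  refine ⟨h3, locConst_of_db_conj hx (hu x hx) ?_⟩
  filter_upwards [h3.eventually_nhds, hsrc] with y hy hy2 b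
  rw [← hdb y hy2 b]
  have h4 : u' =ᶠ[𝓝 y] fun _ => u' x := hy
  rw [db_congr hy2 h4, db_constP]

/-- the global maximum argument -/
theorem core [PreconnectedSpace M] {u u' : A.ι → M → ℂ}
    (hu : ∀ i, ∀ y ∈ (A.e i).source, HolP A i (u i) y)
    (hu' : ∀ i, ∀ y ∈ (A.e i).source, SmP A i (u' i) y)
    (hdb : ∀ i, ∀ y ∈ (A.e i).source, ∀ b,
      A.db i b (u' i) y = A.db i b (fun y => conj (u i y)) y)
    (htr : ∀ i j, ∀ y ∈ (A.e i).source ∩ (A.e j).source, ‖u' i y‖ = ‖u' j y‖)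
    (hmax : ∃ i₀, ∃ y₀ ∈ (A.e i₀).source, ∀ i, ∀ y ∈ (A.e i).source, ‖u' i y‖ ≤ ‖u' i₀ y₀‖)
    (i : A.ι) {x : M} (hx : x ∈ (A.e i).source) : ∀ᶠ y in 𝓝 x, u i y = u i x := by
  obtain ⟨i₀, y₀, hy₀, hm⟩ := hmax
  set m := ‖u' i₀ y₀‖ with hmdef
  set S : Set M := {y | ∃ j, y ∈ (A.e j).source ∧ ‖u' j y‖ = m} with hS
  have hSj : ∀ y ∈ S, ∀ j, y ∈ (A.e j).source → ‖u' j y‖ = m := by
    rintro y ⟨k, hk, hk2⟩ j hj
    rw [htr j k y ⟨hj, hk⟩, hk2]
  have hopen : IsOpen S := by
    rw [isOpen_iff_mem_nhds]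
    rintro y ⟨j, hj, hj2⟩
    have h1 := (local_max hj (hu j) (hu' j) (hdb j) (hm j) hj2).1
    filter_upwards [h1, (A.e j).open_source.mem_nhds hj] with z hz hz2
    exact ⟨j, hz2, by rw [hz, hj2]⟩
  have hclosed : IsClosed S := by
    rw [← isOpen_compl_iff, isOpen_iff_mem_nhds]
    intro y hy
    obtain ⟨j, hj⟩ := A.cover y
    have h1 : ‖u' j y‖ ≠ m := fun h => hy ⟨j, hj, h⟩
    have h2 : ContinuousAt (fun z => ‖u' j z‖) y := ((hu' j y hj).continuousAt hj).norm
    filter_upwards [h2.eventually_ne h1, (A.e j).open_source.mem_nhds hj] with z hz hz2 hzS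
    exact hz (hSj z hzS j hz2)
  have huniv : S = univ :=
    IsClopen.eq_univ ⟨hclosed, hopen⟩ ⟨y₀, i₀, hy₀, rfl⟩
  have hxS : x ∈ S := by rw [huniv]; trivial
  exact (local_max hx (hu i) (hu' i) (hdb i) (hm i) (hSj x hxS i hx)).2

/-! ### the `∂̄`-derivative of an affine cochain -/

/-- if `v i = g i j * v j + c i j` with locally constant `c`, then `∂̄ v` is a closed form with
values in `g` -/
theorem exists_primitive {g c : A.ι → A.ι → M → ℂ} (hg : ∀ i j, ∀ x ∈ (A.e i).source ∩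
      (A.e j).source, ∀ᶠ y in 𝓝 x, g i j y = g i j x) (H : H1Zero A g)
    {v : A.ι → M → ℂ} (hv : ∀ i, ∀ x ∈ (A.e i).source, SmP A i (v i) x)
    (hc : ∀ i j, ∀ x ∈ (A.e i).source ∩ (A.e j).source, ∀ᶠ y in 𝓝 x, c i j y = c i j x)
    (htr : ∀ i j, ∀ x ∈ (A.e i).source ∩ (A.e j).source, v i x = g i j x * v j x + c i j x) :
    ∃ w : A.ι → M → ℂ, (∀ i, ∀ x ∈ (A.e i).source, SmP A i (w i) x) ∧
      (∀ i j, ∀ x ∈ (A.e i).source ∩ (A.e j).source, w i x = g i j x * w j x) ∧
      ∀ i, ∀ x ∈ (A.e i).source, ∀ b, A.db i b (w i) x = A.db i b (v i) x := by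
  classical
  set a : A.ι → M → Fin n → ℂ := fun i x b =>
    if x ∈ (A.e i).source then A.db i b (v i) x else 0 with ha
  have ha1 : ∀ i, ∀ x ∈ (A.e i).source, ∀ b,
      (fun y => a i y b) =ᶠ[𝓝 x] fun y => A.db i b (v i) y := by
    intro i x hx b
    filter_upwards [(A.e i).open_source.mem_nhds hx] with y hy
    simp only [ha, if_pos hy]
  have k1 : ∀ i b, A.SmAt i (fun x => a i x b) := by
    intro i b
    rw [smAt_iff]
    intro x hx
    exact ((hv i x hx).db b hx).congr hx (ha1 i x hx b)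
  have k2 : ∀ i, ∀ x ∉ (A.e i).source, a i x = 0 := by
    intro i x hx
    funext b
    simp only [ha, if_neg hx, Pi.zero_apply]
  have k3 : ∀ i j, ∀ x ∈ (A.e i).source ∩ (A.e j).source, ∀ b,
      a i x b = ∑ c, g i j x * conj (A.J i j x c b) * a j x c := by
    intro i j x hx b
    have h1 : v i =ᶠ[𝓝 x] fun y => g i j x * v j y + c i j x := by
      filter_upwards [hg i j x hx, hc i j x hx, (A.e i).open_source.mem_nhds hx.1,
        (A.e j).open_source.mem_nhds hx.2] with y h2 h3 h4 h5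
      rw [htr i j y ⟨h4, h5⟩, h2, h3]
    have hvj : SmP A i (v j) x := (hv j x hx.2).change hx
    have h2 : A.db i b (v i) x = g i j x * A.db i b (v j) x := by
      rw [db_congr hx.1 h1, db_addP b ((SmP.const _).mul hvj) (SmP.const _),
        db_mulP b (SmP.const _) hvj hx.1, db_constP, db_constP]
      ring
    simp only [ha, if_pos hx.1, if_pos hx.2]
    rw [h2, db_chain b (hv j x hx.2) hx, Finset.mul_sum]
    exact Finset.sum_congr rfl fun k _ => by ring
  have k4 : ∀ i, ∀ x ∈ (A.e i).source, ∀ b c,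
      A.db i b (fun y => a i y c) x = A.db i c (fun y => a i y b) x := by
    intro i x hx b c
    rw [db_congr hx (ha1 i x hx c), db_congr hx (ha1 i x hx b)]
    exact db_comm b c (hv i x hx) hx
  obtain ⟨w, hw1, -, hw3, hw4⟩ := H a k1 k2 k3 k4
  refine ⟨w, fun i x hx => smAt_iff.1 (hw1 i) x hx, hw3, fun i x hx b => ?_⟩
  rw [hw4 i x hx b]
  simp only [ha, if_pos hx]

/-! ### smooth splitting of a cochain -/

theorem Part.eventually_finset (P : Part A) (x : M) : ∃ F : Finset A.ι,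
    (∀ k ∈ F, x ∈ tsupport (P.ψ k)) ∧ ∀ᶠ y in 𝓝 x, ∀ k, P.ψ k y ≠ 0 → k ∈ F := by
  classical
  obtain ⟨i, hi⟩ := A.cover x
  -- a compact neighbourhood
  obtain ⟨r, hr, hrs⟩ := Metric.nhds_basis_closedBall.mem_iff.1
    ((A.e i).open_target.mem_nhds ((A.e i).map_source hi))
  set K : Set M := (A.e i).symm '' Metric.closedBall (A.e i x) r with hK
  have hKc : IsCompact K :=
    (isCompact_closedBall _ _).image_of_continuousOn ((A.e i).continuousOn_symm.mono hrs)
  have hKn : K ∈ 𝓝 x := by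
    have h1 : ∀ᶠ z in 𝓝 (A.e i x), (A.e i).symm z ∈ K := by
      filter_upwards [Metric.closedBall_mem_nhds (A.e i x) hr] with z hz
      exact ⟨z, hz, rfl⟩
    exact eventually_of_chart hi h1
  have hfin := P.lf K hKc
  have hsub : ∀ k, tsupport (P.ψ k) ⊆ tsupport (P.χ k) := by
    intro k y hy
    refine subset_closure ?_
    have := (P.χ_one k y hy).self_of_nhds
    simp [Function.mem_support, this]
  refine ⟨hfin.toFinset.filter (fun k => x ∈ tsupport (P.ψ k)), fun k hk =>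
    (Finset.mem_filter.1 hk).2, ?_⟩
  have h2 : ∀ᶠ y in 𝓝 x, ∀ k ∈ hfin.toFinset, x ∉ tsupport (P.ψ k) → P.ψ k y = 0 := by
    rw [eventually_all_finset]
    intro k _
    by_cases hk : x ∈ tsupport (P.ψ k)
    · exact Eventually.of_forall fun y h => absurd hk h
    · have h3 : (tsupport (P.ψ k))ᶜ ∈ 𝓝 x := (isClosed_tsupport _).isOpen_compl.mem_nhds hk
      filter_upwards [h3] with y hy _
      exact image_eq_zero_of_notMem_tsupport hy
  filter_upwards [h2, hKn] with y hy hyK k hk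
  have h4 : k ∈ hfin.toFinset := by
    rw [Set.Finite.mem_toFinset]
    exact ⟨y, hsub k (subset_closure hk), hyK⟩
  refine Finset.mem_filter.2 ⟨h4, ?_⟩
  by_contra h5
  exact hk (hy k h4 h5)

theorem Part.sub_source (P : Part A) {k : A.ι} {x : M} (h : x ∈ tsupport (P.ψ k)) :
    x ∈ (A.e k).source := by
  refine P.χ_sub k (subset_closure ?_)
  have := (P.χ_one k x h).self_of_nhds
  simp [Function.mem_support, this]

theorem smP_of_sm {f : M → ℝ} (hf : A.Sm f) {i : A.ι} {x : M} (hx : x ∈ (A.e i).source) :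
    SmP A i (fun y => (f y : ℂ)) x := by
  filter_upwards [(A.e i).open_target.mem_nhds ((A.e i).map_source hx)] with z hz
  have h1 := (hf i).contDiffAt ((A.e i).open_target.mem_nhds hz)
  exact (Complex.ofRealCLM.contDiff.contDiffAt (x := f ((A.e i).symm z))).comp z h1

/-- a locally constant `g`-cocycle is the coboundary of a smooth cochain -/
theorem exists_smooth_split (P : Part A) {g c : A.ι → A.ι → M → ℂ}
    (hc : ∀ i j, ∀ x ∈ (A.e i).source ∩ (A.e j).source, ∀ᶠ y in 𝓝 x, c i j y = c i j x)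
    (hcoc : ∀ i j k, ∀ x ∈ (A.e i).source ∩ (A.e j).source ∩ (A.e k).source,
      c i k x = c i j x + g i j x * c j k x) :
    ∃ v : A.ι → M → ℂ, (∀ i, ∀ x ∈ (A.e i).source, SmP A i (v i) x) ∧
      ∀ i j, ∀ x ∈ (A.e i).source ∩ (A.e j).source, v i x = g i j x * v j x + c i j x := by
  classical
  set v : A.ι → M → ℂ := fun i x => ∑ᶠ k, (P.ψ k x : ℂ) * c i k x with hv
  have hvF : ∀ x : M, ∀ F : Finset A.ι, (∀ k, P.ψ k x ≠ 0 → k ∈ F) → ∀ i,
      v i x = ∑ k ∈ F, (P.ψ k x : ℂ) * c i k x := by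
    intro x F hF i
    refine finsum_eq_sum_of_support_subset _ fun k hk => ?_
    rw [Function.mem_support] at hk
    refine hF k fun h0 => hk ?_
    rw [h0]; simp
  refine ⟨v, fun i x hx => ?_, fun i j x hx => ?_⟩
  · obtain ⟨F, hF1, hF2⟩ := Part.eventually_finset P x
    have h1 : ∀ᶠ y in 𝓝 x, ∀ k ∈ F, c i k y = c i k x := by
      rw [eventually_all_finset]
      intro k hk
      exact hc i k x ⟨hx, Part.sub_source P (hF1 k hk)⟩
    have h2 : v i =ᶠ[𝓝 x] fun y => ∑ k ∈ F, (P.ψ k y : ℂ) * c i k x := by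
      filter_upwards [h1, hF2] with y hy1 hy2
      rw [hvF y F hy2 i]
      exact Finset.sum_congr rfl fun k hk => by rw [hy1 k hk]
    refine SmP.congr (SmP.sum fun k _ => ?_) hx h2
    exact (smP_of_sm (P.ψ_sm k) hx).mul (SmP.const _)
  · obtain ⟨F, hF1, hF2⟩ := Part.eventually_finset P x
    have hF3 := hF2.self_of_nhds
    rw [hvF x F hF3 i, hvF x F hF3 j, Finset.mul_sum, ← sub_eq_iff_eq_add', ← Finset.sum_sub_distrib]
    have h3 : ∑ k ∈ F, P.ψ k x = 1 := by
      rw [← P.sum_one x]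
      exact (finsum_eq_sum_of_support_subset _ fun k hk => hF3 k hk).symm
    have h4 : ∀ k ∈ F, (P.ψ k x : ℂ) * c i k x - g i j x * ((P.ψ k x : ℂ) * c j k x)
        = (P.ψ k x : ℂ) * c i j x := by
      intro k hk
      rw [hcoc i j k x ⟨hx, Part.sub_source P (hF1 k hk)⟩]
      ring
    rw [Finset.sum_congr rfl h4, ← Finset.sum_mul]
    have h5 : ∑ k ∈ F, (P.ψ k x : ℂ) = 1 := by rw [← Complex.ofReal_sum, h3, Complex.ofReal_one]
    rw [h5, one_mul]

/-! ### the theorem -/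

/-- **R4**, version with maxima as hypothesis -/
theorem flat_coboundary_of_max [PreconnectedSpace M] (P : Part A) {g : A.ι → A.ι → M → ℂ}
    (hg : Flat A g) (H : H1Zero A g) (H' : H1Zero A (fun i j x => conj (g i j x)))
    (hmax : ∀ w : A.ι → M → ℂ, (∀ i, ∀ x ∈ (A.e i).source, SmP A i (w i) x) →
      (∀ i j, ∀ x ∈ (A.e i).source ∩ (A.e j).source, w i x = conj (g i j x) * w j x) →
      ∃ i₀, ∃ y₀ ∈ (A.e i₀).source, ∀ i, ∀ y ∈ (A.e i).source, ‖w i y‖ ≤ ‖w i₀ y₀‖)
    {c : A.ι → A.ι → M → ℂ}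
    (hc : ∀ i j, ∀ x ∈ (A.e i).source ∩ (A.e j).source, ∀ᶠ y in 𝓝 x, c i j y = c i j x)
    (hcoc : ∀ i j k, ∀ x ∈ (A.e i).source ∩ (A.e j).source ∩ (A.e k).source,
      c i k x = c i j x + g i j x * c j k x) :
    ∃ b : A.ι → M → ℂ, (∀ i, ∀ x ∈ (A.e i).source, ∀ᶠ y in 𝓝 x, b i y = b i x) ∧
      ∀ i j, ∀ x ∈ (A.e i).source ∩ (A.e j).source, c i j x = b i x - g i j x * b j x := by
  obtain ⟨v, hv1, hv2⟩ := exists_smooth_split P hc hcoc
  obtain ⟨w, hw1, hw2, hw3⟩ := exists_primitive hg.lc H hv1 hc hv2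
  -- the holomorphic cochain
  set u : A.ι → M → ℂ := fun i x => v i x - w i x with hu
  have hus : ∀ i, ∀ x ∈ (A.e i).source, SmP A i (u i) x := fun i x hx =>
    (hv1 i x hx).sub (hw1 i x hx)
  have huh : ∀ i, ∀ x ∈ (A.e i).source, HolP A i (u i) x := by
    intro i x hx
    refine holP_of_db hx (hus i x hx) ?_
    filter_upwards [(A.e i).open_source.mem_nhds hx] with y hy b
    rw [hu]
    rw [db_subP b (hv1 i y hy) (hw1 i y hy), hw3 i y hy b, sub_self]
  have hutr : ∀ i j, ∀ x ∈ (A.e i).source ∩ (A.e j).source,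
      u i x = g i j x * u j x + c i j x := by
    intro i j x hx
    simp only [hu, hv2 i j x hx, hw2 i j x hx]
    ring
  obtain ⟨u', h1, h2, h3⟩ := exists_primitive (v := fun i x => conj (u i x))
    (c := fun i j x => conj (c i j x)) hg.conj'.lc H' (fun i x hx => (hus i x hx).conj)
    (fun i j x hx => (hc i j x hx).mono fun y hy => by simp only [hy])
    (fun i j x hx => by simp only [hutr i j x hx, map_add, map_mul])
  have hcore := core huh h1 h3 (fun i j x hx => by
    rw [h2 i j x hx, norm_mul, hg.conj'.unit i j x hx, one_mul]) (hmax u' h1 h2)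
  exact ⟨u, fun i x hx => hcore i hx, fun i j x hx => by rw [hutr i j x hx]; ring⟩

/-- **R4**: on a compact connected complex manifold -/
theorem flat_coboundary [CompactSpace M] [ConnectedSpace M] (P : Part A)
    {g : A.ι → A.ι → M → ℂ} (hg : Flat A g) (H : H1Zero A g)
    (H' : H1Zero A (fun i j x => conj (g i j x)))
    {c : A.ι → A.ι → M → ℂ}
    (hc : ∀ i j, ∀ x ∈ (A.e i).source ∩ (A.e j).source, ∀ᶠ y in 𝓝 x, c i j y = c i j x)
    (hcoc : ∀ i j k, ∀ x ∈ (A.e i).source ∩ (A.e j).source ∩ (A.e k).source,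
      c i k x = c i j x + g i j x * c j k x) :
    ∃ b : A.ι → M → ℂ, (∀ i, ∀ x ∈ (A.e i).source, ∀ᶠ y in 𝓝 x, b i y = b i x) ∧
      ∀ i j, ∀ x ∈ (A.e i).source ∩ (A.e j).source, c i j x = b i x - g i j x * b j x := by
  refine flat_coboundary_of_max P hg H H' (fun w hw1 hw2 => ?_) hc hcoc
  classical
  choose ix hix using A.cover
  set ρ : M → ℝ := fun y => ‖w (ix y) y‖ with hρ
  have hρi : ∀ i, ∀ y ∈ (A.e i).source, ρ y = ‖w i y‖ := by
    intro i y hy
    simp only [hρ]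
    rw [hw2 (ix y) i y ⟨hix y, hy⟩, norm_mul, hg.conj'.unit _ _ y ⟨hix y, hy⟩, one_mul]
  have hcont : Continuous ρ := by
    rw [continuous_iff_continuousAt]
    intro y
    have h1 : ContinuousAt (fun z => ‖w (ix y) z‖) y :=
      ((hw1 (ix y) y (hix y)).continuousAt (hix y)).norm
    refine h1.congr ?_
    filter_upwards [(A.e (ix y)).open_source.mem_nhds (hix y)] with z hz
    exact (hρi (ix y) z hz).symm
  obtain ⟨y₀, -, hy₀⟩ := isCompact_univ.exists_isMaxOn univ_nonempty hcont.continuousOn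
  refine ⟨ix y₀, y₀, hix y₀, fun i y hy => ?_⟩
  have h2 : ρ y ≤ ρ y₀ := hy₀ (mem_univ y)
  rw [hρi i y hy] at h2
  exact h2

end

end Crest.Agent.R275.Fl161
end

-- ▼ part R275/FlGeo_161
section

/-!
# R275, leaf R4 (helper161): `H¹` of the nerve with coefficients in `L_t`, cyclic coverings

* `h1Zero_of_fm`   : `H1Zero` from helper96's `IsZ0/IsZ1/d0/d1`;
* `Lc Z t`         : the cocycle `t ^ n_ij` of helper893's `L_t`;
* `eigen_trivial`  : twisted nerve cohomology vanishes for `|t| = 1` if `H1Zero` holds;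
* `cyclic_rank_one`: the nerve of the cyclic covering `X_N` has `H¹(·; ℚ) = ℚ n`.
-/

set_option autoImplicit false
set_option linter.unusedSectionVars false

open Set Filter Topology Complex
open scoped ContDiff ComplexConjugate

namespace Crest.Agent.R275.Fl161

open Geo Fm96 Lt893

noncomputable section

section n2

variable {M : Type} [TopologicalSpace M] {A : Atl 2 M}

/-- `H1Zero` in terms of the forms layer of helper96 -/
theorem h1Zero_of_fm {g : A.ι → A.ι → M → ℂ}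
    (h : ∀ a : A.ι → M → Fin 2 → ℂ, IsZ1 A g univ a → d1 A a = 0 →
      ∃ w : A.ι → M → ℂ, IsZ0 A g univ w ∧ d0 A w = a) : H1Zero A g := by
  intro a h1 h2 h3 h4
  obtain ⟨w, hw, hwa⟩ := h a
    { sm := fun i b x hx _ => smAt_iff.1 (h1 i b) x hx
      off := h2
      tr := fun i j x hx _ b => by
        rw [h3 i j x hx b, Finset.mul_sum]
        exact Finset.sum_congr rfl fun c _ => by ring } (by
      funext i x
      by_cases hx : x ∈ (A.e i).source
      · rw [d1_of_mem hx, h4 i x hx 0 1, sub_self]; rfl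
      · rw [d1_of_not_mem hx]; rfl)
  refine ⟨w, fun i => smAt_iff.2 fun x hx => hw.sm i x hx (mem_univ x), hw.off,
    fun i j x hx => hw.tr i j x hx (mem_univ x), fun i x hx b => ?_⟩
  rw [← d0_of_mem (u := w) hx b, hwa]

end n2

variable {n : ℕ} {M : Type} [TopologicalSpace M] {A : Atl n M}

/-- a locally constant function is constant on preconnected sets -/
theorem eq_of_preconnected {α : Type*} {S : Set M} (hS : IsPreconnected S) {f : M → α}
    (hf : ∀ x ∈ S, ∀ᶠ y in 𝓝 x, f y = f x) {x y : M} (hx : x ∈ S) (hy : y ∈ S) : f x = f y := by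
  refine hS.induction₂ (fun a b => f a = f b) (fun a ha => ?_) (fun a b c _ _ _ h1 h2 => h1.trans h2)
    (fun a b _ _ h => h.symm) hx hy
  exact mem_nhdsWithin_of_mem_nhds ((hf a ha).mono fun b hb => hb.symm)

/-- the cocycle `t ^ n_ij` -/
def Lc (Z : ZD A) (t : ℂ) : A.ι → A.ι → M → ℂ := fun i j x => t ^ (Z.nn i j x)

theorem flat_Lc (Z : ZD A) {t : ℂ} (ht : ‖t‖ = 1) : Flat A (Lc Z t) where
  lc i j x hx := (ZD.nn_loc (Z := Z) hx).mono fun y hy => by simp only [Lc, hy]
  unit i j x _ := by simp [Lc, norm_zpow, ht]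

theorem conj_Lc (Z : ZD A) (t : ℂ) : (fun i j x => conj (Lc Z t i j x)) = Lc Z (conj t) := by
  funext i j x
  simp only [Lc, map_zpow₀]

/-- the double intersections -/
def meet (A : Atl n M) (i j : A.ι) : Prop := ((A.e i).source ∩ (A.e j).source).Nonempty

/-- the triple intersections -/
def meet3 (A : Atl n M) (i j k : A.ι) : Prop :=
  ((A.e i).source ∩ (A.e j).source ∩ (A.e k).source).Nonempty

open Classical in
/-- the integers `n_ij` -/
def nI (Z : ZD A) (i j : A.ι) : ℤ := if h : meet A i j then Z.nn i j h.some else 0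

theorem nI_eq (Z : ZD A) (hpc : ∀ i j, IsPreconnected ((A.e i).source ∩ (A.e j).source))
    {i j : A.ι} {x : M} (hx : x ∈ (A.e i).source ∩ (A.e j).source) :
    Z.nn i j x = nI Z i j := by
  have h : meet A i j := ⟨x, hx⟩
  rw [nI, dif_pos h]
  exact eq_of_preconnected (hpc i j) (f := Z.nn i j) (fun y hy => ZD.nn_loc (Z := Z) hy) hx
    h.some_mem

theorem nI_add (Z : ZD A) (hpc : ∀ i j, IsPreconnected ((A.e i).source ∩ (A.e j).source))
    {i j k : A.ι} (h : meet3 A i j k) : nI Z i k = nI Z i j + nI Z j k := by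
  obtain ⟨x, hx⟩ := h
  rw [← nI_eq Z hpc (i := i) (j := k) ⟨hx.1.1, hx.2⟩, ← nI_eq Z hpc (i := i) (j := j) hx.1,
    ← nI_eq Z hpc (i := j) (j := k) ⟨hx.1.2, hx.2⟩, ZD.nn_add hx]

/-- **twisted cohomology of the nerve vanishes** -/
theorem eigen_trivial [CompactSpace M] [ConnectedSpace M] (P : Part A) (Z : ZD A)
    (hpc : ∀ i j, IsPreconnected ((A.e i).source ∩ (A.e j).source)) {t : ℂ} (ht : ‖t‖ = 1)
    (H : H1Zero A (Lc Z t)) (H' : H1Zero A (Lc Z (conj t))) (γ : A.ι → A.ι → ℂ)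
    (hγ : ∀ i j l, meet3 A i j l → γ i l = γ i j + t ^ (nI Z i j) * γ j l) :
    ∃ b : A.ι → ℂ, ∀ i j, meet A i j → γ i j = b i - t ^ (nI Z i j) * b j := by
  classical
  obtain ⟨b, hb1, hb2⟩ := flat_coboundary P (flat_Lc Z ht) H (by rw [conj_Lc]; exact H')
    (c := fun i j _ => γ i j) (fun i j x _ => Eventually.of_forall fun _ => rfl)
    (fun i j k x hx => by
      rw [hγ i j k ⟨x, hx⟩, Lc, nI_eq Z hpc hx.1])
  refine ⟨fun i => if h : ((A.e i).source).Nonempty then b i h.some else 0, fun i j h => ?_⟩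
  obtain ⟨x, hx⟩ := h
  have key : ∀ k, x ∈ (A.e k).source →
      (if h : ((A.e k).source).Nonempty then b k h.some else 0) = b k x := by
    intro k hk
    have h1 : ((A.e k).source).Nonempty := ⟨x, hk⟩
    rw [dif_pos h1]
    have h2 : IsPreconnected (A.e k).source := by simpa using hpc k k
    exact eq_of_preconnected h2 (f := b k) (hb1 k) h1.some_mem hk
  beta_reduce
  rw [key i hx.1, key j hx.2, hb2 i j x hx, Lc, nI_eq Z hpc hx]

/-- **first cohomology of the nerve of a cyclic covering.**  `UN (i, k)` are the lifts of the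
chart domains. -/
theorem cyclic_rank_one [CompactSpace M] [ConnectedSpace M] (P : Part A) (Z : ZD A)
    (hpc : ∀ i j, IsPreconnected ((A.e i).source ∩ (A.e j).source)) {N : ℕ} [NeZero N]
    (H : ∀ t : ℂ, t ^ N = 1 → t ≠ 1 → H1Zero A (Lc Z t))
    (H1 : ∀ γ : A.ι → A.ι → ℚ, (∀ i j l, meet3 A i j l → γ i l = γ i j + γ j l) →
      ∃ r : ℚ, ∃ b : A.ι → ℚ, ∀ i j, meet A i j → γ i j = r * nI Z i j + (b i - b j))
    {MN : Type*} (UN : A.ι × ZMod N → Set MN)
    (m2 : ∀ i j k l, (UN (i, k) ∩ UN (j, l)).Nonempty → meet A i j ∧ l = k + nI Z i j)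
    (m3 : ∀ i j l, meet3 A i j l → ∀ k : ZMod N,
      (UN (i, k) ∩ UN (j, k + nI Z i j) ∩ UN (l, k + nI Z i l)).Nonempty)
    (c : A.ι × ZMod N → A.ι × ZMod N → ℚ)
    (hc : ∀ p q r, (UN p ∩ UN q ∩ UN r).Nonempty → c p r = c p q + c q r) :
    ∃ r : ℚ, ∃ b : A.ι × ZMod N → ℚ, ∀ p q, (UN p ∩ UN q).Nonempty →
      c p q = r * nI Z p.1 q.1 + (b p - b q) := by
  obtain ⟨r, b, hb⟩ := rank_one_rat (N := N) (meet A) (meet3 A) (nI Z)
    (fun i j l h => nI_add Z hpc h)
    (fun t ht ht1 γ hγ => by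
      have hn : ‖t‖ = 1 := by
        have h1 : ‖t‖ ^ N = 1 := by rw [← norm_pow, ht, norm_one]
        exact (pow_eq_one_iff_of_nonneg (norm_nonneg t) (NeZero.ne N)).1 h1
      refine eigen_trivial P Z hpc hn (H t ht ht1) (H _ ?_ ?_) γ hγ
      · rw [← map_pow, ht, map_one]
      · intro h
        apply ht1
        have := congrArg conj h
        simpa using this) H1 c
    (fun i j l h k => hc _ _ _ (m3 i j l h k))
  refine ⟨r, b, ?_⟩
  rintro ⟨i, k⟩ ⟨j, l⟩ h
  obtain ⟨h1, rfl⟩ := m2 i j k l h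
  exact hb i j h1 k

end

end Crest.Agent.R275.Fl161
end

-- ▼ part R275/FlX_161
section

/-!
# R275, leaf R4 (helper161): the first cohomology of the nerve of `X` is generated by `n_ij`

`u : C(X, Circ)` the circle map of helper352, `YC u` the infinite cyclic cover, `Z : ZD A` with
`(Z.f i x : Circ) = u x` on the chart domains (real lifts of `u`).

* `coc_eq`      : every 1-cocycle of the nerve with values in a real vector space is
                  `n_ij • v + b_i - b_j`;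
* `coc_rat`     : the same over `ℚ` (hypothesis `H1` of `cyclic_rank_one`);
* `not_cob_nI`  : `n_ij` is not a coboundary.
-/

set_option autoImplicit false
set_option linter.unusedSectionVars false

open Set Filter Topology

namespace Crest.Agent.R275.Fl161

open Geo Lt893 ZC352

noncomputable section

variable {n : ℕ} {X : Type} [TopologicalSpace X] {A : Atl n X} {u : C(X, Circ)} {Z : ZD A}

/-- `Z` lifts `u` -/
def Lifts (Z : ZD A) (u : C(X, Circ)) : Prop :=
  ∀ i, ∀ x ∈ (A.e i).source, ((Z.f i x : ℝ) : Circ) = u x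

/-- the level of a point over the chart `i` -/
def lev (Z : ZD A) (u : C(X, Circ)) (i : A.ι) (y : YC u) : ℤ :=
  round (YC.ht u y - Z.f i (YC.pr u y))

theorem lev_eq (hZ : Lifts Z u) {i : A.ι} {y : YC u} (hy : YC.pr u y ∈ (A.e i).source) :
    ((lev Z u i y : ℤ) : ℝ) = YC.ht u y - Z.f i (YC.pr u y) := by
  have h1 : ((YC.ht u y : ℝ) : Circ) = ((Z.f i (YC.pr u y) : ℝ) : Circ) := by
    rw [hZ i _ hy, YC.eq u y]
  obtain ⟨m, hm⟩ := coe_eq_coe_iff.1 h1
  have h2 : YC.ht u y - Z.f i (YC.pr u y) = (m : ℝ) := by rw [hm]; ring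
  rw [lev, h2, round_intCast]

theorem lev_dk (i : A.ι) (y : YC u) : lev Z u i (YC.dk u y) = lev Z u i y - 1 := by
  rw [lev, lev, YC.ht_dk, YC.pr_dk]
  have : YC.ht u y - 1 - Z.f i (YC.pr u y) = (YC.ht u y - Z.f i (YC.pr u y)) - 1 := by ring
  rw [this, round_sub_one]

theorem lev_loc (hZ : Lifts Z u) {i : A.ι} {y : YC u} (hy : YC.pr u y ∈ (A.e i).source) :
    ∀ᶠ y' in 𝓝 y, lev Z u i y' = lev Z u i y := by
  have hpr : ContinuousAt (YC.pr u) y := (YC.continuous_pr u).continuousAt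
  have hf : ContinuousAt (fun y => Z.f i (YC.pr u y)) y :=
    ContinuousAt.comp (g := Z.f i)
      ((ZD.cont (Z := Z) i).continuousAt ((A.e i).open_source.mem_nhds hy)) hpr
  have hc : ContinuousAt (fun y => YC.ht u y - Z.f i (YC.pr u y)) y :=
    (YC.continuous_ht u).continuousAt.sub hf
  have h1 : ∀ᶠ y' in 𝓝 y, dist (YC.ht u y' - Z.f i (YC.pr u y'))
      (YC.ht u y - Z.f i (YC.pr u y)) < 1 := (Metric.tendsto_nhds.1 hc) 1 one_pos
  have h2 : ∀ᶠ y' in 𝓝 y, YC.pr u y' ∈ (A.e i).source :=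
    hpr.eventually ((A.e i).open_source.mem_nhds hy)
  filter_upwards [h1, h2] with y' h3 h4
  rw [← lev_eq hZ h4, ← lev_eq hZ hy, Real.dist_eq] at h3
  have h5 : |lev Z u i y' - lev Z u i y| < 1 := by exact_mod_cast h3
  have := Int.abs_lt_one_iff.1 h5
  omega

theorem lev_sub (hZ : Lifts Z u) {i j : A.ι} {y : YC u}
    (hy : YC.pr u y ∈ (A.e i).source ∩ (A.e j).source) :
    lev Z u j y - lev Z u i y = Z.nn i j (YC.pr u y) := by
  have h1 := lev_eq hZ hy.1
  have h2 := lev_eq hZ hy.2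
  have h3 := ZD.nn_eq (Z := Z) hy
  have : ((lev Z u j y - lev Z u i y : ℤ) : ℝ) = (Z.nn i j (YC.pr u y) : ℤ) := by
    push_cast
    rw [h1, h2, h3]
    ring
  exact_mod_cast this

variable {V : Type} [AddCommGroup V] [Module ℝ V]

/-- **`H¹` of the nerve is generated by `n_ij`** -/
theorem coc_eq (hZ : Lifts Z u)
    (hpc : ∀ i j, IsPreconnected ((A.e i).source ∩ (A.e j).source))
    (hU : ∀ Q : LPS X V, ∃ (v : V) (F : YC u → V),
      (Q.pull (YC.prC u)).IsPrim F ∧ ∀ y, F (YC.dk u y) = F y - v)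
    (γ : A.ι → A.ι → V) (hγ : ∀ i j l, meet3 A i j l → γ i l = γ i j + γ j l) :
    ∃ v : V, ∃ b : A.ι → V, ∀ i j, meet A i j → γ i j = nI Z i j • v + (b i - b j) := by
  classical
  choose k hk using A.cover
  -- the local primitive system
  set h : A.ι → X → V := fun i x => γ i (k x) with hh
  have hdiff : ∀ i j, ∀ x ∈ (A.e i).source ∩ (A.e j).source, h i x - h j x = γ i j := by
    intro i j x hx
    have h1 := hγ i j (k x) ⟨x, hx, hk x⟩
    simp only [hh, h1]
    abel
  let Q : LPS X V :=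
    { ι := A.ι
      U := fun i => (A.e i).source
      isOpen := fun i => (A.e i).open_source
      cover := A.cover
      h := h
      loc := by
        intro i j z hi hj
        filter_upwards [((A.e i).open_source.inter (A.e j).open_source).mem_nhds ⟨hi, hj⟩] with w hw
        rw [hdiff i j w hw, hdiff i j z ⟨hi, hj⟩] }
  obtain ⟨v, F, hF, hFv⟩ := hU Q
  -- the invariant functions
  set B : A.ι → YC u → V := fun i y => h i (YC.pr u y) - F y + lev Z u i y • v with hB
  have hBdk : ∀ i y, B i (YC.dk u y) = B i y := by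
    intro i y
    simp only [hB, YC.pr_dk, hFv, lev_dk, sub_smul, one_smul]
    abel
  have hBit : ∀ i (m : ℕ) y, B i ((YC.dk u)^[m] y) = B i y := by
    intro i m
    induction m with
    | zero => intro y; rfl
    | succ m ih => intro y; rw [Function.iterate_succ_apply', hBdk, ih]
  have hBfib : ∀ i y y', YC.pr u y = YC.pr u y' → B i y = B i y' := by
    intro i y y' hyy
    obtain ⟨m, hm | hm⟩ := YC.fibre u hyy
    · rw [← hm, hBit]
    · rw [← hm, hBit]
  have hBloc : ∀ i y, YC.pr u y ∈ (A.e i).source → ∀ᶠ y' in 𝓝 y, B i y' = B i y := by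
    intro i y hy
    have h1 : ∀ᶠ w in 𝓝 y, F w - F y = h i (YC.pr u w) - h i (YC.pr u y) := hF i y hy
    filter_upwards [h1, lev_loc hZ hy] with w hw hw2
    simp only [hB, hw2]
    have : h i (YC.pr u w) - F w = h i (YC.pr u y) - F y := by
      rw [sub_eq_sub_iff_sub_eq_sub, ← hw]
    rw [this]
  choose s hs using YC.pr_surjective u
  -- descend
  have hbloc : ∀ i, ∀ x ∈ (A.e i).source, ∀ᶠ x' in 𝓝 x, B i (s x') = B i (s x) := by
    intro i x hx
    have h1 := hBloc i (s x) (by rw [hs x]; exact hx)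
    have h2 := (YC.lochomeo u).isOpenMap.image_mem_nhds h1
    rw [hs x] at h2
    filter_upwards [h2] with x' hx'
    obtain ⟨y', hy', hy2⟩ := hx'
    rw [hBfib i (s x') y' (by rw [hs, hy2])]
    exact hy'
  refine ⟨v, fun i => if h : ((A.e i).source).Nonempty then B i (s h.some) else 0,
    fun i j hm => ?_⟩
  obtain ⟨x, hx⟩ := hm
  have key : ∀ l, x ∈ (A.e l).source →
      (if h : ((A.e l).source).Nonempty then B l (s h.some) else 0) = B l (s x) := by
    intro l hl
    have h1 : ((A.e l).source).Nonempty := ⟨x, hl⟩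
    rw [dif_pos h1]
    have h2 : IsPreconnected (A.e l).source := by simpa using hpc l l
    exact eq_of_preconnected h2 (f := fun x => B l (s x)) (hbloc l) h1.some_mem hl
  beta_reduce
  rw [key i hx.1, key j hx.2, ← hdiff i j x hx]
  have h3 := lev_sub (u := u) hZ (i := i) (j := j) (y := s x) (by rw [hs x]; exact hx)
  rw [hs x, nI_eq Z hpc hx] at h3
  rw [← h3]
  simp only [hB, hs x, sub_smul]
  abel

/-- rational version: hypothesis `H1` of `cyclic_rank_one` -/
theorem coc_rat (hZ : Lifts Z u)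
    (hpc : ∀ i j, IsPreconnected ((A.e i).source ∩ (A.e j).source))
    (hU : ∀ Q : LPS X ℝ, ∃ (v : ℝ) (F : YC u → ℝ),
      (Q.pull (YC.prC u)).IsPrim F ∧ ∀ y, F (YC.dk u y) = F y - v)
    (γ : A.ι → A.ι → ℚ) (hγ : ∀ i j l, meet3 A i j l → γ i l = γ i j + γ j l) :
    ∃ r : ℚ, ∃ b : A.ι → ℚ, ∀ i j, meet A i j → γ i j = r * nI Z i j + (b i - b j) := by
  obtain ⟨v, b, hb⟩ := coc_eq hZ hpc hU (fun i j => (γ i j : ℝ)) (fun i j l h => by
    rw [hγ i j l h]; push_cast; ring)
  have hinj : LinearMap.ker (Algebra.linearMap ℚ ℝ) = ⊥ :=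
    LinearMap.ker_eq_bot.2 (algebraMap ℚ ℝ).injective
  obtain ⟨p, hp⟩ := (Algebra.linearMap ℚ ℝ).exists_leftInverse_of_injective hinj
  have hp' : ∀ q : ℚ, p (q : ℝ) = q := fun q => by
    have := congrArg (fun f : ℚ →ₗ[ℚ] ℚ => f q) hp
    simpa using this
  refine ⟨p v, fun i => p (b i), fun i j h => ?_⟩
  have h1 := congrArg p (hb i j h)
  beta_reduce at h1
  rw [hp', map_add, map_sub, map_zsmul, zsmul_eq_mul] at h1
  rw [h1, mul_comm]

/-- `n_ij` is not a coboundary -/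
theorem not_cob_nI [ConnectedSpace (YC u)] (hZ : Lifts Z u)
    (hpc : ∀ i j, IsPreconnected ((A.e i).source ∩ (A.e j).source)) :
    ¬ ∃ b : A.ι → ℚ, ∀ i j, meet A i j → (nI Z i j : ℚ) = b i - b j := by
  classical
  rintro ⟨b, hb⟩
  choose k hk using A.cover
  set D : YC u → ℚ := fun y => lev Z u (k (YC.pr u y)) y + b (k (YC.pr u y)) with hD
  have h1 : ∀ i (y : YC u), YC.pr u y ∈ (A.e i).source → D y = lev Z u i y + b i := by
    intro i y hy
    have h2 := lev_sub (u := u) hZ (i := i) (j := k (YC.pr u y)) (y := y) ⟨hy, hk _⟩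
    rw [nI_eq Z hpc ⟨hy, hk _⟩] at h2
    have h3 := hb i (k (YC.pr u y)) ⟨_, hy, hk _⟩
    rw [← h2] at h3
    push_cast at h3
    simp only [hD]
    linarith
  have h2 : ∀ y ∈ (univ : Set (YC u)), ∀ᶠ y' in 𝓝 y, D y' = D y := by
    intro y _
    have hy := hk (YC.pr u y)
    have h3 : ∀ᶠ y' in 𝓝 y, YC.pr u y' ∈ (A.e (k (YC.pr u y))).source :=
      (YC.continuous_pr u).continuousAt.eventually ((A.e _).open_source.mem_nhds hy)
    filter_upwards [h3, lev_loc hZ hy] with y' h4 h5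
    rw [h1 _ y' h4, h1 _ y hy, h5]
  obtain ⟨y⟩ := (inferInstance : Nonempty (YC u))
  have h3 : D (YC.dk u y) = D y :=
    eq_of_preconnected (M := YC u) isPreconnected_univ (f := D) h2 (mem_univ _) (mem_univ _)
  rw [h1 (k (YC.pr u y)) (YC.dk u y) (by rw [YC.pr_dk]; exact hk _), h1 _ y (hk _), lev_dk] at h3
  push_cast at h3
  linarith

end

end Crest.Agent.R275.Fl161
end

-- ▼ part R275/FlXN_161
section

/-!
# R275, leaf R4 (helper161): `b₁(X_N) = 1` on the nerve of the lifted atlas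

`C : KCov A X_N (ZMod N)` (helper194), compatible with `Z : ZD A`:
`C.act (n_ij) (C.s j x) = C.s i x`.  Cochain conventions of helper865 (`Cv.Coc1`, `Cv.Cob1`).

* `rankOne_base` : the nerve of `A` itself;
* `rankOne_lift` : the nerve of `C.lift`.
-/

set_option autoImplicit false
set_option linter.unusedSectionVars false

open Set Filter Topology

namespace Crest.Agent.R275.Fl161

open Geo Lt893 ZC352 XN194

noncomputable section

section defs

variable {V M : Type*}

/-- Čech 1-cocycles (helper865's convention) -/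
def Coc1 (U : V → Set M) (c : V → V → ℚ) : Prop :=
  ∀ i j l, (U i ∩ U j ∩ U l).Nonempty → c j l - c i l + c i j = 0

/-- Čech 1-coboundaries -/
def Cob1 (U : V → Set M) (c : V → V → ℚ) : Prop :=
  ∃ b : V → ℚ, ∀ i j, (U i ∩ U j).Nonempty → c i j = b j - b i

/-- `H¹` of the nerve has dimension one, generated by `c₀` -/
def Gen1 (U : V → Set M) (c₀ : V → V → ℚ) : Prop :=
  Coc1 U c₀ ∧ ¬ Cob1 U c₀ ∧ ∀ c, Coc1 U c → ∃ r : ℚ, Cob1 U (fun i j => c i j - r * c₀ i j)

end defs

variable {n : ℕ} {X : Type} [TopologicalSpace X] {A : Atl n X} {u : C(X, Circ)} {Z : ZD A}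

/-- the nerve of `X` -/
theorem rankOne_base [ConnectedSpace (YC u)] (hZ : Lifts Z u)
    (hpc : ∀ i j, IsPreconnected ((A.e i).source ∩ (A.e j).source))
    (hU : ∀ Q : LPS X ℝ, ∃ (v : ℝ) (F : YC u → ℝ),
      (Q.pull (YC.prC u)).IsPrim F ∧ ∀ y, F (YC.dk u y) = F y - v) :
    Gen1 (fun i => (A.e i).source) (fun i j => (nI Z i j : ℚ)) := by
  refine ⟨fun i j l h => ?_, fun ⟨b, hb⟩ => ?_, fun c hc => ?_⟩
  · have h1 := nI_add Z hpc (i := i) (j := j) (k := l) h
    beta_reduce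
    rw [h1]; push_cast; ring
  · refine not_cob_nI hZ hpc ⟨fun i => -b i, fun i j h => ?_⟩
    have h1 := hb i j h
    beta_reduce at h1 ⊢
    rw [h1]; ring
  · obtain ⟨r, b, hb⟩ := coc_rat hZ hpc hU c (fun i j l h => by
      have := hc i j l h
      linarith)
    refine ⟨r, fun i => -b i, fun i j h => ?_⟩
    beta_reduce
    rw [hb i j h]; ring

/-- **the nerve of the cyclic covering `X_N`** -/
theorem rankOne_lift [CompactSpace X] [ConnectedSpace X] [ConnectedSpace (YC u)] (P : Part A)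
    (hZ : Lifts Z u) (hpc : ∀ i j, IsPreconnected ((A.e i).source ∩ (A.e j).source))
    (hU : ∀ Q : LPS X ℝ, ∃ (v : ℝ) (F : YC u → ℝ),
      (Q.pull (YC.prC u)).IsPrim F ∧ ∀ y, F (YC.dk u y) = F y - v)
    {N : ℕ} [NeZero N] (H : ∀ t : ℂ, t ^ N = 1 → t ≠ 1 → H1Zero A (Lc Z t))
    {XN : Type} [TopologicalSpace XN] (C : KCov A XN (ZMod N))
    (hC : ∀ i j, ∀ x ∈ (A.e i).source ∩ (A.e j).source,
      C.act ((Z.nn i j x : ℤ) : ZMod N) (C.s j x) = C.s i x) :
    Gen1 (fun q => (C.lift.e q).source) (fun p q : C.lift.ι => (nI Z p.1 q.1 : ℚ)) := by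
  have m2 : ∀ i j (k l : ZMod N), ((C.lift.e (i, k)).source ∩ (C.lift.e (j, l)).source).Nonempty →
      meet A i j ∧ l = k + nI Z i j := by
    rintro i j k l ⟨z, ⟨h1, h2⟩, ⟨h3, h4⟩⟩
    refine ⟨⟨C.p z, h1, h3⟩, ?_⟩
    have h5 := hC i j (C.p z) ⟨h1, h3⟩
    rw [nI_eq Z hpc ⟨h1, h3⟩] at h5
    have h6 : C.act l (C.s j (C.p z)) = C.act (k + nI Z i j) (C.s j (C.p z)) := by
      rw [C.act_add, h5]; exact h4.trans h2.symm
    exact C.act_inj h6
  have m3 : ∀ i j l, meet3 A i j l → ∀ k : ZMod N,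
      ((C.lift.e (i, k)).source ∩ (C.lift.e (j, k + nI Z i j)).source ∩
        (C.lift.e (l, k + nI Z i l)).source).Nonempty := by
    rintro i j l ⟨x, ⟨hi, hj⟩, hl⟩ k
    refine ⟨C.act k (C.s i x), ⟨C.act_s_mem hi k, ?_⟩, ?_⟩
    · have h5 := hC i j x ⟨hi, hj⟩
      rw [nI_eq Z hpc ⟨hi, hj⟩] at h5
      rw [← h5, ← C.act_add]
      exact C.act_s_mem hj _
    · have h5 := hC i l x ⟨hi, hl⟩
      rw [nI_eq Z hpc ⟨hi, hl⟩] at h5
      rw [← h5, ← C.act_add]
      exact C.act_s_mem hl _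
  refine ⟨?_, fun ⟨b, hb⟩ => ?_, fun c hc => ?_⟩
  · rintro ⟨i, k⟩ ⟨j, l⟩ ⟨m, p⟩ ⟨z, ⟨h1, h2⟩, h3⟩
    have h4 := nI_add Z hpc (i := i) (j := j) (k := m) ⟨C.p z, ⟨h1.1, h2.1⟩, h3.1⟩
    simp only [h4]; push_cast; ring
  · refine not_cob (N := N) (meet A) (nI Z) (not_cob_nI hZ hpc) ⟨fun q => -b q,
      fun i j h k => ?_⟩
    obtain ⟨x, hx⟩ := h
    have h2 : ((C.lift.e (i, k)).source ∩ (C.lift.e (j, k + nI Z i j)).source).Nonempty := by
      refine ⟨C.act k (C.s i x), C.act_s_mem hx.1 k, ?_⟩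
      have h5 := hC i j x hx
      rw [nI_eq Z hpc hx] at h5
      rw [← h5, ← C.act_add]
      exact C.act_s_mem hx.2 _
    have h3 := hb (i, k) (j, k + nI Z i j) h2
    simp only at h3
    rw [h3]; ring
  · obtain ⟨r, b, hb⟩ := cyclic_rank_one P Z hpc H (coc_rat hZ hpc hU)
      (fun q : A.ι × ZMod N => (C.lift.e q).source) m2 m3 c (fun p q r h => by
        have := hc p q r h
        linarith)
    refine ⟨r, fun q => -b q, fun p q h => ?_⟩
    beta_reduce
    rw [hb p q h]; ring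

end

end Crest.Agent.R275.Fl161
end

-- ▼ part R275/FlXC_161

/-!
# R275, leaf R4 (helper161): `b₁(X_N) = 1` for helper194's concrete coverings `XC N u`

* `Gen1.reindex`, `KCov.neg`;
* `lifts_of` : helper194's `XN194.Lifts A u` from helper893's `Z.Lift u`;
* `gen1_base`  : the nerve of `A` (helper893's `Z.Lift`);
* `gen1_xcov`  : the nerve of `(xcov N u L).lift`.
-/

set_option autoImplicit false
set_option linter.unusedSectionVars false

open Set Filter Topology

namespace Crest.Agent.R275.Fl161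

open Geo Lt893 ZC352 XN194 Fm96

noncomputable section

theorem Gen1.reindex {V V' M : Type*} {U : V → Set M} {c₀ : V → V → ℚ} (h : Gen1 U c₀)
    (e : V' ≃ V) : Gen1 (fun v => U (e v)) (fun v w => c₀ (e v) (e w)) := by
  refine ⟨fun i j l hn => h.1 (e i) (e j) (e l) hn, fun ⟨b, hb⟩ => h.2.1 ?_, fun c hc => ?_⟩
  · refine ⟨fun v => b (e.symm v), fun i j hn => ?_⟩
    have := hb (e.symm i) (e.symm j) (by simpa using hn)
    simpa using this
  · obtain ⟨r, b, hb⟩ := h.2.2 (fun v w => c (e.symm v) (e.symm w)) (fun i j l hn =>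
      hc (e.symm i) (e.symm j) (e.symm l) (by simpa using hn))
    refine ⟨r, fun v => b (e v), fun i j hn => ?_⟩
    have := hb (e i) (e j) hn
    simpa using this

variable {n : ℕ} {X : Type} [TopologicalSpace X] {A : Atl n X}

/-- the same covering with the inverse action -/
@[reducible] def negCov {XN K : Type} [TopologicalSpace XN] [AddCommGroup K] (C : KCov A XN K) :
    KCov A XN K where
  p := C.p
  cont := C.cont
  act k := C.act (-k)
  act_cont k := C.act_cont (-k)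
  act_zero z := by rw [neg_zero]; exact C.act_zero z
  act_add k l z := by rw [neg_add]; exact C.act_add _ _ z
  p_act k z := C.p_act _ z
  s := C.s
  p_s := C.p_s
  s_cont := C.s_cont
  s_open := C.s_open
  trans i z hz := by
    obtain ⟨k, hk⟩ := C.trans i z hz
    exact ⟨-k, by rw [neg_neg]; exact hk⟩
  free k z h := neg_eq_zero.1 (C.free _ _ h)

/-- `rankOne_lift` with the opposite sign convention -/
theorem rankOne_lift' {u : C(X, Circ)} {Z : ZD A} [CompactSpace X] [ConnectedSpace X]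
    [ConnectedSpace (YC u)] (P : Part A) (hZ : Lifts Z u)
    (hpc : ∀ i j, IsPreconnected ((A.e i).source ∩ (A.e j).source))
    (hU : ∀ Q : LPS X ℝ, ∃ (v : ℝ) (F : YC u → ℝ),
      (Q.pull (YC.prC u)).IsPrim F ∧ ∀ y, F (YC.dk u y) = F y - v)
    {N : ℕ} [NeZero N] (H : ∀ t : ℂ, t ^ N = 1 → t ≠ 1 → H1Zero A (Lc Z t))
    {XN : Type} [TopologicalSpace XN] (C : KCov A XN (ZMod N))
    (hC : ∀ i j, ∀ x ∈ (A.e i).source ∩ (A.e j).source,
      C.act (-((Z.nn i j x : ℤ) : ZMod N)) (C.s j x) = C.s i x) :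
    Gen1 (fun q => (C.lift.e q).source) (fun p q : C.lift.ι => (nI Z p.1 q.1 : ℚ)) := by
  have h := rankOne_lift P hZ hpc hU H (negCov C) hC
  have h2 := h.reindex ((Equiv.refl A.ι).prodCongr (Equiv.neg (ZMod N)))
  have h3 : ∀ q : A.ι × ZMod N, ((negCov C).lift.e
      (((Equiv.refl A.ι).prodCongr (Equiv.neg (ZMod N))) q)).source = (C.lift.e q).source := by
    rintro ⟨i, k⟩
    show {z | C.p z ∈ (A.e i).source ∧ C.act (-(-k)) (C.s i (C.p z)) = z} = C.sheet i k
    rw [neg_neg]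
    rfl
  have h4 : (fun q : A.ι × ZMod N => ((negCov C).lift.e
      (((Equiv.refl A.ι).prodCongr (Equiv.neg (ZMod N))) q)).source) =
      fun q => (C.lift.e q).source := funext h3
  have h5 := h4 ▸ h2
  exact h5

/-- helper194's lifts from helper893's `ZD` -/
def liftsOf {u : C(X, Circ)} {Z : ZD A} (hZ : Z.Lift u) : XN194.Lifts A (u : X → Circ) where
  f := Z.f
  cont i := by
    have h1 : ContinuousOn (fun x => Z.f i ((A.e i).symm (A.e i x))) (A.e i).source :=
      (Z.sm i).continuousOn.comp (A.e i).continuousOn (fun x hx => (A.e i).map_source hx)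
    refine h1.congr fun x hx => ?_
    beta_reduce
    rw [(A.e i).left_inv hx]
  mod := hZ

/-- the compatibility of helper194's sections with the integers `n_ij` -/
theorem xcov_compat {u : C(X, Circ)} {Z : ZD A} (hZ : Z.Lift u) (N : ℕ) [NeZero N] (i j : A.ι)
    (x : X) (hx : x ∈ (A.e i).source ∩ (A.e j).source) :
    (xcov N u (liftsOf hZ)).act (-((Z.nn i j x : ℤ) : ZMod N)) ((xcov N u (liftsOf hZ)).s j x)
      = (xcov N u (liftsOf hZ)).s i x := by
  have hN : (N : ℝ) ≠ 0 := Nat.cast_ne_zero.2 (NeZero.ne N)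
  refine FP.ext ?_ ?_
  · show (fpSec (tgN N) u (Z.f j) x).fst = (fpSec (tgN N) u (Z.f i) x).fst
    rw [fpSec_fst, fpSec_fst]
  · show (fpSec (tgN N) u (Z.f j) x).snd + -ZMod.toAddCircle (-((Z.nn i j x : ℤ) : ZMod N))
      = (fpSec (tgN N) u (Z.f i) x).snd
    rw [fpSec_snd (tgN N) (hZ j x hx.2), fpSec_snd (tgN N) (hZ i x hx.1), map_neg, neg_neg,
      ZMod.toAddCircle_intCast]
    show ((Z.f j x / N : ℝ) : Circ) + ((Z.nn i j x : ℤ) / N : ℝ) = ((Z.f i x / N : ℝ) : Circ)
    rw [← AddCircle.coe_add, ZD.nn_eq hx]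
    congr 1
    ring

/-- the nerve of `X` -/
theorem gen1_base {u : C(X, Circ)} {Z : ZD A} [ConnectedSpace (YC u)] (hZ : Z.Lift u)
    (hpc : ∀ i j, IsPreconnected ((A.e i).source ∩ (A.e j).source))
    (hU : ∀ Q : LPS X ℝ, ∃ (v : ℝ) (F : YC u → ℝ),
      (Q.pull (YC.prC u)).IsPrim F ∧ ∀ y, F (YC.dk u y) = F y - v) :
    Gen1 (fun i => (A.e i).source) (fun i j => (nI Z i j : ℚ)) :=
  rankOne_base hZ hpc hU

/-- **`b₁(X_N) = 1`**, `X_N = XC N u` -/
theorem gen1_xcov {u : C(X, Circ)} {Z : ZD A} [CompactSpace X] [ConnectedSpace X]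
    [ConnectedSpace (YC u)] (P : Part A) (hZ : Z.Lift u)
    (hpc : ∀ i j, IsPreconnected ((A.e i).source ∩ (A.e j).source))
    (hU : ∀ Q : LPS X ℝ, ∃ (v : ℝ) (F : YC u → ℝ),
      (Q.pull (YC.prC u)).IsPrim F ∧ ∀ y, F (YC.dk u y) = F y - v)
    (N : ℕ) [NeZero N] (H : ∀ t : ℂ, t ^ N = 1 → t ≠ 1 → H1Zero A (Lc Z t)) :
    Gen1 (fun q => ((xcov N u (liftsOf hZ)).lift.e q).source)
      (fun p q : (xcov N u (liftsOf hZ)).lift.ι => (nI Z p.1 q.1 : ℚ)) :=
  rankOne_lift' P hZ hpc hU H (xcov N u (liftsOf hZ)) (xcov_compat hZ N)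

/-- **`b₁(X_N) = 1`** for surfaces, from `H¹(X, L_t) = 0` (`t ≠ 1`, `t ^ N = 1`) in the raw form of
helper96 (`ltc Z t` of helper893) -/
theorem gen1_xcov_raw {A : Atl 2 X} {u : C(X, Circ)} {Z : ZD A} [CompactSpace X] [ConnectedSpace X]
    [ConnectedSpace (YC u)] (P : Part A) (hZ : Z.Lift u)
    (hpc : ∀ i j, IsPreconnected ((A.e i).source ∩ (A.e j).source))
    (hU : ∀ Q : LPS X ℝ, ∃ (v : ℝ) (F : YC u → ℝ),
      (Q.pull (YC.prC u)).IsPrim F ∧ ∀ y, F (YC.dk u y) = F y - v)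
    (N : ℕ) [NeZero N]
    (H : ∀ t : ℂ, t ^ N = 1 → t ≠ 1 → ∀ a : A.ι → X → Fin 2 → ℂ,
      IsZ1 A (ltc Z t) univ a → d1 A a = 0 →
        ∃ w : A.ι → X → ℂ, IsZ0 A (ltc Z t) univ w ∧ d0 A w = a) :
    Gen1 (fun q => ((xcov N u (liftsOf hZ)).lift.e q).source)
      (fun p q : (xcov N u (liftsOf hZ)).lift.ι => (nI Z p.1 q.1 : ℚ)) :=
  gen1_xcov P hZ hpc hU N fun t h1 h2 => h1Zero_of_fm (H t h1 h2)

end

end Crest.Agent.R275.Fl161
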