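import Crest.Agent.R275.CntG_508
import Crest.Agent.R275.ChiM_825
import Crest.Agent.R275.QSub_825
import Crest.Agent.R275.BR4_672
import Crest.Agent.R275.ODiv_686
import Crest.Agent.R275.Dv5_69
import Crest.Agent.R275.Loc2E_879

-- ▼ part R275/CntH_508
section

/-!
# R275, block Q5 (helper508): `χ(O_P) ≤ 1` for a prime divisor on a compact surface

This is the hypothesis `hat` of helper825's `QAbs825.canonical_nonneg`.
-/

set_option autoImplicit false
set_option linter.unusedSectionVars false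

open Set Filter Topology Complex
open scoped ContDiff ComplexConjugate Manifold

namespace Crest.Agent.R275.Cnt508

open Crest.AlgGeometry.Surface Geo Fm96 Dv69 Core144 EffDiv Q74

noncomputable section

variable {M : Type} [TopologicalSpace M] {A : Atl 2 M} {i j : A.ι} {x : M}
variable {g g' gL gF gE : A.ι → A.ι → M → ℂ} {s w w' : A.ι → M → ℂ}

variable [ChartedSpace C2 M] [IsManifold 𝓘(ℂ, C2) 1 M]

/-- `χ(O_P) = 1 - h¹(O_P)` for a prime divisor `P` -/
theorem chiS_eq [T2Space M] [CompactSpace M] (hA : Adm A) (Pt : Part A) (hgL : IsLC A gL)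
    (hs : IsNZ A gL univ s) (hP : Mon.IsPr (divOf (isSec_of hA hgL hs)))
    (h1 : IsLC A 1) (hfin : FinS s gL⁻¹ h1) :
    chiS s gL⁻¹ h1 = 1 - Module.finrank ℂ (H1 (D0 h1) (D1 h1) (SA1 s gL⁻¹ 1) (SA2 s gL⁻¹ 1)) := by
  have e0 := finrank_H0 hA hgL hs hP h1 (gF := gL⁻¹) (fun i j x hx => rfl) hfin.1
  have e2 := finrank_H2 (gF := gL⁻¹) Pt hgL hgL.inv h1 (fun i j x hx => by
    have := hgL.ne i j x hx
    simp only [Pi.mul_apply, Pi.inv_apply, Pi.one_apply]
    field_simp) hs
  unfold chiS chiQ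
  omega

/-- `χ(O_P) ≤ 1` for a prime divisor `P` -/
theorem chiS_le_one [T2Space M] [CompactSpace M] (hA : Adm A) (Pt : Part A) (hgL : IsLC A gL)
    (hs : IsNZ A gL univ s) (hP : Mon.IsPr (divOf (isSec_of hA hgL hs)))
    (h1 : IsLC A 1) (hfin : FinS s gL⁻¹ h1) : chiS s gL⁻¹ h1 ≤ 1 := by
  rw [chiS_eq hA Pt hgL hs hP h1 hfin]
  omega

end

end Crest.Agent.R275.Cnt508
end

-- ▼ part R275/QX_825

/-!
R275 (S0418), block Q (helper825), leaves Q5, Q6: on a compact minimal surface with the analytic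
inputs `CMData`,
* `K_prime_nonneg` : `K · P ≥ 0` for prime divisors `P`;
* `K_nonneg`       : `K · L ≥ 0` for every bundle with a nonzero section;
* `nosec`          : `K ⊗ L` has no section for numerically trivial `L`.
-/

set_option autoImplicit false
set_option linter.unusedSectionVars false

open Set Filter Topology Complex
open scoped ContDiff Manifold

noncomputable section

namespace Crest.Agent.R275.QX825

open Crest.AlgGeometry.Surface Geo Fm96 Q74 Cnt508 Smf798 KR798 SB798 GC293 Core144 ChiM825 QSub825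
open Dv69 BR4672

/-! ### sections of holomorphic line bundles and the divisor layer -/

section Sec

variable {M : Type} [TopologicalSpace M] [ChartedSpace C2 M] [IsManifold 𝓘(ℂ, C2) 1 M]
  {A : Atl 2 M} {L L' : LB A} {s t : A.ι → M → ℂ}

theorem isNZ_of_nz (hs : IsHS L univ s) (h : NZ A s) : IsNZ A L.g univ s where
  z0 := isZ0_of_isHS hs
  nz i := ⟨fun _ hx _ => holP_of_holAt (hs.hol i) isOpen_univ hx trivial, fun x hx _ => h i x hx⟩

theorem dv_eq_divOf (hA : Adm A) (hs : IsHS L univ s) (h : NZ A s) :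
    dv A s = EffDiv.divOf (isSec_of hA (isLC L) (isNZ_of_nz hs h)) := by
  refine dv_eq_of_leq hA hs h fun i p hp => ?_
  exact EffDiv.divOf_leq _ hp

/-- `L` and `L'` have sections with the same divisor: isomorphic -/
theorem iso_of_dv_eq (hA : Adm A) (hs : IsHS L univ s) (ht : IsHS L' univ t) (h : NZ A s)
    (h' : NZ A t) (e : dv A s = dv A t) : SLB.Iso (slb L) (slb L') := by
  obtain ⟨k, hk, hk0, -⟩ := (dv_eq_iff hA hs ht h h').1 e
  refine SLB.Iso.symm ⟨k, fun i => ?_, fun i x hx => hk0 i x hx, fun i j x hx => ?_⟩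
  · exact (GC293.smOn_iff_chart i Subset.rfl).2 fun x hx =>
      ((isZ0_of_isHS hk).sm i x hx trivial).self
  · have h1 : k i x = L'.g i j x * (L.g i j x)⁻¹ * k j x := hk.tr i j x hx trivial
    have h2 : L.g i j x ≠ 0 := L.ne_zero i j x
    change k i x * L.g i j x = L'.g i j x * k j x
    rw [h1]
    field_simp

end Sec

/-! ### the numerical facts -/

section Num

variable {M : Type} [TopologicalSpace M] [CompactSpace M] {A : Atl 2 M} {P : Part A}
  {I : KIndex (smf A)} {e : ℤ}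

variable (P I) in
/-- the intersection form on holomorphic line bundles -/
def bb (L L' : LB A) : ℤ := bL P I (slb L) (slb L')

theorem bb_comm (L L' : LB A) : bb P I L L' = bb P I L' L := bL_comm _ _

theorem bb_mul_left (L K N : LB A) : bb P I (L * K) N = bb P I L N + bb P I K N := by
  unfold bb
  rw [slb_mul]
  exact bL_tmul_left _ _ _

theorem bb_mul_right (L K N : LB A) : bb P I N (L * K) = bb P I N L + bb P I N K := by
  rw [bb_comm, bb_mul_left, bb_comm L, bb_comm K]

theorem bb_one_right (N : LB A) : bb P I N 1 = 0 := by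
  rw [bb_comm]
  unfold bb
  rw [slb_one]
  exact bL_triv _

theorem bb_inv_left (L N : LB A) : bb P I L⁻¹ N = - bb P I L N := by
  unfold bb
  rw [slb_inv]
  exact bL_dual_left _ _

theorem bb_inv_right (L N : LB A) : bb P I N L⁻¹ = - bb P I N L := by
  rw [bb_comm, bb_inv_left, bb_comm]

theorem bb_congr_right {L L' N : LB A} (h : SLB.Iso (slb L) (slb L')) :
    bb P I N L = bb P I N L' := bL_congr (SLB.Iso.refl _) h

/-- the consequences of `eb` for holomorphic line bundles -/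
structure LatX (P : Part A) (I : KIndex (smf A)) (e : ℤ) : Prop where
  chi0 : chiL P I (SLB.triv A) = 0
  semi : ∀ L : LB A, bb P I L L ≤ 0
  rad : ∀ L : LB A, bb P I L L = 0 → ∀ L', bb P I L L' = 0
  kk : bb P I (KB A) (KB A) = -e

theorem latX [Finite A.ι] (H : CMData P I e)
    (hdual : ∀ φ : Z2 A ℤ →+ ℤ, (∀ b ∈ BZ A, φ b = 0) → ∃ c, ∀ x, bZ P I x c = φ x)
    (he : ∀ (n : ℕ) (v : Fin n → Z2 A ℤ),
      (∀ a : Fin n → ℤ, ∑ i, a i • v i ∈ BZ A → a = 0) → (n : ℤ) ≤ e) : LatX P I e := by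
  obtain ⟨h0, h1, h2, h3, -⟩ := H.eb hdual he
  have hc : ∀ L : LB A, ∃ c : Z2 A ℤ, IsC1 (slb L) c.1 := fun L => by
    obtain ⟨c, hc⟩ := exists_isC1 H.good (slb L)
    exact ⟨⟨c, hc.mem_Z2⟩, hc⟩
  refine ⟨by rw [← ChiM825.chi_zero]; exact h0, fun L => ?_, fun L hL L' => ?_, ?_⟩
  · obtain ⟨c, hc⟩ := hc L
    have := h2 c
    rwa [bZ_eq' hc hc] at this
  · obtain ⟨c, hcL⟩ := hc L
    obtain ⟨c', hcL'⟩ := hc L'
    have := h3 c (by rw [bZ_eq' hcL hcL]; exact hL) c'
    rwa [bZ_eq' hcL hcL'] at this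
  · rwa [bZ_eq' H.isC1_kap H.isC1_kap] at h1

theorem chiE_rr (H : CMData P I e) (L : LB A) :
    2 * (chiE (isLC L) - chiE (isLC (1 : LB A))) = bb P I L L - bb P I (KB A) L := by
  have h1 : bb P I (KB A * L⁻¹) L = chiE (isLC (KB A * L⁻¹ * L)) - chiE (isLC (KB A * L⁻¹))
      - chiE (isLC L) + chiE (isLC (1 : LB A)) := by
    rw [← H.euler, ← H.euler, ← H.euler, ← H.euler]
    rfl
  have h2 : KB A * L⁻¹ * L = KB A := by rw [mul_assoc, inv_mul_cancel, mul_one]
  have h3 := serre_chi H.serre0 H.serre1 L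
  have h4 := serre_chi H.serre0 H.serre1 (1 : LB A)
  rw [inv_one, mul_one] at h4
  rw [h2, h3, h4, bb_mul_left, bb_inv_left] at h1
  linarith

theorem chi_one (H : CMData P I e) (hX : LatX P I e) : chiE (isLC (1 : LB A)) = 0 := by
  rw [← H.euler]
  exact hX.chi0

theorem rr (H : CMData P I e) (hX : LatX P I e) (L : LB A) :
    2 * chiE (isLC L) = bb P I L L - bb P I (KB A) L := by
  have := chiE_rr H L
  rw [chi_one H hX, sub_zero] at this
  exact this

end Num

/-! ### `K · P ≥ 0`, `K · L ≥ 0`, no sections -/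

section Main

variable {M : Type} [TopologicalSpace M] [CompactSpace M] [T2Space M] [ChartedSpace C2 M]
  [IsManifold 𝓘(ℂ, C2) 1 M] {A : Atl 2 M} {P : Part A} {I : KIndex (smf A)} {e : ℤ}

/-- the contraction theorem for a minimal surface: no smooth rational curve with
self-intersection `-1` -/
def F7 (A : Atl 2 M) : Prop := ∀ (L : LB A) (s : A.ι → M → ℂ), IsHS L univ s → NZ A s →
  Mon.IsPr (dv A s) → chiE (isLC (1 : LB A)) - chiE (isLC L⁻¹) = 1 →
  chiE (isLC L⁻¹) - chiE (isLC (L⁻¹ * L⁻¹)) = 2 → False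

theorem chi_prime (hA : Adm A) (H : CMData P I e) {L : LB A} {s : A.ι → M → ℂ}
    (hs : IsHS L univ s) (h0 : NZ A s) (hP : Mon.IsPr (dv A s)) :
    chiE (isLC (1 : LB A)) - chiE (isLC L⁻¹) ≤ 1 := by
  have hP' := hP
  rw [dv_eq_divOf hA hs h0] at hP'
  obtain ⟨h1, h2⟩ := chiS_eq (isLC L⁻¹) (isLC (1 : LB A)) (gL := L.g) (fun i j x hx => by
    change (1 : ℂ) = L.g i j x * (L.g i j x)⁻¹
    rw [mul_inv_cancel₀ (L.ne_zero i j x)]) (isNZ_of_nz hs h0) (H.fin _) (H.fin _)
  rw [← h2]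
  exact chiS_le_one hA P (isLC L) (isNZ_of_nz hs h0) hP' (isLC (1 : LB A)) h1

/-- **Q5**: `K · P ≥ 0` for prime divisors on a minimal surface -/
theorem K_prime_nonneg (hA : Adm A) (H : CMData P I e) (hX : LatX P I e) (hF7 : F7 A)
    {L : LB A} {s : A.ι → M → ℂ} (hs : IsHS L univ s) (h0 : NZ A s) (hP : Mon.IsPr (dv A s)) :
    0 ≤ bb P I (KB A) L := by
  by_contra hK
  push Not at hK
  have h1 := chi_prime hA H hs h0 hP
  have h2 := chi_one H hX
  have h3 := rr H hX L⁻¹
  rw [bb_inv_left, bb_inv_right, bb_inv_right, neg_neg, sub_neg_eq_add] at h3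
  have h4 := hX.semi L
  have h5 : bb P I L L ≠ 0 := fun h => by
    have := hX.rad L h (KB A)
    rw [bb_comm] at this
    omega
  have h6 := rr H hX (L⁻¹ * L⁻¹)
  rw [bb_mul_left, bb_mul_right, bb_mul_right, bb_inv_left, bb_inv_right, bb_inv_right,
    neg_neg] at h6
  exact hF7 L s hs h0 hP (by omega) (by omega)

/-- every effective divisor is the divisor of a section of a bundle with `K · L ≥ 0` -/
theorem exists_nonneg (B : Big A) (hA : Adm A) (H : CMData P I e) (hX : LatX P I e) (hF7 : F7 A)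
    (m : Multiset (EffDiv M)) : (∀ D ∈ m, Mon.IsPr D) →
    ∃ (L : LB A) (s : A.ι → M → ℂ), IsHS L univ s ∧ NZ A s ∧ dv A s = m.sum ∧
      0 ≤ bb P I (KB A) L := by
  induction m using Multiset.induction with
  | empty =>
    intro _
    exact ⟨1, oneS A, isHS_oneS univ, nowZ_oneS.nz, by rw [dv_one hA]; simp,
      by rw [bb_one_right]⟩
  | cons D m ih =>
    intro hm
    obtain ⟨L, s, hs, h0, h1, h2⟩ := ih fun D' hD' => hm D' (Multiset.mem_cons_of_mem hD')
    obtain ⟨L', s', hs', hl, -⟩ := ODiv686.exists_odiv B hA D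
    have h0' : NZ A s' := fun i p hp => (hl i p hp).2.1
    have h1' : dv A s' = D := dv_eq_of_leq hA hs' h0' hl
    refine ⟨L' * L, s' * s, hs'.mul hs, h0'.mul hA hs' hs h0, ?_, ?_⟩
    · rw [dv_mul hA hs' hs h0' h0, h1, h1', Multiset.sum_cons]
    · rw [bb_mul_right]
      have := K_prime_nonneg hA H hX hF7 hs' h0'
        (by rw [h1']; exact hm D (Multiset.mem_cons_self D m))
      omega

/-- **Q5'**: `K · L ≥ 0` if `L` has a nonzero section -/
theorem K_nonneg' (B : Big A) (hA : Adm A) (H : CMData P I e) (hX : LatX P I e) (hF7 : F7 A)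
    {L : LB A} {s : A.ι → M → ℂ} (hs : IsHS L univ s) (h0 : NZ A s) :
    0 ≤ bb P I (KB A) L := by
  have hc : IsCompact (dv A s).supp := (EffDiv.isClosed_supp _).isCompact
  obtain ⟨N, hN⟩ := EffDiv.lenLe_of_compact hc
  obtain ⟨m, hm, hm'⟩ := Mon.exists_multiset N _ hN
  obtain ⟨L', s', hs', h0', h1', h2'⟩ := exists_nonneg B hA H hX hF7 m hm
  have h3 : dv A s = dv A s' := by rw [h1', hm']
  rw [bb_congr_right (iso_of_dv_eq hA hs hs' h0 h0' h3)]
  exact h2'

variable [ConnectedSpace M]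

theorem K_nonneg (B : Big A) (hA : Adm A) (H : CMData P I e) (hX : LatX P I e) (hF7 : F7 A)
    {L : LB A} {s : A.ι → M → ℂ} (hs : IsHS L univ s) (h0 : s ≠ 0) :
    0 ≤ bb P I (KB A) L :=
  K_nonneg' B hA H hX hF7 hs (nz_of_ne hA hs h0)

/-- **Q6**: `K ⊗ L` has no nonzero section for numerically trivial `L`, if `e > 0` -/
theorem nosec (B : Big A) (hA : Adm A) (H : CMData P I e) (hX : LatX P I e) (hF7 : F7 A)
    (he : 0 < e) {L : LB A} (hL : ∀ L', bb P I L L' = 0) {s : A.ι → M → ℂ}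
    (hs : IsHS (KB A * L) univ s) : s = 0 := by
  by_contra h0
  have h1 := K_nonneg B hA H hX hF7 hs h0
  rw [bb_mul_right, hX.kk, bb_comm, hL] at h1
  omega

/-- smoothly trivial bundles are numerically trivial -/
theorem bb_of_iso_triv {L : LB A} (h : SLB.Iso (slb L) (SLB.triv A)) (L' : LB A) :
    bb P I L L' = 0 := by
  unfold bb
  rw [bL_congr h (SLB.Iso.refl _)]
  exact bL_triv _

end Main

end Crest.Agent.R275.QX825
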