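import Crest.Agent.R275.Gen_798
import Crest.Agent.R275.Smf_798
import Crest.Agent.R275.KTri_798
import Crest.Agent.R275.C1d_194

-- ▼ part R275/KV_798
section

/-!
R275, block KV (helper798): generic constant vectors for idempotents over the ring of smooth
functions, and the cubic relation between line bundles on a compact complex surface.
-/

set_option autoImplicit false

open Set Filter Topology Complex Module
open scoped ContDiff Matrix ComplexConjugate Kronecker
open Crest.Agent.R275.Geo Crest.Agent.R275.Smf798 Crest.Agent.R275.KR798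

namespace Crest.Agent.R275.KV798

variable {n : ℕ} {M : Type} [TopologicalSpace M] {A : Atl n M}

/-- the linear map `a ↦ (P(x) a) ∘ r` -/
noncomputable def rowMap {k l : Type} [Fintype k] [Fintype l] (P : Matrix l k ℂ) :
    (k → ℂ) →L[ℝ] (l → ℂ) :=
  LinearMap.toContinuousLinearMap ((Matrix.mulVecLin P).restrictScalars ℝ)

theorem rowMap_apply {k l : Type} [Fintype k] [Fintype l] (P : Matrix l k ℂ) (a : k → ℂ) :
    rowMap P a = P *ᵥ a := rfl

/-- `rowMap` is a linear function of the matrix -/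
noncomputable def rowMapL (k l : Type) [Fintype k] [Fintype l] :
    Matrix l k ℂ →ₗ[ℝ] ((k → ℂ) →L[ℝ] (l → ℂ)) where
  toFun := rowMap
  map_add' P Q := by
    ext a i
    simp [rowMap_apply, Matrix.add_mulVec]
  map_smul' c P := by
    ext a i
    simp only [rowMap_apply, RingHom.id_apply, _root_.smul_apply]
    rw [Matrix.smul_mulVec]

theorem contDiffOn_rowMap {k l : Type} [Fintype k] [Fintype l] {U : Set (Cn n)}
    {P : Cn n → Matrix l k ℂ} (h : ∀ i j, ContDiffOn ℝ ∞ (fun z => P z i j) U) :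
    ContDiffOn ℝ 1 (fun z => rowMap (P z)) U := by
  classical
  have h1 : ∀ z, rowMap (P z) = ∑ i, ∑ j, ((P z i j).re • rowMapL k l (Matrix.single i j 1) +
      (P z i j).im • rowMapL k l (Matrix.single i j I)) := by
    intro z
    have h2 : P z = ∑ i, ∑ j, (((P z i j).re • Matrix.single i j (1 : ℂ)) +
        (P z i j).im • Matrix.single i j I) := by
      conv_lhs => rw [Matrix.matrix_eq_sum_single (P z)]
      refine Finset.sum_congr rfl fun i _ => Finset.sum_congr rfl fun j _ => ?_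
      rw [Matrix.smul_single, Matrix.smul_single, ← Matrix.single_add]
      congr 1
      simp [Complex.re_add_im]
    have h3 : rowMap (P z) = rowMapL k l (P z) := rfl
    rw [h3]
    conv_lhs => rw [h2]
    simp only [map_sum, map_add, map_smul]
  simp only [h1]
  refine ContDiffOn.sum fun i _ => ContDiffOn.sum fun j _ => ContDiffOn.add ?_ ?_
  · exact ((Complex.reCLM.contDiff.comp_contDiffOn (h i j)).of_le (by simp)).smul contDiffOn_const
  · exact ((Complex.imCLM.contDiff.comp_contDiffOn (h i j)).of_le (by simp)).smul contDiffOn_const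

/-- **Generic constant vectors.**  If `P` is a matrix over the smooth functions which has rank
`≥ m > n` at every point of the compact complex `n`-manifold `M`, then for `a` in a dense set of
constant vectors `P(x) a ≠ 0` for all `x`. -/
theorem dense_const [CompactSpace M] {k l : Type} [Fintype k] [Fintype l] [Finite l] {m : ℕ}
    (hm : n < m) (P : Matrix l k (smf A))
    (hP : ∀ x, ∃ r : Fin m → l, Function.Surjective fun a : k → ℂ => fun i => (mev P x *ᵥ a) (r i)) :
    Dense {a : k → ℂ | ∀ x, mev P x *ᵥ a ≠ 0} := by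
  classical
  obtain ⟨T, hT⟩ := isCompact_univ.elim_finite_subcover (fun i : A.ι => (A.e i).source)
    (fun i => (A.e i).open_source) (fun x _ => mem_iUnion.2 (A.cover x))
  have hd : finrank ℝ (Cn n) < finrank ℝ (Fin m → ℂ) := by
    rw [← finrank_mul_finrank ℝ ℂ (Cn n), ← finrank_mul_finrank ℝ ℂ (Fin m → ℂ),
      Complex.finrank_real_complex]
    simp only [finrank_euclideanSpace, Fintype.card_fin, finrank_fin_fun]
    omega
  have key := Gen798.dense_good' (ι := T × (Fin m → l)) (E := Cn n) (V := k → ℂ)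
    (W := Fin m → ℂ) (U := fun c => (A.e c.1).target)
    (S := fun c => {z ∈ (A.e c.1).target | Function.Surjective fun a : k → ℂ => fun i =>
      (mev P ((A.e c.1).symm z) *ᵥ a) (c.2 i)})
    (fun c => (A.e c.1).open_target) (fun c => fun z hz => hz.1)
    (M := fun c z => rowMap ((mev P ((A.e c.1).symm z)).submatrix c.2 id))
    (fun c => contDiffOn_rowMap fun i j => (P (c.2 i) j).2 c.1)
    (c := fun _ _ => 0) (fun c => contDiffOn_const)
    (fun c z hz => by
      intro b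
      obtain ⟨a, ha⟩ := hz.2 b
      exact ⟨a, ha⟩) hd
  refine key.mono ?_
  intro a ha x hx
  obtain ⟨c, hcT, hxc⟩ := mem_iUnion₂.1 (hT (mem_univ x))
  obtain ⟨r, hr⟩ := hP x
  have e1 : (A.e c).symm (A.e c x) = x := (A.e c).left_inv hxc
  refine ha (⟨c, hcT⟩, r) (A.e c x) ⟨(A.e c).map_source hxc, ?_⟩ ?_
  · simp only [e1]; exact hr
  · simp only [e1]
    rw [rowMap_apply]
    ext i
    have := congrFun hx (r i)
    exact this

/-- hermitian conjugate of a matrix over the smooth functions -/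
def hc {k l : Type} (P : Matrix k l (smf A)) : Matrix l k (smf A) := (P.map cj)ᵀ

@[simp] theorem hc_apply {k l : Type} (P : Matrix k l (smf A)) (i : l) (j : k) :
    hc P i j = cj (P j i) := rfl

/-- the section `p a` -/
noncomputable def sec {k : Type} [Fintype k] (p : Matrix k k (smf A)) (a : k → ℂ) :
    Matrix k (Fin 1) (smf A) := p * cvec A a

theorem sec_fix {k : Type} [Fintype k] {p : Matrix k k (smf A)} (hp : p * p = p) (a : k → ℂ) :
    p * sec p a = sec p a := by
  unfold sec; rw [← Matrix.mul_assoc, hp]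


theorem sec_val {k : Type} [Fintype k] (p : Matrix k k (smf A)) (a : k → ℂ) (x : M) (i : k) :
    (sec p a i 0).1 x = (mev p x *ᵥ a) i := by
  have : mev (sec p a) x i 0 = (mev p x *ᵥ a) i := by
    unfold sec
    rw [mev_mul, Matrix.mul_apply]
    rfl
  exact this

/-- the dual section `s* p` -/
noncomputable def dsec {k : Type} [Fintype k] (p : Matrix k k (smf A)) (a : k → ℂ) :
    Matrix (Fin 1) k (smf A) := hc (sec p a) * p

theorem dsec_fix {k : Type} [Fintype k] {p : Matrix k k (smf A)} (hp : p * p = p) (a : k → ℂ) :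
    dsec p a * p = dsec p a := by
  unfold dsec; rw [Matrix.mul_assoc, hp]

theorem dsec_mul_sec {k : Type} [Fintype k] {p : Matrix k k (smf A)} (hp : p * p = p) (a : k → ℂ)
    (x : M) : ((dsec p a * sec p a) 0 0).1 x =
      ((∑ i, ‖(mev p x *ᵥ a) i‖ ^ 2 : ℝ) : ℂ) := by
  have h1 : dsec p a * sec p a = hc (sec p a) * sec p a := by
    unfold dsec; rw [Matrix.mul_assoc, sec_fix hp]
  rw [h1]
  have h2 : ((hc (sec p a) * sec p a) 0 0).1 x = mev (hc (sec p a) * sec p a) x 0 0 := rfl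
  rw [h2, mev_mul, Matrix.mul_apply]
  push_cast
  refine Finset.sum_congr rfl fun i _ => ?_
  have h3 : mev (hc (sec p a)) x 0 i = conj ((sec p a i 0).1 x) := rfl
  have h4 : mev (sec p a) x i 0 = (sec p a i 0).1 x := rfl
  rw [h3, h4, sec_val, mul_comm, Complex.mul_conj, Complex.normSq_eq_norm_sq]
  push_cast
  rfl

/-- generic constants for three line bundles -/
theorem exists_three [CompactSpace M] {A : Atl 2 M} {k l m : Type} [Fintype k] [Fintype l]
    [Fintype m] {p : Matrix k k (smf A)} {q : Matrix l l (smf A)} {r : Matrix m m (smf A)}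
    (tp : p.trace = 1) (tq : q.trace = 1) (tr : r.trace = 1) :
    ∃ (a : k → ℂ) (b : l → ℂ) (c : m → ℂ), ∀ x, mev p x *ᵥ a ≠ 0 ∨ mev q x *ᵥ b ≠ 0 ∨
      mev r x *ᵥ c ≠ 0 := by
  classical
  have hdiag : ∀ {k : Type} [Fintype k] {p : Matrix k k (smf A)}, p.trace = 1 →
      ∀ x : M, ∃ i, mev p x i i ≠ 0 := by
    intro k _ p hp x
    by_contra h
    push Not at h
    have h1 : (p.trace).1 x = 1 := by rw [hp]; rfl
    have h2 : (p.trace).1 x = ∑ i, mev p x i i := by
      have : ev x p.trace = ∑ i, ev x (p i i) := by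
        rw [Matrix.trace, map_sum]; rfl
      exact this
    rw [h2, Finset.sum_eq_zero fun i _ => h i] at h1
    exact zero_ne_one h1
  obtain ⟨v, hv⟩ := (dense_const (n := 2) (m := 3) (by norm_num)
    (Matrix.fromBlocks p 0 0 (Matrix.fromBlocks q 0 0 r)) (fun x => by
      obtain ⟨i, hi⟩ := hdiag tp x
      obtain ⟨j, hj⟩ := hdiag tq x
      obtain ⟨w, hw⟩ := hdiag tr x
      refine ⟨![Sum.inl i, Sum.inr (Sum.inl j), Sum.inr (Sum.inr w)], ?_⟩
      intro b
      refine ⟨Sum.elim (Pi.single i (b 0 / mev p x i i))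
        (Sum.elim (Pi.single j (b 1 / mev q x j j)) (Pi.single w (b 2 / mev r x w w))), ?_⟩
      have hm : mev (Matrix.fromBlocks p 0 0 (Matrix.fromBlocks q 0 0 r)) x =
          Matrix.fromBlocks (mev p x) 0 0 (Matrix.fromBlocks (mev q x) 0 0 (mev r x)) := by
        ext a b
        rcases a with a | a | a <;> rcases b with b | b | b <;> rfl
      rw [hm]
      simp only [Matrix.fromBlocks_mulVec, Sum.elim_comp_inl, Sum.elim_comp_inr]
      funext t
      fin_cases t
      · rw [mev_apply] at hi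
        simp only [Matrix.mulVec_single]
        simp
        try rw [mul_left_comm, mul_inv_cancel₀ hi, mul_one]
      · rw [mev_apply] at hj
        simp only [Matrix.mulVec_single]
        simp
        try rw [mul_left_comm, mul_inv_cancel₀ hj, mul_one]
      · rw [mev_apply] at hw
        simp only [Matrix.mulVec_single]
        simp
        rw [mul_left_comm, mul_inv_cancel₀ hw, mul_one])).nonempty
  refine ⟨v ∘ Sum.inl, v ∘ Sum.inr ∘ Sum.inl, v ∘ Sum.inr ∘ Sum.inr, fun x => ?_⟩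
  by_contra h
  push Not at h
  apply hv x
  have hm : mev (Matrix.fromBlocks p 0 0 (Matrix.fromBlocks q 0 0 r)) x =
      Matrix.fromBlocks (mev p x) 0 0 (Matrix.fromBlocks (mev q x) 0 0 (mev r x)) := by
    ext a b
    rcases a with a | a | a <;> rcases b with b | b | b <;> rfl
  have hve : v = Sum.elim (v ∘ Sum.inl) (Sum.elim (v ∘ Sum.inr ∘ Sum.inl) (v ∘ Sum.inr ∘ Sum.inr)) := by
    ext a
    rcases a with a | a | a <;> rfl
  rw [hm, hve]
  simp only [Matrix.fromBlocks_mulVec, Sum.elim_comp_inl, Sum.elim_comp_inr, h.1, h.2.1, h.2.2]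
  ext a
  rcases a with a | a | a <;> simp

/-- **The cubic relation** between line bundles on a compact complex surface. -/
theorem cubic [CompactSpace M] {A : Atl 2 M} (I : KIndex (smf A)) {k l m : Type}
    [Fintype k] [Fintype l] [Fintype m]
    {p : Matrix k k (smf A)} {q : Matrix l l (smf A)} {r : Matrix m m (smf A)}
    (hp : p * p = p) (hq : q * q = q) (hr : r * r = r)
    (h1 : RankOne p) (h2 : RankOne q) (h3 : RankOne r)
    (tp : p.trace = 1) (tq : q.trace = 1) (tr : r.trace = 1) :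
    (1 - I.c p hp) * (1 - I.c q hq) * (1 - I.c r hr) = 0 := by
  obtain ⟨a, b, c, habc⟩ := exists_three tp tq tr
  refine line_relation I hp h1 hq h2 hr h3 (sec p a) (dsec p a) (sec_fix hp a) (dsec_fix hp a)
    (sec q b) (dsec q b) (sec_fix hq b) (dsec_fix hq b)
    (sec r c) (dsec r c) (sec_fix hr c) (dsec_fix hr c) ?_
  rw [Smf798.isUnit_iff]
  intro x
  have e : ((dsec p a * sec p a) 0 0 + (dsec q b * sec q b) 0 0 + (dsec r c * sec r c) 0 0).1 x =
      ((∑ i, ‖(mev p x *ᵥ a) i‖ ^ 2 + ∑ i, ‖(mev q x *ᵥ b) i‖ ^ 2 + ∑ i, ‖(mev r x *ᵥ c) i‖ ^ 2 : ℝ) : ℂ) := by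
    have e1 := dsec_mul_sec hp a x
    have e2 := dsec_mul_sec hq b x
    have e3 := dsec_mul_sec hr c x
    push_cast at e1 e2 e3 ⊢
    rw [← e1, ← e2, ← e3]
    rfl
  rw [e, Ne, Complex.ofReal_eq_zero]
  have pos : ∀ {k : Type} [Fintype k] (v : k → ℂ), 0 ≤ ∑ i, ‖v i‖ ^ 2 := fun v =>
    Finset.sum_nonneg fun i _ => by positivity
  have pos' : ∀ {k : Type} [Fintype k] (v : k → ℂ), v ≠ 0 → 0 < ∑ i, ‖v i‖ ^ 2 := by
    intro k _ v hv
    obtain ⟨i, hi⟩ := Function.ne_iff.1 hv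
    refine Finset.sum_pos' (fun i _ => by positivity) ⟨i, Finset.mem_univ _, ?_⟩
    have : 0 < ‖v i‖ := norm_pos_iff.2 hi
    positivity
  have q1 := pos (mev p x *ᵥ a)
  have q2 := pos (mev q x *ᵥ b)
  have q3 := pos (mev r x *ᵥ c)
  rcases habc x with h | h | h
  · have := pos' _ h; linarith
  · have := pos' _ h; linarith
  · have := pos' _ h; linarith

end Crest.Agent.R275.KV798
end

-- ▼ part R275/SBun_798

/-!
R275, NA10 / F2 (helper798): smooth bundles given by cocycles and the associated idempotent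
matrices over the ring of smooth functions.
-/

set_option autoImplicit false

open Set Filter Topology Complex
open scoped ContDiff Matrix ComplexConjugate Kronecker
open Crest.Agent.R275.Geo Crest.Agent.R275.Smf798 Crest.Agent.R275.KR798

namespace Crest.Agent.R275.SB798

variable {n : ℕ} {M : Type} [TopologicalSpace M]

/-- smooth complex vector bundle (cocycle), no connection -/
structure SB (A : Atl n M) where
  /-- fibre index -/
  ρ : Type
  [fρ : Fintype ρ]
  [dρ : DecidableEq ρ]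
  /-- the cocycle -/
  g : A.ι → A.ι → M → Matrix ρ ρ ℂ
  g_smooth : ∀ i j k l, ContDiffOn ℝ ∞ (fun z => g i j ((A.e i).symm z) k l) (A.ov i j)
  g_self : ∀ i, ∀ x ∈ (A.e i).source, g i i x = 1
  g_mul : ∀ i j k, ∀ x ∈ (A.e i).source ∩ (A.e j).source ∩ (A.e k).source,
    g i j x * g j k x = g i k x

attribute [instance] SB.fρ SB.dρ

/-- forget the connection -/
def _root_.Crest.Agent.R275.Geo.VBun.sb {A : Atl n M} (E : VBun A) : SB A where
  ρ := E.ρ
  g := E.g
  g_smooth := E.g_smooth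
  g_self := E.g_self
  g_mul := E.g_mul

variable {A : Atl n M}

namespace SB

/-- bundle maps -/
structure Hom (E F : SB A) where
  /-- the local matrices -/
  φ : A.ι → M → Matrix F.ρ E.ρ ℂ
  sm : ∀ i k l, A.SmAt i (fun x => φ i x k l)
  tr : ∀ i j, ∀ x ∈ (A.e i).source ∩ (A.e j).source, φ i x * E.g i j x = F.g i j x * φ j x

theorem smAt_sum {i : A.ι} {κ : Type} (s : Finset κ) {f : κ → M → ℂ}
    (h : ∀ k ∈ s, A.SmAt i (f k)) : A.SmAt i (fun x => ∑ k ∈ s, f k x) :=
  ContDiffOn.sum (f := fun k z => f k ((A.e i).symm z)) h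

/-- identity -/
def Hom.id (E : SB A) : Hom E E where
  φ _ _ := 1
  sm _ _ _ := contDiffOn_const
  tr _ _ _ _ := by rw [one_mul, mul_one]

/-- composition -/
def Hom.comp {E F G : SB A} (ψ : Hom F G) (φ : Hom E F) : Hom E G where
  φ i x := ψ.φ i x * φ.φ i x
  sm i k l := smAt_sum _ fun r _ => (ψ.sm i k r).mul (φ.sm i r l)
  tr i j x hx := by
    rw [Matrix.mul_assoc, φ.tr i j x hx, ← Matrix.mul_assoc, ψ.tr i j x hx, Matrix.mul_assoc]

/-- isomorphisms -/
structure Iso (E F : SB A) where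
  /-- forward -/
  hom : Hom E F
  /-- backward -/
  inv : Hom F E
  hom_inv : ∀ i, ∀ x ∈ (A.e i).source, inv.φ i x * hom.φ i x = 1
  inv_hom : ∀ i, ∀ x ∈ (A.e i).source, hom.φ i x * inv.φ i x = 1

/-- trivial line bundle -/
def one (A : Atl n M) : SB A where
  ρ := Fin 1
  g _ _ _ := 1
  g_smooth _ _ _ _ := contDiffOn_const
  g_self _ _ _ := rfl
  g_mul _ _ _ _ _ := mul_one _

/-- tensor product -/
def mul (E F : SB A) : SB A where
  ρ := E.ρ × F.ρ
  g i j x := E.g i j x ⊗ₖ F.g i j x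
  g_smooth i j k l := (E.g_smooth i j k.1 l.1).mul (F.g_smooth i j k.2 l.2)
  g_self i x hx := by rw [E.g_self i x hx, F.g_self i x hx, Matrix.one_kronecker_one]
  g_mul i j k x hx := by
    rw [← Matrix.mul_kronecker_mul, E.g_mul i j k x hx, F.g_mul i j k x hx]

/-- direct sum -/
def sum (E F : SB A) : SB A where
  ρ := E.ρ ⊕ F.ρ
  g i j x := Matrix.fromBlocks (E.g i j x) 0 0 (F.g i j x)
  g_smooth := by
    rintro i j (k | k) (l | l)
    · exact E.g_smooth i j k l
    · exact contDiffOn_const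
    · exact contDiffOn_const
    · exact F.g_smooth i j k l
  g_self i x hx := by rw [E.g_self i x hx, F.g_self i x hx, Matrix.fromBlocks_one]
  g_mul i j k x hx := by
    rw [Matrix.fromBlocks_multiply, E.g_mul i j k x hx, F.g_mul i j k x hx]
    simp

theorem g_inv (E : SB A) {i j : A.ι} {x : M} (hx : x ∈ (A.e i).source ∩ (A.e j).source) :
    E.g i j x * E.g j i x = 1 := by
  rw [E.g_mul i j i x ⟨hx, hx.1⟩, E.g_self i x hx.1]

/-- the cocycle read in the other chart is smooth too -/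
theorem g_smooth' (E : SB A) (i j : A.ι) (k l : E.ρ) :
    ContDiffOn ℝ ∞ (fun z => E.g j i ((A.e i).symm z) k l) (A.ov i j) := by
  have h := E.g_smooth j i k l
  have h1 : ContDiffOn ℝ ∞ (fun z => E.g j i ((A.e j).symm (A.e j ((A.e i).symm z))) k l)
      (A.ov i j) := by
    refine ContDiffOn.comp (g := fun w => E.g j i ((A.e j).symm w) k l) h
      (C1d194.trans_contDiffOn i j) ?_
    intro z hz
    refine ⟨(A.e j).map_source hz.2, ?_⟩
    rw [(A.e j).left_inv hz.2]
    exact (A.e i).map_target hz.1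
  refine h1.congr fun z hz => ?_
  rw [(A.e j).left_inv hz.2]

/-- dual bundle -/
def dual (E : SB A) : SB A where
  ρ := E.ρ
  g i j x := (E.g j i x)ᵀ
  g_smooth i j k l := E.g_smooth' i j l k
  g_self i x hx := by rw [E.g_self i x hx, Matrix.transpose_one]
  g_mul i j k x hx := by
    rw [← Matrix.transpose_mul, E.g_mul k j i x ⟨⟨hx.2, hx.1.2⟩, hx.1.1⟩]

end SB

/-! ### The idempotent of a bundle -/

section Idem

variable (P : Part A)

theorem psi_zero_of_chi {i : A.ι} {x : M} (h : P.χ i x ≠ 1) : P.ψ i x = 0 := by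
  by_contra hx
  have : x ∈ tsupport (P.ψ i) := subset_tsupport _ hx
  exact h (P.χ_one i x this).self_of_nhds

theorem psi_mul_chi (i : A.ι) (x : M) : P.χ i x * P.ψ i x = P.ψ i x := by
  by_cases h : P.χ i x = 1
  · rw [h, one_mul]
  · rw [psi_zero_of_chi P h, mul_zero]

theorem chi_zero {i : A.ι} {x : M} (h : x ∉ (A.e i).source) : P.χ i x = 0 := by
  by_contra hx
  exact h (P.χ_sub i (subset_tsupport _ hx))

theorem psi_zero {i : A.ι} {x : M} (h : x ∉ (A.e i).source) : P.ψ i x = 0 := by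
  apply psi_zero_of_chi P
  rw [chi_zero P h]; exact zero_ne_one

/-- the basic smooth functions `ψ_i F χ_j` -/
theorem sm_ent {i j : A.ι} {F : M → ℂ}
    (hF : ContDiffOn ℝ ∞ (fun z => F ((A.e i).symm z)) (A.ov i j)) :
    A.Sm (fun x => (P.ψ i x : ℂ) * F x * (P.χ j x : ℂ)) := by
  have h1 : A.SmAt i (fun x => (P.ψ i x : ℂ) * F x * (P.χ j x : ℂ)) := by
    refine C1d194.smAt_of_ov (j := j) (T := tsupport (P.χ j)) (isClosed_tsupport _) (P.χ_sub j)
      (fun x hx => ?_) ?_
    · rw [image_eq_zero_of_notMem_tsupport hx]; simp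
    · have a1 : ContDiffOn ℝ ∞ (fun z => ((P.ψ i ((A.e i).symm z) : ℝ) : ℂ)) (A.ov i j) :=
        (sm_ofReal (P.ψ_sm i) i).mono fun z hz => hz.1
      have a2 : ContDiffOn ℝ ∞ (fun z => ((P.χ j ((A.e i).symm z) : ℝ) : ℂ)) (A.ov i j) :=
        (sm_ofReal (P.χ_sm j) i).mono fun z hz => hz.1
      exact (a1.mul hF).mul a2
  refine C1d194.sm_of_smAt h1 (T := tsupport (P.χ i)) (isClosed_tsupport _) (P.χ_sub i)
    fun x hx => ?_
  have : P.ψ i x = 0 := by
    apply psi_zero_of_chi P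
    rw [image_eq_zero_of_notMem_tsupport hx]; exact zero_ne_one
  rw [this]; simp

variable [CompactSpace M]

/-- the finite set of relevant charts -/
noncomputable def idx : Finset A.ι :=
  (P.lf univ isCompact_univ).toFinset

theorem chi_zero_of_notMem {i : A.ι} (h : i ∉ idx P) (x : M) : P.χ i x = 0 := by
  by_contra hx
  apply h
  rw [idx, Set.Finite.mem_toFinset]
  exact ⟨x, subset_tsupport _ hx, mem_univ _⟩

theorem psi_zero_of_notMem {i : A.ι} (h : i ∉ idx P) (x : M) : P.ψ i x = 0 := by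
  apply psi_zero_of_chi P
  rw [chi_zero_of_notMem P h]; exact zero_ne_one

/-- the type of relevant charts -/
abbrev Ix : Type := {i : A.ι // i ∈ idx P}

theorem sum_psi (x : M) : ∑ i : Ix P, P.ψ i.1 x = 1 := by
  rw [← P.sum_one x]
  have h1 : Function.support (fun i => P.ψ i x) ⊆ (idx P : Set A.ι) := by
    intro i hi
    by_contra h
    exact hi (psi_zero_of_notMem P h x)
  rw [finsum_eq_sum_of_support_subset _ h1]
  exact Finset.sum_coe_sort (idx P) (fun i => P.ψ i x)

theorem sum_chi_psi (x : M) : ∑ i : Ix P, (P.χ i.1 x : ℂ) * (P.ψ i.1 x : ℂ) = 1 := by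
  have := sum_psi P x
  have h2 : ∑ i : Ix P, (P.χ i.1 x : ℂ) * (P.ψ i.1 x : ℂ) = ∑ i : Ix P, (P.ψ i.1 x : ℂ) := by
    refine Finset.sum_congr rfl fun i _ => ?_
    rw [← Complex.ofReal_mul, psi_mul_chi]
  rw [h2, ← Complex.ofReal_sum, this, Complex.ofReal_one]

/-- collapsing the sum over the charts -/
theorem collapse {x : M} {Z : Ix P → ℂ} {z : ℂ} (h : ∀ m : Ix P, x ∈ (A.e m.1).source → Z m = z) :
    ∑ m : Ix P, (P.χ m.1 x : ℂ) * (P.ψ m.1 x : ℂ) * Z m = z := by
  have h1 : ∑ m : Ix P, (P.χ m.1 x : ℂ) * (P.ψ m.1 x : ℂ) * Z m =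
      ∑ m : Ix P, (P.χ m.1 x : ℂ) * (P.ψ m.1 x : ℂ) * z := by
    refine Finset.sum_congr rfl fun m _ => ?_
    by_cases hm : x ∈ (A.e m.1).source
    · rw [h m hm]
    · rw [chi_zero P hm]; simp
  rw [h1, ← Finset.sum_mul, sum_chi_psi, one_mul]

/-- the matrix over the ring of smooth functions of a bundle map -/
noncomputable def mat {E F : SB A} (φ : SB.Hom E F) :
    Matrix (Ix P × F.ρ) (Ix P × E.ρ) (smf A) := fun a b =>
  ⟨fun x => (P.ψ a.1.1 x : ℂ) * (φ.φ a.1.1 x * E.g a.1.1 b.1.1 x) a.2 b.2 * (P.χ b.1.1 x : ℂ), by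
    have : ContDiffOn ℝ ∞ (fun z => ∑ r, φ.φ a.1.1 ((A.e a.1.1).symm z) a.2 r *
        E.g a.1.1 b.1.1 ((A.e a.1.1).symm z) r b.2) (A.ov a.1.1 b.1.1) := by
      refine ContDiffOn.sum fun r _ => ?_
      exact ((φ.sm a.1.1 a.2 r).mono fun z hz => hz.1).mul (E.g_smooth a.1.1 b.1.1 r b.2)
    exact sm_ent P (F := fun x => (φ.φ a.1.1 x * E.g a.1.1 b.1.1 x) a.2 b.2) this⟩

theorem mev_mat {E F : SB A} (φ : SB.Hom E F) (x : M) (a : Ix P × F.ρ) (b : Ix P × E.ρ) :
    mev (mat P φ) x a b = (P.ψ a.1.1 x : ℂ) * (φ.φ a.1.1 x * E.g a.1.1 b.1.1 x) a.2 b.2 *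
      (P.χ b.1.1 x : ℂ) := rfl

theorem mat_congr {E F : SB A} {φ ψ : SB.Hom E F}
    (h : ∀ i, ∀ x ∈ (A.e i).source, φ.φ i x = ψ.φ i x) : mat P φ = mat P ψ := by
  apply mev_ext
  intro x
  ext a b
  rw [mev_mat, mev_mat]
  by_cases hx : x ∈ (A.e a.1.1).source
  · rw [h _ x hx]
  · rw [psi_zero P hx]; simp

theorem mat_comp {E F G : SB A} (ψ : SB.Hom F G) (φ : SB.Hom E F) :
    mat P ψ * mat P φ = mat P (ψ.comp φ) := by
  apply mev_ext
  intro x
  rw [mev_mul]
  ext a b
  rw [Matrix.mul_apply, mev_mat, Fintype.sum_prod_type]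
  by_cases ha : x ∈ (A.e a.1.1).source
  swap
  · rw [psi_zero P ha, Complex.ofReal_zero, zero_mul, zero_mul]
    refine Finset.sum_eq_zero fun m _ => Finset.sum_eq_zero fun r _ => ?_
    rw [mev_mat, psi_zero P ha, Complex.ofReal_zero, zero_mul, zero_mul, zero_mul]
  by_cases hb : x ∈ (A.e b.1.1).source
  swap
  · rw [chi_zero P hb, Complex.ofReal_zero, mul_zero]
    refine Finset.sum_eq_zero fun m _ => Finset.sum_eq_zero fun r _ => ?_
    rw [mev_mat P φ, chi_zero P hb, Complex.ofReal_zero, mul_zero, mul_zero]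
  have h1 : ∀ m : Ix P, ∑ r, mev (mat P ψ) x a (m, r) * mev (mat P φ) x (m, r) b =
      (P.χ m.1 x : ℂ) * (P.ψ m.1 x : ℂ) * ((P.ψ a.1.1 x : ℂ) *
        ((ψ.φ a.1.1 x * F.g a.1.1 m.1 x) * (φ.φ m.1 x * E.g m.1 b.1.1 x)) a.2 b.2 *
          (P.χ b.1.1 x : ℂ)) := by
    intro m
    rw [Matrix.mul_apply (M := ψ.φ a.1.1 x * F.g a.1.1 m.1 x), Finset.mul_sum, Finset.sum_mul,
      Finset.mul_sum]
    refine Finset.sum_congr rfl fun r _ => ?_
    rw [mev_mat, mev_mat]
    ring
  simp only [h1]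
  refine collapse P fun m hm => ?_
  have h2 : (ψ.φ a.1.1 x * F.g a.1.1 m.1 x) * (φ.φ m.1 x * E.g m.1 b.1.1 x) =
      (ψ.comp φ).φ a.1.1 x * E.g a.1.1 b.1.1 x := by
    have e1 := φ.tr a.1.1 m.1 x ⟨ha, hm⟩
    have e2 := E.g_mul a.1.1 m.1 b.1.1 x ⟨⟨ha, hm⟩, hb⟩
    calc (ψ.φ a.1.1 x * F.g a.1.1 m.1 x) * (φ.φ m.1 x * E.g m.1 b.1.1 x)
        = ψ.φ a.1.1 x * (F.g a.1.1 m.1 x * φ.φ m.1 x) * E.g m.1 b.1.1 x := by
          simp only [Matrix.mul_assoc]
      _ = ψ.φ a.1.1 x * φ.φ a.1.1 x * (E.g a.1.1 m.1 x * E.g m.1 b.1.1 x) := by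
          rw [← e1]; simp only [Matrix.mul_assoc]
      _ = _ := by rw [e2]; rfl
  rw [h2]

/-- the idempotent of a bundle -/
noncomputable def pr (E : SB A) : Matrix (Ix P × E.ρ) (Ix P × E.ρ) (smf A) :=
  mat P (SB.Hom.id E)

theorem pr_idem (E : SB A) : pr P E * pr P E = pr P E := by
  unfold pr
  rw [mat_comp]
  apply mat_congr
  intro i x _
  show (1 : Matrix E.ρ E.ρ ℂ) * 1 = 1
  rw [one_mul]

theorem mev_pr (E : SB A) (x : M) (a b : Ix P × E.ρ) :
    mev (pr P E) x a b = (P.ψ a.1.1 x : ℂ) * E.g a.1.1 b.1.1 x a.2 b.2 * (P.χ b.1.1 x : ℂ) := by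
  unfold pr
  rw [mev_mat]
  show (P.ψ a.1.1 x : ℂ) * ((1 : Matrix E.ρ E.ρ ℂ) * E.g a.1.1 b.1.1 x) a.2 b.2 *
    (P.χ b.1.1 x : ℂ) = _
  rw [one_mul]

theorem isoM_of_iso {E F : SB A} (φ : SB.Iso E F) : IsoM (pr P E) (pr P F) := by
  refine ⟨mat P φ.inv, mat P φ.hom, ?_, ?_⟩
  · rw [mat_comp]; exact mat_congr P φ.hom_inv
  · rw [mat_comp]; exact mat_congr P φ.inv_hom

theorem isoM_sum (E F : SB A) :
    IsoM (pr P (E.sum F)) (Matrix.fromBlocks (pr P E) 0 0 (pr P F)) := by
  have : Matrix.fromBlocks (pr P E) 0 0 (pr P F) =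
      Matrix.reindex (Equiv.prodSumDistrib (Ix P) E.ρ F.ρ) (Equiv.prodSumDistrib (Ix P) E.ρ F.ρ)
        (pr P (E.sum F)) := by
    apply mev_ext
    intro x
    ext a b
    rcases a with ⟨i, k⟩ | ⟨i, k⟩ <;> rcases b with ⟨j, l⟩ | ⟨j, l⟩
    · have h1 := mev_pr P E x (i, k) (j, l)
      have h2 := mev_pr P (E.sum F) x (i, Sum.inl k) (j, Sum.inl l)
      exact h1.trans h2.symm
    · have h2 := mev_pr P (E.sum F) x (i, Sum.inl k) (j, Sum.inr l)
      have h3 : (E.sum F).g i.1 j.1 x (Sum.inl k) (Sum.inr l) = 0 := rfl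
      rw [h3, mul_zero, zero_mul] at h2
      exact h2.symm
    · have h2 := mev_pr P (E.sum F) x (i, Sum.inr k) (j, Sum.inl l)
      have h3 : (E.sum F).g i.1 j.1 x (Sum.inr k) (Sum.inl l) = 0 := rfl
      rw [h3, mul_zero, zero_mul] at h2
      exact h2.symm
    · have h1 := mev_pr P F x (i, k) (j, l)
      have h2 := mev_pr P (E.sum F) x (i, Sum.inr k) (j, Sum.inr l)
      exact h1.trans h2.symm
  rw [this]
  exact isoM_reindex _ (pr_idem P _)

theorem isoM_one : IsoM (pr P (SB.one A)) (1 : Matrix (Fin 1) (Fin 1) (smf A)) := by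
  refine ⟨Matrix.of fun a _ => ⟨fun x => (P.ψ a.1.1 x : ℂ), sm_ofReal (P.ψ_sm a.1.1)⟩,
    Matrix.of fun _ a => ⟨fun x => (P.χ a.1.1 x : ℂ), sm_ofReal (P.χ_sm a.1.1)⟩, ?_, ?_⟩
  · apply mev_ext
    intro x
    rw [mev_mul]
    ext a b
    rw [Matrix.mul_apply, mev_pr]
    have h3 : (SB.one A).g a.1.1 b.1.1 x a.2 b.2 = 1 := by
      have h4 : ∀ u v : Fin 1, (1 : Matrix (Fin 1) (Fin 1) ℂ) u v = 1 := by
        intro u v
        rw [Subsingleton.elim u v, Matrix.one_apply_eq]
      exact h4 _ _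
    rw [h3, mul_one, Finset.univ_unique, Finset.sum_singleton]
    rfl
  · apply mev_ext
    intro x
    rw [mev_mul, mev_one]
    ext a b
    obtain rfl := Subsingleton.elim a b
    rw [Matrix.mul_apply, Matrix.one_apply_eq, Fintype.sum_prod_type]
    have : ∀ m : Ix P, ∑ r : (SB.one A).ρ, mev (Matrix.of fun (_ : Fin 1) (a : Ix P × (SB.one A).ρ) =>
        (⟨fun x => (P.χ a.1.1 x : ℂ), sm_ofReal (P.χ_sm a.1.1)⟩ : smf A)) x a (m, r) *
        mev (Matrix.of fun (a : Ix P × (SB.one A).ρ) (_ : Fin 1) =>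
        (⟨fun x => (P.ψ a.1.1 x : ℂ), sm_ofReal (P.ψ_sm a.1.1)⟩ : smf A)) x (m, r) a =
        (P.χ m.1 x : ℂ) * (P.ψ m.1 x : ℂ) := by
      intro m
      show ∑ r : Fin 1, _ = _
      rw [Fin.sum_univ_one]
      rfl
    simp only [this]
    exact sum_chi_psi P x

end Idem

end Crest.Agent.R275.SB798
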