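import Mathlib
import Crest.Prelude.Def_ComplexSurface
import Crest.Agent.R266.Osgood
import Crest.Agent.R275.Geo_509
import Crest.Agent.R275.NAtl_938
import Crest.Agent.R275.Lt2_893
import Crest.Agent.R275.XN3_194

-- ▼ part R275/Plu_825
section

/-!
R275 (S0418), block Q (helper825), leaves Q1 and Q3': intrinsic `m`-canonical forms on a complex
surface, vanishing of the plurigenera on `X` and on its finite covers.

`jac φ x`  : Jacobian determinant of `φ` at `x` in the preferred charts.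
`PF m s`   : `s : M → ℂ` is a holomorphic `m`-canonical form: `det(dψ)^m * s ∘ ψ` is holomorphic for
             every holomorphic `ψ : ℂ² ⊇ U → M`.
-/

set_option autoImplicit false
set_option linter.unusedSectionVars false

open Set Filter Topology Metric Crest.AlgGeometry.Surface
open scoped Manifold ContDiff

noncomputable section

namespace Crest.Agent.R275.Plu825

variable {M M' M'' : Type} [TopologicalSpace M] [ChartedSpace C2 M] [TopologicalSpace M']
  [ChartedSpace C2 M'] [TopologicalSpace M''] [ChartedSpace C2 M'']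

/-! ### determinants -/

theorem det_eq (A : C2 →ₗ[ℂ] C2) :
    LinearMap.det A = Matrix.det (Matrix.of fun b a : Fin 2 => (A (EuclideanSpace.single a 1)) b) := by
  rw [← LinearMap.det_toMatrix (EuclideanSpace.basisFun (Fin 2) ℂ).toBasis]
  congr 1

theorem differentiableOn_det_fderiv {h : C2 → C2} {U : Set C2} (hU : IsOpen U)
    (hh : DifferentiableOn ℂ h U) :
    DifferentiableOn ℂ (fun z => LinearMap.det (fderiv ℂ h z).toLinearMap) U := by
  have h1 : AnalyticOnNhd ℂ h U := Crest.Agent.R266.SCV.analyticOnNhd_of_differentiableOn hU hh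
  have h2 : DifferentiableOn ℂ (fderiv ℂ h) U := h1.fderiv.differentiableOn
  have h3 : ∀ a b : Fin 2, DifferentiableOn ℂ
      (fun z => (fderiv ℂ h z (EuclideanSpace.single a 1)) b) U := by
    intro a b
    have e1 : DifferentiableOn ℂ (fun z => fderiv ℂ h z (EuclideanSpace.single a 1)) U :=
      h2.clm_apply (differentiableOn_const _)
    exact (EuclideanSpace.proj (𝕜 := ℂ) b).differentiable.comp_differentiableOn e1
  refine DifferentiableOn.congr (f := fun z =>
    (fderiv ℂ h z (EuclideanSpace.single 0 1)) 0 * (fderiv ℂ h z (EuclideanSpace.single 1 1)) 1 -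
    (fderiv ℂ h z (EuclideanSpace.single 1 1)) 0 * (fderiv ℂ h z (EuclideanSpace.single 0 1)) 1)
    (((h3 0 0).mul (h3 1 1)).sub ((h3 1 0).mul (h3 0 1))) ?_
  intro z hz
  rw [det_eq, Matrix.det_fin_two]
  rfl

/-! ### the Jacobian -/

/-- Jacobian determinant in preferred charts -/
def jac (φ : M → M') (x : M) : ℂ :=
  ContinuousLinearMap.det (mfderiv 𝓘(ℂ, C2) 𝓘(ℂ, C2) φ x : C2 →L[ℂ] C2)

theorem jac_comp {φ : M' → M''} {ψ : M → M'} {x : M}
    (h1 : MDifferentiableAt 𝓘(ℂ, C2) 𝓘(ℂ, C2) φ (ψ x))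
    (h2 : MDifferentiableAt 𝓘(ℂ, C2) 𝓘(ℂ, C2) ψ x) :
    jac (fun y => φ (ψ y)) x = jac φ (ψ x) * jac ψ x := by
  unfold jac
  have := mfderiv_comp x h1 h2
  change mfderiv 𝓘(ℂ, C2) 𝓘(ℂ, C2) (fun y => φ (ψ y)) x = _ at this
  rw [this]
  exact LinearMap.det_comp _ _

theorem jac_congr {φ ψ : M → M'} {x : M} (h : ∀ᶠ y in 𝓝 x, φ y = ψ y) : jac φ x = jac ψ x := by
  unfold jac
  have := Filter.EventuallyEq.mfderiv_eq (I := 𝓘(ℂ, C2)) (I' := 𝓘(ℂ, C2)) h
  rw [this]

theorem jac_id (x : M) : jac (fun y : M => y) x = 1 := by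
  unfold jac
  have := mfderiv_id (I := 𝓘(ℂ, C2)) (x := x)
  change mfderiv 𝓘(ℂ, C2) 𝓘(ℂ, C2) (fun y => y) x = _ at this
  rw [this]
  exact LinearMap.det_id

theorem jac_eq_fderiv (φ : C2 → C2) (z : C2) :
    jac φ z = LinearMap.det (fderiv ℂ φ z).toLinearMap := by
  unfold jac
  rw [mfderiv_eq_fderiv]
  rfl

theorem mdiffAt {φ : M → M'} {U : Set M} (hU : IsOpen U)
    (h : ContMDiffOn 𝓘(ℂ, C2) 𝓘(ℂ, C2) 1 φ U) {x : M} (hx : x ∈ U) :
    MDifferentiableAt 𝓘(ℂ, C2) 𝓘(ℂ, C2) φ x :=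
  (h.contMDiffAt (hU.mem_nhds hx)).mdifferentiableAt one_ne_zero

/-- left inverse near a point -/
theorem jac_mul_of_leftInv {φ : M' → M} {ψ : M → M'} {x : M}
    (h1 : MDifferentiableAt 𝓘(ℂ, C2) 𝓘(ℂ, C2) φ (ψ x))
    (h2 : MDifferentiableAt 𝓘(ℂ, C2) 𝓘(ℂ, C2) ψ x) (h : ∀ᶠ y in 𝓝 x, φ (ψ y) = y) :
    jac φ (ψ x) * jac ψ x = 1 := by
  rw [← jac_comp h1 h2, jac_congr h, jac_id]

/-! ### charts -/

section Charts

variable [IsManifold 𝓘(ℂ, C2) 1 M] {e : OpenPartialHomeomorph M C2}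

theorem jac_chart_mul (he : e ∈ IsManifold.maximalAtlas 𝓘(ℂ, C2) 1 M) {z : C2}
    (hz : z ∈ e.target) : jac e (e.symm z) * jac e.symm z = 1 := by
  refine jac_mul_of_leftInv (mdiffAt e.open_source (contMDiffOn_of_mem_maximalAtlas he)
    (e.map_target hz)) (mdiffAt e.open_target (contMDiffOn_symm_of_mem_maximalAtlas he) hz) ?_
  filter_upwards [e.open_target.mem_nhds hz] with w hw
  exact e.right_inv hw

theorem jac_symm_ne (he : e ∈ IsManifold.maximalAtlas 𝓘(ℂ, C2) 1 M) {z : C2}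
    (hz : z ∈ e.target) : jac e.symm z ≠ 0 := fun h => by
  have := jac_chart_mul he hz
  rw [h, mul_zero] at this
  exact zero_ne_one this

theorem jac_chart_ne (he : e ∈ IsManifold.maximalAtlas 𝓘(ℂ, C2) 1 M) {x : M}
    (hx : x ∈ e.source) : jac e x ≠ 0 := fun h => by
  have := jac_chart_mul he (e.map_source hx)
  rw [e.left_inv hx, h, zero_mul] at this
  exact zero_ne_one this

/-- change of charts -/
theorem jac_change {e' : OpenPartialHomeomorph M C2}
    (he : e ∈ IsManifold.maximalAtlas 𝓘(ℂ, C2) 1 M)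
    (he' : e' ∈ IsManifold.maximalAtlas 𝓘(ℂ, C2) 1 M) {x : M} (hx : x ∈ e.source)
    (hx' : x ∈ e'.source) :
    jac e' x = LinearMap.det (fderiv ℂ (fun z => e' (e.symm z)) (e x)).toLinearMap * jac e x := by
  rw [← jac_eq_fderiv]
  have h1 : MDifferentiableAt 𝓘(ℂ, C2) 𝓘(ℂ, C2) (fun z => e' (e.symm z)) (e x) := by
    have a1 : MDifferentiableAt 𝓘(ℂ, C2) 𝓘(ℂ, C2) e' (e.symm (e x)) := by
      rw [e.left_inv hx]
      exact mdiffAt e'.open_source (contMDiffOn_of_mem_maximalAtlas he') hx'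
    exact a1.comp (e x)
      (mdiffAt e.open_target (contMDiffOn_symm_of_mem_maximalAtlas he) (e.map_source hx))
  have h2 := mdiffAt e.open_source (contMDiffOn_of_mem_maximalAtlas he) hx
  rw [← jac_comp (φ := fun z => e' (e.symm z)) h1 h2]
  refine jac_congr ?_
  filter_upwards [e.open_source.mem_nhds hx] with w hw
  rw [e.left_inv hw]

theorem jac_change_symm {e' : OpenPartialHomeomorph M C2}
    (he : e ∈ IsManifold.maximalAtlas 𝓘(ℂ, C2) 1 M)
    (he' : e' ∈ IsManifold.maximalAtlas 𝓘(ℂ, C2) 1 M) {x : M} (hx : x ∈ e.source)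
    (hx' : x ∈ e'.source) :
    jac e.symm (e x) =
      LinearMap.det (fderiv ℂ (fun z => e' (e.symm z)) (e x)).toLinearMap * jac e'.symm (e' x) := by
  have h := jac_change he he' hx hx'
  have h1 := jac_chart_mul he (e.map_source hx)
  have h2 := jac_chart_mul he' (e'.map_source hx')
  rw [e.left_inv hx] at h1
  rw [e'.left_inv hx'] at h2
  have h3 := jac_chart_ne he hx
  have h4 := jac_chart_ne he' hx'
  have e1 : jac e.symm (e x) = (jac e x)⁻¹ := eq_inv_of_mul_eq_one_right h1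
  have e2 : jac e'.symm (e' x) = (jac e' x)⁻¹ := eq_inv_of_mul_eq_one_right h2
  rw [e1, e2, h]
  have h5 : LinearMap.det (fderiv ℂ (fun z => e' (e.symm z)) (e x)).toLinearMap ≠ 0 := by
    intro h5
    rw [h5, zero_mul] at h
    exact h4 h
  field_simp

end Charts

/-! ### `m`-canonical forms -/

/-- holomorphic `m`-canonical form -/
def PF (m : ℕ) (s : M → ℂ) : Prop :=
  ∀ (ψ : C2 → M) (U : Set C2), IsOpen U → ContMDiffOn 𝓘(ℂ, C2) 𝓘(ℂ, C2) 1 ψ U →
    DifferentiableOn ℂ (fun z => jac ψ z ^ m * s (ψ z)) U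

section Basic

variable {m m' : ℕ} {s s' : M → ℂ}

theorem PF.add (h : PF m s) (h' : PF m s') : PF m (fun x => s x + s' x) := by
  intro ψ U hU hψ
  refine ((h ψ U hU hψ).add (h' ψ U hU hψ)).congr fun z _ => ?_
  simp only [Pi.add_apply]
  ring


theorem PF.mul (h : PF m s) (h' : PF m' s') : PF (m + m') (fun x => s x * s' x) := by
  intro ψ U hU hψ
  refine ((h ψ U hU hψ).mul (h' ψ U hU hψ)).congr fun z _ => ?_
  simp only [Pi.mul_apply]
  ring


/-- it is enough to check the holomorphy in charts -/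
theorem PF.of_charts [IsManifold 𝓘(ℂ, C2) 1 M]
    (h : ∀ x : M, ∃ e ∈ IsManifold.maximalAtlas 𝓘(ℂ, C2) 1 M, x ∈ e.source ∧ ∃ V ∈ 𝓝 (e x),
      DifferentiableOn ℂ (fun z => jac e.symm z ^ m * s (e.symm z)) V) : PF m s := by
  intro ψ U hU hψ z₀ hz₀
  obtain ⟨e, he, hx, V, hV, hd⟩ := h (ψ z₀)
  have hc : ContinuousOn ψ U := hψ.continuousOn
  set W : Set C2 := U ∩ ψ ⁻¹' e.source with hW
  have hWo : IsOpen W := hc.isOpen_inter_preimage hU e.open_source
  have hz₀W : z₀ ∈ W := ⟨hz₀, hx⟩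
  have hh : ContMDiffOn 𝓘(ℂ, C2) 𝓘(ℂ, C2) 1 (fun z => e (ψ z)) W :=
    (contMDiffOn_of_mem_maximalAtlas he).comp (hψ.mono inter_subset_left) fun z hz => hz.2
  have hhd : DifferentiableOn ℂ (fun z => e (ψ z)) W :=
    (contMDiffOn_iff_contDiffOn.1 hh).differentiableOn one_ne_zero
  have h1 : DifferentiableAt ℂ (fun z => e (ψ z)) z₀ := hhd.differentiableAt (hWo.mem_nhds hz₀W)
  have h2 : DifferentiableAt ℂ (fun z => jac e.symm z ^ m * s (e.symm z)) (e (ψ z₀)) :=
    hd.differentiableAt hV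
  have h3 : DifferentiableAt ℂ
      (fun z => LinearMap.det (fderiv ℂ (fun z => e (ψ z)) z).toLinearMap) z₀ :=
    (differentiableOn_det_fderiv hWo hhd).differentiableAt (hWo.mem_nhds hz₀W)
  have h4 : DifferentiableAt ℂ (fun z => (jac e.symm (e (ψ z)) ^ m * s (e.symm (e (ψ z)))) *
      LinearMap.det (fderiv ℂ (fun z => e (ψ z)) z).toLinearMap ^ m) z₀ :=
    (DifferentiableAt.comp z₀ (g := fun z => jac e.symm z ^ m * s (e.symm z))
      (f := fun z => e (ψ z)) h2 h1).mul (h3.pow m)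
  refine (h4.congr_of_eventuallyEq ?_).differentiableWithinAt
  filter_upwards [hWo.mem_nhds hz₀W] with z hz
  have h5 : jac ψ z = jac e.symm (e (ψ z)) * jac (fun z => e (ψ z)) z := by
    rw [← jac_comp (φ := e.symm) (ψ := fun z => e (ψ z))
      (mdiffAt e.open_target (contMDiffOn_symm_of_mem_maximalAtlas he) (e.map_source hz.2))
      (mdiffAt hWo hh hz)]
    refine jac_congr ?_
    filter_upwards [hWo.mem_nhds hz] with w hw
    exact (e.left_inv hw.2).symm
  rw [e.left_inv hz.2, h5, jac_eq_fderiv]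
  ring

/-- identity theorem -/
theorem PF.eq_zero_of_eventually [IsManifold 𝓘(ℂ, C2) 1 M] [PreconnectedSpace M] (h : PF m s)
    {x₀ : M} (h0 : ∀ᶠ x in 𝓝 x₀, s x = 0) (x : M) : s x = 0 := by
  set Z : Set M := {x | ∀ᶠ y in 𝓝 x, s y = 0} with hZ
  have hopen : IsOpen Z := by
    rw [isOpen_iff_mem_nhds]
    intro x hx
    exact eventually_eventually_nhds.2 hx
  have hclosed : IsClosed Z := by
    refine isClosed_of_closure_subset fun x hx => ?_
    set e := chartAt C2 x with he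
    have hem : e ∈ IsManifold.maximalAtlas 𝓘(ℂ, C2) 1 M := IsManifold.chart_mem_maximalAtlas x
    have hxs : x ∈ e.source := mem_chart_source C2 x
    obtain ⟨r, hr, hB⟩ := Metric.isOpen_iff.1 e.open_target (e x) (e.map_source hxs)
    have hF := h e.symm (ball (e x) r) isOpen_ball
      ((contMDiffOn_symm_of_mem_maximalAtlas hem).mono hB)
    have hFa : AnalyticOnNhd ℂ (fun z => jac e.symm z ^ m * s (e.symm z)) (ball (e x) r) :=
      Crest.Agent.R266.SCV.analyticOnNhd_of_differentiableOn isOpen_ball hF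
    have hN : e.source ∩ e ⁻¹' ball (e x) r ∈ 𝓝 x :=
      (e.isOpen_inter_preimage isOpen_ball).mem_nhds ⟨hxs, mem_ball_self hr⟩
    obtain ⟨y, hyN, hyZ⟩ := mem_closure_iff_nhds.1 hx _ hN
    have h1 : (fun z => jac e.symm z ^ m * s (e.symm z)) =ᶠ[𝓝 (e y)] 0 := by
      have h2 : ∀ᶠ z in 𝓝 (e y), s (e.symm z) = 0 := by
        have h3 : Tendsto e.symm (𝓝 (e y)) (𝓝 y) := by
          have := e.continuousAt_symm (e.map_source hyN.1)
          rwa [ContinuousAt, e.left_inv hyN.1] at this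
        exact h3.eventually hyZ
      filter_upwards [h2] with z hz
      rw [hz, mul_zero]
      rfl
    have h4 := hFa.eqOn_zero_of_preconnected_of_eventuallyEq_zero
      (convex_ball _ _).isPreconnected hyN.2 h1
    change ∀ᶠ y in 𝓝 x, s y = 0
    filter_upwards [hN] with y hy
    have h5 := h4 hy.2
    simp only [Pi.zero_apply] at h5
    rw [e.left_inv hy.1] at h5
    rcases mul_eq_zero.1 h5 with h6 | h6
    · exact absurd h6 (pow_ne_zero _ (jac_symm_ne hem (e.map_source hy.1)))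
    · exact h6
  have huniv : Z = univ := IsClopen.eq_univ ⟨hclosed, hopen⟩ ⟨x₀, h0⟩
  have h9 : x ∈ Z := huniv ▸ mem_univ x
  have h10 : ∀ᶠ y in 𝓝 x, s y = 0 := h9
  exact h10.self_of_nhds

/-- vanishing of plurigenera for intrinsic forms -/
theorem PF.eq_zero {X : Type} [TopologicalSpace X] [ChartedSpace C2 X] [IsManifold 𝓘(ℂ, C2) 1 X]
    (hκ : PlurigeneraVanish X) (hm : 1 ≤ m) {s : X → ℂ} (h : PF m s) (x : X) : s x = 0 := by
  let F : PluricanonicalForm X m :=
    { coeff := fun e z => jac e.symm z ^ m * s (e.symm z)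
      holomorphic := fun e he => h e.symm e.target e.open_target
        (contMDiffOn_symm_of_mem_maximalAtlas (IsManifold.subset_maximalAtlas he))
      transform := fun e he e' he' x hx => by
        rw [e.left_inv hx.1, e'.left_inv hx.2, jac_change_symm (IsManifold.subset_maximalAtlas he)
          (IsManifold.subset_maximalAtlas he') hx.1 hx.2, mul_pow, mul_assoc]
        rfl }
  have h1 := hκ m hm F (chartAt C2 x) (chart_mem_atlas C2 x) (chartAt C2 x x)
    (mem_chart_target C2 x)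
  change jac (chartAt C2 x).symm (chartAt C2 x x) ^ m * s ((chartAt C2 x).symm (chartAt C2 x x)) = 0
    at h1
  rw [(chartAt C2 x).left_inv (mem_chart_source C2 x)] at h1
  rcases mul_eq_zero.1 h1 with h6 | h6
  · exact absurd h6 (pow_ne_zero _
      (jac_symm_ne (IsManifold.chart_mem_maximalAtlas x) (mem_chart_target C2 x)))
  · exact h6

end Basic

/-! ### families over an atlas of `Geo_509` -/

section Atl

open Crest.Agent.R275.Geo

variable [IsManifold 𝓘(ℂ, C2) 1 M] (A : Atl 2 M)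

/-- an `m`-canonical form as a family over the charts of `A` -/
structure KFam (m : ℕ) (f : A.ι → M → ℂ) : Prop where
  hol : ∀ i, DifferentiableOn ℂ (fun z => f i ((A.e i).symm z)) (A.e i).target
  tr : ∀ i j, ∀ x ∈ (A.e i).source ∩ (A.e j).source,
    f i x = Matrix.det (Matrix.of (A.J i j x)) ^ m * f j x

theorem det_J (i j : A.ι) (x : M) : Matrix.det (Matrix.of (A.J i j x)) =
    LinearMap.det (fderiv ℂ (fun z => A.e j ((A.e i).symm z)) (A.e i x)).toLinearMap := by
  rw [det_eq]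
  rfl

variable {A} {m : ℕ} {f : A.ι → M → ℂ}

/-- the intrinsic form of a family -/
def ofFam (A : Atl 2 M) (m : ℕ) (f : A.ι → M → ℂ) (x : M) : ℂ :=
  jac (A.e (A.cover x).choose) x ^ m * f (A.cover x).choose x

theorem ofFam_eq (hA : ∀ i, A.e i ∈ IsManifold.maximalAtlas 𝓘(ℂ, C2) 1 M) (hf : KFam A m f)
    (i : A.ι) {x : M} (hx : x ∈ (A.e i).source) : ofFam A m f x = jac (A.e i) x ^ m * f i x := by
  unfold ofFam
  set j := (A.cover x).choose
  have hj : x ∈ (A.e j).source := (A.cover x).choose_spec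
  rw [hf.tr i j x ⟨hx, hj⟩, jac_change (hA i) (hA j) hx hj, det_J]
  ring

theorem pf_ofFam (hA : ∀ i, A.e i ∈ IsManifold.maximalAtlas 𝓘(ℂ, C2) 1 M) (hf : KFam A m f) :
    PF m (ofFam A m f) := by
  refine PF.of_charts fun x => ?_
  obtain ⟨i, hi⟩ := A.cover x
  refine ⟨A.e i, hA i, hi, (A.e i).target, (A.e i).open_target.mem_nhds ((A.e i).map_source hi),
    (hf.hol i).congr fun z hz => ?_⟩
  rw [ofFam_eq hA hf i ((A.e i).map_target hz), ← mul_assoc, ← mul_pow, mul_comm (jac (A.e i).symm z),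
    jac_chart_mul (hA i) hz, one_pow, one_mul]


theorem KFam.eq_zero (hA : ∀ i, A.e i ∈ IsManifold.maximalAtlas 𝓘(ℂ, C2) 1 M)
    (hz : ∀ s : M → ℂ, PF m s → ∀ x, s x = 0) (hf : KFam A m f) (i : A.ι) {x : M}
    (hx : x ∈ (A.e i).source) : f i x = 0 := by
  have h1 := hz _ (pf_ofFam hA hf) x
  rw [ofFam_eq hA hf i hx] at h1
  rcases mul_eq_zero.1 h1 with h6 | h6
  · exact absurd h6 (pow_ne_zero _ (jac_chart_ne (hA i) hx))
  · exact h6

/-- **Q1** -/
theorem KFam.eq_zero_of_plurigenera {X : Type} [TopologicalSpace X] [ChartedSpace C2 X]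
    [IsManifold 𝓘(ℂ, C2) 1 X] (hκ : PlurigeneraVanish X) {A : Atl 2 X}
    (hA : ∀ i, A.e i ∈ IsManifold.maximalAtlas 𝓘(ℂ, C2) 1 X) (hm : 1 ≤ m) {f : A.ι → X → ℂ}
    (hf : KFam A m f) (i : A.ι) {x : X} (hx : x ∈ (A.e i).source) : f i x = 0 :=
  hf.eq_zero hA (fun _ hs y => hs.eq_zero hκ hm y) i hx

end Atl

end Crest.Agent.R275.Plu825
end
end

-- ▼ part R275/PluCov_825
section

/-!
R275 (S0418), block Q (helper825), leaf Q3': if the plurigenera of `X` vanish, then so do the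
plurigenera of every finite unramified cover of `X` (norm of a canonical form).
-/

set_option autoImplicit false
set_option linter.unusedSectionVars false

open Set Filter Topology Metric Crest.AlgGeometry.Surface
open scoped Manifold ContDiff

noncomputable section

namespace Crest.Agent.R275.Plu825

variable {M X : Type} [TopologicalSpace M] [ChartedSpace C2 M] [TopologicalSpace X]
  [ChartedSpace C2 X]

/-- `N` holomorphic sheets of `π` over the open set `V` -/
structure Sheets (N : ℕ) (π : M → X) (V : Set X) (σ : Fin N → X → M) : Prop where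
  openV : IsOpen V
  hol : ∀ k, ContMDiffOn 𝓘(ℂ, C2) 𝓘(ℂ, C2) 1 (σ k) V
  sec : ∀ k, ∀ v ∈ V, π (σ k v) = v
  inj : ∀ k l, ∀ v ∈ V, σ k v = σ l v → k = l
  surj : ∀ y, π y ∈ V → ∃ k, σ k (π y) = y

/-- a holomorphic `N`-sheeted covering -/
structure HCov (N : ℕ) (π : M → X) : Prop where
  hol : ContMDiff 𝓘(ℂ, C2) 𝓘(ℂ, C2) 1 π
  sheets : ∀ x, ∃ V, x ∈ V ∧ ∃ σ, Sheets N π V σ

variable {N m : ℕ} {π : M → X} {s : M → ℂ}

namespace Sheets

variable {V : Set X} {σ : Fin N → X → M}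

theorem jac_mul (h : Sheets N π V σ) (hπ : ContMDiff 𝓘(ℂ, C2) 𝓘(ℂ, C2) 1 π) (k : Fin N) {v : X}
    (hv : v ∈ V) : jac π (σ k v) * jac (σ k) v = 1 := by
  refine jac_mul_of_leftInv ((hπ _).mdifferentiableAt one_ne_zero) (mdiffAt h.openV (h.hol k) hv) ?_
  filter_upwards [h.openV.mem_nhds hv] with w hw
  exact h.sec k w hw

end Sheets


/-- the norm of the weight-`m` form `s` -/
def nrm (π : M → X) (m : ℕ) (s : M → ℂ) (x : X) : ℂ :=
  ∏ᶠ y : {y // π y = x}, (jac π y.1)⁻¹ ^ m * s y.1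

theorem nrm_eq {V : Set X} {σ : Fin N → X → M} (h : Sheets N π V σ)
    (hπ : ContMDiff 𝓘(ℂ, C2) 𝓘(ℂ, C2) 1 π) {x : X} (hx : x ∈ V) :
    nrm π m s x = ∏ k, (jac (σ k) x ^ m * s (σ k x)) := by
  unfold nrm
  rw [← finprod_eq_prod_of_fintype]
  let ε : Fin N → {y // π y = x} := fun k => ⟨σ k x, h.sec k x hx⟩
  have hε : Function.Bijective ε := by
    constructor
    · intro k l hkl
      exact h.inj k l x hx (congrArg Subtype.val hkl)
    · rintro ⟨y, hy⟩
      obtain ⟨k, hk⟩ := h.surj y (by rw [hy]; exact hx)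
      refine ⟨k, Subtype.ext ?_⟩
      rw [hy] at hk
      exact hk
  refine (finprod_eq_of_bijective ε hε fun k => ?_).symm
  have h1 := h.jac_mul hπ k hx
  rw [eq_inv_of_mul_eq_one_right h1]

theorem differentiableAt_prod {ι : Type*} {F : ι → C2 → ℂ} {z₀ : C2} (S : Finset ι)
    (h : ∀ k, DifferentiableAt ℂ (F k) z₀) :
    DifferentiableAt ℂ (fun z => ∏ k ∈ S, F k z) z₀ := by
  classical
  induction S using Finset.induction_on with
  | empty => simp
  | insert k S hk ih =>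
    simp only [Finset.prod_insert hk]
    exact (h k).mul ih

/-- the norm is a form of weight `m N` -/
theorem PF.nrm (hπ : HCov N π) (hs : PF m s) : PF (m * N) (nrm π m s) := by
  intro ψ U hU hψ z₀ hz₀
  obtain ⟨V, hV, σ, hσ⟩ := hπ.sheets (ψ z₀)
  set W : Set C2 := U ∩ ψ ⁻¹' V with hW
  have hWo : IsOpen W := hψ.continuousOn.isOpen_inter_preimage hU hσ.openV
  have hz₀W : z₀ ∈ W := ⟨hz₀, hV⟩
  have h1 : ∀ k, DifferentiableAt ℂ
      (fun z => jac (fun z => σ k (ψ z)) z ^ m * s (σ k (ψ z))) z₀ := fun k =>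
    (hs (fun z => σ k (ψ z)) W hWo ((hσ.hol k).comp (hψ.mono inter_subset_left)
      fun z hz => hz.2)).differentiableAt (hWo.mem_nhds hz₀W)
  have h2 : DifferentiableAt ℂ
      (fun z => ∏ k, (jac (fun z => σ k (ψ z)) z ^ m * s (σ k (ψ z)))) z₀ :=
    differentiableAt_prod Finset.univ h1
  refine (h2.congr_of_eventuallyEq ?_).differentiableWithinAt
  filter_upwards [hWo.mem_nhds hz₀W] with z hz
  rw [nrm_eq hσ hπ.hol hz.2, pow_mul]
  have h3 : (jac ψ z ^ m) ^ N = ∏ k : Fin N, jac ψ z ^ m := by simp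
  rw [h3, ← Finset.prod_mul_distrib]
  refine Finset.prod_congr rfl fun k _ => ?_
  rw [jac_comp (mdiffAt hσ.openV (hσ.hol k) hz.2) (mdiffAt hU hψ hz.1)]
  ring

/-- a product of analytic functions on a connected open set, none of which vanishes
identically, does not vanish identically near any point -/
theorem frequently_prod_ne {ι : Type*} {F : ι → C2 → ℂ} {U : Set C2} (hU : IsOpen U)
    (hUc : IsPreconnected U) (hF : ∀ k, AnalyticOnNhd ℂ (F k) U) (S : Finset ι)
    (hne : ∀ k ∈ S, ∃ z ∈ U, F k z ≠ 0) :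
    ∀ z ∈ U, ∃ᶠ w in 𝓝 z, ∏ k ∈ S, F k w ≠ 0 := by
  classical
  induction S using Finset.induction_on with
  | empty =>
    intro z hz
    simp
  | insert k S hk ih =>
    intro z hz
    have h1 := ih (fun l hl => hne l (Finset.mem_insert_of_mem hl)) z hz
    intro h2
    -- `h2 : ∀ᶠ w, ¬ (∏ ≠ 0)`
    have h3 : ∀ᶠ w in 𝓝 z, ∏ k ∈ insert k S, F k w = 0 := h2.mono fun w hw => not_not.1 hw
    obtain ⟨w, hw1, hw2, hwU⟩ :=
      (h1.and_eventually ((eventually_eventually_nhds.2 h3).and (hU.mem_nhds hz))).exists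
    have h4 : ∀ᶠ v in 𝓝 w, ∏ k ∈ S, F k v ≠ 0 := by
      have : ContinuousAt (fun v => ∏ k ∈ S, F k v) w :=
        tendsto_finsetProd _ fun l _ => ((hF l) w hwU).continuousAt
      exact this.eventually_ne hw1
    have h5 : F k =ᶠ[𝓝 w] 0 := by
      filter_upwards [hw2, h4] with v hv1 hv2
      rw [Finset.prod_insert hk] at hv1
      rcases mul_eq_zero.1 hv1 with h | h
      · exact h
      · exact absurd h hv2
    obtain ⟨v, hvU, hv⟩ := hne k (Finset.mem_insert_self _ _)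
    exact hv ((hF k).eqOn_zero_of_preconnected_of_eventuallyEq_zero hUc hwU h5 hvU)

/-- **Q3'** the plurigenera of a connected finite cover vanish -/
theorem PF.eq_zero_of_cover [IsManifold 𝓘(ℂ, C2) 1 X] [IsManifold 𝓘(ℂ, C2) 1 M]
    [T2Space M] [PreconnectedSpace M] (hκ : PlurigeneraVanish X) (hπ : HCov N π) (hm : 1 ≤ m)
    (hs : PF m s) (y : M) : s y = 0 := by
  obtain ⟨V, hV, σ, hσ⟩ := hπ.sheets (π y)
  have hN : 1 ≤ N := by
    obtain ⟨k, -⟩ := hσ.surj y hV
    exact Nat.one_le_iff_ne_zero.2 fun h => by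
      subst h
      exact k.elim0
  have hn := (hs.nrm hπ).eq_zero hκ (Nat.mul_pos hm hN)
  set e := chartAt C2 (π y) with he
  have hem : e ∈ IsManifold.maximalAtlas 𝓘(ℂ, C2) 1 X := IsManifold.chart_mem_maximalAtlas _
  have hys : π y ∈ e.source := mem_chart_source C2 _
  have hO : IsOpen (e.target ∩ e.symm ⁻¹' V) := e.isOpen_inter_preimage_symm hσ.openV
  obtain ⟨r, hr, hB⟩ := Metric.isOpen_iff.1 hO (e (π y))
    ⟨e.map_source hys, by rw [mem_preimage, e.left_inv hys]; exact hV⟩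
  set B := ball (e (π y)) r
  have hψ : ContMDiffOn 𝓘(ℂ, C2) 𝓘(ℂ, C2) 1 e.symm B :=
    (contMDiffOn_symm_of_mem_maximalAtlas hem).mono fun z hz => (hB hz).1
  have hmaps : ∀ z ∈ B, e.symm z ∈ V := fun z hz => (hB hz).2
  have hF : ∀ k, AnalyticOnNhd ℂ
      (fun z => jac (fun z => σ k (e.symm z)) z ^ m * s (σ k (e.symm z))) B := fun k =>
    Crest.Agent.R266.SCV.analyticOnNhd_of_differentiableOn isOpen_ball
      (hs (fun z => σ k (e.symm z)) B isOpen_ball ((hσ.hol k).comp hψ hmaps))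
  -- one of the sheets carries an identically vanishing form
  have h1 : ∃ k, ∀ z ∈ B, jac (fun z => σ k (e.symm z)) z ^ m * s (σ k (e.symm z)) = 0 := by
    by_contra hcon
    push Not at hcon
    have h2 := frequently_prod_ne isOpen_ball (convex_ball _ _).isPreconnected hF Finset.univ
      (fun k _ => hcon k) (e (π y)) (mem_ball_self hr)
    refine h2 ?_
    filter_upwards [isOpen_ball.mem_nhds (mem_ball_self hr)] with z hz
    rw [not_not]
    have h3 := hn (e.symm z)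
    rw [nrm_eq hσ hπ.hol (hmaps z hz)] at h3
    have h4 : ∀ k, jac (fun z => σ k (e.symm z)) z ^ m * s (σ k (e.symm z)) =
        jac e.symm z ^ m * (jac (σ k) (e.symm z) ^ m * s (σ k (e.symm z))) := by
      intro k
      rw [jac_comp (mdiffAt hσ.openV (hσ.hol k) (hmaps z hz)) (mdiffAt isOpen_ball hψ hz)]
      ring
    rw [Finset.prod_congr rfl fun k _ => h4 k, Finset.prod_mul_distrib, h3, mul_zero]
  obtain ⟨k, hk⟩ := h1
  -- so `s` vanishes near the point `σ k (π y)`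
  refine hs.eq_zero_of_eventually (x₀ := σ k (π y)) ?_ y
  have hcont : Tendsto (fun w => e (π w)) (𝓝 (σ k (π y))) (𝓝 (e (π y))) := by
    have h5 : ContinuousAt π (σ k (π y)) := hπ.hol.continuous.continuousAt
    have h6 : ContinuousAt e (π (σ k (π y))) := by
      rw [hσ.sec k _ hV]
      exact e.continuousAt hys
    have h7 : ContinuousAt (fun w => e (π w)) (σ k (π y)) := h6.comp h5
    rw [ContinuousAt, hσ.sec k _ hV] at h7
    exact h7
  -- near `σ k (π y)` every point is on the sheet `k`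
  have hπc : Tendsto π (𝓝 (σ k (π y))) (𝓝 (π y)) := by
    have h5 : ContinuousAt π (σ k (π y)) := hπ.hol.continuous.continuousAt
    rw [ContinuousAt, hσ.sec k _ hV] at h5
    exact h5
  have hVn : ∀ᶠ w in 𝓝 (σ k (π y)), π w ∈ V := hπc.eventually (hσ.openV.mem_nhds hV)
  have hother : ∀ l, l ≠ k → ∀ᶠ w in 𝓝 (σ k (π y)), σ l (π w) ≠ w := by
    intro l hl
    have h5 : Tendsto (fun w => σ l (π w)) (𝓝 (σ k (π y))) (𝓝 (σ l (π y))) :=
      (((hσ.hol l).continuousOn.continuousAt (hσ.openV.mem_nhds hV)).tendsto).comp hπc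
    have h6 : Tendsto (fun w => (σ l (π w), w)) (𝓝 (σ k (π y)))
        (𝓝 (σ l (π y), σ k (π y))) := h5.prodMk_nhds tendsto_id
    have h7 : IsOpen {p : M × M | p.1 ≠ p.2} := isOpen_ne_fun continuous_fst continuous_snd
    exact h6.eventually (h7.mem_nhds fun h => hl (hσ.inj l k _ hV h))
  have hsheet : ∀ᶠ w in 𝓝 (σ k (π y)), σ k (π w) = w := by
    have h8 : ∀ᶠ w in 𝓝 (σ k (π y)), ∀ l, l ≠ k → σ l (π w) ≠ w := by
      rw [eventually_all]
      intro l
      by_cases hl : l = k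
      · exact Eventually.of_forall fun w h => absurd hl h
      · exact (hother l hl).mono fun w hw _ => hw
    filter_upwards [h8, hVn] with w hw hwV
    obtain ⟨l, hl⟩ := hσ.surj w hwV
    by_cases h : l = k
    · rw [← h]; exact hl
    · exact absurd hl (hw l h)
  have hball : ∀ᶠ w in 𝓝 (σ k (π y)), e (π w) ∈ B :=
    hcont.eventually (isOpen_ball.mem_nhds (mem_ball_self hr))
  have hsrc : ∀ᶠ w in 𝓝 (σ k (π y)), π w ∈ e.source :=
    hπc.eventually (e.open_source.mem_nhds hys)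
  filter_upwards [hsheet, hball, hsrc, hVn] with w hw1 hw2 hw3 hw4
  have h11 := hk (e (π w)) hw2
  rw [e.left_inv hw3, hw1] at h11
  rcases mul_eq_zero.1 h11 with h12 | h12
  · refine absurd h12 (pow_ne_zero _ ?_)
    have h13 : jac (fun z => σ k (e.symm z)) (e (π w)) =
        jac (σ k) (π w) * jac e.symm (e (π w)) := by
      rw [jac_comp (by rw [e.left_inv hw3]; exact mdiffAt hσ.openV (hσ.hol k) hw4)
        (mdiffAt isOpen_ball hψ hw2), e.left_inv hw3]
    rw [h13]
    refine mul_ne_zero (fun h => ?_) (jac_symm_ne hem (e.map_source hw3))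
    have h14 := hσ.jac_mul hπ.hol k hw4
    rw [h, mul_zero] at h14
    exact zero_ne_one h14
  · exact h12

/-- **Q3'** for families over an atlas of `Geo_509` (`m = 1`: `p_g = 0`) -/
theorem KFam.eq_zero_of_cover [IsManifold 𝓘(ℂ, C2) 1 X] [IsManifold 𝓘(ℂ, C2) 1 M]
    [T2Space M] [PreconnectedSpace M] (hκ : PlurigeneraVanish X) (hπ : HCov N π) {A : Geo.Atl 2 M}
    (hA : ∀ i, A.e i ∈ IsManifold.maximalAtlas 𝓘(ℂ, C2) 1 M) (hm : 1 ≤ m) {f : A.ι → M → ℂ}
    (hf : KFam A m f) (i : A.ι) {y : M} (hy : y ∈ (A.e i).source) : f i y = 0 :=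
  hf.eq_zero hA (fun _ hs y => PF.eq_zero_of_cover hκ hπ hm hs y) i hy

end Crest.Agent.R275.Plu825
end
end

-- ▼ part R275/NAtlX_293
section

/-!
# R275, block K/P (helper293): the nested atlas of a compact complex manifold

`nAtl G h8 : NAtl m M` from `G : GoodCover (Cn m) M` with `8 * G.r < G.R`; `nAtl_good`, `nAtl_max`,
`exists_part_of` (partition of unity data with `0 ≤ ψ`), `exists_nAtl` (existence, subordinate to any
open cover), `exists_nAtl_lift` (with real lifts `ZD` of a circle-valued map).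
-/

set_option autoImplicit false
set_option linter.unusedSectionVars false

open Set Filter Topology Metric
open scoped ContDiff Manifold

namespace Crest.Agent.R275.GC293

open Geo NAtl938 Lt893

noncomputable section

variable {m : ℕ}

theorem aff_symm_mem_ball (c : Cn m) (r : ℝ) (hr : 0 < r) {ρ : ℝ} {z : Cn m} :
    (aff c r hr).symm z ∈ ball c (2 * r * ρ) ↔ z ∈ ball (ctr m) ρ := by
  rw [aff_symm_apply, mem_ball, mem_ball, dist_eq_norm, dist_eq_norm, add_sub_cancel_right,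
    norm_smul]
  have h1 : ‖((2 * r : ℝ) : ℂ)‖ = 2 * r := by
    rw [Complex.norm_real, Real.norm_of_nonneg (by positivity)]
  rw [h1]
  exact mul_lt_mul_iff_right₀ (by positivity)

theorem aff_mem_ball (c : Cn m) (r : ℝ) (hr : 0 < r) {ρ : ℝ} {w : Cn m} :
    aff c r hr w ∈ ball (ctr m) ρ ↔ w ∈ ball c (2 * r * ρ) := by
  rw [← aff_symm_mem_ball c r hr, Homeomorph.symm_apply_apply]

section

variable {M : Type} [TopologicalSpace M] [ChartedSpace (Cn m) M] (G : GoodCover (Cn m) M)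

theorem GoodCover.R_pos : 0 < G.R := G.r_pos.trans G.r_lt

/-- the big ball -/
def GoodCover.BR (i : Fin G.n) : Set M := cball (G.e i) (G.c i) G.R

theorem GoodCover.isOpen_BR (i : Fin G.n) : IsOpen (G.BR i) := isOpen_cball _ _ _

/-- the normalised big chart -/
def GoodCover.chR (i : Fin G.n) : OpenPartialHomeomorph M (Cn m) :=
  ((G.e i).restrOpen (G.BR i) (G.isOpen_BR i)).transHomeomorph (aff (G.e i (G.c i)) G.R G.R_pos)

theorem GoodCover.chR_source (i : Fin G.n) : (G.chR i).source = G.BR i := by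
  change ((G.e i).restrOpen (G.BR i) (G.isOpen_BR i)).source = _
  rw [OpenPartialHomeomorph.restrOpen_source]
  exact inter_eq_right.2 (cball_subset_source _ _ _)

theorem GoodCover.chR_apply (i : Fin G.n) (x : M) :
    G.chR i x = aff (G.e i (G.c i)) G.R G.R_pos (G.e i x) := rfl


theorem GoodCover.ballR_sub_target (i : Fin G.n) : ball (G.e i (G.c i)) G.R ⊆ (G.e i).target :=
  ball_subset_closedBall.trans (G.ball_sub i)

theorem GoodCover.chR_target (i : Fin G.n) : (G.chR i).target = ball (ctr m) (1 / 2) := by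
  rw [← (G.chR i).image_source_eq_target, G.chR_source]
  have h1 : G.chR i '' G.BR i = aff (G.e i (G.c i)) G.R G.R_pos '' (G.e i '' G.BR i) := by
    rw [image_image]; rfl
  rw [h1, GoodCover.BR, image_cball (G.ballR_sub_target i), ← Homeomorph.preimage_symm]
  ext z
  rw [mem_preimage, ← aff_symm_mem_ball (G.e i (G.c i)) G.R G.R_pos]
  have : 2 * G.R * (1 / 2) = G.R := by ring
  rw [this]

theorem mem_cube_of_ball {z : Cn m} (hz : z ∈ ball (ctr m) (1 / 2)) (p : RI m) :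
    rc z p ∈ Ioo (0 : ℝ) 1 := by
  have h := (aff_symm_mem_ball (0 : Cn m) 1 one_pos (ρ := 1 / 2) (z := z)).2 hz
  have h2 : (2 * 1 * (1 / 2) : ℝ) = 1 := by norm_num
  rw [h2] at h
  exact rc_mem_of_ball 0 1 one_pos h p

variable [IsManifold 𝓘(ℂ, Cn m) 1 M]

/-- the nested atlas of a good cover -/
def nAtl (h8 : 8 * G.r < G.R) : NAtl m M where
  ι := Fin G.n
  E := G.chR
  z₀ := ctr m
  r := G.r / (2 * G.R)
  R := 1 / 2
  r_pos := by
    have h1 := G.r_pos
    have h2 := G.R_pos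
    positivity
  r_lt := by
    have h2 := G.R_pos
    rw [mul_div_assoc', div_lt_iff₀ (by positivity)]
    linarith
  tgt := G.chR_target
  cube _ hz p := mem_cube_of_ball hz p
  cover x := by
    obtain ⟨i, hi⟩ := G.cover x
    have h1 := G.r_pos
    have h2 := G.R_pos
    refine ⟨i, ?_, ?_⟩
    · rw [G.chR_source]
      exact cball_mono _ _ (by linarith [G.r_lt]) hi
    · rw [G.chR_apply, aff_mem_ball]
      refine ball_subset_ball ?_ hi.2
      have : 2 * G.R * (G.r / (2 * G.R)) = G.r := by field_simp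
      rw [this]
      linarith
  holo i j := by
    have h0 : ContDiffOn ℂ ω ((G.e i).symm ≫ₕ G.e j) ((G.e i).symm ≫ₕ G.e j).source :=
      contDiffOn_transition (G.e_mem i) (G.e_mem j)
    have h1 : DifferentiableOn ℂ ((G.e i).symm ≫ₕ G.e j) ((G.e i).symm ≫ₕ G.e j).source :=
      h0.differentiableOn (by simp)
    intro z hz
    apply DifferentiableAt.differentiableWithinAt
    have hz1 : (aff (G.e i (G.c i)) G.R G.R_pos).symm z ∈ ((G.e i).symm ≫ₕ G.e j).source := by
      rw [OpenPartialHomeomorph.trans_source, OpenPartialHomeomorph.symm_source]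
      refine ⟨G.ballR_sub_target i ?_, ?_⟩
      · have h3 : z ∈ ball (ctr m) (1 / 2) := by
          rw [← G.chR_target i]
          exact hz.1
        have h4 := (aff_symm_mem_ball (G.e i (G.c i)) G.R G.R_pos).2 h3
        have h5 : 2 * G.R * (1 / 2) = G.R := by ring
        rwa [h5] at h4
      · have h3 : (G.chR i).symm z ∈ G.BR j := by
          rw [← G.chR_source j]
          exact hz.2
        exact cball_subset_source _ _ _ h3
    have h2 : DifferentiableAt ℂ ((G.e i).symm ≫ₕ G.e j)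
        ((aff (G.e i (G.c i)) G.R G.R_pos).symm z) :=
      h1.differentiableAt (((G.e i).symm ≫ₕ G.e j).open_source.mem_nhds hz1)
    have h3 : DifferentiableAt ℂ (fun z => aff (G.e j (G.c j)) G.R G.R_pos
        (((G.e i).symm ≫ₕ G.e j) ((aff (G.e i (G.c i)) G.R G.R_pos).symm z))) z :=
      (differentiable_aff _ _ _).differentiableAt.comp z
        (h2.comp z (differentiable_aff_symm _ _ _).differentiableAt)
    exact h3

variable (h8 : 8 * G.r < G.R)

theorem nAtl_B {ρ : ℝ} (hρ : ρ ≤ 1 / 2) (j : Fin G.n) :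
    (nAtl G h8).B ρ j = cball (G.e j) (G.c j) (2 * G.R * ρ) := by
  have hR := G.R_pos
  ext x
  have h1 : x ∈ (nAtl G h8).B ρ j ↔ x ∈ (G.chR j).source ∧ G.chR j x ∈ ball (ctr m) ρ := Iff.rfl
  rw [h1, G.chR_source, G.chR_apply, aff_mem_ball]
  constructor
  · rintro ⟨h2, h3⟩
    exact ⟨h2.1, h3⟩
  · rintro ⟨h2, h3⟩
    refine ⟨⟨h2, ball_subset_ball ?_ h3⟩, h3⟩
    nlinarith

theorem convex_nAtl (i j : Fin G.n) {ρ : ℝ} (hρ : ρ ≤ 1 / 2) :
    Convex ℝ (G.chR i '' ((G.chR i).source ∩ cball (G.e j) (G.c j) (2 * G.R * ρ))) := by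
  have hR := G.R_pos
  have hρR : 2 * G.R * ρ ≤ G.R := by nlinarith
  rw [G.chR_source]
  rcases (G.BR i ∩ cball (G.e j) (G.c j) (2 * G.R * ρ)).eq_empty_or_nonempty with he | hne
  · rw [he, image_empty]; exact convex_empty
  have hmeet : (cball (G.e i) (G.c i) G.R ∩ cball (G.e j) (G.c j) G.R).Nonempty :=
    hne.mono (inter_subset_inter_right _ (cball_mono _ _ hρR))
  obtain ⟨h1, h2⟩ := G.meet i j hmeet (2 * G.R * ρ) hρR
  have hsub : cball (G.e j) (G.c j) (2 * G.R * ρ) ⊆ (G.e i).source := by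
    intro y hy
    exact h1 ⟨G.e j y, ball_subset_closedBall hy.2, (G.e j).left_inv hy.1⟩
  have h3 : G.chR i '' (G.BR i ∩ cball (G.e j) (G.c j) (2 * G.R * ρ)) =
      aff (G.e i (G.c i)) G.R G.R_pos '' (ball (G.e i (G.c i)) G.R ∩
        G.e i '' cball (G.e j) (G.c j) (2 * G.R * ρ)) := by
    have h4 : G.e i '' (G.BR i ∩ cball (G.e j) (G.c j) (2 * G.R * ρ)) =
        ball (G.e i (G.c i)) G.R ∩ G.e i '' cball (G.e j) (G.c j) (2 * G.R * ρ) := by
      have h6 : G.BR i = cball (G.e i) (G.c i) G.R := rfl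
      rw [h6, ((G.e i).injOn).image_inter (cball_subset_source _ _ _) hsub,
        image_cball (G.ballR_sub_target i)]
    rw [← h4, image_image]
    rfl
  rw [h3]
  have h5 : Convex ℝ (ball (G.e i (G.c i)) G.R ∩
      G.e i '' cball (G.e j) (G.c j) (2 * G.R * ρ)) := (convex_ball _ _).inter h2
  rw [← Homeomorph.preimage_symm]
  intro x hx y hy a b ha hb hab
  rw [mem_preimage] at hx hy ⊢
  rw [aff_symm_combo _ _ _ _ _ hab]
  exact h5 hx hy ha hb hab

theorem nAtl_good : (nAtl G h8).Good := by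
  refine ⟨fun i j ρ hρ => ?_⟩
  have hρ' : ρ ≤ 1 / 2 := hρ
  rw [nAtl_B G h8 hρ' j]
  exact convex_nAtl G i j hρ'

theorem nAtl_max (i : (nAtl G h8).ι) :
    (nAtl G h8).E i ∈ IsManifold.maximalAtlas 𝓘(ℂ, Cn m) 1 M := by
  have H : ∀ i : Fin G.n, G.chR i ∈ IsManifold.maximalAtlas 𝓘(ℂ, Cn m) 1 M := by
    intro i
    have hmax : G.e i ∈ IsManifold.maximalAtlas 𝓘(ℂ, Cn m) 1 M :=
      IsManifold.subset_maximalAtlas (G.e_mem i)
    apply OpenPartialHomeomorph.mem_maximalAtlas_of_contMDiffOn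
    · have h1 : ContMDiffOn 𝓘(ℂ, Cn m) 𝓘(ℂ, Cn m) 1 (G.e i) (G.BR i) :=
        (contMDiffOn_of_mem_maximalAtlas hmax).mono (cball_subset_source _ _ _)
      have h2 : ContMDiff 𝓘(ℂ, Cn m) 𝓘(ℂ, Cn m) 1 (aff (G.e i (G.c i)) G.R G.R_pos) :=
        (Lt893.contDiff_aff _ _ _).contMDiff
      rw [G.chR_source]
      exact h2.comp_contMDiffOn h1
    · have h1 : ContMDiffOn 𝓘(ℂ, Cn m) 𝓘(ℂ, Cn m) 1 (G.e i).symm (ball (G.e i (G.c i)) G.R) :=
        (contMDiffOn_symm_of_mem_maximalAtlas hmax).mono (G.ballR_sub_target i)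
      have h2 : ContMDiff 𝓘(ℂ, Cn m) 𝓘(ℂ, Cn m) 1 (aff (G.e i (G.c i)) G.R G.R_pos).symm :=
        (Lt893.contDiff_aff_symm _ _ _).contMDiff
      rw [G.chR_target]
      refine h1.comp h2.contMDiffOn (fun z hz => ?_)
      have h4 := (aff_symm_mem_ball (G.e i (G.c i)) G.R G.R_pos).2 hz
      have h5 : 2 * G.R * (1 / 2) = G.R := by ring
      rwa [h5] at h4
  exact H i

end

/-! ### general nested atlases -/

section NA

variable {M : Type} [TopologicalSpace M] [ChartedSpace (Cn m) M] [IsManifold 𝓘(ℂ, Cn m) 1 M]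

theorem at'_max {N : NAtl m M}
    (hN : ∀ i, N.E i ∈ IsManifold.maximalAtlas 𝓘(ℂ, Cn m) 1 M) {ρ : ℝ} (hρ : N.r ≤ ρ)
    (i : N.ι) : (N.at' ρ hρ).e i ∈ IsManifold.maximalAtlas 𝓘(ℂ, Cn m) 1 M := by
  apply OpenPartialHomeomorph.mem_maximalAtlas_of_contMDiffOn
  · have h1 : ContMDiffOn 𝓘(ℂ, Cn m) 𝓘(ℂ, Cn m) 1 (N.E i) (N.E i).source :=
      contMDiffOn_of_mem_maximalAtlas (hN i)
    rw [N.at'_source hρ]
    exact h1.mono (N.B_sub ρ i)
  · have h1 : ContMDiffOn 𝓘(ℂ, Cn m) 𝓘(ℂ, Cn m) 1 (N.E i).symm (N.E i).target :=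
      contMDiffOn_symm_of_mem_maximalAtlas (hN i)
    refine h1.mono ?_
    intro z hz
    have h2 : z ∈ (N.at' ρ hρ).e i '' ((N.at' ρ hρ).e i).source := by
      rw [OpenPartialHomeomorph.image_source_eq_target]
      exact hz
    obtain ⟨x, hx, rfl⟩ := h2
    rw [N.at'_source hρ] at hx
    exact (N.E i).map_source hx.1

/-- partition of unity data with `0 ≤ ψ`, for every finite atlas of holomorphic charts of a compact
complex manifold -/
theorem exists_part_of [CompactSpace M] [T2Space M] (A : Atl m M) (hA : HolA A)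
    (hfin : Finite A.ι) : ∃ P : Part A, (∀ i x, 0 ≤ P.ψ i x) ∧ (∀ i x, P.ψ i x ≤ 1) ∧
      ∀ i x, 0 ≤ P.χ i x ∧ P.χ i x ≤ 1 := by
  have : IsManifold 𝓘(ℝ, Cn m) ∞ M := ZC352.isManifold_real
  have hsm : ∀ f : M → ℝ, ContMDiff 𝓘(ℝ, Cn m) 𝓘(ℝ, ℝ) ∞ f → A.Sm f :=
    fun f hf i => hA.smAt hf.contMDiffOn
  obtain ⟨f, hf⟩ := SmoothPartitionOfUnity.exists_isSubordinate 𝓘(ℝ, Cn m) (s := (univ : Set M))
    isClosed_univ (fun i => (A.e i).source) (fun i => (A.e i).open_source)
    (fun x _ => mem_iUnion.2 (A.cover x))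
  have h1 : ∀ i : A.ι, ∃ χ : C^∞⟮𝓘(ℝ, Cn m), M; 𝓘(ℝ), ℝ⟯,
      (∀ᶠ x in 𝓝ˢ ((A.e i).source)ᶜ, χ x = 0) ∧
      (∀ᶠ x in 𝓝ˢ (tsupport (f i)), χ x = 1) ∧ ∀ x, χ x ∈ Icc (0 : ℝ) 1 := by
    intro i
    apply exists_contMDiffMap_zero_one_nhds_of_isClosed
    · exact (A.e i).open_source.isClosed_compl
    · exact isClosed_tsupport _
    · rw [disjoint_compl_left_iff_subset]
      exact hf i
  choose χ hχ0 hχ1 hχ using h1
  have hsub : ∀ i, tsupport (χ i) ⊆ (A.e i).source := by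
    intro i x hx
    by_contra hxs
    have h2 : ∀ᶠ y in 𝓝 x, χ i y = 0 :=
      (hχ0 i).filter_mono (nhds_le_nhdsSet (mem_compl hxs))
    exact (notMem_tsupport_iff_eventuallyEq.2 h2) hx
  refine ⟨⟨fun i x => f i x, fun i x => χ i x, fun i => hsm _ (f i).contMDiff,
    fun i => hsm _ (χ i).contMDiff, fun i => (isClosed_tsupport _).isCompact, hsub,
    fun i x hx => (hχ1 i).filter_mono (nhds_le_nhdsSet hx), fun K hK => Set.toFinite _,
    fun x => f.sum_eq_one (mem_univ x)⟩, fun i x => f.nonneg i x, fun i x => f.le_one i x,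
    fun i x => hχ i x⟩

/-- **existence of good nested atlases** on compact complex manifolds, with any ratio `κ₀` of the
radii -/
theorem exists_nAtl_ratio [CompactSpace M] [T2Space M] (κ₀ : ℝ)
    {κ : Type*} (O : κ → Set M) (hO : ∀ k, IsOpen (O k)) (hOc : ∀ x, ∃ k, x ∈ O k) :
    ∃ N : NAtl m M, κ₀ * N.r < N.R ∧ N.Good ∧ Finite N.ι ∧
      (∀ i, N.E i ∈ IsManifold.maximalAtlas 𝓘(ℂ, Cn m) 1 M) ∧
      (∀ i, ∃ k, (N.E i).source ⊆ O k) ∧
      ∀ (ρ : ℝ) (hρ : N.r ≤ ρ), HolA (N.at' ρ hρ) ∧ ∃ P : Part (N.at' ρ hρ),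
        (∀ i x, 0 ≤ P.ψ i x) ∧ (∀ i x, P.ψ i x ≤ 1) ∧ ∀ i x, 0 ≤ P.χ i x ∧ P.χ i x ≤ 1 := by
  obtain ⟨G, hG, h9, -⟩ := exists_goodCover_complex_ratio (m := m) (M := M) O hO hOc
    (max 8 κ₀ + 1) one_pos
  have h8 : 8 * G.r < G.R := by
    have := G.r_pos
    have h1 := le_max_left (8 : ℝ) κ₀
    nlinarith
  have hκ : κ₀ * G.r < G.R := by
    have := G.r_pos
    have h1 := le_max_right (8 : ℝ) κ₀
    nlinarith
  have hfin : Finite (nAtl G h8).ι := inferInstanceAs (Finite (Fin G.n))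
  have hmax := nAtl_max G h8
  refine ⟨nAtl G h8, ?_, nAtl_good G h8, hfin, hmax, ?_, fun ρ hρ => ?_⟩
  · have h2 := G.R_pos
    change κ₀ * (G.r / (2 * G.R)) < 1 / 2
    rw [mul_div_assoc', div_lt_iff₀ (by positivity)]
    linarith
  · have H : ∀ i : Fin G.n, ∃ k, (G.chR i).source ⊆ O k := by
      intro i
      obtain ⟨k, hk⟩ := hG i
      exact ⟨k, by rw [G.chR_source]; exact hk⟩
    exact H
  · have hH : HolA ((nAtl G h8).at' ρ hρ) := HolA.of_max fun i => at'_max hmax hρ i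
    exact ⟨hH, exists_part_of _ hH hfin⟩


open ZC352 in
/-- **existence of good nested atlases with real lifts of a circle-valued map** (oscillation of the
lifts `≤ 1/4` on the big charts), with any ratio `κ₀` of the radii -/
theorem exists_nAtl_lift_ratio [CompactSpace M] [T2Space M] (κ₀ : ℝ)
    {u : C(M, Circ)} (hu : HasLifts (Cn m) (u : M → Circ))
    {κ : Type} (O : κ → Set M) (hO : ∀ k, IsOpen (O k)) (hOc : ∀ x, ∃ k, x ∈ O k) :
    ∃ (N : NAtl m M) (f : N.ι → M → ℝ), κ₀ * N.r < N.R ∧ N.Good ∧ Finite N.ι ∧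
      (∀ i, N.E i ∈ IsManifold.maximalAtlas 𝓘(ℂ, Cn m) 1 M) ∧
      (∀ i, ∃ k, (N.E i).source ⊆ O k) ∧
      (∀ i, ∀ x ∈ (N.E i).source, ((f i x : ℝ) : Circ) = u x) ∧
      (∀ i, ∀ x ∈ (N.E i).source, ∀ y ∈ (N.E i).source, |f i x - f i y| ≤ 1 / 4) ∧
      ∀ (ρ : ℝ) (hρ : N.r ≤ ρ), HolA (N.at' ρ hρ) ∧
        (∃ Z : ZD (N.at' ρ hρ), Z.f = f ∧ Z.Lift u) ∧
        ∃ P : Part (N.at' ρ hρ),
        (∀ i x, 0 ≤ P.ψ i x) ∧ (∀ i x, P.ψ i x ≤ 1) ∧ ∀ i x, 0 ≤ P.χ i x ∧ P.χ i x ≤ 1 := by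
  have h1 : ∀ x : M, ∃ (W : Set M) (f : M → ℝ), IsOpen W ∧ x ∈ W ∧
      (∀ y ∈ W, (f y : Circ) = u y) ∧ (∀ y ∈ W, ContMDiffAt 𝓘(ℝ, Cn m) 𝓘(ℝ, ℝ) ∞ f y) ∧
      ∀ y ∈ W, |f y - f x| ≤ 1 / 8 := by
    intro x
    obtain ⟨r, hr⟩ := exists_coe_eq (u x)
    obtain ⟨W, f, a, b, -, c, d⟩ := hu x r hr
    have h2 : ∀ᶠ y in 𝓝 x, dist (f y) (f x) < 1 / 8 :=
      (d x b).continuousAt (Metric.ball_mem_nhds _ (by norm_num))
    obtain ⟨W', hW', hW'o, hxW'⟩ := eventually_nhds_iff.1 h2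
    exact ⟨W ∩ W', f, a.inter hW'o, ⟨b, hxW'⟩, fun y hy => c y hy.1, fun y hy => d y hy.1,
      fun y hy => (hW' y hy.2).le⟩
  choose W f hWo hxW hf hfs hfo using h1
  obtain ⟨N, g0, g1, g2, g3, g4, g5⟩ := exists_nAtl_ratio (m := m) (M := M) κ₀
    (κ := κ × M) (fun p => O p.1 ∩ W p.2) (fun p => (hO p.1).inter (hWo p.2)) (fun x => by
      obtain ⟨k, hk⟩ := hOc x
      exact ⟨(k, x), hk, hxW x⟩)
  choose k hk using g4
  refine ⟨N, fun i => f (k i).2, g0, g1, g2, g3, fun i => ⟨(k i).1, (hk i).trans inter_subset_left⟩,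
    fun i x hx => hf _ x (hk i hx).2, fun i x hx y hy => ?_, fun ρ hρ => ⟨(g5 ρ hρ).1, ?_,
      (g5 ρ hρ).2⟩⟩
  · have e1 := hfo _ x (hk i hx).2
    have e2 := hfo _ y (hk i hy).2
    rw [abs_le] at e1 e2 ⊢
    constructor <;> linarith [e1.1, e1.2, e2.1, e2.2]
  · have hsub : ∀ i : N.ι, ((N.at' ρ hρ).e i).source ⊆ (N.E i).source := by
      intro i
      rw [N.at'_source hρ]
      exact N.B_sub ρ i
    refine ⟨⟨fun i => f (k i).2, fun i => (g5 ρ hρ).1.smAt ?_, fun i j x hx => ?_⟩, rfl,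
      fun i x hx => hf _ x (hk i (hsub i hx)).2⟩
    · intro x hx
      exact (hfs _ x (hk i (hsub i hx)).2).contMDiffWithinAt
    · have e1 := hf _ x (hk i (hsub i hx.1)).2
      have e2 := hf _ x (hk j (hsub j hx.2)).2
      obtain ⟨a, ha⟩ := coe_eq_coe_iff.1 (e1.trans e2.symm)
      exact ⟨a, by rw [ha]; ring⟩


end NA

end

end Crest.Agent.R275.GC293
end

-- ▼ part R275/XN5_194

/-!
# R275, leaf XN (helper194), file 5: `X_N` as a compact connected complex manifold

* `XC N u` : charted space, `IsManifold`, `T2`, compact, connected; `XC.pr`, `XC.dk`, `YX : YC u → XC N u`;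
* `act_rel` : `act m (s j x) = s i x` when `f j x - f i x = m` (`YC u`), the same mod `N` (`XC N u`);
* `ch_mem_max` : lifted charts are in the maximal atlas; `holA_lift`, `holA_nlift`;
* `hcov` : `HCov N (XC.pr N u)`.
-/

set_option autoImplicit false
set_option linter.unusedSectionVars false

open Set Filter Topology Complex Metric
open scoped ContDiff Matrix ComplexConjugate Manifold

namespace Crest.Agent.R275.XN194

open Geo NAtl938 ZC352 Lt893

noncomputable section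

/-! ### charts in the maximal atlas -/

section max

variable {n : ℕ} {M Z K : Type} [TopologicalSpace M] [TopologicalSpace Z] [AddCommGroup K]
  [ChartedSpace (Cn n) M] [ChartedSpace (Cn n) Z]

/-- `p` is a local biholomorphism (in the form given by pulled back charts) -/
structure LBi (p : Z → M) : Prop where
  hol : ContMDiff 𝓘(ℂ, Cn n) 𝓘(ℂ, Cn n) 1 p
  into : ∀ (f : Cn n → Z) (x : Cn n), ContinuousAt f x →
    ContMDiffAt 𝓘(ℂ, Cn n) 𝓘(ℂ, Cn n) 1 (fun z => p (f z)) x →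
    ContMDiffAt 𝓘(ℂ, Cn n) 𝓘(ℂ, Cn n) 1 f x

variable {A : Atl n M} (C : KCov A Z K)

theorem ch_holo (h : LBi (n := n) C.p) (hA : HolA A) (i : A.ι) (k : K) :
    ContMDiffOn 𝓘(ℂ, Cn n) 𝓘(ℂ, Cn n) 1 (C.ch i k) (C.ch i k).source :=
  (hA.ch i).comp h.hol.contMDiffOn fun _ hz => hz.1

theorem ch_symm_holo (h : LBi (n := n) C.p) (hA : HolA A) (i : A.ι) (k : K) :
    ContMDiffOn 𝓘(ℂ, Cn n) 𝓘(ℂ, Cn n) 1 (C.ch i k).symm (C.ch i k).target := by
  intro z hz
  refine ContMDiffAt.contMDiffWithinAt (h.into _ z ?_ ?_)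
  · exact (C.ch i k).symm.continuousAt (x := z) hz
  · have h1 : ContMDiffAt 𝓘(ℂ, Cn n) 𝓘(ℂ, Cn n) 1 (A.e i).symm z :=
      (hA.chs i).contMDiffAt ((A.e i).open_target.mem_nhds hz)
    refine h1.congr_of_eventuallyEq ?_
    filter_upwards [(A.e i).open_target.mem_nhds hz] with w hw
    exact C.p_act_s ((A.e i).map_target hw) k

/-- lifted charts are in the maximal atlas -/
theorem ch_mem_max [IsManifold 𝓘(ℂ, Cn n) 1 Z] (h : LBi (n := n) C.p) (hA : HolA A) (i : A.ι)
    (k : K) : C.ch i k ∈ IsManifold.maximalAtlas 𝓘(ℂ, Cn n) 1 Z :=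
  OpenPartialHomeomorph.mem_maximalAtlas_of_contMDiffOn _ (ch_holo C h hA i k)
    (ch_symm_holo C h hA i k)

theorem holA_lift (h : LBi (n := n) C.p) (hA : HolA A) : HolA C.lift :=
  ⟨fun q => ch_holo C h hA q.1 q.2, fun q => ch_symm_holo C h hA q.1 q.2⟩

theorem lift_mem_max [IsManifold 𝓘(ℂ, Cn n) 1 Z] (h : LBi (n := n) C.p) (hA : HolA A)
    (q : C.lift.ι) : C.lift.e q ∈ IsManifold.maximalAtlas 𝓘(ℂ, Cn n) 1 Z :=
  ch_mem_max C h hA q.1 q.2

/-- the charts of the lifted nested atlas are in the maximal atlas -/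
theorem nlift_mem_max [IsManifold 𝓘(ℂ, Cn n) 1 M] [IsManifold 𝓘(ℂ, Cn n) 1 Z] {N : NAtl n M}
    (hN : ∀ i, N.E i ∈ IsManifold.maximalAtlas 𝓘(ℂ, Cn n) 1 M) (C : KCov N.big Z K)
    (h : LBi (n := n) C.p) (q : (nlift N C).ι) :
    (nlift N C).E q ∈ IsManifold.maximalAtlas 𝓘(ℂ, Cn n) 1 Z :=
  ch_mem_max C h (HolA.of_max fun i => GC293.at'_max hN N.r_le_R i) q.1 q.2


end max

/-- a pulled back structure gives `LBi` -/
theorem lbi_of_pull {n : ℕ} {M Z : Type} [TopologicalSpace M] [TopologicalSpace Z]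
    [ChartedSpace (Cn n) M] [IsManifold 𝓘(ℂ, Cn n) 1 M] {p : Z → M}
    (hp : IsLocalHomeomorph p) :
    @LBi n M Z _ _ _ (pullCharted hp) p := by
  letI := pullCharted (H := Cn n) hp
  exact ⟨contMDiff_pullProj hp, fun f x h1 h2 => (contMDiffAt_into_pull_iff hp).2 ⟨h1, h2⟩⟩

/-! ### relations between the base sections -/

section rel

variable {n : ℕ} {M K : Type} [TopologicalSpace M] [AddCommGroup K] {A : Atl n M}
  {u : M → Circ} {T : Type} [TopologicalSpace T] [AddCommGroup T] (G : TG T K)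


end rel

section models

variable {n : ℕ} {M : Type} [TopologicalSpace M] {A : Atl n M} (u : C(M, Circ))
  (L : Lifts A (u : M → Circ))


variable (N : ℕ) [NeZero N]


end models

/-! ### the space `X_N` -/

namespace XC

variable {X : Type} [TopologicalSpace X] (N : ℕ) [NeZero N] (u : C(X, Circ))

/-- the projection -/
def pr : XC N u → X := FP.fst

theorem continuous_pr : Continuous (pr N u) := FP.continuous_fst

theorem lochomeo : IsLocalHomeomorph (pr N u) := FP.isLocalHomeomorph_fst u.continuous (tgN N).lh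

instance [T2Space X] : T2Space (XC N u) := FP.t2

instance [CompactSpace X] : CompactSpace (XC N u) := by
  have hq : Continuous (tgN N).q := (tgN N).lh.continuous
  have h := FP.isCompact_preimage_snd (u := (u : X → Circ)) (q := (tgN N).q) u.continuous hq
    (isCompact_univ : IsCompact (univ : Set Circ))
  exact ⟨h⟩

instance {H : Type} [TopologicalSpace H] [ChartedSpace H X] : ChartedSpace H (XC N u) :=
  pullCharted (lochomeo N u)

instance {𝕜 : Type} [NontriviallyNormedField 𝕜] {E : Type} [NormedAddCommGroup E]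
    [NormedSpace 𝕜 E] {H : Type} [TopologicalSpace H] {I : ModelWithCorners 𝕜 E H}
    {n : WithTop ℕ∞} [ChartedSpace H X] [IsManifold I n X] : IsManifold I n (XC N u) :=
  pull_isManifold (lochomeo N u)

theorem pr_surjective : Function.Surjective (pr N u) := by
  intro x
  obtain ⟨r, hr⟩ := exists_coe_eq (u x)
  exact ⟨FP.mk x ((tgN N).σ r) (by rw [(tgN N).q_σ, hr]), rfl⟩

/-- the covering `Y → X_N` -/
def YX : YC u → XC N u := (thN N).map (u : X → Circ)

theorem pr_YX (y : YC u) : pr N u (YX N u y) = YC.pr u y := rfl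

theorem continuous_YX : Continuous (YX N u) :=
  FP.continuous_mk FP.continuous_fst ((thN N).cont.comp FP.continuous_snd) _

/-- translations of `X_N` -/
def tr (c : ZMod N) : XC N u → XC N u := fpAct (tgN N) (u : X → Circ) c


theorem continuous_tr (c : ZMod N) : Continuous (tr N u c) :=
  FP.continuous_mk FP.continuous_fst (((tgN N).tr_cont c).comp FP.continuous_snd) _

theorem tr_zero (z : XC N u) : tr N u 0 z = z := by
  refine FP.ext rfl ?_
  show z.snd + (tgN N).j 0 = z.snd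
  rw [map_zero, add_zero]

theorem tr_add (c d : ZMod N) (z : XC N u) : tr N u (c + d) z = tr N u c (tr N u d z) := by
  refine FP.ext rfl ?_
  show z.snd + (tgN N).j (c + d) = z.snd + (tgN N).j d + (tgN N).j c
  rw [map_add, add_assoc, add_comm ((tgN N).j c)]

/-- the deck transformation of `X_N` -/
def dk : XC N u ≃ₜ XC N u where
  toFun := tr N u 1
  invFun := tr N u (-1)
  left_inv z := by rw [← tr_add, neg_add_cancel, tr_zero]
  right_inv z := by rw [← tr_add, add_neg_cancel, tr_zero]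
  continuous_toFun := continuous_tr N u 1
  continuous_invFun := continuous_tr N u (-1)

theorem dk_apply (z : XC N u) : dk N u z = tr N u 1 z := rfl

theorem dk_iterate (k : ℕ) (z : XC N u) : (dk N u)^[k] z = tr N u (k : ZMod N) z := by
  induction k with
  | zero => simp [tr_zero]
  | succ k ih =>
    rw [Function.iterate_succ_apply', ih, dk_apply, ← tr_add]
    congr 1
    push_cast
    ring

theorem dk_iterate_N : (dk N u)^[N] = id := by
  funext z
  rw [dk_iterate, ZMod.natCast_self, tr_zero]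
  rfl

theorem tr_free {c : ZMod N} {z : XC N u} (h : tr N u c z = z) : c = 0 := by
  have h1 : z.snd + (tgN N).j c = z.snd := congrArg FP.snd h
  have h2 : (tgN N).j c = 0 := by rwa [add_eq_left] at h1
  exact (tgN N).j_inj (by rw [h2, map_zero])

theorem fib {z z' : XC N u} (h : pr N u z = pr N u z') : ∃ c, tr N u c z = z' := by
  have h1 : (tgN N).q z.snd = (tgN N).q z'.snd := by
    rw [← z.eq, ← z'.eq]
    exact congrArg u h
  obtain ⟨c, hc⟩ := (tgN N).fib _ _ h1
  exact ⟨c, FP.ext h hc⟩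

theorem YX_dk (y : YC u) : YX N u (YC.dk u y) = dk N u (YX N u y) := by
  refine FP.ext rfl ?_
  show (((YC.ht u (YC.dk u y)) / N : ℝ) : Circ) =
    ((YC.ht u y / N : ℝ) : Circ) + -ZMod.toAddCircle (1 : ZMod N)
  have h1 : ZMod.toAddCircle (1 : ZMod N) = ((1 / N : ℝ) : Circ) := by
    have := ZMod.toAddCircle_intCast (N := N) 1
    simpa using this
  rw [YC.ht_dk, h1, ← AddCircle.coe_neg, ← AddCircle.coe_add]
  congr 1
  ring

theorem YX_surjective : Function.Surjective (YX N u) := by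
  intro z
  obtain ⟨y, hy⟩ := YC.pr_surjective u (pr N u z)
  obtain ⟨c, hc⟩ := fib N u (z := YX N u y) (z' := z) hy
  obtain ⟨m, rfl⟩ := ZMod.natCast_zmod_surjective c
  refine ⟨(YC.dk u)^[m] y, ?_⟩
  rw [← hc, ← dk_iterate]
  clear hc hy
  induction m with
  | zero => rfl
  | succ m ih => rw [Function.iterate_succ_apply', YX_dk, ih, Function.iterate_succ_apply']

instance [ConnectedSpace (YC u)] : ConnectedSpace (XC N u) :=
  (YX_surjective N u).connectedSpace (continuous_YX N u)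

section contmdiff

variable {𝕜 : Type} [NontriviallyNormedField 𝕜] {E : Type} [NormedAddCommGroup E]
    [NormedSpace 𝕜 E] {H : Type} [TopologicalSpace H] {I : ModelWithCorners 𝕜 E H}
    {n : WithTop ℕ∞} [ChartedSpace H X] [IsManifold I n X]

theorem contMDiff_pr : ContMDiff I I n (pr N u) := contMDiff_pullProj (lochomeo N u)

theorem contMDiffAt_into_iff {E' : Type} [NormedAddCommGroup E'] [NormedSpace 𝕜 E'] {H' : Type}
    [TopologicalSpace H'] {J : ModelWithCorners 𝕜 E' H'} {N' : Type} [TopologicalSpace N']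
    [ChartedSpace H' N'] {f : N' → XC N u} {x : N'} :
    ContMDiffAt J I n f x ↔ ContinuousAt f x ∧ ContMDiffAt J I n (pr N u ∘ f) x :=
  contMDiffAt_into_pull_iff (lochomeo N u)

theorem contMDiff_tr (c : ZMod N) : ContMDiff I I n (tr N u c) := fun y =>
  (contMDiffAt_into_iff N u).2 ⟨(continuous_tr N u c).continuousAt, contMDiff_pr N u y⟩

theorem contMDiff_YX : ContMDiff I I n (YX N u) := fun y =>
  (contMDiffAt_into_iff N u).2 ⟨(continuous_YX N u).continuousAt, YC.contMDiff_pr u y⟩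

/-- local sections of `X_N → X` -/
theorem exists_section (y : XC N u) : ∃ V : Set X, IsOpen V ∧ pr N u y ∈ V ∧ ∃ σ : X → XC N u,
    ContMDiffOn I I n σ V ∧ σ (pr N u y) = y ∧ (∀ x ∈ V, pr N u (σ x) = x) ∧
      IsOpen (σ '' V) ∧ ∀ᶠ y' in 𝓝 y, σ (pr N u y') = y' := by
  refine ⟨(lh (lochomeo N u) y).target, (lh (lochomeo N u) y).open_target, ?_,
    (lh (lochomeo N u) y).symm, ?_, ?_, ?_, ?_, ?_⟩
  · rw [← lh_apply (lochomeo N u) y]
    exact (lh (lochomeo N u) y).map_source (lh_mem (lochomeo N u) y)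
  · intro x hx
    exact (contMDiffAt_pullSection (lochomeo N u) y hx).contMDiffWithinAt
  · rw [← lh_apply (lochomeo N u) y, (lh (lochomeo N u) y).left_inv (lh_mem (lochomeo N u) y)]
  · intro x hx
    rw [← lh_apply (lochomeo N u) y, (lh (lochomeo N u) y).right_inv hx]
  · have h := (lh (lochomeo N u) y).symm.image_source_eq_target
    rw [OpenPartialHomeomorph.symm_source, OpenPartialHomeomorph.symm_target] at h
    rw [h]
    exact (lh (lochomeo N u) y).open_source
  · filter_upwards [(lh (lochomeo N u) y).open_source.mem_nhds (lh_mem (lochomeo N u) y)] with z hz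
    rw [← lh_apply (lochomeo N u) y, (lh (lochomeo N u) y).left_inv hz]

end contmdiff

theorem lbi {n : ℕ} [ChartedSpace (Cn n) X] [IsManifold 𝓘(ℂ, Cn n) 1 X] :
    LBi (n := n) (pr N u) := lbi_of_pull (lochomeo N u)

end XC

theorem yc_lbi {n : ℕ} {X : Type} [TopologicalSpace X] [ChartedSpace (Cn n) X]
    [IsManifold 𝓘(ℂ, Cn n) 1 X] (u : C(X, Circ)) : LBi (n := n) (YC.pr u) :=
  lbi_of_pull (YC.lochomeo u)

/-! ### `HCov` -/

section hcov

open Crest.AlgGeometry.Surface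

variable {X : Type} [TopologicalSpace X] [ChartedSpace C2 X] [IsManifold 𝓘(ℂ, C2) 1 X]
  (N : ℕ) [NeZero N] (u : C(X, Circ))

/-- **`X_N → X` is a holomorphic `N`-sheeted covering** -/
theorem hcov : Plu825.HCov N (XC.pr N u) where
  hol := XC.contMDiff_pr N u
  sheets x := by
    obtain ⟨y, rfl⟩ := XC.pr_surjective N u x
    obtain ⟨V, hV, hy, σ, hσ, h1, h2, -, -⟩ := XC.exists_section (I := 𝓘(ℂ, C2)) (n := 1) N u y
    refine ⟨V, hy, fun k v => XC.tr N u ((k : ℕ) : ZMod N) (σ v), hV, fun k => ?_,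
      fun k v hv => ?_, fun k l v hv h => ?_, fun z hz => ?_⟩
    · exact (XC.contMDiff_tr N u _).comp_contMDiffOn hσ
    · show XC.pr N u (σ v) = v
      exact h2 v hv
    · have h3 : XC.tr N u (-((l : ℕ) : ZMod N) + ((k : ℕ) : ZMod N)) (σ v) = σ v := by
        rw [XC.tr_add, h, ← XC.tr_add, neg_add_cancel, XC.tr_zero]
      have h4 := XC.tr_free N u h3
      rw [neg_add_eq_zero] at h4
      have h5 := congrArg ZMod.val h4
      rw [ZMod.val_natCast_of_lt l.2, ZMod.val_natCast_of_lt k.2] at h5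
      exact Fin.ext h5.symm
    · obtain ⟨c, hc⟩ := XC.fib N u (z := σ (XC.pr N u z)) (z' := z) (h2 _ hz)
      refine ⟨⟨c.val, ZMod.val_lt c⟩, ?_⟩
      show XC.tr N u ((c.val : ℕ) : ZMod N) _ = z
      rw [ZMod.natCast_zmod_val]
      exact hc

end hcov

end

end Crest.Agent.R275.XN194
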