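import Crest.Agent.R275.ExcC_685
import Crest.Agent.R275.XN5_194
import Crest.Agent.R275.EcV_938
import Crest.Agent.R275.NLift_374
import Crest.Agent.R275.WBGlue_658

-- ▼ part R275/SlabY_194
section

/-!
# R275, block D (helper194): slabs of the infinite cyclic cover inside `X_N`

* `dsc S w` : descent of a function `w` supported in the slab (`Slab C` of `ExcA_685`);
  `dsc_apply`, `dsc_off`, `tsupport_dsc`, `dsc_smAt`, `dsc_sm`, `continuous_dsc`;
  `dscOne S w = 1 + dsc (w - 1)` for `w = 1` off the slab.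
* `Ht C h` : height functions for `C : KCov A Z ℤ` (`h (act m z) = h z - m`);
  `Ht.slab` : `{a < h < b}` is a slab for `F : KHom C C'`, `C' : KCov A Z' (ZMod N)`, `b - a ≤ N`;
* `hsm P` : the smooth height `∑ ψ_(i,k) (-k)`; `hsm_sub_le`.
* `isLift_hom` : `liftP C P` is the lift of `liftP C' P`.
-/

set_option autoImplicit false
set_option linter.unusedSectionVars false

open Set Filter Topology Complex
open scoped ContDiff Matrix ComplexConjugate

namespace Crest.Agent.R275.SlabY194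

open Geo XN194 Exc685 QPb635 GC293

noncomputable section

/-! ### descent of functions -/

section dsc

variable {n : ℕ} {M M' : Type} [TopologicalSpace M] [TopologicalSpace M']
  {A : Atl n M} {A' : Atl n M'} {C : Cov A A'} (S : Slab C)

open Classical in
/-- descent of a function supported in the slab -/
def dsc {W : Type*} [Zero W] (w : M → W) (x' : M') : W :=
  if h : ∃ x ∈ S.Ω, C.p x = x' then w h.choose else 0

section zero

variable {W : Type*} [Zero W] {w : M → W}

theorem dsc_apply {x : M} (hx : x ∈ S.Ω) : dsc S w (C.p x) = w x := by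
  have h : ∃ y ∈ S.Ω, C.p y = C.p x := ⟨x, hx, rfl⟩
  unfold dsc
  rw [dif_pos h]
  congr 1
  exact S.inj _ h.choose_spec.1 _ hx h.choose_spec.2


theorem dsc_off (hw : ∀ x ∉ S.K, w x = 0) {x' : M'} (hx : x' ∉ C.p '' S.K) :
    dsc S w x' = 0 := by
  unfold dsc
  split_ifs with h
  · exact hw _ fun hk => hx ⟨_, hk, h.choose_spec.2⟩
  · rfl





end zero

theorem symm_near {i : A.ι} {x : M} (hi : x ∈ (A.e i).source) (hx : x ∈ S.Ω) :
    ∀ᶠ z in 𝓝 (A.e i x), z ∈ (A.e i).target ∧ (A.e i).symm z ∈ S.Ω := by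
  have h1 : ∀ᶠ z in 𝓝 (A.e i x), z ∈ (A.e i).target :=
    (A.e i).open_target.mem_nhds ((A.e i).map_source hi)
  have h2 : ∀ᶠ z in 𝓝 (A.e i x), (A.e i).symm z ∈ S.Ω := by
    have h := (A.e i).continuousAt_symm ((A.e i).map_source hi)
    rw [ContinuousAt, (A.e i).left_inv hi] at h
    exact h (S.isOpen.mem_nhds hx)
  exact h1.and h2

theorem dsc_smAt {W : Type*} [NormedAddCommGroup W] [NormedSpace ℝ W] {w : M → W}
    (hs : ∀ i, A.SmAt i w) (hw : ∀ x ∉ S.K, w x = 0) (i' : A'.ι) : A'.SmAt i' (dsc S w) := by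
  intro z hz
  refine ContDiffAt.contDiffWithinAt ?_
  have hz' := (A'.e i').map_target hz
  by_cases hS : (A'.e i').symm z ∈ C.p '' S.Ω
  · obtain ⟨i, x, rfl, h1, h2, h3⟩ := S.exists_lift hS hz'
    have hzx : A.e i x = z := by
      rw [← C.comp i x h1, h3, (A'.e (C.r i)).right_inv hz]
    have h4 := symm_near S h1 h2
    rw [hzx] at h4
    have hzt : z ∈ (A.e i).target := h4.self_of_nhds.1
    refine ((hs i).contDiffAt ((A.e i).open_target.mem_nhds hzt)).congr_of_eventuallyEq ?_
    filter_upwards [h4] with y hy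
    rw [← C.p_symm hy.1, dsc_apply S hy.2]
  · have h1 : (A'.e i').symm z ∉ C.p '' S.K := fun h => hS (image_mono S.sub h)
    have h2 : ∀ᶠ y in 𝓝 z, (A'.e i').symm y ∉ C.p '' S.K := by
      have h := (A'.e i').continuousAt_symm hz
      exact h (S.closed'.isOpen_compl.mem_nhds h1)
    refine (contDiffAt_const (c := (0 : W))).congr_of_eventuallyEq ?_
    filter_upwards [h2] with y hy
    exact dsc_off S hw hy



/-! ### functions equal to one off the slab -/

/-- descent of a function equal to `1` off the slab -/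
def dscOne (w : M → ℝ) (x' : M') : ℝ := 1 + dsc S (fun x => w x - 1) x'

variable {w : M → ℝ}

theorem dscOne_apply {x : M} (hx : x ∈ S.Ω) : dscOne S w (C.p x) = w x := by
  unfold dscOne
  rw [dsc_apply S hx]
  ring

theorem dscOne_off (hw : ∀ x ∉ S.K, w x = 1) {x' : M'} (hx : x' ∉ C.p '' S.K) :
    dscOne S w x' = 1 := by
  unfold dscOne
  rw [dsc_off S (fun x hx => by rw [hw x hx, sub_self]) hx, add_zero]


theorem dscOne_sm (hs : A.Sm w) (hw : ∀ x ∉ S.K, w x = 1) : A'.Sm (dscOne S w) := by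
  intro i'
  refine ContDiffOn.add contDiffOn_const ?_
  refine dsc_smAt S (w := fun x => w x - 1) (fun i => (hs i).sub contDiffOn_const) ?_ i'
  intro x hx
  show w x - 1 = 0
  rw [hw x hx, sub_self]


end dsc

/-! ### heights -/

section heights

variable {n : ℕ} {M Z Z' : Type} [TopologicalSpace M] [TopologicalSpace Z]
  [TopologicalSpace Z'] {A : Atl n M}

/-- height functions -/
structure Ht (C : KCov A Z ℤ) (h : Z → ℝ) : Prop where
  cont : Continuous h
  act : ∀ m z, h (C.act m z) = h z - m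

section slab

variable {C : KCov A Z ℤ} {h : Z → ℝ} (H : Ht C h) {N : ℕ} {C' : KCov A Z' (ZMod N)}
  (F : KHom C C')

theorem phi_int (F : KHom C C') (h1 : F.φ 1 = 1) (k : ℤ) : F.φ k = (k : ZMod N) := by
  have h2 : F.φ k = k • F.φ 1 := by rw [← map_zsmul, smul_eq_mul, mul_one]
  rw [h2, h1, zsmul_one]

include H in
theorem inj_slab (h1 : F.φ 1 = 1) {a b : ℝ} (hab : b - a ≤ N) {x y : Z}
    (hx : a < h x ∧ h x < b) (hy : a < h y ∧ h y < b) (hxy : F.f x = F.f y) : x = y := by
  obtain ⟨k, hk, rfl⟩ := F.fibre hxy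
  rw [phi_int F h1, ZMod.intCast_zmod_eq_zero_iff_dvd] at hk
  obtain ⟨m, rfl⟩ := hk
  rw [H.act] at hy
  have hm : m = 0 := by
    by_contra hne
    have h2 : |((N : ℤ) * m : ℤ)| < N := by
      have h3 : |(((N : ℤ) * m : ℤ) : ℝ)| < N := by
        rw [abs_lt]
        constructor <;> linarith [hx.1, hx.2, hy.1, hy.2]
      exact_mod_cast h3
    rw [abs_mul, Nat.abs_cast] at h2
    have h3 : 1 ≤ |m| := Int.one_le_abs hne
    nlinarith
  subst hm
  rw [mul_zero, C.act_zero]

/-- the slab `{a < h < b}` -/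
def Ht.slab [T2Space Z'] (h1 : F.φ 1 = 1) {a α β b : ℝ} (ha : a < α) (hb : β < b)
    (hab : b - a ≤ N) (hK : IsCompact {z | α ≤ h z ∧ h z ≤ β}) : Slab F.cov where
  Ω := {z | a < h z ∧ h z < b}
  isOpen := (isOpen_lt continuous_const H.cont).inter (isOpen_lt H.cont continuous_const)
  inj _ hx _ hy hxy := inj_slab H F h1 hab hx hy hxy
  K := {z | α ≤ h z ∧ h z ≤ β}
  sub _ hz := ⟨ha.trans_le hz.1, hz.2.trans_lt hb⟩
  closed := (isClosed_le continuous_const H.cont).inter (isClosed_le H.cont continuous_const)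
  closed' := (hK.image F.cont).isClosed

/-- the slab for the nested atlases -/
def Ht.slabN [T2Space Z'] {Nt : NAtl938.NAtl n M} {C : KCov Nt.big Z ℤ}
    {C' : KCov Nt.big Z' (ZMod N)} (H : Ht C h) (F : KHom C C') (h1 : F.φ 1 = 1) {ρ : ℝ}
    (hρ : Nt.r ≤ ρ) {a α β b : ℝ} (ha : a < α) (hb : β < b)
    (hab : b - a ≤ N) (hK : IsCompact {z | α ≤ h z ∧ h z ≤ β}) : Slab (nhom Nt C hρ F) where
  Ω := {z | a < h z ∧ h z < b}
  isOpen := (isOpen_lt continuous_const H.cont).inter (isOpen_lt H.cont continuous_const)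
  inj _ hx _ hy hxy := inj_slab H F h1 hab hx hy hxy
  K := {z | α ≤ h z ∧ h z ≤ β}
  sub _ hz := ⟨ha.trans_le hz.1, hz.2.trans_lt hb⟩
  closed := (isClosed_le continuous_const H.cont).inter (isClosed_le H.cont continuous_const)
  closed' := (hK.image F.cont).isClosed

end slab

/-! ### the smooth height -/

section smooth

variable (C : KCov A Z ℤ) (P : Part A)

/-- the smooth height `∑ ψ_(i,k) (-k)` -/
def hsm : Z → ℝ := glue (liftP C P) (fun q _ => -(q.2 : ℝ))




variable {C P}





end smooth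

/-! ### lifted partitions -/

section lifts

variable {K K' : Type} [AddCommGroup K] [AddCommGroup K'] {C : KCov A Z K} {C' : KCov A Z' K'}






end lifts

end heights

/-! ### `YC u` -/

section yc

open ZC352

variable {n : ℕ} {X : Type} [TopologicalSpace X] {A : Atl n X} (u : C(X, Circ))
  (L : Lifts A (u : X → Circ))

theorem ht_ht : Ht (ycov u L) (YC.ht u) :=
  ⟨YC.continuous_ht u, fun m y => ycov_act_ht u L m y⟩


/-- compactness of the slabs for heights at bounded distance from `ht` -/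
theorem isCompact_slab [CompactSpace X] {h : YC u → ℝ} (hc : Continuous h) {B : ℝ}
    (hB : ∀ y, |h y - YC.ht u y| ≤ B) (α β : ℝ) : IsCompact {y | α ≤ h y ∧ h y ≤ β} := by
  have h1 := YC.isCompact_slab u (α - B) (β + B)
  refine h1.of_isClosed_subset
    ((isClosed_le continuous_const hc).inter (isClosed_le hc continuous_const)) ?_
  rintro y ⟨h2, h3⟩
  have h4 := abs_le.1 (hB y)
  exact ⟨by linarith, by linarith⟩

end yc

end

end Crest.Agent.R275.SlabY194
end

-- ▼ part R275/PartN_194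

/-!
# R275 (helper194): partitions of unity of lifted nested atlases

* `rest N C hρ : KCov (N.at' ρ hρ) Z K` : the covering of the atlas of radius `ρ`;
  `rest_e`, `rest_lift : (rest N C hρ).lift = (nlift N C).at' ρ hρ`;
* `liftPN C hρ P : Part ((nlift N C).at' ρ hρ)` for `P : Part (N.at' ρ hρ)`:
  `ψ (i,k) = ψ_i ∘ p` on the sheet;
* `isLiftN_hom`, `isLiftN_cov` : `IsLift` for `nhom` (`Y → X_N`) and `ncov` (`→ X`);
* `ePart` : 658's `EPart (nlift N (ycov u L)) (yPer L hW hosc)`.
-/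

set_option autoImplicit false
set_option linter.unusedSectionVars false

open Set Filter Topology Complex Metric
open scoped ContDiff Matrix ComplexConjugate

namespace Crest.Agent.R275.PartN194

open Geo NAtl938 XN194 QPb635 ZC352 NLift374

noncomputable section

variable {n : ℕ} {M Z Z' K K' : Type} [TopologicalSpace M] [TopologicalSpace Z]
  [TopologicalSpace Z'] [AddCommGroup K] [AddCommGroup K']

section rest

variable (N : NAtl n M) (C : KCov N.big Z K) {ρ : ℝ} (hρ : N.r ≤ ρ)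

theorem at_big {i : N.ι} {x : M} (hx : x ∈ ((N.at' ρ hρ).e i).source) :
    x ∈ (N.big.e i).source := by
  rw [NAtl.at'_source] at hx
  exact mem_big N hx.1

/-- the covering of the atlas of the balls of radius `ρ` -/
@[reducible] def rest : KCov (N.at' ρ hρ) Z K where
  p := C.p
  cont := C.cont
  act := C.act
  act_cont := C.act_cont
  act_zero := C.act_zero
  act_add := C.act_add
  p_act := C.p_act
  s := C.s
  p_s i x hx := C.p_s i x (at_big N hρ hx)
  s_cont i := (C.s_cont i).mono fun _ hx => at_big N hρ hx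
  s_open i := by
    have h1 : C.s i '' ((N.at' ρ hρ).e i).source =
        C.s i '' (N.big.e i).source ∩ C.p ⁻¹' ((N.at' ρ hρ).e i).source := by
      ext z
      constructor
      · rintro ⟨x, hx, rfl⟩
        refine ⟨⟨x, at_big N hρ hx, rfl⟩, ?_⟩
        show C.p (C.s i x) ∈ ((N.at' ρ hρ).e i).source
        rw [C.p_s i x (at_big N hρ hx)]
        exact hx
      · rintro ⟨⟨x, hx, rfl⟩, h2⟩
        have h3 : C.p (C.s i x) ∈ ((N.at' ρ hρ).e i).source := h2
        rw [C.p_s i x hx] at h3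
        exact ⟨x, h3, rfl⟩
    rw [h1]
    exact (C.s_open i).inter (((N.at' ρ hρ).e i).open_source.preimage C.cont)
  trans i z hz := C.trans i z (at_big N hρ hz)
  free := C.free

variable {N C}

theorem rest_sheet {i : N.ι} {k : K} :
    (rest N C hρ).sheet i k = (nlift N C).B ρ (i, k) := by
  ext z
  rw [mem_nB]
  constructor
  · rintro ⟨h1, h2⟩
    have h3 : C.p z ∈ ((N.at' ρ hρ).e i).source := h1
    refine ⟨⟨at_big N hρ h3, h2⟩, ?_⟩
    rw [NAtl.at'_source] at h3
    exact h3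
  · rintro ⟨h1, h2⟩
    refine ⟨?_, h1.2⟩
    show C.p z ∈ ((N.at' ρ hρ).e i).source
    rw [NAtl.at'_source]
    exact h2

theorem rest_source (q : N.ι × K) :
    ((rest N C hρ).lift.e q).source = (((nlift N C).at' ρ hρ).e q).source := by
  rw [NAtl.at'_source]
  exact rest_sheet hρ

variable (N C) in
theorem rest_e (q : N.ι × K) : (rest N C hρ).lift.e q = ((nlift N C).at' ρ hρ).e q :=
  OpenPartialHomeomorph.ext _ _ (fun _ => rfl) (fun _ => rfl) (rest_source hρ q)

variable (N C) in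
theorem rest_lift : (rest N C hρ).lift = (nlift N C).at' ρ hρ := by
  have h : (rest N C hρ).lift.e = ((nlift N C).at' ρ hρ).e := funext fun q => rest_e N C hρ q
  show Atl.mk (N.ι × K) (rest N C hρ).lift.e _ _ _ = Atl.mk (N.ι × K) ((nlift N C).at' ρ hρ).e _ _ _
  congr 1

/-- lift of a partition of unity to the nested atlas -/
def liftPN (C : KCov N.big Z K) (hρ : N.r ≤ ρ) (P : Part (N.at' ρ hρ)) :
    Part ((nlift N C).at' ρ hρ) where
  ψ := (liftP (rest N C hρ) P).ψ
  χ := (liftP (rest N C hρ) P).χ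
  ψ_sm q := (rest_lift N C hρ) ▸ (liftP (rest N C hρ) P).ψ_sm q
  χ_sm q := (rest_lift N C hρ) ▸ (liftP (rest N C hρ) P).χ_sm q
  χ_cpt := (liftP (rest N C hρ) P).χ_cpt
  χ_sub q := by
    rw [← rest_source (C := C) hρ q]
    exact (liftP (rest N C hρ) P).χ_sub q
  χ_one := (liftP (rest N C hρ) P).χ_one
  lf := (liftP (rest N C hρ) P).lf
  sum_one := (liftP (rest N C hρ) P).sum_one

variable (P : Part (N.at' ρ hρ))


theorem lfN_of_mem {W : Type*} [Zero W] {q : N.ι × K} {z : Z} (hz : z ∈ (nlift N C).B ρ q)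
    (f : M → W) : lf (rest N C hρ) q f z = f (C.p z) :=
  lf_of_mem (rest N C hρ) (by rw [rest_sheet]; exact hz) f

theorem lfN_off {W : Type*} [Zero W] {q : N.ι × K} {z : Z} (hz : z ∉ (nlift N C).B ρ q)
    (f : M → W) : lf (rest N C hρ) q f z = 0 :=
  lf_off (rest N C hρ) (by rw [rest_sheet]; exact hz) f

theorem liftPN_ψ_of_mem {q : N.ι × K} {z : Z} (hz : z ∈ (nlift N C).B ρ q) :
    (liftPN C hρ P).ψ q z = P.ψ q.1 (C.p z) := lfN_of_mem hρ hz _

theorem liftPN_ψ_off {q : N.ι × K} {z : Z} (hz : z ∉ (nlift N C).B ρ q) :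
    (liftPN C hρ P).ψ q z = 0 := lfN_off hρ hz _



theorem liftPN_nonneg (hP : ∀ i x, 0 ≤ P.ψ i x) (q : N.ι × K) (z : Z) :
    0 ≤ (liftPN C hρ P).ψ q z := by
  by_cases hz : z ∈ (nlift N C).B ρ q
  · rw [liftPN_ψ_of_mem hρ P hz]; exact hP _ _
  · rw [liftPN_ψ_off hρ P hz]

theorem liftPN_ψ_act (q : N.ι × K) (m : K) (z : Z) :
    (liftPN C hρ P).ψ (q.1, m + q.2) (C.act m z) = (liftPN C hρ P).ψ q z :=
  lf_deck (rest N C hρ) q _ m z

theorem liftPN_χ_act (q : N.ι × K) (m : K) (z : Z) :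
    (liftPN C hρ P).χ (q.1, m + q.2) (C.act m z) = (liftPN C hρ P).χ q z :=
  lf_deck (rest N C hρ) q _ m z

/-! ### `IsLift` -/

section isLift

variable {C' : KCov N.big Z' K'} (F : KHom C C')

theorem lfN_hom {W : Type*} [Zero W] (f : M → W) {q : N.ι × K} {z : Z}
    (hz : z ∈ (nlift N C).B ρ q) :
    lf (rest N C hρ) q f z = lf (rest N C' hρ) (q.1, F.φ q.2) f (F.f z) := by
  have h1 : F.f z ∈ (nlift N C').B ρ (q.1, F.φ q.2) := by
    have h2 := (nhom N C hρ F).src q z (by rw [NAtl.at'_source]; exact hz)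
    rw [NAtl.at'_source] at h2
    exact h2
  have h3 : lf (rest N C' hρ) (q.1, F.φ q.2) f (F.f z) = f (C'.p (F.f z)) :=
    lfN_of_mem (C := C') (q := (q.1, F.φ q.2)) hρ h1 f
  rw [lfN_of_mem hρ hz, h3, F.p_f]

/-- `Y → X_N` -/
theorem isLiftN_hom : Exc685.IsLift (nhom N C hρ F) (liftPN C hρ P) (liftPN C' hρ P) where
  psi q z hz := by
    rw [NAtl.at'_source] at hz
    exact lfN_hom hρ F _ hz
  chi q z hz := by
    rw [NAtl.at'_source] at hz
    exact lfN_hom hρ F _ hz

theorem isLiftN_hom' : EcV938.IsLift (nhom N C hρ F) (liftPN C hρ P) (liftPN C' hρ P) := by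
  intro q z hz
  exact (isLiftN_hom hρ P F).psi q z hz

variable (C)




end isLift

end rest

/-! ### the infinite cyclic cover -/

section yc

variable {N : NAtl n M} {u : C(M, Circ)} (L : Lifts N.big (u : M → Circ))

/-- 658's equivariant partition of unity on `YC u` -/
def ePart [Finite N.ι] {W : ℝ} (hW : 0 < W)
    (hosc : ∀ i, ∀ x ∈ (N.E i).source, ∀ y ∈ (N.E i).source, |L.f i x - L.f i y| ≤ W)
    (P : Part N.sm) : WB658.EPart (nlift N (ycov u L)) (yPer L hW hosc) where
  toPart := liftPN (ycov u L) le_rfl P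
  ψ_eq := by
    rintro ⟨i, k⟩ y
    have h := liftPN_ψ_act (C := ycov u L) le_rfl P (i, k) 1 y
    rw [ycov_act_one] at h
    rw [yPer_s, add_comm k 1]
    exact h
  χ_eq := by
    rintro ⟨i, k⟩ y
    have h := liftPN_χ_act (C := ycov u L) le_rfl P (i, k) 1 y
    rw [ycov_act_one] at h
    rw [yPer_s, add_comm k 1]
    exact h

theorem ePart_nonneg [Finite N.ι] {W : ℝ} (hW : 0 < W)
    (hosc : ∀ i, ∀ x ∈ (N.E i).source, ∀ y ∈ (N.E i).source, |L.f i x - L.f i y| ≤ W)
    (P : Part N.sm) (hP : ∀ i x, 0 ≤ P.ψ i x) (q : N.ι × ℤ) (y : YC u) :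
    0 ≤ (ePart L hW hosc P).ψ q y := liftPN_nonneg le_rfl P hP q y

end yc

end

end Crest.Agent.R275.PartN194
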