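import Crest.Agent.R275.SqC_617
import Crest.Agent.R275.SqD_617
import Crest.Agent.R275.ScaleD_685

-- ▼ part R275/SqE_617
section

/-!
# R275, block D (helper617): the Wiener patch on a graded scale

`LData S G` : Laurent polynomials `P, D, K` of operators of order zero on the scale `S`, graded,
`P - DK - KD` negligible. `LData.patch`: exactness at every point of the unit circle gives a
Laurent polynomial correction `T` of order `-1`, degree `-1`, with `P - D(K+T) - (K+T)D` of order
`-1` and arbitrarily small Wiener norm at level `0`.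
-/

set_option autoImplicit false

namespace Crest.Agent.R275.Sq617

open Module LinearMap Submodule Fred685

noncomputable section

variable {V : Type*} [AddCommGroup V] [Module ℂ V]

/-- the algebra of operators of order zero -/
def OpA (S : Scale ℂ V) : Subalgebra ℂ (Module.End ℂ V) where
  carrier := {A | Op0 S S A}
  mul_mem' := fun ha hb => Op0.comp ha hb
  one_mem' := Op0.id
  add_mem' := fun ha hb => Op0.add ha hb
  zero_mem' := Op0.zero
  algebraMap_mem' := fun c => by
    have h : (algebraMap ℂ (Module.End ℂ V) c) = c • LinearMap.id := by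
      rw [Algebra.algebraMap_eq_smul_one]; rfl
    show Op0 S S (algebraMap ℂ (Module.End ℂ V) c)
    rw [h]
    exact Op0.id.smul c

/-- operator norm at level `0` -/
def on (S : Scale ℂ V) (A : Module.End ℂ V) : ℝ :=
  sInf {C : ℝ | 0 ≤ C ∧ ∀ v, S.nrm 0 (A v) ≤ C * S.nrm 0 v}

theorem on_nonneg (S : Scale ℂ V) (A : Module.End ℂ V) : 0 ≤ on S A :=
  Real.sInf_nonneg fun _ h => h.1

theorem on_le {S : Scale ℂ V} {A : Module.End ℂ V} {C : ℝ} (hC : 0 ≤ C)
    (h : ∀ v, S.nrm 0 (A v) ≤ C * S.nrm 0 v) : on S A ≤ C :=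
  csInf_le ⟨0, fun _ h => h.1⟩ ⟨hC, h⟩

theorem le_on {S : Scale ℂ V} {A : Module.End ℂ V} (hA : Op0 S S A) (v : V) :
    S.nrm 0 (A v) ≤ on S A * S.nrm 0 v := by
  obtain ⟨C, hC0, hC⟩ := exists_nonneg_const (hA 0)
  have hne : {C : ℝ | 0 ≤ C ∧ ∀ v, S.nrm 0 (A v) ≤ C * S.nrm 0 v}.Nonempty := ⟨C, hC0, hC⟩
  by_cases hv : S.nrm 0 v = 0
  · have := hC v
    rw [hv, mul_zero] at this ⊢
    exact this
  · have hv' : 0 < S.nrm 0 v := lt_of_le_of_ne (apply_nonneg _ _) (Ne.symm hv)
    rw [← div_le_iff₀ hv']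
    refine le_csInf hne fun D hD => ?_
    rw [div_le_iff₀ hv']
    exact hD.2 v

/-- the submultiplicative seminorm -/
def snA (S : Scale ℂ V) : SN (OpA S) where
  N A := on S A.1
  nonneg A := on_nonneg S _
  zero := by
    apply le_antisymm _ (on_nonneg S _)
    apply on_le le_rfl
    intro v
    have : ((0 : OpA S) : Module.End ℂ V) v = 0 := rfl
    rw [this, map_zero, zero_mul]
  add_le A B := by
    apply on_le (add_nonneg (on_nonneg S _) (on_nonneg S _))
    intro v
    rw [add_mul]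
    exact (map_add_le_add (S.nrm 0) _ _).trans (add_le_add (le_on A.2 v) (le_on B.2 v))
  smul_le c A := by
    apply on_le (mul_nonneg (norm_nonneg _) (on_nonneg S _))
    intro v
    show S.nrm 0 (c • (A.1 v)) ≤ _
    rw [map_smul_eq_mul, mul_assoc]
    exact mul_le_mul_of_nonneg_left (le_on A.2 v) (norm_nonneg _)
  mul_le A B := by
    apply on_le (mul_nonneg (on_nonneg S _) (on_nonneg S _))
    intro v
    show S.nrm 0 (A.1 (B.1 v)) ≤ _
    refine (le_on A.2 _).trans ?_
    rw [mul_assoc]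
    exact mul_le_mul_of_nonneg_left (le_on B.2 v) (on_nonneg S _)
  one_le := by
    apply on_le zero_le_one
    intro v
    rw [one_mul]
    exact le_rfl

/-! ### lifting Laurent polynomials -/

/-- lift to the subalgebra -/
def lf (S : Scale ℂ V) (f : Lau (Module.End ℂ V)) (h : ∀ m, Op0 S S (f.coeff m)) : Lau (OpA S) :=
  ∑ m ∈ f.coeff.support, AddMonoidAlgebra.single m (⟨f.coeff m, h m⟩ : OpA S)

/-- back to all operators -/
def mp (S : Scale ℂ V) : Lau (OpA S) →+* Lau (Module.End ℂ V) :=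
  AddMonoidAlgebra.mapRingHom ℤ (OpA S).val.toRingHom

theorem mp_coeff (S : Scale ℂ V) (f : Lau (OpA S)) (m : ℤ) :
    (mp S f).coeff m = (f.coeff m : Module.End ℂ V) :=
  AddMonoidAlgebra.coeff_mapRingHom _ _ _

theorem mp_single (S : Scale ℂ V) (m : ℤ) (a : OpA S) :
    mp S (AddMonoidAlgebra.single m a) = AddMonoidAlgebra.single m (a : Module.End ℂ V) :=
  AddMonoidAlgebra.mapRingHom_single _ _ _

theorem mp_inj (S : Scale ℂ V) : Function.Injective (mp S) := by
  intro f g h
  ext m v
  have h1 := mp_coeff S f m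
  have h2 := mp_coeff S g m
  rw [h] at h1
  rw [← h1, h2]

theorem mp_lf (S : Scale ℂ V) (f : Lau (Module.End ℂ V)) (h : ∀ m, Op0 S S (f.coeff m)) :
    mp S (lf S f h) = f := by
  unfold lf
  rw [map_sum]
  conv_rhs => rw [← AddMonoidAlgebra.sum_coeff_single f]
  exact Finset.sum_congr rfl fun m _ => mp_single S _ _

theorem lf_coeff (S : Scale ℂ V) (f : Lau (Module.End ℂ V)) (h : ∀ m, Op0 S S (f.coeff m)) (m : ℤ) :
    ((lf S f h).coeff m : Module.End ℂ V) = f.coeff m := by
  rw [← mp_coeff, mp_lf]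

theorem ev_mp (S : Scale ℂ V) (t : ℂˣ) (f : Lau (OpA S)) :
    ev t (mp S f) = ((ev t f : OpA S) : Module.End ℂ V) := by
  have h : (ev t).comp (mp S) = ((OpA S).val.toRingHom).comp (ev t) := by
    apply AddMonoidAlgebra.ringHom_ext
    · intro a
      show ev t (mp S (AddMonoidAlgebra.single 0 a)) = ((ev t (AddMonoidAlgebra.single 0 a) : OpA S) :
        Module.End ℂ V)
      rw [mp_single, ev_single, ev_single]
      rfl
    · intro m
      show ev t (mp S (AddMonoidAlgebra.single m 1)) = ((ev t (AddMonoidAlgebra.single m 1) : OpA S) :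
        Module.End ℂ V)
      rw [mp_single, ev_single, ev_single]
      rfl
  exact RingHom.congr_fun h f

/-! ### homogeneous components -/

section hom

variable (G : Gr ℂ V)

/-- degree zero part -/
def c0 (T : Module.End ℂ V) : Module.End ℂ V :=
  ∑ q ∈ Finset.range (G.m + 1), G.π q ∘ₗ T ∘ₗ G.π q

/-- degree `-1` part -/
def c1 (T : Module.End ℂ V) : Module.End ℂ V :=
  ∑ q ∈ Finset.range (G.m + 1), G.π q ∘ₗ T ∘ₗ G.π (q + 1)

theorem c0_apply (T : Module.End ℂ V) (v : V) :
    c0 G T v = ∑ q ∈ Finset.range (G.m + 1), G.π q (T (G.π q v)) := by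
  simp [c0, LinearMap.sum_apply]

theorem c1_apply (T : Module.End ℂ V) (v : V) :
    c1 G T v = ∑ q ∈ Finset.range (G.m + 1), G.π q (T (G.π (q + 1) v)) := by
  simp [c1, LinearMap.sum_apply]

theorem c0_of_deg {T : Module.End ℂ V} (hT : Deg G G 0 T) : c0 G T = T := by
  ext v
  rw [c0_apply]
  have h : ∀ q ∈ Finset.range (G.m + 1), G.π q (T (G.π q v)) = G.π q (T v) := by
    intro q _
    rw [hT.comm, G.idem]
  rw [Finset.sum_congr rfl h, G.sum]

theorem c0_mul_left {d : Module.End ℂ V} (hd : Deg G G 1 d) (T : Module.End ℂ V) :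
    c0 G (d * T) = d * c1 G T := by
  ext v
  show _ = d (c1 G T v)
  rw [c0_apply, c1_apply, map_sum, Finset.sum_range_succ']
  have h0 : G.π 0 ((d * T) (G.π 0 v)) = 0 := hd.pi_apply_eq_zero (by norm_num) _
  rw [h0, add_zero, Finset.sum_range_succ]
  have h1 : d (G.π G.m (T (G.π (G.m + 1) v))) = 0 := by
    rw [G.top (G.m + 1) v (Nat.lt_succ_self _), map_zero, map_zero, map_zero]
  rw [h1, add_zero]
  refine Finset.sum_congr rfl fun q _ => ?_
  exact hd.pi_apply (by push_cast; ring) _

theorem c0_mul_right {d : Module.End ℂ V} (hd : Deg G G 1 d) (T : Module.End ℂ V) :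
    c0 G (T * d) = c1 G T * d := by
  ext v
  show _ = c1 G T (d v)
  rw [c0_apply, c1_apply]
  refine Finset.sum_congr rfl fun q _ => ?_
  show G.π q (T (d (G.π q v))) = _
  rw [← hd.pi_apply (q := q) (r := q + 1) (by push_cast; ring)]

theorem c1_sandwich {P : Module.End ℂ V} (hP : Deg G G 0 P) (T : Module.End ℂ V) :
    c1 G (P * T * P) = P * c1 G T * P := by
  ext v
  show _ = P (c1 G T (P v))
  rw [c1_apply, c1_apply, map_sum]
  refine Finset.sum_congr rfl fun q _ => ?_
  show G.π q (P (T (P (G.π (q + 1) v)))) = _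
  rw [hP.comm, hP.comm]

theorem c0_sub (A B : Module.End ℂ V) : c0 G (A - B) = c0 G A - c0 G B := by
  ext v
  simp only [c0_apply, LinearMap.sub_apply, map_sub, Finset.sum_sub_distrib]

theorem c1_add (A B : Module.End ℂ V) : c1 G (A + B) = c1 G A + c1 G B := by
  ext v
  simp only [c1_apply, LinearMap.add_apply, map_add, Finset.sum_add_distrib]

theorem deg_c1 (T : Module.End ℂ V) : Deg G G (-1) (c1 G T) := by
  intro q r hr v
  rw [c1_apply, map_sum]
  refine Finset.sum_eq_zero fun k _ => ?_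
  by_cases h1 : k + 1 = q
  · by_cases h2 : r = k
    · exact absurd (by omega) hr
    · exact G.orth r k _ h2
  · rw [G.orth (k + 1) q v h1, map_zero, map_zero, map_zero]

theorem c1_of_deg {T : Module.End ℂ V} (hT : Deg G G (-1) T) : c1 G T = T := by
  ext v
  rw [c1_apply]
  have h : ∀ q ∈ Finset.range (G.m + 1), G.π q (T (G.π (q + 1) v)) = G.π q (T v) := by
    intro q _
    rw [← hT.pi_apply (q := q + 1) (r := q) (by push_cast; ring), G.idem]
  rw [Finset.sum_congr rfl h, G.sum]

theorem opm_c1 {S : Scale ℂ V} (hG : ∀ q, Op0 S S (G.π q)) {T : Module.End ℂ V}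
    (hT : Opm S S T) : Opm S S (c1 G T) := by
  unfold c1
  refine Finset.sum_induction _ (Opm S S) (fun _ _ => Opm.add') Opm.zero' fun q _ => ?_
  exact Opm.comp_left' (hG q) (Opm.comp_right' hT (hG _))

theorem homogenise {P d K s : Module.End ℂ V} (hP : Deg G G 0 P) (hd : Deg G G 1 d)
    (hK : Deg G G (-1) K)
    (h : P - d * (K + P * s * P) - (K + P * s * P) * d = 0) :
    P - d * (K + P * c1 G s * P) - (K + P * c1 G s * P) * d = 0 := by
  have h1 : c0 G (P - d * (K + P * s * P) - (K + P * s * P) * d) =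
      P - d * (K + P * c1 G s * P) - (K + P * c1 G s * P) * d := by
    rw [c0_sub, c0_sub, c0_mul_left G hd, c0_mul_right G hd, c0_of_deg G hP, c1_add,
      c1_sandwich G hP, c1_of_deg G hK]
  rw [← h1, h]
  ext v
  simp [c0_apply]

end hom

end

end Crest.Agent.R275.Sq617
end

-- ▼ part R275/SqF_617

/-!
# R275, block D (helper617): Laurent data on a graded scale, the patch theorem
-/

set_option autoImplicit false

namespace Crest.Agent.R275.Sq617

open Module LinearMap Submodule Fred685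

noncomputable section

variable {V : Type*} [AddCommGroup V] [Module ℂ V]

/-- Laurent polynomials `P, D, K` over the operators of order zero on a graded scale: `P` is an
idempotent, `D` a differential and `K` a parametrix on its range. -/
structure LData (S : Scale ℂ V) (G : Gr ℂ V) where
  πop : ∀ q, Op0 S S (G.π q)
  P : Lau (Module.End ℂ V)
  D : Lau (Module.End ℂ V)
  K : Lau (Module.End ℂ V)
  opP : ∀ m, Op0 S S (P.coeff m)
  opD : ∀ m, Op0 S S (D.coeff m)
  opK : ∀ m, Op0 S S (K.coeff m)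
  dP : ∀ m, Deg G G 0 (P.coeff m)
  dD : ∀ m, Deg G G 1 (D.coeff m)
  dK : ∀ m, Deg G G (-1) (K.coeff m)
  PP : P * P = P
  DP : D * P = D
  PD : P * D = D
  PK : P * K = K
  KP : K * P = K
  DD : D * D = 0
  neg : ∀ m, Neg S S ((P - D * K - K * D).coeff m)

variable {S : Scale ℂ V} {G : Gr ℂ V}

/-- exactness on smooth elements at `z` -/
def LData.ExactAt (L : LData S G) (z : Circle) : Prop :=
  ∀ v, ev (Circle.toUnits z) L.P v = v → ev (Circle.toUnits z) L.D v = 0 →
    ∃ u, ev (Circle.toUnits z) L.D u = v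

/-- homogeneous operators of degree `j` as a subspace -/
def GD (S : Scale ℂ V) (G : Gr ℂ V) (j : ℤ) : Submodule ℂ (OpA S) where
  carrier := {A | Deg G G j (A : Module.End ℂ V)}
  add_mem' := fun ha hb => ha.add hb
  zero_mem' := Deg.zero
  smul_mem' := fun c _ h => h.smul c

/-- operators of order `-1` as a subspace -/
def IO (S : Scale ℂ V) : Submodule ℂ (OpA S) where
  carrier := {A | Opm S S (A : Module.End ℂ V)}
  add_mem' := fun ha hb => Opm.add' ha hb
  zero_mem' := Opm.zero'
  smul_mem' := fun c _ h => Opm.smul' c h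

theorem opEv {f : Lau (Module.End ℂ V)} (h : ∀ m, Op0 S S (f.coeff m)) (t : ℂˣ) :
    Op0 S S (ev t f) := by
  rw [ev_eq]
  unfold Finsupp.sum
  exact op0_sum _ fun m _ => (h m).smul _

theorem negEv {f : Lau (Module.End ℂ V)} (h : ∀ m, Neg S S (f.coeff m)) (t : ℂˣ) :
    Neg S S (ev t f) := by
  rw [ev_eq]
  unfold Finsupp.sum
  exact neg_sum _ fun m _ => (h m).smul _

theorem degEv {f : Lau (Module.End ℂ V)} {j : ℤ} (h : ∀ m, Deg G G j (f.coeff m)) (t : ℂˣ) :
    Deg G G j (ev t f) := by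
  rw [ev_eq]
  unfold Finsupp.sum
  exact Finset.sum_induction _ (Deg G G j) (fun _ _ => Deg.add) Deg.zero
    fun m _ => (h m).smul _

/-- local exact homotopies, graded -/
theorem LData.exists_local (L : LData S G) (z : Circle) (hz : L.ExactAt z) :
    ∃ s : Module.End ℂ V, Opm S S s ∧ Deg G G (-1) s ∧
      ev (Circle.toUnits z) (err L.P L.D (L.K + L.P * AddMonoidAlgebra.single 0 s * L.P)) = 0 := by
  set t := Circle.toUnits z with ht
  have e1 : ev t (L.P - L.D * L.K - L.K * L.D) =
      ev t L.P - ev t L.D * ev t L.K - ev t L.K * ev t L.D := by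
    rw [map_sub, map_sub, map_mul, map_mul]
  have hneg : Neg S S (ev t L.P - ev t L.D * ev t L.K - ev t L.K * ev t L.D) := by
    rw [← e1]; exact negEv L.neg t
  obtain ⟨s, hs, hs'⟩ := exists_exact_homotopy (opEv L.opP t) (opEv L.opD t) (opEv L.opK t)
    (by rw [← map_mul, L.PP]) (by rw [← map_mul, L.PD]) (by rw [← map_mul, L.DP])
    (by rw [← map_mul, L.PK]) (by rw [← map_mul, L.KP]) (by rw [← map_mul, L.DD, map_zero])
    hneg hz
  refine ⟨c1 G s, opm_c1 G L.πop hs, deg_c1 G s, ?_⟩
  have h2 := homogenise G (degEv L.dP t) (degEv L.dD t) (degEv L.dK t) hs'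
  have h3 : ev t (AddMonoidAlgebra.single 0 (c1 G s) : Lau (Module.End ℂ V)) = c1 G s := by
    rw [ev_single, zpow_zero, one_smul]
  unfold err
  rw [map_sub, map_sub, map_mul, map_mul, map_add, map_mul, map_mul, h3]
  exact h2

/-- the patching data over the algebra of operators of order zero -/
def LData.toP (L : LData S G) (hex : ∀ z, L.ExactAt z) : PData (OpA S) where
  ν := snA S
  I := IO S
  Il := fun a _ hs => Opm.comp_left' a.2 hs
  Ir := fun a _ hs => Opm.comp_right' hs a.2
  G := GD S G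
  Gone := Deg.id
  Gmul := fun i j a ha b hb => by
    exact (Deg.comp (i := i) (j := j) ha hb)
  P := lf S L.P L.opP
  D := lf S L.D L.opD
  K := lf S L.K L.opK
  PP := mp_inj S (by rw [map_mul, mp_lf, L.PP])
  DP := mp_inj S (by rw [map_mul, mp_lf, mp_lf, L.DP])
  PD := mp_inj S (by rw [map_mul, mp_lf, mp_lf, L.PD])
  PK := mp_inj S (by rw [map_mul, mp_lf, mp_lf, L.PK])
  KP := mp_inj S (by rw [map_mul, mp_lf, mp_lf, L.KP])
  DD := mp_inj S (by rw [map_mul, mp_lf, L.DD, map_zero])
  gP := fun m => by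
    show Deg G G 0 ((lf S L.P L.opP).coeff m : Module.End ℂ V)
    rw [lf_coeff]; exact L.dP m
  gD := fun m => by
    show Deg G G 1 ((lf S L.D L.opD).coeff m : Module.End ℂ V)
    rw [lf_coeff]; exact L.dD m
  gK := fun m => by
    show Deg G G (-1) ((lf S L.K L.opK).coeff m : Module.End ℂ V)
    rw [lf_coeff]; exact L.dK m
  hR := fun m => by
    show Opm S S ((err (lf S L.P L.opP) (lf S L.D L.opD) (lf S L.K L.opK)).coeff m :
      Module.End ℂ V)
    rw [← mp_coeff]
    unfold err
    rw [map_sub, map_sub, map_mul, map_mul, mp_lf, mp_lf, mp_lf]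
    exact (L.neg m).1
  loc := fun z => by
    obtain ⟨s, hs, hs1, hs2⟩ := L.exists_local z (hex z)
    refine ⟨⟨s, hs.op0⟩, hs, hs1, ?_⟩
    apply Subtype.ext
    have hm : mp S (err (lf S L.P L.opP) (lf S L.D L.opD) (lf S L.K L.opK +
        lf S L.P L.opP * AddMonoidAlgebra.single 0 (⟨s, hs.op0⟩ : OpA S) * lf S L.P L.opP)) =
        err L.P L.D (L.K + L.P * AddMonoidAlgebra.single 0 s * L.P) := by
      unfold err
      rw [map_sub, map_sub, map_mul, map_mul, map_add, map_mul, map_mul, mp_lf, mp_lf, mp_lf,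
        mp_single]
    rw [← ev_mp, hm]
    exact hs2

/-- PATCH THEOREM on a graded scale. -/
theorem LData.patch (L : LData S G) (hex : ∀ z, L.ExactAt z) {δ : ℝ} (hδ : 0 < δ) :
    ∃ T : Lau (Module.End ℂ V), (∀ m, Opm S S (T.coeff m)) ∧ (∀ m, Deg G G (-1) (T.coeff m)) ∧
      L.P * T = T ∧ T * L.P = T ∧
      (∀ m, Opm S S ((err L.P L.D (L.K + T)).coeff m)) ∧
      ∃ c : ℤ → ℝ, (∀ m, 0 ≤ c m) ∧ (∀ m ∉ (err L.P L.D (L.K + T)).coeff.support, c m = 0) ∧
        (∀ m v, S.nrm 0 ((err L.P L.D (L.K + T)).coeff m v) ≤ c m * S.nrm 0 v) ∧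
        ∑ m ∈ (err L.P L.D (L.K + T)).coeff.support, c m < δ := by
  classical
  obtain ⟨T', ⟨h1, h2, h3, h4⟩, h5⟩ := (L.toP hex).wiener_patch hδ
  set E' := err (L.toP hex).P (L.toP hex).D ((L.toP hex).K + T') with hE'
  have hE'I := (L.toP hex).err_mem h1
  rw [← hE'] at hE'I
  have hEE : mp S E' = err L.P L.D (L.K + mp S T') := by
    rw [hE']
    unfold err
    rw [map_sub, map_sub, map_mul, map_mul, map_add]
    show mp S (lf S L.P L.opP) - mp S (lf S L.D L.opD) * (mp S (lf S L.K L.opK) + mp S T') -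
      (mp S (lf S L.K L.opK) + mp S T') * mp S (lf S L.D L.opD) = _
    rw [mp_lf, mp_lf, mp_lf]
  refine ⟨mp S T', fun m => ?_, fun m => ?_, ?_, ?_, fun m => ?_, ?_⟩
  · rw [mp_coeff]; exact h1 m
  · rw [mp_coeff]; exact h2 m
  · have h6 := congrArg (mp S) h3
    rw [map_mul] at h6
    have h7 : mp S (L.toP hex).P = L.P := mp_lf S _ _
    rwa [h7] at h6
  · have h6 := congrArg (mp S) h4
    rw [map_mul] at h6
    have h7 : mp S (L.toP hex).P = L.P := mp_lf S _ _
    rwa [h7] at h6
  · rw [← hEE, mp_coeff]; exact hE'I m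
  · refine ⟨fun m => on S (E'.coeff m : Module.End ℂ V), fun m => on_nonneg S _, fun m hm => ?_,
      fun m v => ?_, ?_⟩
    · rw [← hEE, Finsupp.notMem_support_iff, mp_coeff] at hm
      show on S (E'.coeff m : Module.End ℂ V) = 0
      rw [hm]
      exact (snA S).zero
    · rw [← hEE, mp_coeff]
      exact le_on (E'.coeff m).2 v
    · rw [← hEE]
      have h8 : (mp S E').coeff.support = E'.coeff.support := by
        ext m
        rw [Finsupp.mem_support_iff, Finsupp.mem_support_iff, mp_coeff, Ne, Ne]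
        exact not_congr ⟨fun h => Subtype.ext h, fun h => by rw [h]; rfl⟩
      rw [h8]
      exact h5

end

end Crest.Agent.R275.Sq617
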