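import Crest.Agent.R275.SqJ_617
import Crest.Agent.R275.RetB_666
import Crest.Agent.R275.QPb2_635
import Crest.Agent.R275.QPa_635
import Crest.Agent.R275.RetC_666
import Crest.Agent.R275.C1g_509
import Crest.Agent.R275.SqF_617
import Crest.Agent.R275.RetE_666
import Crest.Agent.R275.WY1_681
import Crest.Agent.R275.WYd_681
import Crest.Agent.R275.PartN_194
import Crest.Agent.R275.KerV_631
import Crest.Agent.R275.Core2_144

-- ▼ part R275/SqK_617
section

/-!
# R275, block D (helper617): weighted families of periodic functions as weighted sequences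

`J ≃ ℤ × I` (`I` finite): `TS W` on `J` is `SqV (scT W0) w` for `W.om j ≍ w m * W0.om i`, with
equivalent norms.
-/

set_option autoImplicit false
set_option linter.unusedSectionVars false

namespace Crest.Agent.R275.Sq617

open Ret666 Tor812 Fred685

noncomputable section

variable {d : Type} [Fintype d] {I J : Type} [Finite I] {W0 : WS I} {W : WS J} {w : Wt ℤ}
  (e : J ≃ ℤ × I)

/-- comparable weights, equal shifts -/
structure Cmp (W0 : WS I) (W : WS J) (w : Wt ℤ) (e : J ≃ ℤ × I) : Prop where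
  sh : ∀ j, W.sh j = W0.sh (e j).2
  lo : ∃ c > 0, ∀ j, c * (w.w (e j).1 * W0.om (e j).2) ≤ W.om j
  up : ∃ c > 0, ∀ j, W.om j ≤ c * (w.w (e j).1 * W0.om (e j).2)

/-- the sequence of a family -/
def toSeq (e : J ≃ ℤ × I) (F : J → SPer d) (m : ℤ) : FT d W0 :=
  FT.mk (fun i => F (e.symm (m, i))) (mem_TS_of_finite _)

theorem toSeq_fn (F : J → SPer d) (m : ℤ) (i : I) :
    (toSeq (W0 := W0) e F m).fn i = F (e.symm (m, i)) := rfl

/-- the term of the double sum -/
def term (W0 : WS I) (w : Wt ℤ) (s : ℕ) (e : J ≃ ℤ × I) (F : J → SPer d) (p : ℤ × I) : ℝ :=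
  (w.w p.1 * W0.om p.2 * nrm (s + W0.sh p.2) (F (e.symm p))) ^ 2

theorem term_nonneg (s : ℕ) (F : J → SPer d) (p : ℤ × I) : 0 ≤ term W0 w s e F p := sq_nonneg _

theorem sf_sq (s : ℕ) (F : J → SPer d) (m : ℤ) :
    sf (scT W0) w s (toSeq (W0 := W0) e F) m ^ 2 = ∑' i, term W0 w s e F (m, i) := by
  have h := (hasSum_nT s (toSeq (W0 := W0) e F m)).tsum_eq
  show (w.w m * (scT W0).nrm s (toSeq e F m)) ^ 2 = _
  rw [scT_nrm, mul_pow, ← h, ← tsum_mul_left]
  refine tsum_congr fun i => ?_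
  show _ = (w.w m * W0.om i * nrm (s + W0.sh i) (F (e.symm (m, i)))) ^ 2
  rw [toSeq_fn]
  ring

theorem summable_term_iff (s : ℕ) (F : J → SPer d) :
    Summable (term W0 w s e F) ↔ Ss (sf (scT W0) w s (toSeq (W0 := W0) e F)) := by
  rw [summable_prod_of_nonneg (fun p => term_nonneg e s F p)]
  unfold Ss
  have h1 : (fun m : ℤ => ∑' i, term W0 w s e F (m, i)) =
      fun m => sf (scT W0) w s (toSeq (W0 := W0) e F) m ^ 2 := by
    funext m
    rw [sf_sq]
  rw [h1]
  exact ⟨fun h => h.2, fun h => ⟨fun m => (Summable.of_finite), h⟩⟩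

theorem tsum_term (s : ℕ) (F : J → SPer d) (h : Summable (term W0 w s e F)) :
    ∑' p, term W0 w s e F p = N2 (sf (scT W0) w s (toSeq (W0 := W0) e F)) ^ 2 := by
  rw [N2_sq, h.tsum_prod]
  refine tsum_congr fun m => ?_
  rw [sf_sq]

variable {e}

theorem Cmp.term_le (h : Cmp W0 W w e) : ∃ c > 0, ∀ (s : ℕ) (F : J → SPer d) (j : J),
    c ^ 2 * term W0 w s e F (e j) ≤ (W.om j * nrm (s + W.sh j) (F j)) ^ 2 := by
  obtain ⟨c, hc, hl⟩ := h.lo
  refine ⟨c, hc, fun s F j => ?_⟩
  unfold term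
  rw [← mul_pow, e.symm_apply_apply, h.sh]
  refine pow_le_pow_left₀ ?_ ?_ 2
  · exact mul_nonneg hc.le (mul_nonneg (mul_nonneg (w.pos _).le (W0.pos _).le) (nrm_nonneg _ _))
  · rw [← mul_assoc]
    exact mul_le_mul_of_nonneg_right (hl j) (nrm_nonneg _ _)

theorem Cmp.le_term (h : Cmp W0 W w e) : ∃ c > 0, ∀ (s : ℕ) (F : J → SPer d) (j : J),
    (W.om j * nrm (s + W.sh j) (F j)) ^ 2 ≤ c ^ 2 * term W0 w s e F (e j) := by
  obtain ⟨c, hc, hl⟩ := h.up
  refine ⟨c, hc, fun s F j => ?_⟩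
  unfold term
  rw [← mul_pow, e.symm_apply_apply, h.sh]
  refine pow_le_pow_left₀ (mul_nonneg (W.pos _).le (nrm_nonneg _ _)) ?_ 2
  rw [← mul_assoc]
  exact mul_le_mul_of_nonneg_right (hl j) (nrm_nonneg _ _)

/-- **membership** -/
theorem Cmp.mem_iff (h : Cmp W0 W w e) (F : J → SPer d) :
    F ∈ TS W ↔ toSeq (W0 := W0) e F ∈ SqV (scT W0) w := by
  obtain ⟨c, hc, h1⟩ := h.term_le (d := d)
  obtain ⟨c', hc', h2⟩ := h.le_term (d := d)
  rw [mem_TS]
  refine forall_congr' fun s => ?_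
  rw [← summable_term_iff, ← e.summable_iff (f := term W0 w s e F)]
  constructor
  · intro hs
    have h3 : Summable fun j => c ^ 2 * term W0 w s e F (e j) :=
      Summable.of_nonneg_of_le (fun j => mul_nonneg (sq_nonneg _) (term_nonneg e s F _))
        (fun j => h1 s F j) hs
    exact (summable_mul_left_iff (pow_ne_zero 2 hc.ne')).1 h3
  · intro hs
    exact Summable.of_nonneg_of_le (fun j => sq_nonneg _) (fun j => h2 s F j) (hs.mul_left _)

/-- **norms** -/
theorem Cmp.nT_le (h : Cmp W0 W w e) : ∃ c > 0, ∀ (s : ℕ) (f : FT d W),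
    nT s f ≤ c * N2 (sf (scT W0) w s (toSeq (W0 := W0) e f.fn)) := by
  obtain ⟨c, hc, h2⟩ := h.le_term (d := d)
  refine ⟨c, hc, fun s f => ?_⟩
  have hm := (h.mem_iff f.fn).1 f.mem
  have hs := (summable_term_iff e s f.fn).2 (hm s)
  have hs' := (e.summable_iff (f := term W0 w s e f.fn)).2 hs
  rw [← pow_le_pow_iff_left₀ (nT_nonneg _ _) (mul_nonneg hc.le (N2_nonneg _)) two_ne_zero, mul_pow,
    ← tsum_term e s f.fn hs, ← e.tsum_eq, ← tsum_mul_left, ← (hasSum_nT s f).tsum_eq]
  exact Summable.tsum_le_tsum (fun j => h2 s f.fn j) (hasSum_nT s f).summable (hs'.mul_left _)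

theorem Cmp.le_nT (h : Cmp W0 W w e) : ∃ c > 0, ∀ (s : ℕ) (f : FT d W),
    N2 (sf (scT W0) w s (toSeq (W0 := W0) e f.fn)) ≤ c * nT s f := by
  obtain ⟨c, hc, h2⟩ := h.term_le (d := d)
  refine ⟨c⁻¹, inv_pos.2 hc, fun s f => ?_⟩
  have hm := (h.mem_iff f.fn).1 f.mem
  have hs := (summable_term_iff e s f.fn).2 (hm s)
  have hs' := (e.summable_iff (f := term W0 w s e f.fn)).2 hs
  rw [← div_eq_inv_mul, le_div_iff₀ hc, mul_comm,
    ← pow_le_pow_iff_left₀ (mul_nonneg hc.le (N2_nonneg _)) (nT_nonneg _ _) two_ne_zero, mul_pow,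
    ← tsum_term e s f.fn hs, ← e.tsum_eq, ← tsum_mul_left, ← (hasSum_nT s f).tsum_eq]
  exact Summable.tsum_le_tsum (fun j => h2 s f.fn j) (hs'.mul_left _) (hasSum_nT s f).summable

end

end Crest.Agent.R275.Sq617
end

-- ▼ part R275/QPc_635
section

/-!
# R275 / block D (helper635): QPc, finitely many types of pairs on the lifted atlas, and the
# equivariant retract `Sec (up C B) ⊂ (ℤ → V)`.

* `pty_lift : PTy (liftP C P) (up C B)` (helper666's hypothesis for the uniform bounds);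
* `V0 B = FT (RI n) (W0 B)`, `W0 B` : weights `1`, shifts `n - deg k`, index type `A.ι × B.κ`;
* `pr C P B : PerRet ℂ (V0 B) (Sec (up C B))`, `Inv` and `FP` of `1`, `nabL`, `KML`.
-/

set_option autoImplicit false
set_option linter.unusedSectionVars false

open Set Filter Topology Complex
open scoped ContDiff Matrix ComplexConjugate

namespace Crest.Agent.R275.QPb635

open Geo Tor812 TorS666 C1d194 XN194 Ret666 RetC666 QP635 C2812

noncomputable section

variable {n : ℕ} {M : Type} [TopologicalSpace M] {A : Atl n M}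

section pty

variable {Z K : Type} [TopologicalSpace Z] [AddCommGroup K] (C : KCov A Z K)
variable (P : Part A) (B : FBun A)

theorem nb_lift_sub {q q' : C.lift.ι} (h : q' ∈ nb (liftP C P) q) :
    (bx C P q ∩ bx C P q').Nonempty := by
  rw [mem_nb] at h
  obtain ⟨z, h1, h2⟩ := h
  exact ⟨z, tsupport_liftP C P q h2, tsupport_liftP C P q' h1⟩

theorem ftp_lift {W : Type*} {a : C.lift.ι → Z → W} [Finite A.ι] (a0 : A.ι → M → W)
    (h : ∀ q, ∀ z ∈ (C.lift.e q).source, a q z = a0 q.1 (C.p z)) : FTp C.lift a := by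
  refine ⟨A.ι, inferInstance, Prod.fst, ?_⟩
  rintro ⟨i, k⟩ ⟨j, l⟩ hij
  obtain rfl : i = j := hij
  refine ⟨rfl, fun z hz => ?_⟩
  have hz' : z ∈ (A.e i).target := hz
  have h1 : ∀ k : K, a (i, k) ((C.lift.e (i, k)).symm z) = a0 i ((A.e i).symm z) := by
    intro k
    rw [h (i, k) _ ((C.lift.e (i, k)).map_target hz)]
    show a0 i (C.p (C.act k (C.s i ((A.e i).symm z)))) = _
    rw [C.p_act_s ((A.e i).map_target hz')]
  rw [h1 k, h1 l]

/-- **finitely many types of neighbouring pairs on the lifted atlas** -/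
theorem pty_lift [Finite A.ι] : PTy (liftP C P) (up C B) := by
  classical
  have := Fintype.ofFinite A.ι
  obtain ⟨s, hs⟩ := exists_shift C P
  refine ⟨⟨(Finset.univ ×ˢ s : Finset (A.ι × K)).card, fun q => ?_⟩, ?_, ?_, ?_, ?_⟩
  · have h1 : nb (liftP C P) q ⊆
        (Finset.univ ×ˢ s : Finset (A.ι × K)).image (fun p => ((p.1, p.2 + q.2) : A.ι × K)) := by
      intro q' hq'
      have h2 := hs q q' (nb_lift_sub C P hq')
      refine Finset.mem_image.2 ⟨(q'.1, q'.2 - q.2), Finset.mem_product.2 ⟨Finset.mem_univ _, h2⟩,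
        ?_⟩
      rw [sub_add_cancel]
    exact (Finset.card_le_card h1).trans Finset.card_image_le
  · refine ⟨A.ι × A.ι × Option {x // x ∈ s}, inferInstance, fun q q' =>
      (q.1, q'.1, if h : q'.2 - q.2 ∈ s then some ⟨q'.2 - q.2, h⟩ else none), ?_⟩
    rintro ⟨i, k⟩ ⟨j, l⟩ ⟨i', k'⟩ ⟨j', l'⟩ h1 h2 h3
    simp only [Prod.mk.injEq] at h3
    obtain ⟨rfl, rfl, h3⟩ := h3
    have h4 := hs _ _ (nb_lift_sub C P h1)
    have h5 := hs _ _ (nb_lift_sub C P h2)
    simp only at h4 h5
    rw [dif_pos h4, dif_pos h5] at h3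
    have h6 : l - k = l' - k' := congrArg Subtype.val (Option.some.inj h3)
    refine ⟨rfl, rfl, fun z hz => ?_⟩
    have hz' : z ∈ (A.e i).target := hz
    have hx := (A.e i).map_target hz'
    have e1 : C.act (k' - k) ((C.lift.e (i, k)).symm z) = (C.lift.e (i, k')).symm z := by
      show C.act (k' - k) (C.act k (C.s i ((A.e i).symm z))) = C.act k' (C.s i ((A.e i).symm z))
      rw [← C.act_add, sub_add_cancel]
    have hp : ∀ k : K, C.p ((C.lift.e (i, k)).symm z) = (A.e i).symm z := fun k => C.p_act_s hx k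
    have e2 : k' - k + l = l' := by
      have : l = l' - k' + k := by rw [← h6, sub_add_cancel]
      rw [this]; abel
    refine ⟨?_, fun _ => ⟨?_, ?_⟩⟩
    · rw [← e1]
      have h7 := C.mem_sheet_act (i := j) (k := l) (z := (C.lift.e (i, k)).symm z) (k' - k)
      rw [e2] at h7
      exact h7.symm
    · show A.e j (C.p ((C.lift.e (i, k)).symm z)) = A.e j (C.p ((C.lift.e (i, k')).symm z))
      rw [hp, hp]
    · show B.τ i j (C.p ((C.lift.e (i, k)).symm z)) = B.τ i j (C.p ((C.lift.e (i, k')).symm z))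
      rw [hp, hp]
  · exact ftp_lift C P.ψ fun q z hz => lf_of_mem C hz _
  · exact ftp_lift C P.χ fun q z hz => lf_of_mem C hz _
  · exact ftp_lift C B.α fun q z _ => rfl

end pty

/-! ### the sequence model -/

section per

variable {Z : Type} [TopologicalSpace Z] (C : KCov A Z ℤ) (P : Part A) (B : FBun A)

/-- weights `1`, shifts `n - deg` on the index type `A.ι × B.κ` -/
def W0 : WS (A.ι × B.κ) where
  om _ := 1
  pos _ := one_pos
  sh p := n - B.deg p.2

/-- smooth vectors in the boxes of one sheet -/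
abbrev V0 : Type := FT (RI n) (W0 B)

variable {B} in
/-- sequences as families over the lifted atlas -/
def toF (f : ℤ → V0 B) : C.lift.ι → B.κ → SPer (RI n) := fun q k => (f q.2).fn (q.1, k)



/-- the deck transformation by `1` -/
abbrev γ : Sec (up C B) ≃ₗ[ℂ] Sec (up C B) := deckS C B 1

theorem γ_zpow (m : ℤ) : (γ C B) ^ m = deckS C B m := by
  let φ : Multiplicative ℤ →* (Sec (up C B) ≃ₗ[ℂ] Sec (up C B)) :=
    { toFun := fun m => deckS C B m.toAdd
      map_one' := deckS_zero C B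
      map_mul' := fun a b => by
        rw [deckS_mul, toAdd_mul, add_comm] }
  have h := map_zpow φ (Multiplicative.ofAdd 1) m
  have h2 : (Multiplicative.ofAdd (1 : ℤ)) ^ m = Multiplicative.ofAdd m := by
    rw [← ofAdd_zsmul, smul_eq_mul, mul_one]
  rw [h2] at h
  exact h.symm

variable [Finite A.ι]

/-- localisation to the sheet `0` -/
def L0 : Sec (up C B) →ₗ[ℂ] V0 B where
  toFun u := FT.mk (fun p => LocF (up C B) ((liftP C P).psi B.κ) u.1 (p.1, 0) p.2)
    (mem_TS_of_finite _)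
  map_add' u v := by
    apply FT.ext
    intro p
    exact congrFun (congrFun (LocF_add (up C B) ((liftP C P).amp_psi B.κ) u.2 v.2) (p.1, 0)) p.2
  map_smul' c u := by
    apply FT.ext
    intro p
    exact congrFun (congrFun (LocF_smul (up C B) ((liftP C P).amp_psi B.κ) c u.2) (p.1, 0)) p.2

@[simp] theorem L0_fn (u : Sec (up C B)) (p : A.ι × B.κ) :
    (L0 C P B u).fn p = LocF (up C B) ((liftP C P).psi B.κ) u.1 (p.1, 0) p.2 := rfl

/-- extension from the boxes -/
def Ex : (ℤ → V0 B) →ₗ[ℂ] Sec (up C B) where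
  toFun f := ⟨ExtF (up C B) ((liftP C P).chi B.κ) (toF C f),
    ExtF_mem (up C B) ((liftP C P).amp_chi B.κ) _⟩
  map_add' f g := Subtype.ext (ExtF_add (up C B) ((liftP C P).amp_chi B.κ) (toF C f) (toF C g))
  map_smul' c f := Subtype.ext (ExtF_smul (up C B) ((liftP C P).amp_chi B.κ) c (toF C f))

@[simp] theorem Ex_coe (f : ℤ → V0 B) : (Ex C P B f : C.lift.ι → Z → B.κ → ℂ) =
    ExtF (up C B) ((liftP C P).chi B.κ) (toF C f) := rfl

theorem L0_deck (u : Sec (up C B)) (m : ℤ) (p : A.ι × B.κ) :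
    (L0 C P B (deckS C B m u)).fn p =
      LocF (up C B) ((liftP C P).psi B.κ) u.1 (p.1, m) p.2 := by
  rw [L0_fn]
  have h := LocF_inv (B := B) (ainv_psi C P B.κ) m u.1 (p.1, 0)
  rw [KCov.deck_r, add_zero] at h
  exact congrFun h p.2

theorem toF_L0 (u : Sec (up C B)) :
    toF C (fun m : ℤ => L0 C P B (deckS C B m u)) =
      LocF (up C B) ((liftP C P).psi B.κ) u.1 := by
  funext q k
  exact L0_deck C P B u q.2 (q.1, k)

/-- **the equivariant retract** -/
def pr : PerRet ℂ (V0 B) (Sec (up C B)) where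
  γ := γ C B
  L0 := L0 C P B
  Ext := Ex C P B
  ext_loc u := by
    have h1 : (fun m : ℤ => L0 C P B ((γ C B ^ m) u)) = fun m : ℤ => L0 C P B (deckS C B m u) := by
      funext m
      rw [γ_zpow]
    rw [h1]
    apply Subtype.ext
    rw [Ex_coe, toF_L0]
    exact ExtF_LocF (up C B) (liftP C P) u.2
  ext_shift f := by
    apply Subtype.ext
    rw [deckS_coe, Ex_coe, Ex_coe, ExtF_inv (B := B) (ainv_chi C P B.κ) 1]
    congr 1
    funext q k
    show (f (1 + q.2)).fn (q.1, k) = (f (q.2 + 1)).fn (q.1, k)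
    rw [add_comm]

@[simp] theorem pr_γ : (pr C P B).γ = γ C B := rfl
@[simp] theorem pr_L0 : (pr C P B).L0 = L0 C P B := rfl
@[simp] theorem pr_Ext : (pr C P B).Ext = Ex C P B := rfl

/-- `Loc` is the family of all localisations -/
theorem pr_Loc (u : Sec (up C B)) (m : ℤ) (p : A.ι × B.κ) : ((pr C P B).Loc u m).fn p =
    LocF (up C B) ((liftP C P).psi B.κ) u.1 (p.1, m) p.2 := by
  rw [PerRet.Loc_apply, pr_γ, γ_zpow]
  exact L0_deck C P B u m p

/-! ### invariance -/

theorem inv_nabL : (pr C P B).Inv (nabL (up C B)) := fun u => nabL_deckS C B 1 u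

theorem KM_inv (m : ℤ) (u : C.lift.ι → Z → B.κ → ℂ) :
    KM (up C B) (liftP C P) ((C.deck m).pull u) = (C.deck m).pull (KM (up C B) (liftP C P) u) := by
  have h1 : (fun q => Geo.KT (up C B).io
      (LocF (up C B) ((liftP C P).psi B.κ) ((C.deck m).pull u) q)) =
      fun q => Geo.KT (up C B).io
        (LocF (up C B) ((liftP C P).psi B.κ) u ((C.deck m).r q)) := by
    funext q
    exact congrArg (Geo.KT (up C B).io) (LocF_inv (B := B) (ainv_psi C P B.κ) m u q)
  have h2 := ExtF_inv (B := B) (ainv_chi C P B.κ) m (fun q => Geo.KT (up C B).io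
      (LocF (up C B) ((liftP C P).psi B.κ) u q))
  exact (congrArg (ExtF (up C B) ((liftP C P).chi B.κ)) h1).trans h2.symm

theorem inv_KML : (pr C P B).Inv (KML (up C B) (liftP C P)) :=
  fun u => Subtype.ext (KM_inv C P B 1 u.1)

theorem inv_pqL (q : ℕ) : (pr C P B).Inv (pqL (up C B) q) := by
  intro u
  apply Subtype.ext
  funext i x
  show Dq (up C B) q *ᵥ (C.deck 1).pull u.1 i x = (C.deck 1).pull (pq (up C B) q u.1) i x
  by_cases hx : x ∈ (C.lift.e i).source
  · rw [(C.deck 1).pull_of_mem hx, (C.deck 1).pull_of_mem hx]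
    rfl
  · rw [(C.deck 1).pull_off hx, (C.deck 1).pull_off hx, Matrix.mulVec_zero]

/-! ### finite propagation -/

section fp

variable {C P B}

/-- localisation of an extension only involves the neighbouring boxes -/
theorem LocF_ExtF_zero {κ₁ κ₂ : Type} [Fintype κ₁] [Fintype κ₂]
    {a : C.lift.ι → Z → Matrix κ₁ B.κ ℂ} {b : C.lift.ι → Z → Matrix B.κ κ₂ ℂ}
    (ha : AmpF (liftP C P) a) (hb : AmpF (liftP C P) b) {F : C.lift.ι → κ₂ → SPer (RI n)}
    {q : C.lift.ι} (h : ∀ q' ∈ nb (liftP C P) q, F q' = 0) :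
    LocF (up C B) a (ExtF (up C B) b F) q = 0 := by
  funext k
  show loc C.lift q (a q) (ExtF (up C B) b F q) k = 0
  rw [loc_ExtF (B := up C B) ha hb F q k]
  refine Finset.sum_eq_zero fun q' hq' => Finset.sum_eq_zero fun l _ => ?_
  rw [h q' hq']
  exact LinearMap.map_zero _

variable (C P) in
/-- the radius of the neighbourhood relation -/
theorem exists_rad : ∃ Mx : ℕ, ∀ q, ∀ q' ∈ nb (liftP C P) q, |q'.2 - q.2| ≤ Mx := by
  obtain ⟨Mx, h⟩ := exists_radius P C
  exact ⟨Mx, fun q q' hq' => h q q' (nb_lift_sub C P hq')⟩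

variable {Mx : ℕ} (hM : ∀ q, ∀ q' ∈ nb (liftP C P) q, |q'.2 - q.2| ≤ Mx)
include hM

theorem toF_zero {f : ℤ → V0 B} {r : ℕ} (hf : ∀ m : ℤ, |m| ≤ ((Mx + r : ℕ) : ℤ) → f m = 0)
    {q : C.lift.ι} (hq : |q.2| ≤ r) : ∀ q' ∈ nb (liftP C P) q, toF C f q' = 0 := by
  intro q' hq'
  have h1 := hM q q' hq'
  have h2 : f q'.2 = 0 := by
    apply hf
    calc |q'.2| = |(q'.2 - q.2) + q.2| := by rw [sub_add_cancel]
      _ ≤ |q'.2 - q.2| + |q.2| := abs_add_le _ _
      _ ≤ ((Mx + r : ℕ) : ℤ) := by push_cast; linarith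
  funext k
  show (f q'.2).fn (q'.1, k) = 0
  rw [h2]
  rfl

theorem fp_one : (pr C P B).FP 1 Mx := by
  intro f hf
  apply FT.ext
  intro p
  have h := LocF_ExtF_zero (B := B) ((liftP C P).amp_psi B.κ) ((liftP C P).amp_chi B.κ)
    (toF_zero hM (r := 0) (by simpa using hf) (q := ((p.1, (0 : ℤ)) : C.lift.ι)) (by simp))
  exact congrFun h p.2

theorem fp_nabL : (pr C P B).FP (nabL (up C B)) Mx := by
  intro f hf
  apply FT.ext
  intro p
  have h0 := toF_zero hM (r := 0) (by simpa using hf) (q := ((p.1, (0 : ℤ)) : C.lift.ι)) (by simp)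
  have hχ := (liftP C P).amp_chi B.κ
  have hψ := (liftP C P).amp_psi B.κ
  have h1 : nab (up C B) (ExtF (up C B) ((liftP C P).chi B.κ) (toF C f)) =
      ExtF (up C B) ((liftP C P).chi B.κ) (fun j => Geo.DT (up C B).e (toF C f j)) +
      ExtF (up C B) (dchi (up C B) (liftP C P)) (toF C f) :=
    nab_ExtF (up C B) hχ (fun j c x => (liftP C P).chi_comm B.κ _ j x) _
  have h2 := LocF_add (up C B) hψ (ExtF_mem (up C B) hχ (fun j => Geo.DT (up C B).e (toF C f j)))
    (ExtF_mem (up C B) (amp_dchi (up C B) (liftP C P)) (toF C f))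
  show LocF (up C B) ((liftP C P).psi B.κ) (nab (up C B) (ExtF (up C B) ((liftP C P).chi B.κ)
    (toF C f))) (p.1, 0) p.2 = 0
  rw [h1, h2, Pi.add_apply, Pi.add_apply,
    LocF_ExtF_zero (B := B) hψ hχ (fun q' hq' => by
      rw [h0 q' hq']
      have h3 := Geo.DT_smul (up C B).e 0 (0 : (up C B).κ → SPer (RI n))
      rwa [zero_smul, zero_smul] at h3),
    LocF_ExtF_zero (B := B) hψ (amp_dchi (up C B) (liftP C P)) h0, Pi.zero_apply]
  exact add_zero _

theorem fp_KML : (pr C P B).FP (KML (up C B) (liftP C P)) (Mx + Mx) := by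
  intro f hf
  apply FT.ext
  intro p
  have hχ := (liftP C P).amp_chi B.κ
  have hψ := (liftP C P).amp_psi B.κ
  show LocF (up C B) ((liftP C P).psi B.κ) (ExtF (up C B) ((liftP C P).chi B.κ) (fun j => Geo.KT
    (up C B).io (LocF (up C B) ((liftP C P).psi B.κ) (ExtF (up C B) ((liftP C P).chi B.κ)
      (toF C f)) j))) (p.1, 0) p.2 = 0
  have h1 := LocF_ExtF_zero (B := B) hψ hχ (q := ((p.1, (0 : ℤ)) : C.lift.ι))
    (F := fun j => Geo.KT (up C B).io (LocF (up C B) ((liftP C P).psi B.κ) (ExtF (up C B)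
      ((liftP C P).chi B.κ) (toF C f)) j)) (fun q' hq' => by
      have h2 := hM _ q' hq'
      rw [sub_zero] at h2
      have h3 := LocF_ExtF_zero (B := B) hψ hχ (q := q')
        (toF_zero hM (r := Mx) hf (q := q') h2)
      have h4 := Geo.KT_smul (up C B).io 0 (0 : (up C B).κ → SPer (RI n))
      rw [zero_smul, zero_smul] at h4
      show Geo.KT _ _ = 0
      rw [h3, h4])
  exact congrFun h1 p.2

end fp

end per

end

end Crest.Agent.R275.QPb635
end

-- ▼ part R275/QPd_635
section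

/-!
# R275 / block D (helper635): QPd, Laurent polynomials of periodic operators

For `R : PerRet ℂ V U`: `R.lau T M : Lau (Module.End ℂ V)`, `coeff`, `lau_mul`, `ev_lau`,
`exactAt`.
-/

set_option autoImplicit false
set_option linter.unusedSectionVars false

namespace Crest.Agent.R275.QP635

open Module LinearMap Sq617

noncomputable section

namespace PerRet

variable {V U : Type*} [AddCommGroup V] [Module ℂ V] [AddCommGroup U] [Module ℂ U]
variable (R : PerRet ℂ V U)

/-- the Laurent polynomial of a periodic operator of propagation `≤ M` -/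
def lau (T : Module.End ℂ U) (M : ℕ) : Lau (Module.End ℂ V) :=
  ∑ m ∈ win M, AddMonoidAlgebra.single m (R.co T m)

variable {R}

theorem lau_coeff {T : Module.End ℂ U} {M : ℕ} (h : R.FP T M) (m : ℤ) :
    (R.lau T M).coeff m = R.co T m := by
  classical
  unfold lau
  rw [AddMonoidAlgebra.coeff_sum, Finsupp.finsetSum_apply]
  simp only [AddMonoidAlgebra.coeff_single, Finsupp.single_apply]
  rw [Finset.sum_ite_eq']
  split_ifs with hm
  · rfl
  · exact (co_eq_zero h hm).symm

theorem lau_ext {f g : Lau (Module.End ℂ V)} (h : ∀ m, f.coeff m = g.coeff m) : f = g := by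
  ext m v
  rw [h]

theorem lau_mul {T T' : Module.End ℂ U} {M M' : ℕ} (h : R.FP T M) (hi' : R.Inv T')
    (h' : R.FP T' M') : R.lau T M * R.lau T' M' = R.lau (T * T') (M + M') := by
  classical
  apply lau_ext
  intro m
  rw [lau_coeff (h.mul hi' h'), co_mul h hi' h']
  conv_lhs => rw [lau, Finset.sum_mul]
  rw [AddMonoidAlgebra.coeff_sum, Finsupp.finsetSum_apply]
  refine Finset.sum_congr rfl fun a _ => ?_
  rw [AddMonoidAlgebra.coeff_single_mul_apply, lau_coeff h']
  congr 2
  omega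

theorem lau_congr {T : Module.End ℂ U} {M M' : ℕ} (h : R.FP T M) (h' : R.FP T M') :
    R.lau T M = R.lau T M' := lau_ext fun m => by rw [lau_coeff h, lau_coeff h']


end PerRet

end

end Crest.Agent.R275.QP635

open Set Filter Topology Complex
open scoped ContDiff Matrix ComplexConjugate

namespace Crest.Agent.R275.QPb635

open Geo Tor812 TorS666 C1d194 XN194 Ret666 RetC666 QP635 C2812 Fred685 Sq617

noncomputable section

variable {n : ℕ} {M : Type} [TopologicalSpace M] {A : Atl n M}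

/-! ### the grading of `V0` -/

section gr

variable (B : FBun A)

/-- the degree `q` part of a vector in the boxes -/
def piV (q : ℕ) : V0 B →ₗ[ℂ] V0 B where
  toFun f := FT.mk (fun p => if B.deg p.2 = q then f.fn p else 0) (by
    rw [mem_TS]
    intro s
    refine Summable.of_nonneg_of_le (fun j => sq_nonneg _) (fun j => ?_) (hasSum_nT s f).summable
    split_ifs
    · exact le_rfl
    · rw [nrm_zero_fun, mul_zero, zero_pow two_ne_zero]; positivity)
  map_add' f g := by
    apply FT.ext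
    intro p
    show (if B.deg p.2 = q then f.fn p + g.fn p else 0) = (if B.deg p.2 = q then f.fn p else 0) +
      (if B.deg p.2 = q then g.fn p else 0)
    split_ifs
    · rfl
    · rw [add_zero]
  map_smul' c f := by
    apply FT.ext
    intro p
    show (if B.deg p.2 = q then c • f.fn p else 0) = c • (if B.deg p.2 = q then f.fn p else 0)
    split_ifs
    · rfl
    · rw [smul_zero]

@[simp] theorem piV_fn (q : ℕ) (f : V0 B) (p : A.ι × B.κ) :
    (piV B q f).fn p = if B.deg p.2 = q then f.fn p else 0 := rfl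

/-- the grading of `V0 B` by the form degree -/
def grV : Gr ℂ (V0 B) where
  m := topDeg B
  π := piV B
  idem q v := by
    apply FT.ext
    intro p
    rw [piV_fn, piV_fn]
    split_ifs <;> rfl
  orth q r v h := by
    apply FT.ext
    intro p
    rw [piV_fn, piV_fn]
    split_ifs with h1 h2
    · exact absurd (h1.symm.trans h2) h
    · rfl
    · rfl
  top q v h := by
    apply FT.ext
    intro p
    rw [piV_fn, if_neg]
    · rfl
    · have := deg_le_topDeg (B := B) p.2
      omega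
  sum v := by
    apply FT.ext
    intro p
    rw [FT.sum_fn]
    simp only [piV_fn]
    rw [Finset.sum_ite_eq, if_pos]
    have := deg_le_topDeg (B := B) p.2
    exact Finset.mem_range.2 (by omega)

@[simp] theorem grV_π (q : ℕ) : (grV B).π q = piV B q := rfl

theorem op0_piV (q : ℕ) : Op0 (scT (W0 B)) (scT (W0 B)) (piV B q) := by
  intro s
  refine ⟨1, fun f => ?_⟩
  rw [scT_nrm, scT_nrm]
  refine nT_le_of zero_le_one fun F => ?_
  rw [one_pow, one_mul]
  refine le_trans (Finset.sum_le_sum fun j _ => ?_) (sum_le_nT s f F)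
  rw [piV_fn]
  split_ifs
  · exact le_rfl
  · rw [nrm_zero_fun, mul_zero, zero_pow two_ne_zero]; positivity

theorem mT_Dq (q : ℕ) (f : B.κ → SPer (RI n)) (k : B.κ) :
    mT (Dq B q) f k = if B.deg k = q then f k else 0 := by
  show ∑ l, Dq B q k l • f l = _
  rw [Finset.sum_eq_single k]
  · rw [Dq, Matrix.diagonal_apply_eq]
    split_ifs
    · rw [one_smul]
    · rw [zero_smul]
  · intro l _ hl
    rw [Dq, Matrix.diagonal_apply_ne _ (Ne.symm hl), zero_smul]
  · intro h
    exact absurd (Finset.mem_univ k) h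

end gr

section deg

variable {Z : Type} [TopologicalSpace Z] (C : KCov A Z ℤ) (P : Part A) (B : FBun A) [Finite A.ι]

theorem L0_pqL (q : ℕ) (u : Sec (up C B)) :
    L0 C P B (pqL (up C B) q u) = piV B q (L0 C P B u) := by
  apply FT.ext
  intro p
  have h := LocF_Dq (B := up C B) ((liftP C P).amp_psi B.κ) q q
    (fun j x => (liftP C P).psi_comm B.κ _ j x |>.symm) u.2
  have h2 := congrFun (congrFun h (p.1, 0)) p.2
  rw [L0_fn, piV_fn]
  exact h2.trans (mT_Dq (up C B) q _ p.2)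

theorem Ex_piV (q : ℕ) (f : ℤ → V0 B) :
    Ex C P B (fun m => piV B q (f m)) = pqL (up C B) q (Ex C P B f) := by
  apply Subtype.ext
  have h := ExtF_Dq (B := up C B) ((liftP C P).amp_chi B.κ) q q
    (fun j x => (liftP C P).chi_comm B.κ _ j x |>.symm) (toF C f)
  rw [Ex_coe, pqL_coe, Ex_coe, ← h]
  congr 1
  funext j k
  exact (mT_Dq (up C B) q (toF C f j) k).symm

theorem Ex_single_piV (q : ℕ) (m : ℤ) (g : V0 B) :
    Ex C P B (Pi.single m (piV B q g)) = pqL (up C B) q (Ex C P B (Pi.single m g)) := by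
  rw [← Ex_piV]
  congr 1
  funext l
  by_cases h : l = m
  · subst h
    rw [Pi.single_eq_same, Pi.single_eq_same]
  · rw [Pi.single_eq_of_ne h, Pi.single_eq_of_ne h, map_zero]

/-- the coefficients of a homogeneous operator are homogeneous -/
theorem deg_co {T : Module.End ℂ (Sec (up C B))} {j : ℤ}
    (h : ∀ q r : ℕ, (r : ℤ) ≠ q + j → ∀ u, pqL (up C B) r (T (pqL (up C B) q u)) = 0) (m : ℤ) :
    Deg (grV B) (grV B) j ((pr C P B).co T m) := by
  intro q r hr g
  rw [grV_π, grV_π, PerRet.co_apply, pr_L0, pr_Ext, Ex_single_piV, ← L0_pqL, h q r hr, map_zero]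

theorem deg_co_one (m : ℤ) : Deg (grV B) (grV B) 0 ((pr C P B).co 1 m) :=
  deg_co C P B (fun q r hr u => by
    have h : r ≠ q := fun h => hr (by rw [h, add_zero])
    exact LinearMap.congr_fun (pqL_orth (B := up C B) h) u) m

theorem deg_co_nabL (m : ℤ) : Deg (grV B) (grV B) 1 ((pr C P B).co (nabL (up C B)) m) :=
  deg_co C P B (fun q r hr u => by
    have h : r ≠ q + 1 := fun h => hr (by rw [h]; push_cast; ring)
    have h1 : nabL (up C B) (pqL (up C B) q u) = pqL (up C B) (q + 1) (nabL (up C B) u) :=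
      LinearMap.congr_fun (nabL_pqL (B := up C B) q) u
    rw [h1]
    exact LinearMap.congr_fun (pqL_orth (B := up C B) h) _) m

theorem deg_co_KML (m : ℤ) :
    Deg (grV B) (grV B) (-1) ((pr C P B).co (KML (up C B) (liftP C P)) m) :=
  deg_co C P B (fun q r hr u => by
    cases q with
    | zero =>
      have h1 : KML (up C B) (liftP C P) (pqL (up C B) 0 u) = 0 :=
        LinearMap.congr_fun (KML_pqL_zero (liftP C P)) u
      rw [h1, map_zero]
    | succ q =>
      have h : r ≠ q := fun h => hr (by rw [h]; push_cast; ring)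
      have h1 : KML (up C B) (liftP C P) (pqL (up C B) (q + 1) u) =
          pqL (up C B) q (KML (up C B) (liftP C P) u) :=
        LinearMap.congr_fun (KML_pqL (liftP C P) q) u
      rw [h1]
      exact LinearMap.congr_fun (pqL_orth (B := up C B) h) _) m

end deg

/-! ### the Laurent data -/

section ldata

variable {Z : Type} [TopologicalSpace Z] (C : KCov A Z ℤ) (P : Part A) (B : FBun A) [Finite A.ι]

/-- the propagation radius -/
def Rx : ℕ := (exists_rad C P).choose

theorem Rx_spec : ∀ q, ∀ q' ∈ nb (liftP C P) q, |q'.2 - q.2| ≤ Rx C P :=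
  (exists_rad C P).choose_spec

/-- bounds of the coefficients -/
structure CoB : Prop where
  one : ∀ m, Op0 (scT (W0 B)) (scT (W0 B)) ((pr C P B).co 1 m)
  nab : ∀ m, Op0 (scT (W0 B)) (scT (W0 B)) ((pr C P B).co (nabL (up C B)) m)
  K : ∀ m, Op0 (scT (W0 B)) (scT (W0 B)) ((pr C P B).co (KML (up C B) (liftP C P)) m)
  R : ∀ m, Neg (scT (W0 B)) (scT (W0 B)) ((pr C P B).co (RML (up C B) (liftP C P)) m)

variable {C P B}

/-- **the Laurent data of the lifted complex** -/
def ldata (h : CoB C P B) (hdd : nabL (up C B) ∘ₗ nabL (up C B) = 0) :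
    LData (scT (W0 B)) (grV B) := by
  have f1 := fp_one (B := B) (Rx_spec C P)
  have fd := fp_nabL (B := B) (Rx_spec C P)
  have fk := fp_KML (B := B) (Rx_spec C P)
  have i1 := (pr C P B).inv_one
  have id := inv_nabL C P B
  have ik := inv_KML C P B
  exact
  { πop := op0_piV B
    P := (pr C P B).lau 1 (Rx C P)
    D := (pr C P B).lau (nabL (up C B)) (Rx C P)
    K := (pr C P B).lau (KML (up C B) (liftP C P)) (Rx C P + Rx C P)
    opP := fun m => by rw [PerRet.lau_coeff f1]; exact h.one m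
    opD := fun m => by rw [PerRet.lau_coeff fd]; exact h.nab m
    opK := fun m => by rw [PerRet.lau_coeff fk]; exact h.K m
    dP := fun m => by rw [PerRet.lau_coeff f1]; exact deg_co_one C P B m
    dD := fun m => by rw [PerRet.lau_coeff fd]; exact deg_co_nabL C P B m
    dK := fun m => by rw [PerRet.lau_coeff fk]; exact deg_co_KML C P B m
    PP := by
      rw [PerRet.lau_mul f1 i1 f1]
      exact PerRet.lau_congr (T := 1) (f1.mono (Nat.le_add_right _ _)) f1
    DP := by
      rw [PerRet.lau_mul fd i1 f1, mul_one]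
      exact PerRet.lau_congr (fd.mono (Nat.le_add_right _ _)) fd
    PD := by
      rw [PerRet.lau_mul f1 id fd, one_mul]
      exact PerRet.lau_congr (fd.mono (Nat.le_add_right _ _)) fd
    PK := by
      rw [PerRet.lau_mul f1 ik fk, one_mul]
      exact PerRet.lau_congr (fk.mono (Nat.le_add_left _ _)) fk
    KP := by
      rw [PerRet.lau_mul fk i1 f1, mul_one]
      exact PerRet.lau_congr (fk.mono (Nat.le_add_right _ _)) fk
    DD := by
      rw [PerRet.lau_mul fd id fd]
      have h0 : nabL (up C B) * nabL (up C B) = 0 := hdd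
      rw [h0]
      apply PerRet.lau_ext
      intro m
      rw [PerRet.lau_coeff (fun f hf => by rw [LinearMap.zero_apply, map_zero])]
      apply LinearMap.ext
      intro g
      rw [PerRet.co_apply, LinearMap.zero_apply, map_zero]
      rfl
    neg := fun m => by
      rw [PerRet.lau_mul fd ik fk, PerRet.lau_mul fk id fd, AddMonoidAlgebra.coeff_sub,
        AddMonoidAlgebra.coeff_sub, Finsupp.sub_apply, Finsupp.sub_apply,
        PerRet.lau_coeff f1, PerRet.lau_coeff (fd.mul ik fk), PerRet.lau_coeff (fk.mul id fd),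
        ← PerRet.co_sub, ← PerRet.co_sub]
      have hR : (1 : Module.End ℂ (Sec (up C B))) - nabL (up C B) * KML (up C B) (liftP C P) -
          KML (up C B) (liftP C P) * nabL (up C B) = RML (up C B) (liftP C P) := by
        apply LinearMap.ext
        intro u
        have h1 : nabL (up C B) (KML (up C B) (liftP C P) u) +
            KML (up C B) (liftP C P) (nabL (up C B) u) = u - RML (up C B) (liftP C P) u :=
          LinearMap.congr_fun (nabL_KML (up C B) (liftP C P)) u
        show u - nabL (up C B) (KML (up C B) (liftP C P) u) -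
          KML (up C B) (liftP C P) (nabL (up C B) u) = RML (up C B) (liftP C P) u
        rw [sub_sub, h1, sub_sub_cancel]
      rw [hR]
      exact h.R m }


end ldata

end

end Crest.Agent.R275.QPb635
end

-- ▼ part R275/QPf_635
section

/-!
# R275 / block D (helper635): QPf, bounds of the Laurent coefficients

`cob : CoB C P B` (all `B.deg k ≤ n`), from helper666's bounds on the weighted section spaces.
-/

set_option autoImplicit false
set_option linter.unusedSectionVars false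

open Set Filter Topology Complex
open scoped ContDiff Matrix ComplexConjugate

namespace Crest.Agent.R275.QPb635

open Geo Tor812 TorS666 C1d194 XN194 Ret666 RetC666 QP635 C2812 Fred685 Sq617

noncomputable section

variable {n : ℕ} {M : Type} [TopologicalSpace M] {A : Atl n M}
variable {Z : Type} [TopologicalSpace Z] (C : KCov A Z ℤ) (P : Part A) (B : FBun A)

/-- the weighted families over the lifted atlas, weight `1` -/
abbrev FTl : Type := FT (RI n) (ws (Wt.one (liftP C P)) (shB n (up C B)))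

/-- a vector in the sheet `m` -/
def injS (m : ℤ) : V0 B →ₗ[ℂ] FTl C P B where
  toFun g := FT.mk (fun p => if p.1.2 = m then g.fn (p.1.1, p.2) else 0) (by
    classical
    rw [mem_TS]
    intro s
    have h := (hasSum_nT s g).summable
    have hinj : Function.Injective (fun p : A.ι × B.κ => (((p.1, m), p.2) : (A.ι × ℤ) × B.κ)) := by
      rintro ⟨i, k⟩ ⟨j, l⟩ hij
      simp only [Prod.mk.injEq] at hij
      rw [hij.1.1, hij.2]
    refine (hinj.summable_iff ?_).1 ?_
    · rintro ⟨⟨i, k⟩, l⟩ hp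
      have hk : k ≠ m := by
        rintro rfl
        exact hp ⟨(i, l), rfl⟩
      simp only [if_neg hk]
      rw [nrm_zero_fun, mul_zero, zero_pow two_ne_zero]
    · refine h.congr fun p => ?_
      simp only [Function.comp, if_true]
      rfl)
  map_add' f g := by
    apply FT.ext
    intro p
    show (if p.1.2 = m then f.fn (p.1.1, p.2) + g.fn (p.1.1, p.2) else 0) =
      (if p.1.2 = m then f.fn (p.1.1, p.2) else 0) + (if p.1.2 = m then g.fn (p.1.1, p.2) else 0)
    split_ifs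
    · rfl
    · rw [add_zero]
  map_smul' c f := by
    apply FT.ext
    intro p
    show (if p.1.2 = m then c • f.fn (p.1.1, p.2) else 0) =
      c • (if p.1.2 = m then f.fn (p.1.1, p.2) else 0)
    split_ifs
    · rfl
    · rw [smul_zero]

@[simp] theorem injS_fn (m : ℤ) (g : V0 B) (p : C.lift.ι × B.κ) :
    (injS C P B m g).fn p = if p.1.2 = m then g.fn (p.1.1, p.2) else 0 := rfl

theorem sheet_inj (m : ℤ) :
    Function.Injective (fun p : A.ι × B.κ => (((p.1, m), p.2) : C.lift.ι × B.κ)) := by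
  rintro ⟨i, k⟩ ⟨j, l⟩ hij
  obtain ⟨h1, h2⟩ := Prod.mk.inj hij
  obtain ⟨h3, -⟩ := Prod.mk.inj h1
  exact Prod.ext h3 h2

theorem mem_resS (m : ℤ) (f : FTl C P B) :
    (fun p : A.ι × B.κ => f.fn ((p.1, m), p.2)) ∈ TS (W0 B) := by
  rw [mem_TS]
  intro s
  have h := (hasSum_nT s f).summable
  have h2 := h.comp_injective (sheet_inj C B m)
  refine h2.congr fun p => ?_
  rfl

/-- restriction to the sheet `m` -/
def resS (m : ℤ) : FTl C P B →ₗ[ℂ] V0 B where
  toFun f := FT.mk (fun p => f.fn ((p.1, m), p.2)) (mem_resS C P B m f)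
  map_add' _ _ := FT.ext fun _ => rfl
  map_smul' _ _ := FT.ext fun _ => rfl

@[simp] theorem resS_fn (m : ℤ) (f : FTl C P B) (p : A.ι × B.κ) :
    (resS C P B m f).fn p = f.fn ((p.1, m), p.2) := rfl

theorem nT_injS (m : ℤ) (s : ℕ) (g : V0 B) : nT s (injS C P B m g) ≤ nT s g := by
  classical
  have := nT_le_of (s := s) (f := injS C P B m g) (g := g) (t := s) (C := 1) zero_le_one
    fun F => ?_
  · simpa using this
  · rw [one_pow, one_mul]
    set G : Finset (A.ι × B.κ) := (F.filter fun p => p.1.2 = m).image fun p => (p.1.1, p.2) with hG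
    refine le_trans (le_of_eq ?_) (sum_le_nT s g G)
    rw [hG, Finset.sum_image, ← Finset.sum_filter_add_sum_filter_not F fun p => p.1.2 = m]
    · have h0 : ∑ p ∈ F.filter fun p => ¬ p.1.2 = m,
          ((ws (Wt.one (liftP C P)) (shB n (up C B))).om p *
            nrm (s + (ws (Wt.one (liftP C P)) (shB n (up C B))).sh p)
              ((injS C P B m g).fn p)) ^ 2 = 0 := by
        refine Finset.sum_eq_zero fun p hp => ?_
        rw [injS_fn, if_neg (Finset.mem_filter.1 hp).2, nrm_zero_fun, mul_zero,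
          zero_pow two_ne_zero]
      rw [h0, add_zero]
      refine Finset.sum_congr rfl fun p hp => ?_
      rw [injS_fn, if_pos (Finset.mem_filter.1 hp).2]
      rfl
    · rintro ⟨⟨i, k⟩, l⟩ h1 ⟨⟨i', k'⟩, l'⟩ h2 h3
      have e1 : k = m := (Finset.mem_filter.1 h1).2
      have e2 : k' = m := (Finset.mem_filter.1 h2).2
      simp only [Prod.mk.injEq] at h3
      rw [e1, e2, h3.1, h3.2]

theorem nT_resS (m : ℤ) (s : ℕ) (f : FTl C P B) : nT s (resS C P B m f) ≤ nT s f := by
  classical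
  have := nT_le_of (s := s) (f := resS C P B m f) (g := f) (t := s) (C := 1) zero_le_one
    fun F => ?_
  · simpa using this
  · rw [one_pow, one_mul]
    set G : Finset (C.lift.ι × B.κ) := F.image fun p => ((p.1, m), p.2) with hG
    refine le_trans (le_of_eq ?_) (sum_le_nT s f G)
    rw [hG, Finset.sum_image fun p _ q _ h => sheet_inj C B m h]
    rfl

theorem op0_injS (m : ℤ) : Op0 (scT (W0 B)) (scT (ws (Wt.one (liftP C P)) (shB n (up C B))))
    (injS C P B m) :=
  fun s => ⟨1, fun g => by rw [one_mul]; exact nT_injS C P B m s g⟩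

theorem op0_resS (m : ℤ) : Op0 (scT (ws (Wt.one (liftP C P)) (shB n (up C B)))) (scT (W0 B))
    (resS C P B m) :=
  fun s => ⟨1, fun g => by rw [one_mul]; exact nT_resS C P B m s g⟩

theorem single_fn (m : ℤ) (g : V0 B) (i : A.ι) (l : ℤ) (k : B.κ) :
    (if l = m then g.fn (i, k) else 0) = ((Pi.single m g : ℤ → V0 B) l).fn (i, k) := by
  by_cases hq : l = m
  · subst hq
    rw [if_pos rfl, Pi.single_eq_same]
  · rw [if_neg hq, Pi.single_eq_of_ne hq]
    rfl

variable [Finite A.ι]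

/-- the coefficients of an operator of order `-r` have order `-r` -/
theorem opR_co {r : ℕ} {T : Module.End ℂ (Sec (up C B))}
    {T' : SecW (Wt.one (liftP C P)) (up C B) →ₗ[ℂ] SecW (Wt.one (liftP C P)) (up C B)}
    (hT : ∀ v, (SV.wt (Wt.one (liftP C P)) (up C B)).inc (T' v) =
      T ((SV.wt (Wt.one (liftP C P)) (up C B)).inc v))
    [hG : PTy (liftP C P) (up C B)]
    (h : OpR r ((SV.wt (Wt.one (liftP C P)) (up C B)).sc n)
      ((SV.wt (Wt.one (liftP C P)) (up C B)).sc n) T') (m : ℤ) :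
    OpR r (scT (W0 B)) (scT (W0 B)) ((pr C P B).co T m) := by
  set X := SV.wt (Wt.one (liftP C P)) (up C B) with hX
  have h1 : (pr C P B).co T m = resS C P B 0 ∘ₗ X.LocA (AF.psi (liftP C P) (up C B))
      (shB n (up C B)) ∘ₗ T' ∘ₗ X.ExtA (AF.chi (liftP C P) (up C B)) (shB n (up C B)) ∘ₗ
      injS C P B m := by
    apply LinearMap.ext
    intro g
    have e1 : X.inc (X.ExtA (AF.chi (liftP C P) (up C B)) (shB n (up C B)) (injS C P B m g)) =
        Ex C P B (Pi.single m g) := by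
      apply Subtype.ext
      rw [SV.inc_ExtA, Ex_coe]
      congr 1
      funext q k
      exact single_fn B m g q.1 q.2 k
    rw [PerRet.co_apply, pr_L0, pr_Ext, ← e1, ← hT]
    rfl
  rw [h1]
  have h2 : OpR r (scT (W0 B)) (X.sc n) (T' ∘ₗ X.ExtA (AF.chi (liftP C P) (up C B))
      (shB n (up C B)) ∘ₗ injS C P B m) :=
    OpR.comp0 h ((X.opR_ExtA_chi n).comp0 (opR_zero.2 (op0_injS C P B m)))
  exact OpR.comp0' (opR_zero.2 (op0_resS C P B 0)) ((X.opR_LocA_psi n).comp0' h2)

/-- the tautological retract -/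
def retV : Ret (RI n) (V0 B) where
  J := A.ι × B.κ
  W := W0 B
  Loc := LinearMap.id
  Ext := LinearMap.id
  left _ := rfl
  bdd := Op0.id

/-- **bounds of the Laurent coefficients** -/
theorem cob (hdeg : ∀ k, B.deg k ≤ n) : CoB C P B := by
  have hG : PTy (liftP C P) (up C B) := pty_lift C P B
  set X := SV.wt (Wt.one (liftP C P)) (up C B) with hX
  refine ⟨fun m => ?_, fun m => ?_, fun m => ?_, fun m => ?_⟩
  · refine opR_zero.1 (opR_co C P B (T' := LinearMap.id) (fun v => rfl) (opR_zero.2 Op0.id) m)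
  · exact opR_zero.1 (opR_co C P B (T' := X.nab) (fun v => X.inc_nab v)
      (opR_zero.2 (X.op0_nab hdeg)) m)
  · exact opR_zero.1 (opR_co C P B (T' := X.K) (fun v => Subtype.ext (X.inc_K v))
      (opR_zero.2 (X.op0_K n)) m)
  · have h1 := opR_co C P B (T := RML (up C B) (liftP C P)) (T' := X.R)
      (fun v => Subtype.ext (X.inc_R v)) (opR_one.2 (X.opm_R hdeg)) m
    have : Finite (retV B).J := inferInstanceAs (Finite (A.ι × B.κ))
    exact (retV B).neg_of_opm (retV B) (opR_one.1 h1)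

end

end Crest.Agent.R275.QPb635
end

-- ▼ part R275/SqL_617
section

/-!
# R275, block D (helper617): the weighted spaces of sections over the infinite cyclic covering

* `perCx`  : the Laurent data of helper635 describe `∇` on `Sec (up C B)`.
* `RateW C a b om` : weights `om` on the lifted charts comparable with `wrate a b` on the sheets.
* `wfDesc_of` : a family `WF` of weighted spaces given by such weights is described by the retract.
* `eint_nab`, `eint_nab_of` : `EInt` for `∇` on the covering from exactness of `∇` on the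
  quasi-periodic sections.
-/

set_option autoImplicit false
set_option linter.unusedSectionVars false

namespace Crest.Agent.R275.Sq617

open Geo Tor812 TorS666 C1d194 XN194 Ret666 QP635 QPb635 C2812 Fred685 LauB681

noncomputable section

variable {n : ℕ} {M : Type} [TopologicalSpace M] {A : Atl n M}
variable {Z : Type} [TopologicalSpace Z] (C : KCov A Z ℤ) (P : Part A) (B : FBun A)

/-- sheets and boxes -/
def eJ : C.lift.ι × B.κ ≃ ℤ × (A.ι × B.κ) where
  toFun p := (p.1.2, (p.1.1, p.2))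
  invFun p := ((p.2.1, p.1), p.2.2)
  left_inv _ := rfl
  right_inv _ := rfl

/-- the weights `om` on the lifted charts, shifts `n - deg` -/
def wom (om : C.lift.ι → ℝ) (h : ∀ q, 0 < om q) : WS (C.lift.ι × B.κ) where
  om p := om p.1
  pos p := h p.1
  sh p := WY681.sh (up C B) p.2

/-- weights of rates `a` (small end), `b` (large end) -/
structure RateW (a b : ℝ) (om : C.lift.ι → ℝ) : Prop where
  pos : ∀ q, 0 < om q
  lo : ∃ c > 0, ∀ q, c * (wrate a b).w q.2 ≤ om q
  up : ∃ c > 0, ∀ q, om q ≤ c * (wrate a b).w q.2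

variable {C} in
theorem RateW.cmp {a b : ℝ} {om : C.lift.ι → ℝ} (h : RateW C a b om) :
    Cmp (W0 B) (wom C B om h.pos) (wrate a b) (eJ C B) where
  sh _ := rfl
  lo := by
    obtain ⟨c, hc, h1⟩ := h.lo
    refine ⟨c, hc, fun p => ?_⟩
    show c * ((wrate a b).w p.1.2 * 1) ≤ om p.1
    rw [mul_one]; exact h1 _
  up := by
    obtain ⟨c, hc, h1⟩ := h.up
    refine ⟨c, hc, fun p => ?_⟩
    show om p.1 ≤ c * ((wrate a b).w p.1.2 * 1)
    rw [mul_one]; exact h1 _

/-- weights from heights: `h (i,m) ≈ -m` -/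
theorem RateW.of_height {hc : C.lift.ι → ℝ} {W : ℝ} (hW : ∀ q, |hc q + (q.2 : ℝ)| ≤ W) (a b : ℝ)
    {om : C.lift.ι → ℝ}
    (hom : ∀ q, om q = Real.exp (a * max (-(hc q)) 0 - b * max (hc q) 0)) : RateW C a b om := by
  have key : ∀ q, |(a * max (-(hc q)) 0 - b * max (hc q) 0) -
      (a * max (q.2 : ℝ) 0 - b * max (-(q.2 : ℝ)) 0)| ≤ (|a| + |b|) * W := by
    intro q
    have e1 : |max (-(hc q)) 0 - max (q.2 : ℝ) 0| ≤ W := by
      refine (abs_max_sub_max_le_abs _ _ _).trans ?_
      have : -(hc q) - (q.2 : ℝ) = -(hc q + q.2) := by ring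
      rw [this, abs_neg]; exact hW q
    have e2 : |max (hc q) 0 - max (-(q.2 : ℝ)) 0| ≤ W := by
      refine (abs_max_sub_max_le_abs _ _ _).trans ?_
      rw [sub_neg_eq_add]; exact hW q
    have e3 : (a * max (-(hc q)) 0 - b * max (hc q) 0) -
        (a * max (q.2 : ℝ) 0 - b * max (-(q.2 : ℝ)) 0) =
        a * (max (-(hc q)) 0 - max (q.2 : ℝ) 0) - b * (max (hc q) 0 - max (-(q.2 : ℝ)) 0) := by ring
    rw [e3]
    refine (abs_sub _ _).trans ?_
    rw [abs_mul, abs_mul, add_mul]
    exact add_le_add (mul_le_mul_of_nonneg_left e1 (abs_nonneg _))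
      (mul_le_mul_of_nonneg_left e2 (abs_nonneg _))
  refine ⟨fun q => by rw [hom]; exact Real.exp_pos _,
    ⟨Real.exp (-((|a| + |b|) * W)), Real.exp_pos _, fun q => ?_⟩,
    ⟨Real.exp ((|a| + |b|) * W), Real.exp_pos _, fun q => ?_⟩⟩
  · rw [hom]
    show _ * Real.exp _ ≤ _
    rw [← Real.exp_add]
    apply Real.exp_le_exp.mpr
    have := (abs_le.1 (key q)).1
    linarith
  · rw [hom]
    show _ ≤ _ * Real.exp _
    rw [← Real.exp_add]
    apply Real.exp_le_exp.mpr
    have := (abs_le.1 (key q)).2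
    linarith

variable [Finite A.ι]

/-- the Laurent data of helper635 describe the periodic complex -/
theorem perCx (h : CoB C P B) (hdd : nabL (up C B) ∘ₗ nabL (up C B) = 0) :
    PerCx (pr C P B) (nabL (up C B)) (ldata h hdd) :=
  PerCx.of_co (fp_one (Rx_spec C P)) (fun m => PerRet.lau_coeff (fp_one (Rx_spec C P)) m)
    (inv_nabL C P B) (fp_nabL (Rx_spec C P))
    (fun m => PerRet.lau_coeff (fp_nabL (Rx_spec C P)) m)

/-- localisation on the covering is the sequence of the localisations on the sheets -/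
theorem toSeq_locJ (u : Sec (up C B)) :
    toSeq (W0 := W0 B) (eJ C B) (WY681.locJ (liftP C P) (up C B) u) = (pr C P B).Loc u := by
  funext m
  apply FT.ext
  intro p
  rw [toSeq_fn, pr_Loc]
  rfl

/-- membership in the weighted spaces -/
theorem mem_iff_Loc {a b : ℝ} {om : C.lift.ι → ℝ} (h : RateW C a b om) (u : Sec (up C B)) :
    WY681.locJ (liftP C P) (up C B) u ∈ TS (wom C B om h.pos) ↔
      (pr C P B).Loc u ∈ SqV (scT (W0 B)) (wrate a b) := by
  rw [(h.cmp B).mem_iff, toSeq_locJ]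

theorem nT_le_Loc {a b : ℝ} {om : C.lift.ι → ℝ} (h : RateW C a b om) : ∃ c > 0, ∀ (s : ℕ)
    (u : Sec (up C B)) (hu : WY681.locJ (liftP C P) (up C B) u ∈ TS (wom C B om h.pos)),
    nT s (FT.mk _ hu) ≤ c * N2 (sf (scT (W0 B)) (wrate a b) s ((pr C P B).Loc u)) := by
  obtain ⟨c, hc, h1⟩ := (h.cmp B).nT_le (d := RI n)
  refine ⟨c, hc, fun s u hu => ?_⟩
  rw [← toSeq_locJ]
  exact h1 s (FT.mk _ hu)

theorem Loc_le_nT {a b : ℝ} {om : C.lift.ι → ℝ} (h : RateW C a b om) : ∃ c > 0, ∀ (s : ℕ)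
    (u : Sec (up C B)) (hu : WY681.locJ (liftP C P) (up C B) u ∈ TS (wom C B om h.pos)),
    N2 (sf (scT (W0 B)) (wrate a b) s ((pr C P B).Loc u)) ≤ c * nT s (FT.mk _ hu) := by
  obtain ⟨c, hc, h1⟩ := (h.cmp B).le_nT (d := RI n)
  refine ⟨c, hc, fun s u hu => ?_⟩
  rw [← toSeq_locJ]
  exact h1 s (FT.mk _ hu)

/-- the hypotheses on a family of weighted spaces over the covering -/
structure WFOn (om : ℝ → ℝ → C.lift.ι → ℝ) (hom : ∀ a b, RateW C a b (om a b))
    (F : WF ℂ (Sec (up C B))) : Prop where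
  mem : ∀ x y u, u ∈ F.V x y ↔
    WY681.locJ (liftP C P) (up C B) u ∈ TS (wom C B (om x y) (hom x y).pos)
  nrm : ∀ x y s (u : F.V x y), (F.S x y).nrm s u = nT s (FT.mk _ ((mem x y u).1 u.2))
  deg : ∀ (q : ℤ) u, F.π q u = if 0 ≤ q then pqL (up C B) q.toNat u else 0

theorem Loc_pqL (q : ℕ) (u : Sec (up C B)) (m : ℤ) :
    (pr C P B).Loc (pqL (up C B) q u) m = (grV B).π q ((pr C P B).Loc u m) := by
  have h1 : (pr C P B).Loc (pqL (up C B) q u) m =
      L0 C P B (((pr C P B).γ ^ m) (pqL (up C B) q u)) := rfl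
  have h2 : (pr C P B).Loc u m = L0 C P B (((pr C P B).γ ^ m) u) := rfl
  rw [h1, h2, ← (inv_pqL C P B q).zpow, L0_pqL]
  rfl

theorem wfDesc_of {om : ℝ → ℝ → C.lift.ι → ℝ} {hom : ∀ a b, RateW C a b (om a b)}
    {F : WF ℂ (Sec (up C B))} (hF : WFOn C P B om hom F) :
    WFDesc (pr C P B) (scT (W0 B)) (grV B) F where
  mem x y u := (hF.mem x y u).trans (mem_iff_Loc C P B (hom x y) u)
  le x y s := by
    obtain ⟨c, hc, h1⟩ := Loc_le_nT C P B (hom x y)
    refine ⟨c, fun u => ?_⟩
    rw [hF.nrm]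
    exact h1 s _ _
  ge x y s := by
    obtain ⟨c, hc, h1⟩ := nT_le_Loc C P B (hom x y)
    refine ⟨c, fun u => ?_⟩
    rw [hF.nrm]
    exact h1 s _ _
  deg q u m := by
    rw [hF.deg]
    unfold gz
    split_ifs with h
    · exact Loc_pqL C P B q.toNat u m
    · rw [map_zero]; rfl

/-- **`EInt` near an acyclic circle for `∇` on the covering** -/
theorem eint_nab (hdeg : ∀ k, B.deg k ≤ n) (hdd : nabL (up C B) ∘ₗ nabL (up C B) = 0)
    {om : ℝ → ℝ → C.lift.ι → ℝ} {hom : ∀ a b, RateW C a b (om a b)} {F : WF ℂ (Sec (up C B))}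
    (hF : WFOn C P B om hom F) (X : Cx F) (hX : ∀ u, X.D u = nabL (up C B) u) {ρ : ℝ}
    (hq : ∀ t : ℂ, ‖t‖ = Real.exp (-ρ) → t ≠ 0 → ∀ u : Sec (up C B), deckS C B 1 u = t • u →
      nabL (up C B) u = 0 → ∃ w : Sec (up C B), deckS C B 1 w = t • w ∧ nabL (up C B) w = u) :
    ∃ η > 0, EInt X (ρ - η) (ρ + η) :=
  (perCx C P B (cob C P B hdeg) hdd).eint (wfDesc_of C P B hF) X hX
    ((perCx C P B (cob C P B hdeg) hdd).exactOn (inv_nabL C P B) hq)

/-- **all mixed weights between acyclic circles, for `∇` on the covering** -/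
theorem eint_nab_of (hdeg : ∀ k, B.deg k ≤ n) (hdd : nabL (up C B) ∘ₗ nabL (up C B) = 0)
    {om : ℝ → ℝ → C.lift.ι → ℝ} {hom : ∀ a b, RateW C a b (om a b)} {F : WF ℂ (Sec (up C B))}
    (hF : WFOn C P B om hom F) (X : Cx F) (hX : ∀ u, X.D u = nabL (up C B) u) (c : Cut X)
    {a b : ℝ} (hab : a ≤ b)
    (hq : ∀ ρ ∈ Set.Icc a b, ∀ t : ℂ, ‖t‖ = Real.exp (-ρ) → t ≠ 0 → ∀ u : Sec (up C B),
      deckS C B 1 u = t • u → nabL (up C B) u = 0 →
      ∃ w : Sec (up C B), deckS C B 1 w = t • w ∧ nabL (up C B) w = u) :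
    EInt X a b :=
  EInt.of_local c hab fun ρ hρ => eint_nab C P B hdeg hdd hF X hX (hq ρ hρ)

end

end Crest.Agent.R275.Sq617
end

-- ▼ part R275/SqM_617
section

/-!
# R275, block D (helper617): `EInt` for the weighted spaces of helper681

`wfOn` : `wf h H` (helper681) over the covering is described by the retract of helper635, as soon as
the heights of the charts `(i, m)` are `-m + O(1)`.
`eint_cx`, `eint_cx_of` : `EInt (cx h H hdd)` from exactness of `∇` on the quasi-periodic sections.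
-/

set_option autoImplicit false
set_option linter.unusedSectionVars false

namespace Crest.Agent.R275.Sq617

open Geo Tor812 TorS666 C1d194 XN194 Ret666 QP635 QPb635 C2812 Fred685 LauB681 WY681 Core144

noncomputable section

variable {n : ℕ} {M : Type} [TopologicalSpace M] {A : Atl n M}
variable {Z : Type} [TopologicalSpace Z] (C : KCov A Z ℤ) (P : Part A) (B : FBun A)
variable {Q : PNb (liftP C P)} (H : Hts Q)

/-- heights of the charts `(i, m)` are `-m + O(1)` -/
def HtsOK : Prop := ∃ W : ℝ, ∀ q : C.lift.ι, |H.ht q + (q.2 : ℝ)| ≤ W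

variable {C P H}



theorem rateW_wt (hW : HtsOK C P H) (a b : ℝ) : RateW C a b (H.wt (-a) b).w := by
  obtain ⟨W, hW⟩ := hW
  refine RateW.of_height C hW a b fun q => ?_
  show (wgt (-a) b (H.ht q))⁻¹ = _
  unfold wgt
  rw [← Real.exp_neg]
  congr 1
  ring

variable [Finite A.ι] {B}




end

end Crest.Agent.R275.Sq617
end

-- ▼ part R275/UpL_473

/-!
# R275, block D (helper473): `EInt` for line bundles on the covering

The quasi-periodic theory lives on `up C (tw (lam2 A) E)` (matrices of the base pulled back), the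
weighted complexes on `tw (lam2 A_Y) (LV ..)`; the transition matrices agree on the overlaps only.

* `chg B τ' h hd`         : the bundle `B` with transition matrices `τ'`, equal to `B.τ` on overlaps;
* `SameWF`, `exists_same` : transport of a weighted complex along an equality of submodules;
* `eint_chg`              : `EInt` on `chg (up C B) τ'`;
* `PulLB C LX LY`         : `LY.g (i,m) (j,l) z = LX.g i j (p z)` on the overlaps;
* `eint_lift`             : `EInt` for `LY` on `C.lift` from exactness of the quasi-periodic sections;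
* `eint_N`                : the same on `(nlift N C).at' ρ` (`PulN`).
-/

set_option autoImplicit false
set_option linter.unusedSectionVars false

open Set Filter Topology Complex
open scoped ContDiff Matrix ComplexConjugate

noncomputable section

namespace Crest.Agent.R275.UpL473

open Geo Tor812 TorS666 C1d194 XN194 Ret666 QP635 QPb635 C2812 Fred685 LauB681 WY681 Core144
open Sq617 Lam2130
open KerV631 (BL)

/-! ### transport along an equality of submodules -/

section same

variable {W : Type*} [AddCommGroup W] [Module ℂ W] {S₁ S₂ : Submodule ℂ W}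

/-- `(F₂, X₂)` on `S₂` is `(F₁, X₁)` on `S₁ = S₂` -/
structure SameWF (h : S₁ = S₂) (F₁ : WF ℂ S₁) (X₁ : Cx F₁) (F₂ : WF ℂ S₂) (X₂ : Cx F₂) : Prop where
  V : ∀ a b (v : S₂), v ∈ F₂.V a b ↔ (⟨v.1, h ▸ v.2⟩ : S₁) ∈ F₁.V a b
  nrm : ∀ a b s (v : F₂.V a b), (F₂.S a b).nrm s v =
    (F₁.S a b).nrm s ⟨⟨v.1.1, h ▸ v.1.2⟩, (V a b v.1).1 v.2⟩
  π : ∀ q v, (F₂.π q v).1 = (F₁.π q ⟨v.1, h ▸ v.2⟩).1
  D : ∀ v, (X₂.D v).1 = (X₁.D ⟨v.1, h ▸ v.2⟩).1
  EH : ∀ a b, EH X₂ a b ↔ EH X₁ a b
  cut : Nonempty (Cut X₂) ↔ Nonempty (Cut X₁)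

theorem exists_same (h : S₁ = S₂) (F₁ : WF ℂ S₁) (X₁ : Cx F₁) :
    ∃ (F₂ : WF ℂ S₂) (X₂ : Cx F₂), SameWF h F₁ X₁ F₂ X₂ := by
  subst h
  exact ⟨F₁, X₁, fun _ _ _ => Iff.rfl, fun _ _ _ _ => rfl, fun _ _ => rfl, fun _ => rfl,
    fun _ _ => Iff.rfl, Iff.rfl⟩

theorem SameWF.eint {h : S₁ = S₂} {F₁ : WF ℂ S₁} {X₁ : Cx F₁} {F₂ : WF ℂ S₂} {X₂ : Cx F₂}
    (H : SameWF h F₁ X₁ F₂ X₂) {a b : ℝ} : EInt X₂ a b ↔ EInt X₁ a b :=
  forall₂_congr fun _ _ => forall₂_congr fun _ _ => H.EH _ _

end same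

/-! ### change of the transition matrices off the overlaps -/

section chg

variable {n : ℕ} {M : Type} [TopologicalSpace M] {A : Atl n M}

/-- the bundle `B` with other values of the transition matrices off the overlaps -/
@[reducible] def chg (B : FBun A) (τ' : A.ι → A.ι → M → Matrix B.κ B.κ ℂ)
    (h : ∀ i j, ∀ x ∈ (A.e i).source ∩ (A.e j).source, τ' i j x = B.τ i j x)
    (hd : ∀ i j x k l, τ' i j x k l ≠ 0 → B.deg k = B.deg l) : FBun A where
  κ := B.κ
  deg := B.deg
  e := B.e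
  io := B.io
  e_deg := B.e_deg
  io_deg := B.io_deg
  ee := B.ee
  ii := B.ii
  ei := B.ei
  τ := τ'
  τ_smooth i j k l := (B.τ_smooth i j k l).congr fun z hz => by
    rw [h i j _ ⟨(A.e i).map_target hz.1, hz.2⟩]
  τ_deg := hd
  τ_self i x hx := by rw [h i i x ⟨hx, hx⟩, B.τ_self i x hx]
  τ_mul i j k x hx := by
    rw [h i j x hx.1, h j k x ⟨hx.1.2, hx.2⟩, h i k x ⟨hx.1.1, hx.2⟩, B.τ_mul i j k x hx]
  τ_symb i j x hx b := by
    rw [h i j x hx]
    exact B.τ_symb i j x hx b
  α := B.α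
  α_smooth := B.α_smooth
  α_deg := B.α_deg
  α_tr i j x hx := by
    rw [h i j x hx, ← B.α_tr i j x hx]
    congr 1
    refine Finset.sum_congr rfl fun a _ => ?_
    congr 1
    ext k l
    have h1 : (fun y => τ' i j y k l) =ᶠ[𝓝 x] fun y => B.τ i j y k l := by
      filter_upwards [((A.e i).open_source.inter (A.e j).open_source).mem_nhds hx] with y hy
      rw [h i j y hy]
    exact Atl.db_congr hx.1 h1 a

variable {B : FBun A} {τ' : A.ι → A.ι → M → Matrix B.κ B.κ ℂ}
  {h : ∀ i j, ∀ x ∈ (A.e i).source ∩ (A.e j).source, τ' i j x = B.τ i j x}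
  {hd : ∀ i j x k l, τ' i j x k l ≠ 0 → B.deg k = B.deg l}

theorem sec_chg : Sec (chg B τ' h hd) = Sec B := by
  ext u
  refine and_congr Iff.rfl (and_congr Iff.rfl ?_)
  refine forall_congr' fun i => forall_congr' fun j => forall_congr' fun x =>
    forall_congr' fun hx => ?_
  show (u i x = τ' i j x *ᵥ u j x) ↔ _
  rw [h i j x hx]

theorem piZ_coe (B : FBun A) (q : ℤ) (u : Sec B) :
    (piZ B q u).1 = if 0 ≤ q then pq B q.toNat u.1 else 0 := by
  unfold piZ
  by_cases hq : q < 0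
  · rw [if_pos hq, if_neg (not_le.2 hq)]
    rfl
  · rw [if_neg hq, if_pos (not_lt.1 hq)]
    exact pqL_coe _ _

theorem pqZ_coe (B : FBun A) (q : ℤ) (u : Sec B) :
    (if 0 ≤ q then pqL B q.toNat u else 0 : Sec B).1 = if 0 ≤ q then pq B q.toNat u.1 else 0 := by
  by_cases hq : 0 ≤ q
  · rw [if_pos hq, if_pos hq]
    exact pqL_coe _ _
  · rw [if_neg hq, if_neg hq]
    rfl

end chg

/-! ### `EInt` -/

section eint

variable {n : ℕ} {M : Type} [TopologicalSpace M] {A : Atl n M} {Z : Type} [TopologicalSpace Z]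
  {C : KCov A Z ℤ} [Finite A.ι] {P : Part A} {Q : PNb (liftP C P)} {H : Hts Q} {B : FBun A}
  {τ' : C.lift.ι → C.lift.ι → Z → Matrix (up C B).κ (up C B).κ ℂ}
  {hτ : ∀ i j, ∀ x ∈ (C.lift.e i).source ∩ (C.lift.e j).source, τ' i j x = (up C B).τ i j x}
  {hd : ∀ i j x k l, τ' i j x k l ≠ 0 → (up C B).deg k = (up C B).deg l}

/-- the quasi-periodic sections are exact for the multipliers of modulus `e^{-r}` -/
def QEx (C : KCov A Z ℤ) (B : FBun A) (r : ℝ) : Prop :=
  ∀ t : ℂ, ‖t‖ = Real.exp (-r) → t ≠ 0 → ∀ u : Sec (up C B), deckS C B 1 u = t • u →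
    nabL (up C B) u = 0 → ∃ w : Sec (up C B), deckS C B 1 w = t • w ∧ nabL (up C B) w = u

theorem eint_chg (h : BGeo (liftP C P) (chg (up C B) τ' hτ hd)) (hW : HtsOK C P H)
    (hdd : ∀ u, nabL (chg (up C B) τ' hτ hd) (nabL (chg (up C B) τ' hτ hd) u) = 0)
    (c : Cut (cx h H hdd)) {a b : ℝ} (hab : a ≤ b) (hq : ∀ r ∈ Set.Icc a b, QEx C B r) :
    EInt (cx h H hdd) a b := by
  obtain ⟨F₂, X₂, hs⟩ := exists_same sec_chg (wf h H) (cx h H hdd)
  rw [← hs.eint]
  have hX : ∀ u : Sec (up C B), X₂.D u = nabL (up C B) u := fun u => Subtype.ext (hs.D u)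
  have hF : WFOn C P B (fun a b => (H.wt (-a) b).w) (fun a b => rateW_wt hW a b) F₂ := {
    mem := fun x y u => hs.V x y u
    nrm := fun x y s u => hs.nrm x y s u
    deg := fun q u => Subtype.ext ((hs.π q u).trans
      ((piZ_coe (chg (up C B) τ' hτ hd) q _).trans (pqZ_coe (up C B) q u).symm)) }
  obtain ⟨c₂⟩ := hs.cut.2 ⟨c⟩
  refine eint_nab_of C P B h.deg_le ?_ hF X₂ hX c₂ hab hq
  refine LinearMap.ext fun u => ?_
  rw [LinearMap.comp_apply, ← hX, ← hX]
  exact X₂.DD u

end eint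

/-! ### the lifted line bundle -/

section lift

variable {M : Type} [TopologicalSpace M] {A : Atl 2 M} {Z : Type} [TopologicalSpace Z]

/-- `LY` is the pull back of `LX` (on the overlaps) -/
def PulLB (C : KCov A Z ℤ) (LX : LB A) (LY : LB C.lift) : Prop :=
  ∀ q q' : C.lift.ι, ∀ z ∈ (C.lift.e q).source ∩ (C.lift.e q').source,
    LY.g q q' z = LX.g q.1 q'.1 (C.p z)

variable {C : KCov A Z ℤ} {LX : LB A} {LY : LB C.lift}

theorem jm_lift {q q' : C.lift.ι} {z : Z}
    (hz : z ∈ (C.lift.e q).source ∩ (C.lift.e q').source) :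
    Lam2130.Jm C.lift q q' z = Lam2130.Jm A q.1 q'.1 (C.p z) := by
  ext b a
  exact C.cov.J_eq hz b a

theorem tau_eq (hL : PulLB C LX LY) (q q' : C.lift.ι) (z : Z)
    (hz : z ∈ (C.lift.e q).source ∩ (C.lift.e q').source) :
    ((tw (lam2 C.lift) LY.toVB).τ q q' z : Matrix (Fin 4 × Unit) (Fin 4 × Unit) ℂ) =
      (up C (tw (lam2 A) LX.toVB)).τ q q' z := by
  ext k l
  show tauM (Lam2130.Jm C.lift q q' z) k.1 l.1 * LY.g q q' z
    = tauM (Lam2130.Jm A q.1 q'.1 (C.p z)) k.1 l.1 * LX.g q.1 q'.1 (C.p z)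
  rw [jm_lift hz, hL q q' z hz]


variable [Finite A.ι] {P : Part A} {Q : PNb (liftP C P)} {H : Hts Q}

/-- **`EInt` on the covering** -/
theorem eint_lift (hL : PulLB C LX LY) (h : BGeo (liftP C P) (BL LY)) (hW : HtsOK C P H)
    (hdd : ∀ u, nabL (BL LY) (nabL (BL LY) u) = 0)
    (c : Cut (cx h H hdd)) {a b : ℝ} (hab : a ≤ b)
    (hq : ∀ r ∈ Set.Icc a b, QEx C (tw (lam2 A) LX.toVB) r) :
    EInt (cx h H hdd) a b :=
  eint_chg (C := C) (B := tw (lam2 A) LX.toVB) (τ' := (tw (lam2 C.lift) LY.toVB).τ)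
    (hτ := tau_eq hL) (hd := (tw (lam2 C.lift) LY.toVB).τ_deg) h hW hdd c hab hq

theorem part_ext {n : ℕ} {M : Type} [TopologicalSpace M] {A : Atl n M} {P P' : Part A}
    (h1 : P.ψ = P'.ψ) (h2 : P.χ = P'.χ) : P = P' := by
  cases P
  cases P'
  cases h1
  cases h2
  rfl

/-- `EInt` on an atlas equal to `C.lift` -/
theorem eint_mk {e' : C.lift.ι → OpenPartialHomeomorph Z (Cn 2)}
    {p1 : ∀ x, ∃ i, x ∈ (e' i).source}
    {p2 : ∀ i, ∀ z ∈ (e' i).target, ∀ p, rc z p ∈ Ioo (0 : ℝ) 1}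
    {p3 : ∀ i j, DifferentiableOn ℂ (fun z => e' j ((e' i).symm z))
      {z | z ∈ (e' i).target ∧ (e' i).symm z ∈ (e' j).source}}
    (he : C.lift.e = e') {P' : Part (Atl.mk C.lift.ι e' p1 p2 p3)}
    (h1 : P'.ψ = (liftP C P).ψ) (h2 : P'.χ = (liftP C P).χ)
    {Q : PNb P'} {H : Hts Q} {LY : LB (Atl.mk C.lift.ι e' p1 p2 p3)}
    (hL : ∀ q q' : C.lift.ι, ∀ z ∈ (e' q).source ∩ (e' q').source,
      LY.g q q' z = LX.g q.1 q'.1 (C.p z)) (h : BGeo P' (BL LY))
    (hW : ∃ W : ℝ, ∀ q : C.lift.ι, |H.ht q + (q.2 : ℝ)| ≤ W)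
    (hdd : ∀ u, nabL (BL LY) (nabL (BL LY) u) = 0)
    (c : Cut (cx h H hdd)) {a b : ℝ} (hab : a ≤ b)
    (hq : ∀ r ∈ Set.Icc a b, QEx C (tw (lam2 A) LX.toVB) r) :
    EInt (cx h H hdd) a b := by
  subst he
  have h3 : P' = (liftP C P : Part C.lift) := part_ext h1 h2
  subst h3
  exact eint_lift (LX := LX) (LY := LY) hL h hW hdd c hab hq

end lift

/-! ### nested atlases -/

section nested

open NAtl938 NLift374 PartN194

variable {M : Type} [TopologicalSpace M] {Z : Type} [TopologicalSpace Z] {N : NAtl 2 M}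
  {C : KCov N.big Z ℤ} {ρ : ℝ} {hρ : N.r ≤ ρ} [Finite N.ι] {P : Part (N.at' ρ hρ)}
  {P' : Part ((nlift N C).at' ρ hρ)} {Q : PNb P'} {H : Hts Q} {LX : LB (N.at' ρ hρ)}
  {LY : LB ((nlift N C).at' ρ hρ)}

/-- `LY` is the pull back of `LX` -/
def PulN (C : KCov N.big Z ℤ) (LX : LB (N.at' ρ hρ)) (LY : LB ((nlift N C).at' ρ hρ)) : Prop :=
  ∀ q q' : N.ι × ℤ, ∀ z ∈ (((nlift N C).at' ρ hρ).e q).source ∩ (((nlift N C).at' ρ hρ).e q').source,
    LY.g q q' z = LX.g q.1 q'.1 (C.p z)

/-- **`EInt` on the nested atlas of the covering** -/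
theorem eint_N (hP : P' = liftPN C hρ P) (hL : PulN C LX LY) (h : BGeo P' (BL LY))
    (hW : ∃ W : ℝ, ∀ q : N.ι × ℤ, |H.ht q + (q.2 : ℝ)| ≤ W)
    (hdd : ∀ u, nabL (BL LY) (nabL (BL LY) u) = 0)
    (c : Cut (cx h H hdd)) {a b : ℝ} (hab : a ≤ b)
    (hq : ∀ r ∈ Set.Icc a b, QEx (rest N C hρ) (tw (lam2 (N.at' ρ hρ)) LX.toVB) r) :
    EInt (cx h H hdd) a b := by
  have : Finite (N.at' ρ hρ).ι := ‹Finite N.ι›
  exact eint_mk (C := rest N C hρ) (e' := ((nlift N C).at' ρ hρ).e)
    (p1 := ((nlift N C).at' ρ hρ).cover) (p2 := ((nlift N C).at' ρ hρ).cube)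
    (p3 := ((nlift N C).at' ρ hρ).holo) (funext fun q => rest_e N C hρ q) (P := P) (P' := P')
    (by rw [hP]; rfl) (by rw [hP]; rfl) hL h hW hdd c hab hq

end nested

end Crest.Agent.R275.UpL473
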