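import Crest.Agent.R275.VCalB_131

/-!
# R275, block C (helper131): morphisms of vector bundles with `(0,1)`-connection

`VHom E F`, `VHom.Flat`, `VIso E F`, functoriality of `sum`, `tensor`, `dual`, reindexing isos
(`VIso.ofEquiv`): commutativity, associativity, unit, distributivity; line bundles from raw
cocycles (`IsLC`, `IsLConn`, `line`) and their products, inverses, isomorphisms.
-/

set_option autoImplicit false
set_option linter.unusedSectionVars false

open Set Filter Topology Complex
open scoped ContDiff Matrix ComplexConjugate Kronecker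

namespace Crest.Agent.R275.VCal131

open Geo Fm96

noncomputable section

variable {n : ℕ} {M : Type} [TopologicalSpace M] {A : Atl n M}

/-- smooth bundle map -/
structure VHom (E F : VBun A) where
  h : A.ι → M → Matrix F.ρ E.ρ ℂ
  sm : ∀ i, ∀ x ∈ (A.e i).source, MSm A i (h i) x
  tr : ∀ i j, ∀ x ∈ (A.e i).source ∩ (A.e j).source, h i x * E.g i j x = F.g i j x * h j x

namespace VHom

variable {E F G E' F' : VBun A}

theorem smooth (f : VHom E F) (i : A.ι) (k : F.ρ) (l : E.ρ) :
    ContDiffOn ℝ ∞ (fun z => f.h i ((A.e i).symm z) k l) (A.e i).target :=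
  smAt_iff (f := fun y => f.h i y k l).2 fun x hx => f.sm i x hx k l

/-- compatibility with the connections -/
def Flat (f : VHom E F) : Prop := ∀ i, ∀ x ∈ (A.e i).source, ∀ b,
  dbM A i b (f.h i) x + F.a i b x * f.h i x = f.h i x * E.a i b x

/-- identity -/
def id (E : VBun A) : VHom E E where
  h _ _ := 1
  sm _ _ _ := MSm.const _
  tr i j x hx := by simp


/-- composition -/
def comp (f : VHom F G) (g : VHom E F) : VHom E G where
  h i x := f.h i x * g.h i x
  sm i x hx := (f.sm i x hx).mul (g.sm i x hx)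
  tr i j x hx := by
    rw [Matrix.mul_assoc, g.tr i j x hx, ← Matrix.mul_assoc, f.tr i j x hx, Matrix.mul_assoc]

theorem Flat.comp {f : VHom F G} {g : VHom E F} (hf : f.Flat) (hg : g.Flat) :
    (f.comp g).Flat := fun i x hx b => by
  show dbM A i b (fun y => f.h i y * g.h i y) x + _ * (f.h i x * g.h i x) =
    (f.h i x * g.h i x) * _
  rw [dbM_mul (f.sm i x hx) (g.sm i x hx) hx]
  have h1 := congrArg (fun m => m * g.h i x) (hf i x hx b)
  have h2 := congrArg (fun m => f.h i x * m) (hg i x hx b)
  simp only [Matrix.add_mul, Matrix.mul_add, Matrix.mul_assoc] at h1 h2 ⊢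
  rw [← h2, add_right_comm, h1]
  exact add_comm _ _








end VHom

/-- smooth isomorphism of bundles -/
structure VIso (E F : VBun A) where
  hom : VHom E F
  inv : VHom F E
  left : ∀ i, ∀ x ∈ (A.e i).source, inv.h i x * hom.h i x = 1
  right : ∀ i, ∀ x ∈ (A.e i).source, hom.h i x * inv.h i x = 1


namespace VIso

variable {E F G E' F' : VBun A}

/-- compatibility with the connections -/
def Flat (φ : VIso E F) : Prop := φ.hom.Flat

/-- the inverse isomorphism -/
def symm (φ : VIso E F) : VIso F E where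
  hom := φ.inv
  inv := φ.hom
  left := φ.right
  right := φ.left

theorem Flat.symm {φ : VIso E F} (hφ : φ.Flat) : φ.symm.Flat := fun i x hx b => by
  show dbM A i b (φ.inv.h i) x + E.a i b x * φ.inv.h i x = φ.inv.h i x * F.a i b x
  have h0 : dbM A i b (fun y => φ.inv.h i y * φ.hom.h i y) x = 0 := by
    rw [← dbM_const (A := A) (i := i) (x := x) (1 : Matrix E.ρ E.ρ ℂ) b]
    refine dbM_congr hx ?_ b
    filter_upwards [(A.e i).open_source.mem_nhds hx] with y hy using φ.left i y hy
  rw [dbM_mul (φ.inv.sm i x hx) (φ.hom.sm i x hx) hx] at h0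
  have h1 := hφ i x hx b
  have h2 : dbM A i b (φ.hom.h i) x = φ.hom.h i x * E.a i b x - F.a i b x * φ.hom.h i x :=
    eq_sub_of_add_eq h1
  have h3 := congrArg (fun m => m * φ.inv.h i x) h0
  simp only [h2, Matrix.add_mul, Matrix.mul_sub, Matrix.sub_mul, Matrix.mul_assoc,
    φ.right i x hx, Matrix.mul_one, Matrix.zero_mul] at h3
  rw [← Matrix.mul_assoc (φ.inv.h i x) (φ.hom.h i x), φ.left i x hx, Matrix.one_mul] at h3
  rw [← add_sub_assoc] at h3
  exact sub_eq_zero.1 h3

/-- identity -/
def refl (E : VBun A) : VIso E E where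
  hom := VHom.id E
  inv := VHom.id E
  left i x hx := by simp [VHom.id]
  right i x hx := by simp [VHom.id]


/-- composition -/
def trans (φ : VIso E F) (ψ : VIso F G) : VIso E G where
  hom := ψ.hom.comp φ.hom
  inv := φ.inv.comp ψ.inv
  left i x hx := by
    show (φ.inv.h i x * ψ.inv.h i x) * (ψ.hom.h i x * φ.hom.h i x) = 1
    rw [Matrix.mul_assoc, ← Matrix.mul_assoc (ψ.inv.h i x), ψ.left i x hx, Matrix.one_mul,
      φ.left i x hx]
  right i x hx := by
    show (ψ.hom.h i x * φ.hom.h i x) * (φ.inv.h i x * ψ.inv.h i x) = 1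
    rw [Matrix.mul_assoc, ← Matrix.mul_assoc (φ.hom.h i x), φ.right i x hx, Matrix.one_mul,
      ψ.right i x hx]

theorem Flat.trans {φ : VIso E F} {ψ : VIso F G} (hφ : φ.Flat) (hψ : ψ.Flat) :
    (φ.trans ψ).Flat := VHom.Flat.comp hψ hφ











end VIso

end

end Crest.Agent.R275.VCal131
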