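import Crest.Agent.R275.Lt2_893
import Crest.Agent.R275.Core_144
import Crest.Agent.R275.VCalC_131
import Crest.Agent.R275.SBun_798
import Crest.Agent.R275.QPe_893
import Crest.Agent.R275.FlXC_161
import Crest.Agent.R275.XinM_473
import Crest.Agent.R275.QX_825
import Crest.Agent.R275.UpL_473
import Crest.Agent.R275.SupF_912

-- ▼ part R275/Lt3_893
section

/-!
# R275, block Q2 (helper893), file 3: `L_t` and the bundle calculus

`ftIso`   : flat isomorphism `E ⊗ L_t ≅ (E, ∂̄ + l ∂̄ f)` (131's `VIso`), `l = log t`;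
`shIso`   : the (non flat) identity `(E, ∂̄ + l ∂̄ f) ≅ E`;
`ftSB`    : smooth isomorphism `E ⊗ L_t ≅ E` (798's `SB.Iso`), so all indices agree;
`LtB Z`   : `L_t` as an element of 144's group `LB A`, a homomorphism in `t : ℂˣ`;
`ltVB`    : flat isomorphism `(L_t ⊗ L).toVB ≅ ft L.toVB Z t`;
`isHS_iff`: 144's sections = `IsH0`.
-/

set_option autoImplicit false
set_option linter.unusedSectionVars false

open Set Filter Topology Complex
open scoped ContDiff Matrix ComplexConjugate Manifold Kronecker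
open Crest.Agent.R275.Geo
open Crest.AlgGeometry.Surface

namespace Crest.Agent.R275.Lt893

open VCal131 Fm96

noncomputable section

variable {n : ℕ} {M : Type} [TopologicalSpace M] {A : Atl n M}













/-! ### `L_t` in the group of holomorphic line bundles -/

open Core144

open Classical in
/-- `L_t` as a holomorphic line bundle -/
def LtB (Z : ZD A) : ℂˣ →* LB A where
  toFun t := {
    g := fun i j x => if x ∈ (A.e i).source ∩ (A.e j).source then (t : ℂ) ^ (Z.nn i j x) else 1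
    hol := fun i j => by
      intro z hz
      have hx : (A.e i).symm z ∈ (A.e i).source ∩ (A.e j).source :=
        ⟨(A.e i).map_target hz.1, hz.2⟩
      have h1 : ∀ᶠ y in 𝓝 ((A.e i).symm z), (if y ∈ (A.e i).source ∩ (A.e j).source then
          (t : ℂ) ^ (Z.nn i j y) else 1) = (t : ℂ) ^ (Z.nn i j ((A.e i).symm z)) := by
        filter_upwards [ZD.nn_loc (Z := Z) hx,
          ((A.e i).open_source.inter (A.e j).open_source).mem_nhds hx] with y hy hys
        rw [if_pos hys, hy]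
      have h2 := ev_symm hx.1 h1
      rw [(A.e i).right_inv hz.1] at h2
      refine DifferentiableAt.differentiableWithinAt ?_
      refine (differentiableAt_const ((t : ℂ) ^ (Z.nn i j ((A.e i).symm z)))).congr_of_eventuallyEq
        ?_
      filter_upwards [h2] with w hw
      exact hw
    off := fun i j x hx => if_neg hx
    self := fun i x => by
      rw [ZD.nn_self, zpow_zero]
      split_ifs <;> rfl
    mul := fun i j k x hx => by
      rw [if_pos ⟨hx.1.1, hx.1.2⟩, if_pos ⟨hx.1.2, hx.2⟩, if_pos ⟨hx.1.1, hx.2⟩,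
        ← zpow_add₀ t.ne_zero, ZD.nn_add hx] }
  map_one' := by
    ext i j x
    show (if x ∈ (A.e i).source ∩ (A.e j).source then ((1 : ℂˣ) : ℂ) ^ (Z.nn i j x) else 1) = 1
    split_ifs
    · rw [Units.val_one, one_zpow]
    · rfl
  map_mul' s t := by
    ext i j x
    show (if x ∈ (A.e i).source ∩ (A.e j).source then ((s * t : ℂˣ) : ℂ) ^ (Z.nn i j x) else 1)
      = (if x ∈ (A.e i).source ∩ (A.e j).source then (s : ℂ) ^ (Z.nn i j x) else 1)
        * (if x ∈ (A.e i).source ∩ (A.e j).source then (t : ℂ) ^ (Z.nn i j x) else 1)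
    split_ifs
    · rw [Units.val_mul, mul_zpow]
    · rw [one_mul]

theorem LtB_g (Z : ZD A) (t : ℂˣ) {i j : A.ι} {x : M}
    (hx : x ∈ (A.e i).source ∩ (A.e j).source) : (LtB Z t).g i j x = (t : ℂ) ^ (Z.nn i j x) :=
  if_pos hx

/-- one by one matrices -/
def m1 (c : ℂ) : Matrix Unit Unit ℂ := Matrix.of fun _ _ => c







end

noncomputable section

open Core144 ZC352 HolL631

variable {X : Type} [TopologicalSpace X] [ChartedSpace C2 X]
  [IsManifold 𝓘(ℂ, C2) 1 X] {A : Atl 2 X}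







end

end Crest.Agent.R275.Lt893
end

-- ▼ part R275/QPe2_893
section

/-!
# R275, block D (helper893): the infinite cyclic covering `YC u`, line bundles `L_t ⊗ L`

* `ycov_comp`       : `Comp (ycov u (liftsOf hZ)) Z`;
* `sec_lt_iff`, `nab_lt` : `Γ(B ⊗ (L_t ⊗ L)) = Γ(B ⊗ L ⊗ L_t)` (equality of families and of `∇`);
* `quasi_exact_LB`  : exactness for `LtB Z t * L` on `X` gives exactness of
                      `{u ∈ Γ(Y, B ⊗ L) | γ u = t⁻¹ u}`;
* `twN`             : characters of `ZMod N`, for the finite coverings `X_N`.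
-/

set_option autoImplicit false
set_option linter.unusedSectionVars false

open Set Filter Topology Complex
open scoped ContDiff Matrix ComplexConjugate

namespace Crest.Agent.R275.QPe893

open Geo XN194 QPb635 Lt893 ZC352 Core144 Fl161

noncomputable section

variable {n : ℕ} {X : Type} [TopologicalSpace X] {A : Atl n X}


/-- the sections of `B ⊗ (L_t ⊗ L)` and of `B ⊗ L ⊗ L_t` are the same families -/
theorem sec_lt_iff (B : FBun A) (Z : ZD A) (t : ℂˣ) (L : LB A)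
    {v : A.ι → X → B.κ × Unit → ℂ} :
    v ∈ Sec (tw B (LtB Z t * L).toVB) ↔ v ∈ Sec (tw B (ft L.toVB Z (t : ℂ) t.ne_zero)) := by
  refine and_congr Iff.rfl (and_congr Iff.rfl ?_)
  refine forall_congr' fun i => forall_congr' fun j => forall_congr' fun x =>
    forall_congr' fun hx => ?_
  have h : (tw B (LtB Z t * L).toVB).τ i j x
      = ((tw B (ft L.toVB Z (t : ℂ) t.ne_zero)).τ i j x : Matrix (B.κ × Unit) (B.κ × Unit) ℂ) := by
    ext k l
    show B.τ i j x k.1 l.1 * ((LtB Z t).g i j x * L.g i j x)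
      = B.τ i j x k.1 l.1 * ((t : ℂ) ^ (Z.nn i j x) * L.g i j x)
    rw [LtB_g Z t hx]
  have h2 : (tw B (LtB Z t * L).toVB).τ i j x *ᵥ (v j x)
      = ((tw B (ft L.toVB Z (t : ℂ) t.ne_zero)).τ i j x *ᵥ (v j x) : B.κ × Unit → ℂ) :=
    congrFun (congrArg Matrix.mulVec h) _
  constructor
  · intro h3; exact h3.trans h2
  · intro h3; exact h3.trans h2.symm


theorem mem_ft_congr (B : FBun A) (E : VBun A) (Z : ZD A) {t t' : ℂ} (h : t = t') (ht : t ≠ 0)
    (ht' : t' ≠ 0) {v : A.ι → X → B.κ × E.ρ → ℂ} :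
    v ∈ Sec (tw B (ft E Z t ht)) ↔ v ∈ Sec (tw B (ft E Z t' ht')) := by
  subst h
  exact Iff.rfl

variable {Y : Type} [TopologicalSpace Y]

/-- **exactness for `L_t ⊗ L` on `X` gives exactness of the quasi-periodic forms on `Y`** -/
theorem quasi_exact_LB {C : KCov A Y ℤ} {Z : ZD A} (hc : Comp C Z) (B : FBun A) (L : LB A)
    (t : ℂˣ) (h : ∀ v : Sec (tw B (LtB Z t * L).toVB), nabL (tw B (LtB Z t * L).toVB) v = 0 →
      ∃ w : Sec (tw B (LtB Z t * L).toVB), nabL (tw B (LtB Z t * L).toVB) w = v)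
    (u : Sec (up C (tw B L.toVB))) (hu : deckS C (tw B L.toVB) 1 u = (t : ℂ)⁻¹ • u)
    (h0 : nabL (up C (tw B L.toVB)) u = 0) :
    ∃ w : Sec (up C (tw B L.toVB)), deckS C (tw B L.toVB) 1 w = (t : ℂ)⁻¹ • w ∧
      nabL (up C (tw B L.toVB)) w = u := by
  refine quasi_exact hc (inv_ne_zero t.ne_zero) B L.toVB (fun v hv hv0 => ?_) u hu h0
  have hv2 : v ∈ Sec (tw B (LtB Z t * L).toVB) :=
    (sec_lt_iff B Z t L).2 ((mem_ft_congr B L.toVB Z (inv_inv _) _ t.ne_zero).1 hv)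
  obtain ⟨w, hw⟩ := h ⟨v, hv2⟩ (Subtype.ext hv0)
  exact ⟨w.1, (mem_ft_congr B L.toVB Z (inv_inv _) _ t.ne_zero).2 ((sec_lt_iff B Z t L).1 w.2),
    congrArg Subtype.val hw⟩

end

end Crest.Agent.R275.QPe893
end

-- ▼ part R275/XinN_473
section

/-!
# R275, block D / Q7 (helper473), file 3: exactness in the form of 893's `quasi_exact_LB`

`exact_nab`       : `RawExact (isLC L)` gives exactness of `∇` on `Sec (tw (lam2 A) L.toVB)`;
`exact_LtB`       : `L_t` (893's `LtB Z t * 1`), `t⁻¹ ∉ Spec`;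
`exact_KB`        : `K ⊗ L_t` (`LtB Z t * KB A`), `t ∉ Spec`;
`quasi_exact_one` : on the covering: `{γ u = z u}` is exact for `O`, `‖z‖ = e^{-ρ}`, `NonSp (-ρ)`;
`quasi_exact_KB`  : the same for `K`, `NonSp ρ`;
`xinData_of`      : `XinData` from helper825's `CMData`, `LatX`, `F7`.
-/

set_option autoImplicit false
set_option linter.unusedSectionVars false

noncomputable section

open Set Filter Topology Complex Module
open scoped ContDiff Manifold

namespace Crest.Agent.R275.XinN473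

open Crest.Agent.R275.Geo Crest.Agent.R275.Fm96 Crest.Agent.R275.Q74
open Crest.Agent.R275.EulRaw473 Crest.Agent.R275.Lt893 Crest.Agent.R275.HolY631
open Crest.Agent.R275.Lau473 Crest.Agent.R275.ZC352 Crest.Agent.R275.Xin473
open Crest.Agent.R275.XinM473 Crest.Agent.R275.Lam2130
open Crest.Agent.R275.Core144 (LB HolAt IsHS KB)
open Crest.Agent.R275.ChiM825 (isLC slb hq chiL chiE_eq hq0_eq_zero CMData)
open Crest.Agent.R275.Smf798 Crest.Agent.R275.KR798
open Crest.Agent.R275.XN194 Crest.Agent.R275.QPb635 Crest.Agent.R275.QPe893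
open Crest.Agent.R275.QX825 (LatX F7)
open Crest.AlgGeometry.Surface

section general

variable {M : Type} [TopologicalSpace M] {A : Atl 2 M}

/-- exactness of the operator `∇` on `Γ(Λ ⊗ L)` -/
theorem exact_nab {L : LB A} (h : RawExact (isLC L)) (v : Sec (tw (lam2 A) L.toVB))
    (hv : nabL (tw (lam2 A) L.toVB) v = 0) : ∃ w, nabL (tw (lam2 A) L.toVB) w = v :=
  h.nab (hg := isLC L) v hv

end general

section Lt

variable {M : Type} [TopologicalSpace M] [ChartedSpace C2 M] [IsManifold 𝓘(ℂ, C2) 1 M]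
  {A : Atl 2 M}

theorem LtB_eq (Z : ZD A) (t : ℂˣ) : LtB Z t = Lt Z t.ne_zero := lb_ext fun i j x hx => by
  rw [LtB_g Z t hx, Lt_g _ hx]


end Lt

section main

variable {X : Type} [TopologicalSpace X] [CompactSpace X] [ChartedSpace C2 X]
  [IsManifold 𝓘(ℂ, C2) 1 X] {A : Atl 2 X} {u : C(X, Circ)} {P : Part A} {I : KIndex (smf A)}
  {Z : ZD A}

/-- `L_t` is acyclic for `t⁻¹ ∉ Spec` -/
theorem exact_LtB (H : XinData P I Z u) (t : ℂˣ) (hs : ((t : ℂ))⁻¹ ∉ Spec (YC.dk u))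
    (v : Sec (tw (lam2 A) (LtB Z t * 1).toVB)) (hv : nabL (tw (lam2 A) (LtB Z t * 1).toVB) v = 0) :
    ∃ w, nabL (tw (lam2 A) (LtB Z t * 1).toVB) w = v := by
  have h : RawExact (isLC (LtB Z t * 1)) := by
    rw [mul_one, LtB_eq]
    exact xin H t.ne_zero hs
  exact exact_nab h v hv

/-- `K ⊗ L_t` is acyclic for `t ∉ Spec` -/
theorem exact_KB (H : XinData P I Z u) (t : ℂˣ) (hs : (t : ℂ) ∉ Spec (YC.dk u))
    (v : Sec (tw (lam2 A) (LtB Z t * KB A).toVB))
    (hv : nabL (tw (lam2 A) (LtB Z t * KB A).toVB) v = 0) :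
    ∃ w, nabL (tw (lam2 A) (LtB Z t * KB A).toVB) w = v := by
  have h : RawExact (isLC (LtB Z t * KB A)) := by
    rw [mul_comm, LtB_eq]
    exact xinK H t.ne_zero hs
  exact exact_nab h v hv

variable {Y : Type} [TopologicalSpace Y]

/-- **on the covering, `O`**: `{γ u = z u}` is exact for `z ∉ Spec` -/
theorem quasi_one (H : XinData P I Z u) {C : KCov A Y ℤ} (hc : Comp C Z) {z : ℂ} (hz : z ≠ 0)
    (hs : z ∉ Spec (YC.dk u)) (w : Sec (up C (tw (lam2 A) (1 : LB A).toVB)))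
    (hw : deckS C (tw (lam2 A) (1 : LB A).toVB) 1 w = z • w)
    (h0 : nabL (up C (tw (lam2 A) (1 : LB A).toVB)) w = 0) :
    ∃ v : Sec (up C (tw (lam2 A) (1 : LB A).toVB)),
      deckS C (tw (lam2 A) (1 : LB A).toVB) 1 v = z • v ∧
      nabL (up C (tw (lam2 A) (1 : LB A).toVB)) v = w := by
  have e : (((Units.mk0 z hz)⁻¹ : ℂˣ) : ℂ)⁻¹ = z := by
    rw [Units.val_inv_eq_inv_val, inv_inv, Units.val_mk0]
  have h1 := quasi_exact_LB hc (lam2 A) (1 : LB A) (Units.mk0 z hz)⁻¹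
    (exact_LtB H (Units.mk0 z hz)⁻¹ (by rw [e]; exact hs)) w (by rw [e]; exact hw) h0
  rw [e] at h1
  exact h1

/-- **on the covering, `K`**: `{γ u = z u}` is exact for `z⁻¹ ∉ Spec` -/
theorem quasi_KB (H : XinData P I Z u) {C : KCov A Y ℤ} (hc : Comp C Z) {z : ℂ} (hz : z ≠ 0)
    (hs : z⁻¹ ∉ Spec (YC.dk u)) (w : Sec (up C (tw (lam2 A) (KB A).toVB)))
    (hw : deckS C (tw (lam2 A) (KB A).toVB) 1 w = z • w)
    (h0 : nabL (up C (tw (lam2 A) (KB A).toVB)) w = 0) :
    ∃ v : Sec (up C (tw (lam2 A) (KB A).toVB)),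
      deckS C (tw (lam2 A) (KB A).toVB) 1 v = z • v ∧
      nabL (up C (tw (lam2 A) (KB A).toVB)) v = w := by
  have e : (((Units.mk0 z hz)⁻¹ : ℂˣ) : ℂ)⁻¹ = z := by
    rw [Units.val_inv_eq_inv_val, inv_inv, Units.val_mk0]
  have e' : (((Units.mk0 z hz)⁻¹ : ℂˣ) : ℂ) = z⁻¹ := by
    rw [Units.val_inv_eq_inv_val, Units.val_mk0]
  have h1 := quasi_exact_LB hc (lam2 A) (KB A) (Units.mk0 z hz)⁻¹
    (exact_KB H (Units.mk0 z hz)⁻¹ (by rw [e']; exact hs)) w (by rw [e]; exact hw) h0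
  rw [e] at h1
  exact h1

/-- the form of `SqL_617.eint_nab`, for `O` -/
theorem quasi_exact_one (H : XinData P I Z u) {C : KCov A Y ℤ} (hc : Comp C Z) {r : ℝ}
    (hr : NonSp (YC.dk u) (-r)) {z : ℂ} (hzr : ‖z‖ = Real.exp (-r)) (hz : z ≠ 0)
    (w : Sec (up C (tw (lam2 A) (1 : LB A).toVB)))
    (hw : deckS C (tw (lam2 A) (1 : LB A).toVB) 1 w = z • w)
    (h0 : nabL (up C (tw (lam2 A) (1 : LB A).toVB)) w = 0) :
    ∃ v : Sec (up C (tw (lam2 A) (1 : LB A).toVB)),
      deckS C (tw (lam2 A) (1 : LB A).toVB) 1 v = z • v ∧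
      nabL (up C (tw (lam2 A) (1 : LB A).toVB)) v = w :=
  quasi_one H hc hz (fun h => hr z h hzr) w hw h0

/-- the form of `SqL_617.eint_nab`, for `K` -/
theorem quasi_exact_KB (H : XinData P I Z u) {C : KCov A Y ℤ} (hc : Comp C Z) {r : ℝ}
    (hr : NonSp (YC.dk u) r) {z : ℂ} (hzr : ‖z‖ = Real.exp (-r)) (hz : z ≠ 0)
    (w : Sec (up C (tw (lam2 A) (KB A).toVB)))
    (hw : deckS C (tw (lam2 A) (KB A).toVB) 1 w = z • w)
    (h0 : nabL (up C (tw (lam2 A) (KB A).toVB)) w = 0) :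
    ∃ v : Sec (up C (tw (lam2 A) (KB A).toVB)),
      deckS C (tw (lam2 A) (KB A).toVB) 1 v = z • v ∧
      nabL (up C (tw (lam2 A) (KB A).toVB)) v = w :=
  quasi_KB H hc hz (fun h => hr z⁻¹ h (by
    rw [norm_inv, hzr, ← Real.exp_neg, neg_neg])) w hw h0

variable [T2Space X] [ConnectedSpace X]


end main

end Crest.Agent.R275.XinN473
end
end

-- ▼ part R275/EintY_473

/-!
# R275, block D (helper473): (D3) exactness of the weighted complexes of `O` and `K` on `YC u`

* `nab_nab`  : `∇² = 0` on `BL L`;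
* `pul_one`, `pul_KB`, `pul_mul`, `pul_inv` : pull backs of line bundles to the nested atlas;
* `zdL L hsm hρ` : the lifts of `u` as a `ZD` of the atlas `N.at' ρ`; `zdL_lift`, `comp_zdL`;
* `ht_ok`    : the heights `hc` of helper912 are `-m + O(1)` on the charts `(i, m)`;
* `eint_one` : `EInt (cx h H hdd) a b` for `O` if `NonSp (-r)` for `r ∈ [a,b]`;
* `eint_KB`  : the same for `K` if `NonSp r` for `r ∈ [a,b]`.
-/

set_option autoImplicit false
set_option linter.unusedSectionVars false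

open Set Filter Topology Complex
open scoped ContDiff Manifold

noncomputable section

namespace Crest.Agent.R275.EintY473

open Geo Tor812 C1d194 XN194 QPb635 LauB681 WY681 Core144 Lam2130 Q74 UpL473 NAtl938 NLift374
open PartN194 Lt893 ZC352 Xin473 XinM473 XinN473 QPe893 Smf798 KR798
open KerV631 (BL)
open ChiM825 (isLC)
open Crest.AlgGeometry.Surface

/-! ### `∇² = 0` -/

section nab

variable {M : Type} [TopologicalSpace M] {A : Atl 2 M}


end nab

/-! ### pull backs -/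

section pul

variable {M : Type} [TopologicalSpace M] {Z : Type} [TopologicalSpace Z] {N : NAtl 2 M}
  {C : KCov N.big Z ℤ} {ρ : ℝ} {hρ : N.r ≤ ρ}

theorem pul_one : PulN C (1 : LB (N.at' ρ hρ)) (1 : LB ((nlift N C).at' ρ hρ)) :=
  fun _ _ _ _ => rfl

theorem pul_KB : PulN C (KB (N.at' ρ hρ)) (KB ((nlift N C).at' ρ hρ)) := by
  intro q q' z hz
  have h1 : z ∈ ((rest N C hρ).lift.e q).source ∩ ((rest N C hρ).lift.e q').source := by
    rw [rest_source, rest_source]
    exact hz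
  have h2 := (rest N C hρ).cov.mem_src h1
  rw [KB_g hz]
  refine Eq.trans ?_ (KB_g (A := N.at' ρ hρ) h2).symm
  congr 1
  ext b a
  exact (rest N C hρ).cov.J_eq h1 b a



end pul

/-! ### the lifts of `u` on the atlas of radius `ρ` -/

section zd

variable {X : Type} [TopologicalSpace X] {N : NAtl 2 X} {u : C(X, Circ)}
  (L : Lifts N.big (u : X → Circ)) (hsm : ∀ i, N.big.SmAt i (L.f i)) {ρ : ℝ} (hρ : N.r ≤ ρ)

theorem at_mem {i : N.ι} {x : X} (hx : x ∈ ((N.at' ρ hρ).e i).source) :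
    x ∈ (N.big.e i).source := at_big N hρ hx

/-- the lifts of `u` -/
def zdL : ZD (N.at' ρ hρ) where
  f := L.f
  sm i := by
    have h1 : ContDiffOn ℝ ∞ (fun z => L.f i ((N.big.e i).symm z)) (N.big.e i).target := hsm i
    have h2 : ((N.at' ρ hρ).e i).target ⊆ (N.big.e i).target := by
      intro z hz
      have h3 := ((N.at' ρ hρ).e i).map_target hz
      have h4 := (N.big.e i).map_source (at_mem hρ h3)
      have h5 : (N.big.e i) (((N.at' ρ hρ).e i).symm z) = z := ((N.at' ρ hρ).e i).right_inv hz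
      rwa [h5] at h4
    exact h1.mono h2
  int i j x hx := by
    have h3 : ((L.f i x : ℝ) : Circ) = (L.f j x : ℝ) := by
      rw [L.mod i x (at_mem hρ hx.1), L.mod j x (at_mem hρ hx.2)]
    obtain ⟨m, hm⟩ := coe_eq_coe_iff.1 h3
    exact ⟨m, by rw [hm]; ring⟩


theorem zdL_lift : (zdL L hsm hρ).Lift u := fun i x hx => L.mod i x (at_mem hρ hx)

theorem comp_zdL : Comp (rest N (ycov u L) hρ) (zdL L hsm hρ) := by
  intro i j x hx
  have h1 := L.mod i x (at_mem hρ hx.1)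
  have h2 := L.mod j x (at_mem hρ hx.2)
  refine FP.ext ?_ ?_
  · show (fpSec tgR u (L.f j) x).fst = (fpSec tgR u (L.f i) x).fst
    rw [fpSec_fst, fpSec_fst]
  · show (fpSec tgR u (L.f j) x).snd + tgR.j (-((zdL L hsm hρ).nn i j x))
      = (fpSec tgR u (L.f i) x).snd
    rw [fpSec_snd tgR h2, fpSec_snd tgR h1]
    show L.f j x + -((-((zdL L hsm hρ).nn i j x) : ℤ) : ℝ) = L.f i x
    push_cast
    rw [ZD.nn_eq hx]
    show L.f j x + -(-(L.f i x - L.f j x)) = L.f i x
    ring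

end zd

/-! ### heights -/

section ht

variable {X : Type} [TopologicalSpace X] {N : NAtl 2 X} {u : C(X, Circ)}
  (L : Lifts N.big (u : X → Circ)) [Finite N.ι]

/-- the heights `hc` of helper912 -/
theorem ht_ok : ∃ W : ℝ, ∀ q : N.ι × ℤ,
    |Sup912.hc (nlift N (ycov u L)) (YC.ht u) q + (q.2 : ℝ)| ≤ W := by
  have := Fintype.ofFinite N.ι
  have key : ∀ q : N.ι × ℤ, ∃ x : X, x = (N.E q.1).symm N.z₀ ∧
      Sup912.hc (nlift N (ycov u L)) (YC.ht u) q = L.f q.1 x - q.2 := by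
    rintro ⟨i, k⟩
    refine ⟨_, rfl, ?_⟩
    have h1 := Sup912.ctr_mem (N := nlift N (ycov u L)) (i, k)
    have h2 := (mem_ysheet' L (i := i) (k := k)).1 h1
    have h3 : YC.pr u (Sup912.ctr (nlift N (ycov u L)) (i, k)) = (N.E i).symm N.z₀ := by
      have h4 := (nlift N (ycov u L)).E (i, k) |>.right_inv (x := N.z₀) (by
        rw [(nlift N (ycov u L)).tgt]
        exact Metric.mem_ball_self (nlift N (ycov u L)).R_pos)
      have h5 : N.E i (YC.pr u (Sup912.ctr (nlift N (ycov u L)) (i, k))) = N.z₀ := h4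
      rw [← h5, (N.E i).left_inv h2.1]
    show YC.ht u (Sup912.ctr (nlift N (ycov u L)) (i, k)) = _
    rw [h2.2, h3]
  refine ⟨∑ i : N.ι, |L.f i ((N.E i).symm N.z₀)|, fun q => ?_⟩
  obtain ⟨x, rfl, h⟩ := key q
  rw [h, sub_add_cancel]
  exact Finset.single_le_sum (f := fun i : N.ι => |L.f i ((N.E i).symm N.z₀)|)
    (fun i _ => abs_nonneg _) (Finset.mem_univ q.1)

end ht

/-! ### (D3) -/

section main

variable {X : Type} [TopologicalSpace X] [CompactSpace X] [ChartedSpace C2 X]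
  [IsManifold 𝓘(ℂ, C2) 1 X] {N : NAtl 2 X} {u : C(X, Circ)} {L : Lifts N.big (u : X → Circ)}
  {hsm : ∀ i, N.big.SmAt i (L.f i)} {ρ : ℝ} {hρ : N.r ≤ ρ} [Finite N.ι] {P : Part (N.at' ρ hρ)}
  {Px : Part (N.at' ρ hρ)} {I : KIndex (smf (N.at' ρ hρ))}
  {P' : Part ((nlift N (ycov u L)).at' ρ hρ)} {Q : PNb P'} {H : Hts Q}

/-- **(D3) for `O`** -/
theorem eint_one (X' : XinData Px I (zdL L hsm hρ) u) (hP : P' = liftPN (ycov u L) hρ P)
    (h : BGeo P' (BL (1 : LB ((nlift N (ycov u L)).at' ρ hρ))))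
    (hW : ∃ W : ℝ, ∀ q : N.ι × ℤ, |H.ht q + (q.2 : ℝ)| ≤ W) {hdd : ∀ u, nabL _ (nabL _ u) = 0}
    (c : Cut (cx h H hdd)) {a b : ℝ} (hab : a ≤ b)
    (hr : ∀ r ∈ Set.Icc a b, NonSp (YC.dk u) (-r)) : EInt (cx h H hdd) a b :=
  eint_N hP pul_one h hW hdd c hab fun r hr' _ hz hz0 w hw h0 =>
    quasi_exact_one X' (comp_zdL L hsm hρ) (hr r hr') hz hz0 w hw h0

/-- **(D3) for `K`** -/
theorem eint_KB (X' : XinData Px I (zdL L hsm hρ) u) (hP : P' = liftPN (ycov u L) hρ P)
    (h : BGeo P' (BL (KB ((nlift N (ycov u L)).at' ρ hρ))))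
    (hW : ∃ W : ℝ, ∀ q : N.ι × ℤ, |H.ht q + (q.2 : ℝ)| ≤ W) {hdd : ∀ u, nabL _ (nabL _ u) = 0}
    (c : Cut (cx h H hdd)) {a b : ℝ} (hab : a ≤ b)
    (hr : ∀ r ∈ Set.Icc a b, NonSp (YC.dk u) r) : EInt (cx h H hdd) a b :=
  eint_N hP pul_KB h hW hdd c hab fun r hr' _ hz hz0 w hw h0 =>
    quasi_exact_KB X' (comp_zdL L hsm hρ) (hr r hr') hz hz0 w hw h0

end main

end Crest.Agent.R275.EintY473
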