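import Mathlib
import Crest.Prelude.Def_ComplexSurface
import Crest.Agent.R266.SCV
import Crest.Agent.Lib.InjHolo
import Crest.Agent.R275.Shell_468

-- ▼ part R275/End2A_849
section

/-!
R275 (S0418), helper849, block END2, part A: local structure of the zero set of a holomorphic
function of two variables.

* `dirD v f`        : derivative of `f` in the direction `v`
* `exists_order`    : an analytic function which is not locally zero has finite order along a line
* `curve_chart`     : the zero set near a point with nonvanishing derivative is a complex curve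
* `no_isolated_zero`: zeros of holomorphic functions of two variables are not isolated
-/

set_option autoImplicit false
set_option linter.unusedSectionVars false

open Set Filter Topology Metric Crest.AlgGeometry.Surface
open scoped ContDiff

noncomputable section

namespace Crest.Agent.R275.End849

section Dir

variable {E : Type*} [NormedAddCommGroup E] [NormedSpace ℂ E]

/-- directional derivative -/
def dirD (v : E) (f : E → ℂ) (z : E) : ℂ := fderiv ℂ f z v

lemma analyticAt_dirD {v : E} {f : E → ℂ} {z : E} (hf : AnalyticAt ℂ f z) :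
    AnalyticAt ℂ (dirD v f) z := by
  have h1 : AnalyticAt ℂ (fderiv ℂ f) z := hf.fderiv
  exact (ContinuousLinearMap.apply ℂ ℂ v).analyticAt _ |>.comp h1

lemma analyticAt_dirD_iter {v : E} {f : E → ℂ} {z : E} (hf : AnalyticAt ℂ f z) (n : ℕ) :
    AnalyticAt ℂ ((dirD v)^[n] f) z := by
  induction n with
  | zero => exact hf
  | succ n ih =>
    rw [Function.iterate_succ_apply']
    exact analyticAt_dirD ih

lemma deriv_line {v : E} {f : E → ℂ} {z : E} {t : ℂ} (hf : DifferentiableAt ℂ f (z + t • v)) :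
    deriv (fun t : ℂ => f (z + t • v)) t = dirD v f (z + t • v) := by
  have h1 : HasFDerivAt f (fderiv ℂ f (z + t • v)) (z + t • v) := hf.hasFDerivAt
  have h2 : HasDerivAt (fun t : ℂ => z + t • v) v t := by
    simpa using ((hasDerivAt_id t).smul_const v).const_add z
  exact (h1.comp_hasDerivAt t h2).deriv

lemma iteratedDeriv_line {v : E} {f : E → ℂ} {z : E} (n : ℕ) :
    ∀ {t : ℂ}, AnalyticAt ℂ f (z + t • v) →
      iteratedDeriv n (fun t : ℂ => f (z + t • v)) t = (dirD v)^[n] f (z + t • v) := by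
  induction n with
  | zero => intro t _; simp
  | succ n ih =>
    intro t hf
    rw [iteratedDeriv_succ, Function.iterate_succ_apply']
    have hev : iteratedDeriv n (fun t : ℂ => f (z + t • v)) =ᶠ[𝓝 t]
        fun t => (dirD v)^[n] f (z + t • v) := by
      have h1 : ContinuousAt (fun t : ℂ => z + t • v) t := by fun_prop
      filter_upwards [h1.eventually hf.eventually_analyticAt] with s hs
      exact ih hs
    rw [hev.deriv_eq]
    exact deriv_line (analyticAt_dirD_iter hf n).differentiableAt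

lemma analyticAt_line {v : E} {f : E → ℂ} {z : E} {t : ℂ} (hf : AnalyticAt ℂ f (z + t • v)) :
    AnalyticAt ℂ (fun t : ℂ => f (z + t • v)) t := by
  have h2 : AnalyticAt ℂ (fun t : ℂ => z + t • v) t := by fun_prop
  exact AnalyticAt.fun_comp hf h2

/-- an analytic function which is not locally zero has finite order along some line -/
theorem exists_order {f : E → ℂ} {z : E} (hf : AnalyticAt ℂ f z)
    (hne : ¬ ∀ᶠ w in 𝓝 z, f w = 0) : ∃ v : E, ∃ n : ℕ, (dirD v)^[n] f z ≠ 0 := by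
  by_contra hcon
  push Not at hcon
  apply hne
  obtain ⟨r, hr, hA⟩ := Metric.eventually_nhds_iff_ball.1 hf.eventually_analyticAt
  filter_upwards [ball_mem_nhds z hr] with w hw
  set v := w - z with hv
  set g : ℂ → ℂ := fun t => f (z + t • v) with hg
  set W : Set ℂ := {t | z + t • v ∈ ball z r} with hW
  have hWo : IsOpen W := isOpen_ball.preimage (by fun_prop)
  have hWc : IsPreconnected W := by
    have : Convex ℝ W := by
      intro s hs t ht a b ha hb hab
      have h1 : z + (a • s + b • t) • v = a • (z + s • v) + b • (z + t • v) := by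
        simp only [smul_add, add_smul, smul_assoc]
        have : z = a • z + b • z := by rw [← add_smul, hab, one_smul]
        nth_rw 1 [this]
        abel
      change z + (a • s + b • t) • v ∈ ball z r
      rw [h1]
      exact convex_ball z r hs ht ha hb hab
    exact this.isPreconnected
  have h0W : (0 : ℂ) ∈ W := by simp [hW, hr]
  have h1W : (1 : ℂ) ∈ W := by
    change z + (1 : ℂ) • v ∈ ball z r
    simp only [one_smul, hv, add_sub_cancel]
    exact hw
  have hgA : AnalyticOnNhd ℂ g W := fun t ht => analyticAt_line (hA _ ht)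
  have hg0 : ∀ n, iteratedDeriv n g 0 = 0 := by
    intro n
    rw [hg, iteratedDeriv_line n (by simpa using hf)]
    simpa using hcon v n
  have hzero : g =ᶠ[𝓝 0] 0 := by
    have h1 := hgA 0 h0W
    have h2 : analyticOrderAt g 0 = ⊤ := by
      rw [ENat.eq_top_iff_forall_ge]
      intro n
      rw [natCast_le_analyticOrderAt_iff_iteratedDeriv_eq_zero h1]
      intro i _
      exact hg0 i
    exact analyticOrderAt_eq_top.1 h2
  have := hgA.eqOn_zero_of_preconnected_of_eventuallyEq_zero hWc h0W hzero h1W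
  simpa [hg, hv] using this

end Dir

section Plane

/-- the coordinates given by a basis `w, v` of `ℂ²` -/
theorem exists_basis {v : C2} (hv : v ≠ 0) :
    ∃ L : (ℂ × ℂ) ≃L[ℂ] C2, L (0, 1) = v := by
  classical
  set w : C2 := !₂[-(starRingEnd ℂ) (v 1), (starRingEnd ℂ) (v 0)] with hw
  let J : (ℂ × ℂ) →ₗ[ℂ] C2 :=
    (LinearMap.fst ℂ ℂ ℂ).smulRight w + (LinearMap.snd ℂ ℂ ℂ).smulRight v
  have hJ : ∀ p : ℂ × ℂ, J p = p.1 • w + p.2 • v := fun p => rfl
  have hinj : Function.Injective J := by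
    rw [injective_iff_map_eq_zero]
    rintro ⟨t, s⟩ h
    rw [hJ] at h
    have h0 : t * (-(starRingEnd ℂ) (v 1)) + s * v 0 = 0 := by
      have := congrArg (fun x : C2 => x 0) h
      simpa [hw] using this
    have h1 : t * ((starRingEnd ℂ) (v 0)) + s * v 1 = 0 := by
      have := congrArg (fun x : C2 => x 1) h
      simpa [hw] using this
    have hn : (v 0) * (starRingEnd ℂ) (v 0) + (v 1) * (starRingEnd ℂ) (v 1) ≠ 0 := by
      intro h2
      apply hv
      rw [Complex.mul_conj, Complex.mul_conj] at h2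
      have h3 : Complex.normSq (v 0) + Complex.normSq (v 1) = 0 := by
        rw [← Complex.ofReal_add] at h2
        exact Complex.ofReal_eq_zero.1 h2
      have h4 := Complex.normSq_nonneg (v 0)
      have h5 := Complex.normSq_nonneg (v 1)
      have h6 : Complex.normSq (v 0) = 0 := by linarith
      have h7 : Complex.normSq (v 1) = 0 := by linarith
      ext i
      fin_cases i
      · simpa using Complex.normSq_eq_zero.1 h6
      · simpa using Complex.normSq_eq_zero.1 h7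
    have ht : t * ((v 0) * (starRingEnd ℂ) (v 0) + (v 1) * (starRingEnd ℂ) (v 1)) = 0 := by
      linear_combination v 0 * h1 - v 1 * h0
    have hs : s * ((v 0) * (starRingEnd ℂ) (v 0) + (v 1) * (starRingEnd ℂ) (v 1)) = 0 := by
      linear_combination (starRingEnd ℂ) (v 1) * h1 + (starRingEnd ℂ) (v 0) * h0
    have ht' : t = 0 := (mul_eq_zero.1 ht).resolve_right hn
    have hs' : s = 0 := (mul_eq_zero.1 hs).resolve_right hn
    rw [ht', hs']
    rfl
  have hfin : Module.finrank ℂ (ℂ × ℂ) = Module.finrank ℂ C2 := by simp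
  let e : (ℂ × ℂ) ≃ₗ[ℂ] C2 := LinearMap.linearEquivOfInjective J hinj hfin
  refine ⟨e.toContinuousLinearEquiv, ?_⟩
  change J (0, 1) = v
  rw [hJ]
  simp

/-- the zero set near a point with nonvanishing derivative is a complex curve -/
theorem curve_chart {h : C2 → ℂ} {z₀ : C2} (hh : AnalyticAt ℂ h z₀) (h0 : h z₀ = 0)
    (L : (ℂ × ℂ) ≃L[ℂ] C2) (hd : dirD (L (0, 1)) h z₀ ≠ 0) {W : Set C2} (hW : W ∈ 𝓝 z₀) :
    ∃ O : Set C2, ∃ U : Set ℂ, ∃ γ : ℂ → C2, IsOpen O ∧ z₀ ∈ O ∧ O ⊆ W ∧ IsOpen U ∧ (0 : ℂ) ∈ U ∧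
      AnalyticOnNhd ℂ γ U ∧ γ 0 = z₀ ∧
      (∀ t ∈ U, γ t ∈ O ∧ h (γ t) = 0 ∧ (L.symm (γ t - z₀)).1 = t) ∧
      ∀ z ∈ O, h z = 0 → (L.symm (z - z₀)).1 ∈ U ∧ γ (L.symm (z - z₀)).1 = z := by
  set q : ℂ := dirD (L (0, 1)) h z₀ with hq
  set p : ℂ := dirD (L (1, 0)) h z₀ with hp
  set H : ℂ × ℂ → ℂ × ℂ := fun x => (x.1, h (z₀ + L x)) with hH
  have hL : ∀ x : ℂ × ℂ, fderiv ℂ h z₀ (L x) = x.1 * p + x.2 * q := by
    rintro ⟨t, s⟩
    have : ((t, s) : ℂ × ℂ) = t • (1, 0) + s • (0, 1) := by simp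
    rw [this, map_add, map_smul, map_smul, map_add, map_smul, map_smul]
    simp [hp, hq, dirD]
  -- the derivative
  let f' : (ℂ × ℂ) ≃L[ℂ] (ℂ × ℂ) := ContinuousLinearEquiv.equivOfInverse
    ((ContinuousLinearMap.fst ℂ ℂ ℂ).prod
      (p • ContinuousLinearMap.fst ℂ ℂ ℂ + q • ContinuousLinearMap.snd ℂ ℂ ℂ))
    ((ContinuousLinearMap.fst ℂ ℂ ℂ).prod
      (q⁻¹ • ContinuousLinearMap.snd ℂ ℂ ℂ - (q⁻¹ * p) • ContinuousLinearMap.fst ℂ ℂ ℂ))
    (by
      rintro ⟨t, s⟩
      change ((t, q⁻¹ * (p * t + q * s) - (q⁻¹ * p) * t) : ℂ × ℂ) = (t, s)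
      congr 1
      field_simp
      ring)
    (by
      rintro ⟨t, s⟩
      change ((t, p * t + q * (q⁻¹ * s - (q⁻¹ * p) * t)) : ℂ × ℂ) = (t, s)
      congr 1
      field_simp
      ring)
  have hf'ap : ∀ x : ℂ × ℂ, f' x = (x.1, p * x.1 + q * x.2) := fun x => rfl
  have hA : AnalyticAt ℂ H 0 := by
    have h1 : AnalyticAt ℂ (fun x : ℂ × ℂ => z₀ + L x) 0 := by
      have : AnalyticAt ℂ (fun x : ℂ × ℂ => L x) 0 := (L : (ℂ × ℂ) →L[ℂ] C2).analyticAt 0
      exact analyticAt_const.add this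
    have h2 : AnalyticAt ℂ (fun x : ℂ × ℂ => h (z₀ + L x)) 0 := by
      refine AnalyticAt.fun_comp ?_ h1
      simpa using hh
    exact analyticAt_fst.prod h2
  have hder : HasFDerivAt H (f' : (ℂ × ℂ) →L[ℂ] (ℂ × ℂ)) 0 := by
    have h1 : HasFDerivAt (fun x : ℂ × ℂ => z₀ + L x) (L : (ℂ × ℂ) →L[ℂ] C2) 0 :=
      (L.hasFDerivAt).const_add z₀
    have h2 : HasFDerivAt h (fderiv ℂ h z₀) (z₀ + L 0) := by
      simpa using hh.differentiableAt.hasFDerivAt
    have h3 : HasFDerivAt (fun x : ℂ × ℂ => h (z₀ + L x))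
        ((fderiv ℂ h z₀).comp (L : (ℂ × ℂ) →L[ℂ] C2)) 0 := h2.comp 0 h1
    have h4 : HasFDerivAt H ((ContinuousLinearMap.fst ℂ ℂ ℂ).prod
        ((fderiv ℂ h z₀).comp (L : (ℂ × ℂ) →L[ℂ] C2))) 0 := hasFDerivAt_fst.prodMk h3
    convert h4 using 1
    ext x
    · simp [hf'ap]
    · simp [hf'ap, hL]
    · simp [hf'ap]
    · simp [hf'ap, hL]
  have hWpre : (fun x : ℂ × ℂ => z₀ + L x) ⁻¹' W ∈ 𝓝 (0 : ℂ × ℂ) := by
    have h1 : ContinuousAt (fun x : ℂ × ℂ => z₀ + L x) 0 := by fun_prop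
    refine h1.preimage_mem_nhds ?_
    simpa using hW
  obtain ⟨e, he0, heW, heH, heA, heA'⟩ :=
    Crest.Agent.R266.SCV.exists_analytic_openPartialHomeomorph hA f' hder hWpre
  have hH0 : H 0 = 0 := by
    simp [hH, h0]
  set O : Set C2 := (fun z : C2 => L.symm (z - z₀)) ⁻¹' e.source with hO
  set U : Set ℂ := (fun t : ℂ => ((t, 0) : ℂ × ℂ)) ⁻¹' e.target with hU
  set γ : ℂ → C2 := fun t => z₀ + L (e.symm (t, 0)) with hγ
  have hsrc : ∀ x : ℂ × ℂ, z₀ + L x ∈ O ↔ x ∈ e.source := by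
    intro x
    simp [hO]
  have hkey : ∀ t ∈ U, e.symm (t, 0) ∈ e.source ∧ (e.symm (t, 0)).1 = t ∧
      h (z₀ + L (e.symm (t, 0))) = 0 := by
    intro t ht
    have h1 := e.map_target ht
    have h2 := e.right_inv ht
    rw [heH] at h2
    have h3 := congrArg Prod.fst h2
    have h4 := congrArg Prod.snd h2
    exact ⟨h1, h3, h4⟩
  refine ⟨O, U, γ, ?_, ?_, ?_, ?_, ?_, ?_, ?_, ?_, ?_⟩
  · exact e.open_source.preimage (by fun_prop)
  · simpa [hO] using he0
  · intro z hz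
    have := heW hz
    simpa using this
  · exact e.open_target.preimage (by fun_prop)
  · change ((0 : ℂ), (0 : ℂ)) ∈ e.target
    have := e.map_source he0
    rw [heH, hH0] at this
    exact this
  · intro t ht
    have h1 : AnalyticAt ℂ (fun t : ℂ => ((t, 0) : ℂ × ℂ)) t := analyticAt_id.prod analyticAt_const
    have h2 : AnalyticAt ℂ (fun t : ℂ => e.symm (t, 0)) t :=
      AnalyticAt.fun_comp (heA' (t, 0) ht) h1
    have h3 : AnalyticAt ℂ (fun t : ℂ => L (e.symm (t, 0))) t :=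
      AnalyticAt.fun_comp ((L : (ℂ × ℂ) →L[ℂ] C2).analyticAt _) h2
    exact analyticAt_const.add h3
  · have h1 : e.symm (0, 0) = 0 := by
      have := e.left_inv he0
      rwa [heH, hH0] at this
    simp [hγ, h1]
  · intro t ht
    obtain ⟨h1, h2, h3⟩ := hkey t ht
    refine ⟨(hsrc _).2 h1, h3, ?_⟩
    simp [hγ, h2]
  · intro z hz hz0
    set x := L.symm (z - z₀) with hx
    have hzx : z = z₀ + L x := by simp [hx]
    have hxs : x ∈ e.source := hz
    have h1 : e x = (x.1, 0) := by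
      rw [heH]
      simp only [hH]
      rw [← hzx, hz0]
    have h2 : ((x.1, 0) : ℂ × ℂ) ∈ e.target := by
      rw [← h1]; exact e.map_source hxs
    refine ⟨h2, ?_⟩
    have h3 : e.symm (x.1, 0) = x := by
      rw [← h1]; exact e.left_inv hxs
    simp only [hγ]
    rw [h3]
    exact hzx.symm

end Plane

end Crest.Agent.R275.End849
end
end

-- ▼ part R275/End2B_849
section

/-!
R275 (S0418), helper849, block END2, part B: injective holomorphic maps in dimension two are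
locally biholomorphic (Osgood).
-/

set_option autoImplicit false
set_option linter.unusedSectionVars false

open Set Filter Topology Metric Crest.AlgGeometry.Surface
open scoped ContDiff

noncomputable section

namespace Crest.Agent.R275.End849

/-- zeros of a holomorphic function of two variables persist on nearby slices -/
theorem exists_zero_slice {h : C2 → ℂ} {z₀ v w : C2} (hh : AnalyticAt ℂ h z₀) (h0 : h z₀ = 0)
    (hne : ¬ ∀ᶠ s : ℂ in 𝓝 0, h (z₀ + s • v) = 0) {r : ℝ} (hr : 0 < r) :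
    ∃ δ > 0, ∀ t : ℂ, ‖t‖ < δ → ∃ s : ℂ, ‖s‖ < r ∧ h (z₀ + t • w + s • v) = 0 := by
  -- analyticity region
  have hA : ∀ᶠ p : ℂ × ℂ in 𝓝 0, AnalyticAt ℂ h (z₀ + p.1 • w + p.2 • v) := by
    have h1 : ContinuousAt (fun p : ℂ × ℂ => z₀ + p.1 • w + p.2 • v) 0 := by fun_prop
    refine h1.eventually ?_
    simpa using hh.eventually_analyticAt
  obtain ⟨ρ, hρ, hAρ⟩ := Metric.eventually_nhds_iff_ball.1 hA
  have hline : AnalyticAt ℂ (fun s : ℂ => h (z₀ + s • v)) 0 :=
    analyticAt_line (by simpa using hh)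
  have hiso : ∀ᶠ s : ℂ in 𝓝[≠] 0, h (z₀ + s • v) ≠ 0 :=
    hline.eventually_eq_zero_or_eventually_ne_zero.resolve_left hne
  rw [eventually_nhdsWithin_iff] at hiso
  obtain ⟨ρ', hρ', hiso'⟩ := Metric.eventually_nhds_iff_ball.1 hiso
  set r' := min (r / 2) (min (ρ / 2) (ρ' / 2)) with hr'
  have hr'0 : 0 < r' := by positivity
  have hr'r : r' < r := (min_le_left _ _).trans_lt (by linarith)
  have hr'ρ : r' < ρ := ((min_le_right _ _).trans (min_le_left _ _)).trans_lt (by linarith)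
  have hr'ρ' : r' < ρ' := ((min_le_right _ _).trans (min_le_right _ _)).trans_lt (by linarith)
  -- minimum on the circle
  have hcont : ∀ t : ℂ, ‖t‖ < ρ → ContinuousOn (fun s : ℂ => h (z₀ + t • w + s • v))
      (closedBall 0 r') := by
    intro t ht s hs
    have hs' : ‖s‖ ≤ r' := by simpa using hs
    have h1 : AnalyticAt ℂ h (z₀ + t • w + s • v) := by
      refine hAρ (t, s) ?_
      rw [mem_ball_zero_iff, Prod.norm_def, max_lt_iff]
      exact ⟨ht, hs'.trans_lt hr'ρ⟩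
    have h2 : ContinuousAt (fun s : ℂ => z₀ + t • w + s • v) s := by fun_prop
    exact (ContinuousAt.comp (f := fun s : ℂ => z₀ + t • w + s • v) h1.continuousAt
      h2).continuousWithinAt
  have hρ0 : ‖(0 : ℂ)‖ < ρ := by simpa using hρ
  obtain ⟨m, hm, hmz⟩ : ∃ m > 0, ∀ s ∈ sphere (0 : ℂ) r', m ≤ ‖h (z₀ + s • v)‖ := by
    have hnes : (sphere (0 : ℂ) r').Nonempty := (NormedSpace.sphere_nonempty).2 hr'0.le
    have hc := (hcont 0 hρ0).mono sphere_subset_closedBall
    obtain ⟨s0, hs0, hmin⟩ := (isCompact_sphere (0 : ℂ) r').exists_isMinOn hnes hc.norm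
    have hs0' : ‖s0‖ = r' := by simpa using hs0
    refine ⟨‖h (z₀ + (0 : ℂ) • w + s0 • v)‖, norm_pos_iff.2 ?_, fun z hz => ?_⟩
    · rw [zero_smul, add_zero]
      refine hiso' s0 ?_ ?_
      · rw [mem_ball_zero_iff, hs0']; exact hr'ρ'
      · intro h1
        rw [mem_singleton_iff] at h1
        rw [h1, norm_zero] at hs0'
        exact hr'0.ne hs0'
    · have := hmin hz
      simpa using this
  -- nearby slices
  have hev1 : ∀ᶠ t : ℂ in 𝓝 0, ∀ s ∈ sphere (0 : ℂ) r', m / 2 < ‖h (z₀ + t • w + s • v)‖ := by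
    refine (isCompact_sphere (0 : ℂ) r').eventually_forall_of_forall_eventually ?_
    intro s hs
    have hs' : ‖s‖ = r' := by simpa using hs
    have h1 : AnalyticAt ℂ h (z₀ + (0 : ℂ) • w + s • v) := by
      refine hAρ (0, s) ?_
      rw [mem_ball_zero_iff, Prod.norm_def, max_lt_iff]
      exact ⟨hρ0, hs'.trans_lt hr'ρ⟩
    set G : ℂ × ℂ → C2 := fun p => z₀ + p.1 • w + p.2 • v with hG
    have h2 : ContinuousAt G (0, s) := by simp only [hG]; fun_prop
    have h1' : ContinuousAt h (G (0, s)) := h1.continuousAt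
    have h3 : ContinuousAt (fun p : ℂ × ℂ => ‖h (G p)‖) (0, s) := (h1'.comp h2).norm
    have h4 : m / 2 < ‖h (G (0, s))‖ := by
      have := hmz s hs
      simp only [hG, zero_smul, add_zero]
      linarith
    exact h3.eventually (lt_mem_nhds h4)
  have hev2 : ∀ᶠ t : ℂ in 𝓝 0, ‖h (z₀ + t • w)‖ < m / 2 := by
    have h2 : ContinuousAt (fun t : ℂ => z₀ + t • w) 0 := by fun_prop
    have h1 : ContinuousAt h (z₀ + (0 : ℂ) • w) := by simpa using hh.continuousAt
    have h3 : ContinuousAt (fun t : ℂ => ‖h (z₀ + t • w)‖) 0 :=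
      (ContinuousAt.comp (f := fun t : ℂ => z₀ + t • w) h1 h2).norm
    refine h3.eventually (gt_mem_nhds ?_)
    simp only [zero_smul, add_zero, h0, norm_zero]
    positivity
  obtain ⟨δ, hδ, hδ'⟩ := Metric.eventually_nhds_iff_ball.1 (hev1.and hev2)
  refine ⟨min δ ρ, lt_min hδ hρ, fun t ht => ?_⟩
  have htρ : ‖t‖ < ρ := ht.trans_le (min_le_right _ _)
  obtain ⟨h1, h2⟩ := hδ' t (by simpa using ht.trans_le (min_le_left _ _))
  by_contra hcon
  push Not at hcon
  have hd : DiffContOnCl ℂ (fun s : ℂ => (h (z₀ + t • w + s • v))⁻¹) (ball 0 r') := by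
    apply DifferentiableOn.diffContOnCl
    rw [closure_ball 0 hr'0.ne']
    intro s hs
    have hs' : ‖s‖ ≤ r' := by simpa using hs
    have h3 : AnalyticAt ℂ h (z₀ + t • w + s • v) := by
      refine hAρ (t, s) ?_
      rw [mem_ball_zero_iff, Prod.norm_def, max_lt_iff]
      exact ⟨htρ, hs'.trans_lt hr'ρ⟩
    have h4 : DifferentiableAt ℂ (fun s : ℂ => h (z₀ + t • w + s • v)) s :=
      (analyticAt_line h3).differentiableAt
    exact (h4.inv (hcon s (hs'.trans_lt hr'r))).differentiableWithinAt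
  have hmax := Complex.norm_le_of_forall_mem_frontier_norm_le isBounded_ball hd
    (C := (m / 2)⁻¹) (by
      intro s hs
      rw [frontier_ball 0 hr'0.ne'] at hs
      rw [norm_inv]
      exact inv_anti₀ (by positivity) (h1 s hs).le) (subset_closure (mem_ball_self hr'0))
  simp only [zero_smul, add_zero, norm_inv] at hmax
  have hpos : 0 < ‖h (z₀ + t • w)‖ := by
    rw [norm_pos_iff]
    have := hcon 0 (by simpa using hr)
    simpa using this
  rw [inv_le_inv₀ hpos (by positivity)] at hmax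
  linarith

/-! ### The Jacobian -/

/-- first basis vector -/
def b0 : C2 := !₂[1, 0]
/-- second basis vector -/
def b1 : C2 := !₂[0, 1]

lemma eq_basis (x : C2) : x = x 0 • b0 + x 1 • b1 := by
  ext i
  fin_cases i <;> simp [b0, b1]

/-- the determinant of an endomorphism of `ℂ²` -/
def jacL (A : C2 →L[ℂ] C2) : ℂ := A b0 0 * A b1 1 - A b0 1 * A b1 0

lemma injective_of_jacL {A : C2 →L[ℂ] C2} (h : jacL A ≠ 0) : Function.Injective A := by
  rw [injective_iff_map_eq_zero]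
  intro x hx
  rw [eq_basis x, map_add, map_smul, map_smul] at hx
  have h0 : x 0 * A b0 0 + x 1 * A b1 0 = 0 := by
    have := congrArg (fun y : C2 => y 0) hx
    simpa using this
  have h1 : x 0 * A b0 1 + x 1 * A b1 1 = 0 := by
    have := congrArg (fun y : C2 => y 1) hx
    simpa using this
  have h2 : x 0 * jacL A = 0 := by
    unfold jacL
    linear_combination A b1 1 * h0 - A b1 0 * h1
  have h3 : x 1 * jacL A = 0 := by
    unfold jacL
    linear_combination A b0 0 * h1 - A b0 1 * h0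
  have h4 : x 0 = 0 := (mul_eq_zero.1 h2).resolve_right h
  have h5 : x 1 = 0 := (mul_eq_zero.1 h3).resolve_right h
  rw [eq_basis x, h4, h5]
  simp

lemma exists_ker_of_jacL {A : C2 →L[ℂ] C2} (h : jacL A = 0) : ∃ v : C2, v ≠ 0 ∧ A v = 0 := by
  unfold jacL at h
  by_cases h1 : A b0 0 = 0 ∧ A b1 0 = 0
  · by_cases h2 : A b0 1 = 0 ∧ A b1 1 = 0
    · refine ⟨b0, ?_, ?_⟩
      · intro h3
        have := congrArg (fun y : C2 => y 0) h3
        simp [b0] at this
      · ext i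
        fin_cases i
        · simpa using h1.1
        · simpa using h2.1
    · refine ⟨A b1 1 • b0 - A b0 1 • b1, ?_, ?_⟩
      · intro h3
        apply h2
        have h4 := congrArg (fun y : C2 => y 0) h3
        have h5 := congrArg (fun y : C2 => y 1) h3
        simp only [b0, b1, PiLp.sub_apply, PiLp.smul_apply] at h4 h5
        simp at h4 h5
        exact ⟨h5, h4⟩
      · rw [map_sub, map_smul, map_smul]
        ext i
        fin_cases i
        · simp [h1.1, h1.2]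
        · simp
          ring
  · refine ⟨A b1 0 • b0 - A b0 0 • b1, ?_, ?_⟩
    · intro h3
      apply h1
      have h4 := congrArg (fun y : C2 => y 0) h3
      have h5 := congrArg (fun y : C2 => y 1) h3
      simp [b0, b1] at h4 h5
      exact ⟨h5, h4⟩
    · rw [map_sub, map_smul, map_smul]
      ext i
      fin_cases i
      · simp
        ring
      · simp
        linear_combination -h

lemma jacL_ne_zero_of_injective {A : C2 →L[ℂ] C2} (h : Function.Injective A) : jacL A ≠ 0 := by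
  intro h0
  obtain ⟨v, hv, hAv⟩ := exists_ker_of_jacL h0
  exact hv (h (by rw [hAv, map_zero]))

/-- an injective endomorphism as an equivalence -/
theorem exists_equiv_of_jacL {A : C2 →L[ℂ] C2} (h : jacL A ≠ 0) :
    ∃ e : C2 ≃L[ℂ] C2, (e : C2 →L[ℂ] C2) = A := by
  have hinj := injective_of_jacL h
  let e : C2 ≃ₗ[ℂ] C2 := LinearEquiv.ofInjectiveEndo A.toLinearMap hinj
  refine ⟨e.toContinuousLinearEquiv, ?_⟩
  ext1 x
  rfl

lemma analyticAt_coord {f : C2 → C2} {z : C2} (hf : AnalyticAt ℂ f z) (i : Fin 2) :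
    AnalyticAt ℂ (fun z => f z i) z := by
  have h1 : AnalyticAt ℂ (fun x : C2 => x i) (f z) :=
    (EuclideanSpace.proj i : C2 →L[ℂ] ℂ).analyticAt _
  exact AnalyticAt.fun_comp h1 hf

lemma analyticAt_jac {f : C2 → C2} {z : C2} (hf : AnalyticAt ℂ f z) :
    AnalyticAt ℂ (fun z => jacL (fderiv ℂ f z)) z := by
  have h1 : ∀ v : C2, AnalyticAt ℂ (fun z => fderiv ℂ f z v) z := by
    intro v
    have h2 : AnalyticAt ℂ (fderiv ℂ f) z := hf.fderiv
    exact AnalyticAt.fun_comp ((ContinuousLinearMap.apply ℂ C2 v).analyticAt _) h2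
  have h2 : ∀ (v : C2) (i : Fin 2), AnalyticAt ℂ (fun z => fderiv ℂ f z v i) z :=
    fun v i => analyticAt_coord (h1 v) i
  exact ((h2 b0 0).mul (h2 b1 1)).sub ((h2 b0 1).mul (h2 b1 0))

/-! ### Osgood's theorem -/

/-- basis coordinate curves are injective -/
lemma curve_injOn {γ : ℂ → C2} {U : Set ℂ} {z₀ : C2} {L : (ℂ × ℂ) ≃L[ℂ] C2}
    (h : ∀ t ∈ U, (L.symm (γ t - z₀)).1 = t) : InjOn γ U := by
  intro t ht s hs he
  rw [← h t ht, ← h s hs, he]

/-- step one: the derivative of an injective holomorphic map has rank `0` or `2` -/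
lemma jac_ne_zero_of_fderiv_ne_zero {f : C2 → C2} {U : Set C2} (hU : IsOpen U)
    (hf : AnalyticOnNhd ℂ f U) (hinj : InjOn f U) {z : C2} (hz : z ∈ U)
    (hne : fderiv ℂ f z ≠ 0) : jacL (fderiv ℂ f z) ≠ 0 := by
  classical
  set A := fderiv ℂ f z with hA
  obtain ⟨v, hv⟩ : ∃ v, A v ≠ 0 := by
    by_contra hcon
    push Not at hcon
    apply hne
    ext1 x
    simpa using hcon x
  have hv0 : v ≠ 0 := by
    rintro rfl
    simp at hv
  obtain ⟨i, hi⟩ : ∃ i, A v i ≠ 0 := by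
    by_contra hcon
    push Not at hcon
    apply hv
    ext i
    simpa using hcon i
  obtain ⟨L, hL⟩ := exists_basis hv0
  have hfz : AnalyticAt ℂ f z := hf z hz
  set h : C2 → ℂ := fun x => f x i - f z i with hh
  have hhA : AnalyticAt ℂ h z := (analyticAt_coord hfz i).sub analyticAt_const
  have hfi : ∀ (x : C2), AnalyticAt ℂ f x → ∀ (j : Fin 2) (u : C2),
      fderiv ℂ (fun y => f y j) x u = fderiv ℂ f x u j := by
    intro x hx j u
    have h1 : HasFDerivAt f (fderiv ℂ f x) x := hx.differentiableAt.hasFDerivAt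
    have h2 := ((EuclideanSpace.proj j : C2 →L[ℂ] ℂ).hasFDerivAt (x := f x)).comp x h1
    have h3 : HasFDerivAt (fun y => f y j)
        ((EuclideanSpace.proj j : C2 →L[ℂ] ℂ).comp (fderiv ℂ f x)) x := h2
    rw [h3.fderiv]
    rfl
  have hd : dirD (L (0, 1)) h z ≠ 0 := by
    unfold dirD
    have h1 : fderiv ℂ h z = fderiv ℂ (fun y => f y i) z := by
      simp only [hh]
      rw [fderiv_sub_const]
    rw [h1, hfi z hfz, hL]
    exact hi
  obtain ⟨O, V, γ, hO, hzO, hOU, hV, h0V, hγA, hγ0, hγ1, hγ2⟩ :=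
    curve_chart hhA (by simp [hh]) L hd (hU.mem_nhds hz)
  have hγinj : InjOn γ V := curve_injOn (L := L) (z₀ := z) (fun t ht => (hγ1 t ht).2.2)
  -- the other coordinate
  obtain ⟨j, hj⟩ : ∃ j : Fin 2, ∀ k : Fin 2, k = i ∨ k = j := by
    refine ⟨1 - i, fun k => ?_⟩
    fin_cases i <;> fin_cases k <;> simp
  set k : ℂ → ℂ := fun t => f (γ t) j with hk
  have hfγ : AnalyticOnNhd ℂ (fun t => f (γ t)) V := fun t ht =>
    AnalyticAt.fun_comp (hf _ (hOU (hγ1 t ht).1)) (hγA t ht)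
  have hkA : AnalyticOnNhd ℂ k V := fun t ht => by
    have h1 : AnalyticAt ℂ (fun x : C2 => x j) (f (γ t)) :=
      (EuclideanSpace.proj j : C2 →L[ℂ] ℂ).analyticAt _
    exact AnalyticAt.fun_comp (g := fun x : C2 => x j) (f := fun t => f (γ t)) h1 (hfγ t ht)
  have hkinj : InjOn k V := by
    intro t ht s hs he
    refine hγinj ht hs (hinj (hOU (hγ1 t ht).1) (hOU (hγ1 s hs).1) ?_)
    ext l
    rcases hj l with rfl | rfl
    · have h1 := (hγ1 t ht).2.1
      have h2 := (hγ1 s hs).2.1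
      simp only [hh] at h1 h2
      rw [sub_eq_zero] at h1 h2
      rw [h1, h2]
    · exact he
  have hkd : deriv k 0 ≠ 0 :=
    Crest.Agent.Lib.deriv_ne_zero_of_injOn hV hkA.differentiableOn hkinj h0V
  -- the derivative of `γ`
  set c := deriv γ 0 with hc
  have hγd : HasDerivAt γ c 0 := (hγA 0 h0V).differentiableAt.hasDerivAt
  have hfd : HasFDerivAt f A (γ 0) := by
    rw [hγ0]
    exact hfz.differentiableAt.hasFDerivAt
  have hcomp : HasDerivAt (fun t => f (γ t)) (A c) 0 := hfd.comp_hasDerivAt 0 hγd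
  have hcj : A c j = deriv k 0 := by
    have h1 : HasDerivAt k (A c j) 0 := by
      have := ((EuclideanSpace.proj j : C2 →L[ℂ] ℂ).hasFDerivAt (x := f (γ 0))).comp_hasDerivAt 0
        hcomp
      exact this
    exact h1.deriv.symm
  have hci : A c i = 0 := by
    have h1 : HasDerivAt (fun t => f (γ t) i) (A c i) 0 := by
      have := ((EuclideanSpace.proj i : C2 →L[ℂ] ℂ).hasFDerivAt (x := f (γ 0))).comp_hasDerivAt 0
        hcomp
      exact this
    have h2 : (fun t => f (γ t) i) =ᶠ[𝓝 0] fun _ => f z i := by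
      filter_upwards [hV.mem_nhds h0V] with t ht
      have := (hγ1 t ht).2.1
      simp only [hh] at this
      exact sub_eq_zero.1 this
    have h3 := h1.congr_of_eventuallyEq h2.symm
    exact h3.unique (hasDerivAt_const _ _)
  -- the two vectors are independent
  have hij : j ≠ i := by
    rintro rfl
    rw [hcj] at hci
    exact hkd hci
  have hsurj : Function.Surjective A := by
    have h1 : LinearMap.range A.toLinearMap = ⊤ := by
      rw [eq_top_iff]
      intro y _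
      set a : ℂ := y i / A v i with ha
      set b : ℂ := (y j - a * A v j) / A c j with hb
      refine ⟨a • v + b • c, ?_⟩
      change A (a • v + b • c) = y
      rw [map_add, map_smul, map_smul]
      have hcj0 : A c j ≠ 0 := by rw [hcj]; exact hkd
      ext l
      rcases hj l with rfl | rfl
      · simp only [PiLp.add_apply, PiLp.smul_apply, smul_eq_mul, hci, mul_zero, add_zero, ha]
        field_simp
      · simp only [PiLp.add_apply, PiLp.smul_apply, smul_eq_mul, hb]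
        field_simp
        ring
    intro y
    have : y ∈ LinearMap.range A.toLinearMap := by rw [h1]; trivial
    obtain ⟨x, hx⟩ := this
    exact ⟨x, hx⟩
  refine jacL_ne_zero_of_injective ?_
  exact (LinearMap.injective_iff_surjective (f := A.toLinearMap)).2 hsurj

/-- **Osgood**: an injective holomorphic map between domains of `ℂ²` has invertible derivative -/
theorem jac_ne_zero_of_injOn {f : C2 → C2} {U : Set C2} (hU : IsOpen U)
    (hf : AnalyticOnNhd ℂ f U) (hinj : InjOn f U) {z : C2} (hz : z ∈ U) :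
    jacL (fderiv ℂ f z) ≠ 0 := by
  classical
  intro hJz
  set J : C2 → ℂ := fun z => jacL (fderiv ℂ f z) with hJ
  have hJA : ∀ x ∈ U, AnalyticAt ℂ J x := fun x hx => analyticAt_jac (hf x hx)
  have hzero : ∀ x ∈ U, J x = 0 → fderiv ℂ f x = 0 := by
    intro x hx h0
    by_contra hne
    exact jac_ne_zero_of_fderiv_ne_zero hU hf hinj hx hne h0
  -- `J` is not locally zero
  have hnz : ∀ x ∈ U, ¬ ∀ᶠ y in 𝓝 x, J y = 0 := by
    intro x hx hev
    obtain ⟨r, hr, hball⟩ := Metric.eventually_nhds_iff_ball.1 (hev.and (hU.mem_nhds hx))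
    have hconst : ∀ y ∈ ball x r, f y = f x := by
      intro y hy
      refine (convex_ball x r).is_const_of_fderivWithin_eq_zero (𝕜 := ℂ) (f := f)
        (fun w hw => ((hf w (hball w hw).2).differentiableAt).differentiableWithinAt) ?_ hy
        (mem_ball_self hr)
      intro w hw
      rw [fderivWithin_of_isOpen isOpen_ball hw]
      exact hzero w (hball w hw).2 (hball w hw).1
    have hb0 : b0 ≠ 0 := by
      intro h3
      have := congrArg (fun y : C2 => y 0) h3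
      simp [b0] at this
    set y : C2 := x + ((r / 2 / ‖b0‖ : ℝ) : ℂ) • b0 with hy
    have hnb : 0 < ‖b0‖ := norm_pos_iff.2 hb0
    have hyb : y ∈ ball x r := by
      rw [mem_ball, dist_eq_norm, hy, add_sub_cancel_left, norm_smul, Complex.norm_real,
        Real.norm_eq_abs, abs_of_pos (by positivity)]
      rw [div_mul_cancel₀ _ hnb.ne']
      linarith
    have h1 := hinj (hball y hyb).2 hx (hconst y hyb)
    have h2 : ((r / 2 / ‖b0‖ : ℝ) : ℂ) • b0 = 0 := by
      rw [hy] at h1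
      simpa using h1
    rcases smul_eq_zero.1 h2 with h3 | h3
    · rw [Complex.ofReal_eq_zero] at h3
      have : 0 < r / 2 / ‖b0‖ := by positivity
      linarith
    · exact hb0 h3
  -- order along a line
  obtain ⟨v, n, hn⟩ := exists_order (hJA z hz) (hnz z hz)
  have hDA : ∀ x ∈ U, ∀ m, AnalyticAt ℂ ((dirD v)^[m] J) x := fun x hx m =>
    analyticAt_dirD_iter (hJA x hx) m
  set V : Set C2 := {x | x ∈ U ∧ (dirD v)^[n] J x ≠ 0} with hV
  have hVev : ∀ m, ∀ x ∈ U, (dirD v)^[m] J x ≠ 0 → ∀ᶠ y in 𝓝 x, y ∈ U ∧ (dirD v)^[m] J y ≠ 0 :=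
    fun m x hx h => (hU.mem_nhds hx |> fun h' => (Filter.Eventually.and h'
      ((hDA x hx m).continuousAt.eventually_ne h)))
  -- minimal order over points of `V`
  have hex : ∃ m, ∃ x ∈ V, J x = 0 ∧ (dirD v)^[m] J x ≠ 0 := ⟨n, z, ⟨hz, hn⟩, hJz, hn⟩
  set m := Nat.find hex with hm
  obtain ⟨z₁, hz₁V, hz₁0, hz₁m⟩ := Nat.find_spec hex
  rw [← hm] at hz₁m
  have hmin : ∀ k < m, ∀ x ∈ V, J x = 0 → (dirD v)^[k] J x = 0 := by
    intro k hk x hx hx0
    by_contra hcon
    exact Nat.find_min hex hk ⟨x, hx, hx0, hcon⟩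
  have hm0 : m ≠ 0 := by
    intro h0
    rw [h0] at hz₁m
    exact hz₁m hz₁0
  obtain ⟨l, hl⟩ : ∃ l, m = l + 1 := ⟨m - 1, by omega⟩
  set h : C2 → ℂ := (dirD v)^[l] J with hh
  have hhz₁ : dirD v h z₁ ≠ 0 := by
    rw [hl, Function.iterate_succ_apply'] at hz₁m
    exact hz₁m
  have hv0 : v ≠ 0 := by
    rintro rfl
    apply hhz₁
    simp [dirD]
  obtain ⟨L, hL⟩ := exists_basis hv0
  have hVnhds : V ∈ 𝓝 z₁ := hVev n z₁ hz₁V.1 hz₁V.2
  have hhA : AnalyticAt ℂ h z₁ := hDA z₁ hz₁V.1 l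
  have hhz0 : h z₁ = 0 := hmin l (by omega) z₁ hz₁V hz₁0
  obtain ⟨O, W, γ, hO, hzO, hOV, hW, h0W, hγA, hγ0, hγ1, hγ2⟩ :=
    curve_chart hhA hhz0 L (by rw [hL]; exact hhz₁) hVnhds
  have hγinj : InjOn γ W := curve_injOn (L := L) (z₀ := z₁) (fun t ht => (hγ1 t ht).2.2)
  -- a box contained in `O`
  obtain ⟨r, hr, hbox⟩ : ∃ r > 0, ∀ t s : ℂ, ‖t‖ < r → ‖s‖ < r → z₁ + L (t, s) ∈ O := by
    have h1 : ContinuousAt (fun p : ℂ × ℂ => z₁ + L p) 0 := by fun_prop
    have h2 : (fun p : ℂ × ℂ => z₁ + L p) ⁻¹' O ∈ 𝓝 (0 : ℂ × ℂ) := by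
      refine h1.preimage_mem_nhds (hO.mem_nhds ?_)
      simpa using hzO
    obtain ⟨r, hr, hr'⟩ := Metric.mem_nhds_iff.1 h2
    refine ⟨r, hr, fun t s ht hs => hr' ?_⟩
    rw [mem_ball_zero_iff, Prod.norm_def, max_lt_iff]
    exact ⟨ht, hs⟩
  have hline : ¬ ∀ᶠ s : ℂ in 𝓝 0, J (z₁ + s • v) = 0 := by
    intro hev
    have h1 : iteratedDeriv m (fun s : ℂ => J (z₁ + s • v)) 0 = (dirD v)^[m] J (z₁ + (0 : ℂ) • v) :=
      iteratedDeriv_line m (by simpa using hJA z₁ hz₁V.1)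
    have h2 : (fun s : ℂ => J (z₁ + s • v)) =ᶠ[𝓝 0] fun _ => 0 := hev
    have h3 : iteratedDeriv m (fun s : ℂ => J (z₁ + s • v)) 0 = 0 := by
      rw [h2.iteratedDeriv_eq]
      simp
    rw [h3, zero_smul, add_zero] at h1
    exact hz₁m h1.symm
  obtain ⟨δ, hδ, hslice⟩ := exists_zero_slice (w := L (1, 0)) (hJA z₁ hz₁V.1) hz₁0 hline hr
  have hδ' : 0 < min δ r := lt_min hδ hr
  have hLts : ∀ t s : ℂ, t • L (1, 0) + s • v = L (t, s) := by
    intro t s
    rw [← hL, ← map_smul, ← map_smul, ← map_add]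
    simp
  have hJγ : ∀ t : ℂ, ‖t‖ < min δ r → t ∈ W ∧ J (γ t) = 0 := by
    intro t ht
    obtain ⟨s, hs, hs0⟩ := hslice t (ht.trans_le (min_le_left _ _))
    rw [add_assoc, hLts] at hs0
    have hxO := hbox t s (ht.trans_le (min_le_right _ _)) hs
    have hxh : h (z₁ + L (t, s)) = 0 := hmin l (by omega) _ (hOV hxO) hs0
    obtain ⟨h1, h2⟩ := hγ2 _ hxO hxh
    have h3 : (L.symm (z₁ + L (t, s) - z₁)).1 = t := by simp
    rw [h3] at h1 h2
    exact ⟨h1, by rw [h2]; exact hs0⟩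
  -- `f ∘ γ` is constant
  have hconst : ∀ t ∈ ball (0 : ℂ) (min δ r), f (γ t) = f (γ 0) := by
    intro t ht
    have hder : ∀ s ∈ ball (0 : ℂ) (min δ r), HasDerivAt (fun s => f (γ s)) 0 s := by
      intro s hs
      obtain ⟨h1, h2⟩ := hJγ s (by simpa using hs)
      have h3 : γ s ∈ U := (hOV (hγ1 s h1).1).1
      have h4 : HasFDerivAt f (0 : C2 →L[ℂ] C2) (γ s) := by
        rw [← hzero _ h3 h2]
        exact (hf _ h3).differentiableAt.hasFDerivAt
      have h5 : HasDerivAt (fun s => f (γ s)) ((0 : C2 →L[ℂ] C2) (deriv γ s)) s :=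
        h4.comp_hasDerivAt s (hγA s h1).differentiableAt.hasDerivAt
      exact h5
    refine (convex_ball (0 : ℂ) (min δ r)).is_const_of_fderivWithin_eq_zero (𝕜 := ℂ)
      (f := fun s => f (γ s)) (fun s hs => (hder s hs).differentiableAt.differentiableWithinAt)
      ?_ ht (mem_ball_self hδ')
    intro s hs
    rw [fderivWithin_of_isOpen isOpen_ball hs]
    ext1
    simp [(hder s hs).deriv]
  set t : ℂ := ((min δ r / 2 : ℝ) : ℂ) with ht
  have htn : ‖t‖ < min δ r := by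
    rw [ht, Complex.norm_real, Real.norm_eq_abs, abs_of_pos (by positivity)]
    linarith
  have h1 := hconst t (by simpa using htn)
  have h2 := hJγ t htn
  have h3 : γ t = γ 0 := hinj (hOV (hγ1 t h2.1).1).1 (hOV (hγ1 0 h0W).1).1 h1
  have h4 := hγinj h2.1 h0W h3
  rw [ht, Complex.ofReal_eq_zero] at h4
  linarith

end Crest.Agent.R275.End849
end
end

-- ▼ part R275/End2C_849
section

/-!
R275 (S0418), helper849, block END2, part C: thin sets in dimension two.

A set is *thin* if it is covered by countably many complex curves. The complement of a relatively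
closed thin subset of a connected open set is connected and dense. Zero sets of holomorphic
functions are thin.
-/

set_option autoImplicit false
set_option linter.unusedSectionVars false

open Set Filter Topology Metric Crest.AlgGeometry.Surface
open scoped ContDiff

noncomputable section

namespace Crest.Agent.R275.End849

/-- covered by countably many complex curves -/
def Thin (T : Set C2) : Prop :=
  ∃ (γ : ℕ → ℂ → C2) (U : ℕ → Set ℂ), (∀ n, IsOpen (U n)) ∧
    (∀ n, DifferentiableOn ℂ (γ n) (U n)) ∧ T ⊆ ⋃ n, γ n '' U n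

lemma Thin.mono {S T : Set C2} (hT : Thin T) (h : S ⊆ T) : Thin S := by
  obtain ⟨γ, U, h1, h2, h3⟩ := hT
  exact ⟨γ, U, h1, h2, h.trans h3⟩

lemma thin_empty : Thin ∅ := ⟨fun _ _ => 0, fun _ => ∅, fun _ => isOpen_empty,
  fun _ => differentiableOn_empty, empty_subset _⟩

lemma thin_curve {γ : ℂ → C2} {U : Set ℂ} (hU : IsOpen U) (hγ : DifferentiableOn ℂ γ U) :
    Thin (γ '' U) :=
  ⟨fun _ => γ, fun _ => U, fun _ => hU, fun _ => hγ, fun _ hx => mem_iUnion.2 ⟨0, hx⟩⟩

lemma thin_iUnion_nat {T : ℕ → Set C2} (h : ∀ n, Thin (T n)) : Thin (⋃ n, T n) := by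
  choose γ U h1 h2 h3 using h
  refine ⟨fun n => γ n.unpair.1 n.unpair.2, fun n => U n.unpair.1 n.unpair.2,
    fun n => h1 _ _, fun n => h2 _ _, ?_⟩
  refine iUnion_subset (fun n => (h3 n).trans (iUnion_subset (fun k => ?_)))
  refine subset_iUnion_of_subset (Nat.pair n k) ?_
  simp [Nat.unpair_pair]

lemma thin_iUnion {ι : Type*} [Countable ι] {T : ι → Set C2} (h : ∀ n, Thin (T n)) :
    Thin (⋃ n, T n) := by
  rcases isEmpty_or_nonempty ι with hι | hι
  · rw [iUnion_of_empty]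
    exact thin_empty
  · obtain ⟨f, hf⟩ := exists_surjective_nat ι
    rw [← hf.iUnion_comp]
    exact thin_iUnion_nat (fun n => h (f n))

lemma thin_biUnion {ι : Type*} {s : Set ι} (hs : s.Countable) {T : ι → Set C2}
    (h : ∀ n ∈ s, Thin (T n)) : Thin (⋃ n ∈ s, T n) := by
  have : Countable s := hs.to_subtype
  rw [biUnion_eq_iUnion]
  exact thin_iUnion (fun n => h n n.2)


/-- thinness is local -/
lemma thin_of_local {T : Set C2} (h : ∀ x ∈ T, ∃ O ∈ 𝓝 x, Thin (T ∩ O)) : Thin T := by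
  classical
  choose! O hO hT using h
  obtain ⟨t, htT, htc, hcov⟩ := TopologicalSpace.countable_cover_nhdsWithin (s := T) (f := O)
    (fun x hx => mem_nhdsWithin_of_mem_nhds (hO x hx))
  refine (thin_biUnion htc (T := fun x => T ∩ O x) (fun x hx => hT x (htT hx))).mono ?_
  intro x hx
  obtain ⟨y, hy, hxy⟩ := mem_iUnion₂.1 (hcov hx)
  exact mem_iUnion₂.2 ⟨y, hy, hx, hxy⟩

/-- image of a thin set -/
lemma Thin.image {T O : Set C2} (hT : Thin T) (hO : IsOpen O) (hTO : T ⊆ O) {Φ : C2 → C2}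
    (hΦ : DifferentiableOn ℂ Φ O) : Thin (Φ '' T) := by
  obtain ⟨γ, U, h1, h2, h3⟩ := hT
  refine ⟨fun n z => Φ (γ n z), fun n => U n ∩ γ n ⁻¹' O,
    fun n => (h2 n).continuousOn.isOpen_inter_preimage (h1 n) hO,
    fun n => hΦ.comp ((h2 n).mono inter_subset_left) (fun z hz => hz.2), ?_⟩
  rintro _ ⟨x, hx, rfl⟩
  obtain ⟨n, z, hz, rfl⟩ := mem_iUnion.1 (h3 hx)
  exact mem_iUnion.2 ⟨n, z, ⟨hz, hTO hx⟩, rfl⟩

/-! ### Dimension -/

lemma contDiffAt_real_of_differentiableOn {γ : ℂ → C2} {U : Set ℂ} (hU : IsOpen U)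
    (hγ : DifferentiableOn ℂ γ U) {z : ℂ} (hz : z ∈ U) : ContDiffAt ℝ 1 γ z := by
  have h1 : AnalyticAt ℂ γ z := hγ.analyticAt (hU.mem_nhds hz)
  exact (h1.contDiffAt (n := 1)).restrict_scalars ℝ

lemma finrank_C2 : Module.finrank ℝ C2 = 4 := by
  rw [← Module.finrank_mul_finrank ℝ ℂ C2]
  simp

/-- the cone with vertex `a` over a thin set has dimension at most three -/
lemma Thin.dimH_cone_le {T : Set C2} (hT : Thin T) (a : C2) :
    dimH {c : C2 | ∃ t ∈ T, ∃ s : ℝ, c = a + s • (t - a)} ≤ 3 := by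
  obtain ⟨γ, U, h1, h2, h3⟩ := hT
  set Γ : ℕ → ℝ × ℂ → C2 := fun n p => a + p.1 • (γ n p.2 - a) with hΓ
  have hsub : {c : C2 | ∃ t ∈ T, ∃ s : ℝ, c = a + s • (t - a)} ⊆
      ⋃ n, Γ n '' (univ ×ˢ U n) := by
    rintro c ⟨t, ht, s, rfl⟩
    obtain ⟨n, z, hz, rfl⟩ := mem_iUnion.1 (h3 ht)
    exact mem_iUnion.2 ⟨n, (s, z), ⟨mem_univ _, hz⟩, rfl⟩
  refine (dimH_mono hsub).trans ?_
  rw [dimH_iUnion]
  refine iSup_le (fun n => ?_)
  have hcd : ∀ p ∈ (univ : Set ℝ) ×ˢ U n, ContDiffAt ℝ 1 (Γ n) p := by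
    rintro ⟨s, z⟩ ⟨_, hz⟩
    have h4 : ContDiffAt ℝ 1 (fun p : ℝ × ℂ => γ n p.2) (s, z) :=
      (contDiffAt_real_of_differentiableOn (h1 n) (h2 n) hz).comp (s, z) contDiffAt_snd
    exact contDiffAt_const.add (contDiffAt_fst.smul (h4.sub contDiffAt_const))
  calc dimH (Γ n '' (univ ×ˢ U n)) ≤ dimH ((univ : Set ℝ) ×ˢ U n) := by
        refine dimH_image_le_of_locally_lipschitzOn (fun p hp => ?_)
        obtain ⟨K, t, ht, hK⟩ := (hcd p hp).exists_lipschitzOnWith
        exact ⟨K, t, mem_nhdsWithin_of_mem_nhds ht, hK⟩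
    _ ≤ dimH (univ : Set (ℝ × ℂ)) := dimH_mono (subset_univ _)
    _ = Module.finrank ℝ (ℝ × ℂ) := Real.dimH_univ_eq_finrank _
    _ = 3 := by
        rw [Module.finrank_prod, Complex.finrank_real_complex]
        norm_num

lemma Thin.dense_compl_cone {T : Set C2} (hT : Thin T) (a : C2) :
    Dense {c : C2 | ∃ t ∈ T, ∃ s : ℝ, c = a + s • (t - a)}ᶜ := by
  apply dense_compl_of_dimH_lt_finrank
  refine (hT.dimH_cone_le a).trans_lt ?_
  rw [finrank_C2]
  norm_num

lemma Thin.dense_compl {T : Set C2} (hT : Thin T) : Dense Tᶜ := by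
  refine (hT.dense_compl_cone 0).mono ?_
  intro c hc hcT
  exact hc ⟨c, hcT, 1, by simp⟩

lemma Thin.subset_closure_diff {T W : Set C2} (hT : Thin T) (hW : IsOpen W) :
    W ⊆ closure (W \ T) := by
  rw [sdiff_eq]
  exact hT.dense_compl.open_subset_closure_inter hW

/-- the complement of a relatively closed thin subset of a convex open set is preconnected -/
lemma Thin.isPreconnected_diff_convex {T W : Set C2} (hT : Thin T) (hWc : Convex ℝ W)
    (hWT : IsOpen (W \ T)) : IsPreconnected (W \ T) := by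
  refine isPreconnected_of_forall_pair (fun a ha b hb => ?_)
  obtain ⟨r, hr, hball⟩ := Metric.isOpen_iff.1 hWT b hb
  obtain ⟨c, hcb, hc⟩ := (hT.dense_compl_cone a).inter_open_nonempty (ball b r) isOpen_ball
    ⟨b, mem_ball_self hr⟩
  refine ⟨segment ℝ a c ∪ segment ℝ c b, ?_, Or.inl (left_mem_segment ℝ a c),
    Or.inr (right_mem_segment ℝ c b), ?_⟩
  · rintro x (hx | hx)
    · refine ⟨hWc.segment_subset ha.1 (hball hcb).1 hx, fun hxT => hc ?_⟩
      rw [segment_eq_image'] at hx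
      obtain ⟨θ, hθ, rfl⟩ := hx
      rcases eq_or_ne θ 0 with h0 | h0
      · exfalso
        apply ha.2
        simpa [h0] using hxT
      · refine ⟨_, hxT, θ⁻¹, ?_⟩
        rw [add_sub_cancel_left, smul_smul, inv_mul_cancel₀ h0, one_smul, add_sub_cancel]
    · exact hball ((convex_ball b r).segment_subset hcb (mem_ball_self hr) hx)
  · exact IsPreconnected.union c (right_mem_segment ℝ a c) (left_mem_segment ℝ c b)
      (convex_segment a c).isPreconnected (convex_segment c b).isPreconnected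

/-- the complement of a relatively closed thin subset of a connected open set is preconnected -/
theorem Thin.isPreconnected_diff {T W : Set C2} (hT : Thin T) (hW : IsOpen W)
    (hWc : IsPreconnected W) (hWT : IsOpen (W \ T)) : IsPreconnected (W \ T) := by
  classical
  intro P Q hP hQ hcov hPne hQne
  by_contra hemp
  rw [not_nonempty_iff_eq_empty] at hemp
  -- small balls
  have hball : ∀ x ∈ W, ∃ r > 0, ball x r ⊆ W ∧ IsPreconnected (ball x r \ T) := by
    intro x hx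
    obtain ⟨r, hr, hb⟩ := Metric.isOpen_iff.1 hW x hx
    refine ⟨r, hr, hb, hT.isPreconnected_diff_convex (convex_ball x r) ?_⟩
    have : ball x r \ T = ball x r ∩ (W \ T) := by
      ext y
      constructor
      · rintro ⟨h1, h2⟩; exact ⟨h1, hb h1, h2⟩
      · rintro ⟨h1, _, h2⟩; exact ⟨h1, h2⟩
    rw [this]
    exact isOpen_ball.inter hWT
  -- membership
  set P' : Set C2 := {x | x ∈ W ∧ ∀ᶠ y in 𝓝 x, y ∉ T → y ∈ P} with hP'
  set Q' : Set C2 := {x | x ∈ W ∧ ∀ᶠ y in 𝓝 x, y ∉ T → y ∈ Q} with hQ'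
  have hP'o : IsOpen P' := hW.inter isOpen_setOfPred_eventually_nhds
  have hQ'o : IsOpen Q' := hW.inter isOpen_setOfPred_eventually_nhds
  have hWcov : W ⊆ P' ∪ Q' := by
    intro x hx
    obtain ⟨r, hr, hb, hpre⟩ := hball x hx
    have hsub : ball x r \ T ⊆ P ∪ Q := fun y hy => hcov ⟨hb hy.1, hy.2⟩
    have hsel : ball x r \ T ⊆ P ∨ ball x r \ T ⊆ Q := by
      by_contra hcon
      rw [not_or, not_subset, not_subset] at hcon
      obtain ⟨⟨y, hy, hyP⟩, z, hz, hzQ⟩ := hcon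
      have hyQ : y ∈ Q := (hsub hy).resolve_left hyP
      have hzP : z ∈ P := (hsub hz).resolve_right hzQ
      obtain ⟨w, hw, hwPQ⟩ := hpre P Q hP hQ hsub ⟨z, hz, hzP⟩ ⟨y, hy, hyQ⟩
      have : w ∈ W \ T ∩ (P ∩ Q) := ⟨⟨hb hw.1, hw.2⟩, hwPQ⟩
      rw [hemp] at this
      exact this
    rcases hsel with h | h
    · left
      refine ⟨hx, ?_⟩
      filter_upwards [ball_mem_nhds x hr] with y hy hyT
      exact h ⟨hy, hyT⟩
    · right
      refine ⟨hx, ?_⟩
      filter_upwards [ball_mem_nhds x hr] with y hy hyT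
      exact h ⟨hy, hyT⟩
  obtain ⟨x, hxW, hxP', hxQ'⟩ := hWc P' Q' hP'o hQ'o hWcov
    (by
      obtain ⟨x, hx, hxP⟩ := hPne
      refine ⟨x, hx.1, hx.1, ?_⟩
      filter_upwards [hP.mem_nhds hxP] with y hy _
      exact hy)
    (by
      obtain ⟨x, hx, hxQ⟩ := hQne
      refine ⟨x, hx.1, hx.1, ?_⟩
      filter_upwards [hQ.mem_nhds hxQ] with y hy _
      exact hy)
  have h1 : ∀ᶠ y in 𝓝 x, y ∈ W ∧ (y ∉ T → y ∈ P) ∧ (y ∉ T → y ∈ Q) := by
    filter_upwards [hW.mem_nhds hxW, hxP'.2, hxQ'.2] with y h2 h3 h4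
    exact ⟨h2, h3, h4⟩
  obtain ⟨O, hO, hOo, hxO⟩ := _root_.eventually_nhds_iff.1 h1
  obtain ⟨y, hyO, hyT⟩ := hT.dense_compl.inter_open_nonempty O hOo ⟨x, hxO⟩
  obtain ⟨h2, h3, h4⟩ := hO y hyO
  have : y ∈ W \ T ∩ (P ∩ Q) := ⟨⟨h2, hyT⟩, h3 hyT, h4 hyT⟩
  rw [hemp] at this
  exact this

/-! ### Zero sets are thin -/

lemma thin_simple {h : C2 → ℂ} {V : Set C2} (hA : ∀ z ∈ V, AnalyticAt ℂ h z) (v : C2) :
    Thin {z | z ∈ V ∧ h z = 0 ∧ dirD v h z ≠ 0} := by
  refine thin_of_local ?_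
  rintro x ⟨hxV, hx0, hxd⟩
  have hv0 : v ≠ 0 := by
    rintro rfl
    apply hxd
    simp [dirD]
  obtain ⟨L, hL⟩ := exists_basis hv0
  obtain ⟨O, U, γ, hO, hxO, _, hU, _, hγA, _, _, hγ2⟩ :=
    curve_chart (hA x hxV) hx0 L (by rw [hL]; exact hxd) (W := univ) univ_mem
  refine ⟨O, hO.mem_nhds hxO, (thin_curve hU hγA.differentiableOn).mono ?_⟩
  rintro y ⟨⟨_, hy0, _⟩, hyO⟩
  obtain ⟨h1, h2⟩ := hγ2 y hyO hy0
  exact ⟨_, h1, h2⟩

/-- the zero set of a holomorphic function of two variables is locally thin -/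
lemma thin_zero_local {f : C2 → ℂ} {z : C2} (hf : AnalyticAt ℂ f z)
    (hne : ¬ ∀ᶠ w in 𝓝 z, f w = 0) : ∃ O ∈ 𝓝 z, Thin {x | x ∈ O ∧ f x = 0} := by
  classical
  obtain ⟨v, n, hn⟩ := exists_order hf hne
  set V : Set C2 := {x | AnalyticAt ℂ f x ∧ (dirD v)^[n] f x ≠ 0} with hV
  have hVn : V ∈ 𝓝 z := hf.eventually_analyticAt.and
    ((analyticAt_dirD_iter hf n).continuousAt.eventually_ne hn)
  refine ⟨V, hVn, (thin_iUnion_nat (T := fun j => {x | x ∈ V ∧ (dirD v)^[j] f x = 0 ∧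
    dirD v ((dirD v)^[j] f) x ≠ 0}) (fun j => thin_simple
      (fun x hx => analyticAt_dirD_iter hx.1 j) v)).mono ?_⟩
  rintro x ⟨hxV, hx0⟩
  have hex : ∃ m, (dirD v)^[m] f x ≠ 0 := ⟨n, hxV.2⟩
  set m := Nat.find hex with hm
  have hm1 : (dirD v)^[m] f x ≠ 0 := Nat.find_spec hex
  have hm0 : m ≠ 0 := by
    intro h0
    rw [h0] at hm1
    exact hm1 hx0
  obtain ⟨l, hl⟩ : ∃ l, m = l + 1 := ⟨m - 1, by omega⟩
  refine mem_iUnion.2 ⟨l, hxV, ?_, ?_⟩
  · by_contra hcon
    exact Nat.find_min hex (m := l) (by omega) hcon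
  · rw [hl, Function.iterate_succ_apply'] at hm1
    exact hm1

/-- the zero set of a holomorphic function of two variables is thin -/
theorem thin_zero {f : C2 → ℂ} {U : Set C2} (hf : ∀ z ∈ U, AnalyticAt ℂ f z)
    (hne : ∀ z ∈ U, ¬ ∀ᶠ w in 𝓝 z, f w = 0) : Thin {x | x ∈ U ∧ f x = 0} := by
  refine thin_of_local ?_
  rintro x ⟨hxU, _⟩
  obtain ⟨O, hO, hT⟩ := thin_zero_local (hf x hxU) (hne x hxU)
  refine ⟨O, hO, hT.mono ?_⟩
  rintro y ⟨⟨_, hy0⟩, hyO⟩
  exact ⟨hyO, hy0⟩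

end Crest.Agent.R275.End849
end
end

-- ▼ part R275/End2D_849
section

/-!
R275 (S0418), helper849, block END2, part D: proper holomorphic maps of degree one in dimension two
are biholomorphic.
-/

set_option autoImplicit false
set_option linter.unusedSectionVars false

open Set Filter Topology Metric Crest.AlgGeometry.Surface
open scoped Manifold ContDiff

noncomputable section

namespace Crest.Agent.R275.End849

/-- components of the derivative -/
lemma fderiv_coord {f : C2 → C2} {x : C2} (hx : AnalyticAt ℂ f x) (j : Fin 2) (u : C2) :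
    fderiv ℂ (fun y => f y j) x u = fderiv ℂ f x u j := by
  have h1 : HasFDerivAt f (fderiv ℂ f x) x := hx.differentiableAt.hasFDerivAt
  have h2 := ((EuclideanSpace.proj j : C2 →L[ℂ] ℂ).hasFDerivAt (x := f x)).comp x h1
  have h3 : HasFDerivAt (fun y => f y j)
      ((EuclideanSpace.proj j : C2 →L[ℂ] ℂ).comp (fderiv ℂ f x)) x := h2
  rw [h3.fderiv]
  rfl

/-- if the Jacobian vanishes identically then some fibre is not discrete -/
theorem exists_nonisolated {f : C2 → C2} {O : Set C2} (hO : IsOpen O) {z : C2} (hz : z ∈ O)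
    (hA : AnalyticOnNhd ℂ f O) (hJ : ∀ x ∈ O, jacL (fderiv ℂ f x) = 0) :
    ∃ x ∈ O, ∃ᶠ y in 𝓝[≠] x, f y = f x := by
  classical
  by_cases hall : ∀ x ∈ O, fderiv ℂ f x = 0
  · refine ⟨z, hz, ?_⟩
    obtain ⟨r, hr, hball⟩ := Metric.isOpen_iff.1 hO z hz
    have hconst : ∀ y ∈ ball z r, f y = f z := by
      intro y hy
      refine (convex_ball z r).is_const_of_fderivWithin_eq_zero (𝕜 := ℂ) (f := f)
        (fun w hw => ((hA w (hball hw)).differentiableAt).differentiableWithinAt) ?_ hy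
        (mem_ball_self hr)
      intro w hw
      rw [fderivWithin_of_isOpen isOpen_ball hw]
      exact hall w (hball hw)
    have hne : (𝓝[≠] z).NeBot := by
      have : Nontrivial C2 := ⟨⟨b0, 0, by
        intro h3
        have := congrArg (fun y : C2 => y 0) h3
        simp [b0] at this⟩⟩
      exact Module.punctured_nhds_neBot ℂ C2 z
    refine Eventually.frequently ?_
    filter_upwards [mem_nhdsWithin_of_mem_nhds (ball_mem_nhds z hr)] with y hy
    exact hconst y hy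
  · push Not at hall
    obtain ⟨x, hx, hxne⟩ := hall
    obtain ⟨v, hv⟩ : ∃ v, fderiv ℂ f x v ≠ 0 := by
      by_contra hcon
      push Not at hcon
      apply hxne
      ext1 u
      simpa using hcon u
    have hv0 : v ≠ 0 := by
      rintro rfl
      simp at hv
    obtain ⟨i, hi⟩ : ∃ i, fderiv ℂ f x v i ≠ 0 := by
      by_contra hcon
      push Not at hcon
      apply hv
      ext i
      simpa using hcon i
    obtain ⟨L, hL⟩ := exists_basis hv0
    set k : C2 → ℂ := fun y => f y i with hk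
    have hkA : ∀ y ∈ O, AnalyticAt ℂ k y := fun y hy => analyticAt_coord (hA y hy) i
    set h : C2 → ℂ := fun y => f y i - f x i with hh
    have hhA : AnalyticAt ℂ h x := (hkA x hx).sub analyticAt_const
    have hdh : ∀ y, fderiv ℂ h y = fderiv ℂ k y := by
      intro y
      simp only [hh, hk]
      rw [fderiv_sub_const]
    have hd : dirD (L (0, 1)) h x ≠ 0 := by
      unfold dirD
      rw [hdh, hL, hk, fderiv_coord (hA x hx)]
      exact hi
    -- shrink
    have hW : {y | y ∈ O ∧ dirD v k y ≠ 0} ∈ 𝓝 x := by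
      have h1 : dirD v k x ≠ 0 := by
        unfold dirD
        rw [hk, fderiv_coord (hA x hx)]
        exact hi
      exact (hO.mem_nhds hx |> fun h' => Filter.Eventually.and h'
        ((analyticAt_dirD (hkA x hx)).continuousAt.eventually_ne h1))
    obtain ⟨O', V, γ, hO', hxO', hO'W, hV, h0V, hγA, hγ0, hγ1, hγ2⟩ :=
      curve_chart hhA (by simp [hh]) L hd hW
    have hγinj : InjOn γ V := curve_injOn (L := L) (z₀ := x) (fun t ht => (hγ1 t ht).2.2)
    refine ⟨x, hx, ?_⟩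
    obtain ⟨r, hr, hball⟩ := Metric.isOpen_iff.1 hV 0 h0V
    have hder : ∀ s ∈ ball (0 : ℂ) r, HasDerivAt (fun s => f (γ s)) 0 s := by
      intro s hs
      have hsV := hball hs
      have hsO := hO'W (hγ1 s hsV).1
      have h4 : HasFDerivAt f (fderiv ℂ f (γ s)) (γ s) :=
        (hA _ hsO.1).differentiableAt.hasFDerivAt
      have h5 : HasDerivAt (fun s => f (γ s)) (fderiv ℂ f (γ s) (deriv γ s)) s :=
        h4.comp_hasDerivAt s (hγA s hsV).differentiableAt.hasDerivAt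
      have h6 : fderiv ℂ f (γ s) (deriv γ s) i = 0 := by
        have h7 : HasDerivAt (fun t => f (γ t) i) (fderiv ℂ f (γ s) (deriv γ s) i) s := by
          have := ((EuclideanSpace.proj i : C2 →L[ℂ] ℂ).hasFDerivAt
            (x := f (γ s))).comp_hasDerivAt s h5
          exact this
        have h8 : (fun t => f (γ t) i) =ᶠ[𝓝 s] fun _ => f x i := by
          filter_upwards [hV.mem_nhds hsV] with t ht
          have := (hγ1 t ht).2.1
          simp only [hh] at this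
          exact sub_eq_zero.1 this
        exact (h7.congr_of_eventuallyEq h8.symm).unique (hasDerivAt_const _ _)
      -- rank one
      set A := fderiv ℂ f (γ s) with hAdef
      have h7 : A v i ≠ 0 := by
        have := hsO.2
        unfold dirD at this
        rw [hk, fderiv_coord (hA _ hsO.1)] at this
        exact this
      obtain ⟨w, hw0, hAw⟩ := exists_ker_of_jacL (hJ _ hsO.1)
      rw [← hAdef] at hAw
      -- `c = deriv γ s` is a combination of `v` and `w`
      obtain ⟨L', hL'⟩ := exists_basis hw0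
      have hcomb : ∀ u : C2, ∃ a b : ℂ, u = a • v + b • w := by
        intro u
        set p := L'.symm u with hp
        set q := L'.symm v with hq
        have hu : u = p.1 • L' (1, 0) + p.2 • w := by
          rw [← hL', ← map_smul, ← map_smul, ← map_add]
          simp [hp]
        have hvq : v = q.1 • L' (1, 0) + q.2 • w := by
          rw [← hL', ← map_smul, ← map_smul, ← map_add]
          simp [hq]
        have hq1 : q.1 ≠ 0 := by
          intro h0
          rw [h0, zero_smul, zero_add] at hvq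
          apply h7
          rw [hvq, map_smul, hAw]
          simp
        refine ⟨p.1 / q.1, p.2 - p.1 / q.1 * q.2, ?_⟩
        have h9 : L' (1, 0) = (q.1)⁻¹ • (v - q.2 • w) := by
          rw [eq_comm, inv_smul_eq_iff₀ hq1]
          nth_rw 1 [hvq]
          simp
        rw [hu, h9]
        simp only [smul_sub, sub_smul, smul_smul]
        module
      obtain ⟨a, b, hab⟩ := hcomb (deriv γ s)
      rw [hab, map_add, map_smul, map_smul, hAw, smul_zero, add_zero] at h5 h6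
      have ha : a = 0 := by
        rw [PiLp.smul_apply, smul_eq_mul] at h6
        exact (mul_eq_zero.1 h6).resolve_right h7
      rw [ha, zero_smul] at h5
      exact h5
    have hconst : ∀ t ∈ ball (0 : ℂ) r, f (γ t) = f x := by
      intro t ht
      rw [← hγ0]
      refine (convex_ball (0 : ℂ) r).is_const_of_fderivWithin_eq_zero (𝕜 := ℂ)
        (f := fun s => f (γ s)) (fun s hs => (hder s hs).differentiableAt.differentiableWithinAt)
        ?_ ht (mem_ball_self hr)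
      intro s hs
      rw [fderivWithin_of_isOpen isOpen_ball hs]
      ext1
      simp [(hder s hs).deriv]
    have hten : Tendsto γ (𝓝[≠] 0) (𝓝[≠] x) := by
      refine tendsto_nhdsWithin_iff.2 ⟨?_, ?_⟩
      · rw [← hγ0]
        exact (hγA 0 h0V).continuousAt.tendsto.mono_left nhdsWithin_le_nhds
      · filter_upwards [mem_nhdsWithin_of_mem_nhds (hV.mem_nhds h0V), self_mem_nhdsWithin]
          with t ht ht0
        intro h1
        rw [mem_singleton_iff, ← hγ0] at h1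
        exact ht0 (hγinj ht h0V h1)
    refine hten.frequently ?_
    refine Eventually.frequently ?_
    filter_upwards [mem_nhdsWithin_of_mem_nhds (ball_mem_nhds (0 : ℂ) hr)] with t ht
    exact hconst t ht

end Crest.Agent.R275.End849
end
end

-- ▼ part R275/End2E_849

/-!
R275 (S0418), helper849, block END2, part E: holomorphic maps with discrete fibres from a complex
surface to `ℂ²`; proper maps of degree one over a connected open set are biholomorphic.
-/

set_option autoImplicit false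
set_option linter.unusedSectionVars false

open Set Filter Topology Metric Crest.AlgGeometry.Surface
open scoped Manifold ContDiff

noncomputable section

namespace Crest.Agent.R275.End849

/-- inverse function theorem, `C2` version -/
theorem exists_local_inverse {f : C2 → C2} {x : C2} (hf : AnalyticAt ℂ f x)
    (hJ : jacL (fderiv ℂ f x) ≠ 0) {U : Set C2} (hU : U ∈ 𝓝 x) :
    ∃ e : OpenPartialHomeomorph C2 C2, x ∈ e.source ∧ e.source ⊆ U ∧ (∀ y, e y = f y) ∧
      AnalyticOnNhd ℂ e e.source ∧ AnalyticOnNhd ℂ e.symm e.target := by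
  obtain ⟨A, hA⟩ := exists_equiv_of_jacL hJ
  exact Crest.Agent.R266.SCV.exists_analytic_openPartialHomeomorph hf A
    (by rw [hA]; exact hf.differentiableAt.hasFDerivAt) hU

section Surface

variable {Y : Type*} [TopologicalSpace Y] [ChartedSpace C2 Y] [IsManifold 𝓘(ℂ, C2) 1 Y]

/-- the expression of `Φ` in the chart at `y` -/
def rep (Φ : Y → C2) (y : Y) : C2 → C2 := fun z => Φ ((chartAt C2 y).symm z)

/-- the domain of the expression of `Φ : N → ℂ²` in the chart at `y` -/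
def repDom (N : Set Y) (y : Y) : Set C2 := (chartAt C2 y).target ∩ (chartAt C2 y).symm ⁻¹' N

lemma isOpen_repDom {N : Set Y} (hN : IsOpen N) (y : Y) : IsOpen (repDom N y) :=
  (chartAt C2 y).isOpen_inter_preimage_symm hN

lemma mem_repDom {N : Set Y} {y : Y} (hy : y ∈ N) : chartAt C2 y y ∈ repDom N y := by
  refine ⟨mem_chart_target C2 y, ?_⟩
  rw [mem_preimage, (chartAt C2 y).left_inv (mem_chart_source C2 y)]
  exact hy

lemma rep_apply {Φ : Y → C2} {y y' : Y} (h : y' ∈ (chartAt C2 y).source) :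
    rep Φ y (chartAt C2 y y') = Φ y' := by
  unfold rep
  rw [(chartAt C2 y).left_inv h]

lemma analyticOnNhd_rep {N : Set Y} (hN : IsOpen N) {Φ : Y → C2}
    (hΦ : ContMDiffOn 𝓘(ℂ, C2) 𝓘(ℂ, C2) 1 Φ N) (y : Y) :
    AnalyticOnNhd ℂ (rep Φ y) (repDom N y) := by
  have h1 : ContMDiffOn 𝓘(ℂ, C2) 𝓘(ℂ, C2) 1 (rep Φ y) (repDom N y) := by
    refine hΦ.comp (t := N) ((contMDiffOn_chart_symm (I := 𝓘(ℂ, C2)) (n := 1)).mono
      inter_subset_left) ?_
    intro z hz
    exact hz.2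
  have h2 : DifferentiableOn ℂ (rep Φ y) (repDom N y) :=
    (contMDiffOn_iff_contDiffOn.1 h1).differentiableOn (by norm_num)
  exact Crest.Agent.R266.SCV.analyticOnNhd_of_differentiableOn (isOpen_repDom hN y) h2

/-- locally injective points -/
def LocInj (Φ : Y → C2) (y : Y) : Prop := ∃ O ∈ 𝓝 y, InjOn Φ O

lemma isOpen_locInj (Φ : Y → C2) : IsOpen {y | LocInj Φ y} := by
  rw [isOpen_iff_mem_nhds]
  rintro y ⟨O, hO, hinj⟩
  obtain ⟨O', hO', hO'o, hyO'⟩ := _root_.mem_nhds_iff.1 hO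
  filter_upwards [hO'o.mem_nhds hyO'] with y' hy'
  exact ⟨O', hO'o.mem_nhds hy', hinj.mono hO'⟩

variable {N : Set Y} {Φ : Y → C2}

/-- local injectivity in charts -/
lemma locInj_iff (hN : IsOpen N) (hΦ : ContMDiffOn 𝓘(ℂ, C2) 𝓘(ℂ, C2) 1 Φ N) {y : Y} {z : C2}
    (hz : z ∈ repDom N y) :
    LocInj Φ ((chartAt C2 y).symm z) ↔ jacL (fderiv ℂ (rep Φ y) z) ≠ 0 := by
  have hA := analyticOnNhd_rep hN hΦ y
  set e := chartAt C2 y with he
  have hsrc : e.symm z ∈ e.source := e.map_target hz.1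
  constructor
  · rintro ⟨O, hO, hinj⟩
    obtain ⟨O', hO', hO'o, hyO'⟩ := _root_.mem_nhds_iff.1 hO
    set U : Set C2 := repDom N y ∩ e.symm ⁻¹' O' with hU
    have hUeq : U = repDom N y ∩ (e.target ∩ e.symm ⁻¹' O') := by
      ext w
      constructor
      · rintro ⟨h1, h2⟩; exact ⟨h1, h1.1, h2⟩
      · rintro ⟨h1, _, h2⟩; exact ⟨h1, h2⟩
    have hUo : IsOpen U := by
      rw [hUeq]
      exact (isOpen_repDom hN y).inter (e.isOpen_inter_preimage_symm hO'o)
    refine jac_ne_zero_of_injOn hUo (hA.mono inter_subset_left) ?_ ⟨hz, hyO'⟩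
    intro a ha b hb hab
    have h1 : e.symm a = e.symm b := hinj (hO' ha.2) (hO' hb.2) hab
    exact e.symm.injOn ha.1.1 hb.1.1 h1
  · intro hJ
    obtain ⟨e', hze', he'U, he'f, _, _⟩ := exists_local_inverse (hA z hz) hJ
      ((isOpen_repDom hN y).mem_nhds hz)
    refine ⟨e.source ∩ e ⁻¹' e'.source, ?_, ?_⟩
    · refine (e.isOpen_inter_preimage e'.open_source).mem_nhds ⟨hsrc, ?_⟩
      rw [mem_preimage, e.right_inv hz.1]
      exact hze'
    · intro a ha b hb hab
      have h1 : e' (e a) = e' (e b) := by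
        rw [he'f, he'f]
        rw [rep_apply ha.1, rep_apply hb.1, hab]
      exact e.injOn ha.1 hb.1 (e'.injOn ha.2 hb.2 h1)

/-- at a locally injective point the map is locally onto -/
lemma nhds_le_map (hN : IsOpen N) (hΦ : ContMDiffOn 𝓘(ℂ, C2) 𝓘(ℂ, C2) 1 Φ N) {y : Y}
    (hy : y ∈ N) (h : LocInj Φ y) : 𝓝 (Φ y) ≤ map Φ (𝓝 y) := by
  have hz := mem_repDom hy
  have hA := analyticOnNhd_rep hN hΦ y
  set e := chartAt C2 y with he
  have hys : y ∈ e.source := mem_chart_source C2 y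
  have h' : LocInj Φ (e.symm (e y)) := by rwa [e.left_inv hys]
  have hJ := (locInj_iff hN hΦ hz).1 h'
  obtain ⟨e', hze', he'U, he'f, _, _⟩ := exists_local_inverse (hA _ hz) hJ
    ((isOpen_repDom hN y).mem_nhds hz)
  intro W hW
  rw [mem_map] at hW
  -- `e.symm` maps a neighbourhood into `Φ ⁻¹' W`
  have h1 : e.symm ⁻¹' (Φ ⁻¹' W) ∈ 𝓝 (e y) := by
    have hc : ContinuousAt e.symm (e y) := e.continuousAt_symm (e.map_source hys)
    refine hc.preimage_mem_nhds ?_
    rwa [e.left_inv hys]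
  have h2 : e' '' (e.symm ⁻¹' (Φ ⁻¹' W)) ∈ 𝓝 (e' (e y)) := by
    rw [← e'.map_nhds_eq hze']
    exact image_mem_map h1
  have h3 : e' (e y) = Φ y := by
    rw [he'f]
    exact rep_apply hys
  rw [h3] at h2
  filter_upwards [h2] with q hq
  obtain ⟨z, hz', rfl⟩ := hq
  rw [he'f]
  exact hz'

end Surface

/-! ### Degree one -/

section Degree

variable {Y : Type*} [TopologicalSpace Y] [T2Space Y] [ChartedSpace C2 Y]
  [IsManifold 𝓘(ℂ, C2) 1 Y]

/-- `Φ : M → B` is a holomorphic map with discrete fibres, proper over the connected open set `B` -/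
structure FiniteMap (M : Set Y) (Φ : Y → C2) (B : Set C2) : Prop where
  openM : IsOpen M
  openB : IsOpen B
  conn : IsPreconnected B
  hol : ContMDiffOn 𝓘(ℂ, C2) 𝓘(ℂ, C2) 1 Φ M
  maps : ∀ y ∈ M, Φ y ∈ B
  proper : ∀ K ⊆ B, IsCompact K → IsCompact {y | y ∈ M ∧ Φ y ∈ K}
  isolated : ∀ y ∈ M, ∀ᶠ z in 𝓝[≠] y, Φ z ≠ Φ y

variable {M : Set Y} {Φ : Y → C2} {B : Set C2}

/-- critical points -/
def crit (M : Set Y) (Φ : Y → C2) : Set Y := {y | y ∈ M ∧ ¬ LocInj Φ y}

lemma FiniteMap.jac_ne (H : FiniteMap M Φ B) (y : Y) :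
    ∀ z ∈ repDom M y, ¬ ∀ᶠ w in 𝓝 z, jacL (fderiv ℂ (rep Φ y) w) = 0 := by
  intro z hz hev
  have hA := analyticOnNhd_rep H.openM H.hol y
  obtain ⟨O, hO, hOo, hzO⟩ := _root_.eventually_nhds_iff.1
    (hev.and ((isOpen_repDom H.openM y).mem_nhds hz))
  obtain ⟨x, hx, hfreq⟩ := exists_nonisolated hOo hzO (fun w hw => hA w (hO w hw).2)
    (fun w hw => (hO w hw).1)
  have hxD := (hO x hx).2
  set e := chartAt C2 y with he
  apply hfreq
  have h1 := H.isolated (e.symm x) hxD.2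
  have hten : Tendsto e.symm (𝓝[≠] x) (𝓝[≠] (e.symm x)) := by
    refine tendsto_nhdsWithin_iff.2 ⟨?_, ?_⟩
    · exact (e.continuousAt_symm hxD.1).tendsto.mono_left nhdsWithin_le_nhds
    · filter_upwards [mem_nhdsWithin_of_mem_nhds (e.open_target.mem_nhds hxD.1),
        self_mem_nhdsWithin] with w hw hwx hcon
      exact hwx (e.symm.injOn hw hxD.1 hcon)
  filter_upwards [hten.eventually h1] with w hw hcon
  exact hw hcon

/-- the critical values are thin -/
lemma FiniteMap.thin_local (H : FiniteMap M Φ B) (y : Y) :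
    Thin (Φ '' (crit M Φ ∩ (chartAt C2 y).source)) := by
  have hA := analyticOnNhd_rep H.openM H.hol y
  have h1 : Thin {z | z ∈ repDom M y ∧ jacL (fderiv ℂ (rep Φ y) z) = 0} :=
    thin_zero (fun z hz => analyticAt_jac (hA z hz)) (H.jac_ne y)
  refine (h1.image (isOpen_repDom H.openM y) (fun z hz => hz.1) hA.differentiableOn).mono ?_
  rintro _ ⟨x, ⟨⟨hxM, hxc⟩, hxs⟩, rfl⟩
  have hxD : chartAt C2 y x ∈ repDom M y := by
    refine ⟨(chartAt C2 y).map_source hxs, ?_⟩
    rw [mem_preimage, (chartAt C2 y).left_inv hxs]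
    exact hxM
  refine ⟨chartAt C2 y x, ⟨hxD, ?_⟩, rep_apply hxs⟩
  by_contra hcon
  apply hxc
  have := (locInj_iff H.openM H.hol hxD).2 hcon
  rwa [(chartAt C2 y).left_inv hxs] at this

lemma FiniteMap.exists_compact_exhaustion (H : FiniteMap M Φ B) :
    ∃ K : ℕ → Set C2, (∀ n, IsCompact (K n)) ∧ (∀ n, K n ⊆ B) ∧ B ⊆ ⋃ n, interior (K n) := by
  classical
  have : ∀ q ∈ B, ∃ r > 0, closedBall q r ⊆ B := fun q hq =>
    Metric.nhds_basis_closedBall.mem_iff.1 (H.openB.mem_nhds hq)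
  choose! r hr hrB using this
  obtain ⟨t, htB, htc, hcov⟩ := TopologicalSpace.countable_cover_nhdsWithin (s := B)
    (f := fun q => ball q (r q))
    (fun q hq => mem_nhdsWithin_of_mem_nhds (ball_mem_nhds q (hr q hq)))
  rcases t.eq_empty_or_nonempty with h0 | hne
  · refine ⟨fun _ => ∅, fun _ => isCompact_empty, fun _ => empty_subset _, ?_⟩
    rw [h0] at hcov
    simpa using hcov
  · obtain ⟨f, hf⟩ := htc.exists_eq_range hne
    refine ⟨fun n => closedBall (f n) (r (f n)), fun n => isCompact_closedBall _ _,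
      fun n => hrB _ (htB (by rw [hf]; exact mem_range_self n)), ?_⟩
    intro q hq
    obtain ⟨x, hx, hqx⟩ := mem_iUnion₂.1 (hcov hq)
    rw [hf] at hx
    obtain ⟨n, rfl⟩ := hx
    exact mem_iUnion.2 ⟨n, ball_subset_interior_closedBall hqx⟩

lemma FiniteMap.thin (H : FiniteMap M Φ B) : Thin (Φ '' crit M Φ) := by
  classical
  obtain ⟨K, hKc, hKB, hKcov⟩ := H.exists_compact_exhaustion
  have h1 : ∀ n, Thin (Φ '' (crit M Φ ∩ {y | y ∈ M ∧ Φ y ∈ K n})) := by
    intro n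
    obtain ⟨t, ht⟩ := (H.proper (K n) (hKB n) (hKc n)).elim_nhds_subcover
      (fun y => (chartAt C2 y).source) (fun y _ => (chartAt C2 y).open_source.mem_nhds
        (mem_chart_source C2 y))
    refine (thin_biUnion (s := (t : Set Y)) (t.finite_toSet.countable)
      (T := fun y => Φ '' (crit M Φ ∩ (chartAt C2 y).source)) (fun y _ => H.thin_local y)).mono ?_
    rintro _ ⟨x, ⟨hxc, hxK⟩, rfl⟩
    obtain ⟨y, hy, hxy⟩ := mem_iUnion₂.1 (ht.2 hxK)
    exact mem_iUnion₂.2 ⟨y, hy, x, ⟨hxc, hxy⟩, rfl⟩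
  refine (thin_iUnion h1).mono ?_
  rintro _ ⟨x, hx, rfl⟩
  obtain ⟨n, hn⟩ := mem_iUnion.1 (hKcov (H.maps x hx.1))
  exact mem_iUnion.2 ⟨n, x, ⟨hx, hx.1, interior_subset hn⟩, rfl⟩

/-- images of relatively closed subsets are relatively closed -/
lemma FiniteMap.eventually_notMem (H : FiniteMap M Φ B) {C : Set Y} (hC : IsClosed C)
    {q : C2} (hq : q ∈ B) (hqC : ∀ y ∈ M, Φ y = q → y ∉ C) :
    ∀ᶠ q' in 𝓝 q, ∀ y ∈ M, Φ y = q' → y ∉ C := by
  obtain ⟨r, hr, hrB⟩ := Metric.nhds_basis_closedBall.mem_iff.1 (H.openB.mem_nhds hq)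
  have h1 : IsCompact ({y | y ∈ M ∧ Φ y ∈ closedBall q r} ∩ C) :=
    (H.proper _ hrB (isCompact_closedBall q r)).inter_right hC
  have h2 : IsCompact (Φ '' ({y | y ∈ M ∧ Φ y ∈ closedBall q r} ∩ C)) :=
    h1.image_of_continuousOn (H.hol.continuousOn.mono (fun y hy => hy.1.1))
  have h3 : q ∉ Φ '' ({y | y ∈ M ∧ Φ y ∈ closedBall q r} ∩ C) := by
    rintro ⟨y, ⟨⟨hyM, _⟩, hyC⟩, hyq⟩
    exact hqC y hyM hyq hyC
  filter_upwards [h2.isClosed.isOpen_compl.mem_nhds h3, closedBall_mem_nhds q hr] with q' h4 h5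
    y hyM hyq hyC
  exact h4 ⟨y, ⟨⟨hyM, by rw [hyq]; exact h5⟩, hyC⟩, hyq⟩

lemma FiniteMap.isOpen_diff (H : FiniteMap M Φ B) : IsOpen (B \ Φ '' crit M Φ) := by
  rw [isOpen_iff_mem_nhds]
  rintro q ⟨hqB, hqc⟩
  have h1 := H.eventually_notMem (C := {y | LocInj Φ y}ᶜ) (isOpen_locInj Φ).isClosed_compl hqB
    (fun y hyM hyq hyC => hqc ⟨y, ⟨hyM, hyC⟩, hyq⟩)
  filter_upwards [h1, H.openB.mem_nhds hqB] with q' h2 h3
  refine ⟨h3, ?_⟩
  rintro ⟨y, ⟨hyM, hyC⟩, hyq⟩
  exact h2 y hyM hyq hyC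

lemma FiniteMap.isPreconnected_diff (H : FiniteMap M Φ B) :
    IsPreconnected (B \ Φ '' crit M Φ) :=
  H.thin.isPreconnected_diff H.openB H.conn H.isOpen_diff

/-- locally injective points are dense -/
lemma FiniteMap.dense_locInj (H : FiniteMap M Φ B) {O : Set Y} (hO : IsOpen O) {y : Y}
    (hyM : y ∈ M) (hyO : y ∈ O) : ∃ y' ∈ O, y' ∈ M ∧ LocInj Φ y' := by
  set e := chartAt C2 y with he
  have hz := mem_repDom hyM
  have h1 := H.jac_ne y _ hz
  rw [not_eventually] at h1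
  have h2 : ∀ᶠ w in 𝓝 (e y), w ∈ repDom M y ∧ w ∈ e.symm ⁻¹' O := by
    refine inter_mem ((isOpen_repDom H.openM y).mem_nhds hz) ?_
    have hc : ContinuousAt e.symm (e y) :=
      e.continuousAt_symm (e.map_source (mem_chart_source C2 y))
    refine hc.preimage_mem_nhds ?_
    rw [e.left_inv (mem_chart_source C2 y)]
    exact hO.mem_nhds hyO
  obtain ⟨w, hw, hwD, hwO⟩ := (h1.and_eventually h2).exists
  exact ⟨e.symm w, hwO, hwD.2, (locInj_iff H.openM H.hol hwD).2 hw⟩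

/-- **open mapping theorem** for maps with discrete fibres -/
theorem FiniteMap.nhds_le_map (H : FiniteMap M Φ B) {y : Y} (hy : y ∈ M) :
    𝓝 (Φ y) ≤ map Φ (𝓝 y) := by
  classical
  intro W₀ hW₀
  rw [mem_map] at hW₀
  set q := Φ y with hq
  have hqB : q ∈ B := H.maps y hy
  -- a relatively compact neighbourhood
  have hiso : ∀ᶠ z in 𝓝 y, z ≠ y → Φ z ≠ Φ y := eventually_nhdsWithin_iff.1 (H.isolated y hy)
  obtain ⟨r₀, hr₀, hr₀B⟩ := Metric.nhds_basis_closedBall.mem_iff.1 (H.openB.mem_nhds hqB)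
  have hloc : LocallyCompactSpace Y := ChartedSpace.locallyCompactSpace C2 Y
  obtain ⟨K, hK, hKsub, hKc⟩ := local_compact_nhds (x := y)
    (n := {z | (z ≠ y → Φ z ≠ Φ y) ∧ z ∈ M ∧ z ∈ Φ ⁻¹' W₀})
    (hiso.and ((Filter.eventually_mem_set.2 (H.openM.mem_nhds hy)).and hW₀))
  obtain ⟨O, hOK, hOo, hyO⟩ := _root_.mem_nhds_iff.1 hK
  have hKM : K ⊆ M := fun z hz => (hKsub hz).2.1
  -- a ball avoiding the image of the boundary
  have hbd : IsCompact (Φ '' (K \ O)) :=
    (hKc.diff hOo).image_of_continuousOn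
      (H.hol.continuousOn.mono (fun z hz => hKM hz.1))
  have hqbd : q ∉ Φ '' (K \ O) := by
    rintro ⟨z, ⟨hzK, hzO⟩, hzq⟩
    have hzy : z ≠ y := by
      rintro rfl
      exact hzO hyO
    exact (hKsub hzK).1 hzy hzq
  obtain ⟨δ, hδ, hδ'⟩ := Metric.mem_nhds_iff.1
    (inter_mem (hbd.isClosed.isOpen_compl.mem_nhds hqbd) (H.openB.mem_nhds hqB))
  set W : Set C2 := ball q δ with hW
  have hKim : IsClosed (Φ '' K) := (hKc.image_of_continuousOn
    (H.hol.continuousOn.mono hKM)).isClosed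
  have hKO : Φ '' K ∩ W ⊆ Φ '' O := by
    rintro _ ⟨⟨z, hz, rfl⟩, hzW⟩
    by_contra hcon
    have hzO : z ∉ O := fun h => hcon ⟨z, h, rfl⟩
    exact (hδ' hzW).1 ⟨z, ⟨hz, hzO⟩, rfl⟩
  -- regular part of the ball
  set R : Set C2 := W \ Φ '' crit M Φ with hR
  have hRo : IsOpen R := by
    have : R = W ∩ (B \ Φ '' crit M Φ) := by
      ext x
      constructor
      · rintro ⟨h1, h2⟩; exact ⟨h1, (hδ' h1).2, h2⟩
      · rintro ⟨h1, _, h2⟩; exact ⟨h1, h2⟩
    rw [this]
    exact isOpen_ball.inter H.isOpen_diff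
  have hRc : IsPreconnected R := H.thin.isPreconnected_diff_convex (convex_ball q δ) hRo
  have hRsub : R ⊆ Φ '' O := by
    -- clopen argument
    have hopen : IsOpen (R ∩ Φ '' O) := by
      rw [isOpen_iff_mem_nhds]
      rintro _ ⟨hzR, z, hzO, rfl⟩
      have hzM : z ∈ M := hKM (hOK hzO)
      have hzl : LocInj Φ z := by
        by_contra hcon
        exact hzR.2 ⟨z, ⟨hzM, hcon⟩, rfl⟩
      have h1 := End849.nhds_le_map H.openM H.hol hzM hzl (image_mem_map (hOo.mem_nhds hzO))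
      exact inter_mem (hRo.mem_nhds hzR) h1
    have hopen' : IsOpen (R \ Φ '' K) := hRo.sdiff hKim
    by_contra hcon
    rw [not_subset] at hcon
    obtain ⟨x, hxR, hxO⟩ := hcon
    have hxK : x ∉ Φ '' K := fun h => hxO (hKO ⟨h, hxR.1⟩)
    -- a point of the image
    have hne : (R ∩ (R ∩ Φ '' O)).Nonempty := by
      have h1 : IsOpen (O ∩ (M ∩ Φ ⁻¹' W)) :=
        hOo.inter (H.hol.continuousOn.isOpen_inter_preimage H.openM isOpen_ball)
      obtain ⟨y', hy'O, hy'M, hy'l⟩ := H.dense_locInj h1 hy ⟨hyO, hy, mem_ball_self hδ⟩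
      have h2 : Φ '' (O ∩ (M ∩ Φ ⁻¹' W)) ∈ 𝓝 (Φ y') :=
        End849.nhds_le_map H.openM H.hol hy'M hy'l (image_mem_map (h1.mem_nhds hy'O))
      obtain ⟨O', hO', hO'o, hyO'⟩ := _root_.mem_nhds_iff.1 h2
      obtain ⟨w, hwO', hwc⟩ := H.thin.dense_compl.inter_open_nonempty O' hO'o ⟨_, hyO'⟩
      obtain ⟨z, ⟨hzO, _, hzW⟩, hzw⟩ := hO' hwO'
      have hwR : w ∈ R := ⟨by rw [← hzw]; exact hzW, hwc⟩
      exact ⟨w, hwR, hwR, z, hzO, hzw⟩
    obtain ⟨w, hwR, ⟨_, z, hzO, hzw⟩, _, hwK⟩ := hRc (R ∩ Φ '' O) (R \ Φ '' K) hopen hopen' (by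
      intro w hw
      by_cases h : w ∈ Φ '' K
      · exact Or.inl ⟨hw, hKO ⟨h, hw.1⟩⟩
      · exact Or.inr ⟨hw, h⟩) hne ⟨x, hxR, hxR, hxK⟩
    exact hwK ⟨z, hOK hzO, hzw⟩
  -- the whole ball
  have hWsub : W ⊆ Φ '' K := by
    intro x hx
    have h1 : x ∈ closure R := H.thin.subset_closure_diff isOpen_ball hx
    refine hKim.closure_subset (closure_mono ?_ h1)
    exact hRsub.trans (image_mono hOK)
  filter_upwards [ball_mem_nhds q hδ] with x hx
  obtain ⟨z, hz, rfl⟩ := hWsub hx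
  exact (hKsub hz).2.2

/-- **degree one**: if one value has a single preimage, at which the map is locally injective, then
the map is bijective. -/
theorem FiniteMap.injOn_of_degree_one (H : FiniteMap M Φ B) {y₀ : Y} (hy₀ : y₀ ∈ M)
    (hl : LocInj Φ y₀) (huniq : ∀ y ∈ M, Φ y = Φ y₀ → y = y₀) : InjOn Φ M ∧ B ⊆ Φ '' M := by
  classical
  set Z := Φ '' crit M Φ with hZ
  -- regular values with exactly one preimage
  set G : Set C2 := {q | q ∈ B \ Z ∧ ∃ y ∈ M, Φ y = q ∧ ∀ y' ∈ M, Φ y' = q → y' = y} with hG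
  set G' : Set C2 := {q | q ∈ B \ Z ∧ ¬ ∃ y ∈ M, Φ y = q ∧ ∀ y' ∈ M, Φ y' = q → y' = y} with hG'
  have hreg : ∀ y ∈ M, Φ y ∉ Z → LocInj Φ y := by
    intro y hy h
    by_contra hcon
    exact h ⟨y, ⟨hy, hcon⟩, rfl⟩
  have hGo : IsOpen G := by
    rw [isOpen_iff_mem_nhds]
    rintro q ⟨hqR, y, hyM, hyq, hyu⟩
    have hyl : LocInj Φ y := hreg y hyM (by rw [hyq]; exact hqR.2)
    obtain ⟨O₀, hO₀, hinj⟩ := hyl
    obtain ⟨O, hO, hOo, hyO⟩ := _root_.mem_nhds_iff.1 (inter_mem hO₀ (H.openM.mem_nhds hyM))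
    have h1 := H.eventually_notMem (C := Oᶜ) hOo.isClosed_compl hqR.1
      (fun y' hy'M hy'q hy'C => hy'C (by rw [hyu y' hy'M hy'q]; exact hyO))
    have h2 : Φ '' O ∈ 𝓝 q := by
      rw [← hyq]
      exact H.nhds_le_map hyM (image_mem_map (hOo.mem_nhds hyO))
    filter_upwards [h1, h2, H.isOpen_diff.mem_nhds hqR] with q' h3 h4 h5
    obtain ⟨z, hzO, hzq⟩ := h4
    refine ⟨h5, z, (hO hzO).2, hzq, fun y' hy'M hy'q => ?_⟩
    have hy'O : y' ∈ O := by
      by_contra hcon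
      exact h3 y' hy'M hy'q hcon
    exact hinj (hO hy'O).1 (hO hzO).1 (by rw [hy'q, hzq])
  have hG'o : IsOpen G' := by
    rw [isOpen_iff_mem_nhds]
    rintro q ⟨hqR, hq⟩
    by_cases hex : ∃ y ∈ M, Φ y = q
    · obtain ⟨y, hyM, hyq⟩ := hex
      have : ∃ y' ∈ M, Φ y' = q ∧ y' ≠ y := by
        by_contra hcon
        push Not at hcon
        exact hq ⟨y, hyM, hyq, hcon⟩
      obtain ⟨y', hy'M, hy'q, hne⟩ := this
      obtain ⟨O, O', hOo, hO'o, hyO, hy'O', hdisj⟩ := t2_separation hne.symm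
      have h1 : Φ '' (O ∩ M) ∈ 𝓝 q := by
        rw [← hyq]
        exact H.nhds_le_map hyM (image_mem_map ((hOo.inter H.openM).mem_nhds ⟨hyO, hyM⟩))
      have h2 : Φ '' (O' ∩ M) ∈ 𝓝 q := by
        rw [← hy'q]
        exact H.nhds_le_map hy'M (image_mem_map ((hO'o.inter H.openM).mem_nhds ⟨hy'O', hy'M⟩))
      filter_upwards [h1, h2, H.isOpen_diff.mem_nhds hqR] with q' h3 h4 h5
      refine ⟨h5, ?_⟩
      rintro ⟨w, hwM, hwq, hwu⟩
      obtain ⟨a, ⟨haO, haM⟩, haq⟩ := h3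
      obtain ⟨b, ⟨hbO', hbM⟩, hbq⟩ := h4
      have hab : a = b := by rw [hwu a haM haq, hwu b hbM hbq]
      rw [hab] at haO
      exact hdisj.le_bot ⟨haO, hbO'⟩
    · push Not at hex
      have h1 := H.eventually_notMem (C := univ) isClosed_univ hqR.1
        (fun y hyM hyq _ => hex y hyM hyq)
      filter_upwards [h1, H.isOpen_diff.mem_nhds hqR] with q' h3 h5
      refine ⟨h5, ?_⟩
      rintro ⟨w, hwM, hwq, _⟩
      exact h3 w hwM hwq (mem_univ w)
  have hq₀ : Φ y₀ ∈ B \ Z := by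
    refine ⟨H.maps y₀ hy₀, ?_⟩
    rintro ⟨y, ⟨hyM, hyc⟩, hyq⟩
    rw [huniq y hyM hyq] at hyc
    exact hyc hl
  have hall : B \ Z ⊆ G := by
    by_contra hcon
    rw [not_subset] at hcon
    obtain ⟨q, hq, hqG⟩ := hcon
    have hqG' : q ∈ G' := by
      by_contra h
      apply hqG
      by_contra h'
      apply h
      refine ⟨hq, fun hex => h' ⟨hq, hex⟩⟩
    obtain ⟨w, _, hwG, hwG'⟩ := H.isPreconnected_diff G G' hGo hG'o (by
      intro w hw
      by_cases h : ∃ y ∈ M, Φ y = w ∧ ∀ y' ∈ M, Φ y' = w → y' = y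
      · exact Or.inl ⟨hw, h⟩
      · exact Or.inr ⟨hw, h⟩)
      ⟨Φ y₀, hq₀, hq₀, y₀, hy₀, rfl, huniq⟩ ⟨q, hq, hqG'⟩
    exact hwG'.2 hwG.2
  constructor
  · intro y hyM y' hy'M he
    by_contra hne
    obtain ⟨O, O', hOo, hO'o, hyO, hy'O', hdisj⟩ := t2_separation hne
    have h1 : Φ '' (O ∩ M) ∈ 𝓝 (Φ y) :=
      H.nhds_le_map hyM (image_mem_map ((hOo.inter H.openM).mem_nhds ⟨hyO, hyM⟩))
    have h2 : Φ '' (O' ∩ M) ∈ 𝓝 (Φ y) := by
      rw [he]
      exact H.nhds_le_map hy'M (image_mem_map ((hO'o.inter H.openM).mem_nhds ⟨hy'O', hy'M⟩))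
    obtain ⟨W, hW, hWo, hyW⟩ := _root_.mem_nhds_iff.1
      (inter_mem (inter_mem h1 h2) (H.openB.mem_nhds (H.maps y hyM)))
    obtain ⟨q, hqW, hqZ⟩ := H.thin.dense_compl.inter_open_nonempty W hWo ⟨_, hyW⟩
    obtain ⟨⟨⟨a, ⟨haO, haM⟩, haq⟩, b, ⟨hbO', hbM⟩, hbq⟩, hqB⟩ := hW hqW
    obtain ⟨_, w, hwM, hwq, hwu⟩ := hall ⟨hqB, hqZ⟩
    have hab : a = b := by rw [hwu a haM haq, hwu b hbM hbq]
    rw [hab] at haO
    exact hdisj.le_bot ⟨haO, hbO'⟩
  · intro q hq
    by_contra hcon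
    have h1 := H.eventually_notMem (C := univ) isClosed_univ hq
      (fun y hyM hyq _ => hcon ⟨y, hyM, hyq⟩)
    obtain ⟨W, hW, hWo, hyW⟩ := _root_.mem_nhds_iff.1 (inter_mem h1 (H.openB.mem_nhds hq))
    obtain ⟨q', hqW, hqZ⟩ := H.thin.dense_compl.inter_open_nonempty W hWo ⟨_, hyW⟩
    obtain ⟨_, w, hwM, hwq, _⟩ := hall ⟨(hW hqW).2, hqZ⟩
    exact (hW hqW).1 w hwM hwq (mem_univ w)

/-- an injective holomorphic map from a surface to `ℂ²` has a holomorphic inverse -/
theorem contMDiffOn_inverse {M : Set Y} (hM : IsOpen M) {Φ : Y → C2}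
    (hΦ : ContMDiffOn 𝓘(ℂ, C2) 𝓘(ℂ, C2) 1 Φ M) (hinj : InjOn Φ M) {Ψ : C2 → Y} {B : Set C2}
    (hΨ : ∀ q ∈ B, Ψ q ∈ M ∧ Φ (Ψ q) = q) : ContMDiffOn 𝓘(ℂ, C2) 𝓘(ℂ, C2) 1 Ψ B := by
  intro q hq
  obtain ⟨hqM, hqΦ⟩ := hΨ q hq
  set y := Ψ q with hy
  have hyl : LocInj Φ y := ⟨M, hM.mem_nhds hqM, hinj⟩
  have hz := mem_repDom hqM
  have hA := analyticOnNhd_rep hM hΦ y
  set e := chartAt C2 y with he
  have hys : y ∈ e.source := mem_chart_source C2 y
  have hyl' : LocInj Φ (e.symm (e y)) := by rwa [e.left_inv hys]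
  have hJ := (locInj_iff hM hΦ hz).1 hyl'
  obtain ⟨e', hze', he'U, he'f, _, he'A⟩ := exists_local_inverse (hA _ hz) hJ
    ((isOpen_repDom hM y).mem_nhds hz)
  have hqe : e' (e y) = q := by
    rw [he'f, rep_apply hys, hqΦ]
  have hqt : q ∈ e'.target := by
    rw [← hqe]
    exact e'.map_source hze'
  have hes : e'.symm q = e y := by
    rw [← hqe]
    exact e'.left_inv hze'
  -- local formula
  have hform : ∀ q' ∈ e'.target ∩ B, Ψ q' = e.symm (e'.symm q') := by
    rintro q' ⟨hq't, hq'B⟩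
    obtain ⟨h1, h2⟩ := hΨ q' hq'B
    have h3 : e'.symm q' ∈ e'.source := e'.map_target hq't
    have h4 := he'U h3
    refine hinj h1 h4.2 ?_
    rw [h2]
    have h5 := e'.right_inv hq't
    rw [he'f] at h5
    exact h5.symm
  have h1 : ContMDiffAt 𝓘(ℂ, C2) 𝓘(ℂ, C2) 1 (fun q' => e.symm (e'.symm q')) q := by
    have h2 : ContMDiffAt 𝓘(ℂ, C2) 𝓘(ℂ, C2) 1 (e'.symm : C2 → C2) q :=
      ((he'A q hqt).contDiffAt).contMDiffAt
    have h3 : ContMDiffAt 𝓘(ℂ, C2) 𝓘(ℂ, C2) 1 (e.symm : C2 → Y) (e'.symm q) := by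
      rw [hes]
      exact (contMDiffOn_chart_symm (I := 𝓘(ℂ, C2)) (n := 1) (x := y)).contMDiffAt
        (e.open_target.mem_nhds (e.map_source hys))
    exact h3.comp q h2
  have h4 : ContMDiffWithinAt 𝓘(ℂ, C2) 𝓘(ℂ, C2) 1 (fun q' => e.symm (e'.symm q')) B q :=
    h1.contMDiffWithinAt
  refine h4.congr_of_eventuallyEq ?_ (hform q ⟨hqt, hq⟩)
  filter_upwards [mem_nhdsWithin_of_mem_nhds (e'.open_target.mem_nhds hqt), self_mem_nhdsWithin]
    with q' h5 h6
  exact hform q' ⟨h5, h6⟩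

/-! ### Punctured charts -/

/-- the zero set is nowhere dense if `Y` is connected -/
theorem zero_closure_of_connected [PreconnectedSpace Y] {N : Set Y} (hN : IsOpen N) {Φ : Y → C2}
    (hΦ : ContMDiffOn 𝓘(ℂ, C2) 𝓘(ℂ, C2) 1 Φ N) (hcl : IsClosed {y | y ∈ N ∧ Φ y = 0})
    (hne : ∃ y, ¬ (y ∈ N ∧ Φ y = 0)) :
    ∀ y ∈ N, Φ y = 0 → y ∈ closure {y | y ∈ N ∧ Φ y ≠ 0} := by
  set D : Set Y := {y | y ∈ N ∧ Φ y = 0} with hD
  have hclI : IsClosed (interior D) := by
    refine isClosed_of_closure_subset (fun p hp => ?_)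
    have hpD : p ∈ D := hcl.closure_subset (closure_mono interior_subset hp)
    have hz := mem_repDom hpD.1
    have hA := analyticOnNhd_rep hN hΦ p
    set e := chartAt C2 p with he
    have hps : p ∈ e.source := mem_chart_source C2 p
    obtain ⟨r, hr, hball⟩ := Metric.isOpen_iff.1 (isOpen_repDom hN p) _ hz
    -- the chart ball
    set V : Set Y := e.source ∩ e ⁻¹' ball (e p) r with hV
    have hVo : IsOpen V := e.isOpen_inter_preimage isOpen_ball
    have hpV : p ∈ V := ⟨hps, mem_ball_self hr⟩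
    obtain ⟨x, hxV, hxI⟩ := mem_closure_iff.1 hp V hVo hpV
    have hev : rep Φ p =ᶠ[𝓝 (e x)] 0 := by
      have h1 : e.target ∩ e.symm ⁻¹' (interior D) ∈ 𝓝 (e x) := by
        refine (e.isOpen_inter_preimage_symm isOpen_interior).mem_nhds ⟨e.map_source hxV.1, ?_⟩
        rw [mem_preimage, e.left_inv hxV.1]
        exact hxI
      filter_upwards [h1] with w hw
      exact (interior_subset hw.2 : _ ∈ D).2
    have hzero := (hA.mono hball).eqOn_zero_of_preconnected_of_eventuallyEq_zero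
      (convex_ball _ _).isPreconnected hxV.2 hev
    refine mem_interior.2 ⟨V, ?_, hVo, hpV⟩
    intro x' hx'
    have h2 := hzero hx'.2
    rw [rep_apply hx'.1] at h2
    have h3 := (hball hx'.2).2
    rw [mem_preimage, e.left_inv hx'.1] at h3
    exact ⟨h3, h2⟩
  have hempty : interior D = ∅ := by
    rcases isClopen_iff.1 ⟨hclI, isOpen_interior⟩ with h | h
    · exact h
    · exfalso
      obtain ⟨y, hy⟩ := hne
      apply hy
      exact (interior_subset (by rw [h]; exact mem_univ y) : y ∈ D)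
  intro y hyN hy0
  rw [mem_closure_iff_nhds]
  intro W hW
  by_contra hcon
  rw [not_nonempty_iff_eq_empty] at hcon
  have h1 : W ∩ N ⊆ D := by
    rintro x ⟨hxW, hxN⟩
    refine ⟨hxN, ?_⟩
    by_contra hx0
    have : x ∈ W ∩ {y | y ∈ N ∧ Φ y ≠ 0} := ⟨hxW, hxN, hx0⟩
    rw [hcon] at this
    exact this
  have h2 : y ∈ interior D := mem_interior_iff_mem_nhds.2
    (mem_of_superset (inter_mem hW (hN.mem_nhds hyN)) h1)
  rw [hempty] at h2
  exact h2

/-- the punctured ball is connected -/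
lemma isPreconnected_puncturedBall (ε : ℝ) : IsPreconnected {q : C2 | 0 < ‖q‖ ∧ ‖q‖ < ε} := by
  have h1 : {q : C2 | 0 < ‖q‖ ∧ ‖q‖ < ε} =
      (fun p : ℝ × C2 => p.1 • p.2) '' (Ioo 0 ε ×ˢ sphere (0 : C2) 1) := by
    ext v
    constructor
    · rintro ⟨h0, hr⟩
      refine ⟨(‖v‖, ‖v‖⁻¹ • v), ⟨⟨h0, hr⟩, ?_⟩, ?_⟩
      · simp [norm_smul, h0.ne']
      · simp [smul_smul, h0.ne']
    · rintro ⟨⟨a, w⟩, ⟨⟨ha0, har⟩, hw⟩, rfl⟩
      have hw' : ‖w‖ = 1 := by simpa using hw
      simp only [mem_ofPred_eq, norm_smul, hw', mul_one, Real.norm_eq_abs, abs_of_pos ha0]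
      exact ⟨ha0, har⟩
  rw [h1]
  exact (isPreconnected_Ioo.prod (Shell468.isPreconnected_sphere_C2 1)).image _ (by fun_prop)

/-- **END2**: a proper holomorphic map of degree one over the punctured ball gives a punctured
chart. -/
theorem exists_puncturedChart {N : Set Y} (hN : IsOpen N) {Φ : Y → C2} {ε : ℝ}
    (hol : ContMDiffOn 𝓘(ℂ, C2) 𝓘(ℂ, C2) 1 Φ N)
    (hcl : ∀ r < ε, IsClosed {y | y ∈ N ∧ ‖Φ y‖ ≤ r})
    (hcomp : ∀ a b : ℝ, 0 < a → b < ε → IsCompact {y | y ∈ N ∧ a ≤ ‖Φ y‖ ∧ ‖Φ y‖ ≤ b})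
    (hiso : ∀ y ∈ N, 0 < ‖Φ y‖ → ‖Φ y‖ < ε → ∀ᶠ z in 𝓝[≠] y, Φ z ≠ Φ y)
    {y₀ : Y} (hy₀ : y₀ ∈ N) (h0 : 0 < ‖Φ y₀‖) (h1 : ‖Φ y₀‖ < ε) (hl : LocInj Φ y₀)
    (huniq : ∀ y ∈ N, Φ y = Φ y₀ → y = y₀)
    (hzero : ∀ y ∈ N, Φ y = 0 → y ∈ closure {y | y ∈ N ∧ Φ y ≠ 0}) :
    ∃ Ψ : C2 → Y, Shell468.PuncturedChart {y | y ∈ N ∧ ‖Φ y‖ < ε} Φ Ψ ε := by
  classical
  set M : Set Y := {y | y ∈ N ∧ (0 < ‖Φ y‖ ∧ ‖Φ y‖ < ε)} with hM
  set B : Set C2 := {q | 0 < ‖q‖ ∧ ‖q‖ < ε} with hB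
  have hBo : IsOpen B :=
    (isOpen_lt continuous_const continuous_norm).inter (isOpen_lt continuous_norm continuous_const)
  have hcont := hol.continuousOn
  have hMeq : M = N ∩ Φ ⁻¹' B := Set.ext fun y => Iff.rfl
  have hMo : IsOpen M := by
    rw [hMeq]
    exact hcont.isOpen_inter_preimage hN hBo
  have hMN : M ⊆ N := fun y hy => hy.1
  have H : FiniteMap M Φ B :=
    { openM := hMo
      openB := hBo
      conn := isPreconnected_puncturedBall ε
      hol := hol.mono hMN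
      maps := fun y hy => hy.2
      proper := by
        intro K hK hKc
        rcases K.eq_empty_or_nonempty with hKe | hKn
        · rw [hKe]
          simp
        obtain ⟨p, hpK, hpmin⟩ := hKc.exists_isMinOn hKn continuous_norm.continuousOn
        obtain ⟨p', hp'K, hp'max⟩ := hKc.exists_isMaxOn hKn continuous_norm.continuousOn
        have h2 := hcomp ‖p‖ ‖p'‖ (hK hpK).1 (hK hp'K).2
        have h3 : {y | y ∈ M ∧ Φ y ∈ K} =
            {y | y ∈ N ∧ ‖p‖ ≤ ‖Φ y‖ ∧ ‖Φ y‖ ≤ ‖p'‖} ∩ Φ ⁻¹' K := by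
          ext y
          constructor
          · rintro ⟨h4, h5⟩
            exact ⟨⟨h4.1, hpmin h5, hp'max h5⟩, h5⟩
          · rintro ⟨h4, h5⟩
            exact ⟨⟨h4.1, hK h5⟩, h5⟩
        rw [h3]
        have h4 : IsClosed ({y | y ∈ N ∧ ‖p‖ ≤ ‖Φ y‖ ∧ ‖Φ y‖ ≤ ‖p'‖} ∩ Φ ⁻¹' K) :=
          (hcont.mono (fun y hy => hy.1)).preimage_isClosed_of_isClosed h2.isClosed hKc.isClosed
        have h5 := h2.inter_right h4
        rwa [← inter_assoc, inter_self] at h5
      isolated := fun y hy => hiso y hy.1 hy.2.1 hy.2.2 }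
  obtain ⟨hinj, hsurj⟩ := H.injOn_of_degree_one (y₀ := y₀) ⟨hy₀, h0, h1⟩ hl
    (fun y hy he => huniq y hy.1 he)
  have hex : ∀ q ∈ B, ∃ y, y ∈ M ∧ Φ y = q := fun q hq => hsurj hq
  have hne : Nonempty Y := ⟨y₀⟩
  choose! Ψ hΨM hΨ using hex
  refine ⟨Ψ, ?_, h0.trans h1, ?_, ?_, ?_, ?_, ?_, ?_⟩
  · exact hcont.isOpen_inter_preimage hN (isOpen_lt continuous_norm continuous_const)
  · exact hol.mono (fun y hy => hy.1)
  · intro r hr
    have : {y | y ∈ {y | y ∈ N ∧ ‖Φ y‖ < ε} ∧ ‖Φ y‖ ≤ r} = {y | y ∈ N ∧ ‖Φ y‖ ≤ r} := by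
      ext y
      constructor
      · rintro ⟨h2, h3⟩; exact ⟨h2.1, h3⟩
      · rintro ⟨h2, h3⟩; exact ⟨⟨h2, h3.trans_lt hr⟩, h3⟩
    rw [this]
    exact hcl r hr
  · intro a ha b hb hab
    exact hinj ⟨ha.1.1, norm_pos_iff.2 ha.2, ha.1.2⟩ ⟨hb.1.1, norm_pos_iff.2 hb.2, hb.1.2⟩ hab
  · intro q hq0 hq1
    have h2 := hΨM q ⟨hq0, hq1⟩
    exact ⟨⟨h2.1, h2.2.2⟩, hΨ q ⟨hq0, hq1⟩⟩
  · exact contMDiffOn_inverse hMo (hol.mono hMN) hinj (fun q hq => ⟨hΨM q hq, hΨ q hq⟩)
  · intro y hy hy0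
    have h2 := hzero y hy.1 hy0
    rw [mem_closure_iff_nhds] at h2 ⊢
    intro W hW
    have h3 : {y | y ∈ N ∧ ‖Φ y‖ < ε} ∈ 𝓝 y :=
      (hcont.isOpen_inter_preimage hN (isOpen_lt continuous_norm continuous_const)).mem_nhds hy
    obtain ⟨x, ⟨hxW, hxN⟩, _, hx0⟩ := h2 (W ∩ {y | y ∈ N ∧ ‖Φ y‖ < ε}) (inter_mem hW h3)
    exact ⟨x, hxW, hxN, hx0⟩

end Degree

end Crest.Agent.R275.End849
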