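import Crest.Agent.R275.HolY_631
import Crest.Agent.R275.Lau4A_473
import Crest.Agent.R275.Dv0_69

-- ▼ part R275/Lau4B_473
section

/-!
# R275 (helper473), LAU4, part B: the multipliers of holomorphic functions on `Y` are discrete

`Y` as in helper631's `Deck g h`.  The set `Spec g` of all `t` for which there is a nonzero
holomorphic `f` on `Y` with `f (g y) = t * f y` is closed and discrete in `ℂ ∖ {0}`.
-/

set_option autoImplicit false
set_option linter.unusedSectionVars false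

open Set Filter Topology Metric Crest.AlgGeometry.Surface
open scoped Manifold ContDiff BoundedContinuousFunction

noncomputable section

namespace Crest.Agent.R275.Lau473

open HolY631

variable {Y : Type*} [TopologicalSpace Y] [ChartedSpace C2 Y]

/-- bounded holomorphic functions on an open set -/
def HV (U : TopologicalSpace.Opens Y) : Submodule ℂ (U →ᵇ ℂ) where
  carrier := {f | Hol (f : U → ℂ)}
  zero_mem' := contMDiff_const
  add_mem' := fun {f f'} hf hf' => by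
    have h1 : Hol (f : U → ℂ) := hf
    have h2 : Hol (f' : U → ℂ) := hf'
    exact h1.add h2
  smul_mem' := fun c f hf => by
    have h1 : Hol (f : U → ℂ) := hf
    have h2 : ContMDiff 𝓘(ℂ) 𝓘(ℂ) 1 (fun z : ℂ => c * z) := by
      refine ContDiff.contMDiff ?_
      fun_prop
    exact h2.comp h1

theorem mem_HV {U : TopologicalSpace.Opens Y} {f : U →ᵇ ℂ} : f ∈ HV U ↔ Hol (f : U → ℂ) := Iff.rfl

theorem isClosed_HV [IsManifold 𝓘(ℂ, C2) 1 Y] (U : TopologicalSpace.Opens Y) :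
    IsClosed (HV U : Set (U →ᵇ ℂ)) := by
  refine isClosed_of_closure_subset (fun f hf => ?_)
  rw [mem_closure_iff_seq_limit] at hf
  obtain ⟨v, hv, hvf⟩ := hf
  obtain ⟨M, hM⟩ := hvf.norm.bddAbove_range
  have hule : ((Filter.hyperfilter ℕ : Ultrafilter ℕ) : Filter ℕ) ≤ atTop := by
    rw [← Nat.cofinite_eq_atTop]
    exact Filter.hyperfilter_le_cofinite
  obtain ⟨F, hF, hFt⟩ := montel (Filter.hyperfilter ℕ) (f := fun n => (v n : U → ℂ)) hv
    (fun y => ⟨univ, univ_mem, M, fun i z _ => ((v i).norm_coe_le_norm z).trans (hM ⟨i, rfl⟩)⟩)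
  have hpt : ∀ y, f y = F y := by
    intro y
    have h1 : Tendsto (fun n => v n y) (Filter.hyperfilter ℕ) (𝓝 (f y)) :=
      (((continuous_eval_const (F := _ →ᵇ ℂ) y).tendsto f).comp hvf).mono_left hule
    have h2 : Tendsto (fun n => v n y) (Filter.hyperfilter ℕ) (𝓝 (F y)) :=
      (tendstoLocallyUniformlyOn_univ.2 hFt).tendsto_at (mem_univ y)
    exact tendsto_nhds_unique h1 h2
  have h3 : (f : U → ℂ) = F := funext hpt
  change Hol (f : U → ℂ)
  rw [h3]
  exact hF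

instance [IsManifold 𝓘(ℂ, C2) 1 Y] (U : TopologicalSpace.Opens Y) : CompleteSpace (HV U) :=
  (isClosed_HV U).completeSpace_coe

/-- pull back of bounded continuous functions -/
def pull {S T : Type*} [TopologicalSpace S] [TopologicalSpace T] (φ : C(S, T)) :
    (T →ᵇ ℂ) →L[ℂ] (S →ᵇ ℂ) :=
  LinearMap.mkContinuous
    { toFun := fun f => f.compContinuous φ
      map_add' := fun _ _ => rfl
      map_smul' := fun _ _ => rfl } 1 (fun f => by
      rw [one_mul]
      refine (BoundedContinuousFunction.norm_le (norm_nonneg _)).2 (fun x => ?_)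
      exact f.norm_coe_le_norm (φ x))

@[simp] theorem pull_apply {S T : Type*} [TopologicalSpace S] [TopologicalSpace T] (φ : C(S, T))
    (f : T →ᵇ ℂ) (x : S) : pull φ f x = f (φ x) := rfl

variable {g : Y ≃ₜ Y} {h : Y → ℝ}

/-- the set of multipliers -/
def Spec (g : Y ≃ₜ Y) : Set ℂ :=
  {t | ∃ f : Y → ℂ, Hol f ∧ (∀ y, f (g y) = t * f y) ∧ ∃ y, f y ≠ 0}

theorem ne_zero_of_mem_Spec {t : ℂ} (ht : t ∈ Spec g) : t ≠ 0 := by
  obtain ⟨f, -, hf, y, hy⟩ := ht
  rintro rfl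
  apply hy
  have := hf (g.symm y)
  rwa [g.apply_symm_apply, zero_mul] at this

/-- open slabs -/
def slb (D : Deck g h) (a b : ℝ) : TopologicalSpace.Opens Y :=
  ⟨{y | a < h y ∧ h y < b}, (isOpen_lt continuous_const D.cont).inter
    (isOpen_lt D.cont continuous_const)⟩

theorem mem_slb {D : Deck g h} {a b : ℝ} {y : Y} : y ∈ slb D a b ↔ a < h y ∧ h y < b := Iff.rfl

/-- inclusion of the slab `(-1, 2)` in `(-2, 2)` -/
def jinc (D : Deck g h) : C(slb D (-1) 2, slb D (-2) 2) :=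
  ⟨fun y => ⟨y.1, by have := y.2.1; exact ⟨by linarith, y.2.2⟩⟩, by fun_prop⟩

/-- `g` maps the slab `(-1, 2)` to `(-2, 2)` -/
def jg (D : Deck g h) : C(slb D (-1) 2, slb D (-2) 2) :=
  ⟨fun y => ⟨g y.1, by
    have h1 := y.2.1
    have h2 := y.2.2
    have h3 := D.shift y.1
    exact ⟨by rw [h3]; linarith, by rw [h3]; linarith⟩⟩, by fun_prop⟩

/-- the shift operator -/
def GG (D : Deck g h) : HV (slb D (-2) 2) →L[ℂ] (slb D (-1) 2 →ᵇ ℂ) :=
  (pull (jg D)).comp (HV (slb D (-2) 2)).subtypeL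

/-- the restriction operator -/
def RR (D : Deck g h) : HV (slb D (-2) 2) →L[ℂ] (slb D (-1) 2 →ᵇ ℂ) :=
  (pull (jinc D)).comp (HV (slb D (-2) 2)).subtypeL



/-- the pencil -/
def TT (D : Deck g h) (t : ℂ) : HV (slb D (-2) 2) →L[ℂ] (slb D (-1) 2 →ᵇ ℂ) :=
  GG D - t • RR D

theorem TT_apply (D : Deck g h) (t : ℂ) (f : HV (slb D (-2) 2)) (y : slb D (-1) 2) :
    TT D t f y = f.1 (jg D y) - t * f.1 (jinc D y) := rfl

/-- the basic estimate -/
theorem basic_estimate (D : Deck g h) {t : ℂ} (ht : t ≠ 0) (f : HV (slb D (-2) 2)) {K : ℝ}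
    (hK0 : 0 ≤ K) (hK : ∀ y : slb D (-2) 2, -1 ≤ h y → h y ≤ 1 → ‖f.1 y‖ ≤ K) :
    ‖f‖ ≤ (1 + ‖t‖ + ‖t‖⁻¹) * (K + ‖TT D t f‖) := by
  have ht0 : 0 < ‖t‖ := norm_pos_iff.2 ht
  have hT := norm_nonneg (TT D t f)
  have hsum : 0 ≤ K + ‖TT D t f‖ := by positivity
  change ‖f.1‖ ≤ _
  refine (BoundedContinuousFunction.norm_le (by positivity)).2 (fun y => ?_)
  rcases lt_or_ge (h y) (-1) with h1 | h1
  · -- below
    have hz1 := D.shift_symm (y : Y)
    have hyb := y.2.1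
    set z : slb D (-1) 2 := ⟨g.symm y, by rw [mem_slb, hz1]; constructor <;> linarith⟩ with hz
    have hjg : jg D z = y := Subtype.ext (g.apply_symm_apply _)
    have h2 := TT_apply D t f z
    rw [hjg] at h2
    have h3 : ‖TT D t f z‖ ≤ ‖TT D t f‖ := BoundedContinuousFunction.norm_coe_le_norm _ _
    have h4 : ‖f.1 (jinc D z)‖ ≤ K := hK _ (by
      change -1 ≤ h (g.symm y); rw [hz1]; linarith) (by
      change h (g.symm y) ≤ 1; rw [hz1]; linarith)
    have h5 : f.1 y = TT D t f z + t * f.1 (jinc D z) := by rw [h2]; ring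
    rw [h5]
    calc ‖TT D t f z + t * f.1 (jinc D z)‖ ≤ ‖TT D t f z‖ + ‖t‖ * ‖f.1 (jinc D z)‖ := by
          refine (norm_add_le _ _).trans ?_
          rw [norm_mul]
      _ ≤ ‖TT D t f‖ + ‖t‖ * K := by gcongr
      _ ≤ (1 + ‖t‖ + ‖t‖⁻¹) * (K + ‖TT D t f‖) := by
          have : 0 ≤ ‖t‖⁻¹ * (K + ‖TT D t f‖) := by positivity
          nlinarith [mul_nonneg ht0.le hT]
  · rcases le_or_gt (h y) 1 with h2 | h2
    · refine (hK y h1 h2).trans ?_
      have h3 : 0 ≤ (‖t‖ + ‖t‖⁻¹) * (K + ‖TT D t f‖) := by positivity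
      nlinarith
    · -- above
      have hyb := y.2.2
      set z : slb D (-1) 2 := ⟨y, ⟨by linarith, hyb⟩⟩ with hz
      have hji : jinc D z = y := rfl
      have h3 := TT_apply D t f z
      rw [hji] at h3
      have h4 : ‖TT D t f z‖ ≤ ‖TT D t f‖ := BoundedContinuousFunction.norm_coe_le_norm _ _
      have hz1 := D.shift (y : Y)
      have h5 : ‖f.1 (jg D z)‖ ≤ K := hK _ (by
        change -1 ≤ h (g y); rw [hz1]; linarith) (by
        change h (g y) ≤ 1; rw [hz1]; linarith)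
      have h6 : f.1 y = t⁻¹ * (f.1 (jg D z) - TT D t f z) := by
        rw [h3]; field_simp; ring
      rw [h6, norm_mul, norm_inv]
      calc ‖t‖⁻¹ * ‖f.1 (jg D z) - TT D t f z‖ ≤ ‖t‖⁻¹ * (K + ‖TT D t f‖) := by
            refine mul_le_mul_of_nonneg_left ?_ (by positivity)
            exact (norm_sub_le _ _).trans (add_le_add h5 h4)
        _ ≤ (1 + ‖t‖ + ‖t‖⁻¹) * (K + ‖TT D t f‖) := by
            have : 0 ≤ (1 + ‖t‖) * (K + ‖TT D t f‖) := by positivity
            nlinarith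

/-- the closed slab inside the open one is compact -/
theorem isCompact_inner (D : Deck g h) :
    IsCompact {y : slb D (-2) 2 | -1 ≤ h y ∧ h y ≤ 1} := by
  rw [Subtype.isCompact_iff]
  have : (Subtype.val '' {y : slb D (-2) 2 | -1 ≤ h y ∧ h y ≤ 1}) = {y : Y | -1 ≤ h y ∧ h y ≤ 1} := by
    ext y
    constructor
    · rintro ⟨z, hz, rfl⟩
      exact hz
    · intro hy
      exact ⟨⟨y, ⟨by linarith [hy.1], by linarith [hy.2]⟩⟩, hy, rfl⟩
  rw [this]
  exact D.slab (-1) 1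

/-- the pencil is proper on bounded sets -/
theorem bproper_TT [IsManifold 𝓘(ℂ, C2) 1 Y] (D : Deck g h) {t : ℂ} (ht : t ≠ 0) :
    BProper (TT D t) := by
  classical
  intro u R w hR hw
  -- truncated family
  set φ : HV (slb D (-2) 2) → slb D (-2) 2 → ℂ := fun i => if ‖i‖ ≤ R then (i.1 : _ → ℂ) else 0
    with hφ
  have hφ1 : ∀ i, Hol (φ i) := by
    intro i
    simp only [hφ]
    split_ifs
    · exact i.2
    · exact contMDiff_const
  have hφ2 : ∀ i y, ‖φ i y‖ ≤ |R| := by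
    intro i y
    simp only [hφ]
    split_ifs with hi
    · exact ((i.1.norm_coe_le_norm y).trans hi).trans (le_abs_self R)
    · simp
  obtain ⟨F, hF, hFt⟩ := montel u hφ1 (fun y => ⟨univ, univ_mem, |R|, fun i z _ => hφ2 i z⟩)
  have hmem : ∀ᶠ i in (u : Filter (HV (slb D (-2) 2))), ‖i‖ ≤ R := by
    filter_upwards [hR] with i hi
    exact mem_closedBall_zero_iff.1 hi
  have hφe : ∀ᶠ i in (u : Filter (HV (slb D (-2) 2))), φ i = (i.1 : _ → ℂ) := by
    filter_upwards [hmem] with i hi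
    simp only [hφ]
    rw [if_pos hi]
  have hpt : ∀ y, Tendsto (fun i : HV (slb D (-2) 2) => i.1 y) u (𝓝 (F y)) := by
    intro y
    have h1 : Tendsto (fun i => φ i y) u (𝓝 (F y)) :=
      (tendstoLocallyUniformlyOn_univ.2 hFt).tendsto_at (mem_univ y)
    refine h1.congr' ?_
    filter_upwards [hφe] with i hi
    rw [hi]
  have hFb : ∀ y, ‖F y‖ ≤ |R| := by
    intro y
    have h1 : Tendsto (fun i => φ i y) u (𝓝 (F y)) :=
      (tendstoLocallyUniformlyOn_univ.2 hFt).tendsto_at (mem_univ y)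
    exact le_of_tendsto h1.norm (Eventually.of_forall (fun i => hφ2 i y))
  let F' : slb D (-2) 2 →ᵇ ℂ := BoundedContinuousFunction.ofNormedAddCommGroup F
    hF.continuous |R| hFb
  have hF'c : (F' : slb D (-2) 2 → ℂ) = F := rfl
  have hF' : F' ∈ HV (slb D (-2) 2) := by
    rw [mem_HV, hF'c]
    exact hF
  refine ⟨⟨F', hF'⟩, ?_⟩
  have hTF : TT D t ⟨F', hF'⟩ = w := by
    ext y
    have h1 : Tendsto (fun i => TT D t i y) u (𝓝 (w y)) :=
      ((continuous_eval_const (F := _ →ᵇ ℂ) y).tendsto w).comp hw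
    have h2 : Tendsto (fun i => TT D t i y) u (𝓝 (TT D t ⟨F', hF'⟩ y)) := by
      simp_rw [TT_apply]
      exact (hpt _).sub ((hpt _).const_mul t)
    exact tendsto_nhds_unique h2 h1
  have hC : 0 < 1 + ‖t‖ + ‖t‖⁻¹ := by positivity
  have hconv : Tendsto (id : HV (slb D (-2) 2) → _) u (𝓝 ⟨F', hF'⟩) := by
    rw [Metric.tendsto_nhds]
    intro ε hε
    set δ : ℝ := ε / (3 * (1 + ‖t‖ + ‖t‖⁻¹)) with hδ
    have hδ0 : 0 < δ := by positivity
    have h1 : TendstoUniformlyOn φ F u {y : slb D (-2) 2 | -1 ≤ h y ∧ h y ≤ 1} :=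
      (tendstoLocallyUniformlyOn_iff_tendstoUniformlyOn_of_compact (isCompact_inner D)).1
        ((tendstoLocallyUniformlyOn_univ.2 hFt).mono (subset_univ _))
    have h2 := Metric.tendstoUniformlyOn_iff.1 h1 δ hδ0
    have h3 : ∀ᶠ i in (u : Filter (HV (slb D (-2) 2))), ‖TT D t i - w‖ < δ := by
      have := Metric.tendsto_nhds.1 hw δ hδ0
      simpa [dist_eq_norm] using this
    filter_upwards [h2, h3, hφe] with i hi1 hi2 hi3
    rw [dist_eq_norm]
    have h4 := basic_estimate D ht (i - ⟨F', hF'⟩) hδ0.le (fun y hy1 hy2 => by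
      have h5 := hi1 y ⟨hy1, hy2⟩
      rw [hi3, dist_eq_norm, norm_sub_rev] at h5
      exact h5.le)
    rw [map_sub, hTF] at h4
    calc ‖id i - ⟨F', hF'⟩‖ ≤ (1 + ‖t‖ + ‖t‖⁻¹) * (δ + ‖TT D t i - w‖) := h4
      _ < (1 + ‖t‖ + ‖t‖⁻¹) * (3 * δ) := by
          refine mul_lt_mul_of_pos_left ?_ hC
          linarith
      _ = ε := by rw [hδ]; field_simp
  exact hconv

end Crest.Agent.R275.Lau473
end
end

-- ▼ part R275/Lau4C_473
section

/-!
# R275 (helper473), LAU4, part C: discreteness of the multipliers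
-/

set_option autoImplicit false
set_option linter.unusedSectionVars false

open Set Filter Topology Metric Crest.AlgGeometry.Surface
open scoped Manifold ContDiff BoundedContinuousFunction

noncomputable section

namespace Crest.Agent.R275.Lau473

open HolY631

variable {Y : Type*} [TopologicalSpace Y] [ChartedSpace C2 Y] {g : Y ≃ₜ Y} {h : Y → ℝ}

theorem hol_zpow (D : Deck g h) (n : ℤ) :
    ContMDiff 𝓘(ℂ, C2) 𝓘(ℂ, C2) 1 ((g ^ n : Y ≃ₜ Y) : Y → Y) := by
  induction n using Int.induction_on with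
  | zero =>
    have : ((g ^ (0 : ℤ) : Y ≃ₜ Y) : Y → Y) = id := by
      funext y; simp
    rw [this]
    exact contMDiff_id
  | succ n ih =>
    have : ((g ^ ((n : ℤ) + 1) : Y ≃ₜ Y) : Y → Y) = (g ^ (n : ℤ) : Y ≃ₜ Y) ∘ g := by
      funext y
      rw [zpow_add_one, Homeomorph.mul_apply]
      rfl
    rw [this]
    exact ih.comp D.hol
  | pred n ih =>
    have : ((g ^ (-(n : ℤ) - 1) : Y ≃ₜ Y) : Y → Y) = (g ^ (-(n : ℤ)) : Y ≃ₜ Y) ∘ g.symm := by
      funext y
      rw [zpow_sub_one, Homeomorph.mul_apply]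
      rfl
    rw [this]
    exact ih.comp D.hol_symm

/-- the restriction of a multiplicative function to the slab -/
theorem exists_slab_of_mem_Spec (D : Deck g h) {t : ℂ} (ht : t ∈ Spec g) :
    ∃ x : HV (slb D (-2) 2), x ≠ 0 ∧ GG D x = t • RR D x := by
  have ht0 := ne_zero_of_mem_Spec ht
  obtain ⟨f, hf, hfg, y₁, hy₁⟩ := ht
  have hcont : Continuous f := hf.continuous
  obtain ⟨C, hC⟩ := (D.slab (-2) 2).exists_bound_of_continuousOn hcont.continuousOn
  let F : slb D (-2) 2 →ᵇ ℂ := BoundedContinuousFunction.ofNormedAddCommGroup (fun y => f y)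
    (hcont.comp continuous_subtype_val) C (fun y => hC y ⟨y.2.1.le, y.2.2.le⟩)
  have hF : F ∈ HV (slb D (-2) 2) := by
    rw [mem_HV]
    have h1 : ContMDiff 𝓘(ℂ, C2) 𝓘(ℂ, C2) 1 (Subtype.val : slb D (-2) 2 → Y) :=
      contMDiff_subtype_val
    exact hf.comp h1
  refine ⟨⟨F, hF⟩, ?_, ?_⟩
  · intro h0
    obtain ⟨n, hn⟩ := D.exists_zpow_mem y₁
    have h1 : F ⟨(g ^ n) y₁, ⟨by linarith [hn.1], by linarith [hn.2]⟩⟩ = 0 := by
      have h2 : F = 0 := congrArg Subtype.val h0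
      rw [h2]
      rfl
    have h2 : f ((g ^ n) y₁) = 0 := h1
    rw [zpow_apply ht0 hfg] at h2
    exact mul_ne_zero (zpow_ne_zero _ ht0) hy₁ h2
  · ext y
    exact hfg y.1

/-- extension of a solution on the slab to `Y` -/
theorem mem_Spec_of_slab [IsManifold 𝓘(ℂ, C2) 1 Y] (D : Deck g h) {t : ℂ} (ht : t ≠ 0)
    {x : HV (slb D (-2) 2)} (hx : x ≠ 0) (hxt : GG D x = t • RR D x) : t ∈ Spec g := by
  classical
  -- extension by zero
  set X : Y → ℂ := fun y => if hy : y ∈ slb D (-2) 2 then x.1 ⟨y, hy⟩ else 0 with hX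
  have hXval : ∀ (y : Y) (hy : y ∈ slb D (-2) 2), X y = x.1 ⟨y, hy⟩ := by
    intro y hy
    simp only [hX]
    rw [dif_pos hy]
  have hXhol : ∀ y ∈ slb D (-2) 2, ContMDiffAt 𝓘(ℂ, C2) 𝓘(ℂ) 1 X y := by
    intro y hy
    have h1 : Hol (x.1 : slb D (-2) 2 → ℂ) := x.2
    have h2 : (x.1 : slb D (-2) 2 → ℂ) = fun z : slb D (-2) 2 => X z := by
      funext z
      rw [hXval z z.2]
    rw [h2] at h1
    exact (contMDiffAt_subtype_iff (x := ⟨y, hy⟩)).1 (h1 ⟨y, hy⟩)
  have hXg : ∀ y, -1 < h y → h y < 2 → X (g y) = t * X y := by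
    intro y h1 h2
    have h3 : GG D x ⟨y, ⟨h1, h2⟩⟩ = (t • RR D x) ⟨y, ⟨h1, h2⟩⟩ := by rw [hxt]
    have hy : y ∈ slb D (-2) 2 := ⟨by linarith, h2⟩
    have hgy : g y ∈ slb D (-2) 2 := by
      rw [mem_slb, D.shift]
      constructor <;> linarith
    rw [hXval _ hy, hXval _ hgy]
    exact h3
  set F : Y → ℂ := fun y => t ^ (-⌊h y⌋) * X ((g ^ ⌊h y⌋) y) with hF
  -- `F` can be computed with the neighbouring exponent
  have hsh : ∀ (n : ℤ) (y : Y), h ((g ^ n) y) = h y - n := fun n y => D.shift_zpow n y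
  have hstep : ∀ (n : ℤ) (y : Y), -1 < h y - n → h y - n < 2 →
      t ^ (-(n + 1)) * X ((g ^ (n + 1)) y) = t ^ (-n) * X ((g ^ n) y) := by
    intro n y h1 h2
    have h3 : (g ^ (n + 1)) y = g ((g ^ n) y) := by
      rw [add_comm, zpow_add, zpow_one, Homeomorph.mul_apply]
    rw [h3, hXg _ (by rw [hsh]; exact h1) (by rw [hsh]; exact h2), neg_add, zpow_add₀ ht,
      zpow_neg_one]
    field_simp
  have hFeq : ∀ (n : ℤ) (y : Y), -2 < h y - n → h y - n < 2 → F y = t ^ (-n) * X ((g ^ n) y) := by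
    intro n y h1 h2
    have hfl := Int.floor_le (h y)
    have hlt := Int.lt_floor_add_one (h y)
    have h3 : (⌊h y⌋ : ℝ) - n < 2 := by linarith
    have h4 : (-3 : ℝ) < ⌊h y⌋ - n := by linarith
    have h3' : ⌊h y⌋ - n < 2 := by exact_mod_cast h3
    have h4' : -3 < ⌊h y⌋ - n := by exact_mod_cast h4
    have hcases : ⌊h y⌋ = n + 1 ∨ ⌊h y⌋ = n ∨ n = ⌊h y⌋ + 1 ∨ n = ⌊h y⌋ + 1 + 1 := by omega
    change t ^ (-⌊h y⌋) * X ((g ^ ⌊h y⌋) y) = t ^ (-n) * X ((g ^ n) y)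
    rcases hcases with h5 | h5 | h5 | h5
    · rw [h5] at hfl hlt ⊢
      push_cast at hfl hlt
      exact hstep n y (by linarith) (by linarith)
    · rw [h5]
    · rw [h5]
      exact (hstep _ y (by linarith) (by linarith)).symm
    · rw [h5]
      rw [hstep (⌊h y⌋ + 1) y (by push_cast; rw [h5] at h1; push_cast at h1; linarith)
        (by push_cast; linarith)]
      exact (hstep _ y (by linarith) (by linarith)).symm
  refine ⟨F, ?_, ?_, ?_⟩
  · -- holomorphic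
    intro y₀
    set n := ⌊h y₀⌋ with hn
    have hfl := Int.floor_le (h y₀)
    have hlt := Int.lt_floor_add_one (h y₀)
    have hnhd : ∀ᶠ y in 𝓝 y₀, F y = t ^ (-n) * X ((g ^ n) y) := by
      have hopen : IsOpen {y | -2 < h y - n ∧ h y - n < 2} :=
        (isOpen_lt continuous_const (D.cont.sub continuous_const)).inter
          (isOpen_lt (D.cont.sub continuous_const) continuous_const)
      filter_upwards [hopen.mem_nhds (⟨by linarith, by linarith⟩ : y₀ ∈ {y | -2 < h y - n ∧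
        h y - n < 2})] with y hy
      exact hFeq n y hy.1 hy.2
    have h1 : ContMDiffAt 𝓘(ℂ, C2) 𝓘(ℂ) 1 X ((g ^ n) y₀) := by
      refine hXhol _ ?_
      rw [mem_slb, hsh]
      constructor <;> linarith
    have h2 : ContMDiffAt 𝓘(ℂ, C2) 𝓘(ℂ) 1 (fun y => X ((g ^ n) y)) y₀ :=
      h1.comp y₀ (hol_zpow D n y₀)
    have h3 : ContMDiff 𝓘(ℂ) 𝓘(ℂ) 1 (fun z : ℂ => t ^ (-n) * z) := by
      refine ContDiff.contMDiff ?_
      fun_prop
    have h4 : ContMDiffAt 𝓘(ℂ, C2) 𝓘(ℂ) 1 (fun y => t ^ (-n) * X ((g ^ n) y)) y₀ :=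
      (h3 _).comp y₀ h2
    exact h4.congr_of_eventuallyEq hnhd
  · intro y
    have hfl := Int.floor_le (h y)
    have hlt := Int.lt_floor_add_one (h y)
    have h1 : F y = t ^ (-⌊h y⌋) * X ((g ^ ⌊h y⌋) y) := rfl
    have h2 : F (g y) = t ^ (-(⌊h y⌋ - 1)) * X ((g ^ (⌊h y⌋ - 1)) (g y)) := by
      refine hFeq _ _ ?_ ?_ <;> rw [D.shift] <;> push_cast <;> linarith
    have h3 : (g ^ (⌊h y⌋ - 1)) (g y) = (g ^ ⌊h y⌋) y := by
      rw [← Homeomorph.mul_apply, ← zpow_add_one, sub_add_cancel]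
    rw [h2, h1, h3]
    have h4 : t ^ (-(⌊h y⌋ - 1)) = t * t ^ (-⌊h y⌋) := by
      rw [neg_sub, sub_eq_add_neg, zpow_add₀ ht, zpow_one]
    rw [h4]
    ring
  · by_contra hcon
    push Not at hcon
    refine hx (Subtype.ext ?_)
    ext y
    have h1 : F y = x.1 y := by
      rw [hFeq 0 y (by have := y.2.1; push_cast; linarith) (by have := y.2.2; push_cast; linarith)]
      simp only [neg_zero, zpow_zero, one_mul]
      have : ((1 : Y ≃ₜ Y) : Y → Y) (y : Y) = y := rfl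
      rw [this, hXval _ y.2]
    rw [← h1, hcon]
    rfl

/-- **Openness of accumulation points.** -/
theorem spec_of_frequently [IsManifold 𝓘(ℂ, C2) 1 Y] (D : Deck g h) {t₀ : ℂ} (ht₀ : t₀ ≠ 0)
    (hf : ∃ᶠ t in 𝓝[≠] t₀, t ∈ Spec g) : ∀ᶠ t in 𝓝 t₀, t ∈ Spec g := by
  have hA := bproper_TT D ht₀
  obtain ⟨ε, hε, hpen⟩ := hA.pencil (RR D) (by
    intro ε hε
    have h1 : ∀ᶠ t in 𝓝[≠] t₀, dist t t₀ < ε ∧ t ≠ t₀ := by
      refine eventually_nhdsWithin_iff.2 ?_
      filter_upwards [ball_mem_nhds t₀ hε] with t ht hne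
      exact ⟨ht, hne⟩
    obtain ⟨t, ht, htd, htne⟩ := (hf.and_eventually h1).exists
    obtain ⟨x, hx, hxt⟩ := exists_slab_of_mem_Spec D ht
    refine ⟨t - t₀, sub_ne_zero.2 htne, by rwa [dist_eq_norm] at htd, x, hx, ?_⟩
    change GG D x - t₀ • RR D x = (t - t₀) • RR D x
    rw [hxt, sub_smul])
  filter_upwards [ball_mem_nhds t₀ hε, isOpen_ne.mem_nhds ht₀] with t ht htne
  rw [mem_ball, dist_eq_norm] at ht
  obtain ⟨x, hx, hxt⟩ := hpen (t - t₀) ht
  refine mem_Spec_of_slab D htne hx ?_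
  change GG D x - t₀ • RR D x = (t - t₀) • RR D x at hxt
  rw [sub_smul, sub_left_inj] at hxt
  exact hxt

/-- The alternative: either every `t ≠ 0` is a multiplier or the multipliers are
discrete in `ℂ ∖ {0}`. -/
theorem spec_alternative [IsManifold 𝓘(ℂ, C2) 1 Y] (D : Deck g h)
    (h1 : ∃ t₁ : ℂ, t₁ ≠ 0 ∧ ¬ ∃ᶠ t in 𝓝[≠] t₁, t ∈ Spec g) (t₀ : ℂ) (ht₀ : t₀ ≠ 0) :
    ∀ᶠ t in 𝓝[≠] t₀, t ∉ Spec g := by
  obtain ⟨t₁, ht₁, hn₁⟩ := h1
  rw [← not_frequently]
  set E : Set ℂ := {t | ∃ᶠ s in 𝓝[≠] t, s ∈ Spec g} with hE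
  intro ht
  have hconn : IsPreconnected ({0}ᶜ : Set ℂ) :=
    (isConnected_compl_singleton_of_one_lt_rank (by
      rw [Complex.rank_real_complex]; norm_num) 0).isPreconnected
  -- `E` is open in `ℂ ∖ 0`, its complement too
  set U : Set ℂ := {t | t ≠ 0 ∧ t ∈ E} with hU
  set V : Set ℂ := {t | t ≠ 0 ∧ t ∉ E} with hV
  have hUo : IsOpen U := by
    rw [isOpen_iff_mem_nhds]
    rintro t ⟨ht0, htE⟩
    have h2 := spec_of_frequently D ht0 htE
    filter_upwards [h2.eventually_nhds, isOpen_ne.mem_nhds ht0] with s hs hs0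
    refine ⟨hs0, ?_⟩
    exact (hs.filter_mono nhdsWithin_le_nhds).frequently
  have hVo : IsOpen V := by
    rw [isOpen_iff_mem_nhds]
    rintro t ⟨ht0, htE⟩
    have h2 : ∀ᶠ s in 𝓝[≠] t, s ∉ Spec g := by
      rw [← not_frequently]
      exact htE
    have h3 : ∀ᶠ s in 𝓝[≠] t, ∀ᶠ r in 𝓝[≠] s, r ∉ Spec g := by
      have h4 : ∀ᶠ s in 𝓝[≠] t, ∀ᶠ r in 𝓝 s, r ∉ Spec g := by
        rw [eventually_nhdsWithin_iff] at h2
        rw [eventually_nhdsWithin_iff]
        filter_upwards [h2.eventually_nhds] with s hs hst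
        filter_upwards [hs, isOpen_ne.mem_nhds hst] with r hr hrt
        exact hr hrt
      exact h4.mono (fun s hs => hs.filter_mono nhdsWithin_le_nhds)
    rw [eventually_nhdsWithin_iff] at h3
    filter_upwards [h3, isOpen_ne.mem_nhds ht0] with s hs hs0
    refine ⟨hs0, ?_⟩
    rcases eq_or_ne s t with rfl | hne
    · exact htE
    · intro hsE
      exact hsE (hs hne)
  obtain ⟨z, hz0, hzU, hzV⟩ := hconn U V hUo hVo (by
    intro z hz
    by_cases hzE : z ∈ E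
    · exact Or.inl ⟨hz, hzE⟩
    · exact Or.inr ⟨hz, hzE⟩) ⟨t₀, ht₀, ht₀, ht⟩ ⟨t₁, ht₁, ht₁, hn₁⟩
  exact hzV.2 hzU.2

/-- **LAU4.** The multipliers of holomorphic functions on `Y` are closed and discrete in
`ℂ ∖ {0}`. -/
theorem spec_discrete [IsManifold 𝓘(ℂ, C2) 1 Y] [ConnectedSpace Y] (D : Deck g h)
    {t₀ : ℂ} (ht₀ : t₀ ≠ 0) : ∀ᶠ t in 𝓝[≠] t₀, t ∉ Spec g := by
  refine spec_alternative D ⟨1, one_ne_zero, ?_⟩ t₀ ht₀
  rw [not_frequently]
  obtain ⟨δ, hδ, hiso⟩ := isolated_one D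
  have hcont : Tendsto (fun t : ℂ => ‖t‖) (𝓝 1) (𝓝 1) := by
    have := (continuous_norm (E := ℂ)).tendsto 1
    rwa [norm_one] at this
  have h1 : ∀ᶠ t in 𝓝 (1 : ℂ), Real.exp (-δ) ≤ ‖t‖ ∧ ‖t‖ ≤ Real.exp δ := by
    have h2 : Real.exp (-δ) < 1 := by
      rw [Real.exp_lt_one_iff]; linarith
    have h3 : 1 < Real.exp δ := by
      rw [Real.one_lt_exp_iff]; exact hδ
    filter_upwards [hcont.eventually (lt_mem_nhds h2), hcont.eventually (gt_mem_nhds h3)]
      with t h4 h5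
    exact ⟨h4.le, h5.le⟩
  rw [eventually_nhdsWithin_iff]
  filter_upwards [h1] with t ht htne hS
  obtain ⟨f, hf, hfg, hy⟩ := hS
  exact htne (hiso t f hf hfg hy ht.1 ht.2).1

/-- only finitely many multipliers in a compact annulus -/
theorem spec_finite_annulus [IsManifold 𝓘(ℂ, C2) 1 Y] [ConnectedSpace Y] (D : Deck g h)
    {a b : ℝ} (ha : 0 < a) : {t | t ∈ Spec g ∧ a ≤ ‖t‖ ∧ ‖t‖ ≤ b}.Finite := by
  by_contra hinf
  have hK : IsCompact {t : ℂ | a ≤ ‖t‖ ∧ ‖t‖ ≤ b} := by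
    refine (isCompact_closedBall (0 : ℂ) b).of_isClosed_subset ?_ ?_
    · exact (isClosed_le continuous_const continuous_norm).inter
        (isClosed_le continuous_norm continuous_const)
    · intro t ht
      simpa using ht.2
  obtain ⟨t₀, ht₀, hacc⟩ := (Set.Infinite.exists_accPt_of_subset_isCompact hinf hK
    (fun t ht => ht.2))
  have ht₀0 : t₀ ≠ 0 := by
    rintro rfl
    rw [mem_ofPred_eq, norm_zero] at ht₀
    linarith [ht₀.1]
  have h1 := spec_discrete D ht₀0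
  rw [accPt_iff_frequently_nhdsNE] at hacc
  obtain ⟨t, ht1, ht2⟩ := (hacc.and_eventually h1).exists
  exact ht2 ht1.1

/-- only countably many multipliers -/
theorem spec_countable [IsManifold 𝓘(ℂ, C2) 1 Y] [ConnectedSpace Y] (D : Deck g h) :
    (Spec g).Countable := by
  have h1 : Spec g ⊆ ⋃ n : ℕ, {t | t ∈ Spec g ∧ 1 / ((n : ℝ) + 1) ≤ ‖t‖ ∧ ‖t‖ ≤ n} := by
    intro t ht
    have h0 : 0 < ‖t‖ := norm_pos_iff.2 (ne_zero_of_mem_Spec ht)
    obtain ⟨n, hn⟩ := exists_nat_gt (max ‖t‖ (1 / ‖t‖))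
    refine mem_iUnion.2 ⟨n, ht, ?_, (le_max_left _ _).trans hn.le⟩
    have h2 : 1 / ‖t‖ < (n : ℝ) + 1 := by linarith [le_max_right ‖t‖ (1 / ‖t‖)]
    rw [div_le_iff₀ (by positivity)]
    rw [div_lt_iff₀ h0] at h2
    linarith
  refine Set.Countable.mono h1 (countable_iUnion (fun n => ?_))
  exact (spec_finite_annulus D (by positivity)).countable


end Crest.Agent.R275.Lau473
end
end

-- ▼ part R275/Lau4D_473

/-!
# R275 (helper473), LAU4, part D: the semigroup of multipliers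
-/

set_option autoImplicit false
set_option linter.unusedSectionVars false

open Set Filter Topology Metric Crest.AlgGeometry.Surface
open scoped Manifold ContDiff

noncomputable section

namespace Crest.Agent.R275.Lau473

open HolY631

variable {Y : Type*} [TopologicalSpace Y] [ChartedSpace C2 Y] {g : Y ≃ₜ Y} {h : Y → ℝ}








/-- a multiplier of modulus one is `1` -/
theorem eq_one_of_norm_eq_one [IsManifold 𝓘(ℂ, C2) 1 Y] [ConnectedSpace Y] (D : Deck g h)
    {t : ℂ} (ht : t ∈ Spec g) (h1 : ‖t‖ = 1) : t = 1 := by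
  obtain ⟨f, hf, hfg, y, hy⟩ := ht
  obtain ⟨c, hc⟩ := const_of_norm_invariant D hf (fun y => by rw [hfg, norm_mul, h1, one_mul])
  have h2 := hfg y
  rw [hc, hc] at h2
  rw [hc] at hy
  exact mul_right_cancel₀ hy (by rw [one_mul]; exact h2.symm)





end Crest.Agent.R275.Lau473
end
namespace Crest.Agent.R275.Lau473.Hol
end Crest.Agent.R275.Lau473.Hol
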