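import Mathlib.Topology.Separation.Regular
import Mathlib.Analysis.SpecialFunctions.Complex.Log
import Mathlib.Analysis.SpecialFunctions.Complex.LogDeriv

/-!
# R275, leaf TRL (helper595): gluing of logarithms, topological part

`glue_log`: a nowhere zero function with a continuous logarithm near a closed set `S` and near a
compact set `C`, `S ∩ C` at most one point, has a continuous logarithm near `S ∪ C` which agrees
with the given one near `S`.  `logs_chain`: iteration along `C 0, C 1, ..`.
-/

set_option autoImplicit false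
set_option linter.unusedSectionVars false

open Set Filter Topology

namespace Crest.Agent.R275.Trl595

variable {M : Type*} [TopologicalSpace M]

/-- `ℓ` is a continuous logarithm of `u` on `N` -/
def IsLog (N : Set M) (u ℓ : M → ℂ) : Prop :=
  ContinuousOn ℓ N ∧ ∀ x ∈ N, Complex.exp (ℓ x) = u x

theorem IsLog.mono {N N' : Set M} {u ℓ : M → ℂ} (h : IsLog N u ℓ) (hN : N' ⊆ N) :
    IsLog N' u ℓ := ⟨h.1.mono hN, fun x hx => h.2 x (hN hx)⟩

theorem IsLog.add {N : Set M} {u v ℓ ℓ' : M → ℂ} (h : IsLog N u ℓ) (h' : IsLog N v ℓ') :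
    IsLog N (fun x => u x * v x) (fun x => ℓ x + ℓ' x) :=
  ⟨h.1.add h'.1, fun x hx => by simp only [Complex.exp_add, h.2 x hx, h'.2 x hx]⟩

theorem IsLog.neg {N : Set M} {u ℓ : M → ℂ} (h : IsLog N u ℓ) :
    IsLog N (fun x => (u x)⁻¹) (fun x => -ℓ x) :=
  ⟨h.1.neg, fun x hx => by simp only [Complex.exp_neg, h.2 x hx]⟩



/-- the chain `S ∪ C 0 ∪ .. ∪ C (q-1)` -/
def chain (S : Set M) (C : ℕ → Set M) (q : ℕ) : Set M := S ∪ ⋃ i ∈ Finset.range q, C i

@[simp] theorem chain_zero (S : Set M) (C : ℕ → Set M) : chain S C 0 = S := by simp [chain]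

theorem chain_succ (S : Set M) (C : ℕ → Set M) (q : ℕ) :
    chain S C (q + 1) = chain S C q ∪ C q := by
  simp only [chain, Finset.range_add_one, Finset.set_biUnion_insert]
  ext x
  simp only [mem_union]
  tauto

theorem isClosed_chain [T2Space M] {S : Set M} {C : ℕ → Set M} (hS : IsClosed S)
    (hC : ∀ i, IsCompact (C i)) (q : ℕ) : IsClosed (chain S C q) := by
  induction q with
  | zero => simpa using hS
  | succ q ih => rw [chain_succ]; exact ih.union (hC q).isClosed

theorem chain_mono (S : Set M) (C : ℕ → Set M) {q r : ℕ} (h : q ≤ r) :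
    chain S C q ⊆ chain S C r := by
  induction h with
  | refl => exact Subset.rfl
  | step _ ih => rw [chain_succ]; exact ih.trans subset_union_left


end Crest.Agent.R275.Trl595
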