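import Crest.Agent.R275.Core_144
import Crest.Agent.R275.TrlTop_595
import Crest.Agent.R275.Fm2_96
import Crest.Agent.R275.Fm_96
import Crest.Agent.R275.Tr5B_468
import Crest.Agent.R275.QN2b_734

-- ▼ part R275/Root_595
section

/-!
# R275, leaf ROOT (helper595)

`CS L N t`      : `t` is a continuous section of `L : LB A` over `N`.
`IsRoot c T N t`: `t ^ c = T` over `N`.
`glue_root`     : two `c`-th roots of the nowhere zero `T`, near a closed set `S` and near a compact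
                  set `C`, `S ∩ C` at most one point, give a root near `S ∪ C` which is equal to the
                  given one near `S`.
`root_near`     : near a compact `C` a root exists if `T = κ σ^c` on `C` for a section `σ`.
`root_chain`    : iteration along `C 0, C 1, ..`.
`root_isHS`     : a continuous root of a holomorphic section is holomorphic.
-/

set_option autoImplicit false
set_option linter.unusedSectionVars false

open Set Filter Topology

namespace Crest.Agent.R275.Root595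

open Geo Core144 Trl595

variable {n : ℕ} {M : Type} [TopologicalSpace M] {A : Atl n M}

/-- `t` is a continuous section of `L` over `N` -/
structure CS (L : LB A) (N : Set M) (t : A.ι → M → ℂ) : Prop where
  cont : ∀ i, ContinuousOn (t i) (N ∩ (A.e i).source)
  off : ∀ i, ∀ x ∉ (A.e i).source, t i x = 0
  tr : ∀ i j, ∀ x ∈ (A.e i).source ∩ (A.e j).source, x ∈ N → t i x = L.g i j x * t j x

/-- `t ^ c = T` over `N` -/
def IsRoot (c : ℕ) (T : A.ι → M → ℂ) (N : Set M) (t : A.ι → M → ℂ) : Prop :=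
  ∀ i, ∀ x ∈ (A.e i).source, x ∈ N → t i x ^ c = T i x

variable {L : LB A} {c : ℕ} {T t t' : A.ι → M → ℂ} {N N' : Set M}

theorem CS.mono (h : CS L N t) (hN : N' ⊆ N) : CS L N' t :=
  ⟨fun i => (h.cont i).mono (inter_subset_inter_left _ hN), h.off,
    fun i j x hx hxN => h.tr i j x hx (hN hxN)⟩

theorem IsRoot.mono (h : IsRoot c T N t) (hN : N' ⊆ N) : IsRoot c T N' t :=
  fun i x hx hxN => h i x hx (hN hxN)

theorem _root_.Crest.Agent.R275.Core144.IsHS.cs (h : IsHS L N t) (hN : IsOpen N) : CS L N t := by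
  refine ⟨fun i x hx => ?_, h.off, h.tr⟩
  have h1 := (h.hol i).diffAt hN hx.2 hx.1
  have h2 : ContinuousAt (fun y => t i ((A.e i).symm (A.e i y))) x :=
    ContinuousAt.comp (f := fun y => A.e i y) (g := fun z => t i ((A.e i).symm z))
      h1.continuousAt ((A.e i).continuousAt hx.2)
  refine (h2.congr ?_).continuousWithinAt
  filter_upwards [(A.e i).open_source.mem_nhds hx.2] with y hy
  rw [(A.e i).left_inv hy]

/-- a function which is continuous at `p` and satisfies `f ^ c = 1` near `p` is constant near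
`p` -/
theorem eventually_const {f : M → ℂ} {p : M} (hc : 0 < c) (hf : ContinuousAt f p)
    (h1 : ∀ᶠ x in 𝓝 p, f x ^ c = 1) : ∀ᶠ x in 𝓝 p, f x = f p := by
  have hfin : ({z : ℂ | z ^ c = 1} \ {f p}).Finite := by
    refine Set.Finite.subset (Polynomial.nthRootsFinset c (1 : ℂ)).finite_toSet fun z hz => ?_
    rw [Finset.mem_coe, Polynomial.mem_nthRootsFinset hc]
    exact hz.1
  have hop : ({z : ℂ | z ^ c = 1} \ {f p})ᶜ ∈ 𝓝 (f p) :=
    hfin.isClosed.isOpen_compl.mem_nhds (by simp)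
  filter_upwards [hf hop, h1] with x hx hx1
  by_contra hne
  exact hx ⟨hx1, hne⟩

/-- two roots differ by a constant near a point -/
theorem root_ratio (hc : 0 < c) {N₁ N₂ : Set M} (h1o : IsOpen N₁) (h2o : IsOpen N₂)
    (hT : ∀ i, ∀ x ∈ (A.e i).source, x ∈ N₁ → T i x ≠ 0) {p : M} (hp1 : p ∈ N₁) (hp2 : p ∈ N₂)
    (ht : CS L N₁ t) (htr : IsRoot c T N₁ t) (ht' : CS L N₂ t') (htr' : IsRoot c T N₂ t') :
    ∃ ζ : ℂ, ζ ^ c = 1 ∧ ∃ B, IsOpen B ∧ p ∈ B ∧ B ⊆ N₁ ∩ N₂ ∧ ∀ x ∈ B, ∀ i, t i x = ζ * t' i x := by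
  obtain ⟨k, hk⟩ := A.cover p
  set U : Set M := N₁ ∩ N₂ ∩ (A.e k).source with hU
  have hUo : IsOpen U := (h1o.inter h2o).inter (A.e k).open_source
  have hpU : p ∈ U := ⟨⟨hp1, hp2⟩, hk⟩
  have hne : ∀ x ∈ U, t' k x ≠ 0 := by
    intro x hx h0
    have := htr' k x hx.2 hx.1.2
    rw [h0, zero_pow hc.ne'] at this
    exact hT k x hx.2 hx.1.1 this.symm
  have hpow : ∀ x ∈ U, (t k x / t' k x) ^ c = 1 := by
    intro x hx
    rw [div_pow, htr k x hx.2 hx.1.1, htr' k x hx.2 hx.1.2, div_self (hT k x hx.2 hx.1.1)]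
  have hcont : ContinuousAt (fun x => t k x / t' k x) p := by
    have h1 : ContinuousAt (t k) p :=
      ((ht.cont k).mono (fun x hx => ⟨hx.1.1, hx.2⟩)).continuousAt (hUo.mem_nhds hpU)
    have h2 : ContinuousAt (t' k) p :=
      ((ht'.cont k).mono (fun x hx => ⟨hx.1.2, hx.2⟩)).continuousAt (hUo.mem_nhds hpU)
    exact h1.div h2 (hne p hpU)
  have hev := eventually_const hc hcont (by
    filter_upwards [hUo.mem_nhds hpU] with x hx using hpow x hx)
  obtain ⟨B, hBs, hBo, hpB⟩ := mem_nhds_iff.1 (hev.and (hUo.mem_nhds hpU))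
  refine ⟨t k p / t' k p, hpow p hpU, B, hBo, hpB, fun x hx => (hBs hx).2.1, fun x hx i => ?_⟩
  obtain ⟨hx1, hx2⟩ := hBs hx
  by_cases hi : x ∈ (A.e i).source
  · rw [ht.tr i k x ⟨hi, hx2.2⟩ hx2.1.1, ht'.tr i k x ⟨hi, hx2.2⟩ hx2.1.2, ← hx1]
    have := hne x hx2
    field_simp
  · rw [ht.off i x hi, ht'.off i x hi, mul_zero]

/-- **gluing of roots** -/
theorem glue_root [RegularSpace M] (hc : 0 < c) {S C : Set M} {p : M} (hS : IsClosed S)
    (hC : IsCompact C) (hp : S ∩ C ⊆ {p}) {N₁ N₂ : Set M} (h1o : IsOpen N₁) (h2o : IsOpen N₂)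
    (h1 : S ⊆ N₁) (h2 : C ⊆ N₂) (hT : ∀ i, ∀ x ∈ (A.e i).source, x ∈ N₁ → T i x ≠ 0)
    (ht : CS L N₁ t) (htr : IsRoot c T N₁ t) (ht' : CS L N₂ t') (htr' : IsRoot c T N₂ t') :
    ∃ (N : Set M) (τ : A.ι → M → ℂ), IsOpen N ∧ S ∪ C ⊆ N ∧ N ⊆ N₁ ∪ N₂ ∧ CS L N τ ∧
      IsRoot c T N τ ∧ ∃ N', IsOpen N' ∧ S ⊆ N' ∧ N' ⊆ N₁ ∧ ∀ i, EqOn (τ i) (t i) N' := by
  classical
  have hB : ∃ (B : Set M) (ζ : ℂ), IsOpen B ∧ S ∩ C ⊆ B ∧ B ⊆ N₁ ∩ N₂ ∧ ζ ^ c = 1 ∧
      ∀ x ∈ B, ∀ i, t i x = ζ * t' i x := by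
    by_cases hpm : p ∈ S ∩ C
    · obtain ⟨ζ, hζ, B, hBo, hpB, hBN, hB⟩ :=
        root_ratio hc h1o h2o hT (h1 hpm.1) (h2 hpm.2) ht htr ht' htr'
      exact ⟨B, ζ, hBo, fun x hx => by rw [mem_singleton_iff.1 (hp hx)]; exact hpB, hBN, hζ, hB⟩
    · refine ⟨∅, 1, isOpen_empty, fun x hx => ?_, empty_subset _, one_pow _, by simp⟩
      exact hpm (by rw [← mem_singleton_iff.1 (hp hx)]; exact hx)
  obtain ⟨B, ζ, hBo, hBp, hBN, hζ, hB⟩ := hB
  have hK : IsCompact (C \ B) := hC.diff hBo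
  have hF : IsClosed (S \ B) := hS.sdiff hBo
  have hd : Disjoint (C \ B) (S \ B) := by
    rw [Set.disjoint_left]
    rintro x ⟨hx1, hx2⟩ ⟨hx3, -⟩
    exact hx2 (hBp ⟨hx3, hx1⟩)
  obtain ⟨V, W, hVo, hWo, hKV, hFW, hVW⟩ := SeparatedNhds.of_isCompact_isClosed hK hF hd
  let A1 : Set M := (W ∩ N₁) ∪ B
  let A2 : Set M := V ∩ N₂
  have hA1o : IsOpen A1 := (hWo.inter h1o).union hBo
  have hA2o : IsOpen A2 := hVo.inter h2o
  let τ : A.ι → M → ℂ := fun i x => if x ∈ A1 then t i x else ζ * t' i x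
  have e1 : ∀ i, EqOn (τ i) (t i) A1 := fun i x hx => if_pos hx
  have e2 : ∀ i, EqOn (τ i) (fun x => ζ * t' i x) A2 := by
    intro i x hx
    by_cases h : x ∈ A1
    · have : τ i x = t i x := if_pos h
      rw [this]
      rcases h with h | h
      · exact absurd h.1 (fun hW => Set.disjoint_left.1 hVW hx.1 hW)
      · exact hB x h i
    · exact if_neg h
  have hA1N : A1 ⊆ N₁ := union_subset inter_subset_right (hBN.trans inter_subset_left)
  have hA2N : A2 ⊆ N₂ := inter_subset_right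
  refine ⟨A1 ∪ A2, τ, hA1o.union hA2o, ?_, union_subset_union hA1N hA2N, ⟨?_, ?_, ?_⟩, ?_,
    A1, hA1o, ?_, hA1N, e1⟩
  · rintro x (hx | hx)
    · left
      by_cases hxB : x ∈ B
      · exact Or.inr hxB
      · exact Or.inl ⟨hFW ⟨hx, hxB⟩, h1 hx⟩
    · by_cases hxB : x ∈ B
      · exact Or.inl (Or.inr hxB)
      · exact Or.inr ⟨hKV ⟨hx, hxB⟩, h2 hx⟩
  · intro i
    rw [union_inter_distrib_right]
    apply ContinuousOn.union_of_isOpen _ _ (hA1o.inter (A.e i).open_source)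
      (hA2o.inter (A.e i).open_source)
    · exact ((ht.cont i).mono (inter_subset_inter_left _ hA1N)).congr
        (fun x hx => e1 i hx.1)
    · exact (continuousOn_const.mul ((ht'.cont i).mono (inter_subset_inter_left _ hA2N))).congr
        (fun x hx => e2 i hx.1)
  · intro i x hx
    simp only [τ, ht.off i x hx, ht'.off i x hx, mul_zero, ite_self]
  · rintro i j x hx (hxN | hxN)
    · rw [e1 i hxN, e1 j hxN, ht.tr i j x hx (hA1N hxN)]
    · rw [e2 i hxN, e2 j hxN]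
      simp only
      rw [ht'.tr i j x hx (hA2N hxN)]
      ring
  · rintro i x hx (hxN | hxN)
    · rw [e1 i hxN]
      exact htr i x hx (hA1N hxN)
    · rw [e2 i hxN]
      simp only
      rw [mul_pow, hζ, one_mul]
      exact htr' i x hx (hA2N hxN)
  · intro x hx
    by_cases hxB : x ∈ B
    · exact Or.inr hxB
    · exact Or.inl ⟨hFW ⟨hx, hxB⟩, h1 hx⟩

/-- **roots along a chain** -/
theorem root_chain [T2Space M] [RegularSpace M] (hc : 0 < c) {S : Set M} {C : ℕ → Set M} {Q : ℕ}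
    (hS : IsClosed S) (hC : ∀ i, IsCompact (C i)) (p : ℕ → M)
    (hp : ∀ q < Q, chain S C q ∩ C q ⊆ {p q}) (hT : ∀ i, ∀ x ∈ (A.e i).source, x ∈ N → T i x ≠ 0)
    {N₀ : Set M} {t₀ : A.ι → M → ℂ} (h0o : IsOpen N₀) (h0 : S ⊆ N₀) (h0N : N₀ ⊆ N)
    (ht₀ : CS L N₀ t₀) (htr₀ : IsRoot c T N₀ t₀)
    (hq : ∀ q < Q, ∃ (W : Set M) (t : A.ι → M → ℂ), IsOpen W ∧ C q ⊆ W ∧ W ⊆ N ∧ CS L W t ∧
      IsRoot c T W t) :
    ∃ (N₁ : Set M) (t : A.ι → M → ℂ), IsOpen N₁ ∧ chain S C Q ⊆ N₁ ∧ N₁ ⊆ N ∧ CS L N₁ t ∧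
      IsRoot c T N₁ t ∧ ∃ N', IsOpen N' ∧ S ⊆ N' ∧ N' ⊆ N₀ ∧ ∀ i, EqOn (t i) (t₀ i) N' := by
  induction Q with
  | zero =>
    exact ⟨N₀, t₀, h0o, by simpa using h0, h0N, ht₀, htr₀, N₀, h0o, h0, Subset.rfl,
      fun i x _ => rfl⟩
  | succ Q ih =>
    obtain ⟨N₁, t, h1o, h1, h1N, ht, htr, N', hN'o, hN', hN'0, he⟩ :=
      ih (fun q hq' => hp q (by omega)) (fun q hq' => hq q (by omega))
    obtain ⟨W, t', hWo, hW, hWN, ht', htr'⟩ := hq Q (by omega)
    obtain ⟨N₂, τ, h2o, h2, h2N, hτ, hτr, N₃, h3o, h3, h3N, he3⟩ :=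
      glue_root hc (isClosed_chain hS hC Q) (hC Q) (hp Q (by omega)) h1o hWo h1 hW
        (fun i x hx hxN => hT i x hx (h1N hxN)) ht htr ht' htr'
    refine ⟨N₂, τ, h2o, by rw [chain_succ]; exact h2, h2N.trans (union_subset h1N hWN), hτ, hτr,
      N' ∩ N₃, hN'o.inter h3o,
      subset_inter hN' ((chain_mono S C (Nat.zero_le Q)).trans h3 |> fun h => by simpa using h),
      inter_subset_left.trans hN'0, fun i x hx => ?_⟩
    rw [he3 i hx.2, he i hx.1]

/-- near a compact set `C` on which `T = κ σ ^ c` there is a root of `T` -/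
theorem root_near (hc : 0 < c) {C W : Set M} (hWo : IsOpen W) (hW : C ⊆ W)
    (hTc : CS (L ^ c) W T) {σ : A.ι → M → ℂ} (hσ : CS L W σ) {κ : ℂ} (hκ : κ ≠ 0)
    (hσ0 : ∀ i, ∀ x ∈ (A.e i).source, x ∈ C → σ i x ≠ 0)
    (hσT : ∀ i, ∀ x ∈ (A.e i).source, x ∈ C → T i x = κ * σ i x ^ c) :
    ∃ (W' : Set M) (t : A.ι → M → ℂ), IsOpen W' ∧ C ⊆ W' ∧ W' ⊆ W ∧ CS L W' t ∧
      IsRoot c T W' t := by
  classical
  have hpow : ∀ i j x, (L ^ c).g i j x = L.g i j x ^ c := by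
    intro i j x
    induction c with
    | zero => simp
    | succ c ih =>
      rcases Nat.eq_zero_or_pos c with h0 | h0
      · subst h0; simp
      · have hgen : ∀ m : ℕ, (L ^ m).g i j x = L.g i j x ^ m := by
          intro m
          induction m with
          | zero => simp
          | succ m ihm => rw [pow_succ, LB.mul_g, ihm, pow_succ]
        exact hgen (c + 1)
  choose k hk using A.cover
  -- the quotient `u = T / (κ σ ^ c)`
  let u : M → ℂ := fun x => T (k x) x / (κ * σ (k x) x ^ c)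
  have hu : ∀ i, ∀ x ∈ (A.e i).source, x ∈ W → u x = T i x / (κ * σ i x ^ c) := by
    intro i x hi hx
    simp only [u]
    rw [hTc.tr (k x) i x ⟨hk x, hi⟩ hx, hσ.tr (k x) i x ⟨hk x, hi⟩ hx, hpow, mul_pow]
    have hg : L.g (k x) i x ^ c ≠ 0 := pow_ne_zero _ (L.ne_zero _ _ _)
    rw [show κ * (L.g (k x) i x ^ c * σ i x ^ c) = L.g (k x) i x ^ c * (κ * σ i x ^ c) by ring,
      mul_div_mul_left _ _ hg]
  -- the neighbourhood on which `u` is defined and in the slit plane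
  have key : ∀ p ∈ C, ∃ B, IsOpen B ∧ p ∈ B ∧ B ⊆ W ∧ (∀ x ∈ B, u x ∈ Complex.slitPlane) ∧
      (∀ i, ∀ x ∈ (A.e i).source, x ∈ B → σ i x ≠ 0) ∧ ContinuousOn u B := by
    intro p hp
    set i := k p with hi
    have hpi : p ∈ W ∩ (A.e i).source := ⟨hW hp, hk p⟩
    have ho : IsOpen (W ∩ (A.e i).source) := hWo.inter (A.e i).open_source
    have h1 : ContinuousAt (T i) p := (hTc.cont i).continuousAt (ho.mem_nhds hpi)
    have h2 : ContinuousAt (σ i) p := (hσ.cont i).continuousAt (ho.mem_nhds hpi)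
    have h3 : κ * σ i p ^ c ≠ 0 := mul_ne_zero hκ (pow_ne_zero _ (hσ0 i p (hk p) hp))
    have h4 : ContinuousAt (fun x => T i x / (κ * σ i x ^ c)) p :=
      h1.div (continuousAt_const.mul (h2.pow c)) h3
    have h5 : ∀ᶠ x in 𝓝 p, T i x / (κ * σ i x ^ c) ∈ Complex.slitPlane := by
      refine h4.eventually (Complex.isOpen_slitPlane.mem_nhds ?_)
      simp only
      rw [hσT i p (hk p) hp, div_self h3]
      exact Complex.one_mem_slitPlane
    have h6 : ∀ᶠ x in 𝓝 p, σ i x ≠ 0 := h2.eventually_ne (hσ0 i p (hk p) hp)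
    obtain ⟨B, hBs, hBo, hpB⟩ := mem_nhds_iff.1 ((h5.and h6).and (ho.mem_nhds hpi))
    refine ⟨B, hBo, hpB, fun x hx => (hBs hx).2.1, fun x hx => ?_, fun j x hj hx => ?_, ?_⟩
    · rw [hu i x (hBs hx).2.2 (hBs hx).2.1]
      exact (hBs hx).1.1
    · have h7 := hσ.tr i j x ⟨(hBs hx).2.2, hj⟩ (hBs hx).2.1
      intro h0
      rw [h0, mul_zero] at h7
      exact (hBs hx).1.2 h7
    · have h8 : ContinuousOn (fun x => T i x / (κ * σ i x ^ c)) B := by
        refine ((hTc.cont i).mono fun x hx => (hBs hx).2).div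
          (continuousOn_const.mul (((hσ.cont i).mono fun x hx => (hBs hx).2).pow c)) ?_
        intro x hx
        exact mul_ne_zero hκ (pow_ne_zero _ (hBs hx).1.2)
      exact h8.congr fun x hx => hu i x (hBs hx).2.2 (hBs hx).2.1
  choose! B hBo hpB hBW hBs hBσ hBc using key
  set W' : Set M := ⋃ p ∈ C, B p with hW'
  have hW'o : IsOpen W' := isOpen_biUnion fun p hp => hBo p hp
  have hmem : ∀ x ∈ W', ∃ p ∈ C, x ∈ B p := by
    intro x hx
    simpa [hW'] using hx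
  have hW'W : W' ⊆ W := fun x hx => by
    obtain ⟨p, hp, hx⟩ := hmem x hx
    exact hBW p hp hx
  have hus : ∀ x ∈ W', u x ∈ Complex.slitPlane := fun x hx => by
    obtain ⟨p, hp, hx⟩ := hmem x hx
    exact hBs p hp x hx
  have huc : ContinuousOn u W' := by
    intro x hx
    obtain ⟨p, hp, hx⟩ := hmem x hx
    exact ((hBc p hp).continuousAt ((hBo p hp).mem_nhds hx)).continuousWithinAt
  -- a `c`-th root of `κ`
  obtain ⟨μ, hμ⟩ : ∃ μ : ℂ, μ ^ c = κ :=
    ⟨Complex.exp (Complex.log κ / c), by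
      rw [← Complex.exp_nat_mul, mul_div_cancel₀ _ (Nat.cast_ne_zero.2 hc.ne'),
        Complex.exp_log hκ]⟩
  refine ⟨W', fun i x => μ * Complex.exp (Complex.log (u x) / c) * σ i x, hW'o,
    fun x hx => mem_biUnion hx (hpB x hx), hW'W, ⟨fun i => ?_, fun i x hx => ?_,
    fun i j x hx hxW => ?_⟩, fun i x hi hx => ?_⟩
  · refine ContinuousOn.mul (continuousOn_const.mul ?_)
      ((hσ.cont i).mono (inter_subset_inter_left _ hW'W))
    refine Complex.continuous_exp.comp_continuousOn (ContinuousOn.div_const ?_ _)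
    exact (huc.mono inter_subset_left).clog fun x hx => hus x hx.1
  · rw [hσ.off i x hx, mul_zero]
  · rw [hσ.tr i j x hx (hW'W hxW)]
    ring
  · have h0 : σ i x ≠ 0 := by
      obtain ⟨p, hp, hx'⟩ := hmem x hx
      exact hBσ p hp i x hi hx'
    have hu0 : u x ≠ 0 := Complex.slitPlane_ne_zero (hus x hx)
    rw [mul_pow, mul_pow, hμ, ← Complex.exp_nat_mul, mul_div_cancel₀ _ (Nat.cast_ne_zero.2 hc.ne'),
      Complex.exp_log hu0, hu i x hi (hW'W hx)]
    have h1 : κ * σ i x ^ c ≠ 0 := mul_ne_zero hκ (pow_ne_zero _ h0)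
    rw [show κ * (T i x / (κ * σ i x ^ c)) * σ i x ^ c
      = (T i x / (κ * σ i x ^ c)) * (κ * σ i x ^ c) by ring, div_mul_cancel₀ _ h1]

/-- a continuous root of a holomorphic nowhere zero section is holomorphic -/
theorem root_isHS (hc : 0 < c) {K : LB A} (hNo : IsOpen N) (ht : CS L N t)
    (htr : IsRoot c T N t) (hT : IsHS K N T)
    (hT0 : ∀ i, ∀ x ∈ (A.e i).source, x ∈ N → T i x ≠ 0) : IsHS L N t := by
  refine ⟨fun i z hz => ?_, ht.off, ht.tr⟩
  set x := (A.e i).symm z with hx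
  have hxs : x ∈ (A.e i).source := (A.e i).map_target hz.1
  have hxN : x ∈ N := hz.2
  have hzx : A.e i x = z := (A.e i).right_inv hz.1
  set O : Set (Cn n) := (A.e i).target ∩ (A.e i).symm ⁻¹' N with hO
  have hOo : IsOpen O := isOpen_ti hNo
  let F : Cn n → ℂ := fun w => T i ((A.e i).symm w)
  let f : Cn n → ℂ := fun w => t i ((A.e i).symm w)
  have hF : DifferentiableOn ℂ F O := hT.hol i
  have hfc : ContinuousOn f O := by
    refine (ht.cont i).comp ((A.e i).continuousOn_symm.mono fun w hw => hw.1) fun w hw => ?_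
    exact ⟨hw.2, (A.e i).map_target hw.1⟩
  have hfF : ∀ w ∈ O, f w ^ c = F w := fun w hw => htr i _ ((A.e i).map_target hw.1) hw.2
  have hF0 : ∀ w ∈ O, F w ≠ 0 := fun w hw => hT0 i _ ((A.e i).map_target hw.1) hw.2
  have hf0 : ∀ w ∈ O, f w ≠ 0 := fun w hw h0 => by
    have := hfF w hw
    rw [h0, zero_pow hc.ne'] at this
    exact hF0 w hw this.symm
  -- local formula
  have hFd : DifferentiableAt ℂ F z := hF.differentiableAt (hOo.mem_nhds hz)
  have hslit : ∀ᶠ w in 𝓝 z, F w / F z ∈ Complex.slitPlane := by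
    have : ContinuousAt (fun w => F w / F z) z := hFd.continuousAt.div_const _
    refine this.eventually (Complex.isOpen_slitPlane.mem_nhds ?_)
    simp only
    rw [div_self (hF0 z hz)]
    exact Complex.one_mem_slitPlane
  let G : Cn n → ℂ := fun w => f z * Complex.exp (Complex.log (F w / F z) / c)
  have hslitz : F z / F z ∈ Complex.slitPlane := hslit.self_of_nhds
  have hGd : DifferentiableAt ℂ G z := by
    refine DifferentiableAt.const_mul (DifferentiableAt.cexp ?_) _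
    have h1 : DifferentiableAt ℂ (fun w => F w / F z) z := by
      simp only [div_eq_mul_inv]
      exact hFd.mul_const _
    have h2 : DifferentiableAt ℂ (fun w => Complex.log (F w / F z)) z := h1.clog hslitz
    simp only [div_eq_mul_inv] at h2 ⊢
    exact h2.mul_const _
  have hGz : G z = f z := by
    simp only [G]
    rw [div_self (hF0 z hz), Complex.log_one, zero_div, Complex.exp_zero, mul_one]
  have hGpow : ∀ᶠ w in 𝓝 z, G w ^ c = F w := by
    filter_upwards [hslit, hOo.mem_nhds hz] with w hw hwO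
    simp only [G]
    rw [mul_pow, ← Complex.exp_nat_mul, mul_div_cancel₀ _ (Nat.cast_ne_zero.2 hc.ne'),
      Complex.exp_log (Complex.slitPlane_ne_zero hw), hfF z hz, mul_div_cancel₀ _ (hF0 z hz)]
  have hratio : ∀ᶠ w in 𝓝 z, (G w / f w) = G z / f z := by
    refine eventually_const (f := fun w => G w / f w) hc
      (hGd.continuousAt.div (hfc.continuousAt (hOo.mem_nhds hz)) (hf0 z hz)) ?_
    filter_upwards [hGpow, hOo.mem_nhds hz] with w hw hwO
    rw [div_pow, hw, hfF w hwO, div_self (hF0 w hwO)]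
  have heq : f =ᶠ[𝓝 z] G := by
    filter_upwards [hratio, hOo.mem_nhds hz] with w hw hwO
    rw [hGz, div_self (hf0 z hz), div_eq_one_iff_eq (hf0 w hwO)] at hw
    exact hw.symm
  exact (hGd.congr_of_eventuallyEq heq).differentiableWithinAt

end Crest.Agent.R275.Root595
end

-- ▼ part R275/Root2_595
section

/-!
# R275, leaf ROOT, second file (helper595)

`root_end` : root of `T` near the small end when `g i j → 1` and `T → κ ≠ 0` there.
`kappa_of` : `T = κ σ ^ c` on the zero set `C` of `s` (from `H^0(Q_C) = ℂ`).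
-/

set_option autoImplicit false
set_option linter.unusedSectionVars false

open Set Filter Topology
open scoped ContDiff ComplexConjugate

namespace Crest.Agent.R275.Root595

open Geo Core144 Trl595

section EndRoot

variable {n : ℕ} {M : Type} [TopologicalSpace M] {A : Atl n M}

/-- gap in the roots of unity -/
theorem exists_gap {c : ℕ} (hc : 0 < c) :
    ∃ δ > 0, ∀ z : ℂ, z ^ c = 1 → ‖z - 1‖ < δ → z = 1 := by
  have hfin : ({z : ℂ | z ^ c = 1} \ {1}).Finite := by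
    refine Set.Finite.subset (Polynomial.nthRootsFinset c (1 : ℂ)).finite_toSet fun z hz => ?_
    rw [Finset.mem_coe, Polynomial.mem_nthRootsFinset hc]
    exact hz.1
  have hop : ({z : ℂ | z ^ c = 1} \ {1})ᶜ ∈ 𝓝 (1 : ℂ) :=
    hfin.isClosed.isOpen_compl.mem_nhds (by simp)
  obtain ⟨δ, hδ, hball⟩ := Metric.mem_nhds_iff.1 hop
  refine ⟨δ, hδ, fun z hz hzd => ?_⟩
  by_contra hne
  exact hball (by rwa [Metric.mem_ball, dist_eq_norm]) ⟨hz, hne⟩

/-- the transition functions tend to `1` at the small end -/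
def TrS (h : M → ℝ) (L : LB A) : Prop :=
  ∀ ε > 0, ∃ T : ℝ, ∀ i j, ∀ x ∈ (A.e i).source ∩ (A.e j).source, h x < T → ‖L.g i j x - 1‖ < ε


/-- principal root -/
noncomputable def rt (c : ℕ) (z : ℂ) : ℂ := Complex.exp (Complex.log z / c)

theorem rt_one (c : ℕ) : rt c 1 = 1 := by simp [rt]

theorem rt_pow {c : ℕ} (hc : 0 < c) {z : ℂ} (hz : z ≠ 0) : rt c z ^ c = z := by
  rw [rt, ← Complex.exp_nat_mul, mul_div_cancel₀ _ (Nat.cast_ne_zero.2 hc.ne'),
    Complex.exp_log hz]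

theorem rt_ne (c : ℕ) (z : ℂ) : rt c z ≠ 0 := Complex.exp_ne_zero _

theorem rt_cont (c : ℕ) {z : ℂ} (hz : z ∈ Complex.slitPlane) : ContinuousAt (rt c) z :=
  Complex.continuous_exp.continuousAt.comp ((continuousAt_id.clog hz).div_const _)

theorem rt_ratio (c : ℕ) {δ₀ : ℝ} (hδ₀ : 0 < δ₀) : ∃ δ > 0, ∀ a b g : ℂ, ‖a - 1‖ < δ →
    ‖b - 1‖ < δ → ‖g - 1‖ < δ → ‖rt c a / (g * rt c b) - 1‖ < δ₀ := by
  have hcont : ContinuousAt (fun w : ℂ × ℂ × ℂ => rt c w.1 / (w.2.2 * rt c w.2.1)) (1, 1, 1) := by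
    have c1 : ContinuousAt (fun w : ℂ × ℂ × ℂ => rt c w.1) (1, 1, 1) :=
      ContinuousAt.comp (f := fun w : ℂ × ℂ × ℂ => w.1) (g := rt c)
        (rt_cont c Complex.one_mem_slitPlane) continuousAt_fst
    have c2 : ContinuousAt (fun w : ℂ × ℂ × ℂ => rt c w.2.1) (1, 1, 1) :=
      ContinuousAt.comp (f := fun w : ℂ × ℂ × ℂ => w.2.1) (g := rt c)
        (rt_cont c Complex.one_mem_slitPlane) (continuous_fst.comp continuous_snd).continuousAt
    have c3 : ContinuousAt (fun w : ℂ × ℂ × ℂ => w.2.2) (1, 1, 1) :=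
      (continuous_snd.comp continuous_snd).continuousAt
    refine c1.div (c3.mul c2) ?_
    simp [rt_one]
  obtain ⟨δ, hδ, h2⟩ := Metric.continuousAt_iff.1 hcont δ₀ hδ₀
  refine ⟨δ, hδ, fun a b g ha hb hg => ?_⟩
  have h3 : dist ((a, b, g) : ℂ × ℂ × ℂ) (1, 1, 1) < δ := by
    rw [Prod.dist_eq, Prod.dist_eq]
    simp only [dist_eq_norm]
    exact max_lt ha (max_lt hb hg)
  have h4 := h2 h3
  rw [dist_eq_norm] at h4
  simpa [rt_one] using h4

theorem LB.pow_g (L : LB A) (c : ℕ) (i j : A.ι) (x : M) : (L ^ c).g i j x = L.g i j x ^ c := by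
  induction c with
  | zero => simp
  | succ m ihm => rw [pow_succ, LB.mul_g, ihm, pow_succ]

/-- **root near the small end** -/
theorem root_end {h : M → ℝ} {L : LB A} {c : ℕ} (hc : 0 < c) (hg : TrS h L) {κ : ℂ} (hκ : κ ≠ 0)
    {N : Set M} {T₀ : ℝ} (hN : {x | h x < T₀} ⊆ N) {T : A.ι → M → ℂ} (hT : CS (L ^ c) N T)
    (hlim : LimS h T κ) :
    ∃ (μ : ℂ) (T₁ : ℝ) (t₀ : A.ι → M → ℂ), μ ^ c = κ ∧ T₁ ≤ T₀ ∧ CS L {x | h x < T₁} t₀ ∧
      IsRoot c T {x | h x < T₁} t₀ ∧ LimS h t₀ μ := by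
  classical
  obtain ⟨μ, hμ⟩ : ∃ μ : ℂ, μ ^ c = κ := ⟨rt c κ, rt_pow hc hκ⟩
  obtain ⟨δ₀, hδ₀, hgap⟩ := exists_gap hc
  obtain ⟨δ, hδ, hΦ⟩ := rt_ratio c hδ₀
  obtain ⟨Ta, hTa⟩ := hg δ hδ
  obtain ⟨Tb, hTb⟩ := hlim (‖κ‖ * min δ (1 / 2)) (by positivity)
  obtain ⟨T₁, hT1, hT1a, hT1b⟩ : ∃ T₁, T₁ ≤ T₀ ∧ T₁ ≤ Ta ∧ T₁ ≤ Tb :=
    ⟨min T₀ (min Ta Tb), min_le_left _ _, (min_le_right _ _).trans (min_le_left _ _),
      (min_le_right _ _).trans (min_le_right _ _)⟩
  have hclose : ∀ i, ∀ x ∈ (A.e i).source, h x < T₁ → ‖T i x / κ - 1‖ < min δ (1 / 2) := by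
    intro i x hi hx
    have h1 := hTb i x hi (hx.trans_le hT1b)
    have h2 : T i x / κ - 1 = (T i x - κ) / κ := by field_simp
    rw [h2, norm_div, div_lt_iff₀ (norm_pos_iff.2 hκ)]
    linarith
  have hslit : ∀ i, ∀ x ∈ (A.e i).source, h x < T₁ → T i x / κ ∈ Complex.slitPlane := by
    intro i x hi hx
    have h1 := (hclose i x hi hx).trans_le (min_le_right _ _)
    left
    have h2 : |(T i x / κ - 1).re| ≤ ‖T i x / κ - 1‖ := Complex.abs_re_le_norm _
    rw [Complex.sub_re, Complex.one_re] at h2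
    have h3 := (abs_le.1 h2).1
    linarith
  let t₀ : A.ι → M → ℂ := fun i x => if x ∈ (A.e i).source then μ * rt c (T i x / κ) else 0
  have ht₀ : ∀ i, ∀ x ∈ (A.e i).source, t₀ i x = μ * rt c (T i x / κ) := fun i x hx => if_pos hx
  have hcs : CS L {x | h x < T₁} t₀ := by
    refine ⟨fun i => ?_, fun i x hx => if_neg hx, fun i j x hx hxT => ?_⟩
    · have h1 : ContinuousOn (fun x => μ * rt c (T i x / κ)) ({x | h x < T₁} ∩ (A.e i).source) := by
        refine continuousOn_const.mul ?_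
        intro x hx
        have h2 : ContinuousWithinAt (fun x => T i x / κ) ({x | h x < T₁} ∩ (A.e i).source) x :=
          ((hT.cont i).mono (inter_subset_inter_left _ fun y hy =>
            hN (lt_of_lt_of_le hy hT1)) x hx).div_const _
        exact ContinuousAt.comp_continuousWithinAt (f := fun x => T i x / κ) (g := rt c)
          (rt_cont c (hslit i x hx.2 hx.1)) h2
      exact h1.congr fun x hx => ht₀ i x hx.2
    · have hxN : x ∈ N := hN (lt_of_lt_of_le hxT hT1)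
      rw [ht₀ i x hx.1, ht₀ j x hx.2]
      have h1 := hT.tr i j x hx hxN
      rw [LB.pow_g] at h1
      have ha := hclose i x hx.1 hxT
      have hb := hclose j x hx.2 hxT
      have hgx := hTa i j x hx (lt_of_lt_of_le hxT hT1a)
      have h2 := hΦ _ _ _ (ha.trans_le (min_le_left _ _)) (hb.trans_le (min_le_left _ _)) hgx
      have ha0 : T i x / κ ≠ 0 := Complex.slitPlane_ne_zero (hslit i x hx.1 hxT)
      have hb0 : T j x / κ ≠ 0 := Complex.slitPlane_ne_zero (hslit j x hx.2 hxT)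
      have hgb : L.g i j x ^ c * (T j x / κ) ≠ 0 :=
        mul_ne_zero (pow_ne_zero _ (L.ne_zero _ _ _)) hb0
      have h3 : (rt c (T i x / κ) / (L.g i j x * rt c (T j x / κ))) ^ c = 1 := by
        rw [div_pow, mul_pow, rt_pow hc ha0, rt_pow hc hb0, h1, mul_div_assoc]
        exact div_self hgb
      have h4 := hgap _ h3 h2
      have h5 : rt c (T i x / κ) = L.g i j x * rt c (T j x / κ) := by
        have h6 : L.g i j x * rt c (T j x / κ) ≠ 0 := mul_ne_zero (L.ne_zero _ _ _) (rt_ne _ _)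
        exact (div_eq_one_iff_eq h6).1 h4
      rw [h5]
      ring
  have hroot : IsRoot c T {x | h x < T₁} t₀ := by
    intro i x hi hx
    rw [ht₀ i x hi]
    have ha0 : T i x / κ ≠ 0 := Complex.slitPlane_ne_zero (hslit i x hi hx)
    rw [mul_pow, hμ, rt_pow hc ha0, mul_div_cancel₀ _ hκ]
  have hlimt : LimS h t₀ μ := by
    intro ε hε
    have h1 : ContinuousAt (fun z => μ * rt c z) 1 :=
      continuousAt_const.mul (rt_cont c Complex.one_mem_slitPlane)
    obtain ⟨δ', hδ', h2⟩ := Metric.continuousAt_iff.1 h1 ε hε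
    obtain ⟨Tc, hTc⟩ := hlim (‖κ‖ * δ') (mul_pos (norm_pos_iff.2 hκ) hδ')
    refine ⟨Tc, fun i x hi hx => ?_⟩
    rw [ht₀ i x hi]
    have h3 : dist (T i x / κ) 1 < δ' := by
      rw [dist_eq_norm]
      have h4 : T i x / κ - 1 = (T i x - κ) / κ := by field_simp
      rw [h4, norm_div, div_lt_iff₀ (norm_pos_iff.2 hκ)]
      linarith [hTc i x hi hx]
    have h5 := h2 h3
    rw [dist_eq_norm, rt_one, mul_one] at h5
    exact h5
  exact ⟨μ, T₁, t₀, hμ, hT1, hcs, hroot, hlimt⟩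

end EndRoot

section Kappa

open Fm96

variable {M : Type} [TopologicalSpace M] {A : Atl 2 M}

theorem SmP.pow {i : A.ι} {f : M → ℂ} {x : M} (h : SmP A i f x) (m : ℕ) :
    SmP A i (fun y => f y ^ m) x := by
  induction m with
  | zero => simpa using (SmP.const (A := A) (i := i) (x := x) 1)
  | succ m ih =>
    simp only [pow_succ]
    exact ih.mul h

theorem db_powP {i : A.ι} {f : M → ℂ} {x : M} (b : Fin 2) (h : SmP A i f x)
    (hx : x ∈ (A.e i).source) (m : ℕ) :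
    A.db i b (fun y => f y ^ (m + 1)) x = (m + 1) * f x ^ m * A.db i b f x := by
  induction m with
  | zero => simp
  | succ m ih =>
    have e : (fun y => f y ^ (m + 1 + 1)) = fun y => f y ^ (m + 1) * f y := by
      funext y; rw [pow_succ]
    rw [e, db_mulP b (SmP.pow h (m + 1)) h hx, ih]
    push_cast
    ring

/-- **`T = κ σ ^ c` on the zero set of `s`**, from `H^0(Q_s) = ℂ` (hypothesis `hR2`) -/
theorem kappa_of [T2Space M] {gs gE gF gT : A.ι → A.ι → M → ℂ} {s σ T : A.ι → M → ℂ}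
    {η : A.ι → M → Fin 2 → ℂ} (hgs : IsLC A gs) (hs : IsZ0 A gs univ s)
    {c : ℕ} (hc : 0 < c) (hEF : ∀ i j, ∀ x ∈ (A.e i).source ∩ (A.e j).source,
      gE i j x = gs i j x * gF i j x)
    (hgE : ∀ i j, ∀ x ∈ (A.e i).source ∩ (A.e j).source, gE i j x ≠ 0)
    (hgT : ∀ i j, ∀ x ∈ (A.e i).source ∩ (A.e j).source, gT i j x = gE i j x ^ c)
    (hσ : IsZ0 A gE univ σ) (hη : IsZ1 A gF univ η) (hση : d0 A σ = sm1 s η)
    {N C : Set M} (hNo : IsOpen N) (hCN : C ⊆ N)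
    (hCs : ∀ i, ∀ x ∈ (A.e i).source, (s i x = 0 ↔ x ∈ C))
    (hT : IsZ0 A gT N T) (hT0 : ∀ i, ∀ x ∈ (A.e i).source, x ∈ N → T i x ≠ 0)
    (hTd : ∀ i, ∀ x ∈ (A.e i).source, x ∈ N → ∀ b, A.db i b (T i) x = 0)
    (hbump : ∃ φ : M → ℂ, SmOn A univ φ ∧ (∀ x ∈ C, ∀ᶠ y in 𝓝 x, φ y = 1) ∧ tsupport φ ⊆ N)
    (hσ0 : ∀ i, ∀ x ∈ (A.e i).source, x ∈ C → σ i x ≠ 0)
    (hR2 : ∀ u, IsZ0 A 1 univ u → (∃ v, IsZ1 A gs⁻¹ univ v ∧ d0 A u = sm1 s v) →
      ∃ κ : ℂ, ∀ i, ∀ x ∈ (A.e i).source, x ∈ C → u i x = κ) :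
    ∃ κ : ℂ, κ ≠ 0 ∧ ∀ i, ∀ x ∈ (A.e i).source, x ∈ C → T i x = κ * σ i x ^ c := by
  classical
  obtain ⟨φ, hφ, hφ1, hφN⟩ := hbump
  obtain ⟨m, rfl⟩ : ∃ m, c = m + 1 := ⟨c - 1, by omega⟩
  let w : A.ι → M → Fin 2 → ℂ := fun i x b => (m + 1) * σ i x ^ m * η i x b * (T i x)⁻¹
  let u : A.ι → M → ℂ := fun i x => if x ∈ N then φ x * σ i x ^ (m + 1) * (T i x)⁻¹ else 0
  let v : A.ι → M → Fin 2 → ℂ := fun i x b =>
    if s i x ≠ 0 then (s i x)⁻¹ * d0 A u i x b else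
      if x ∈ (A.e i).source then w i x b else 0
  have hu : IsZ0 A 1 univ u := by
    refine ⟨fun i x hi _ => ?_, fun i x hi => ?_, fun i j x hx _ => ?_⟩
    · by_cases hxN : x ∈ N
      · refine (((hφ i x hi trivial).mul (SmP.pow (hσ.sm i x hi trivial) (m + 1))).mul
          ((hT.sm i x hi hxN).inv (hT0 i x hi hxN) hi)).congr hi ?_
        filter_upwards [hNo.mem_nhds hxN] with y hy
        exact if_pos hy
      · refine (SmP.const (0 : ℂ)).congr hi ?_
        have hx' : x ∉ tsupport φ := fun h => hxN (hφN h)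
        filter_upwards [(isClosed_tsupport φ).isOpen_compl.mem_nhds hx'] with y hy
        simp only [u, image_eq_zero_of_notMem_tsupport hy, zero_mul, ite_self]
    · simp only [u, hσ.off i x hi, pow_succ, mul_zero, zero_mul, ite_self]
    · simp only [u, Pi.one_apply, one_mul]
      by_cases hxN : x ∈ N
      · rw [if_pos hxN, if_pos hxN, hσ.tr i j x hx trivial, hT.tr i j x hx hxN, hgT i j x hx,
          mul_pow, mul_inv]
        have h1 : gE i j x ^ (m + 1) ≠ 0 := pow_ne_zero _ (hgE i j x hx)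
        have h2 : φ x * (gE i j x ^ (m + 1) * σ j x ^ (m + 1)) *
            ((gE i j x ^ (m + 1))⁻¹ * (T j x)⁻¹) = (gE i j x ^ (m + 1) * (gE i j x ^ (m + 1))⁻¹) *
              (φ x * σ j x ^ (m + 1) * (T j x)⁻¹) := by ring
        rw [h2, mul_inv_cancel₀ h1, one_mul]
      · rw [if_neg hxN, if_neg hxN]
  have hd0u : IsZ1 A 1 univ (d0 A u) := d0_mem IsLC.one isOpen_univ hu
  -- near `C`: `d0 u = s w`
  have hnear : ∀ i, ∀ x ∈ (A.e i).source, x ∈ C → ∀ᶠ y in 𝓝 x, y ∈ (A.e i).source ∧ y ∈ N ∧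
      ∀ b, d0 A u i y b = s i y * w i y b := by
    intro i x hi hx
    have h1 := (hφ1 x hx).eventually_nhds
    filter_upwards [h1, hNo.mem_nhds (hCN hx), src_nhds hi] with y hy hyN hyi
    refine ⟨hyi, hyN, fun b => ?_⟩
    rw [d0_of_mem hyi]
    have e : u i =ᶠ[𝓝 y] fun z => σ i z ^ (m + 1) * (T i z)⁻¹ := by
      filter_upwards [hy, hNo.mem_nhds hyN] with z hz hzN
      simp only [u, if_pos hzN, hz, one_mul]
    have hσy := hσ.sm i y hyi trivial
    have hTy := hT.sm i y hyi hyN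
    rw [db_congr hyi e, db_mulP b (SmP.pow hσy (m + 1)) (hTy.inv (hT0 i y hyi hyN) hyi) hyi,
      db_powP b hσy hyi m, db_invP b hTy (hT0 i y hyi hyN) hyi, hTd i y hyi hyN b]
    have h2 : A.db i b (σ i) y = s i y * η i y b := by
      have := congrFun (congrFun (congrFun hση i) y) b
      rwa [d0_of_mem hyi] at this
    rw [h2]
    simp only [w]
    ring
  have hvnear : ∀ i, ∀ x ∈ (A.e i).source, x ∈ C → ∀ᶠ y in 𝓝 x, ∀ b, v i y b = w i y b := by
    intro i x hi hx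
    filter_upwards [hnear i x hi hx] with y hy b
    by_cases h0 : s i y = 0
    · simp only [v, h0, ne_eq, not_true_eq_false, if_false, if_pos hy.1]
    · simp only [v, ne_eq, h0, not_false_eq_true, if_true]
      rw [hy.2.2 b, ← mul_assoc, inv_mul_cancel₀ h0, one_mul]
  have hv : IsZ1 A gs⁻¹ univ v := by
    refine ⟨fun i b x hi _ => ?_, fun i x hi => ?_, fun i j x hx _ b => ?_⟩
    · by_cases hxC : x ∈ C
      · have hxN := hCN hxC
        have h1 : SmP A i (fun y => w i y b) x :=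
          (((SmP.const _).mul (SmP.pow (hσ.sm i x hi trivial) m)).mul
            (hη.sm i b x hi trivial)).mul ((hT.sm i x hi hxN).inv (hT0 i x hi hxN) hi)
        refine h1.congr hi ?_
        filter_upwards [hvnear i x hi hxC] with y hy using hy b
      · have h0 : s i x ≠ 0 := fun h => hxC ((hCs i x hi).1 h)
        have h1 : SmP A i (fun y => (s i y)⁻¹ * d0 A u i y b) x :=
          ((hs.sm i x hi trivial).inv h0 hi).mul (hd0u.sm i b x hi trivial)
        refine h1.congr hi ?_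
        filter_upwards [((hs.sm i x hi trivial).continuousAt hi).eventually_ne h0] with y hy
        simp only [v, ne_eq, hy, not_false_eq_true, if_true]
    · funext b
      have h0 : s i x = 0 := hs.off i x hi
      simp only [v, h0, ne_eq, not_true_eq_false, if_false, if_neg hi]
      rfl
    · by_cases h0 : s i x = 0
      · have hxC : x ∈ C := (hCs i x hx.1).1 h0
        have hxN := hCN hxC
        have e1 := (hvnear i x hx.1 hxC).self_of_nhds
        have e2 := (hvnear j x hx.2 hxC).self_of_nhds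
        rw [e1 b]
        simp only [e2, w]
        rw [hσ.tr i j x hx trivial, hη.tr i j x hx trivial b, hT.tr i j x hx hxN, hgT i j x hx]
        have hgs0 := hgs.ne i j x hx
        have hgE0 := hgE i j x hx
        have hEF' := hEF i j x hx
        have h3 : (gs⁻¹ : A.ι → A.ι → M → ℂ) i j x = gF i j x * (gE i j x)⁻¹ := by
          simp only [Pi.inv_apply]
          have hF0 : gF i j x ≠ 0 := by
            intro h
            rw [h, mul_zero] at hEF'
            exact hgE0 hEF'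
          rw [hEF', mul_inv]
          field_simp
        rw [h3]
        have h4 : (gE i j x * σ j x) ^ m * (gE i j x ^ (m + 1) * T j x)⁻¹
            = (gE i j x)⁻¹ * (σ j x ^ m * (T j x)⁻¹) := by
          rw [mul_pow, mul_inv, pow_succ, mul_inv]
          field_simp
        rw [show (↑m + 1) * (gE i j x * σ j x) ^ m *
            (gF i j x * ∑ c, conj (A.J i j x c b) * η j x c) * (gE i j x ^ (m + 1) * T j x)⁻¹
            = (↑m + 1) * (gF i j x * ∑ c, conj (A.J i j x c b) * η j x c) *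
              ((gE i j x * σ j x) ^ m * (gE i j x ^ (m + 1) * T j x)⁻¹) by ring, h4]
        simp only [Fin.sum_univ_two]
        ring
      · have hj0 : s j x ≠ 0 := by
          intro h
          rw [hs.tr i j x hx trivial, h, mul_zero] at h0
          exact h0 rfl
        simp only [v, ne_eq, h0, hj0, not_false_eq_true, if_true]
        rw [hd0u.tr i j x hx trivial b, hs.tr i j x hx trivial, mul_inv]
        simp only [Pi.one_apply, one_mul, Pi.inv_apply, Fin.sum_univ_two]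
        ring
  have hdv : d0 A u = sm1 s v := by
    funext i x b
    by_cases hi : x ∈ (A.e i).source
    · by_cases h0 : s i x = 0
      · have hxC : x ∈ C := (hCs i x hi).1 h0
        rw [(hnear i x hi hxC).self_of_nhds.2.2 b, h0]
        simp [sm1, h0]
      · simp only [sm1, v, ne_eq, h0, not_false_eq_true, if_true]
        rw [← mul_assoc, mul_inv_cancel₀ h0, one_mul]
    · rw [d0_of_not_mem hi]
      simp [sm1, hs.off i x hi]
  obtain ⟨κ, hκ⟩ := hR2 u hu ⟨v, hv, hdv⟩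
  have hval : ∀ i, ∀ x ∈ (A.e i).source, x ∈ C → σ i x ^ (m + 1) * (T i x)⁻¹ = κ := by
    intro i x hi hx
    rw [← hκ i x hi hx]
    simp only [u, if_pos (hCN hx), (hφ1 x hx).self_of_nhds, one_mul]
  by_cases hCe : C = ∅
  · refine ⟨1, one_ne_zero, fun i x _ hx => ?_⟩
    rw [hCe] at hx
    exact absurd hx (notMem_empty x)
  · obtain ⟨x₀, hx₀⟩ := nonempty_iff_ne_empty.2 hCe
    obtain ⟨i₀, hi₀⟩ := A.cover x₀
    have hκ0 : κ ≠ 0 := by
      rw [← hval i₀ x₀ hi₀ hx₀]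
      exact mul_ne_zero (pow_ne_zero _ (hσ0 i₀ x₀ hi₀ hx₀))
        (inv_ne_zero (hT0 i₀ x₀ hi₀ (hCN hx₀)))
    refine ⟨κ⁻¹, inv_ne_zero hκ0, fun i x hi hx => ?_⟩
    have h1 := hval i x hi hx
    have h2 := hT0 i x hi (hCN hx)
    rw [← h1]
    have h3 := hσ0 i x hi hx
    field_simp

end Kappa

end Crest.Agent.R275.Root595
end

-- ▼ part R275/Trl_595
section

/-!
# R275, leaf TRL (helper595): gluing of nowhere zero smooth sections

`NZ A g N τ`      : `τ` is a nowhere zero smooth section over `N` of the cocycle `g` (raw families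
                    of `Fm_96`).
`LogRel A X τ σ`  : `τ = exp(ℓ) σ` near `X` with `ℓ` smooth.
`glue_section`    : gluing of two nowhere zero sections near `S` (closed) and `C` (compact),
                    `S ∩ C` at most one point.
`triv_chain`      : iteration.
-/

set_option autoImplicit false
set_option linter.unusedSectionVars false

open Set Filter Topology
open scoped ContDiff

namespace Crest.Agent.R275.Trl595

open Geo Fm96

variable {M : Type} [TopologicalSpace M]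

variable {A : Atl 2 M} {i : A.ι} {f f' : M → ℂ} {x : M}

theorem SmP.log (h : SmP A i f x) (h0 : f x ∈ Complex.slitPlane) (hx : x ∈ (A.e i).source) :
    SmP A i (fun y => Complex.log (f y)) x := by
  have h1 : ∀ᶠ z in 𝓝 (A.e i x), f ((A.e i).symm z) ∈ Complex.slitPlane := by
    refine h.self.continuousAt.eventually (Complex.isOpen_slitPlane.mem_nhds ?_)
    simpa [(A.e i).left_inv hx] using h0
  filter_upwards [h, h1] with z h2 h3
  have h4 : ContDiffAt ℝ ∞ Complex.log (f ((A.e i).symm z)) :=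
    (Complex.contDiffAt_log h3).restrict_scalars ℝ
  exact ContDiffAt.comp z h4 h2


theorem SmP.of_sm {φ : M → ℝ} (hφ : A.Sm φ) (hx : x ∈ (A.e i).source) :
    SmP A i (fun y => (φ y : ℂ)) x := by
  filter_upwards [(A.e i).open_target.mem_nhds ((A.e i).map_source hx)] with z hz
  have h1 : ContDiffAt ℝ ∞ (fun z => φ ((A.e i).symm z)) z :=
    (hφ i).contDiffAt ((A.e i).open_target.mem_nhds hz)
  exact Complex.ofRealCLM.contDiff.contDiffAt.comp z h1

/-- `τ` is a nowhere zero smooth section over `N` of the line cocycle `g` -/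
structure NZ (A : Atl 2 M) (g : A.ι → A.ι → M → ℂ) (N : Set M) (τ : A.ι → M → ℂ) : Prop
    extends IsZ0 A g N τ where
  ne : ∀ i, ∀ x ∈ (A.e i).source, x ∈ N → τ i x ≠ 0

theorem NZ.mono {g : A.ι → A.ι → M → ℂ} {N N' : Set M} {τ : A.ι → M → ℂ} (h : NZ A g N τ)
    (hN : N' ⊆ N) : NZ A g N' τ :=
  ⟨h.toIsZ0.mono hN, fun i x hi hx => h.ne i x hi (hN hx)⟩

theorem NZ.mul {g g' : A.ι → A.ι → M → ℂ} {N : Set M} {τ τ' : A.ι → M → ℂ} (h : NZ A g N τ)
    (h' : NZ A g' N τ') : NZ A (g * g') N (sm τ τ') :=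
  ⟨h.toIsZ0.sm' h'.toIsZ0, fun i x hi hx => mul_ne_zero (h.ne i x hi hx) (h'.ne i x hi hx)⟩

theorem NZ.inv {g : A.ι → A.ι → M → ℂ} {N : Set M} {τ : A.ι → M → ℂ} (h : NZ A g N τ) :
    NZ A g⁻¹ N (fun i x => (τ i x)⁻¹) where
  sm i x hi hx := (h.sm i x hi hx).inv (h.ne i x hi hx) hi
  off i x hx := by simp [h.off i x hx]
  tr i j x hij hx := by
    rw [h.tr i j x hij hx, mul_inv]
    rfl
  ne i x hi hx := inv_ne_zero (h.ne i x hi hx)





/-- `τ = exp(ℓ) σ` near `X`, with `ℓ` smooth -/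
def LogRel (A : Atl 2 M) (X : Set M) (τ σ : A.ι → M → ℂ) : Prop :=
  ∃ (N : Set M) (ℓ : M → ℂ), IsOpen N ∧ X ⊆ N ∧ SmOn A N ℓ ∧
    ∀ i, ∀ x ∈ (A.e i).source, x ∈ N → τ i x = Complex.exp (ℓ x) * σ i x

theorem LogRel.refl (X : Set M) (τ : A.ι → M → ℂ) : LogRel A X τ τ :=
  ⟨univ, fun _ => 0, isOpen_univ, subset_univ _, fun i x _ _ => SmP.const 0, fun i x _ _ => by
    rw [Complex.exp_zero, one_mul]⟩

theorem LogRel.trans {X : Set M} {τ σ ρ : A.ι → M → ℂ} (h : LogRel A X τ σ)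
    (h' : LogRel A X σ ρ) : LogRel A X τ ρ := by
  obtain ⟨N, ℓ, hNo, hX, hs, hl⟩ := h
  obtain ⟨N', ℓ', hNo', hX', hs', hl'⟩ := h'
  refine ⟨N ∩ N', fun x => ℓ x + ℓ' x, hNo.inter hNo', subset_inter hX hX',
    fun i x hi hx => (hs i x hi hx.1).add (hs' i x hi hx.2), fun i x hi hx => ?_⟩
  rw [hl i x hi hx.1, hl' i x hi hx.2, Complex.exp_add]
  ring

theorem LogRel.mono {X X' : Set M} {τ σ : A.ι → M → ℂ} (h : LogRel A X τ σ) (hX : X' ⊆ X) :
    LogRel A X' τ σ := by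
  obtain ⟨N, ℓ, hNo, hX', hl⟩ := h
  exact ⟨N, ℓ, hNo, hX.trans hX', hl⟩

theorem LogRel.mul {X : Set M} {τ σ τ' σ' : A.ι → M → ℂ} (h : LogRel A X τ σ)
    (h' : LogRel A X τ' σ') : LogRel A X (sm τ τ') (sm σ σ') := by
  obtain ⟨N, ℓ, hNo, hX, hs, hl⟩ := h
  obtain ⟨N', ℓ', hNo', hX', hs', hl'⟩ := h'
  refine ⟨N ∩ N', fun x => ℓ x + ℓ' x, hNo.inter hNo', subset_inter hX hX',
    fun i x hi hx => (hs i x hi hx.1).add (hs' i x hi hx.2), fun i x hi hx => ?_⟩
  simp only [sm]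
  rw [hl i x hi hx.1, hl' i x hi hx.2, Complex.exp_add]
  ring

theorem LogRel.inv {X : Set M} {τ σ : A.ι → M → ℂ} (h : LogRel A X τ σ) :
    LogRel A X (fun i x => (τ i x)⁻¹) (fun i x => (σ i x)⁻¹) := by
  obtain ⟨N, ℓ, hNo, hX, hs, hl⟩ := h
  refine ⟨N, fun x => -ℓ x, hNo, hX, fun i x hi hx => (hs i x hi hx).neg, fun i x hi hx => ?_⟩
  beta_reduce
  rw [hl i x hi hx, mul_inv, Complex.exp_neg]




end Crest.Agent.R275.Trl595
end

-- ▼ part R275/Root3_595

/-!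
# R275, leaf ROOT, final form (helper595)

`root`  : a frame of `L ^ c` over `N` and sections `σ l` of `L` near the compact sets `Z l`, `l ≥ m`,
          with `T = κ σ ^ c` on `Z l`, where `Z l ∩ ⋃_{k > l} Z k` is at most one point and `Z l` goes
          to the small end, give a frame of `L` near `⋃_{l ≥ m} Z l ∪ {h ≤ T'}`.
`root'` : the same for `A : Atl 2 M`, with `T = κ σ ^ c` derived from `H^0(Q_{Z l}) = ℂ`.
-/

set_option autoImplicit false
set_option linter.unusedSectionVars false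

open Set Filter Topology

namespace Crest.Agent.R275.Root595

open Geo Core144 Trl595 Tr5

section

variable {n : ℕ} {M : Type} [TopologicalSpace M] {A : Atl n M}

/-- **ROOT**, form with local roots -/
theorem root₀ [T2Space M] [RegularSpace M] {h : M → ℝ} (hh : Continuous h) {L : LB A} {c : ℕ}
    (hc : 0 < c) {N : Set M} (hN : IsOpen N) {T₀ : ℝ} (hN0 : {x | h x < T₀} ⊆ N)
    {T : A.ι → M → ℂ} (F : Frame h N (L ^ c) T) (hL : TrS h L) (Z : ℤ → Set M) (m : ℤ)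
    (hZc : ∀ l, IsCompact (Z l)) (hdeep : ∀ t : ℝ, ∃ l₀ : ℤ, ∀ l, l₀ ≤ l → Z l ⊆ {x | h x < t})
    (p : ℤ → M) (hp : ∀ l, m ≤ l → ∀ k, l < k → Z l ∩ Z k ⊆ {p l})
    (hR : ∀ l, m ≤ l → ∃ (W : Set M) (t : A.ι → M → ℂ), IsOpen W ∧ Z l ⊆ W ∧ W ⊆ N ∧ CS L W t ∧
      IsRoot c T W t) :
    ∃ (N' : Set M) (τ : A.ι → M → ℂ) (T' : ℝ), IsOpen N' ∧ (∀ l, m ≤ l → Z l ⊆ N') ∧
      {x | h x ≤ T'} ⊆ N' ∧ N' ⊆ N ∧ Frame h N' L τ ∧ IsRoot c T N' τ := by
  classical
  obtain ⟨κ, hκ, hlim⟩ := F.lim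
  have hTcs : CS (L ^ c) N T := F.hs.cs hN
  have hTlim : LimS h T κ := by
    intro ε hε
    obtain ⟨T₂, hT₂⟩ := hlim ε hε
    exact ⟨min T₀ T₂, fun i x hi hx => hT₂ i x hi (hN0 (lt_of_lt_of_le hx (min_le_left _ _)))
      (lt_of_lt_of_le hx (min_le_right _ _))⟩
  obtain ⟨μ, T₁, t₀, hμ, hT1, hcs0, hroot0, hlim0⟩ := root_end hc hL hκ hN0 hTcs hTlim
  have hμ0 : μ ≠ 0 := by
    rintro rfl
    rw [zero_pow hc.ne'] at hμ
    exact hκ hμ.symm
  -- deep index
  obtain ⟨l₁, hl₁⟩ := hdeep T₁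
  set l₀ := max l₁ m with hl₀
  have hl₀Z : ∀ l, l₀ ≤ l → Z l ⊆ {x | h x < T₁} := fun l hl => hl₁ l ((le_max_left _ _).trans hl)
  have hml₀ : m ≤ l₀ := le_max_right _ _
  -- the level `T'`
  have hT' : ∃ T' : ℝ, T' < T₁ ∧ ∀ l, m ≤ l → l < l₀ → ∀ x ∈ Z l, T' < h x := by
    have hcomp : IsCompact (⋃ l ∈ Finset.Ico m l₀, Z l) :=
      (Finset.Ico m l₀).isCompact_biUnion fun l _ => hZc l
    obtain ⟨b, hb⟩ := (hcomp.image hh).bddBelow
    refine ⟨min b T₁ - 1, by linarith [min_le_right b T₁], fun l h1 h2 x hx => ?_⟩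
    have h3 : b ≤ h x := hb ⟨x, mem_biUnion (Finset.mem_Ico.2 ⟨h1, h2⟩) hx, rfl⟩
    linarith [min_le_left b T₁]
  obtain ⟨T', hT'1, hT'Z⟩ := hT'
  obtain ⟨l₂, hl₂⟩ := hdeep T'
  -- the set `S`
  set S : Set M := {x | h x ≤ T'} ∪ ⋃ l ∈ Finset.Ico l₀ l₂, Z l with hSdef
  have hSc : IsClosed S := by
    refine (isClosed_le hh continuous_const).union ?_
    exact ((Finset.Ico l₀ l₂).isCompact_biUnion fun l _ => hZc l).isClosed
  have hSZ : ∀ l, l₀ ≤ l → Z l ⊆ S := by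
    intro l hl x hx
    by_cases h2 : l < l₂
    · exact Or.inr (mem_biUnion (Finset.mem_Ico.2 ⟨hl, h2⟩) hx)
    · left
      have h3 : h x < T' := hl₂ l (not_lt.1 h2) hx
      exact h3.le
  have hSN : S ⊆ {x | h x < T₁} := by
    rintro x (hx | hx)
    · exact lt_of_le_of_lt hx hT'1
    · simp only [mem_iUnion, Finset.mem_Ico] at hx
      obtain ⟨l, hl, hx⟩ := hx
      exact hl₀Z l hl.1 hx
  -- the chain
  let C : ℕ → Set M := fun q => Z (l₀ - 1 - q)
  set Q : ℕ := (l₀ - m).toNat with hQ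
  have hchain : ∀ q : ℕ, chain S C q ⊆ S ∪ {x | ∃ l, l₀ - 1 - q < l ∧ x ∈ Z l} := by
    intro q x hx
    rcases hx with hx | hx
    · exact Or.inl hx
    · right
      simp only [mem_iUnion, Finset.mem_range] at hx
      obtain ⟨j, hj, hx⟩ := hx
      exact ⟨l₀ - 1 - j, by omega, hx⟩
  have hpq : ∀ q < Q, chain S C q ∩ C q ⊆ {p (l₀ - 1 - q)} := by
    rintro q hq x ⟨hx1, hx2⟩
    have hml : m ≤ l₀ - 1 - q := by omega
    have hl0 : l₀ - 1 - q < l₀ := by omega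
    have key : ∀ k, l₀ - 1 - (q : ℤ) < k → x ∈ Z k → x ∈ ({p (l₀ - 1 - q)} : Set M) :=
      fun k hk hxk => hp _ hml k hk ⟨hx2, hxk⟩
    rcases hchain q hx1 with hx | ⟨l, hl, hx⟩
    · rcases hx with hx | hx
      · exact absurd (hT'Z _ hml hl0 x hx2) (not_lt.2 hx)
      · simp only [mem_iUnion, Finset.mem_Ico] at hx
        obtain ⟨l, hl, hx⟩ := hx
        exact key l (by omega) hx
    · exact key l hl hx
  have hNT : {x | h x < T₁} ⊆ N := fun x hx => hN0 (lt_of_lt_of_le hx hT1)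
  obtain ⟨N₁, t, h1o, h1, h1N, ht, htr, N', hN'o, hSN', hN'0, he⟩ :=
    root_chain (A := A) (L := L) (T := T) (N := N) hc hSc (fun q => hZc _)
      (fun q => p (l₀ - 1 - q)) hpq F.ne (isOpen_lt hh continuous_const) hSN hNT hcs0 hroot0
      (fun q hq => hR (l₀ - 1 - q) (by omega))
  have hZN₁ : ∀ l, m ≤ l → Z l ⊆ N₁ := by
    intro l hl x hx
    apply h1
    by_cases hll : l₀ ≤ l
    · exact Or.inl (hSZ l hll hx)
    · right
      simp only [mem_iUnion, Finset.mem_range]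
      refine ⟨(l₀ - 1 - l).toNat, by omega, ?_⟩
      have : l₀ - 1 - ((l₀ - 1 - l).toNat : ℤ) = l := by omega
      change x ∈ Z (l₀ - 1 - ((l₀ - 1 - l).toNat : ℤ))
      rw [this]
      exact hx
  have hle : {x | h x ≤ T'} ⊆ S := fun x hx => Or.inl hx
  have hT0 : ∀ i, ∀ x ∈ (A.e i).source, x ∈ N₁ → T i x ≠ 0 := fun i x hi hx => F.ne i x hi (h1N hx)
  obtain ⟨B, hB⟩ := F.bdd
  have hpowle : ∀ z : ℂ, ‖z ^ c‖ ≤ B → ‖z‖ ≤ max B 1 := by
    intro z hz
    by_contra hlt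
    push Not at hlt
    have h2 : 1 < ‖z‖ := lt_of_le_of_lt (le_max_right _ _) hlt
    have h3 : ‖z‖ ≤ ‖z‖ ^ c := le_self_pow₀ h2.le hc.ne'
    rw [norm_pow] at hz
    have h4 : B ≤ max B 1 := le_max_left _ _
    linarith
  refine ⟨N₁, t, T', h1o, hZN₁, fun x hx => h1 (Or.inl (hle hx)), h1N, ⟨?_, ?_, ?_, ?_⟩, htr⟩
  · exact root_isHS hc h1o ht htr (F.hs.mono h1N) hT0
  · intro i x hi hx h0
    have := htr i x hi hx
    rw [h0, zero_pow hc.ne'] at this
    exact hT0 i x hi hx this.symm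
  · refine ⟨max B 1, fun i x hi hx => ⟨hpowle _ ?_, hpowle _ ?_⟩⟩
    · rw [htr i x hi hx]
      exact (hB i x hi (h1N hx)).1
    · rw [inv_pow, htr i x hi hx]
      exact (hB i x hi (h1N hx)).2
  · refine ⟨μ, hμ0, fun ε hε => ?_⟩
    obtain ⟨T₃, hT₃⟩ := hlim0 ε hε
    refine ⟨min T' T₃, fun i x hi _ hx => ?_⟩
    have h2 : x ∈ N' := hSN' (hle (lt_of_lt_of_le hx (min_le_left _ _)).le)
    rw [he i h2]
    exact hT₃ i x hi (lt_of_lt_of_le hx (min_le_right _ _))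

/-- **ROOT**, form with `T = κ σ ^ c` on `Z l` -/
theorem root [T2Space M] [RegularSpace M] {h : M → ℝ} (hh : Continuous h) {L : LB A} {c : ℕ}
    (hc : 0 < c) {N : Set M} (hN : IsOpen N) {T₀ : ℝ} (hN0 : {x | h x < T₀} ⊆ N)
    {T : A.ι → M → ℂ} (F : Frame h N (L ^ c) T) (hL : TrS h L) (Z : ℤ → Set M) (m : ℤ)
    (hZc : ∀ l, IsCompact (Z l)) (hdeep : ∀ t : ℝ, ∃ l₀ : ℤ, ∀ l, l₀ ≤ l → Z l ⊆ {x | h x < t})
    (p : ℤ → M) (hp : ∀ l, m ≤ l → ∀ k, l < k → Z l ∩ Z k ⊆ {p l})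
    (hZN : ∀ l, m ≤ l → Z l ⊆ N)
    (hR : ∀ l, m ≤ l → ∃ (W : Set M) (σ : A.ι → M → ℂ) (κ : ℂ), IsOpen W ∧ Z l ⊆ W ∧ κ ≠ 0 ∧
      CS L W σ ∧ (∀ i, ∀ x ∈ (A.e i).source, x ∈ Z l → σ i x ≠ 0) ∧
      ∀ i, ∀ x ∈ (A.e i).source, x ∈ Z l → T i x = κ * σ i x ^ c) :
    ∃ (N' : Set M) (τ : A.ι → M → ℂ) (T' : ℝ), IsOpen N' ∧ (∀ l, m ≤ l → Z l ⊆ N') ∧
      {x | h x ≤ T'} ⊆ N' ∧ N' ⊆ N ∧ Frame h N' L τ ∧ IsRoot c T N' τ := by
  refine root₀ hh hc hN hN0 F hL Z m hZc hdeep p hp fun l hl => ?_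
  obtain ⟨W, σ, κ, hWo, hW, hκ, hσ, hσ0, hσT⟩ := hR l hl
  obtain ⟨W', t, hW'o, hW', hW'W, ht, htr⟩ :=
    root_near (L := L) (T := T) hc (hWo.inter hN) (subset_inter hW (hZN l hl))
      ((F.hs.cs hN).mono inter_subset_right) (hσ.mono inter_subset_left) hκ hσ0 hσT
  exact ⟨W', t, hW'o, hW', hW'W.trans inter_subset_right, ht, htr⟩

end

section

open Fm96

variable {M : Type} [TopologicalSpace M] {A : Atl 2 M}

theorem holP_of_isHS {L : LB A} {N : Set M} {T : A.ι → M → ℂ} (h : IsHS L N T) (hN : IsOpen N)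
    {i : A.ι} {x : M} (hi : x ∈ (A.e i).source) (hx : x ∈ N) : HolP A i (T i) x := by
  have ho : IsOpen ((A.e i).target ∩ (A.e i).symm ⁻¹' N) := isOpen_ti hN
  have hz : A.e i x ∈ (A.e i).target ∩ (A.e i).symm ⁻¹' N :=
    ⟨(A.e i).map_source hi, by rw [mem_preimage, (A.e i).left_inv hi]; exact hx⟩
  filter_upwards [ho.mem_nhds hz] with z hz
  exact (h.hol i).differentiableAt (ho.mem_nhds hz)

theorem isZ0_of_isHS {L : LB A} {N : Set M} {T : A.ι → M → ℂ} (h : IsHS L N T) (hN : IsOpen N) :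
    IsZ0 A L.g N T :=
  ⟨fun i x hi hx => (holP_of_isHS h hN hi hx).smP, h.off, h.tr⟩

/-- smooth cut-offs (734) in the form of `Fm_96` -/
theorem exists_bumpC [T2Space M] (A : Atl 2 M) {K U : Set M} (hK : IsCompact K) (hU : IsOpen U)
    (hKU : K ⊆ U) : ∃ φ : M → ℂ, SmOn A univ φ ∧ (∀ x ∈ K, ∀ᶠ y in 𝓝 x, φ y = 1) ∧
      tsupport φ ⊆ U := by
  obtain ⟨φ, h1, -, h3, -, h5⟩ := QN2b734.exists_bump A hK hU hKU
  have hsm : A.Sm φ := QN2b734.sm_iff.2 h1
  refine ⟨fun y => (φ y : ℂ), fun i x hi _ => SmP.of_sm hsm hi, fun x hx => ?_, ?_⟩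
  · have h6 := (eventually_nhdsSet_iff_forall.1 h3) x hx
    filter_upwards [h6] with y hy
    rw [hy, Complex.ofReal_one]
  · refine (closure_mono fun y hy => ?_).trans h5
    rw [Function.mem_support] at hy ⊢
    intro h0
    exact hy (by rw [h0, Complex.ofReal_zero])

theorem cs_of_isZ0 {L : LB A} {N : Set M} {σ : A.ι → M → ℂ} (h : IsZ0 A L.g N σ) : CS L N σ :=
  ⟨fun i x hx => ((h.sm i x hx.2 hx.1).continuousAt hx.2).continuousWithinAt, h.off, h.tr⟩

/-- the data R1 + R2 at one curve `C`, zero set of the section `s` of the bundle `K` -/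
structure CurveData (L : LB A) (C : Set M) : Prop where
  ex : ∃ (gs gF : A.ι → A.ι → M → ℂ) (s σ : A.ι → M → ℂ) (η : A.ι → M → Fin 2 → ℂ),
    IsLC A gs ∧ IsZ0 A gs univ s ∧ (∀ i, ∀ x ∈ (A.e i).source, (s i x = 0 ↔ x ∈ C)) ∧
    (∀ i j, ∀ x ∈ (A.e i).source ∩ (A.e j).source, L.g i j x = gs i j x * gF i j x) ∧
    IsZ0 A L.g univ σ ∧ IsZ1 A gF univ η ∧ d0 A σ = sm1 s η ∧
    (∀ i, ∀ x ∈ (A.e i).source, x ∈ C → σ i x ≠ 0) ∧
    ∀ u, IsZ0 A 1 univ u → (∃ v, IsZ1 A gs⁻¹ univ v ∧ d0 A u = sm1 s v) →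
      ∃ κ : ℂ, ∀ i, ∀ x ∈ (A.e i).source, x ∈ C → u i x = κ

/-- **ROOT**, final form on a surface -/
theorem root' [T2Space M] [RegularSpace M] {h : M → ℝ} (hh : Continuous h) {L : LB A} {c : ℕ}
    (hc : 0 < c) {N : Set M} (hN : IsOpen N) {T₀ : ℝ} (hN0 : {x | h x < T₀} ⊆ N)
    {T : A.ι → M → ℂ} (F : Frame h N (L ^ c) T) (hL : TrS h L) (Z : ℤ → Set M) (m : ℤ)
    (hZc : ∀ l, IsCompact (Z l)) (hdeep : ∀ t : ℝ, ∃ l₀ : ℤ, ∀ l, l₀ ≤ l → Z l ⊆ {x | h x < t})
    (p : ℤ → M) (hp : ∀ l, m ≤ l → ∀ k, l < k → Z l ∩ Z k ⊆ {p l})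
    (hZN : ∀ l, m ≤ l → Z l ⊆ N)
    (hR : ∀ l, m ≤ l → CurveData L (Z l)) :
    ∃ (N' : Set M) (τ : A.ι → M → ℂ) (T' : ℝ), IsOpen N' ∧ (∀ l, m ≤ l → Z l ⊆ N') ∧
      {x | h x ≤ T'} ⊆ N' ∧ N' ⊆ N ∧ Frame h N' L τ ∧ IsRoot c T N' τ := by
  refine root hh hc hN hN0 F hL Z m hZc hdeep p hp hZN fun l hl => ?_
  obtain ⟨gs, gF, s, σ, η, hgs, hs, hsZ, hEF, hσ, hη, hση, hσ0, hR2⟩ := (hR l hl).ex
  obtain ⟨κ, hκ, hκT⟩ := kappa_of (gT := (L ^ c).g) hgs hs hc hEF
    (fun i j x _ => L.ne_zero i j x) (fun i j x _ => LB.pow_g L c i j x) hσ hη hση hN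
    (hZN l hl) hsZ (isZ0_of_isHS F.hs hN) F.ne
    (fun i x hi hx b => (holP_of_isHS F.hs hN hi hx).db_eq b)
    (exists_bumpC A (hZc l) hN (hZN l hl)) hσ0 hR2
  exact ⟨univ, σ, κ, isOpen_univ, subset_univ _, hκ, cs_of_isZ0 hσ, hσ0, hκT⟩

end

end Crest.Agent.R275.Root595
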