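import Mathlib
import Crest.Prelude.Def_ComplexSurface
import Crest.Agent.R266.SCV
import Crest.Agent.R275.Dv0_69
import Crest.Agent.R275.St3A_686
import Crest.Agent.R275.ODiv_686
import Crest.Agent.R275.BR4_672
import Crest.Agent.R275.Dv5_69
import Crest.Agent.R275.Loc2E_879
import Crest.Agent.R275.GermQ_967

-- ▼ part R275/LMP_631
section

/-!
R275 (S0418), helper631: the trace over the zeros of a holomorphic function of two variables and
the local maximum principle on zero sets.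
-/

set_option autoImplicit false
set_option linter.unusedSectionVars false

open Set Filter Topology Metric Complex
open scoped Real

noncomputable section

namespace Crest.Agent.R275.LMP631

/-! ### One variable: factorisation and trace -/

/-- factorisation of a function analytic near a closed disc -/
theorem exists_factor {S : ℂ → ℂ} {ρ : ℝ} (hρ : 0 < ρ)
    (hS : AnalyticOnNhd ℂ S (closedBall 0 ρ)) (hne : ∃ z ∈ closedBall (0 : ℂ) ρ, S z ≠ 0) :
    ∃ (F : Finset ℂ) (m : ℂ → ℕ) (E : ℂ → ℂ), (∀ a ∈ F, a ∈ closedBall 0 ρ ∧ 1 ≤ m a) ∧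
      AnalyticOnNhd ℂ E (closedBall 0 ρ) ∧ (∀ z ∈ closedBall 0 ρ, E z ≠ 0) ∧
      ∀ z ∈ closedBall 0 ρ, S z = (∏ a ∈ F, (z - a) ^ m a) * E z := by
  classical
  set U : Set ℂ := closedBall 0 ρ with hU
  have hUc : IsPreconnected U := (convex_closedBall 0 ρ).isPreconnected
  have hmer : MeromorphicOn S U := hS.meromorphicOn
  have h0U : (0 : ℂ) ∈ U := mem_closedBall_self hρ.le
  have hord : ∀ u : U, meromorphicOrderAt S u ≠ ⊤ := by
    intro u htop
    rw [meromorphicOrderAt_eq_top_iff] at htop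
    obtain ⟨z, hz, hSz⟩ := hne
    refine hSz (hS.eqOn_of_preconnected_of_frequently_eq (g := fun _ => 0)
      analyticOnNhd_const hUc u.2 htop.frequently hz)
  set D := MeromorphicOn.divisor S U with hD
  have hfin : D.support.Finite := D.finiteSupport (isCompact_closedBall 0 ρ)
  have hDpos : ∀ a, 0 ≤ D a := fun a => MeromorphicOn.AnalyticOnNhd.divisor_nonneg hS a
  obtain ⟨E, hE1, hE2, hE3⟩ := MeromorphicOn.extract_zeros_poles hmer hord hfin
  set F := hfin.toFinset with hF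
  have hprod : ∀ z, (∏ᶠ u, (· - u) ^ D u : ℂ → ℂ) z = ∏ a ∈ F, (z - a) ^ (D a).toNat := by
    intro z
    rw [Function.FactorizedRational.finprod_eq_fun hfin]
    change ∏ᶠ u, (z - u) ^ D u = _
    rw [finprod_eq_prod_of_mulSupport_subset (s := F)]
    · refine Finset.prod_congr rfl (fun a _ => ?_)
      conv_lhs => rw [← Int.toNat_of_nonneg (hDpos a)]
      rw [zpow_natCast]
    · intro a ha
      rw [Function.mem_mulSupport] at ha
      simp only [hF, Finite.coe_toFinset, Function.mem_support]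
      intro h0
      rw [h0, zpow_zero] at ha
      exact ha rfl
  have hPan : AnalyticOnNhd ℂ (fun z => (∏ a ∈ F, (z - a) ^ (D a).toNat) * E z) U := by
    intro z hz
    refine AnalyticAt.mul ?_ (hE1 z hz)
    exact Finset.analyticAt_fun_prod _ (fun a _ => by fun_prop)
  have heq : EqOn S (fun z => (∏ a ∈ F, (z - a) ^ (D a).toNat) * E z) U := by
    refine hS.eqOn_of_preconnected_of_frequently_eq hPan hUc h0U ?_
    have h1 := (mem_codiscreteWithin_iff_forall_mem_nhdsNE.1 hE3) 0 h0U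
    have h2 : U ∈ 𝓝[≠] (0 : ℂ) := mem_nhdsWithin_of_mem_nhds (closedBall_mem_nhds 0 hρ)
    have h3 : ∀ᶠ z in 𝓝[≠] (0 : ℂ), S z = (∏ a ∈ F, (z - a) ^ (D a).toNat) * E z := by
      filter_upwards [h1, h2] with z hz hzU
      rcases hz with hz | hz
      · have h4 : S z = ((∏ᶠ u, (· - u) ^ D u : ℂ → ℂ) • E) z := hz
        rw [h4, Pi.smul_apply', smul_eq_mul, hprod]
      · exact absurd hzU hz
    exact h3.frequently
  refine ⟨F, fun a => (D a).toNat, E, fun a ha => ?_, hE1, fun z hz => hE2 ⟨z, hz⟩, heq⟩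
  have ha' : D a ≠ 0 := by simpa [hF] using ha
  refine ⟨D.supportWithinDomain (by simpa using ha'), ?_⟩
  have h5 := hDpos a
  have h6 : (D a).toNat ≠ 0 := by
    intro h7
    rw [Int.toNat_eq_zero] at h7
    exact ha' (le_antisymm h7 h5)
  exact Nat.one_le_iff_ne_zero.2 h6

/-- the trace over the zeros in a disc as a contour integral: there are finitely many zeros
`a ∈ F` with multiplicities `m a ≥ 1` such that `∮ u S'/S = 2πi ∑ m a u a` -/
theorem exists_trace {S : ℂ → ℂ} {ρ : ℝ} (hρ : 0 < ρ)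
    (hS : AnalyticOnNhd ℂ S (closedBall 0 ρ)) (hne : ∀ z ∈ sphere (0 : ℂ) ρ, S z ≠ 0) :
    ∃ (F : Finset ℂ) (m : ℂ → ℕ), (∀ a, a ∈ F ↔ a ∈ ball 0 ρ ∧ S a = 0) ∧
      (∀ a ∈ F, 1 ≤ m a) ∧
      ∀ u : ℂ → ℂ, AnalyticOnNhd ℂ u (closedBall 0 ρ) →
        ∮ z in C(0, ρ), u z * (deriv S z / S z) = 2 * π * I * ∑ a ∈ F, m a * u a := by
  classical
  obtain ⟨F, m, E, hF, hE, hE0, heq⟩ := exists_factor hρ hS (by
    obtain ⟨z, hz⟩ := (NormedSpace.sphere_nonempty (x := (0 : ℂ)) (r := ρ)).2 hρ.le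
    exact ⟨z, sphere_subset_closedBall hz, hne z hz⟩)
  have hzero : ∀ a, a ∈ closedBall (0 : ℂ) ρ → (S a = 0 ↔ a ∈ F) := by
    intro a ha
    rw [heq a ha, mul_eq_zero, or_iff_left (hE0 a ha), Finset.prod_eq_zero_iff]
    constructor
    · rintro ⟨b, hb, hab⟩
      have := pow_eq_zero_iff (by have := (hF b hb).2; omega) |>.1 hab
      rw [sub_eq_zero] at this
      rwa [this]
    · intro h
      exact ⟨a, h, by rw [sub_self, zero_pow (by have := (hF a h).2; omega)]⟩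
  have hball : ∀ a ∈ F, a ∈ ball (0 : ℂ) ρ := by
    intro a ha
    have h1 := (hF a ha).1
    rcases (mem_closedBall.1 h1).lt_or_eq with h2 | h2
    · exact h2
    · exact absurd ((hzero a h1).2 ha) (hne a h2)
  refine ⟨F, m, fun a => ⟨fun ha => ⟨hball a ha, (hzero a (hF a ha).1).2 ha⟩, fun ha =>
    (hzero a (ball_subset_closedBall ha.1)).1 ha.2⟩, fun a ha => (hF a ha).2, fun u hu => ?_⟩
  -- logarithmic derivative on the circle
  have hld : ∀ z ∈ sphere (0 : ℂ) ρ, deriv S z / S z =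
      (∑ a ∈ F, (m a : ℂ) * (z - a)⁻¹) + deriv E z / E z := by
    intro z hz
    have hzU : z ∈ closedBall (0 : ℂ) ρ := sphere_subset_closedBall hz
    have hP : AnalyticAt ℂ (fun w => (∏ a ∈ F, (w - a) ^ m a) * E w) z :=
      (Finset.analyticAt_fun_prod _ (fun a _ => by fun_prop)).mul (hE z hzU)
    have hfreq : ∃ᶠ w in 𝓝[≠] z, S w = (∏ a ∈ F, (w - a) ^ m a) * E w := by
      -- points of the segment from the centre
      have h1 : Tendsto (fun n : ℕ => ((1 - 1 / ((n : ℝ) + 1) : ℝ) : ℂ) * z) atTop (𝓝[≠] z) := by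
        rw [tendsto_nhdsWithin_iff]
        constructor
        · have h2 : Tendsto (fun n : ℕ => (1 - 1 / ((n : ℝ) + 1) : ℝ)) atTop (𝓝 (1 - 0)) :=
            tendsto_const_nhds.sub tendsto_one_div_add_atTop_nhds_zero_nat
          have h3 := ((continuous_ofReal.tendsto _).comp h2).mul_const z
          simpa using h3
        · refine Eventually.of_forall (fun n => ?_)
          have hz0 : z ≠ 0 := by
            intro h0
            rw [h0, mem_sphere, dist_self] at hz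
            exact hρ.ne hz
          simp only [mem_compl_iff, mem_singleton_iff]
          intro h4
          have h5 : (((1 - 1 / ((n : ℝ) + 1) : ℝ) : ℂ) - 1) * z = 0 := by
            rw [sub_mul, one_mul, h4, sub_self]
          rcases mul_eq_zero.1 h5 with h6 | h6
          · have h7 : (1 - 1 / ((n : ℝ) + 1) : ℝ) = 1 := by
              exact_mod_cast sub_eq_zero.1 h6
            have h8 : (0 : ℝ) < 1 / ((n : ℝ) + 1) := by positivity
            linarith
          · exact hz0 h6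
      refine h1.frequently (Eventually.frequently (Eventually.of_forall (fun n => ?_)))
      refine heq _ ?_
      rw [mem_closedBall, dist_zero_right, norm_mul, Complex.norm_real, Real.norm_eq_abs]
      have hn : ‖z‖ = ρ := by simpa using hz
      rw [hn]
      have h8 : (0 : ℝ) < 1 / ((n : ℝ) + 1) := by positivity
      have h9 : 1 / ((n : ℝ) + 1) ≤ 1 := by
        rw [div_le_one (by positivity)]
        have : (0 : ℝ) ≤ n := Nat.cast_nonneg n
        linarith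
      rw [abs_of_nonneg (by linarith)]
      nlinarith
    have hev := ((hS z hzU).frequently_eq_iff_eventually_eq hP).1 hfreq
    have hne' : ∀ a ∈ F, z - a ≠ 0 := by
      intro a ha h0
      have h1 := hball a ha
      rw [sub_eq_zero] at h0
      rw [← h0, mem_ball] at h1
      exact (ne_of_lt h1) hz
    have h1 : deriv S z / S z = logDeriv (fun w => (∏ a ∈ F, (w - a) ^ m a) * E w) z := by
      have hev' : S =ᶠ[𝓝 z] fun w => (∏ a ∈ F, (w - a) ^ m a) * E w := hev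
      rw [logDeriv_apply, hev'.deriv_eq, hev'.self_of_nhds]
    rw [h1, logDeriv_mul, logDeriv_prod]
    · rw [← logDeriv_apply]
      congr 1
      refine Finset.sum_congr rfl (fun a ha => ?_)
      rw [logDeriv_fun_pow (by fun_prop), logDeriv_apply]
      simp [div_eq_mul_inv]
    · intro a ha
      exact pow_ne_zero _ (hne' a ha)
    · intro a ha
      fun_prop
    · rw [Finset.prod_ne_zero_iff]
      intro a ha
      exact pow_ne_zero _ (hne' a ha)
    · exact hE0 z hzU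
    · fun_prop
    · exact (hE z hzU).differentiableAt
  have hcont : ∀ a ∈ F, ContinuousOn (fun z : ℂ => (m a : ℂ) * ((z - a)⁻¹ * u z)) (sphere 0 ρ) := by
    intro a ha
    refine continuousOn_const.mul (ContinuousOn.mul ?_ (hu.continuousOn.mono
      sphere_subset_closedBall))
    refine ContinuousOn.inv₀ (by fun_prop) (fun z hz h0 => ?_)
    have h1 := hball a ha
    rw [sub_eq_zero] at h0
    rw [← h0, mem_ball] at h1
    exact (ne_of_lt h1) hz
  have hEan : AnalyticOnNhd ℂ (fun z => u z * (deriv E z / E z)) (closedBall 0 ρ) :=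
    fun z hz => (hu z hz).mul (((hE z hz).deriv).div (hE z hz) (hE0 z hz))
  have h1 : ∮ z in C(0, ρ), u z * (deriv S z / S z) =
      ∮ z in C(0, ρ), ((∑ a ∈ F, (m a : ℂ) * ((z - a)⁻¹ * u z)) + u z * (deriv E z / E z)) := by
    refine circleIntegral.integral_congr hρ.le (fun z hz => ?_)
    rw [hld z hz, mul_add, Finset.mul_sum]
    congr 1
    refine Finset.sum_congr rfl (fun a _ => ?_)
    ring
  rw [h1, circleIntegral.integral_add, circleIntegral.integral_fun_sum]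
  · have h2 : ∮ z in C(0, ρ), u z * (deriv E z / E z) = 0 :=
      Complex.circleIntegral_eq_zero_of_differentiable_on_off_countable hρ.le countable_empty
        hEan.continuousOn (fun z hz => (hEan z (ball_subset_closedBall hz.1)).differentiableAt)
    rw [h2, add_zero, Finset.mul_sum]
    refine Finset.sum_congr rfl (fun a ha => ?_)
    rw [circleIntegral.integral_const_mul]
    have h3 := Complex.circleIntegral_sub_inv_smul_of_differentiable_on_off_countable
      countable_empty (hball a ha) hu.continuousOn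
      (fun z hz => (hu z (ball_subset_closedBall hz.1)).differentiableAt)
    simp only [smul_eq_mul] at h3
    rw [h3]
    ring
  · intro a ha
    exact (hcont a ha).circleIntegrable hρ.le
  · exact (continuousOn_finsetSum _ hcont).circleIntegrable hρ.le
  · exact (hEan.continuousOn.mono sphere_subset_closedBall).circleIntegrable hρ.le

/-! ### Two variables -/

/-- analytic in the second variable -/
lemma analytic_slice {W : Set (ℂ × ℂ)} (hW : IsOpen W) {s : ℂ × ℂ → ℂ}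
    (hs : DifferentiableOn ℂ s W) {z : ℂ} {K : Set ℂ} (hK : ∀ w ∈ K, (z, w) ∈ W) :
    AnalyticOnNhd ℂ (fun w => s (z, w)) K := by
  intro w hw
  have h1 : AnalyticAt ℂ s (z, w) :=
    (Crest.Agent.R266.SCV.analyticOnNhd_of_differentiableOn hW hs) _ (hK w hw)
  have h2 : AnalyticAt ℂ (fun w : ℂ => (z, w)) w := by fun_prop
  exact h1.comp h2

/-- the derivative in the second variable as a value of the Fréchet derivative -/
lemma deriv_slice {W : Set (ℂ × ℂ)} (hW : IsOpen W) {s : ℂ × ℂ → ℂ}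
    (hs : DifferentiableOn ℂ s W) {z w : ℂ} (h : (z, w) ∈ W) :
    deriv (fun w => s (z, w)) w = fderiv ℂ s (z, w) (0, 1) := by
  have h1 : HasFDerivAt s (fderiv ℂ s (z, w)) (z, w) :=
    (hs.differentiableAt (hW.mem_nhds h)).hasFDerivAt
  have h2 : HasDerivAt (fun w : ℂ => ((z, w) : ℂ × ℂ)) ((0, 1) : ℂ × ℂ) w :=
    (hasDerivAt_const w z).prodMk (hasDerivAt_id w)
  exact (h1.comp_hasDerivAt w h2).deriv

/-- **Trace theorem.** Over a disc on which `s` has no zero on the lateral boundary of a box, the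
number of zeros is constant and the traces of holomorphic functions are holomorphic. -/
theorem trace_box {W : Set (ℂ × ℂ)} (hW : IsOpen W) {s : ℂ × ℂ → ℂ}
    (hs : DifferentiableOn ℂ s W) {δ ρ : ℝ} (hδ : 0 < δ) (hρ : 0 < ρ)
    (hbox : ∀ z ∈ ball (0 : ℂ) δ, ∀ w ∈ closedBall (0 : ℂ) ρ, (z, w) ∈ W)
    (hne : ∀ z ∈ ball (0 : ℂ) δ, ∀ w ∈ sphere (0 : ℂ) ρ, s (z, w) ≠ 0) :
    ∃ (F : ℂ → Finset ℂ) (m : ℂ → ℂ → ℕ) (d : ℕ),
      (∀ z ∈ ball (0 : ℂ) δ, ∀ a, a ∈ F z ↔ a ∈ ball 0 ρ ∧ s (z, a) = 0) ∧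
      (∀ z ∈ ball (0 : ℂ) δ, ∀ a ∈ F z, 1 ≤ m z a) ∧
      (∀ z ∈ ball (0 : ℂ) δ, ∑ a ∈ F z, m z a = d) ∧
      ∀ u : ℂ × ℂ → ℂ, DifferentiableOn ℂ u W →
        DifferentiableOn ℂ (fun z => ∑ a ∈ F z, (m z a : ℂ) * u (z, a)) (ball 0 δ) := by
  classical
  have hex : ∀ z : ℂ, ∃ (F : Finset ℂ) (m : ℂ → ℕ), z ∈ ball (0 : ℂ) δ →
      (∀ a, a ∈ F ↔ a ∈ ball 0 ρ ∧ s (z, a) = 0) ∧ (∀ a ∈ F, 1 ≤ m a) ∧
      ∀ u : ℂ → ℂ, AnalyticOnNhd ℂ u (closedBall 0 ρ) →
        ∮ w in C(0, ρ), u w * (deriv (fun w => s (z, w)) w / s (z, w)) =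
          2 * π * I * ∑ a ∈ F, m a * u a := by
    intro z
    by_cases hz : z ∈ ball (0 : ℂ) δ
    · obtain ⟨F, m, h1, h2, h3⟩ := exists_trace hρ (analytic_slice hW hs (hbox z hz)) (hne z hz)
      exact ⟨F, m, fun _ => ⟨h1, h2, h3⟩⟩
    · exact ⟨∅, 0, fun h => (hz h).elim⟩
  choose F m hFm using hex
  -- holomorphy of the contour integrals
  have hhol : ∀ u : ℂ × ℂ → ℂ, DifferentiableOn ℂ u W →
      DifferentiableOn ℂ (fun z => ∑ a ∈ F z, (m z a : ℂ) * u (z, a)) (ball 0 δ) := by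
    intro u hu
    have hsan := Crest.Agent.R266.SCV.analyticOnNhd_of_differentiableOn hW hs
    have huan := Crest.Agent.R266.SCV.analyticOnNhd_of_differentiableOn hW hu
    set f : ℂ × ℝ → ℂ := fun p => deriv (circleMap 0 ρ) p.2 *
      (u (p.1, circleMap 0 ρ p.2) * (fderiv ℂ s (p.1, circleMap 0 ρ p.2) (0, 1) /
        s (p.1, circleMap 0 ρ p.2))) with hf
    have hcirc : ∀ θ : ℝ, circleMap 0 ρ θ ∈ closedBall (0 : ℂ) ρ := fun θ =>
      circleMap_mem_closedBall 0 hρ.le θ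
    have hcirc' : ∀ θ : ℝ, circleMap 0 ρ θ ∈ sphere (0 : ℂ) ρ := fun θ =>
      circleMap_mem_sphere 0 hρ.le θ
    have han : ∀ z ∈ ball (0 : ℂ) δ, ∀ w ∈ sphere (0 : ℂ) ρ,
        AnalyticAt ℂ (fun q : ℂ × ℂ => u q * (fderiv ℂ s q (0, 1) / s q)) (z, w) := by
      intro z hz w hw
      have hzw : (z, w) ∈ W := hbox z hz w (sphere_subset_closedBall hw)
      have h1 : AnalyticAt ℂ (fun q : ℂ × ℂ => fderiv ℂ s q (0, 1)) (z, w) :=
        ((ContinuousLinearMap.apply ℂ ℂ ((0, 1) : ℂ × ℂ)).analyticAt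
          (fderiv ℂ s (z, w))).comp (hsan _ hzw).fderiv
      exact (huan _ hzw).mul (h1.div (hsan _ hzw) (hne z hz w hw))
    have hcont : ContinuousOn f (ball 0 δ ×ˢ uIcc 0 (2 * π)) := by
      refine ContinuousOn.mul ?_ ?_
      · have : Continuous (fun θ : ℝ => deriv (circleMap 0 ρ) θ) := by
          simp only [deriv_circleMap]
          fun_prop
        exact (this.comp continuous_snd).continuousOn
      · intro p hp
        have h1 : ContinuousAt (fun q : ℂ × ℂ => u q * (fderiv ℂ s q (0, 1) / s q))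
            (p.1, circleMap 0 ρ p.2) := (han p.1 hp.1 _ (hcirc' p.2)).continuousAt
        have h2 : ContinuousAt (fun p : ℂ × ℝ => ((p.1, circleMap 0 ρ p.2) : ℂ × ℂ)) p := by
          have : Continuous (fun p : ℂ × ℝ => ((p.1, circleMap 0 ρ p.2) : ℂ × ℂ)) := by fun_prop
          exact this.continuousAt
        exact (ContinuousAt.comp (f := fun p : ℂ × ℝ => ((p.1, circleMap 0 ρ p.2) : ℂ × ℂ))
          h1 h2).continuousWithinAt
    have hdiff : ∀ θ ∈ uIcc 0 (2 * π), DifferentiableOn ℂ (fun z => f (z, θ)) (ball 0 δ) := by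
      intro θ _ z hz
      have h1 := (han z hz _ (hcirc' θ)).differentiableAt
      have h2 : DifferentiableAt ℂ (fun z : ℂ => ((z, circleMap 0 ρ θ) : ℂ × ℂ)) z := by fun_prop
      have h3 : DifferentiableAt ℂ (fun z : ℂ => u (z, circleMap 0 ρ θ) *
          (fderiv ℂ s (z, circleMap 0 ρ θ) (0, 1) / s (z, circleMap 0 ρ θ))) z :=
        DifferentiableAt.comp z (f := fun z : ℂ => ((z, circleMap 0 ρ θ) : ℂ × ℂ)) h1 h2
      exact (h3.const_mul (deriv (circleMap 0 ρ) θ)).differentiableWithinAt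
    have hint := (Crest.Agent.R266.SCV.analyticOnNhd_intervalIntegral isOpen_ball hcont
      hdiff).differentiableOn
    have h2 : DifferentiableOn ℂ (fun z => (2 * π * I : ℂ)⁻¹ *
        ∫ θ in (0 : ℝ)..(2 * π), f (z, θ)) (ball 0 δ) := hint.const_mul _
    refine h2.congr (fun z hz => ?_)
    have h3 := (hFm z hz).2.2 (fun w => u (z, w)) (analytic_slice hW hu (hbox z hz))
    have h4 : ∮ w in C(0, ρ), u (z, w) * (deriv (fun w => s (z, w)) w / s (z, w)) =
        ∫ θ in (0 : ℝ)..(2 * π), f (z, θ) := by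
      rw [circleIntegral]
      refine intervalIntegral.integral_congr (fun θ _ => ?_)
      simp only [hf, smul_eq_mul]
      rw [deriv_slice hW hs (hbox z hz _ (hcirc θ))]
    have hpi : (2 * π * I : ℂ) ≠ 0 := Complex.two_pi_I_ne_zero
    change ∑ a ∈ F z, (m z a : ℂ) * u (z, a) = _
    rw [← h4, h3, ← mul_assoc, inv_mul_cancel₀ hpi, one_mul]
  -- the degree is constant
  have hdeg : ∀ z ∈ ball (0 : ℂ) δ, ∑ a ∈ F z, m z a = ∑ a ∈ F 0, m 0 a := by
    have h1 := (hhol (fun _ => 1) (differentiableOn_const 1)).continuousOn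
    have h2 : ContinuousOn (fun z => ∑ a ∈ F z, m z a) (ball (0 : ℂ) δ) := by
      intro z hz
      have h3 := h1 z hz
      rw [ContinuousWithinAt, Metric.tendsto_nhds] at h3
      have h4 := h3 1 one_pos
      refine Tendsto.congr' (f₁ := fun _ => ∑ a ∈ F z, m z a) ?_ tendsto_const_nhds
      filter_upwards [h4] with w hw
      simp only [mul_one] at hw
      rw [dist_eq_norm] at hw
      have h5 : |(((((∑ a ∈ F w, m w a : ℕ) : ℤ) - ((∑ a ∈ F z, m z a : ℕ) : ℤ)) : ℤ) : ℝ)| < 1 := by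
        rw [← Complex.norm_intCast]
        push_cast
        exact hw
      have h6 : |((∑ a ∈ F w, m w a : ℕ) : ℤ) - ((∑ a ∈ F z, m z a : ℕ) : ℤ)| < 1 := by
        exact_mod_cast h5
      rw [Int.abs_lt_one_iff] at h6
      omega
    intro z hz
    exact (convex_ball (0 : ℂ) δ).isPreconnected.constant h2 hz (mem_ball_self hδ)
  exact ⟨F, m, _, fun z hz => (hFm z hz).1, fun z hz => (hFm z hz).2.1, hdeg, hhol⟩

/-- equality case of the triangle inequality for weighted sums -/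
lemma eq_of_sum_eq {F : Finset ℂ} {m : ℂ → ℕ} {v : ℂ → ℂ} {c : ℂ} (hm : ∀ a ∈ F, 1 ≤ m a)
    (hv : ∀ a ∈ F, ‖v a‖ ≤ ‖c‖) (hsum : ∑ a ∈ F, (m a : ℂ) * v a = (∑ a ∈ F, m a : ℕ) * c) :
    ∀ a ∈ F, v a = c := by
  have h1 : ∀ a ∈ F, ‖v a - c‖ ^ 2 ≤ 2 * ((starRingEnd ℂ) c * (c - v a)).re := by
    intro a ha
    have h2 : ‖v a - c‖ ^ 2 = ‖v a‖ ^ 2 - ‖c‖ ^ 2 + 2 * ((starRingEnd ℂ) c * (c - v a)).re := by
      rw [← Complex.normSq_eq_norm_sq, ← Complex.normSq_eq_norm_sq, ← Complex.normSq_eq_norm_sq]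
      simp only [Complex.normSq_apply, Complex.sub_re, Complex.sub_im, Complex.mul_re,
        Complex.conj_re, Complex.conj_im]
      ring
    have h3 : ‖v a‖ ^ 2 ≤ ‖c‖ ^ 2 := by
      have := hv a ha
      gcongr
    linarith
  have h2 : ∑ a ∈ F, (m a : ℝ) * ((starRingEnd ℂ) c * (c - v a)).re = 0 := by
    have h3 : ∑ a ∈ F, (m a : ℂ) * ((starRingEnd ℂ) c * (c - v a)) = 0 := by
      have h4 : ∀ a ∈ F, (m a : ℂ) * ((starRingEnd ℂ) c * (c - v a)) =
          (starRingEnd ℂ) c * ((m a : ℂ) * c - (m a : ℂ) * v a) := fun a _ => by ring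
      rw [Finset.sum_congr rfl h4, ← Finset.mul_sum, Finset.sum_sub_distrib, hsum,
        ← Finset.sum_mul]
      push_cast
      rw [sub_self, mul_zero]
    have h5 := congrArg Complex.re h3
    rw [Complex.re_sum] at h5
    simpa using h5
  have h3 : ∀ a ∈ F, 0 ≤ (m a : ℝ) * ((starRingEnd ℂ) c * (c - v a)).re := by
    intro a ha
    have h4 := h1 a ha
    have h5 := sq_nonneg ‖v a - c‖
    exact mul_nonneg (Nat.cast_nonneg _) (by linarith)
  intro a ha
  have h4 := (Finset.sum_eq_zero_iff_of_nonneg h3).1 h2 a ha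
  have h5 : (0 : ℝ) < m a := by
    have := hm a ha
    exact_mod_cast this
  have h6 : ((starRingEnd ℂ) c * (c - v a)).re = 0 := by
    rcases mul_eq_zero.1 h4 with h7 | h7
    · exact absurd h7 h5.ne'
    · exact h7
  have h7 := h1 a ha
  rw [h6, mul_zero] at h7
  have h8 : ‖v a - c‖ = 0 := by
    have := sq_nonneg ‖v a - c‖
    exact pow_eq_zero_iff two_ne_zero |>.1 (le_antisymm h7 this)
  exact sub_eq_zero.1 (norm_eq_zero.1 h8)

/-- a good box around a zero, in coordinates in which the first slice is not identically zero -/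
theorem exists_box {W : Set (ℂ × ℂ)} (hW : IsOpen W) {s : ℂ × ℂ → ℂ}
    (hs : DifferentiableOn ℂ s W) (h0 : ((0, 0) : ℂ × ℂ) ∈ W)
    (hne : ¬ ∀ᶠ w in 𝓝 (0 : ℂ), s (0, w) = 0) {N : Set (ℂ × ℂ)} (hN : N ∈ 𝓝 ((0, 0) : ℂ × ℂ)) :
    ∃ δ > 0, ∃ ρ > 0, (∀ z ∈ ball (0 : ℂ) δ, ∀ w ∈ closedBall (0 : ℂ) ρ, (z, w) ∈ W ∩ N) ∧
      (∀ z ∈ ball (0 : ℂ) δ, ∀ w ∈ sphere (0 : ℂ) ρ, s (z, w) ≠ 0) ∧
      (∀ w ∈ closedBall (0 : ℂ) ρ, s (0, w) = 0 → w = 0) := by
  have h1 : W ∩ N ∈ 𝓝 ((0, 0) : ℂ × ℂ) := inter_mem (hW.mem_nhds h0) hN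
  obtain ⟨r, hr, hball⟩ := Metric.mem_nhds_iff.1 h1
  have hbox : ∀ z w : ℂ, ‖z‖ < r → ‖w‖ < r → (z, w) ∈ W ∩ N := by
    intro z w hz hw
    refine hball ?_
    rw [mem_ball, Prod.dist_eq]
    simpa using ⟨hz, hw⟩
  -- isolated zero of the slice
  have hsl : AnalyticAt ℂ (fun w => s (0, w)) 0 :=
    analytic_slice hW hs (K := {0}) (fun w hw => by rw [mem_singleton_iff.1 hw]; exact h0) 0 rfl
  have hiso : ∀ᶠ w in 𝓝[≠] (0 : ℂ), s (0, w) ≠ 0 := by
    rcases hsl.eventually_eq_zero_or_eventually_ne_zero with h2 | h2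
    · exact absurd h2 hne
    · exact h2
  rw [eventually_nhdsWithin_iff] at hiso
  obtain ⟨r', hr', hiso'⟩ := Metric.eventually_nhds_iff.1 hiso
  set ρ := min r r' / 2 with hρ
  have hρ0 : 0 < ρ := by positivity
  have hρr : ρ < r := by
    have := min_le_left r r'
    have : 0 < min r r' := lt_min hr hr'
    simp only [hρ]
    linarith
  have hρr' : ρ < r' := by
    have := min_le_right r r'
    have : 0 < min r r' := lt_min hr hr'
    simp only [hρ]
    linarith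
  have hz0 : ∀ w ∈ closedBall (0 : ℂ) ρ, s (0, w) = 0 → w = 0 := by
    intro w hw h2
    by_contra h3
    exact hiso' (y := w) (lt_of_le_of_lt (mem_closedBall.1 hw) hρr') h3 h2
  -- tube lemma on the circle
  have htube : ∀ᶠ z in 𝓝 (0 : ℂ), ∀ w ∈ sphere (0 : ℂ) ρ, s (z, w) ≠ 0 := by
    refine (isCompact_sphere (0 : ℂ) ρ).eventually_forall_of_forall_eventually (fun w hw => ?_)
    have hw' : w ∈ closedBall (0 : ℂ) ρ := sphere_subset_closedBall hw
    have hwW : ((0, w) : ℂ × ℂ) ∈ W := (hbox 0 w (by simpa using hr) (by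
      have : ‖w‖ = ρ := by simpa using hw
      rw [this]; exact hρr)).1
    have hne0 : s (0, w) ≠ 0 := by
      intro h2
      have := hz0 w hw' h2
      rw [this, mem_sphere, dist_self] at hw
      exact hρ0.ne hw
    exact (hs.continuousOn.continuousAt (hW.mem_nhds hwW)).eventually_ne hne0
  obtain ⟨δ', hδ', hδ⟩ := Metric.eventually_nhds_iff.1 htube
  refine ⟨min δ' r, lt_min hδ' hr, ρ, hρ0, fun z hz w hw => ?_, fun z hz w hw => ?_, hz0⟩
  · refine hbox z w ?_ ?_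
    · have : ‖z‖ < min δ' r := by simpa using hz
      exact this.trans_le (min_le_right _ _)
    · have : ‖w‖ ≤ ρ := by simpa using hw
      exact this.trans_lt hρr
  · exact hδ (lt_of_lt_of_le (mem_ball.1 hz) (min_le_left _ _)) w hw

/-- zero sets have no isolated points: roots over every nearby `z` -/
theorem exists_root {W : Set (ℂ × ℂ)} (hW : IsOpen W) {s : ℂ × ℂ → ℂ}
    (hs : DifferentiableOn ℂ s W) (h0 : ((0, 0) : ℂ × ℂ) ∈ W) (hs0 : s (0, 0) = 0)
    (hne : ¬ ∀ᶠ w in 𝓝 (0 : ℂ), s (0, w) = 0) {N : Set (ℂ × ℂ)} (hN : N ∈ 𝓝 ((0, 0) : ℂ × ℂ)) :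
    ∀ᶠ z in 𝓝 (0 : ℂ), ∃ w, (z, w) ∈ N ∧ s (z, w) = 0 := by
  obtain ⟨δ, hδ, ρ, hρ, h1, h2, h3⟩ := exists_box hW hs h0 hne hN
  obtain ⟨F, m, d, hF, hm, hd, -⟩ := trace_box hW hs hδ hρ (fun z hz w hw => (h1 z hz w hw).1) h2
  have hd1 : 1 ≤ d := by
    rw [← hd 0 (mem_ball_self hδ)]
    have h4 : (0 : ℂ) ∈ F 0 := (hF 0 (mem_ball_self hδ) 0).2 ⟨mem_ball_self hρ, hs0⟩
    exact (hm 0 (mem_ball_self hδ) 0 h4).trans
      (Finset.single_le_sum (f := fun a => m 0 a) (fun _ _ => Nat.zero_le _) h4)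
  filter_upwards [ball_mem_nhds (0 : ℂ) hδ] with z hz
  have h5 : (F z).Nonempty := by
    by_contra h6
    rw [Finset.not_nonempty_iff_eq_empty] at h6
    have := hd z hz
    rw [h6, Finset.sum_empty] at this
    omega
  obtain ⟨a, ha⟩ := h5
  have h6 := (hF z hz a).1 ha
  exact ⟨a, (h1 z hz a (ball_subset_closedBall h6.1)).2, h6.2⟩

/-- **Local maximum principle on a zero set**, in coordinates. -/
theorem lmp_prod {W : Set (ℂ × ℂ)} (hW : IsOpen W) {s u : ℂ × ℂ → ℂ}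
    (hs : DifferentiableOn ℂ s W) (hu : DifferentiableOn ℂ u W) (h0 : ((0, 0) : ℂ × ℂ) ∈ W)
    (hne : ¬ ∀ᶠ w in 𝓝 (0 : ℂ), s (0, w) = 0)
    (hmax : ∀ᶠ q in 𝓝 ((0, 0) : ℂ × ℂ), s q = 0 → ‖u q‖ ≤ ‖u (0, 0)‖) :
    ∀ᶠ q in 𝓝 ((0, 0) : ℂ × ℂ), s q = 0 → u q = u (0, 0) := by
  obtain ⟨δ, hδ, ρ, hρ, h1, h2, h3⟩ := exists_box hW hs h0 hne hmax
  obtain ⟨F, m, d, hF, hm, hd, htr⟩ := trace_box hW hs hδ hρ
    (fun z hz w hw => (h1 z hz w hw).1) h2
  set c := u (0, 0) with hc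
  set P : ℂ → ℂ := fun z => ∑ a ∈ F z, (m z a : ℂ) * u (z, a) with hP
  have hPd : DifferentiableOn ℂ P (ball 0 δ) := htr u hu
  have hval : ∀ z ∈ ball (0 : ℂ) δ, ∀ a ∈ F z, ‖u (z, a)‖ ≤ ‖c‖ := by
    intro z hz a ha
    have h4 := (hF z hz a).1 ha
    exact (h1 z hz a (ball_subset_closedBall h4.1)).2 h4.2
  have hPle : ∀ z ∈ ball (0 : ℂ) δ, ‖P z‖ ≤ d * ‖c‖ := by
    intro z hz
    calc ‖P z‖ ≤ ∑ a ∈ F z, ‖(m z a : ℂ) * u (z, a)‖ := norm_sum_le _ _
      _ ≤ ∑ a ∈ F z, (m z a : ℝ) * ‖c‖ := by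
          refine Finset.sum_le_sum (fun a ha => ?_)
          rw [norm_mul, Complex.norm_natCast]
          have := hval z hz a ha
          gcongr
      _ = d * ‖c‖ := by
          rw [← Finset.sum_mul, ← hd z hz]
          push_cast
          rfl
  have hmem0 : (0 : ℂ) ∈ ball (0 : ℂ) δ := mem_ball_self hδ
  have hP0 : P 0 = d * c := by
    have h4 : ∀ a ∈ F 0, (m 0 a : ℂ) * u (0, a) = (m 0 a : ℂ) * c := by
      intro a ha
      have h5 := (hF 0 hmem0 a).1 ha
      have h6 := h3 a (ball_subset_closedBall h5.1) h5.2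
      rw [h6]
    simp only [hP]
    rw [Finset.sum_congr rfl h4, ← Finset.sum_mul, ← hd 0 hmem0]
    push_cast
    rfl
  have hlm : IsLocalMax (norm ∘ P) 0 := by
    filter_upwards [ball_mem_nhds (0 : ℂ) hδ] with z hz
    simp only [Function.comp_apply]
    rw [hP0, norm_mul, Complex.norm_natCast]
    exact hPle z hz
  have hev := Complex.eventually_eq_of_isLocalMax_norm (f := P) (c := 0)
    (by
      filter_upwards [ball_mem_nhds (0 : ℂ) hδ] with z hz
      exact hPd.differentiableAt (isOpen_ball.mem_nhds hz)) hlm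
  have hfst : Tendsto (Prod.fst : ℂ × ℂ → ℂ) (𝓝 ((0, 0) : ℂ × ℂ)) (𝓝 0) :=
    continuous_fst.tendsto _
  have hsnd : Tendsto (Prod.snd : ℂ × ℂ → ℂ) (𝓝 ((0, 0) : ℂ × ℂ)) (𝓝 0) :=
    continuous_snd.tendsto _
  filter_upwards [hfst.eventually hev, hfst.eventually (ball_mem_nhds (0 : ℂ) hδ),
    hsnd.eventually (ball_mem_nhds (0 : ℂ) hρ)] with q hq1 hq2 hq3 hq4
  have hz : q.1 ∈ ball (0 : ℂ) δ := hq2
  have ha : q.2 ∈ F q.1 := (hF q.1 hz q.2).2 ⟨hq3, hq4⟩
  refine eq_of_sum_eq (F := F q.1) (m := m q.1) (v := fun a => u (q.1, a)) (hm q.1 hz)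
    (hval q.1 hz) ?_ q.2 ha
  rw [hd q.1 hz, ← hP0]
  exact hq1

end Crest.Agent.R275.LMP631
end
end

-- ▼ part R275/LMPb_631
section

/-!
R275 (S0418), helper631: the local maximum principle on zero sets in `ℂ²` and on complex surfaces,
and the maximum principle on the ends of zero sets.
-/

set_option autoImplicit false
set_option linter.unusedSectionVars false

open Set Filter Topology Metric
open scoped Manifold ContDiff

noncomputable section

namespace Crest.Agent.R275.LMP631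

open Crest.AlgGeometry.Surface Crest.Agent.R275.Dv69

/-! ### Two-dimensional spaces -/

section TwoDim

variable {E : Type*} [NormedAddCommGroup E] [NormedSpace ℂ E]

lemma exists_coord (hE : Module.finrank ℂ E = 2) {e : E} (he : e ≠ 0) :
    ∃ L : (ℂ × ℂ) ≃L[ℂ] E, L (0, 1) = e := by
  have hfd : FiniteDimensional ℂ E := Module.finite_of_finrank_pos (by omega)
  obtain ⟨f, hf⟩ : ∃ f : E, f ∉ Submodule.span ℂ {e} := by
    by_contra hcon
    push Not at hcon
    have h1 : Submodule.span ℂ {e} = ⊤ := by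
      rw [eq_top_iff]
      exact fun x _ => hcon x
    have h2 := finrank_span_singleton (K := ℂ) he
    rw [h1, finrank_top, hE] at h2
    omega
  let T : (ℂ × ℂ) →ₗ[ℂ] E :=
    { toFun := fun q => q.1 • f + q.2 • e
      map_add' := by
        intro a b
        simp only [Prod.fst_add, Prod.snd_add, add_smul]
        abel
      map_smul' := by
        intro c a
        simp only [Prod.smul_fst, Prod.smul_snd, smul_eq_mul, RingHom.id_apply, smul_add,
          smul_smul] }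
  have hT : Function.Injective T := by
    rw [injective_iff_map_eq_zero]
    intro q hq
    have h1 : q.1 • f + q.2 • e = 0 := hq
    have h2 : q.1 = 0 := by
      by_contra h3
      refine hf ?_
      rw [Submodule.mem_span_singleton]
      refine ⟨-(q.1⁻¹ * q.2), ?_⟩
      have h4 : q.1 • f = -(q.2 • e) := eq_neg_of_add_eq_zero_left h1
      have h5 : f = q.1⁻¹ • (q.1 • f) := by rw [smul_smul, inv_mul_cancel₀ h3, one_smul]
      rw [h5, h4, smul_neg, smul_smul, neg_smul]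
    rw [h2, zero_smul, zero_add, smul_eq_zero] at h1
    rcases h1 with h1 | h1
    · exact Prod.ext h2 h1
    · exact absurd h1 he
  have hfin : Module.finrank ℂ (ℂ × ℂ) = Module.finrank ℂ E := by
    rw [hE]
    simp
  let L := LinearEquiv.ofInjectiveOfFinrankEq T hT hfin
  refine ⟨L.toContinuousLinearEquiv, ?_⟩
  change T (0, 1) = e
  change (0 : ℂ) • f + (1 : ℂ) • e = e
  rw [zero_smul, zero_add, one_smul]

/-- good linear coordinates at a point for a function which is not locally zero -/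
lemma exists_good_coord (hE : Module.finrank ℂ E = 2) {U : Set E} (hU : IsOpen U)
    {s : E → ℂ} (hs : DifferentiableOn ℂ s U) {p : E} (hp : p ∈ U)
    (hne : ¬ ∀ᶠ q in 𝓝 p, s q = 0) :
    ∃ L : (ℂ × ℂ) ≃L[ℂ] E, ¬ ∀ᶠ w in 𝓝 (0 : ℂ), s (p + L (0, w)) = 0 := by
  obtain ⟨r, hr, hball⟩ := Metric.isOpen_iff.1 hU p hp
  by_cases hsp : s p = 0
  · obtain ⟨q, hq, hqr⟩ : ∃ q, s q ≠ 0 ∧ q ∈ ball p r := by
      have h1 : ∃ᶠ q in 𝓝 p, s q ≠ 0 := by
        intro h2
        exact hne (h2.mono (fun q hq => not_not.1 hq))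
      exact (h1.and_eventually (ball_mem_nhds p hr)).exists
    have hqp : q - p ≠ 0 := by
      intro h1
      rw [sub_eq_zero] at h1
      rw [h1] at hq
      exact hq hsp
    obtain ⟨L, hL⟩ := exists_coord hE hqp
    refine ⟨L, fun hev => ?_⟩
    have hLw : ∀ w : ℂ, L (0, w) = w • (q - p) := by
      intro w
      rw [← hL, ← map_smul]
      simp
    have hn : 0 < ‖q - p‖ := norm_pos_iff.2 hqp
    have hn1 : ‖q - p‖ < r := by simpa [dist_eq_norm] using hqr
    set R := r / ‖q - p‖ with hR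
    have hR1 : 1 < R := by rw [hR, one_lt_div hn]; exact hn1
    have hmaps : MapsTo (fun w : ℂ => p + w • (q - p)) (ball 0 R) U := by
      intro w hw
      apply hball
      rw [mem_ball_zero_iff] at hw
      rw [mem_ball, dist_eq_norm, add_sub_cancel_left, norm_smul]
      calc ‖w‖ * ‖q - p‖ < R * ‖q - p‖ := by gcongr
        _ = r := by rw [hR]; field_simp
    have hd : DifferentiableOn ℂ (fun w : ℂ => s (p + w • (q - p))) (ball 0 R) :=
      hs.comp (by fun_prop) hmaps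
    have h2 := (hd.analyticOnNhd isOpen_ball).eqOn_zero_of_preconnected_of_eventuallyEq_zero
      (convex_ball (0 : ℂ) R).isPreconnected (mem_ball_self (by linarith)) (by
        filter_upwards [hev] with w hw
        rw [hLw] at hw
        simpa using hw)
    have h3 := h2 (x := (1 : ℂ)) (by rw [mem_ball_zero_iff, norm_one]; exact hR1)
    simp only [one_smul, add_sub_cancel, Pi.zero_apply] at h3
    exact hq h3
  · have hfd : FiniteDimensional ℂ E := Module.finite_of_finrank_pos (by omega)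
    obtain ⟨e, he⟩ : ∃ e : E, e ≠ 0 :=
      Module.finrank_pos_iff_exists_ne_zero.1 (by omega : 0 < Module.finrank ℂ E)
    obtain ⟨L, -⟩ := exists_coord hE he
    refine ⟨L, fun hev => hsp ?_⟩
    have := hev.self_of_nhds
    have h0 : ((0, 0) : ℂ × ℂ) = 0 := rfl
    rw [h0, map_zero, add_zero] at this
    exact this

/-- the change of coordinates `(z, w) ↦ p + L (z, w)` -/
lemma tendsto_coord (L : (ℂ × ℂ) ≃L[ℂ] E) (p : E) :
    Tendsto (fun q : ℂ × ℂ => p + L q) (𝓝 ((0, 0) : ℂ × ℂ)) (𝓝 p) := by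
  have h1 : Continuous (fun q : ℂ × ℂ => p + L q) := by fun_prop
  have h2 := h1.tendsto ((0, 0) : ℂ × ℂ)
  have h0 : ((0, 0) : ℂ × ℂ) = 0 := rfl
  rw [h0, map_zero, add_zero] at h2
  exact h2

lemma tendsto_coord_symm (L : (ℂ × ℂ) ≃L[ℂ] E) (p : E) :
    Tendsto (fun q : E => L.symm (q - p)) (𝓝 p) (𝓝 ((0, 0) : ℂ × ℂ)) := by
  have h1 : Continuous (fun q : E => L.symm (q - p)) := by fun_prop
  have h2 := h1.tendsto p
  rw [sub_self, map_zero] at h2
  exact h2

/-- **Local maximum principle on the zero set** of a holomorphic function in a two-dimensional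
space: if `|u| ≤ |u p|` on `{s = 0}` near `p`, then `u = u p` on `{s = 0}` near `p`. -/
theorem lmp (hE : Module.finrank ℂ E = 2) {U : Set E} (hU : IsOpen U) {s u : E → ℂ}
    (hs : DifferentiableOn ℂ s U) (hu : DifferentiableOn ℂ u U) {p : E} (hp : p ∈ U)
    (hne : ¬ ∀ᶠ q in 𝓝 p, s q = 0) (hmax : ∀ᶠ q in 𝓝 p, s q = 0 → ‖u q‖ ≤ ‖u p‖) :
    ∀ᶠ q in 𝓝 p, s q = 0 → u q = u p := by
  obtain ⟨L, hL⟩ := exists_good_coord hE hU hs hp hne
  have h00 : p + L (0, 0) = p := by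
    have h0 : ((0, 0) : ℂ × ℂ) = 0 := rfl
    rw [h0, map_zero, add_zero]
  have hc : Continuous (fun q : ℂ × ℂ => p + L q) := by fun_prop
  have hd : Differentiable ℂ (fun q : ℂ × ℂ => p + L q) := by fun_prop
  have key := lmp_prod (W := (fun q : ℂ × ℂ => p + L q) ⁻¹' U) (hU.preimage hc)
    (s := fun q => s (p + L q)) (u := fun q => u (p + L q))
    (hs.comp hd.differentiableOn (fun q hq => hq)) (hu.comp hd.differentiableOn (fun q hq => hq))
    (by change p + L (0, 0) ∈ U; rw [h00]; exact hp) hL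
    (by
      filter_upwards [(tendsto_coord L p).eventually hmax] with q hq h1
      rw [h00]
      exact hq h1)
  filter_upwards [(tendsto_coord_symm L p).eventually key] with q hq h1
  have h2 : p + L (L.symm (q - p)) = q := by
    rw [L.apply_symm_apply]
    abel
  rw [h2, h00] at hq
  exact hq h1

/-- zero sets have no isolated points -/
theorem zero_accumulates (hE : Module.finrank ℂ E = 2) {U : Set E} (hU : IsOpen U) {s : E → ℂ}
    (hs : DifferentiableOn ℂ s U) {p : E} (hp : p ∈ U) (hsp : s p = 0) :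
    ∃ᶠ q in 𝓝[≠] p, s q = 0 := by
  have hfd : FiniteDimensional ℂ E := Module.finite_of_finrank_pos (by omega)
  by_cases hne : ∀ᶠ q in 𝓝 p, s q = 0
  · obtain ⟨e, he⟩ : ∃ e : E, e ≠ 0 :=
      Module.finrank_pos_iff_exists_ne_zero.1 (by omega : 0 < Module.finrank ℂ E)
    have : Nontrivial E := ⟨e, 0, he⟩
    have : (𝓝[≠] p).NeBot := Module.punctured_nhds_neBot ℂ E p
    exact (hne.filter_mono nhdsWithin_le_nhds).frequently
  · obtain ⟨L, hL⟩ := exists_good_coord hE hU hs hp hne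
    have h00 : p + L (0, 0) = p := by
      have h0 : ((0, 0) : ℂ × ℂ) = 0 := rfl
      rw [h0, map_zero, add_zero]
    have hc : Continuous (fun q : ℂ × ℂ => p + L q) := by fun_prop
    have hd : Differentiable ℂ (fun q : ℂ × ℂ => p + L q) := by fun_prop
    intro hcon
    rw [eventually_nhdsWithin_iff] at hcon
    have h1 := exists_root (W := (fun q : ℂ × ℂ => p + L q) ⁻¹' U) (hU.preimage hc)
      (s := fun q => s (p + L q)) (hs.comp hd.differentiableOn (fun q hq => hq))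
      (by change p + L (0, 0) ∈ U; rw [h00]; exact hp) (by rw [h00]; exact hsp) hL
      (N := {q | p + L q ∈ ({p}ᶜ : Set E) → ¬ s (p + L q) = 0})
      ((tendsto_coord L p).eventually hcon)
    have h2 : ∀ᶠ z in 𝓝[≠] (0 : ℂ), ∃ w, (z, w) ∈ {q | p + L q ∈ ({p}ᶜ : Set E) →
        ¬ s (p + L q) = 0} ∧ s (p + L (z, w)) = 0 := h1.filter_mono nhdsWithin_le_nhds
    obtain ⟨z, ⟨w, hw1, hw2⟩, hz⟩ := (h2.and self_mem_nhdsWithin).exists
    refine hw1 ?_ hw2
    simp only [mem_compl_iff, mem_singleton_iff]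
    intro h3
    have h4 : L (z, w) = 0 := by
      have : p + L (z, w) = p + 0 := by rw [h3, add_zero]
      exact add_left_cancel this
    have h5 : ((z, w) : ℂ × ℂ) = 0 := by
      rw [← map_zero L] at h4
      exact L.injective h4
    exact hz (congrArg Prod.fst h5)

end TwoDim

/-! ### Complex surfaces -/

section Surface

variable {Y : Type*} [TopologicalSpace Y] [ChartedSpace C2 Y] [IsManifold 𝓘(ℂ, C2) 1 Y]

lemma finrank_C2 : Module.finrank ℂ C2 = 2 := by simp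

/-- the local maximum principle on the zero set of a holomorphic function germ -/
theorem lmp_mfd {s u : Y → ℂ} {p : Y} (hs : HolN s p) (hu : HolN u p)
    (hne : ¬ s =ᶠ[𝓝 p] 0) (hmax : ∀ᶠ q in 𝓝 p, s q = 0 → ‖u q‖ ≤ ‖u p‖) :
    ∀ᶠ q in 𝓝 p, s q = 0 → u q = u p := by
  set e := chartAt C2 p with he_def
  have he : e ∈ atlas C2 Y := chart_mem_atlas C2 p
  have hp : p ∈ e.source := mem_chart_source C2 p
  have h1 := (holN_iff_chart he hp s).1 hs
  have h2 := (holN_iff_chart he hp u).1 hu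
  obtain ⟨r, hr, hball⟩ := Metric.eventually_nhds_iff_ball.1
    ((h1.and h2).and (e.open_target.mem_nhds (e.map_source hp)))
  have hds : DifferentiableOn ℂ (fun z => s (e.symm z)) (ball (e p) r) :=
    fun z hz => (hball z hz).1.1.differentiableWithinAt
  have hdu : DifferentiableOn ℂ (fun z => u (e.symm z)) (ball (e p) r) :=
    fun z hz => (hball z hz).1.2.differentiableWithinAt
  have ht : Tendsto e (𝓝 p) (𝓝 (e p)) := (e.continuousAt hp).tendsto
  have ht' : Tendsto e.symm (𝓝 (e p)) (𝓝 p) := by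
    have := (e.continuousAt_symm (e.map_source hp)).tendsto
    rwa [e.left_inv hp] at this
  have key := lmp finrank_C2 isOpen_ball hds hdu (mem_ball_self hr)
    (fun hev => hne (by
      filter_upwards [ht.eventually hev, e.open_source.mem_nhds hp] with q hq hqs
      rw [e.left_inv hqs] at hq
      exact hq))
    (by
      filter_upwards [ht'.eventually hmax] with z hz hsz
      rw [e.left_inv hp]
      exact hz hsz)
  filter_upwards [ht.eventually key, e.open_source.mem_nhds hp] with q hq hqs hsq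
  rw [e.left_inv hqs, e.left_inv hp] at hq
  exact hq hsq

/-- zero sets in surfaces have no isolated points -/
theorem zero_accumulates_mfd {s : Y → ℂ} {p : Y} (hs : HolN s p) (hsp : s p = 0) :
    ∃ᶠ q in 𝓝[≠] p, s q = 0 := by
  set e := chartAt C2 p with he_def
  have he : e ∈ atlas C2 Y := chart_mem_atlas C2 p
  have hp : p ∈ e.source := mem_chart_source C2 p
  have h1 := (holN_iff_chart he hp s).1 hs
  obtain ⟨r, hr, hball⟩ := Metric.eventually_nhds_iff_ball.1 h1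
  have hds : DifferentiableOn ℂ (fun z => s (e.symm z)) (ball (e p) r) :=
    fun z hz => (hball z hz).differentiableWithinAt
  have key := zero_accumulates finrank_C2 isOpen_ball hds (mem_ball_self hr)
    (by rw [e.left_inv hp]; exact hsp)
  intro hcon
  refine key ?_
  rw [eventually_nhdsWithin_iff] at hcon ⊢
  have ht' : Tendsto e.symm (𝓝 (e p)) (𝓝 p) := by
    have := (e.continuousAt_symm (e.map_source hp)).tendsto
    rwa [e.left_inv hp] at this
  filter_upwards [ht'.eventually hcon, e.open_target.mem_nhds (e.map_source hp)] with z hz hzt hzp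
  refine hz ?_
  intro h2
  rw [mem_singleton_iff] at h2
  refine hzp ?_
  rw [mem_singleton_iff, ← h2, e.right_inv hzt]

/-! ### Functions on zero sets -/

/-- near `p` the set `Z` is the zero set of a holomorphic function which is not locally zero -/
def ZSet (Z : Set Y) (p : Y) : Prop :=
  ∃ s : Y → ℂ, HolN s p ∧ ¬ s =ᶠ[𝓝 p] 0 ∧ ∀ᶠ q in 𝓝 p, q ∈ Z ↔ s q = 0

/-- near `p` the function `u` on `Z` is the restriction of a holomorphic function -/
def HolZ (Z : Set Y) (u : Y → ℂ) (p : Y) : Prop :=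
  ∃ v : Y → ℂ, HolN v p ∧ ∀ᶠ q in 𝓝 p, q ∈ Z → u q = v q

variable {Z : Set Y} {u v : Y → ℂ} {p : Y}

theorem HolZ.mul (hu : HolZ Z u p) (hv : HolZ Z v p) : HolZ Z (u * v) p := by
  obtain ⟨a, ha, ha'⟩ := hu
  obtain ⟨b, hb, hb'⟩ := hv
  refine ⟨a * b, ha.mul hb, ?_⟩
  filter_upwards [ha', hb'] with q h1 h2 hq
  rw [Pi.mul_apply, Pi.mul_apply, h1 hq, h2 hq]

theorem HolZ.sub (hu : HolZ Z u p) (hv : HolZ Z v p) : HolZ Z (u - v) p := by
  obtain ⟨a, ha, ha'⟩ := hu
  obtain ⟨b, hb, hb'⟩ := hv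
  refine ⟨a - b, ha.sub hb, ?_⟩
  filter_upwards [ha', hb'] with q h1 h2 hq
  rw [Pi.sub_apply, Pi.sub_apply, h1 hq, h2 hq]

theorem HolZ.const (c : ℂ) : HolZ Z (fun _ => c) p :=
  ⟨fun _ => c, holN_const c, Eventually.of_forall (fun _ _ => rfl)⟩

theorem HolZ.pow (hu : HolZ Z u p) (n : ℕ) : HolZ Z (u ^ n) p := by
  obtain ⟨a, ha, ha'⟩ := hu
  refine ⟨a ^ n, ha.pow n, ?_⟩
  filter_upwards [ha'] with q h1 hq
  rw [Pi.pow_apply, Pi.pow_apply, h1 hq]

theorem HolN.holZ (hu : HolN u p) : HolZ Z u p :=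
  ⟨u, hu, Eventually.of_forall (fun _ _ => rfl)⟩

theorem HolZ.continuousWithinAt (hu : HolZ Z u p) (hp : p ∈ Z) : ContinuousWithinAt u Z p := by
  obtain ⟨a, ha, ha'⟩ := hu
  have h1 : ContinuousWithinAt a Z p := ha.continuousAt.continuousWithinAt
  refine h1.congr_of_eventuallyEq ?_ ?_
  · filter_upwards [mem_nhdsWithin_of_mem_nhds ha', self_mem_nhdsWithin] with q hq hqZ
    exact hq hqZ
  · exact ha'.self_of_nhds hp

/-- **Local maximum principle on `Z`.** -/
theorem HolZ.lmp (hZ : ZSet Z p) (hp : p ∈ Z) (hu : HolZ Z u p)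
    (hmax : ∀ᶠ q in 𝓝 p, q ∈ Z → ‖u q‖ ≤ ‖u p‖) : ∀ᶠ q in 𝓝 p, q ∈ Z → u q = u p := by
  obtain ⟨s, hs, hne, hsZ⟩ := hZ
  obtain ⟨a, ha, ha'⟩ := hu
  have hup : u p = a p := ha'.self_of_nhds hp
  have h1 := lmp_mfd hs ha hne (by
    filter_upwards [hmax, hsZ, ha'] with q h1 h2 h3 h4
    have hq : q ∈ Z := h2.2 h4
    rw [← h3 hq, ← hup]
    exact h1 hq)
  filter_upwards [h1, hsZ, ha'] with q h2 h3 h4 h5
  rw [h4 h5, hup]
  exact h2 (h3.1 h5)

/-- the set where the modulus is equal to the supremum is relatively open -/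
theorem ZSet.no_isolated (hZ : ZSet Z p) (hp : p ∈ Z) : ∃ᶠ q in 𝓝[≠] p, q ∈ Z := by
  obtain ⟨s, hs, -, hsZ⟩ := hZ
  have h1 := zero_accumulates_mfd hs (hsZ.self_of_nhds.1 hp)
  have h2 : ∀ᶠ q in 𝓝[≠] p, q ∈ Z ↔ s q = 0 := hsZ.filter_mono nhdsWithin_le_nhds
  exact (h1.and_eventually h2).mono (fun q hq => hq.2.2 hq.1)

/-- **Maximum principle** on a relatively open part `V` of `Z`: bounded by `M` on the relative
boundary of `V` and at the ends of `V`, and no compact relatively open part inside `V`. -/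
theorem sup_le_of_end {Z V : Set Y} {u : Y → ℂ} {M : ℝ} (hZc : IsClosed Z)
    (hV : IsOpen V) (hZ : ∀ p ∈ Z ∩ V, ZSet Z p) (hu : ∀ p ∈ Z ∩ V, HolZ Z u p)
    (hcont : ContinuousOn u (Z ∩ closure V))
    (hfr : ∀ q ∈ Z, q ∈ closure V → q ∉ V → ‖u q‖ ≤ M)
    (hend : ∀ ε > 0, ∃ K : Set Y, IsCompact K ∧ ∀ q ∈ Z ∩ V, q ∉ K → ‖u q‖ ≤ M + ε)
    (hnc : ∀ A ⊆ Z ∩ V, IsCompact A → (∀ p ∈ A, ∀ᶠ q in 𝓝 p, q ∈ Z → q ∈ A) → A = ∅) :
    ∀ q ∈ Z ∩ V, ‖u q‖ ≤ M := by
  intro q₀ hq₀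
  by_contra hlt
  rw [not_le] at hlt
  set ε := (‖u q₀‖ - M) / 2 with hε
  have hε0 : 0 < ε := by simp only [hε]; linarith
  obtain ⟨K, hK, hKb⟩ := hend ε hε0
  have hq₀K : q₀ ∈ K := by
    by_contra h1
    have := hKb q₀ hq₀ h1
    simp only [hε] at this
    linarith
  set K' := K ∩ (Z ∩ closure V) with hK'
  have hK'c : IsCompact K' := hK.inter_right (hZc.inter isClosed_closure)
  have hq₀K' : q₀ ∈ K' := ⟨hq₀K, hq₀.1, subset_closure hq₀.2⟩
  obtain ⟨p, hp, hpm⟩ := hK'c.exists_isMaxOn ⟨q₀, hq₀K'⟩ (f := fun q => ‖u q‖)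
    ((hcont.mono inter_subset_right).norm)
  have hpq : ‖u q₀‖ ≤ ‖u p‖ := hpm hq₀K'
  have hMp : M + ε < ‖u p‖ := by simp only [hε]; linarith
  have hpV : p ∈ V := by
    by_contra h1
    have := hfr p hp.2.1 hp.2.2 h1
    linarith
  -- the maximum over `Z ∩ V`
  have hmax : ∀ q ∈ Z ∩ V, ‖u q‖ ≤ ‖u p‖ := by
    intro q hq
    by_cases hqK : q ∈ K
    · exact hpm ⟨hqK, hq.1, subset_closure hq.2⟩
    · exact (hKb q hq hqK).trans hMp.le
  set A := {q ∈ K' | ‖u q‖ = ‖u p‖} with hA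
  have hAV : A ⊆ Z ∩ V := by
    intro q hq
    refine ⟨hq.1.2.1, ?_⟩
    by_contra h1
    have := hfr q hq.1.2.1 hq.1.2.2 h1
    rw [hq.2] at this
    linarith
  have hAc : IsCompact A := by
    obtain ⟨C, hC, hCe⟩ := (continuousOn_iff_isClosed.1
      ((hcont.mono (inter_subset_right : K' ⊆ _)).norm)) {‖u p‖} isClosed_singleton
    have h1 : A = K' ∩ C := by
      rw [inter_comm K' C, ← hCe]
      ext q
      constructor
      · intro hq
        exact ⟨hq.2, hq.1⟩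
      · intro hq
        exact ⟨hq.2, hq.1⟩
    rw [h1]
    exact hK'c.inter_right hC
  have hempty := hnc A hAV hAc (by
    intro q hq
    have hqZV := hAV hq
    have h1 := HolZ.lmp (hZ q hqZV) hqZV.1 (hu q hqZV) (by
      filter_upwards [hV.mem_nhds hqZV.2] with w hw hwZ
      rw [hq.2]
      exact hmax w ⟨hwZ, hw⟩)
    filter_upwards [h1, hV.mem_nhds hqZV.2] with w hw hwV hwZ
    have h2 : ‖u w‖ = ‖u p‖ := by rw [hw hwZ, hq.2]
    refine ⟨⟨?_, hwZ, subset_closure hwV⟩, h2⟩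
    by_contra h3
    have := hKb w ⟨hwZ, hwV⟩ h3
    rw [h2] at this
    linarith)
  have : p ∈ A := ⟨hp, rfl⟩
  rw [hempty] at this
  exact this


end Surface

end Crest.Agent.R275.LMP631
end
end

-- ▼ part R275/St3B_686

/-!
R275 (S0418), Part IV, helper686: section 3 (doc 1083 of helper539), part B: MAXIMUM PRINCIPLE.
* `holZ_of`        : a smooth function with `∂̄ Φ = sP * (smooth)` is holomorphic on `supp P`
* `no_compact_part`, `eq_zero_of_decay` : such functions vanish on `supp P` if they tend to `0`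
  at the end and `P` has no compact prime
* `exists_gap`     : levels avoiding the common zeros
-/

set_option autoImplicit false
set_option linter.unusedSectionVars false
set_option linter.unusedVariables false

open Set Filter Topology Complex
open scoped ContDiff Manifold

noncomputable section

namespace Crest.Agent.R275.St3686

open Crest.AlgGeometry.Surface
open Geo Fm96 Core144 FmExt861 Dv69 ODiv686 LMP631
open Crest.Agent.R275.Dv69.EffDiv (CPr)

variable {Y : Type} [TopologicalSpace Y] [ChartedSpace C2 Y] [IsManifold 𝓘(ℂ, C2) 1 Y]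
variable {A : Atl 2 Y}

theorem denseNZ_of_nz {s : A.ι → Y → ℂ} (h : BR4672.NZ A s) (G : Set Y) : DenseNZ A G s :=
  fun i x hx _ => freq_ne (h i x hx)

/-- restriction to `supp P` of a function which is holomorphic modulo `sP` -/
theorem holZ_of (hA : Adm A) {P : EffDiv Y} {LP : LB A} {sP Φ : A.ι → Y → ℂ}
    {om : A.ι → Y → Fin 2 → ℂ} (hsP : IsHS LP univ sP)
    (hP : ∀ i, ∀ p ∈ (A.e i).source, LEq P (sP i) p)
    (hΦ : IsZ0 A 1 univ Φ) (hom : IsZ1 A (LP⁻¹).g univ om) (hd : d0 A Φ = sm1 sP om)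
    {F : Y → ℂ} (hF : ∀ i, ∀ x ∈ (A.e i).source, Φ i x = F x) (p : Y) : HolZ P.supp F p := by
  obtain ⟨i, hi⟩ := A.cover p
  have hto : Tendsto (A.e i) (𝓝 p) (𝓝 (A.e i p)) := ((A.e i).continuousAt hi).tendsto
  have hs : GermQ967.HlN (fun z => sP i ((A.e i).symm z)) (A.e i p) :=
    holP_of_holAt (hsP.hol i) isOpen_univ hi (mem_univ p)
  have h0 : ¬ (fun z => sP i ((A.e i).symm z)) =ᶠ[𝓝 (A.e i p)] 0 := by
    intro h
    refine (hP i p hi).2.1 ?_
    filter_upwards [hto.eventually h, src_nhds hi] with q hq hqs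
    have : sP i ((A.e i).symm (A.e i q)) = 0 := hq
    rwa [(A.e i).left_inv hqs] at this
  have smN : ∀ {f : Y → ℂ}, SmP A i f p → GermQ967.SmN (fun z => f ((A.e i).symm z)) (A.e i p) := by
    intro f hf
    obtain ⟨U, hU, hUo, hpU⟩ := eventually_nhds_iff.1 hf
    exact ⟨U, hUo, hpU, fun z hz => (hU z hz).contDiffWithinAt⟩
  obtain ⟨h, ζ, hh, hζ, hrep⟩ := GermQ967.h0_rep (u := fun z => Φ i ((A.e i).symm z))
    (v := fun a z => om i ((A.e i).symm z) a) hs h0 (smN (hΦ.sm i p hi (mem_univ p)))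
    (fun a => smN (f := fun y => om i y a) (hom.sm i a p hi (mem_univ p))) (by
      filter_upwards [(A.e i).open_target.mem_nhds ((A.e i).map_source hi)] with z hz a
      have h1 : d0 A Φ i ((A.e i).symm z) a = sm1 sP om i ((A.e i).symm z) a := by rw [hd]
      rw [d0_of_mem ((A.e i).map_target hz)] at h1
      have h2 : A.db i a (Φ i) ((A.e i).symm z) = dbj a (fun z => Φ i ((A.e i).symm z)) z := by
        rw [Atl.db, (A.e i).right_inv hz]
      rw [← h2, h1]
      rfl)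
  refine ⟨fun q => h (A.e i q), holN_pull_max (hA i) hi hh, ?_⟩
  filter_upwards [hto.eventually hrep, src_nhds hi, (hP i p hi).ev] with q hq hqs hqP hqZ
  have h1 : sP i q = 0 := hqP.mem_supp.1 hqZ
  have h2 : Φ i ((A.e i).symm (A.e i q)) = h (A.e i q) +
    sP i ((A.e i).symm (A.e i q)) * ζ (A.e i q) := hq
  rw [(A.e i).left_inv hqs, h1, zero_mul, add_zero, hF i q hqs] at h2
  exact h2

theorem zSet_supp (P : EffDiv Y) (p : Y) : ZSet P.supp p := by
  obtain ⟨f, hf⟩ := P.exists_leq' p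
  refine ⟨f, hf.1, hf.2.1, ?_⟩
  filter_upwards [hf.ev] with q hq using hq.mem_supp

section T2

variable [T2Space Y]

/-- no compact relatively open part of the support -/
theorem no_compact_part {P : EffDiv Y} (hno : ∀ C : CPr Y, ¬ C.1 ≤ P) {S : Set Y}
    (hS : S ⊆ P.supp) (hc : IsCompact S) (ho : ∀ p ∈ S, ∀ᶠ q in 𝓝 p, q ∈ P.supp → q ∈ S) :
    S = ∅ := by
  have h1 : IsClosed (P.supp \ S) := by
    rw [← isOpen_compl_iff, isOpen_iff_mem_nhds]
    intro x hx
    by_cases hxP : x ∈ P.supp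
    · have hxS : x ∈ S := by
        by_contra h
        exact hx ⟨hxP, h⟩
      filter_upwards [ho x hxS] with q hq hq2
      exact hq2.2 (hq hq2.1)
    · filter_upwards [P.isClosed_supp.isOpen_compl.mem_nhds hxP] with q hq hq2
      exact hq hq2.1
  obtain ⟨D1, D2, hD, hD1, hD2⟩ := P.exists_split hc.isClosed h1
  have h2 : D1.supp = S := by rw [hD1]; exact inter_eq_right.2 hS
  by_contra hne
  have h3 : D1 ≠ 0 := by
    rintro rfl
    rw [EffDiv.supp_zero] at h2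
    exact hne h2.symm
  refine EffDiv.not_compact_of_no_prime h3 (fun C hC => hno C ?_) (h2 ▸ hc)
  exact hC.trans (hD ▸ le_self_add)

/-- maximum principle on `supp P` -/
theorem eq_zero_of_decay {P : EffDiv Y} (hno : ∀ C : CPr Y, ¬ C.1 ≤ P) {F : Y → ℂ}
    (hF : ∀ p, HolZ P.supp F p)
    (hdec : ∀ ε > 0, ∃ K : Set Y, IsCompact K ∧ ∀ q ∈ P.supp, q ∉ K → ‖F q‖ ≤ ε) :
    ∀ q ∈ P.supp, F q = 0 := by
  intro q hq
  have h1 := sup_le_of_end (Z := P.supp) (V := univ) (u := F) (M := 0) P.isClosed_supp isOpen_univ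
    (fun p _ => zSet_supp P p) (fun p _ => hF p)
    (fun p hp => ((hF p).continuousWithinAt hp.1).mono inter_subset_left)
    (fun p _ _ h => absurd (mem_univ p) h)
    (fun ε hε => by
      obtain ⟨K, hK, h2⟩ := hdec ε hε
      exact ⟨K, hK, fun p hp hpK => by rw [zero_add]; exact h2 p hp.1 hpK⟩)
    (fun S hS hc ho => no_compact_part hno (fun p hp => (hS hp).1) hc ho) q ⟨hq, mem_univ q⟩
  exact norm_le_zero_iff.1 h1

/-- the common zeros of coprime divisors are isolated -/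
theorem isolated_common {P D0 : EffDiv Y} (h0 : P ⊓ D0 = 0) (p : Y) :
    ∀ᶠ q in 𝓝 p, q ∈ P.supp → q ∈ D0.supp → q = p := by
  obtain ⟨f, hf⟩ := P.exists_leq' p
  obtain ⟨k, hk⟩ := D0.exists_leq' p
  have h1 := EffDiv.inf_eq_zero_iff.1 h0 p f k hf hk
  filter_upwards [Loc2879.isolated_surface hf.1 hk.1 h1, hf.ev, hk.ev] with q hq h2 h3 h4 h5
  exact hq (h2.mem_supp.1 h4) (h3.mem_supp.1 h5)

/-- levels avoiding the common zeros -/
theorem exists_gap {P D0 : EffDiv Y} (h0 : P ⊓ D0 = 0) {h : Y → ℝ}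
    (hslab : ∀ a b : ℝ, IsCompact {x | a ≤ h x ∧ h x ≤ b}) (T : ℝ) :
    ∃ a b : ℝ, a < b ∧ b < T ∧ ∀ x ∈ P.supp, x ∈ D0.supp → a ≤ h x → h x ≤ b → False := by
  set C : Set Y := {x | T - 1 ≤ h x ∧ h x ≤ T} ∩ (P.supp ∩ D0.supp) with hC
  have hCc : IsCompact C := (hslab (T - 1) T).inter_right (P.isClosed_supp.inter D0.isClosed_supp)
  have hfin : C.Finite := by
    obtain ⟨t, ht⟩ := hCc.elim_nhds_subcover
      (fun x => {q | q ∈ P.supp → q ∈ D0.supp → q = x}) (fun x _ => isolated_common h0 x)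
    refine (Finset.finite_toSet t).subset fun x hx => ?_
    obtain ⟨y, hy, hxy⟩ := mem_iUnion₂.1 (ht.2 hx)
    have : x = y := hxy hx.2.1 hx.2.2
    rw [this]; exact hy
  have hop : IsOpen ((h '' C)ᶜ) := (hfin.image h).isClosed.isOpen_compl
  obtain ⟨t, ht, htC⟩ : ∃ t ∈ Ioo (T - 1) T, t ∉ h '' C :=
    ((Ioo_infinite (by linarith)).sdiff (hfin.image h)).nonempty
  have hnh : Ioo (T - 1) T ∩ (h '' C)ᶜ ∈ 𝓝 t :=
    (isOpen_Ioo.inter hop).mem_nhds ⟨ht, htC⟩
  obtain ⟨ε, hε, hb⟩ := Metric.mem_nhds_iff.1 hnh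
  have hmem : ∀ s : ℝ, t - ε / 2 ≤ s → s ≤ t + ε / 2 → s ∈ Ioo (T - 1) T ∩ (h '' C)ᶜ := by
    intro s h1 h2
    refine hb ?_
    rw [Metric.mem_ball, Real.dist_eq, abs_lt]
    constructor <;> linarith
  refine ⟨t - ε / 2, t + ε / 2, by linarith, (hmem _ (by linarith) le_rfl).1.2, ?_⟩
  intro x hxP hxD h1 h2
  have h3 := hmem (h x) h1 h2
  exact h3.2 ⟨x, ⟨⟨h3.1.1.le, h3.1.2.le⟩, hxP, hxD⟩, rfl⟩

end T2

/-! ### division by a frame -/

/-- quotient by a frame `τ` with `∂̄ τ = sβ bτ` -/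
theorem frame_div {L1 Lβ : LB A} {G : Set Y} (hG : IsOpen G) {τ s1 sβ : A.ι → Y → ℂ}
    {bτ : A.ι → Y → Fin 2 → ℂ} (hτ : IsZ0 A L1.g G τ)
    (hτ0 : ∀ i, ∀ x ∈ (A.e i).source, x ∈ G → τ i x ≠ 0)
    (hb : IsZ1 A (L1 * Lβ⁻¹).g G bτ)
    (hdτ : ∀ i, ∀ x ∈ G, ∀ c, d0 A τ i x c = sβ i x * bτ i x c) (hs1 : IsH A L1.g univ s1) :
    ∃ (σ : A.ι → Y → ℂ) (om1 : A.ι → Y → Fin 2 → ℂ), IsZ0 A (1 : LB A).g G σ ∧
      IsZ1 A (Lβ⁻¹).g G om1 ∧ (∀ i, ∀ x ∈ G, d0 A σ i x = sm1 sβ om1 i x) ∧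
      ∀ i x, σ i x = (τ i x)⁻¹ * s1 i x := by
  have hs1G : IsZ0 A L1.g G s1 := hs1.z0.mono (subset_univ G)
  have hne : ∀ {W : Type} [Zero W] (u : A.ι → Y → W), ∀ i, ∀ x ∈ (A.e i).source, x ∈ G →
      τ i x = 0 → ∀ᶠ y in 𝓝 x, u i y = 0 := fun u i x hx hG h0 => absurd h0 (hτ0 i x hx hG)
  have hσ : IsZ0 A (1 : LB A).g G (sdv τ s1) :=
    IsZ0.cast (L := L1⁻¹ * L1) (hτ.sdv' hs1G (hne s1)) (inv_mul_cancel L1)
  have h1 : IsZ1 A (L1 * (L1 * Lβ⁻¹)).g G (sm1 s1 bτ) := hs1G.sm1' hb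
  have h2 : IsZ1 A (L1⁻¹ * (L1 * (L1 * Lβ⁻¹))).g G (sdv1 τ (sm1 s1 bτ)) :=
    hτ.sdv1' h1 (hne _)
  have h3 : IsZ1 A (L1⁻¹ * (L1⁻¹ * (L1 * (L1 * Lβ⁻¹)))).g G (sdv1 τ (sdv1 τ (sm1 s1 bτ))) :=
    hτ.sdv1' h2 (hne _)
  refine ⟨sdv τ s1, - sdv1 τ (sdv1 τ (sm1 s1 bτ)), hσ,
    (IsZ1.cast h3 (by rw [inv_mul_cancel_left, inv_mul_cancel_left])).neg, ?_, fun i x => rfl⟩
  intro i x hx
  by_cases hxs : x ∈ (A.e i).source
  · funext c
    have hτx := hτ0 i x hxs hx
    have e1 : sm τ (sdv τ s1) i =ᶠ[𝓝 x] s1 i := by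
      filter_upwards [src_nhds hxs, hG.mem_nhds hx] with y hy hyG
      exact sm_sdv fun h => absurd h (hτ0 i y hy hyG)
    have e2 : d0 A (sm τ (sdv τ s1)) i x c = 0 := by
      rw [d0_congr e1, hs1.db i x (mem_univ x)]; rfl
    rw [d0_sm hτ hσ i hx c, hdτ i x hx c] at e2
    have e3 : d0 A (sdv τ s1) i x c = - (τ i x)⁻¹ * (sβ i x * bτ i x c * sdv τ s1 i x) := by
      have : τ i x * d0 A (sdv τ s1) i x c = - (sβ i x * bτ i x c * sdv τ s1 i x) := by
        linear_combination e2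
      rw [← inv_mul_cancel_left₀ hτx (d0 A (sdv τ s1) i x c), this]
      ring
    rw [e3]
    simp only [sm1, sdv1, sdv, Pi.neg_apply]
    ring
  · rw [d0_of_not_mem hxs]
    funext c
    simp [sm1, sdv1, hs1.z0.off i x hxs]

section Main

variable [T2Space Y]

/-- **Section 3, main step** (doc 1083): a divisor `P ≤ D_β` without compact primes and coprime
to `s₀ = h₀ s₁`, `h₀` exponentially decreasing at the small end, is zero. -/
theorem coprime_eq_zero (hA : Adm A) (B : Big A) (Pt : Part A) {h : Y → ℝ} (hSm : A.Sm h)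
    (hc : Continuous h) (hslab : ∀ a b : ℝ, IsCompact {x | a ≤ h x ∧ h x ≤ b})
    {Lβ L0 L1 : LB A} {sβ s0 s1 h0 : A.ι → Y → ℂ}
    (hsβ : IsHS Lβ univ sβ) (hs0 : IsHS L0 univ s0) (hs1 : IsHS L1 univ s1)
    (nβ : BR4672.NZ A sβ) (n0 : BR4672.NZ A s0)
    {T0 : ℝ} (hT0 : ∀ i, ∀ x ∈ (A.e i).source, T0 < h x → sβ i x ≠ 0)
    (hfac : ∀ i x, s0 i x = h0 i x * s1 i x)
    {C ρ d : ℝ} (hC : 0 ≤ C) (hdρ : d < ρ)
    (hh0 : ∀ i, ∀ x ∈ (A.e i).source, h x ≤ 0 → ‖h0 i x‖ ≤ C * Real.exp (ρ * h x))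
    (hs1lim : LimS h s1 0)
    {T : ℝ} {τ : A.ι → Y → ℂ} {bτ : A.ι → Y → Fin 2 → ℂ} (hτ : IsZ0 A L1.g {x | h x < T} τ)
    (hτ0 : ∀ i, ∀ x ∈ (A.e i).source, h x < T → τ i x ≠ 0)
    (hb : IsZ1 A (L1 * Lβ⁻¹).g {x | h x < T} bτ)
    (hdτ : ∀ i x, h x < T → ∀ c, d0 A τ i x c = sβ i x * bτ i x c)
    (hτlim : LimS h τ 1)
    {Gr : (A.ι → Y → Fin 2 → ℂ) → Prop} {Q : (A.ι → Y → ℂ) → Prop}
    (V1 : ∀ F, IsZ2 A (Lβ⁻¹ * L0⁻¹).g univ F → CSupp F →
      ∃ b, IsZ1 A (Lβ⁻¹ * L0⁻¹).g univ b ∧ d1 A b = F ∧ Gr (sm1 sβ b))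
    (V2 : ∀ om, IsZ1 A (L0⁻¹).g univ om → Gr om → d1 A om = 0 →
      ∃ b, IsZ0 A (L0⁻¹).g univ b ∧ d0 A b = om ∧ Q b)
    (Gc : ∀ om, IsZ1 A (L0⁻¹).g univ om → CSupp om → Gr om)
    (Gs : ∀ om om', Gr om → Gr om' → Gr (om - om'))
    (hQ : ∀ b, Q b → Bd A h (wgt d d) b)
    {P : EffDiv Y} (hno : ∀ C : CPr Y, ¬ C.1 ≤ P) (hPβ : P ≤ BR4672.dv A sβ)
    (hP0 : P ⊓ BR4672.dv A s0 = 0) : P = 0 := by
  classical
  by_contra hPne
  -- the section `sP`
  obtain ⟨LP, sP, hsP, hPe, -⟩ := exists_odiv B hA P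
  have nP : BR4672.NZ A sP := fun i p hp => (hPe i p hp).2.1
  have dvP : BR4672.dv A sP = P := BR4672.dv_eq_of_leq hA hsP nP hPe
  obtain ⟨s', hs', e', n', -⟩ := BR4672.exists_quot_sec hA hsP hsβ nP nβ (by rw [dvP]; exact hPβ)
  obtain ⟨L', hL'⟩ : ∃ L', L' = Lβ * LP⁻¹ := ⟨_, rfl⟩
  rw [← hL'] at hs'
  have eL : Lβ = LP * L' := by rw [hL', mul_comm LP, inv_mul_cancel_right]
  have memP : ∀ i, ∀ x ∈ (A.e i).source, (x ∈ P.supp ↔ sP i x = 0) := fun i x hx =>
    (hPe i x hx).mem_supp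
  have memD : ∀ i, ∀ x ∈ (A.e i).source, (x ∈ (BR4672.dv A s0).supp ↔ s0 i x = 0) :=
    fun i x hx => BR4672.mem_supp_dv hA hs0 n0 hx
  have hPT : ∀ x ∈ P.supp, h x ≤ T0 := by
    intro x hx
    obtain ⟨i, hi⟩ := A.cover x
    by_contra hlt
    exact hT0 i x hi (not_le.1 hlt)
      ((BR4672.mem_supp_dv hA hsβ nβ hi).1 (EffDiv.supp_mono hPβ hx))
  -- unbounded below
  have hunb : ∀ t : ℝ, ∃ q ∈ P.supp, h q < t := by
    intro t
    by_contra hcon
    push Not at hcon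
    refine EffDiv.not_compact_of_no_prime hPne hno ?_
    exact (hslab t T0).of_isClosed_subset P.isClosed_supp fun x hx => ⟨hcon x hx, hPT x hx⟩
  -- the frame quotient
  have hGo : IsOpen {x | h x < T} := isOpen_lt hc continuous_const
  obtain ⟨σ, om1, hσ, hom1, hσom, hσe⟩ := frame_div hGo hτ hτ0 hb (fun i x hx => hdτ i x hx)
    (isH_of_isHS isOpen_univ hs1)
  -- the cut-off
  obtain ⟨a, b, hab, hbT, hgap⟩ := exists_gap hP0 hslab (min T 0)
  have hbT' : b < T := lt_of_lt_of_le hbT (min_le_left _ _)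
  have hb0 : b < 0 := lt_of_lt_of_le hbT (min_le_right _ _)
  set rr : ℝ → ℝ := fun t => Real.smoothTransition ((b - t) / (b - a)) with hrr
  have hrrs : ContDiff ℝ ∞ rr :=
    Real.smoothTransition.contDiff.comp ((contDiff_const.sub contDiff_id).div_const _)
  have hrr1 : ∀ t ≤ a, rr t = 1 := fun t ht =>
    Real.smoothTransition.one_of_one_le (by rw [le_div_iff₀ (by linarith)]; linarith)
  have hrr0 : ∀ t, b ≤ t → rr t = 0 := fun t ht =>
    Real.smoothTransition.zero_of_nonpos (div_nonpos_of_nonpos_of_nonneg (by linarith)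
      (by linarith))
  set χ : Y → ℂ := fun x => (rr (h x) : ℂ) with hχdef
  have hχ : SmOn A univ χ := SmOn.comp_real hSm hrrs
  have hχG : ∀ x ∉ {x | h x < T}, ∀ᶠ y in 𝓝 x, χ y = 0 := by
    intro x hx
    have hx' : b < h x := lt_of_lt_of_le hbT' (not_lt.1 hx)
    filter_upwards [(isOpen_lt continuous_const hc).mem_nhds hx'] with y hy
    have hy' : b < h y := hy
    simp [hχdef, hrr0 _ hy'.le]
  have hχK : ∀ x ∉ {x | a ≤ h x ∧ h x ≤ b}, ∃ c, ∀ᶠ y in 𝓝 x, χ y = c := by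
    intro x hx
    by_cases h1 : h x < a
    · refine ⟨1, ?_⟩
      filter_upwards [(isOpen_lt hc continuous_const).mem_nhds h1] with y hy
      have hy' : h y < a := hy
      simp [hχdef, hrr1 _ hy'.le]
    · have h2 : b < h x := by
        by_contra h3
        exact hx ⟨not_lt.1 h1, not_lt.1 h3⟩
      refine ⟨0, ?_⟩
      filter_upwards [(isOpen_lt continuous_const hc).mem_nhds h2] with y hy
      have hy' : b < h y := hy
      simp [hχdef, hrr0 _ hy'.le]
  subst eL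
  subst e'
  obtain ⟨u, om', hu, hQu, hom', hΦ, hdΦ⟩ := division Pt (LP := LP) (L' := L') (L0 := L0)
    (isH_of_isHS isOpen_univ hsP) (isH_of_isHS isOpen_univ hs') (isH_of_isHS isOpen_univ hs0)
    (denseNZ_of_nz nP univ) (denseNZ_of_nz n' univ) (denseNZ_of_nz n0 univ) hGo hσ hom1 hσom
    hχ hχG (hslab a b) hχK (fun i x hx hxK hx0 hs0x =>
      hgap x ((memP i x hx).2 hx0) ((memD i x hx).2 hs0x) hxK.1 hxK.2) V1 V2 Gc Gs
  obtain ⟨F, -, hF, -⟩ := exists_fn isOpen_univ hΦ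
  have hF' : ∀ i, ∀ x ∈ (A.e i).source, (sm (fn A χ) σ - sm s0 u) i x = F x := fun i x hx => by
    rw [hF i x (mem_univ x), fn_of_mem hx]
  have hHZ : ∀ p, HolZ P.supp F p := holZ_of hA hsP hPe hΦ hom' hdΦ hF'
  -- the value of `F` near the end
  have hFe : ∀ i, ∀ x ∈ (A.e i).source, h x < a → F x = (τ i x)⁻¹ * s1 i x -
      h0 i x * s1 i x * u i x := by
    intro i x hx hxa
    rw [← hF' i x hx, ← hfac i x, ← hσe i x]
    have : χ x = 1 := by simp [hχdef, hrr1 _ hxa.le]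
    simp [sm, fn_of_mem hx, this]
  -- bounds
  obtain ⟨Cu, hCu0, hCu⟩ := (hQ u hQu).exists_nonneg (fun t => (wgt_pos _ _ t).le)
  have hprod : ∀ i, ∀ x ∈ (A.e i).source, h x ≤ 0 →
      ‖h0 i x‖ * ‖u i x‖ ≤ C * Cu * Real.exp ((ρ - d) * h x) := by
    intro i x hx hx0
    have h1 := hh0 i x hx hx0
    have h2 := hCu i x hx
    rw [wgt_gg, abs_of_nonpos hx0] at h2
    calc ‖h0 i x‖ * ‖u i x‖ ≤ (C * Real.exp (ρ * h x)) * (Cu * Real.exp (d * -h x)) := by
          gcongr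
      _ = C * Cu * (Real.exp (ρ * h x) * Real.exp (d * -h x)) := by ring
      _ = _ := by rw [← Real.exp_add]; ring_nf
  -- decay of `F`
  have hzero : ∀ q ∈ P.supp, F q = 0 := by
    refine eq_zero_of_decay hno hHZ fun ε hε => ?_
    have hden : 0 < 2 + C * Cu := by positivity
    obtain ⟨t1, ht1⟩ := hs1lim (ε / (2 + C * Cu)) (by positivity)
    obtain ⟨t2, ht2⟩ := hτlim (1 / 2) (by norm_num)
    refine ⟨{x | min (min t1 t2) a ≤ h x ∧ h x ≤ T0}, hslab _ _, fun q hq hqK => ?_⟩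
    have hqt : h q < min (min t1 t2) a := by
      by_contra h1
      exact hqK ⟨not_lt.1 h1, hPT q hq⟩
    obtain ⟨i, hi⟩ := A.cover q
    have hqa : h q < a := lt_of_lt_of_le hqt (min_le_right _ _)
    have hq0 : h q ≤ 0 := by linarith
    have h1 := ht1 i q hi (lt_of_lt_of_le hqt ((min_le_left _ _).trans (min_le_left _ _)))
    have h2 := ht2 i q hi (lt_of_lt_of_le hqt ((min_le_left _ _).trans (min_le_right _ _)))
    rw [sub_zero] at h1
    have h3 : 1 / 2 ≤ ‖τ i q‖ := by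
      have h4 : ‖(1 : ℂ)‖ ≤ ‖τ i q‖ + ‖τ i q - 1‖ := by
        have := norm_sub_le (τ i q) (τ i q - 1)
        simpa using this
      rw [norm_one] at h4
      linarith
    have h4 : ‖(τ i q)⁻¹‖ ≤ 2 := by
      rw [norm_inv]
      calc ‖τ i q‖⁻¹ ≤ (1 / 2 : ℝ)⁻¹ := inv_anti₀ (by norm_num) h3
        _ = 2 := by norm_num
    have h5 := hprod i q hi hq0
    have h6 : Real.exp ((ρ - d) * h q) ≤ 1 := by
      rw [Real.exp_le_one_iff]
      exact mul_nonpos_of_nonneg_of_nonpos (by linarith) hq0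
    have h7 : ‖h0 i q‖ * ‖u i q‖ ≤ C * Cu := by
      refine h5.trans ?_
      calc C * Cu * Real.exp ((ρ - d) * h q) ≤ C * Cu * 1 := by gcongr
        _ = C * Cu := mul_one _
    rw [hFe i q hi hqa]
    calc ‖(τ i q)⁻¹ * s1 i q - h0 i q * s1 i q * u i q‖
        ≤ ‖(τ i q)⁻¹‖ * ‖s1 i q‖ + ‖h0 i q‖ * ‖u i q‖ * ‖s1 i q‖ := by
          refine (norm_sub_le _ _).trans ?_
          rw [norm_mul, norm_mul, norm_mul]
          exact le_of_eq (by ring)
      _ ≤ 2 * (ε / (2 + C * Cu)) + C * Cu * (ε / (2 + C * Cu)) := by gcongr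
      _ = ε := by field_simp
  -- a point near the end
  have hlim : Tendsto (fun t : ℝ => C * Cu * Real.exp ((ρ - d) * t)) atBot (𝓝 0) := by
    have h2 : Tendsto (fun t : ℝ => Real.exp ((ρ - d) * t)) atBot (𝓝 0) :=
      Real.tendsto_exp_atBot.comp (tendsto_id.const_mul_atBot (by linarith))
    simpa using h2.const_mul (C * Cu)
  obtain ⟨t3, ht3⟩ := eventually_atBot.1 (hlim.eventually (gt_mem_nhds (show (0:ℝ) < 1 / 2 by
    norm_num)))
  obtain ⟨t2, ht2⟩ := hτlim 1 one_pos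
  set tt : ℝ := min (min t2 t3) a with htt
  obtain ⟨q, hqP, hqt⟩ := hunb tt
  obtain ⟨q', ⟨hq'P, hq'1⟩, hq't, hq'n⟩ : ∃ q', (q' ∈ P.supp ∧ (q' ∈ P.supp →
      q' ∈ (BR4672.dv A s0).supp → q' = q)) ∧ h q' < tt ∧ q' ≠ q := by
    have h1 := ((zSet_supp P q).no_isolated hqP).and_eventually
      ((((isolated_common hP0 q).and ((isOpen_lt hc continuous_const).mem_nhds hqt)).filter_mono
        nhdsWithin_le_nhds).and self_mem_nhdsWithin)
    obtain ⟨q', h2, ⟨h3, h4⟩, h5⟩ := h1.exists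
    exact ⟨q', ⟨h2, h3⟩, h4, h5⟩
  obtain ⟨i, hi⟩ := A.cover q'
  have hs0q : s0 i q' ≠ 0 := fun h1 => hq'n (hq'1 hq'P ((memD i q' hi).2 h1))
  have hs1q : s1 i q' ≠ 0 := by
    intro h1
    rw [hfac, h1, mul_zero] at hs0q
    exact hs0q rfl
  have hqa : h q' < a := lt_of_lt_of_le hq't (min_le_right _ _)
  have hqt2 : h q' < t2 := lt_of_lt_of_le hq't ((min_le_left _ _).trans (min_le_left _ _))
  have hqt3 : h q' < t3 := lt_of_lt_of_le hq't ((min_le_left _ _).trans (min_le_right _ _))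
  have hqT : h q' < T := by linarith
  have h1 := hFe i q' hi hqa
  rw [hzero q' hq'P] at h1
  have hτq := hτ0 i q' hi hqT
  have h2 : (1 : ℂ) = τ i q' * (h0 i q' * u i q') := by
    have h3 : s1 i q' * (1 - τ i q' * (h0 i q' * u i q')) = 0 := by
      have h4 : τ i q' * ((τ i q')⁻¹ * s1 i q' - h0 i q' * s1 i q' * u i q') = 0 := by
        rw [← h1, mul_zero]
      rw [mul_sub, mul_inv_cancel_left₀ hτq] at h4
      linear_combination h4
    exact sub_eq_zero.1 ((mul_eq_zero.1 h3).resolve_left hs1q)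
  have h3 : ‖τ i q'‖ ≤ 2 := by
    have h4 := ht2 i q' hi hqt2
    have h5 : ‖τ i q'‖ ≤ ‖τ i q' - 1‖ + ‖(1 : ℂ)‖ := by
      have := norm_add_le (τ i q' - 1) 1
      simpa using this
    rw [norm_one] at h5
    linarith
  have h4 : ‖h0 i q'‖ * ‖u i q'‖ < 1 / 2 :=
    (hprod i q' hi (by linarith)).trans_lt (ht3 (h q') hqt3.le)
  have h5 : ‖(1 : ℂ)‖ < 1 := by
    rw [h2, norm_mul, norm_mul]
    calc ‖τ i q'‖ * (‖h0 i q'‖ * ‖u i q'‖) ≤ 2 * (‖h0 i q'‖ * ‖u i q'‖) := by gcongr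
      _ < 2 * (1 / 2) := by gcongr
      _ = 1 := by norm_num
  rw [norm_one] at h5
  exact lt_irrefl _ h5

end Main

end Crest.Agent.R275.St3686
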