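import Crest.Agent.R275.Shell_468
import Crest.Agent.R275.End2E_849
import Crest.Agent.R275.Loc2E_879
import Crest.Agent.R275.Dv5_69
import Crest.Agent.R275.Core_144
import Crest.Agent.R275.Lau4D_473
import Crest.Agent.R275.ZC9_352
import Crest.Agent.R275.S5In_95
import Crest.Agent.R275.Tr5B_468
import Crest.Agent.R275.Root3_595
import Crest.Agent.R275.St3B_686
import Crest.Agent.R275.RootS5_595

-- ▼ part R275/Asm_468
section

/-!
R275 (S0418), helper468: assembly of sections 5-6: from the pair `(x, y)` on the neighbourhood `N`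
of `D ∪ small end` to the global spherical shell.
-/

set_option autoImplicit false
set_option linter.unusedSectionVars false

open Set Filter Topology Metric Crest.AlgGeometry.Surface
open scoped Manifold ContDiff

noncomputable section

namespace Crest.Agent.R275.Asm468

open Crest.Agent.R275.Shell468 Crest.Agent.R275.End849

/-- the map `(x, y)` to `ℂ²` -/
def pairMap {Y : Type*} (x y : Y → ℂ) (q : Y) : C2 := WithLp.toLp 2 ![x q, y q]

section pm

variable {Y : Type*} {x y : Y → ℂ}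

lemma pairMap_eq_iff {q q' : Y} : pairMap x y q = pairMap x y q' ↔ x q = x q' ∧ y q = y q' := by
  unfold pairMap
  rw [(WithLp.toLp_injective 2).eq_iff]
  constructor
  · intro h
    exact ⟨by simpa using congrFun h 0, by simpa using congrFun h 1⟩
  · rintro ⟨h1, h2⟩
    rw [h1, h2]

lemma pairMap_eq_zero_iff {q : Y} : pairMap x y q = 0 ↔ x q = 0 ∧ y q = 0 := by
  constructor
  · intro h
    exact ⟨by simpa [pairMap] using congrArg (fun v : C2 => v 0) h,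
      by simpa [pairMap] using congrArg (fun v : C2 => v 1) h⟩
  · rintro ⟨h1, h2⟩
    ext i
    fin_cases i <;> simp [pairMap, h1, h2]

lemma norm_pairMap_sq (q : Y) : ‖pairMap x y q‖ ^ 2 = ‖x q‖ ^ 2 + ‖y q‖ ^ 2 := by
  rw [EuclideanSpace.norm_sq_eq, Fin.sum_univ_two]
  rfl

lemma norm_pairMap_lt {q : Y} {δ : ℝ} (hδ : 0 < δ) (h1 : ‖x q‖ < δ / 2) (h2 : ‖y q‖ < δ / 2) :
    ‖pairMap x y q‖ < δ := by
  have h := norm_pairMap_sq (x := x) (y := y) q
  have h3 : ‖x q‖ ^ 2 < (δ / 2) ^ 2 := by gcongr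
  have h4 : ‖y q‖ ^ 2 < (δ / 2) ^ 2 := by gcongr
  refine lt_of_pow_lt_pow_left₀ 2 hδ.le ?_
  rw [h]
  nlinarith

variable [TopologicalSpace Y] [ChartedSpace C2 Y]

lemma contMDiffOn_pairMap {N : Set Y} (hx : ContMDiffOn 𝓘(ℂ, C2) 𝓘(ℂ, ℂ) 1 x N)
    (hy : ContMDiffOn 𝓘(ℂ, C2) 𝓘(ℂ, ℂ) 1 y N) :
    ContMDiffOn 𝓘(ℂ, C2) 𝓘(ℂ, C2) 1 (pairMap x y) N := by
  let L : ℂ × ℂ →L[ℂ] C2 :=
    (EuclideanSpace.equiv (Fin 2) ℂ).symm.toContinuousLinearMap.comp
      (ContinuousLinearMap.pi (fun i => if i = 0 then ContinuousLinearMap.fst ℂ ℂ ℂ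
        else ContinuousLinearMap.snd ℂ ℂ ℂ))
  have hL : ∀ q, pairMap x y q = L (x q, y q) := by
    intro q
    ext i
    fin_cases i <;> simp [pairMap, L]
  have h1 : ContMDiffOn 𝓘(ℂ, C2) (𝓘(ℂ, ℂ).prod 𝓘(ℂ, ℂ)) 1 (fun q => (x q, y q)) N := hx.prodMk hy
  have h2 : ContMDiffOn 𝓘(ℂ, C2) 𝓘(ℂ, ℂ × ℂ) 1 (fun q => (x q, y q)) N := by
    rw [← chartedSpaceSelf_prod, modelWithCornersSelf_prod] 
    exact h1
  have h3 : ContMDiff 𝓘(ℂ, ℂ × ℂ) 𝓘(ℂ, C2) 1 L := L.contMDiff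
  exact (h3.comp_contMDiffOn h2).congr (fun q _ => hL q)

end pm

section Main

variable {X : Type} [TopologicalSpace X] [ChartedSpace C2 X]
variable {Y : Type*} [TopologicalSpace Y] [T2Space Y] [ConnectedSpace Y] [ChartedSpace C2 Y]
  [IsManifold 𝓘(ℂ, C2) 1 Y]

/-- the cyclic covering is a normal space -/
lemma normalSpace_of_slabs {h : Y → ℝ} (hcpt : ∀ a b : ℝ, IsCompact {y | a ≤ h y ∧ h y ≤ b}) :
    NormalSpace Y := by
  have : LocallyCompactSpace Y := ChartedSpace.locallyCompactSpace C2 Y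
  have : SigmaCompactSpace Y := by
    refine ⟨⟨fun n : ℕ => {y | -(n : ℝ) ≤ h y ∧ h y ≤ n}, fun n => hcpt _ _, ?_⟩⟩
    rw [eq_univ_iff_forall]
    intro y
    rw [mem_iUnion]
    obtain ⟨n, hn⟩ := exists_nat_ge |h y|
    exact ⟨n, abs_le.1 hn⟩
  have : ParacompactSpace Y := paracompact_of_locallyCompact_sigmaCompact
  infer_instance

/-- **Assembly of section 6**: the pair `(x, y)` gives a global spherical shell (compact fibres are
discrete). -/
theorem shell_of_xy'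
    (π : Y → X) (hπ : ContMDiff 𝓘(ℂ, C2) 𝓘(ℂ, C2) 1 π) (hsurj : Function.Surjective π)
    (hloc : ∀ y, ∃ V : Set X, IsOpen V ∧ π y ∈ V ∧ ∃ σ : X → Y,
      ContMDiffOn 𝓘(ℂ, C2) 𝓘(ℂ, C2) 1 σ V ∧ σ (π y) = y ∧ ∀ x ∈ V, π (σ x) = x)
    (g : Y ≃ₜ Y) (hg : ContMDiff 𝓘(ℂ, C2) 𝓘(ℂ, C2) 1 g) (hπg : ∀ y, π (g y) = π y)
    (hfib : ∀ y y', π y = π y' → ∃ n : ℕ, g^[n] y = y' ∨ g^[n] y' = y)
    (h : Y → ℝ) (hh : Continuous h) (hhg : ∀ y, h (g y) = h y - 1)
    (hcpt : ∀ a b : ℝ, IsCompact {y | a ≤ h y ∧ h y ≤ b})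
    {N D C : Set Y} (hN : IsOpen N) (hbdd : ∃ c, ∀ y ∈ N, h y ≤ c)
    (hD : IsClosed D) (hDN : D ⊆ N) (hgD : ∀ q ∈ D, g q ∈ D)
    {x y : Y → ℂ} (hx : ContMDiffOn 𝓘(ℂ, C2) 𝓘(ℂ, ℂ) 1 x N)
    (hy : ContMDiffOn 𝓘(ℂ, C2) 𝓘(ℂ, ℂ) 1 y N)
    (hD0 : ∀ q ∈ D, x q = 0 ∧ y q = 0)
    (hx0 : ∀ q ∈ N, x q = 0 → q ∈ D ∨ q ∈ C)
    (hyC : InjOn y (C ∩ N)) {p : Y} (hpC : p ∈ C) (hpD : p ∈ D)
    (hinj : ∀ O ∈ 𝓝 p, ∃ q ∈ O, q ∈ C ∧ q ≠ p ∧ LocInj (pairMap x y) q)
    (hCx : ∀ q ∈ N, q ∈ C → x q = 0)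
    (hsmall : ∀ δ > 0, ∃ T, ∀ q, h q < T → q ∈ N ∧ ‖x q‖ < δ ∧ ‖y q‖ < δ)
    (hiso : ∀ U ⊆ N, IsOpen U → ∀ q ∈ U, pairMap x y q ≠ 0 →
      IsCompact {z | z ∈ U ∧ pairMap x y z = pairMap x y q} →
      ∀ᶠ z in 𝓝[≠] q, pairMap x y z ≠ pairMap x y q) :
    HasGlobalSphericalShell X := by
  have := normalSpace_of_slabs hcpt
  set Φ := pairMap x y with hΦ
  have holΦ : ContMDiffOn 𝓘(ℂ, C2) 𝓘(ℂ, C2) 1 Φ N := contMDiffOn_pairMap hx hy
  -- zeros of Φ
  have hy_p : y p = 0 := (hD0 p hpD).2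
  have hzD : ∀ q ∈ N, Φ q = 0 → q ∈ D := by
    intro q hq h0
    obtain ⟨h1, h2⟩ := pairMap_eq_zero_iff.1 h0
    rcases hx0 q hq h1 with h3 | h3
    · exact h3
    · have : q = p := hyC ⟨h3, hq⟩ ⟨hpC, hDN hpD⟩ (by rw [h2, hy_p])
      rw [this]
      exact hpD
  have hDz : ∀ q ∈ D, Φ q = 0 := fun q hq => pairMap_eq_zero_iff.2 (hD0 q hq)
  -- the shrunken neighbourhood
  obtain ⟨T0, hT0⟩ := hsmall 1 one_pos
  obtain ⟨U, hUo, hLU, hUN⟩ : ∃ U : Set Y, IsOpen U ∧ (D ∪ {q | h q ≤ T0 - 1}) ⊆ U ∧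
      closure U ⊆ N := by
    refine normal_exists_closure_subset (hD.union (isClosed_le hh continuous_const)) hN ?_
    rintro q (hq | hq)
    · exact hDN hq
    · refine (hT0 q ?_).1
      simp only [mem_ofPred_eq] at hq
      linarith
  have hDU : D ⊆ U := subset_union_left.trans hLU
  have hTU : ∀ q, h q ≤ T0 - 1 → q ∈ U := fun q hq => hLU (Or.inr hq)
  obtain ⟨c, hc⟩ := hbdd
  have hcont : ContinuousOn Φ N := holΦ.continuousOn
  -- the boundary
  have hfrc : IsCompact (frontier U) := by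
    refine (hcpt (T0 - 1) c).of_isClosed_subset isClosed_frontier ?_
    intro q hq
    have h1 : q ∈ closure U := frontier_subset_closure hq
    refine ⟨?_, hc q (hUN h1)⟩
    by_contra hlt
    have h2 : q ∈ U := hTU q (by linarith)
    rw [hUo.frontier_eq] at hq
    exact hq.2 h2
  obtain ⟨ε0, hε0, hfr⟩ : ∃ ε0 > 0, ∀ q ∈ frontier U, ε0 ≤ ‖Φ q‖ := by
    rcases (frontier U).eq_empty_or_nonempty with he | hne
    · exact ⟨1, one_pos, fun q hq => by rw [he] at hq; exact absurd hq (notMem_empty q)⟩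
    · have hcf : ContinuousOn (fun q => ‖Φ q‖) (frontier U) :=
        (hcont.mono (frontier_subset_closure.trans hUN)).norm
      obtain ⟨q0, hq0, hmin⟩ := hfrc.exists_isMinOn hne hcf
      refine ⟨‖Φ q0‖, ?_, fun q hq => hmin hq⟩
      rw [gt_iff_lt, norm_pos_iff]
      intro h0
      have h1 : q0 ∈ D := hzD q0 (hUN (frontier_subset_closure hq0)) h0
      rw [hUo.frontier_eq] at hq0
      exact hq0.2 (hDU h1)
  -- closedness of sublevels
  have hsub : ∀ r < ε0, {q | q ∈ U ∧ ‖Φ q‖ ≤ r} = closure U ∩ {q | ‖Φ q‖ ≤ r} := by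
    intro r hr
    ext q
    constructor
    · rintro ⟨h1, h2⟩
      exact ⟨subset_closure h1, h2⟩
    · rintro ⟨h1, h2⟩
      refine ⟨?_, h2⟩
      by_contra hqU
      have h3 : q ∈ frontier U := by
        rw [hUo.frontier_eq]
        exact ⟨h1, hqU⟩
      have h4 := hfr q h3
      have h5 : ‖Φ q‖ ≤ r := h2
      linarith
  have hcl : ∀ r < ε0, IsClosed {q | q ∈ U ∧ ‖Φ q‖ ≤ r} := by
    intro r hr
    rw [hsub r hr]
    exact (hcont.mono hUN).norm.preimage_isClosed_of_isClosed isClosed_closure isClosed_Iic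
  have hcomp : ∀ a b : ℝ, 0 < a → b < ε0 → IsCompact {q | q ∈ U ∧ a ≤ ‖Φ q‖ ∧ ‖Φ q‖ ≤ b} := by
    intro a b ha hb
    obtain ⟨T, hT⟩ := hsmall (a / 2) (half_pos ha)
    have h1 : {q | q ∈ U ∧ a ≤ ‖Φ q‖ ∧ ‖Φ q‖ ≤ b} =
        closure U ∩ (fun q => ‖Φ q‖) ⁻¹' (Icc a b) := by
      ext q
      constructor
      · rintro ⟨h2, h3, h4⟩
        exact ⟨subset_closure h2, h3, h4⟩
      · rintro ⟨h2, h3, h4⟩
        have h5 : q ∈ closure U ∩ {q | ‖Φ q‖ ≤ b} := ⟨h2, h4⟩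
        rw [← hsub b hb] at h5
        exact ⟨h5.1, h3, h4⟩
    have h2 : IsClosed {q | q ∈ U ∧ a ≤ ‖Φ q‖ ∧ ‖Φ q‖ ≤ b} := by
      rw [h1]
      exact (hcont.mono hUN).norm.preimage_isClosed_of_isClosed isClosed_closure isClosed_Icc
    refine (hcpt T c).of_isClosed_subset h2 ?_
    rintro q ⟨h3, h4, h5⟩
    refine ⟨?_, hc q (hUN (subset_closure h3))⟩
    by_contra hlt
    obtain ⟨_, h6, h7⟩ := hT q (by linarith)
    have h8 := norm_pairMap_lt (x := x) (y := y) (q := q) (δ := a) ha h6 h7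
    linarith
  -- the base point
  have hpU : p ∈ U := hDU hpD
  have hO : {q | q ∈ U ∧ ‖Φ q‖ < ε0} ∈ 𝓝 p := by
    have h1 : IsOpen (U ∩ (fun q => ‖Φ q‖) ⁻¹' (Iio ε0)) :=
      (hcont.mono (subset_closure.trans hUN)).norm.isOpen_inter_preimage hUo isOpen_Iio
    refine h1.mem_nhds ⟨hpU, ?_⟩
    simp only [mem_preimage, hDz p hpD, norm_zero, mem_Iio]
    exact hε0
  obtain ⟨q0, ⟨hq0U, hq0ε⟩, hq0C, hq0p, hq0l⟩ := hinj _ hO
  have hq0N : q0 ∈ N := hUN (subset_closure hq0U)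
  have hx_q0 : x q0 = 0 := hCx q0 hq0N hq0C
  have hq0ne : Φ q0 ≠ 0 := by
    intro h0
    have h1 := (pairMap_eq_zero_iff.1 h0).2
    exact hq0p (hyC ⟨hq0C, hq0N⟩ ⟨hpC, hDN hpD⟩ (by rw [h1, hy_p]))
  have huniq : ∀ q ∈ U, Φ q = Φ q0 → q = q0 := by
    intro q hq he
    have hqN : q ∈ N := hUN (subset_closure hq)
    obtain ⟨h1, h2⟩ := pairMap_eq_iff.1 he
    rcases hx0 q hqN (by rw [h1, hx_q0]) with h3 | h3
    · exact absurd (by rw [← he]; exact hDz q h3) hq0ne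
    · exact hyC ⟨h3, hqN⟩ ⟨hq0C, hq0N⟩ h2
  have holU : ContMDiffOn 𝓘(ℂ, C2) 𝓘(ℂ, C2) 1 Φ U := holΦ.mono (subset_closure.trans hUN)
  have hzc : ∀ q ∈ U, Φ q = 0 → q ∈ closure {q | q ∈ U ∧ Φ q ≠ 0} := by
    refine zero_closure_of_connected hUo holU ?_ ⟨q0, fun h0 => hq0ne h0.2⟩
    have : {q | q ∈ U ∧ Φ q = 0} = D := by
      ext q
      constructor
      · rintro ⟨h1, h2⟩
        exact hzD q (hUN (subset_closure h1)) h2
      · intro h1
        exact ⟨hDU h1, hDz q h1⟩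
    rw [this]
    exact hD
  have hUN' : U ⊆ N := subset_closure.trans hUN
  have hfibc : ∀ q ∈ U, 0 < ‖Φ q‖ → ‖Φ q‖ < ε0 → IsCompact {z | z ∈ U ∧ Φ z = Φ q} := by
    intro q _ h1 h2
    have h3 := hcomp ‖Φ q‖ ‖Φ q‖ h1 h2
    have h4 : {z | z ∈ U ∧ Φ z = Φ q} =
        {z | z ∈ U ∧ ‖Φ q‖ ≤ ‖Φ z‖ ∧ ‖Φ z‖ ≤ ‖Φ q‖} ∩ Φ ⁻¹' {Φ q} := by
      ext z
      constructor
      · rintro ⟨h5, h6⟩
        exact ⟨⟨h5, by rw [h6], by rw [h6]⟩, h6⟩
      · rintro ⟨h5, h6⟩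
        exact ⟨h5.1, h6⟩
    rw [h4]
    have h5 := (hcont.mono (fun z hz => hUN' hz.1 :
      {z | z ∈ U ∧ ‖Φ q‖ ≤ ‖Φ z‖ ∧ ‖Φ z‖ ≤ ‖Φ q‖} ⊆ N)).preimage_isClosed_of_isClosed
        h3.isClosed (isClosed_singleton (x := Φ q))
    have h6 := h3.inter_right h5
    rwa [← inter_assoc, inter_self] at h6
  obtain ⟨Ψ, hC⟩ := exists_puncturedChart hUo holU hcl hcomp
    (fun q hq h1 h2 => hiso U hUN' hUo q hq (norm_pos_iff.1 h1) (hfibc q hq h1 h2))
    hq0U (norm_pos_iff.2 hq0ne) hq0ε hq0l huniq hzc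
  refine hasGlobalSphericalShell_of_contraction (N := {q | q ∈ U ∧ ‖Φ q‖ < ε0}) (h := h)
    π hπ hsurj hloc g hπg hfib ?_ hC
  refine ⟨hh, hg, hhg, hcpt, ⟨c, fun q hq => hc q (hUN (subset_closure hq.1))⟩, ?_, ?_⟩
  · intro δ hδ
    obtain ⟨T, hT⟩ := hsmall (min δ ε0 / 2) (by positivity)
    refine ⟨min T (T0 - 1), fun q hq => ?_⟩
    obtain ⟨_, h2, h3⟩ := hT q (lt_of_lt_of_le hq (min_le_left _ _))
    have h4 := norm_pairMap_lt (x := x) (y := y) (q := q) (δ := min δ ε0) (by positivity) h2 h3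
    refine ⟨⟨hTU q (lt_of_lt_of_le hq (min_le_right _ _)).le, lt_of_lt_of_le h4 (min_le_right _ _)⟩,
      lt_of_lt_of_le h4 (min_le_left _ _)⟩
  · rintro q ⟨hqU, _⟩ h0
    have h1 : g q ∈ D := hgD q (hzD q (hUN (subset_closure hqU)) h0)
    refine ⟨⟨hDU h1, ?_⟩, hDz _ h1⟩
    rw [hDz _ h1, norm_zero]
    exact hε0


end Main

end Crest.Agent.R275.Asm468
end
end

-- ▼ part R275/Fin1_468
section

/-!
R275 (S0418), helper468: NOCURVE.  A compact fibre of a pair of holomorphic functions which is not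
discrete contains the support of a compact prime divisor.
-/

set_option autoImplicit false
set_option linter.unusedSectionVars false

open Set Filter Topology Crest.AlgGeometry.Surface
open scoped Manifold ContDiff

noncomputable section

namespace Crest.Agent.R275.Fin468

open Crest.Agent.R275.Dv69 Crest.Agent.R275.Asm468 Crest.Agent.R275.End849

variable {Y : Type*} [TopologicalSpace Y] [T2Space Y] [ConnectedSpace Y] [ChartedSpace C2 Y]
  [IsManifold 𝓘(ℂ, C2) 1 Y]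

/-- the common divisor of two functions on a compact fibre -/
theorem exists_divisor_of_fiber {N : Set Y} (hN : IsOpen N) {f1 f2 : Y → ℂ}
    (h1 : ∀ q ∈ N, HolN f1 q) (h2 : ∀ q ∈ N, HolN f2 q)
    (hF : IsCompact {q | q ∈ N ∧ f1 q = 0 ∧ f2 q = 0})
    (hne : ∃ q, q ∉ {q | q ∈ N ∧ f1 q = 0 ∧ f2 q = 0}) {q0 : Y}
    (hq0 : q0 ∈ {q | q ∈ N ∧ f1 q = 0 ∧ f2 q = 0})
    (hfr : ∃ᶠ q in 𝓝[≠] q0, f1 q = 0 ∧ f2 q = 0) :
    ∃ E : EffDiv Y, E ≠ 0 ∧ E.supp ⊆ {q | q ∈ N ∧ f1 q = 0 ∧ f2 q = 0} := by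
  classical
  set F : Set Y := {q | q ∈ N ∧ f1 q = 0 ∧ f2 q = 0} with hFdef
  have hFc : IsClosed F := hF.isClosed
  -- not both functions vanish identically near a point of `F`
  have hnz : ∀ q ∈ F, ¬ (f1 =ᶠ[𝓝 q] 0 ∧ f2 =ᶠ[𝓝 q] 0) := by
    set I : Set Y := {q | q ∈ F ∧ f1 =ᶠ[𝓝 q] 0 ∧ f2 =ᶠ[𝓝 q] 0} with hI
    have hIo : IsOpen I := by
      rw [isOpen_iff_mem_nhds]
      rintro q ⟨hq, e1, e2⟩
      filter_upwards [hN.mem_nhds hq.1, eventually_eventually_nhds.2 e1,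
        eventually_eventually_nhds.2 e2] with q' a1 a2 a3
      exact ⟨⟨a1, by simpa using a2.self_of_nhds, by simpa using a3.self_of_nhds⟩, a2, a3⟩
    have hIc : IsClosed I := by
      refine isClosed_of_closure_subset (fun q hq => ?_)
      have hqF : q ∈ F := closure_minimal (fun z hz => hz.1) hFc hq
      refine ⟨hqF, ?_, ?_⟩
      · by_contra hcon
        have h3 := (h1 q hqF.1).ne_ev hcon
        obtain ⟨V, hV, hVo, hqV⟩ := _root_.mem_nhds_iff.1 h3
        obtain ⟨z, hzV, hzI⟩ := mem_closure_iff.1 hq V hVo hqV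
        exact hV hzV hzI.2.1
      · by_contra hcon
        have h3 := (h2 q hqF.1).ne_ev hcon
        obtain ⟨V, hV, hVo, hqV⟩ := _root_.mem_nhds_iff.1 h3
        obtain ⟨z, hzV, hzI⟩ := mem_closure_iff.1 hq V hVo hqV
        exact hV hzV hzI.2.2
    have hIe : I = ∅ := by
      rcases isClopen_iff.1 ⟨hIc, hIo⟩ with h | h
      · exact h
      · exfalso
        obtain ⟨q, hq⟩ := hne
        exact hq ((h ▸ mem_univ q : q ∈ I)).1
    intro q hq hcon
    have : q ∈ I := ⟨hq, hcon⟩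
    rw [hIe] at this
    exact this
  -- local gcd
  have hgcd : ∀ q, ∃ d : Y → ℂ, q ∈ F → ∃ a b : Y → ℂ, HolN d q ∧ HolN a q ∧ HolN b q ∧
      f1 =ᶠ[𝓝 q] d * a ∧ f2 =ᶠ[𝓝 q] d * b ∧ IsRelPrime (gt a q) (gt b q) ∧ ¬ (d =ᶠ[𝓝 q] 0) := by
    intro q
    by_cases hq : q ∈ F
    · by_cases h3 : f1 =ᶠ[𝓝 q] 0
      · have h4 : ¬ (f2 =ᶠ[𝓝 q] 0) := fun h4 => hnz q hq ⟨h3, h4⟩
        obtain ⟨d, a, b, hd, ha, hb, e1, e2, hrp⟩ := EffDiv.exists_gcd (h2 q hq.1) (h1 q hq.1) h4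
        refine ⟨d, fun _ => ⟨b, a, hd, hb, ha, e2, e1, hrp.symm, fun e0 => h4 ?_⟩⟩
        filter_upwards [e0, e1] with z hz hz'
        rw [hz', Pi.mul_apply, hz]
        simp
      · obtain ⟨d, a, b, hd, ha, hb, e1, e2, hrp⟩ := EffDiv.exists_gcd (h1 q hq.1) (h2 q hq.1) h3
        refine ⟨d, fun _ => ⟨a, b, hd, ha, hb, e1, e2, hrp, fun e0 => h3 ?_⟩⟩
        filter_upwards [e0, e1] with z hz hz'
        rw [hz', Pi.mul_apply, hz]
        simp
    · exact ⟨1, fun h => absurd h hq⟩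
  choose d hd using hgcd
  let G : Y → Y → ℂ := fun q => if q ∈ F then d q else 1
  have hinf : ∀ q p, p ∈ N → ∀ a b : Y → ℂ, HolN (d q) p → HolN a p → HolN b p →
      f1 =ᶠ[𝓝 p] d q * a → f2 =ᶠ[𝓝 p] d q * b → IsRelPrime (gt a p) (gt b p) →
      Associates.mk (gt f1 p) ⊓ Associates.mk (gt f2 p) = Associates.mk (gt (d q) p) := by
    intro q p _ a b k1 k2 k3 e1 e2 hrp
    rw [gt_congr e1, gt_congr e2, gt_mul k1 k2, gt_mul k1 k3]
    exact EffDiv.inf_of_relPrime _ hrp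
  have hone : ∀ p : Y, ¬ ((1 : Y → ℂ) =ᶠ[𝓝 p] 0) := fun p e => by
    simpa using e.self_of_nhds
  have hloc : ∀ p0, ∀ᶠ p in 𝓝 p0, HolN (G p0) p ∧ ¬ (G p0 =ᶠ[𝓝 p] 0) ∧
      Associates.mk (gt (G p) p) = Associates.mk (gt (G p0) p) := by
    intro p0
    by_cases hp0 : p0 ∈ F
    · obtain ⟨a, b, k1, k2, k3, e1, e2, hrp, k0⟩ := hd p0 hp0
      have hG0 : G p0 = d p0 := if_pos hp0
      rw [hG0]
      filter_upwards [k1.ev, k2.ev, k3.ev, eventually_eventually_nhds.2 e1,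
        eventually_eventually_nhds.2 e2, LocFact.rp p0 a b k2 k3 hrp, k1.ne_ev k0,
        hN.mem_nhds hp0.1] with p l1 l2 l3 l4 l5 l6 l7 l8
      refine ⟨l1, l7, ?_⟩
      by_cases hp : p ∈ F
      · obtain ⟨a', b', k1', k2', k3', e1', e2', hrp', -⟩ := hd p hp
        have hGp : G p = d p := if_pos hp
        rw [hGp, ← hinf p p l8 a' b' k1' k2' k3' e1' e2' hrp',
          ← hinf p0 p l8 a b l1 l2 l3 l4 l5 l6]
      · have hGp : G p = 1 := if_neg hp
        rw [hGp, gt_one]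
        symm
        have h3 : d p0 p ≠ 0 := by
          intro h0
          apply hp
          refine ⟨l8, ?_, ?_⟩
          · rw [l4.self_of_nhds, Pi.mul_apply, h0, zero_mul]
          · rw [l5.self_of_nhds, Pi.mul_apply, h0, zero_mul]
        exact Associates.mk_eq_one.2 ((isUnit_gt_iff l1).2 h3)
    · have hG0 : G p0 = 1 := if_neg hp0
      rw [hG0]
      filter_upwards [hFc.isOpen_compl.mem_nhds hp0] with p hp
      have hGp : G p = 1 := if_neg hp
      rw [hGp]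
      exact ⟨holN_one, hone p, rfl⟩
  set E := EffDiv.ofLocal G hloc with hE
  have hED : ∀ p, E.D p = Associates.mk (gt (G p) p) := fun p => EffDiv.ofLocal_D G hloc p
  have hsupp : E.supp ⊆ F := by
    intro p hp
    by_contra hpF
    apply hp
    have hGp : G p = 1 := if_neg hpF
    rw [hED, hGp, gt_one]
    rfl
  refine ⟨E, ?_, hsupp⟩
  -- `q0` is in the support
  intro hE0
  obtain ⟨a, b, k1, k2, k3, e1, e2, hrp, k0⟩ := hd q0 hq0
  have h3 : E.D q0 = 1 := by rw [hE0]; rfl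
  have hG0 : G q0 = d q0 := if_pos hq0
  rw [hED, hG0, Associates.mk_eq_one, isUnit_gt_iff k1] at h3
  have h4 := Loc2879.isolated_surface k2 k3 hrp
  have h5 : ∀ᶠ q in 𝓝 q0, f1 q = 0 ∧ f2 q = 0 → q = q0 := by
    filter_upwards [h4, e1, e2, k1.continuousAt.eventually_ne h3] with q l1 l2 l3 l4
    rintro ⟨l5, l6⟩
    rw [l2, Pi.mul_apply, mul_eq_zero] at l5
    rw [l3, Pi.mul_apply, mul_eq_zero] at l6
    exact l1 (l5.resolve_left l4) (l6.resolve_left l4)
  apply hfr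
  filter_upwards [mem_nhdsWithin_of_mem_nhds h5, self_mem_nhdsWithin] with q l1 l2 l3
  exact l2 (l1 l3)

/-- **NOCURVE**: if no compact prime divisor is supported in `N \ D`, compact fibres off `D` are
discrete -/
theorem hiso_of_no_curve {N D : Set Y} {x y : Y → ℂ}
    (hx : ContMDiffOn 𝓘(ℂ, C2) 𝓘(ℂ, ℂ) 1 x N) (hy : ContMDiffOn 𝓘(ℂ, C2) 𝓘(ℂ, ℂ) 1 y N)
    (hN : IsOpen N) (hD0 : ∀ q ∈ D, x q = 0 ∧ y q = 0) (hDne : D.Nonempty)
    (hcur : ∀ C : EffDiv.CPr Y, ¬ (C.1.supp ⊆ N \ D)) :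
    ∀ U ⊆ N, IsOpen U → ∀ q ∈ U, pairMap x y q ≠ 0 →
      IsCompact {z | z ∈ U ∧ pairMap x y z = pairMap x y q} →
      ∀ᶠ z in 𝓝[≠] q, pairMap x y z ≠ pairMap x y q := by
  intro U hU hUo q hq h0 hc
  by_contra hcon
  have hfr : ∃ᶠ z in 𝓝[≠] q, pairMap x y z = pairMap x y q := by
    intro h3
    apply hcon
    filter_upwards [h3] with z hz
    exact hz
  have hxN : ∀ z ∈ N, HolN x z := by
    intro z hz
    filter_upwards [hN.mem_nhds hz] with z' hz'
    exact (hx.mdifferentiableOn (by norm_num)).mdifferentiableAt (hN.mem_nhds hz')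
  have hyN : ∀ z ∈ N, HolN y z := by
    intro z hz
    filter_upwards [hN.mem_nhds hz] with z' hz'
    exact (hy.mdifferentiableOn (by norm_num)).mdifferentiableAt (hN.mem_nhds hz')
  set f1 : Y → ℂ := fun z => x z - x q with hf1
  set f2 : Y → ℂ := fun z => y z - y q with hf2
  have hset : {z | z ∈ U ∧ pairMap x y z = pairMap x y q} =
      {z | z ∈ U ∧ f1 z = 0 ∧ f2 z = 0} := by
    ext z
    constructor
    · rintro ⟨h3, h4⟩
      obtain ⟨h5, h6⟩ := pairMap_eq_iff.1 h4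
      exact ⟨h3, sub_eq_zero.2 h5, sub_eq_zero.2 h6⟩
    · rintro ⟨h3, h4, h5⟩
      exact ⟨h3, pairMap_eq_iff.2 ⟨sub_eq_zero.1 h4, sub_eq_zero.1 h5⟩⟩
  rw [hset] at hc
  have hDout : ∀ z ∈ D, z ∉ {z | z ∈ U ∧ f1 z = 0 ∧ f2 z = 0} := by
    rintro z hz ⟨_, h3, h4⟩
    apply h0
    obtain ⟨k1, k2⟩ := hD0 z hz
    refine pairMap_eq_zero_iff.2 ⟨?_, ?_⟩
    · have : x z = x q := sub_eq_zero.1 h3
      rw [← this, k1]
    · have : y z = y q := sub_eq_zero.1 h4
      rw [← this, k2]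
  obtain ⟨z0, hz0⟩ := hDne
  have hf1N : ∀ z ∈ U, HolN f1 z := fun z hz => (hxN z (hU hz)).sub (holN_const _)
  have hf2N : ∀ z ∈ U, HolN f2 z := fun z hz => (hyN z (hU hz)).sub (holN_const _)
  obtain ⟨E, hE0, hEs⟩ := exists_divisor_of_fiber hUo hf1N hf2N
    hc ⟨z0, hDout z0 hz0⟩ (q0 := q) ⟨hq, sub_self _, sub_self _⟩
    (hfr.mono (fun z hz => by
      obtain ⟨h5, h6⟩ := pairMap_eq_iff.1 hz
      exact ⟨sub_eq_zero.2 h5, sub_eq_zero.2 h6⟩))
  have hEc : IsCompact E.supp := hc.of_isClosed_subset E.isClosed_supp hEs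
  have hex : ∃ C : EffDiv.CPr Y, C.1 ≤ E := by
    by_contra hno
    push Not at hno
    exact EffDiv.not_compact_of_no_prime hE0 hno hEc
  obtain ⟨C, hC⟩ := hex
  refine hcur C (fun z hz => ?_)
  have h3 := hEs (EffDiv.supp_mono hC hz)
  exact ⟨hU h3.1, fun hzD => hDout z hzD h3⟩

end Crest.Agent.R275.Fin468
end
end

-- ▼ part R275/Fin2_468
section

/-!
R275 (S0418), helper468: end of the proof, part 2.

* `yzero` : a function which is constant on the curves of a chain going to the small end and has a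
  limit there is equal to this limit on the chain;
* `locInj_of_chart` : `(v u^r, y)` with `y = u` on `{v = 0}` is locally injective at the points of
  `{v = 0, u ≠ 0}`.
-/

set_option autoImplicit false
set_option linter.unusedSectionVars false

open Set Filter Topology Crest.AlgGeometry.Surface
open scoped Manifold ContDiff

noncomputable section

namespace Crest.Agent.R275.Fin468

open Crest.Agent.R275.Dv69 Crest.Agent.R275.Asm468 Crest.Agent.R275.End849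
open Crest.Agent.R275.Core144

/-- YZERO -/
theorem yzero {Y : Type*} {h : Y → ℝ} {Z : ℤ → Set Y} {m : ℤ} {y : Y → ℂ} {κ : ℂ}
    (hconst : ∀ k, m ≤ k → ∀ q ∈ Z k, ∀ q' ∈ Z k, y q = y q')
    (hch : ∀ k, m ≤ k → ∃ l, k < l ∧ (Z k ∩ Z l).Nonempty)
    (hdeep : ∀ t : ℝ, ∃ l₀ : ℤ, ∀ l, l₀ ≤ l → Z l ⊆ {x | h x < t})
    (hlim : ∀ ε > 0, ∃ T : ℝ, ∀ q, h q < T → ‖y q - κ‖ < ε) :
    ∀ k, m ≤ k → ∀ q ∈ Z k, y q = κ := by
  intro k hk q hq
  -- points of deep curves with the same value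
  have key : ∀ n : ℕ, ∃ l, k + n ≤ l ∧ ∃ q' ∈ Z l, y q' = y q := by
    intro n
    induction n with
    | zero => exact ⟨k, by simp, q, hq, rfl⟩
    | succ n ih =>
      obtain ⟨l, hl, q', hq', e⟩ := ih
      obtain ⟨l', hll', z, hz, hz'⟩ := hch l (by omega)
      refine ⟨l', by push_cast; omega, z, hz', ?_⟩
      rw [← e]
      exact hconst l (by omega) z hz q' hq'
  by_contra hne
  have hpos : 0 < ‖y q - κ‖ := norm_pos_iff.2 (sub_ne_zero.2 hne)
  obtain ⟨T, hT⟩ := hlim _ hpos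
  obtain ⟨l₀, hl₀⟩ := hdeep T
  obtain ⟨l, hl, q', hq', e⟩ := key (l₀ - k).toNat
  have h1 := hT q' (hl₀ l (by omega) hq')
  rw [e] at h1
  exact lt_irrefl _ h1

section chart

variable {Y : Type} [TopologicalSpace Y] [ChartedSpace C2 Y] [IsManifold 𝓘(ℂ, C2) 1 Y]

theorem HolN.contMDiffAt {y : Y → ℂ} {q : Y} (hy : HolN y q) :
    ContMDiffAt 𝓘(ℂ, C2) 𝓘(ℂ) 1 y q := by
  obtain ⟨V, hV, hVo, hqV⟩ := _root_.mem_nhds_iff.1 (hy.ev)
  have h1 : HolOn V y := (holOn_iff_holN hVo y).2 fun p hp => hV hp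
  exact (h1 q hqV).contMDiffAt (hVo.mem_nhds hqV)

theorem contDiffAt_chart {P : OpenPartialHomeomorph Y C2}
    (hP : P ∈ IsManifold.maximalAtlas 𝓘(ℂ, C2) 1 Y) {y : Y → ℂ} {q : Y} (hq : q ∈ P.source)
    (hy : HolN y q) : ContDiffAt ℂ 1 (fun z => y (P.symm z)) (P q) := by
  have h1 : ContMDiffAt 𝓘(ℂ, C2) 𝓘(ℂ, C2) 1 P.symm (P q) :=
    contMDiffAt_symm_of_mem_maximalAtlas hP (P.map_source hq)
  have h2 : ContMDiffAt 𝓘(ℂ, C2) 𝓘(ℂ) 1 y (P.symm (P q)) := by
    rw [P.left_inv hq]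
    exact HolN.contMDiffAt hy
  exact contMDiffAt_iff_contDiffAt.1 (h2.comp (P q) h1)

theorem locInj_of_chart {P : OpenPartialHomeomorph Y C2}
    (hP : P ∈ IsManifold.maximalAtlas 𝓘(ℂ, C2) 1 Y) {c : C2} {r : ℕ} {x y : Y → ℂ} {q : Y}
    (hq : q ∈ P.source) (hx : ∀ᶠ z in 𝓝 q, x z = (P z 1 - c 1) * (P z 0 - c 0) ^ r)
    (hy : HolN y q) (h1 : P q 1 = c 1) (h0 : P q 0 ≠ c 0)
    (hyU : ∀ᶠ z in 𝓝 q, P z 1 = c 1 → y z = P z 0 - c 0) : LocInj (pairMap x y) q := by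
  set F : C2 → C2 := fun z => pairMap x y (P.symm z) with hF
  have hsymm : Tendsto P.symm (𝓝 (P q)) (𝓝 q) := by
    have := (P.continuousAt_symm (P.map_source hq)).tendsto
    rwa [P.left_inv hq] at this
  have hF0 : (fun z => F z 0) =ᶠ[𝓝 (P q)] fun z => (z 1 - c 1) * (z 0 - c 0) ^ r := by
    filter_upwards [hsymm.eventually hx, P.open_target.mem_nhds (P.map_source hq)] with z hz hzt
    show (pairMap x y (P.symm z)) 0 = _
    simp only [pairMap, Matrix.cons_val_zero]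
    rw [hz, P.right_inv hzt]
  have hF1 : ∀ᶠ z in 𝓝 (P q), z 1 = c 1 → F z 1 = z 0 - c 0 := by
    filter_upwards [hsymm.eventually hyU, P.open_target.mem_nhds (P.map_source hq)] with z hz hzt
    intro hz1
    show (pairMap x y (P.symm z)) 1 = _
    simp only [pairMap, Matrix.cons_val_one]
    rw [P.right_inv hzt] at hz
    exact hz hz1
  have hcd : ContDiffAt ℂ 1 F (P q) := by
    rw [contDiffAt_euclidean]
    intro i
    fin_cases i
    · refine ContDiffAt.congr_of_eventuallyEq ?_ hF0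
      have h2 : ContDiff ℂ 1 fun z : C2 => z 0 := (EuclideanSpace.proj 0 : C2 →L[ℂ] ℂ).contDiff
      have h3 : ContDiff ℂ 1 fun z : C2 => z 1 := (EuclideanSpace.proj 1 : C2 →L[ℂ] ℂ).contDiff
      exact ((h3.sub contDiff_const).mul ((h2.sub contDiff_const).pow r)).contDiffAt
    · exact contDiffAt_chart hP hq hy
  have hst : HasStrictFDerivAt F (fderiv ℂ F (P q)) (P q) := hcd.hasStrictFDerivAt one_ne_zero
  set F' : C2 →L[ℂ] C2 := fderiv ℂ F (P q) with hF'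
  -- derivative along a line
  have hline : ∀ (w : C2) (i : Fin 2), HasDerivAt (fun t : ℂ => F (P q + t • w) i) (F' w i) 0 := by
    intro w i
    have e1 : HasDerivAt (fun t : ℂ => P q + t • w) w 0 := by
      simpa using ((hasDerivAt_id (0 : ℂ)).smul_const w).const_add (P q)
    have e2 : HasFDerivAt F F' (P q + (0 : ℂ) • w) := by
      rw [zero_smul, add_zero]
      exact hst.hasFDerivAt
    have e3 := e2.comp_hasDerivAt (0 : ℂ) e1
    exact ((EuclideanSpace.proj i : C2 →L[ℂ] ℂ).hasFDerivAt.comp_hasDerivAt (0 : ℂ) e3)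
  have htend : ∀ w : C2, Tendsto (fun t : ℂ => P q + t • w) (𝓝 0) (𝓝 (P q)) := by
    intro w
    have : Continuous fun t : ℂ => P q + t • w := by fun_prop
    have h2 := this.tendsto 0
    simpa using h2
  have hinj : Function.Injective F' := by
    rw [injective_iff_map_eq_zero]
    intro w hw
    have hU : P q 0 - c 0 ≠ 0 := sub_ne_zero.2 h0
    have w1 : w 1 = 0 := by
      have e1 := hline w 0
      rw [hw] at e1
      have e2 : (fun t : ℂ => F (P q + t • w) 0) =ᶠ[𝓝 0]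
          fun t => (t * w 1) * (P q 0 - c 0 + t * w 0) ^ r := by
        filter_upwards [(htend w).eventually hF0] with t ht
        rw [ht]
        simp only [PiLp.add_apply, PiLp.smul_apply, smul_eq_mul, h1]
        ring
      have e3 : HasDerivAt (fun t : ℂ => (t * w 1) * (P q 0 - c 0 + t * w 0) ^ r)
          (w 1 * (P q 0 - c 0) ^ r) 0 := by
        have k1 : HasDerivAt (fun t : ℂ => t * w 1) (w 1) 0 := by
          simpa using (hasDerivAt_id (0 : ℂ)).mul_const (w 1)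
        have k2 : HasDerivAt (fun t : ℂ => (P q 0 - c 0 + t * w 0) ^ r)
            (r * (P q 0 - c 0) ^ (r - 1) * w 0) 0 := by
          have k3 : HasDerivAt (fun t : ℂ => P q 0 - c 0 + t * w 0) (w 0) 0 := by
            simpa using ((hasDerivAt_id (0 : ℂ)).mul_const (w 0)).const_add (P q 0 - c 0)
          exact (k3.pow r).congr_deriv (by simp)
        exact (k1.mul k2).congr_deriv (by simp)
      have e4 := e3.unique (e1.congr_of_eventuallyEq e2.symm)
      have e5 : w 1 * (P q 0 - c 0) ^ r = 0 := e4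
      exact (mul_eq_zero.1 e5).resolve_right (pow_ne_zero _ hU)
    have w0 : w 0 = 0 := by
      have e1 := hline w 1
      rw [hw] at e1
      have e2 : (fun t : ℂ => F (P q + t • w) 1) =ᶠ[𝓝 0]
          fun t => P q 0 - c 0 + t * w 0 := by
        filter_upwards [(htend w).eventually hF1] with t ht
        rw [ht]
        · simp only [PiLp.add_apply, PiLp.smul_apply, smul_eq_mul]
          ring
        · simp only [PiLp.add_apply, PiLp.smul_apply, smul_eq_mul, h1, w1]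
          ring
      have e3 : HasDerivAt (fun t : ℂ => P q 0 - c 0 + t * w 0) (w 0) 0 := by
        simpa using ((hasDerivAt_id (0 : ℂ)).mul_const (w 0)).const_add (P q 0 - c 0)
      exact e3.unique (e1.congr_of_eventuallyEq e2.symm)
    ext i
    fin_cases i
    · exact w0
    · exact w1
  let e : C2 ≃L[ℂ] C2 := (LinearEquiv.ofInjectiveEndo F'.toLinearMap hinj).toContinuousLinearEquiv
  have he : (e : C2 →L[ℂ] C2) = F' := by
    ext w : 1
    rfl
  have hst' : HasStrictFDerivAt F (e : C2 →L[ℂ] C2) (P q) := by rw [he]; exact hst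
  set O := (hst'.toOpenPartialHomeomorph F).source with hO
  have hOm : O ∈ 𝓝 (P q) :=
    (hst'.toOpenPartialHomeomorph F).open_source.mem_nhds hst'.mem_toOpenPartialHomeomorph_source
  have hOinj : InjOn F O := by
    have := (hst'.toOpenPartialHomeomorph F).injOn
    rwa [HasStrictFDerivAt.toOpenPartialHomeomorph_coe] at this
  refine ⟨P.source ∩ P ⁻¹' O, Filter.inter_mem (P.open_source.mem_nhds hq)
    ((P.continuousAt hq).preimage_mem_nhds hOm), ?_⟩
  intro a ha b hb hab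
  have h2 : F (P a) = F (P b) := by
    show pairMap x y (P.symm (P a)) = pairMap x y (P.symm (P b))
    rw [P.left_inv ha.1, P.left_inv hb.1, hab]
  exact P.injOn ha.1 hb.1 (hOinj ha.2 hb.2 h2)

end chart

end Crest.Agent.R275.Fin468
end
end

-- ▼ part R275/HasLog_473
section

/-!
# R275 (helper473): the Z-cover satisfies `Deck` and `HasLog`

`YC u` as in helper352's ZC9.  If every local primitive system of `X` (with complex values) has a
primitive on `YC u` with additive monodromy, then every nowhere zero multiplicative holomorphic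
function on `YC u` has a holomorphic logarithm (and hence is constant).
-/

set_option autoImplicit false
set_option linter.unusedSectionVars false

open Set Filter Topology Metric Crest.AlgGeometry.Surface
open scoped Manifold ContDiff

noncomputable section

namespace Crest.Agent.R275.Lau473

open HolY631 ZC352


variable {X : Type} [TopologicalSpace X]





variable [ChartedSpace C2 X] [IsManifold 𝓘(ℂ, C2) 1 X]

/-- the Z-cover is a `Deck` -/
theorem deck_YC [CompactSpace X] (u : C(X, Circ)) : Deck (YC.dk u) (YC.ht u) where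
  hol := YC.contMDiff_dk u
  hol_symm := YC.contMDiff_dk_symm u
  cont := YC.continuous_ht u
  shift := YC.ht_dk u
  slab := YC.isCompact_slab u



end Crest.Agent.R275.Lau473
end
end

-- ▼ part R275/Top_630
section

/-!
# R275 (S0418), helper630: top level glue

* `endCover_YC` : the infinite cyclic cover `YC u` of 352 as an `EndCover` of Core_144;
* `EndCover.flip` : the same cover with the two ends exchanged;
* `shell_of_pair` : 468's `shell_of_xy` for an `EndCover`.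
-/

set_option autoImplicit false

open Set Filter Topology Crest.AlgGeometry.Surface
open scoped Manifold ContDiff

noncomputable section

namespace Crest.Agent.R275.Top630

open Crest.Agent.R275.Core144 Crest.Agent.R275.ZC352 Crest.Agent.R275.Lau473
open Crest.Agent.R275.HolY631 (Deck)

section flip

variable {X Y : Type} [TopologicalSpace X] [ChartedSpace C2 X] [TopologicalSpace Y]
  [ChartedSpace C2 Y]

/-- the deck transformation with the two ends exchanged -/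
theorem deck_flip {g : Y ≃ₜ Y} {h : Y → ℝ} (D : Deck g h) : Deck g.symm (fun y => - h y) where
  hol := D.hol_symm
  hol_symm := by simpa using D.hol
  cont := D.cont.neg
  shift y := by
    show - h (g.symm y) = - h y - 1
    have := D.shift (g.symm y)
    rw [g.apply_symm_apply] at this
    linarith
  slab a b := by
    have h1 := D.slab (-b) (-a)
    convert h1 using 1
    ext y
    constructor
    · rintro ⟨h2, h3⟩
      exact ⟨by linarith, by linarith⟩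
    · rintro ⟨h2, h3⟩
      exact ⟨by linarith, by linarith⟩

/-- the end cover with the two ends exchanged -/
def _root_.Crest.Agent.R275.Core144.EndCover.flip (E : EndCover X Y) : EndCover X Y where
  g := E.g.symm
  h := fun y => - E.h y
  π := E.π
  deck := deck_flip E.deck
  π_hol := E.π_hol
  π_surj := E.π_surj
  π_loc := E.π_loc
  π_g y := by
    have := E.π_g (E.g.symm y)
    rw [E.g.apply_symm_apply] at this
    exact this.symm
  π_fib y y' hy := by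
    obtain ⟨m, hm⟩ := E.π_fib y y' hy
    refine ⟨-m, ?_⟩
    have h1 : (E.g.symm : Y ≃ₜ Y) ^ (-m) = E.g ^ m := by
      have h2 : (E.g.symm : Y ≃ₜ Y) = E.g⁻¹ := rfl
      rw [h2, inv_zpow', neg_neg]
    rw [h1]
    exact hm

@[simp] theorem flip_g (E : EndCover X Y) : E.flip.g = E.g.symm := rfl
@[simp] theorem flip_h (E : EndCover X Y) (y : Y) : E.flip.h y = - E.h y := rfl
@[simp] theorem flip_π (E : EndCover X Y) : E.flip.π = E.π := rfl

end flip

section YC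

variable {X : Type} [TopologicalSpace X] [T2Space X] [CompactSpace X]
  [ChartedSpace C2 X] [IsManifold 𝓘(ℂ, C2) 1 X]

theorem pow_apply {Y : Type} [TopologicalSpace Y] (g : Y ≃ₜ Y) (n : ℕ) (y : Y) :
    (g ^ n) y = g^[n] y := by
  induction n with
  | zero => rfl
  | succ n ih =>
    rw [pow_succ', Function.iterate_succ_apply', ← ih]
    rfl

theorem zpow_of_iterate {Y : Type} [TopologicalSpace Y] (g : Y ≃ₜ Y) {y y' : Y}
    (h : ∃ n : ℕ, g^[n] y = y' ∨ g^[n] y' = y) : ∃ m : ℤ, (g ^ m) y = y' := by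
  obtain ⟨n, hn | hn⟩ := h
  · exact ⟨n, by rw [zpow_natCast, pow_apply]; exact hn⟩
  · refine ⟨-n, ?_⟩
    rw [← pow_apply] at hn
    rw [← hn, zpow_neg, zpow_natCast]
    show ((g ^ n)⁻¹ * g ^ n) y' = y'
    rw [inv_mul_cancel]
    rfl

theorem iterate_of_zpow {Y : Type} [TopologicalSpace Y] (g : Y ≃ₜ Y) {y y' : Y}
    (h : ∃ m : ℤ, (g ^ m) y = y') : ∃ n : ℕ, g^[n] y = y' ∨ g^[n] y' = y := by
  obtain ⟨m, hm⟩ := h
  obtain ⟨n, rfl | rfl⟩ := m.eq_nat_or_neg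
  · refine ⟨n, Or.inl ?_⟩
    rw [← pow_apply, ← zpow_natCast]
    exact hm
  · refine ⟨n, Or.inr ?_⟩
    rw [← pow_apply, ← hm, zpow_neg, zpow_natCast]
    show (g ^ n * (g ^ n)⁻¹) y = y
    rw [mul_inv_cancel]
    rfl

/-- 352's infinite cyclic cover as an `EndCover` -/
def endCover_YC (u : C(X, Circ)) : EndCover X (YC u) where
  g := YC.dk u
  h := YC.ht u
  π := YC.pr u
  deck := deck_YC u
  π_hol := YC.contMDiff_pr u
  π_surj := YC.pr_surjective u
  π_loc y := by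
    obtain ⟨V, h1, h2, σ, h3, h4, h5, -⟩ := YC.exists_section (I := 𝓘(ℂ, C2)) (n := 1) u y
    exact ⟨V, h1, h2, σ, h3, h4, h5⟩
  π_g := YC.pr_dk u
  π_fib y y' hy := by
    exact zpow_of_iterate _ (YC.fibre u hy)

end YC

section shell

open Crest.Agent.R275.Asm468 Crest.Agent.R275.End849

variable {X Y : Type} [TopologicalSpace X] [T2Space X] [CompactSpace X] [ConnectedSpace X]
  [ChartedSpace C2 X] [IsManifold 𝓘(ℂ, C2) 1 X]
  [TopologicalSpace Y] [T2Space Y] [ConnectedSpace Y] [ChartedSpace C2 Y]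
  [IsManifold 𝓘(ℂ, C2) 1 Y]


end shell

end Crest.Agent.R275.Top630
end
end

-- ▼ part R275/Fin3_468
section

/-!
R275 (S0418), helper468: end of the proof, part 3.

* `exists_x`  : the function `x = σ / τ` on the neighbourhood where the bundle has a frame;
* `const_on_prime` : holomorphic functions near a compact prime are constant on it;
* `exists_points` : the curves `C_k`, `k < m`, are not contained in `D_m`;
* `shell_final` : from the output of section 5 and of the iteration to the spherical shell.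
-/

set_option autoImplicit false
set_option linter.unusedSectionVars false

open Set Filter Topology
open scoped Manifold ContDiff

noncomputable section

namespace Crest.Agent.R275.Fin468

open Crest.AlgGeometry.Surface Crest.Agent.R275.Geo Crest.Agent.R275.Core144
open Crest.Agent.R275.Dv69 (HolN LEq EffDiv gt LocFact DivFin)
open Crest.Agent.R275.Dv69.EffDiv (CPr)
open Crest.Agent.R275.GeoP572 Crest.Agent.R275.Sec495 Crest.Agent.R275.S5In95
open Crest.Agent.R275.Tr5 Crest.Agent.R275.Root595 Crest.Agent.R275.Asm468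
open Crest.Agent.R275.End849

section xy

variable {Y : Type} [TopologicalSpace Y] [ChartedSpace C2 Y] [IsManifold 𝓘(ℂ, C2) 1 Y]
  {A : Atl 2 Y} {h : Y → ℝ}

theorem leq_mul_unit {D : EffDiv Y} {f u : Y → ℂ} {p : Y} (hf : LEq D f p) (hu : HolN u p)
    (hu0 : u p ≠ 0) : LEq D (f * u) p :=
  ⟨hf.1.mul hu, Dv69.mul_ne_zero_germ hf.1 hu hf.2.1 (fun e => hu0 e.self_of_nhds), by
    rw [hf.2.2]
    exact (Dv69.mk_eq_mk_iff hf.1 (hf.1.mul hu)).2 ⟨u, hu, hu0, EventuallyEq.rfl⟩⟩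

theorem leq_congr {D : EffDiv Y} {f u : Y → ℂ} {p : Y} (hf : LEq D f p) (e : f =ᶠ[𝓝 p] u) :
    LEq D u p := by
  refine ⟨hf.1.congr e, fun h0 => hf.2.1 (e.trans h0), ?_⟩
  rw [hf.2.2, Dv69.gt_congr e]


/-- the limit at the small end vanishes if there are zeros near the small end -/
theorem lim_eq_zero {σ : A.ι → Y → ℂ} {c : ℂ} (hlim : LimS h σ c)
    (hz : ∀ T : ℝ, ∃ i, ∃ x ∈ (A.e i).source, h x < T ∧ σ i x = 0) : c = 0 := by
  by_contra hc
  obtain ⟨T, hT⟩ := hlim ‖c‖ (norm_pos_iff.2 hc)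
  obtain ⟨i, x, hx, hxT, h0⟩ := hz T
  have := hT i x hx hxT
  rw [h0, zero_sub, norm_neg] at this
  exact lt_irrefl _ this


/-- **(R2)** for holomorphic functions: they are constant on compact primes -/
theorem const_on_prime [T2Space Y] (C : CPr Y) {W : Set Y} (hCW : C.1.supp ⊆ W) {f : Y → ℂ}
    (hf : ∀ q ∈ W, HolN f q) : ∀ q ∈ C.1.supp, ∀ q' ∈ C.1.supp, f q = f q' := by
  have hfc : ContinuousOn f C.1.supp := fun q hq =>
    (hf q (hCW hq)).continuousAt.continuousWithinAt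
  rcases C.1.supp.eq_empty_or_nonempty with he | hne
  · intro q hq
    rw [he] at hq
    exact hq.elim
  obtain ⟨p, hp, hmax⟩ := C.2.2.exists_isMaxOn hne hfc.norm
  set S : Set Y := C.1.supp ∩ f ⁻¹' {f p} with hS
  have hSc : IsClosed S := by
    have := hfc.preimage_isClosed_of_isClosed C.1.isClosed_supp (isClosed_singleton (x := f p))
    exact this
  have ho : ∀ q ∈ S, ∀ᶠ z in 𝓝 q, z ∈ C.1.supp → z ∈ S := by
    intro q hq
    have hqp : f q = f p := hq.2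
    have h1 : LMP631.HolZ C.1.supp f q := LMP631.HolN.holZ (hf q (hCW hq.1))
    have h2 := h1.lmp (St3686.zSet_supp C.1 q) hq.1 (Eventually.of_forall fun z hz => by
      rw [hqp]
      exact hmax hz)
    filter_upwards [h2] with z hz hzC
    exact ⟨hzC, (hz hzC).trans hqp⟩
  have h1 : IsClosed (C.1.supp \ S) := by
    rw [← isOpen_compl_iff, isOpen_iff_mem_nhds]
    intro x hx
    by_cases hxP : x ∈ C.1.supp
    · have hxS : x ∈ S := by
        by_contra h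
        exact hx ⟨hxP, h⟩
      filter_upwards [ho x hxS] with q hq hq2
      exact hq2.2 (hq hq2.1)
    · filter_upwards [C.1.isClosed_supp.isOpen_compl.mem_nhds hxP] with q hq hq2
      exact hq hq2.1
  obtain ⟨D1, D2, hD, hD1, hD2⟩ := C.1.exists_split hSc h1
  have h2 : D1.supp = S := by rw [hD1]; exact inter_eq_right.2 inter_subset_left
  have hpS : p ∈ S := ⟨hp, rfl⟩
  have h3 : D2 = 0 := by
    rcases (Dv69.Mon.isPr_iff_irred.1 C.2.1).2 D1 D2 hD with h | h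
    · rw [h, Dv69.EffDiv.supp_zero] at h2
      rw [← h2] at hpS
      exact hpS.elim
    · exact h
  have h4 : C.1.supp ⊆ S := by
    rw [h3, Dv69.EffDiv.supp_zero] at hD2
    intro z hz
    by_contra hzS
    have : z ∈ C.1.supp \ S := ⟨hz, hzS⟩
    rw [← hD2] at this
    exact this
  intro q hq q' hq'
  exact (h4 hq).2.trans (h4 hq').2.symm

end xy

section shift

variable {Y : Type} [TopologicalSpace Y] [ChartedSpace C2 Y] [IsManifold 𝓘(ℂ, C2) 1 Y]
variable [LocFact Y] [DivFin Y] [PreconnectedSpace Y] [Nonempty Y]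
variable {A : Atl 2 Y} {h : Y → ℝ} {γ : Y ≃ₜ Y} {Q : Equi A γ} {P : Subgroup (LB A)}
  {B : Type} [DecidableEq B] {g : Equiv.Perm B} {lev : B → ℤ} {E : B → LB A} {q : LB A → ℤ}
  {s : B → A.ι → Y → ℂ} (H : TIn A h γ Q P g lev E q s)
  (O : Ord495 H.toDivData.toData)

theorem mem_Dk_shift (k : ℤ) (x : Y) :
    γ x ∈ (Dk H O (k + O.b)).supp ↔ x ∈ (Dk H O k).supp := by
  have h1 := H.toDivData.pull_D (O.φ k)
  rw [H.D_eq, H.D_eq] at h1
  have h2 : O.φ (k + O.b) = g (O.φ k) := O.shift k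
  unfold Dk
  rw [h2, ← h1, Dv69.EffDiv.supp_pull]
  rfl

theorem mem_Ck_shift (k : ℤ) (x : Y) :
    γ x ∈ (Ck H O (k + O.b)).1.supp ↔ x ∈ (Ck H O k).1.supp := by
  have h2 : O.φ (k + O.b) = H.toDivData.g (O.φ k) := O.shift k
  have h1 : Ck H O (k + O.b) = H.toDivData.σ (Ck H O k) := by
    unfold Ck
    rw [h2]
    exact H.toDivData.toGeo.cur_g (O.φ k)
  have h3 := H.toDivData.pull_σ (Ck H O k)
  rw [← h1] at h3
  rw [← h3, Dv69.EffDiv.supp_pull]
  rfl

theorem nonempty_Ck (k : ℤ) : (Ck H O k).1.supp.Nonempty := by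
  rw [nonempty_iff_ne_empty]
  intro h1
  exact (Ck H O k).2.1.1 (Dv69.EffDiv.supp_eq_empty.1 h1)

theorem Ck_subset_Dk {m k : ℤ} (hk : m ≤ k) : (Ck H O k).1.supp ⊆ (Dk H O m).supp :=
  Dv69.EffDiv.supp_mono ((Ck_le_Dk_iff H O).2 hk)

theorem deep (t : ℝ) : ∃ l₀ : ℤ, ∀ l, l₀ ≤ l → (Ck H O l).1.supp ⊆ {x | h x < t} := by
  obtain ⟨T0, hT0⟩ := supp_Ck_le H O
  obtain ⟨c, hc⟩ := exists_lev H O
  have hb := O.hb
  obtain ⟨n, hn⟩ := exists_int_gt (T0 - t)
  refine ⟨(n + c) * O.b, fun l hl x hx => ?_⟩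
  have h1 := hT0 l x hx
  have h2 := (hc l).1
  have h3 : n + c ≤ l / O.b := by
    rw [Int.le_ediv_iff_mul_le (by exact_mod_cast hb)]
    exact hl
  have h4 : n ≤ lev (O.φ l) := by omega
  have h5 : (n : ℝ) ≤ lev (O.φ l) := by exact_mod_cast h4
  show h x < t
  linarith

/-- the support of `D_k` is not bounded below -/
theorem Dk_deep (k : ℤ) (T : ℝ) : ∃ x ∈ (Dk H O k).supp, h x < T := by
  obtain ⟨l₀, hl₀⟩ := deep H O T
  obtain ⟨x, hx⟩ := nonempty_Ck H O (max k l₀)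
  exact ⟨x, Ck_subset_Dk H O (le_max_left _ _) hx, hl₀ _ (le_max_right _ _) hx⟩

theorem Dk_top (k : ℤ) : ∃ T : ℝ, ∀ x ∈ (Dk H O k).supp, h x ≤ T := by
  obtain ⟨T0, hT0⟩ := H.exists_top
  exact ⟨_, fun x hx => hT0 (O.φ k) x hx⟩

/-- a curve `C_k`, `k < m`, is not contained in `supp D_m` -/
theorem exists_notMem [T2Space Y] {m k : ℤ} (hk : k < m) :
    ∃ x ∈ (Ck H O k).1.supp, x ∉ (Dk H O m).supp := by
  have h1 : ¬ (Ck H O k).1 ≤ Dk H O m := fun h1 => absurd ((Ck_le_Dk_iff H O).1 h1) (by omega)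
  have h2 : (Ck H O k).1 ⊓ Dk H O m = 0 := by
    rcases (Ck H O k).2.1.2 _ inf_le_left with h | h
    · exact h
    · exact absurd (inf_eq_left.1 h) h1
  obtain ⟨p, hp⟩ := nonempty_Ck H O k
  by_contra hcon
  push Not at hcon
  have h3 := LMP631.ZSet.no_isolated (St3686.zSet_supp (Ck H O k).1 p) hp
  have h4 : ∀ᶠ q in 𝓝[≠] p, q ∈ (Ck H O k).1.supp → q ∈ (Dk H O m).supp → q = p :=
    (St3686.isolated_common h2 p).filter_mono nhdsWithin_le_nhds
  obtain ⟨q, hq, hq1, hq2⟩ := (h3.and_eventually (h4.and self_mem_nhdsWithin)).exists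
  exact hq2 (hq1 hq (hcon q hq))

theorem iterate_symm_mem {k : ℤ} (n : ℕ) {x : Y} (hx : x ∈ (Ck H O k).1.supp) :
    γ.symm^[n] x ∈ (Ck H O (k - n * O.b)).1.supp := by
  induction n with
  | zero => simpa using hx
  | succ n ih =>
    rw [Function.iterate_succ_apply']
    have h1 := mem_Ck_shift H O (k - (n + 1 : ℕ) * O.b) (γ.symm (γ.symm^[n] x))
    rw [γ.apply_symm_apply] at h1
    rw [← h1]
    convert ih using 4
    push_cast
    ring

theorem iterate_symm_notMem {m : ℤ} (n : ℕ) {x : Y} (hx : x ∉ (Dk H O m).supp) :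
    γ.symm^[n] x ∉ (Dk H O m).supp := by
  induction n with
  | zero => simpa using hx
  | succ n ih =>
    rw [Function.iterate_succ_apply']
    intro h1
    have h2 := (mem_Dk_shift H O m (γ.symm (γ.symm^[n] x))).2 h1
    rw [γ.apply_symm_apply] at h2
    exact ih (Dv69.EffDiv.supp_mono (Dk_anti H O (by omega)) h2)

include H in
theorem h_iterate_symm (n : ℕ) (x : Y) : h (γ.symm^[n] x) = h x + n := by
  induction n with
  | zero => simp
  | succ n ih =>
    rw [Function.iterate_succ_apply', H.deck.shift_symm, ih]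
    push_cast
    ring

/-- points on the curves `C_k`, `k < m`, off `D_m`, only finitely many of them below a level -/
theorem exists_points [T2Space Y] (m : ℤ) (c : ℝ) : ∃ F : Finset Y,
    (∀ x ∈ F, x ∉ (Dk H O m).supp) ∧
    ∀ k, k < m → ∃ x ∈ (Ck H O k).1.supp, x ∈ F ∨ c ≤ h x := by
  classical
  have hb : (0 : ℤ) < O.b := by exact_mod_cast O.hb
  have h1 : ∀ k, ∃ x, k < m → x ∈ (Ck H O k).1.supp ∧ x ∉ (Dk H O m).supp := by
    intro k
    by_cases hk : k < m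
    · obtain ⟨x, h1, h2⟩ := exists_notMem H O hk
      exact ⟨x, fun _ => ⟨h1, h2⟩⟩
    · exact ⟨Classical.arbitrary Y, fun h => absurd h hk⟩
  choose p hp using h1
  -- lower bound on a period
  obtain ⟨l, hl⟩ : ∃ l : ℝ, ∀ j ∈ Finset.Ico (m - O.b) m, l ≤ h (p j) := by
    obtain ⟨l, hl⟩ := ((Finset.Ico (m - O.b) m).image fun j => h (p j)).bddBelow
    exact ⟨l, fun j hj => hl (by
      simp only [Finset.coe_image, mem_image, Finset.mem_coe]
      exact ⟨j, hj, rfl⟩)⟩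
  obtain ⟨n0, hn0⟩ := exists_nat_gt (c - l)
  refine ⟨(Finset.range n0 ×ˢ Finset.Ico (m - O.b) m).image fun z => γ.symm^[z.1] (p z.2), ?_, ?_⟩
  · intro x hx
    obtain ⟨⟨n, j⟩, hz, rfl⟩ := Finset.mem_image.1 hx
    rw [Finset.mem_product, Finset.mem_Ico] at hz
    exact iterate_symm_notMem H O n (hp j hz.2.2).2
  · intro k hk
    -- `k = j - n b`
    set n : ℕ := ((m - 1 - k) / O.b).toNat with hn
    have hn' : (n : ℤ) = (m - 1 - k) / O.b :=
      Int.toNat_of_nonneg (Int.ediv_nonneg (by omega) hb.le)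
    set j : ℤ := k + n * O.b with hj
    have h3 := Int.emod_add_mul_ediv (m - 1 - k) O.b
    have h4 := Int.emod_nonneg (m - 1 - k) hb.ne'
    have h5 := Int.emod_lt_of_pos (m - 1 - k) hb
    rw [← hn', mul_comm] at h3
    have hjm : j ∈ Finset.Ico (m - (O.b : ℤ)) m := by
      rw [Finset.mem_Ico]
      constructor <;> rw [hj] <;> linarith
    have hjm' := (Finset.mem_Ico.1 hjm).2
    refine ⟨γ.symm^[n] (p j), ?_, ?_⟩
    · have := iterate_symm_mem H O n (hp j hjm').1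
      rwa [show j - n * O.b = k by rw [hj]; ring] at this
    · by_cases hnn : n < n0
      · left
        exact Finset.mem_image.2 ⟨(n, j), Finset.mem_product.2 ⟨Finset.mem_range.2 hnn, hjm⟩, rfl⟩
      · right
        rw [h_iterate_symm H]
        have h6 := hl j hjm
        have h7 : (n0 : ℝ) ≤ n := by exact_mod_cast not_lt.1 hnn
        linarith

end shift

section final

open Crest.Agent.R275.Top630

variable {X Y : Type} [TopologicalSpace X] [T2Space X] [CompactSpace X] [ConnectedSpace X]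
  [ChartedSpace C2 X] [IsManifold 𝓘(ℂ, C2) 1 X]
  [TopologicalSpace Y] [T2Space Y] [ConnectedSpace Y] [ChartedSpace C2 Y]
  [IsManifold 𝓘(ℂ, C2) 1 Y] [LocFact Y] [DivFin Y]
  {A : Atl 2 Y} (Ec : EndCover X Y) {Q : Equi A Ec.g} {P : Subgroup (LB A)}
  {B : Type} [DecidableEq B] {g : Equiv.Perm B} {lev : B → ℤ} {E : B → LB A} {q : LB A → ℤ}
  {s : B → A.ι → Y → ℂ} (H : TIn A Ec.h Ec.g Q P g lev E q s)
  (O : Ord495 H.toDivData.toData)

/-- **F4**: from the output of section 5 and of the iteration to the spherical shell -/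
theorem shell_final (m : ℤ)
    {N1 : Set Y} (hN1 : IsOpen N1) (hDN1 : (Dk H O m).supp ⊆ N1) {T1 : ℝ}
    (hT1 : {z | Ec.h z ≤ T1} ⊆ N1)
    {x : Y → ℂ} (hx : ∀ z ∈ N1, LEq (Dk H O (m - 1)) x z)
    (hxs : ∀ ε > 0, ∃ T : ℝ, ∀ z ∈ N1, Ec.h z < T → ‖x z‖ < ε)
    {p : Y} (hp : (Ck H O (m - 1)).1.supp ∩ (Dk H O m).supp = {p})
    (hmeet : ∀ k, m ≤ k → ((Ck H O k).1.supp ∩ (Dk H O (k + 1)).supp).Nonempty)
    {Pc : OpenPartialHomeomorph Y C2} (hPc : Pc ∈ IsManifold.maximalAtlas 𝓘(ℂ, C2) 1 Y)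
    (hpP : p ∈ Pc.source) {c : C2} (hPp : Pc p = c) {r : ℕ}
    (hPx : ∀ z ∈ Pc.source, x z = (Pc z 1 - c 1) * (Pc z 0 - c 0) ^ r)
    (hPC : ∀ z ∈ Pc.source, z ∈ (Ck H O (m - 1)).1.supp ↔ Pc z 1 = c 1)
    {Ny : Set Y} (hNy : IsOpen Ny) (hDNy : (Dk H O m).supp ⊆ Ny) {Ty : ℝ}
    (hTy : {z | Ec.h z ≤ Ty} ⊆ Ny) {y : Y → ℂ} (hy : ∀ z ∈ Ny, HolN y z)
    (hyU : ∀ z ∈ Ny, z ∈ Pc.source → Pc z 1 = c 1 → y z = Pc z 0 - c 0)
    {κ : ℂ} (hys : ∀ ε > 0, ∃ T : ℝ, ∀ z, Ec.h z < T → ‖y z - κ‖ < ε) :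
    HasGlobalSphericalShell X := by
  classical
  have hpCD : p ∈ (Ck H O (m - 1)).1.supp ∩ (Dk H O m).supp := by rw [hp]; exact mem_singleton p
  have hpC := hpCD.1
  have hpD := hpCD.2
  -- `y = κ` on `D_m`
  have hyD : ∀ k, m ≤ k → ∀ z ∈ (Ck H O k).1.supp, y z = κ := by
    refine yzero (h := Ec.h) (Z := fun k => (Ck H O k).1.supp) (fun k hk => ?_) (fun k hk => ?_)
      (deep H O) hys
    · exact const_on_prime (Ck H O k) ((Ck_subset_Dk H O hk).trans hDNy) hy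
    · obtain ⟨z, hz, hz'⟩ := hmeet k hk
      rw [supp_Dk] at hz'
      simp only [mem_iUnion, exists_prop] at hz'
      obtain ⟨l, hl, hz'⟩ := hz'
      exact ⟨l, by omega, z, hz, hz'⟩
  have hyD' : ∀ z ∈ (Dk H O m).supp, y z = κ := by
    intro z hz
    rw [supp_Dk] at hz
    simp only [mem_iUnion, exists_prop] at hz
    obtain ⟨l, hl, hz⟩ := hz
    exact hyD l hl z hz
  have hκ : κ = 0 := by
    rw [← hyD' p hpD, hyU p (hDNy hpD) hpP (by rw [hPp]), hPp, sub_self]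
  subst hκ
  -- the neighbourhood `N`
  obtain ⟨cT, hcT⟩ := Dk_top H O m
  obtain ⟨F, hFD, hF⟩ := exists_points H O m (cT + 1)
  set C : Set Y := (Ck H O (m - 1)).1.supp with hC
  have hCc : IsCompact C := (Ck H O (m - 1)).2.2
  set N : Set Y := (N1 ∩ Ny ∩ {z | Ec.h z < cT + 1}) \ ((C \ Pc.source) ∪ F) with hN
  have hNo : IsOpen N := by
    refine ((hN1.inter hNy).inter (isOpen_lt Ec.deck.cont continuous_const)).sdiff ?_
    exact (hCc.isClosed.sdiff Pc.open_source).union F.finite_toSet.isClosed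
  have hDN : (Dk H O m).supp ⊆ N := by
    intro z hz
    refine ⟨⟨⟨hDN1 hz, hDNy hz⟩, ?_⟩, ?_⟩
    · have := hcT z hz
      show Ec.h z < cT + 1
      linarith
    · rintro (⟨h1, h2⟩ | h1)
      · have h3 : z ∈ ({p} : Set Y) := hp ▸ ⟨h1, hz⟩
        rw [mem_singleton_iff] at h3
        rw [h3] at h2
        exact h2 hpP
      · exact hFD z h1 hz
  have hNN1 : N ⊆ N1 := fun z hz => hz.1.1.1
  have hNNy : N ⊆ Ny := fun z hz => hz.1.1.2
  have hCN : ∀ z ∈ C ∩ N, z ∈ Pc.source ∧ Pc z 1 = c 1 := by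
    rintro z ⟨h1, h2⟩
    have h3 : z ∈ Pc.source := by
      by_contra h3
      exact h2.2 (Or.inl ⟨h1, h3⟩)
    exact ⟨h3, (hPC z h3).1 h1⟩
  have hxH : HolOn N x := (holOn_iff_holN hNo x).2 fun z hz => (hx z (hNN1 hz)).1
  have hyH : HolOn N y := (holOn_iff_holN hNo y).2 fun z hz => hy z (hNNy hz)
  have hmm : Dk H O m ≤ Dk H O (m - 1) := Dk_anti H O (by omega)
  have hD0 : ∀ z ∈ (Dk H O m).supp, x z = 0 ∧ y z = 0 := fun z hz =>
    ⟨(hx z (hDN1 hz)).mem_supp.1 (Dv69.EffDiv.supp_mono hmm hz), hyD' z hz⟩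
  refine shell_of_xy' Ec.π Ec.π_hol Ec.π_surj Ec.π_loc Ec.g Ec.deck.hol Ec.π_g
    (fun y y' hyy => iterate_of_zpow _ (Ec.π_fib y y' hyy)) Ec.h Ec.deck.cont Ec.deck.shift
    Ec.deck.slab (N := N) (D := (Dk H O m).supp) (C := C) hNo ⟨cT + 1, fun z hz => le_of_lt hz.1.2⟩
    (Dk H O m).isClosed_supp hDN ?_ hxH hyH hD0 ?_ ?_ hpC hpD ?_ ?_ ?_ ?_
  · -- invariance
    intro z hz
    exact Dv69.EffDiv.supp_mono (Dk_anti H O (by omega)) ((mem_Dk_shift H O m z).2 hz)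
  · -- zeros of `x`
    intro z hz h0
    have h1 := (hx z (hNN1 hz)).mem_supp.2 h0
    rw [supp_Dk] at h1
    simp only [mem_iUnion, exists_prop] at h1
    obtain ⟨l, hl, h1⟩ := h1
    rcases eq_or_lt_of_le hl with h2 | h2
    · right
      rw [hC, h2]
      exact h1
    · left
      exact Ck_subset_Dk H O (by omega) h1
  · -- `y` is injective on `C ∩ N`
    intro a ha b hb hab
    obtain ⟨a1, a2⟩ := hCN a ha
    obtain ⟨b1, b2⟩ := hCN b hb
    rw [hyU a (hNNy ha.2) a1 a2, hyU b (hNNy hb.2) b1 b2] at hab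
    refine Pc.injOn a1 b1 ?_
    ext i
    fin_cases i
    · show Pc a 0 = Pc b 0
      linear_combination hab
    · show Pc a 1 = Pc b 1
      rw [a2, b2]
  · -- local injectivity near `p`
    intro O' hO'
    have hct : c ∈ Pc.target := by rw [← hPp]; exact Pc.map_source hpP
    have hsymm : Pc.symm c = p := by rw [← hPp]; exact Pc.left_inv hpP
    have hlin : Continuous fun t : ℂ => c + t • (EuclideanSpace.single 0 1 : C2) := by fun_prop
    have hlin0 : Tendsto (fun t : ℂ => c + t • (EuclideanSpace.single 0 1 : C2)) (𝓝[≠] 0)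
        (𝓝 c) := by
      have := (hlin.tendsto 0).mono_left (nhdsWithin_le_nhds (s := {0}ᶜ))
      simpa using this
    have h1 : Tendsto Pc.symm (𝓝 c) (𝓝 p) := by
      have := (Pc.continuousAt_symm hct).tendsto
      rwa [hsymm] at this
    have h2 : ∀ᶠ t in 𝓝[≠] (0 : ℂ), t ≠ 0 ∧
        c + t • (EuclideanSpace.single 0 1 : C2) ∈ Pc.target ∧
        Pc.symm (c + t • (EuclideanSpace.single 0 1 : C2)) ∈ O' ∩ Ny := by
      filter_upwards [self_mem_nhdsWithin, hlin0.eventually (Pc.open_target.mem_nhds hct),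
        (h1.comp hlin0).eventually (inter_mem hO' (hNy.mem_nhds (hDNy hpD)))] with t k1 k2 k3
      exact ⟨k1, k2, k3⟩
    obtain ⟨t, ht0, htt, htO⟩ := h2.exists
    set z := Pc.symm (c + t • (EuclideanSpace.single 0 1 : C2)) with hz
    have hzs : z ∈ Pc.source := Pc.map_target htt
    have hPz : Pc z = c + t • (EuclideanSpace.single 0 1 : C2) := Pc.right_inv htt
    have hz1 : Pc z 1 = c 1 := by rw [hPz]; simp
    have hz0 : Pc z 0 = c 0 + t := by rw [hPz]; simp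
    have hz0' : Pc z 0 ≠ c 0 := by
      rw [hz0]
      simpa using ht0
    refine ⟨z, htO.1, (hPC z hzs).2 hz1, ?_, ?_⟩
    · intro h3
      rw [h3, hPp] at hz0'
      exact hz0' rfl
    · refine locInj_of_chart (r := r) hPc hzs ?_ (hy z htO.2) hz1 hz0' ?_
      · filter_upwards [Pc.open_source.mem_nhds hzs] with w hw using hPx w hw
      · filter_upwards [Pc.open_source.mem_nhds hzs, hNy.mem_nhds htO.2] with w hw hw' h3
        exact hyU w hw' hw h3
  · -- `x = 0` on `C`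
    intro z hz hzC
    exact (hx z (hNN1 hz)).mem_supp.1
      (Ck_subset_Dk H O le_rfl hzC)
  · -- the small end
    intro δ hδ
    obtain ⟨Tx, hTx⟩ := hxs δ hδ
    obtain ⟨Ty', hTy'⟩ := hys δ hδ
    obtain ⟨tC, htC⟩ : ∃ tC, ∀ z ∈ C, tC ≤ Ec.h z := by
      obtain ⟨b, hb⟩ := (hCc.image Ec.deck.cont).bddBelow
      exact ⟨b, fun z hz => hb ⟨z, hz, rfl⟩⟩
    obtain ⟨tF, htF⟩ : ∃ tF, ∀ z ∈ F, tF ≤ Ec.h z := by
      obtain ⟨b, hb⟩ := (F.image Ec.h).bddBelow
      exact ⟨b, fun z hz => hb (by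
        simp only [Finset.coe_image, mem_image, Finset.mem_coe]
        exact ⟨z, hz, rfl⟩)⟩
    refine ⟨min (min (min T1 Ty) (min tC tF)) (min (cT + 1) (min Tx Ty')), fun z hz => ?_⟩
    simp only [lt_min_iff] at hz
    obtain ⟨⟨⟨h1, h2⟩, h3, h4⟩, h5, h6, h7⟩ := hz
    have hzN : z ∈ N := by
      refine ⟨⟨⟨hT1 (le_of_lt h1), hTy (le_of_lt h2)⟩, h5⟩, ?_⟩
      rintro (⟨k1, k2⟩ | k1)
      · exact absurd (htC z k1) (not_le.2 h3)
      · exact absurd (htF z k1) (not_le.2 h4)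
    refine ⟨hzN, hTx z (hNN1 hzN) h6, ?_⟩
    have := hTy' z h7
    rwa [sub_zero] at this
  · -- fibres
    refine hiso_of_no_curve hxH hyH hNo hD0 ⟨p, hpD⟩ (fun C' hC' => ?_)
    obtain ⟨k, rfl⟩ := exists_Ck H O C'
    by_cases hk : k < m
    · obtain ⟨z, hz, hz'⟩ := hF k hk
      have h1 := (hC' hz).1
      rcases hz' with h2 | h2
      · exact h1.2 (Or.inr h2)
      · exact absurd h1.1.2 (not_lt.2 h2)
    · obtain ⟨z, hz⟩ := nonempty_Ck H O k
      exact (hC' hz).2 (Ck_subset_Dk H O (not_lt.1 hk) hz)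

end final

end Crest.Agent.R275.Fin468
end
end

-- ▼ part R275/EndAll_468

/-!
R275 (S0418), helper468: sections 5 and 6 assembled, with the output of the iteration as a
hypothesis.

* `exists_x'`     : the frame `τ` and the function `x = σ / τ`;
* `IterOut`       : output of the iteration;
* `IterHyp`       : the iteration as a hypothesis, for one `m` and one `N`;
* `shell_of_sec5` : section 5 + iteration ⟹ spherical shell, for one `m`;
* `shell_end`     : with the choice of `m`.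
-/

set_option autoImplicit false
set_option linter.unusedSectionVars false

open Set Filter Topology
open scoped Manifold ContDiff

noncomputable section

namespace Crest.Agent.R275.Fin468

open Crest.AlgGeometry.Surface Crest.Agent.R275.Geo Crest.Agent.R275.Core144
open Crest.Agent.R275.Dv69 (HolN LEq EffDiv gt LocFact DivFin)
open Crest.Agent.R275.Dv69.EffDiv (CPr)
open Crest.Agent.R275.GeoP572 Crest.Agent.R275.Sec495 Crest.Agent.R275.S5In95
open Crest.Agent.R275.Tr5 Crest.Agent.R275.Asm468 Crest.Agent.R275.Int495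
open Crest.Agent.R275.RootS5595 (FamH)

section xy

variable {Y : Type} [TopologicalSpace Y] [ChartedSpace C2 Y] [IsManifold 𝓘(ℂ, C2) 1 Y]
  {A : Atl 2 Y} {h : Y → ℝ}

/-- **the frame `τ` and the function `x`** -/
theorem exists_x' [PreconnectedSpace Y] (hA : Adm A) {L : LB A} {σ : A.ι → Y → ℂ}
    (hσ : IsHS L univ σ) (h0 : σ ≠ 0) {N : Set Y} (hN : IsOpen N) {τ : A.ι → Y → ℂ}
    (F : Frame h N L τ) (hlim : LimS h σ 0) :
    ∃ x : Y → ℂ, (∀ i, ∀ z ∈ (A.e i).source, z ∈ N → x z * τ i z = σ i z) ∧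
      (∀ q ∈ N, LEq (dvs A σ) x q) ∧
      ∀ ε > 0, ∃ T : ℝ, ∀ q ∈ N, h q < T → ‖x q‖ < ε := by
  choose ix hix using A.cover
  have hx : ∀ q ∈ N, ∀ i, q ∈ (A.e i).source →
      σ (ix q) q * (τ (ix q) q)⁻¹ = σ i q * (τ i q)⁻¹ := by
    intro q hq i hi
    rw [hσ.tr (ix q) i q ⟨hix q, hi⟩ trivial, F.hs.tr (ix q) i q ⟨hix q, hi⟩ hq, mul_inv]
    have h1 := L.ne_zero (ix q) i q
    field_simp
  refine ⟨fun q => σ (ix q) q * (τ (ix q) q)⁻¹, fun i z hz hzN => ?_, fun q hq => ?_, ?_⟩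
  · show σ (ix z) z * (τ (ix z) z)⁻¹ * τ i z = σ i z
    rw [hx z hzN i hz, mul_assoc, inv_mul_cancel₀ (F.ne i z hz hzN), mul_one]
  · have h1 : HolN (τ (ix q)) q :=
      (holOn_iff_holN (hN.inter (A.e (ix q)).open_source) _).1 (F.hs.holOn hA hN (ix q)) q
        ⟨hq, hix q⟩
    have h2 := leq_mul_unit (leq_dvs hA hσ h0 (hix q)) (h1.inv (F.ne _ q (hix q) hq))
      (inv_ne_zero (F.ne _ q (hix q) hq))
    refine leq_congr h2 ?_
    filter_upwards [hN.mem_nhds hq, (A.e (ix q)).open_source.mem_nhds (hix q)] with z hz hz'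
    exact (hx z hz (ix q) hz').symm
  · obtain ⟨C, hC⟩ := F.bdd
    intro ε hε
    obtain ⟨T, hT⟩ := hlim (ε / (|C| + 1)) (by positivity)
    refine ⟨T, fun q hq hqT => ?_⟩
    have h1 := hT (ix q) q (hix q) hqT
    rw [sub_zero] at h1
    have h2 := (hC (ix q) q (hix q) hq).2
    show ‖σ (ix q) q * (τ (ix q) q)⁻¹‖ < ε
    rw [norm_mul]
    have h3 : ‖(τ (ix q) q)⁻¹‖ < |C| + 1 := h2.trans_lt ((le_abs_self C).trans_lt (lt_add_one _))
    have h5 : 0 < |C| + 1 := by positivity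
    calc ‖σ (ix q) q‖ * ‖(τ (ix q) q)⁻¹‖ ≤ ε / (|C| + 1) * ‖(τ (ix q) q)⁻¹‖ := by gcongr
      _ < ε / (|C| + 1) * (|C| + 1) := by gcongr
      _ = ε := by field_simp

/-- **output of the iteration** near `D ∪ {h ≤ T}`: `C` is the curve, `x` the function with
`x = v u^r` in the chart `Pc` -/
def IterOut (h : Y → ℝ) (C D : Set Y) (x : Y → ℂ) (p : Y) : Prop :=
  ∃ (Pc : OpenPartialHomeomorph Y C2) (c : C2) (r : ℕ) (Ny : Set Y) (Ty : ℝ) (y : Y → ℂ) (κ : ℂ),
    Pc ∈ IsManifold.maximalAtlas 𝓘(ℂ, C2) 1 Y ∧ p ∈ Pc.source ∧ Pc p = c ∧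
    (∀ z ∈ Pc.source, x z = (Pc z 1 - c 1) * (Pc z 0 - c 0) ^ r) ∧
    (∀ z ∈ Pc.source, z ∈ C ↔ Pc z 1 = c 1) ∧
    IsOpen Ny ∧ D ⊆ Ny ∧ {z | h z ≤ Ty} ⊆ Ny ∧ (∀ z ∈ Ny, HolN y z) ∧
    (∀ z ∈ Ny, z ∈ Pc.source → Pc z 1 = c 1 → y z = Pc z 0 - c 0) ∧
    ∀ ε > 0, ∃ T : ℝ, ∀ z, h z < T → ‖y z - κ‖ < ε

end xy

section iter

variable {Y : Type} [TopologicalSpace Y] [ChartedSpace C2 Y] [IsManifold 𝓘(ℂ, C2) 1 Y]
variable [LocFact Y] [DivFin Y] [PreconnectedSpace Y] [Nonempty Y]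
variable {A : Atl 2 Y} {h : Y → ℝ} {γ : Y ≃ₜ Y} {Q : Equi A γ} {P : Subgroup (LB A)}
  {B : Type} [DecidableEq B] {g : Equiv.Perm B} {lev : B → ℤ} {E : B → LB A} {q : LB A → ℤ}
  {s : B → A.ι → Y → ℂ} (H : TIn A h γ Q P g lev E q s)
  (O : Ord495 H.toDivData.toData)

/-- **the iteration as a hypothesis** -/
def IterHyp (m : ℤ) (N : Set Y) : Prop :=
  ∀ (τ : A.ι → Y → ℂ) (x : Y → ℂ) (p : Y), Frame h N (E (O.φ (m - 1))) τ →
    (∀ i, ∀ z ∈ (A.e i).source, z ∈ N → x z * τ i z = s (O.φ (m - 1)) i z) →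
    (∀ z ∈ N, LEq (Dk H O (m - 1)) x z) →
    (∀ ε > 0, ∃ T : ℝ, ∀ z ∈ N, h z < T → ‖x z‖ < ε) →
    (Ck H O (m - 1)).1.supp ∩ (Dk H O m).supp = {p} →
    (∀ u f : Y → ℂ, LEq (Dk H O m) u p → LEq (Ck H O (m - 1)).1 f p → End69.Gen u f p) →
    IterOut h (Ck H O (m - 1)).1.supp (Dk H O m).supp x p

end iter

section final

variable {X Y : Type} [TopologicalSpace X] [T2Space X] [CompactSpace X] [ConnectedSpace X]
  [ChartedSpace C2 X] [IsManifold 𝓘(ℂ, C2) 1 X]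
  [TopologicalSpace Y] [T2Space Y] [ConnectedSpace Y] [ChartedSpace C2 Y]
  [IsManifold 𝓘(ℂ, C2) 1 Y] [LocFact Y] [DivFin Y]
  {A : Atl 2 Y} (Ec : EndCover X Y) {Q : Equi A Ec.g} {P : Subgroup (LB A)}
  {B : Type} [DecidableEq B] {g : Equiv.Perm B} {lev : B → ℤ} {E : B → LB A} {q : LB A → ℤ}
  {s : B → A.ι → Y → ℂ} (H : TIn A Ec.h Ec.g Q P g lev E q s)
  (O : Ord495 H.toDivData.toData)

/-- section 5 + iteration ⟹ spherical shell, for one `m` -/
theorem shell_of_sec5 (N1 : N8i A Ec.h P q) (hS : HasS Ec.h P) {m : ℤ} {N : Set Y}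
    (hN : IsOpen N) (hDN : (Dk H O m).supp ⊆ N) (hT : ∃ T : ℝ, {z | Ec.h z ≤ T} ⊆ N)
    (hfr : E (O.φ (m - 1)) ∈ FrG A Ec.h N) (hit : IterHyp H O m N) :
    HasGlobalSphericalShell X := by
  obtain ⟨T1, hT1⟩ := hT
  obtain ⟨τ, F⟩ := hfr
  have hlim : LimS Ec.h (s (O.φ (m - 1))) 0 := by
    obtain ⟨c, hc⟩ := hS _ (H.lat.E_mem (O.φ (m - 1))) _ (H.s_mem _)
    have hc0 : c = 0 := by
      refine lim_eq_zero hc fun T => ?_
      obtain ⟨z, hz, hzT⟩ := Dk_deep H O (m - 1) T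
      obtain ⟨i, hi⟩ := A.cover z
      exact ⟨i, z, hi, hzT, (mem_supp_dvs H.adm (H.s_mem _).1 (H.s_ne _) hi).1 hz⟩
    rwa [hc0] at hc
  obtain ⟨x, hxτ, hxD, hxs⟩ := exists_x' H.adm (H.s_mem (O.φ (m - 1))).1 (H.s_ne _) hN F hlim
  have hp : (Ck H O (m - 1)).1.supp ∩ (Dk H O m).supp = {pt H O N1 (m - 1)} := by
    have := inter_pt H O N1 (m - 1)
    rwa [sub_add_cancel] at this
  have hgen : ∀ u f : Y → ℂ, LEq (Dk H O m) u (pt H O N1 (m - 1)) →
      LEq (Ck H O (m - 1)).1 f (pt H O N1 (m - 1)) → End69.Gen u f (pt H O N1 (m - 1)) := by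
    intro u f hu hf
    refine gen_pt H O N1 (m - 1) ?_ hf
    rwa [sub_add_cancel]
  obtain ⟨Pc, c, r, Ny, Ty, y, κ, a1, a2, a3, a4, a5, a6, a7, a8, a9, a10, a11⟩ :=
    hit τ x _ F hxτ hxD hxs hp hgen
  exact shell_final Ec H O m hN hDN hT1 hxD hxs hp (fun k _ => nonempty_inter H O N1 k) a1 a2 a3
    a4 a5 a6 a7 a8 a9 a10 a11

/-- **sections 5 and 6**, with the choice of `m` -/
theorem shell_end (N1 : N8i A Ec.h P q) (N2 : N8ii A Ec.h P q) (hS : HasS Ec.h P)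
    (hone : (∃ m, O.OneParent m) → ∃ ρ E' S' c', FamH H O ρ E' S' c')
    (htwo : (∀ K, ∃ i < K - 1, O.IsParent i K) → ∀ ρ0 : ℝ, ∃ ρ E' S' c', ρ0 ≤ ρ ∧
      FamH H O ρ E' S' c')
    (hit : ∀ (m : ℤ) (N : Set Y), IsOpen N → (Dk H O m).supp ⊆ N →
      (∃ T : ℝ, {z | Ec.h z ≤ T} ⊆ N) → (∃ H0 : ℝ, ∀ z ∈ N, Ec.h z ≤ H0) →
      (∀ k, k + O.r k < m → Disjoint (closure N) (Ck H O k).1.supp) →
      E (O.φ (m - 1)) ∈ FrG A Ec.h N → IterHyp H O m N) :
    HasGlobalSphericalShell X := by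
  obtain ⟨m, N, a1, a2, a3, a4, a5, a6⟩ := RootS5595.sec5' H O N1 N2 hS hone htwo
  exact shell_of_sec5 Ec H O N1 hS a1 a2 a3 a6 (hit m N a1 a2 a3 a4 a5 a6)

end final

end Crest.Agent.R275.Fin468
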