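import Crest.Agent.R275.Eul_130
import Crest.Agent.R275.EulRaw_473
import Crest.Agent.R275.ScaleE_511
import Crest.Agent.R275.BrixB_509
import Crest.Agent.R275.LnkP6_476
import Crest.Agent.R275.MIe_683
import Crest.Agent.R275.ChiM_825

/-!
# R275 (helper130): index = Euler characteristic for line bundles on a compact surface

The fields `fin` and `euler` of `ChiM825.CMData` for the geometric index `G.kIndex hσ` of a
module-scale `G` satisfying the cohesive theorem (`LnkP6476.IsCoh G`, from 683's `GMod`).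

* `sc3` : the supercomplex of a three term complex; `fin_sc3`, `st_sc3`;
* `indR_c` : the class of an idempotent over any finite index type;
* `fin_of_coh`, `ind_of_coh` : finiteness and index of `(Sec (tw (lam2 A) E), ∇)`;
* `fin_euler` : the two fields.
-/

set_option autoImplicit false
set_option linter.unusedSectionVars false

open Set Filter Topology Complex
open scoped ContDiff Matrix ComplexConjugate Kronecker

noncomputable section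

namespace Crest.Agent.R275.EulC130

open Fred685 Q74 NA7763 Eul130

/-! ### the supercomplex of a three term complex -/

section sc3

variable {𝕜 V0 V1 V2 : Type*} [RCLike 𝕜] [AddCommGroup V0] [Module 𝕜 V0] [AddCommGroup V1]
  [Module 𝕜 V1] [AddCommGroup V2] [Module 𝕜 V2] (d0 : V0 →ₗ[𝕜] V1) (d1 : V1 →ₗ[𝕜] V2)

/-- the supercomplex of a three term complex -/
def sc3 (hdd : ∀ x, d1 (d0 x) = 0) : SC 𝕜 (V0 × V1 × V2) where
  d :=
    { toFun := fun v => (0, d0 v.1, d1 v.2.1)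
      map_add' := fun v w => by
        simp only [Prod.fst_add, Prod.snd_add, map_add, Prod.mk_add_mk, add_zero]
      map_smul' := fun c v => by
        simp only [Prod.smul_fst, Prod.smul_snd, map_smul, Prod.smul_mk, smul_zero,
          RingHom.id_apply] }
  T :=
    { toFun := fun v => (v.1, -v.2.1, v.2.2)
      map_add' := fun v w => by
        simp only [Prod.fst_add, Prod.snd_add, Prod.mk_add_mk, neg_add]
      map_smul' := fun c v => by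
        simp only [Prod.smul_fst, Prod.smul_snd, Prod.smul_mk, smul_neg, RingHom.id_apply] }
  dd v := by
    show ((0 : V0), d0 0, d1 (d0 v.1)) = 0
    rw [map_zero, hdd]
    rfl
  dT v := by
    show ((0 : V0), d0 v.1, d1 (-v.2.1)) = -((0 : V0), -d0 v.1, d1 v.2.1)
    rw [Prod.neg_mk, Prod.neg_mk, neg_neg, neg_zero, map_neg]

/-- the grading -/
def gr3 : Gr 𝕜 (V0 × V1 × V2) where
  m := 2
  π q := match q with
    | 0 => LinearMap.prod (LinearMap.fst 𝕜 V0 (V1 × V2)) 0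
    | 1 => LinearMap.prod 0
        (LinearMap.prod (LinearMap.fst 𝕜 V1 V2 ∘ₗ LinearMap.snd 𝕜 V0 (V1 × V2)) 0)
    | 2 => LinearMap.prod 0
        (LinearMap.prod 0 (LinearMap.snd 𝕜 V1 V2 ∘ₗ LinearMap.snd 𝕜 V0 (V1 × V2)))
    | _ + 3 => 0
  idem q v := by
    match q with
    | 0 => rfl
    | 1 => rfl
    | 2 => rfl
    | _ + 3 => rfl
  orth q r v h := by
    match q, r with
    | 0, 0 => exact absurd rfl h
    | 0, 1 => rfl
    | 0, 2 => rfl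
    | 1, 0 => rfl
    | 1, 1 => exact absurd rfl h
    | 1, 2 => rfl
    | 2, 0 => rfl
    | 2, 1 => rfl
    | 2, 2 => exact absurd rfl h
    | _ + 3, _ => rfl
    | 0, _ + 3 => rfl
    | 1, _ + 3 => rfl
    | 2, _ + 3 => rfl
  top q v h := by
    match q with
    | 0 => omega
    | 1 => omega
    | 2 => omega
    | _ + 3 => rfl
  sum v := by
    rw [Finset.sum_range_succ, Finset.sum_range_succ, Finset.sum_range_one]
    show (v.1, (0 : V1 × V2)) + ((0 : V0), v.2.1, (0 : V2)) + ((0 : V0), (0 : V1), v.2.2) = v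
    ext <;> simp

variable {d0 d1}

theorem deg3 (hdd : ∀ x, d1 (d0 x) = 0) :
    Deg (gr3 (𝕜 := 𝕜) (V0 := V0) (V1 := V1) (V2 := V2)) gr3 1 (sc3 d0 d1 hdd).d := by
  intro q r h v
  match q, r with
  | 0, 0 => rfl
  | 0, 1 => exact absurd rfl h
  | 0, 2 =>
    show ((0 : V0), (0 : V1), d1 0) = 0
    rw [map_zero]; rfl
  | 1, 0 => rfl
  | 1, 1 =>
    show ((0 : V0), d0 0, (0 : V2)) = 0
    rw [map_zero]; rfl
  | 1, 2 => exact absurd rfl h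
  | 2, 0 => rfl
  | 2, 1 =>
    show ((0 : V0), d0 0, (0 : V2)) = 0
    rw [map_zero]; rfl
  | 2, 2 =>
    show ((0 : V0), (0 : V1), d1 0) = 0
    rw [map_zero]; rfl
  | _ + 3, r =>
    show (gr3 (𝕜 := 𝕜)).π r ((sc3 d0 d1 hdd).d 0) = 0
    rw [map_zero, map_zero]
  | 0, _ + 3 => rfl
  | 1, _ + 3 => rfl
  | 2, _ + 3 => rfl

theorem T3 (hdd : ∀ x, d1 (d0 x) = 0) (q : ℕ) (v : V0 × V1 × V2) :
    (sc3 d0 d1 hdd).T ((gr3 (𝕜 := 𝕜)).π q v) = (gr3 (𝕜 := 𝕜)).π q ((sc3 d0 d1 hdd).T v) := by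
  match q with
  | 0 =>
    show (v.1, -(0 : V1), (0 : V2)) = (v.1, (0 : V1), (0 : V2))
    rw [neg_zero]
  | 1 => rfl
  | 2 =>
    show ((0 : V0), -(0 : V1), v.2.2) = ((0 : V0), (0 : V1), v.2.2)
    rw [neg_zero]
  | _ + 3 =>
    show (sc3 d0 d1 hdd).T 0 = 0
    rw [map_zero]

theorem T3s (hdd : ∀ x, d1 (d0 x) = 0) (q : ℕ) (v : V0 × V1 × V2) :
    (sc3 d0 d1 hdd).T ((gr3 (𝕜 := 𝕜)).π q v) = (-1 : 𝕜) ^ q • (gr3 (𝕜 := 𝕜)).π q v := by
  match q with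
  | 0 =>
    rw [pow_zero, one_smul]
    show (v.1, -(0 : V1), (0 : V2)) = (v.1, (0 : V1), (0 : V2))
    rw [neg_zero]
  | 1 =>
    rw [pow_one, neg_one_smul]
    show ((0 : V0), -v.2.1, (0 : V2)) = -((0 : V0), v.2.1, (0 : V2))
    rw [Prod.neg_mk, Prod.neg_mk, neg_zero, neg_zero]
  | 2 =>
    rw [neg_one_sq, one_smul]
    show ((0 : V0), -(0 : V1), v.2.2) = ((0 : V0), (0 : V1), v.2.2)
    rw [neg_zero]
  | _ + 3 =>
    show (sc3 d0 d1 hdd).T 0 = _ • (0 : V0 × V1 × V2)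
    rw [map_zero, smul_zero]

open ScaleE511

theorem mem3 (hdd : ∀ x, d1 (d0 x) = 0) (q : ℕ) (v : V0 × V1 × V2) :
    v ∈ ScaleE511.Zq (gr3 (𝕜 := 𝕜)) (sc3 d0 d1 hdd).d q ↔
      (gr3 (𝕜 := 𝕜)).π q v = v ∧ d0 v.1 = 0 ∧ d1 v.2.1 = 0 := by
  rw [ScaleE511.mem_Zq]
  refine and_congr Iff.rfl ⟨fun h => ?_, fun h => ?_⟩
  · exact ⟨congrArg (fun t => t.2.1) h, congrArg (fun t => t.2.2) h⟩
  · show ((0 : V0), d0 v.1, d1 v.2.1) = 0
    rw [h.1, h.2]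
    rfl

theorem mem_range3 (hdd : ∀ x, d1 (d0 x) = 0) (v : V0 × V1 × V2) :
    v ∈ LinearMap.range (sc3 d0 d1 hdd).d ↔
      v.1 = 0 ∧ v.2.1 ∈ LinearMap.range d0 ∧ v.2.2 ∈ LinearMap.range d1 := by
  constructor
  · rintro ⟨w, rfl⟩
    exact ⟨rfl, ⟨_, rfl⟩, ⟨_, rfl⟩⟩
  · rintro ⟨h0, ⟨x, h1⟩, ⟨y, h2⟩⟩
    exact ⟨(x, y, 0), Prod.ext h0.symm (Prod.ext h1 h2)⟩

theorem hq0 (hdd : ∀ x, d1 (d0 x) = 0) :
    Nonempty (ScaleE511.Hq (gr3 (𝕜 := 𝕜)) (sc3 d0 d1 hdd).d 0 ≃ₗ[𝕜] H0 d0 ⊥ ⊥) := by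
  refine exists_equiv (ScaleE511.Zq (gr3 (𝕜 := 𝕜)) (sc3 d0 d1 hdd).d 0)
    (LinearMap.range (sc3 d0 d1 hdd).d) ((⊥ : Submodule 𝕜 V1).comap d0) ⊥
    (LinearMap.fst 𝕜 V0 (V1 × V2)) ?_ ?_ ?_
  · intro z hz
    exact ((mem3 hdd 0 z).1 hz).2.1
  · intro z hz
    rw [mem_range3, Submodule.mem_bot]
    obtain ⟨h1, -, -⟩ := (mem3 hdd 0 z).1 hz
    have h2 : z.2 = 0 := (congrArg Prod.snd h1).symm
    constructor
    · intro h3
      refine ⟨h3, ?_, ?_⟩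
      · rw [h2]; exact zero_mem _
      · rw [h2]; exact zero_mem _
    · exact fun h3 => h3.1
  · intro z' hz'
    have h0 : d0 z' = 0 := hz'
    refine ⟨(z', 0, 0), ?_, rfl⟩
    rw [mem3]
    exact ⟨rfl, h0, map_zero _⟩

theorem hq1 (hdd : ∀ x, d1 (d0 x) = 0) :
    Nonempty (ScaleE511.Hq (gr3 (𝕜 := 𝕜)) (sc3 d0 d1 hdd).d 1 ≃ₗ[𝕜] H1 d0 d1 ⊥ ⊥) := by
  refine exists_equiv (ScaleE511.Zq (gr3 (𝕜 := 𝕜)) (sc3 d0 d1 hdd).d 1)
    (LinearMap.range (sc3 d0 d1 hdd).d) ((⊥ : Submodule 𝕜 V2).comap d1) (⊥ ⊔ LinearMap.range d0)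
    (LinearMap.fst 𝕜 V1 V2 ∘ₗ LinearMap.snd 𝕜 V0 (V1 × V2)) ?_ ?_ ?_
  · intro z hz
    exact ((mem3 hdd 1 z).1 hz).2.2
  · intro z hz
    rw [mem_range3, bot_sup_eq]
    obtain ⟨h1, -, -⟩ := (mem3 hdd 1 z).1 hz
    have h2 : z.1 = 0 := (congrArg Prod.fst h1).symm
    have h3 : z.2.2 = 0 := (congrArg (fun t => t.2.2) h1).symm
    constructor
    · intro h4
      refine ⟨h2, h4, ?_⟩
      rw [h3]; exact zero_mem _
    · exact fun h4 => h4.2.1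
  · intro z' hz'
    have h0 : d1 z' = 0 := hz'
    refine ⟨(0, z', 0), ?_, rfl⟩
    rw [mem3]
    exact ⟨rfl, map_zero _, h0⟩

theorem hq2 (hdd : ∀ x, d1 (d0 x) = 0) :
    Nonempty (ScaleE511.Hq (gr3 (𝕜 := 𝕜)) (sc3 d0 d1 hdd).d 2 ≃ₗ[𝕜] H2 d1 ⊥) := by
  refine exists_equiv (ScaleE511.Zq (gr3 (𝕜 := 𝕜)) (sc3 d0 d1 hdd).d 2)
    (LinearMap.range (sc3 d0 d1 hdd).d) (⊤ : Submodule 𝕜 V2) (⊥ ⊔ LinearMap.range d1)
    (LinearMap.snd 𝕜 V1 V2 ∘ₗ LinearMap.snd 𝕜 V0 (V1 × V2)) ?_ ?_ ?_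
  · intro z _
    trivial
  · intro z hz
    rw [mem_range3, bot_sup_eq]
    obtain ⟨h1, -, -⟩ := (mem3 hdd 2 z).1 hz
    have h2 : z.1 = 0 := (congrArg Prod.fst h1).symm
    have h3 : z.2.1 = 0 := (congrArg (fun t => t.2.1) h1).symm
    constructor
    · intro h4
      refine ⟨h2, ?_, h4⟩
      rw [h3]; exact zero_mem _
    · exact fun h4 => h4.2.2
  · intro z' _
    refine ⟨(0, 0, z'), ?_, rfl⟩
    rw [mem3]
    exact ⟨rfl, map_zero _, map_zero _⟩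

theorem fin_sc3 (hdd : ∀ x, d1 (d0 x) = 0) [FiniteDimensional 𝕜 (sc3 d0 d1 hdd).H] :
    FinQ d0 d1 ⊥ ⊥ ⊥ := by
  obtain ⟨e0⟩ := hq0 (𝕜 := 𝕜) hdd
  obtain ⟨e1⟩ := hq1 (𝕜 := 𝕜) hdd
  obtain ⟨e2⟩ := hq2 (𝕜 := 𝕜) hdd
  have := ScaleE511.finite_Hq (G := gr3 (𝕜 := 𝕜)) (deg3 hdd) 0
  have := ScaleE511.finite_Hq (G := gr3 (𝕜 := 𝕜)) (deg3 hdd) 1
  have := ScaleE511.finite_Hq (G := gr3 (𝕜 := 𝕜)) (deg3 hdd) 2
  exact ⟨Module.Finite.equiv e0, Module.Finite.equiv e1, Module.Finite.equiv e2⟩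

theorem st_sc3 (hdd : ∀ x, d1 (d0 x) = 0) [FiniteDimensional 𝕜 (sc3 d0 d1 hdd).H] :
    (sc3 d0 d1 hdd).st = ((chiQ d0 d1 ⊥ ⊥ ⊥ : ℤ) : 𝕜) := by
  obtain ⟨e0⟩ := hq0 (𝕜 := 𝕜) hdd
  obtain ⟨e1⟩ := hq1 (𝕜 := 𝕜) hdd
  obtain ⟨e2⟩ := hq2 (𝕜 := 𝕜) hdd
  have i0 := ScaleE511.finite_Hq (G := gr3 (𝕜 := 𝕜)) (deg3 hdd) 0
  have i1 := ScaleE511.finite_Hq (G := gr3 (𝕜 := 𝕜)) (deg3 hdd) 1
  have i2 := ScaleE511.finite_Hq (G := gr3 (𝕜 := 𝕜)) (deg3 hdd) 2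
  rw [ScaleE511.st_eq_sum (sc3 d0 d1 hdd) (G := gr3 (𝕜 := 𝕜)) (deg3 hdd) (T3 hdd)]
  have h : (gr3 (𝕜 := 𝕜) (V0 := V0) (V1 := V1) (V2 := V2)).m + 1 = 3 := rfl
  rw [h, Finset.sum_range_succ, Finset.sum_range_succ, Finset.sum_range_one,
    ScaleE511.trace_sgn (sc3 d0 d1 hdd) (T3 hdd) (T3s hdd) 0,
    ScaleE511.trace_sgn (sc3 d0 d1 hdd) (T3 hdd) (T3s hdd) 1,
    ScaleE511.trace_sgn (sc3 d0 d1 hdd) (T3 hdd) (T3s hdd) 2,
    e0.finrank_eq, e1.finrank_eq, e2.finrank_eq, chiQ]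
  push_cast
  ring

variable {V : Type*} [AddCommGroup V] [Module 𝕜 V]

/-- a supercomplex which is a three term complex -/
theorem fin_st_of_equiv (S : SC 𝕜 V) (hdd : ∀ x, d1 (d0 x) = 0) (e : V ≃ₗ[𝕜] V0 × V1 × V2)
    (hd : ∀ v, e (S.d v) = (0, d0 (e v).1, d1 (e v).2.1))
    (hT : ∀ v, e (S.T v) = ((e v).1, -(e v).2.1, (e v).2.2)) [FiniteDimensional 𝕜 S.H] :
    FinQ d0 d1 ⊥ ⊥ ⊥ ∧ S.st = ((chiQ d0 d1 ⊥ ⊥ ⊥ : ℤ) : 𝕜) := by
  let φ : SC.Hom S (sc3 d0 d1 hdd) :=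
    { f := e
      d := fun v => (hd v).symm
      T := fun v => (hT v).symm }
  have hφ : φ.Quasi := NA6b763.quasi_of_bijective φ e.bijective
  have := hφ.finite
  exact ⟨fin_sc3 hdd, by rw [hφ.st_eq]; exact st_sc3 hdd⟩

end sc3

/-! ### the index of an idempotent over a finite type -/

section ind

open MI683 KR798

variable {R V : Type*} [CommRing R] [Algebra ℂ R] [AddCommGroup V] [Module ℂ V] [Module R V]
  [IsScalarTower ℂ R V]

theorem indR_c (X : ModSc R V) (hσ : ∀ f : R, X.σ f = f) {N : Type} [Fintype N]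
    {p : Matrix N N R} (hp : p * p = p) :
    (X.kIndex hσ).data.indR ((X.kIndex hσ).c p hp) = X.ind p 1 := by
  have h := isoM_reindex (A := R) (Fintype.equivFin N) hp
  have hq : Matrix.reindex (Fintype.equivFin N) (Fintype.equivFin N) p *
      Matrix.reindex (Fintype.equivFin N) (Fintype.equivFin N) p =
      Matrix.reindex (Fintype.equivFin N) (Fintype.equivFin N) p := idem_reindex _ hp
  rw [(X.kIndex hσ).c_congr hp hq h, KIndex.indR_c]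
  obtain ⟨a, b, hab, hba⟩ := h
  exact (X.ind_iso hp hq (X.eqv_one hσ p) (X.eqv_one hσ _) hab hba (X.eqv_one hσ b)).symm

end ind

/-! ### bundles on a compact surface -/

section main

open Geo Smf798 KR798 SB798 MI683 Lam2130 LnkP5476 LnkP6476 Brix509 NA6b763 SmR425 Core144
open ChiM825 Fm96 DolG763 NA6763

variable {M : Type} [TopologicalSpace M] [CompactSpace M] {A : Atl 2 M}
  {G : ModSc (smf A) (Sec (lam2 A))}

/-- **finiteness and index** of `(Sec (tw (lam2 A) E), ∇)` for an integrable bundle `E` -/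
theorem fin_ind_of_coh (hσ : ∀ f : smf A, G.σ f = f) (hG : IsCoh G) (P : Part A) (E : VBun A)
    (hE : ∀ u : Sec (tw (lam2 A) E), nabL (tw (lam2 A) E) (nabL (tw (lam2 A) E) u) = 0) :
    FiniteDimensional ℂ (scB (tw (lam2 A) E) hE).H ∧
      (scB (tw (lam2 A) E) hE).st = ((indE P (G.kIndex hσ) E.sb : ℤ) : ℂ) := by
  obtain ⟨h1, h2⟩ := hG (NI P E) (supE P (lam2 A) E (nabL_sq A) hE) (fun _ => le_rfl)
  have h1' : FiniteDimensional ℂ (supE P (lam2 A) E (nabL_sq A) hE).sc.H := h1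
  refine ⟨finite_supE P (lam2 A) E (nabL_sq A) hE, ?_⟩
  rw [st_supE P (lam2 A) E (nabL_sq A) hE]
  refine h2.trans ?_
  congr 1
  rw [indE, cE, indR_c G hσ]
  have h3 : (fun _ : NI P E => sgn 0 * 1) = (1 : NI P E → ℤˣ) := by
    funext i
    rw [sgn_zero, one_mul]
    rfl
  exact congrArg (G.ind (pr P E.sb)) h3

/-- finiteness and index for a raw holomorphic cocycle -/
theorem fin_euler_raw (hσ : ∀ f : smf A, G.σ f = f) (hG : IsCoh G) (P : Part A)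
    {g : A.ι → A.ι → M → ℂ} (hg : IsLC A g) :
    FinE hg ∧ indE P (G.kIndex hσ) (LV hg).sb = chiE hg := by
  have hE : ∀ u : Sec (tw (lam2 A) (LV hg)),
      nabL (tw (lam2 A) (LV hg)) (nabL (tw (lam2 A) (LV hg)) u) = 0 :=
    nabL_nabL_tw (fun _ _ _ => rfl) fun _ _ _ _ => rfl
  obtain ⟨h1, h2⟩ := fin_ind_of_coh hσ hG P (LV hg) hE
  obtain ⟨h3, h4⟩ := fin_st_of_equiv (scB (tw (lam2 A) (LV hg)) hE)
    (d0 := D0 hg) (d1 := D1 hg) (fun x => D1_D0 hg x) (EulRaw473.ev hg)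
    (fun v => EulRaw473.ev_nab hg v) (fun v => by
      refine Prod.ext (Subtype.ext ?_) (Prod.ext (Subtype.ext ?_) (Subtype.ext ?_))
      · funext i x
        show (-1 : ℂ) ^ 0 * v.1 i x ((0 : Fin 4), ()) = v.1 i x ((0 : Fin 4), ())
        rw [pow_zero, one_mul]
      · funext i x b
        show (-1 : ℂ) ^ (dg (ix1 b)) * v.1 i x (ix1 b, ()) = -v.1 i x (ix1 b, ())
        have h : dg (ix1 b) = 1 := by fin_cases b <;> rfl
        rw [h, pow_one, neg_one_mul]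
      · funext i x
        show (-1 : ℂ) ^ 2 * v.1 i x ((3 : Fin 4), ()) = v.1 i x ((3 : Fin 4), ())
        rw [neg_one_sq, one_mul])
  refine ⟨h3, ?_⟩
  have h5 : ((chiE hg : ℤ) : ℂ) = ((indE P (G.kIndex hσ) (LV hg).sb : ℤ) : ℂ) := by
    rw [← h2, h4]
    rfl
  exact_mod_cast h5.symm


/-- **`CMData.fin` and `CMData.euler`** for the geometric index -/
theorem fin_euler (hσ : ∀ f : smf A, G.σ f = f) (hG : IsCoh G) (P : Part A) (L : LB A) :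
    FinE (isLC L) ∧ chiL P (G.kIndex hσ) (slb L) = chiE (isLC L) :=
  fin_euler_raw hσ hG P (isLC L)

theorem fin (hσ : ∀ f : smf A, G.σ f = f) (hG : IsCoh G) (P : Part A) (L : LB A) :
    FinE (isLC L) := (fin_euler hσ hG P L).1

theorem euler (hσ : ∀ f : smf A, G.σ f = f) (hG : IsCoh G) (P : Part A) (L : LB A) :
    chiL P (G.kIndex hσ) (slb L) = chiE (isLC L) := (fin_euler hσ hG P L).2


/-- 683's `GMod` gives the cohesive theorem -/
theorem isCoh_of_gmod (E : GMod (dol2 A)) : IsCoh E.ms := fun N _ X h0 => E.super X h0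


end main

end Crest.Agent.R275.EulC130
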