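import Crest.Agent.R275.XN1_194
import Crest.Agent.R275.FHom_556

-- ▼ part R275/ExcA_685
section

/-!
# R275, block D, EXC (helper685), file A: transport of sections through a slab

`Slab C` : an open set `Ω` upstairs on which the covering `C : Cov A A'` is injective, and a subset
`K ⊆ Ω` with closed image.  `push` : families supported in `K` are transported downstairs.
-/

set_option autoImplicit false
set_option linter.unusedSectionVars false

open Set Filter Topology Complex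
open scoped ContDiff Matrix ComplexConjugate

namespace Crest.Agent.R275.Exc685

open Geo XN194 FHom556

noncomputable section

variable {n : ℕ} {M M' : Type} [TopologicalSpace M] [TopologicalSpace M']
  {A : Atl n M} {A' : Atl n M'}

/-- slab data for a covering -/
structure Slab (C : Cov A A') where
  Ω : Set M
  isOpen : IsOpen Ω
  inj : ∀ x ∈ Ω, ∀ y ∈ Ω, C.p x = C.p y → x = y
  K : Set M
  sub : K ⊆ Ω
  closed : IsClosed K
  closed' : IsClosed (C.p '' K)

variable {C : Cov A A'} (S : Slab C)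

namespace Slab

open Classical in
/-- transport downstairs of a family supported in the slab -/
def push {W : Type} [Zero W] (u : A.ι → M → W) : A'.ι → M' → W := fun i' x' =>
  if h : ∃ i x, C.r i = i' ∧ x ∈ (A.e i).source ∧ x ∈ S.Ω ∧ C.p x = x' then
    u h.choose h.choose_spec.choose else 0

variable {W : Type} [Zero W]

theorem push_apply {u : A.ι → M → W} {i : A.ι} {x : M} (hi : x ∈ (A.e i).source) (hx : x ∈ S.Ω) :
    S.push u (C.r i) (C.p x) = u i x := by
  have h : ∃ j y, C.r j = C.r i ∧ y ∈ (A.e j).source ∧ y ∈ S.Ω ∧ C.p y = C.p x :=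
    ⟨i, x, rfl, hi, hx, rfl⟩
  have key : ∀ j y, C.r j = C.r i → y ∈ (A.e j).source → y ∈ S.Ω → C.p y = C.p x →
      u j y = u i x := by
    intro j y h1 h2 h3 h4
    have h5 := S.inj _ h3 _ hx h4
    subst h5
    have h6 : j = i := C.uniq _ _ h1 y h2 hi
    rw [h6]
  unfold push
  rw [dif_pos h]
  obtain ⟨h1, h2, h3, h4⟩ := h.choose_spec.choose_spec
  exact key _ _ h1 h2 h3 h4

theorem push_off {u : A.ι → M → W} {i' : A'.ι} {x' : M'} (hx : x' ∉ C.p '' S.Ω) :
    S.push u i' x' = 0 := by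
  unfold push
  rw [dif_neg]
  rintro ⟨i, x, -, -, h1, rfl⟩
  exact hx ⟨x, h1, rfl⟩

theorem push_off' {u : A.ι → M → W} {i' : A'.ι} {x' : M'} (hx : x' ∉ (A'.e i').source) :
    S.push u i' x' = 0 := by
  unfold push
  rw [dif_neg]
  rintro ⟨i, x, rfl, h1, -, rfl⟩
  exact hx (C.src i x h1)

theorem push_zero_of {u : A.ι → M → W} (hu : ∀ i, ∀ x ∉ S.K, u i x = 0) {i' : A'.ι} {x' : M'}
    (hx : x' ∉ C.p '' S.K) : S.push u i' x' = 0 := by
  unfold push
  split_ifs with h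
  · obtain ⟨h1, h2, h3, h4⟩ := h.choose_spec.choose_spec
    exact hu _ _ fun hk => hx ⟨_, hk, h4⟩
  · rfl


/-- lifts of points of the image of the slab to any chart -/
theorem exists_lift {x' : M'} (hx : x' ∈ C.p '' S.Ω) {i' : A'.ι} (hi : x' ∈ (A'.e i').source) :
    ∃ i x, C.r i = i' ∧ x ∈ (A.e i).source ∧ x ∈ S.Ω ∧ C.p x = x' := by
  obtain ⟨x, hx, rfl⟩ := hx
  obtain ⟨i, h1, h2⟩ := C.lift x i' hi
  exact ⟨i, x, h1, h2, hx, rfl⟩


/-- near a point of the slab, `push u` is `u` read in the same chart -/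
theorem push_eventually {u : A.ι → M → W} {i : A.ι} {x : M} (hi : x ∈ (A.e i).source)
    (hx : x ∈ S.Ω) : ∀ᶠ y in 𝓝 x, S.push u (C.r i) (C.p y) = u i y := by
  filter_upwards [(A.e i).open_source.mem_nhds hi, S.isOpen.mem_nhds hx] with y h1 h2
  exact S.push_apply h1 h2

theorem push_symm_eventually {u : A.ι → M → W} {i : A.ι} {x : M} (hi : x ∈ (A.e i).source)
    (hx : x ∈ S.Ω) : ∀ᶠ z in 𝓝 (A.e i x),
      S.push u (C.r i) ((A'.e (C.r i)).symm z) = u i ((A.e i).symm z) := by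
  have h1 : ∀ᶠ z in 𝓝 (A.e i x), z ∈ (A.e i).target :=
    (A.e i).open_target.mem_nhds ((A.e i).map_source hi)
  have h2 : ∀ᶠ z in 𝓝 (A.e i x), (A.e i).symm z ∈ S.Ω := by
    have h := (A.e i).continuousAt_symm ((A.e i).map_source hi)
    rw [ContinuousAt, (A.e i).left_inv hi] at h
    exact h (S.isOpen.mem_nhds hx)
  filter_upwards [h1, h2] with z hz1 hz2
  rw [← C.p_symm hz1, S.push_apply ((A.e i).map_target hz1) hz2]

section Sec

variable (B : FBun A')

theorem push_mem {u : A.ι → M → B.κ → ℂ} (hu : u ∈ Sec (C.pullB B))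
    (h0 : ∀ i, ∀ x ∉ S.K, u i x = 0) : S.push u ∈ Sec B := by
  refine ⟨fun i' k => ?_, fun i' x' hx => S.push_off' hx, fun i' j' x' hx => ?_⟩
  · intro z hz
    refine ContDiffAt.contDiffWithinAt ?_
    have hz' := (A'.e i').map_target hz
    by_cases hS : (A'.e i').symm z ∈ C.p '' S.Ω
    · obtain ⟨i, x, rfl, h1, h2, h3⟩ := S.exists_lift hS hz'
      have hzx : A.e i x = z := by
        rw [← C.comp i x h1, h3, (A'.e (C.r i)).right_inv hz]
      have h4 := S.push_symm_eventually (u := u) h1 h2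
      rw [hzx] at h4
      have h5 : ContDiffAt ℝ ∞ (fun z => u i ((A.e i).symm z) k) z := by
        refine (hu.1 i k).contDiffAt ((A.e i).open_target.mem_nhds ?_)
        rw [C.target]; exact hz
      exact h5.congr_of_eventuallyEq (h4.mono fun w hw => by
        show S.push u (C.r i) ((A'.e (C.r i)).symm w) k = u i ((A.e i).symm w) k
        rw [hw])
    · have h4 : ∀ᶠ w in 𝓝 z, (A'.e i').symm w ∈ (C.p '' S.K)ᶜ :=
        ((A'.e i').continuousAt_symm hz) (S.closed'.isOpen_compl.mem_nhds fun h =>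
          hS (Set.image_mono S.sub h))
      exact (contDiffAt_const (c := (0 : ℂ))).congr_of_eventuallyEq (h4.mono fun w hw => by
        show S.push u i' ((A'.e i').symm w) k = 0
        rw [S.push_zero_of h0 hw]; rfl)
  · by_cases hS : x' ∈ C.p '' S.Ω
    · obtain ⟨i, x, rfl, h1, h2, rfl⟩ := S.exists_lift hS hx.1
      obtain ⟨j, h3, h4⟩ := C.lift x j' hx.2
      subst h3
      rw [S.push_apply h1 h2, S.push_apply h4 h2]
      exact Sec.tr (C.pullB B) hu ⟨h1, h4⟩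
    · rw [S.push_off hS, S.push_off hS, Matrix.mulVec_zero]

/-- `push` commutes with `∇` -/
theorem nab_push {u : A.ι → M → B.κ → ℂ} (h0 : ∀ i, ∀ x ∉ S.K, u i x = 0) :
    nab B (S.push u) = S.push (nab (C.pullB B) u) := by
  funext i' x'
  by_cases hx' : x' ∈ (A'.e i').source
  · by_cases hS : x' ∈ C.p '' S.Ω
    · obtain ⟨i, x, rfl, h1, h2, rfl⟩ := S.exists_lift hS hx'
      rw [S.push_apply h1 h2, nab_apply (C.pullB B) (i := i) (u := u) h1,
        nab_apply B (C.src i x h1), S.push_apply h1 h2]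
      congr 1
      refine Finset.sum_congr rfl fun a _ => ?_
      have h3 : A.db i a (fun y => S.push u (C.r i) (C.p y)) x
          = A'.db (C.r i) a (S.push u (C.r i)) (C.p x) := C.db_comp _ h1 a
      rw [← h3, Atl.db_congr h1 (S.push_eventually (u := u) h1 h2) a]
    · rw [S.push_off hS]
      have h3 : S.push u i' =ᶠ[𝓝 x'] (0 : A'.ι → M' → B.κ → ℂ) i' := by
        filter_upwards [S.closed'.isOpen_compl.mem_nhds fun h => hS (Set.image_mono S.sub h)]
          with y hy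
        exact S.push_zero_of h0 hy
      rw [nab_congr B h3]
      have h4 := nabL B 0
      have h5 : nab B (0 : A'.ι → M' → B.κ → ℂ) = 0 := by
        have := congrArg Subtype.val (map_zero (nabL B))
        exact this
      rw [h5]; rfl
  · rw [nab_off B hx', S.push_off' hx']

end Sec

end Slab

/-! ### bundle maps upstairs, composed with pull back and push forward -/

section maps

variable {r r' : ℕ} {B : FBun A} {B' : FBun A'}

theorem act_off {B₁ B₂ : FBun A} (H : FHom r B₁ B₂) {u : A.ι → M → B₁.κ → ℂ} {i : A.ι} {x : M}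
    (h : H.h i x = 0) : H.act u i x = 0 := by
  rw [FHom.act_apply, h, Matrix.zero_mulVec]

/-- `u ↦ push (H u)` -/
def pushH (H : FHom r B (C.pullB B')) (hH : ∀ i, ∀ x ∉ S.K, H.h i x = 0) :
    Sec B →ₗ[ℂ] Sec B' where
  toFun u := ⟨S.push (H.act u.1), S.push_mem B' (H.act_mem u.2) fun i x hx => act_off H (hH i x hx)⟩
  map_add' u v := by
    apply Subtype.ext
    funext i' x'
    show S.push (H.act (u.1 + v.1)) i' x' = S.push (H.act u.1) i' x' + S.push (H.act v.1) i' x'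
    rw [H.act_add]
    unfold Slab.push
    split_ifs
    · rfl
    · rw [add_zero]
  map_smul' c u := by
    apply Subtype.ext
    funext i' x'
    show S.push (H.act (c • u.1)) i' x' = c • S.push (H.act u.1) i' x'
    rw [H.act_smul]
    unfold Slab.push
    split_ifs
    · rfl
    · rw [smul_zero]

@[simp] theorem pushH_coe (H : FHom r B (C.pullB B')) (hH : ∀ i, ∀ x ∉ S.K, H.h i x = 0)
    (u : Sec B) : (pushH S H hH u : A'.ι → M' → B'.κ → ℂ) = S.push (H.act u.1) := rfl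

/-- `u ↦ H (pull u)` -/
def pullH (H : FHom r (C.pullB B') B) : Sec B' →ₗ[ℂ] Sec B := H.actL ∘ₗ C.pullS B'

@[simp] theorem pullH_coe (H : FHom r (C.pullB B') B) (u : Sec B') :
    (pullH H u : A.ι → M → B.κ → ℂ) = H.act (C.pull u.1) := rfl



/-- commutator with `∇` of a bundle map -/
theorem nabL_actL {B₁ B₂ : FBun A} (H : FHom r B₁ B₂) (hs : H.Sup 1) (u : Sec B₁) :
    nabL B₂ (H.actL u) = H.actL (nabL B₁ u) + (H.dh 1 hs).actL u := by
  apply Subtype.ext
  funext i x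
  show nab B₂ (H.act u.1) i x = H.act (nab B₁ u.1) i x + (H.dh 1 hs).act u.1 i x
  by_cases hx : x ∈ (A.e i).source
  · rw [H.nab_act hs (u.2.1 i) hx, one_smul]
    rfl
  · rw [nab_off B₂ hx, FHom.act_apply, nab_off B₁ hx, Matrix.mulVec_zero, FHom.act_apply,
      Sec.off B₁ u.2 hx, Matrix.mulVec_zero, add_zero]

theorem nabL_pullS (B' : FBun A') (u : Sec B') :
    nabL (C.pullB B') (C.pullS B' u) = C.pullS B' (nabL B' u) :=
  Subtype.ext (C.nab_pull B' u.1)

theorem nabL_pullH (H : FHom r (C.pullB B') B) (hs : H.Sup 1) (u : Sec B') :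
    nabL B (pullH H u) = pullH H (nabL B' u) + pullH (H.dh 1 hs) u := by
  show nabL B (H.actL (C.pullS B' u)) = H.actL (C.pullS B' (nabL B' u)) +
    (H.dh 1 hs).actL (C.pullS B' u)
  rw [nabL_actL H hs, nabL_pullS]

/-- `dh` vanishes off the slab -/
theorem dh_off {B₁ B₂ : FBun A} (H : FHom r B₁ B₂) (hs : H.Sup 1) {K : Set M} (hK : IsClosed K)
    (hH : ∀ i, ∀ x ∉ K, H.h i x = 0) : ∀ i, ∀ x ∉ K, (H.dh 1 hs).h i x = 0 := by
  intro i x hx
  show H.dmat 1 i x = 0
  unfold FHom.dmat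
  split_ifs with hi
  · have h1 : H.h i =ᶠ[𝓝 x] fun _ => 0 := by
      filter_upwards [hK.isOpen_compl.mem_nhds hx] with y hy
      exact hH i y hy
    have h2 : ∀ a, FHom.dbM i a (H.h i) x = 0 := by
      intro a
      rw [FHom.dbM_congr hi h1]
      ext k l
      exact dbj_const _ _ _
    simp [h2, hH i x hx]
  · rfl

theorem nabL_pushH (H : FHom r B (C.pullB B')) (hH : ∀ i, ∀ x ∉ S.K, H.h i x = 0)
    (hs : H.Sup 1) (u : Sec B) :
    nabL B' (pushH S H hH u) = pushH S H hH (nabL B u) +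
      pushH S (H.dh 1 hs) (dh_off H hs S.closed hH) u := by
  apply Subtype.ext
  show nab B' (S.push (H.act u.1)) = S.push (H.act (nab B u.1)) + S.push ((H.dh 1 hs).act u.1)
  rw [S.nab_push B' fun i x hx => act_off H (hH i x hx)]
  have h1 : nab (C.pullB B') (H.act u.1) = H.act (nab B u.1) + (H.dh 1 hs).act u.1 :=
    congrArg Subtype.val (nabL_actL H hs u)
  rw [h1]
  funext i' x'
  show S.push (H.act (nab B u.1) + (H.dh 1 hs).act u.1) i' x' =
    S.push (H.act (nab B u.1)) i' x' + S.push ((H.dh 1 hs).act u.1) i' x'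
  unfold Slab.push
  split_ifs
  · rfl
  · rw [add_zero]

end maps

end

end Crest.Agent.R275.Exc685
end

-- ▼ part R275/ExcB_685

/-!
# R275, block D, EXC (helper685), file B: the excision isomorphism

`Maps` : the eight bundle maps; `Maps.Φ : Sec B₁ × Sec B₂ → Sec B₃ × Sec B₄`;
`Maps.Inv` : the matrix identities which give `Φ' ∘ Φ = 1`; `Maps.equiv`; commutator with `∇`.
-/

set_option autoImplicit false
set_option linter.unusedSectionVars false

open Set Filter Topology Complex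
open scoped ContDiff Matrix ComplexConjugate

namespace Crest.Agent.R275.Exc685

open Geo XN194 FHom556

noncomputable section

variable {n : ℕ} {M M' : Type} [TopologicalSpace M] [TopologicalSpace M']
  {A : Atl n M} {A' : Atl n M'} {C : Cov A A'}

/-- the eight bundle maps of an excision -/
structure Maps (S : Slab C) (B₁ : FBun A) (B₂ : FBun A') (B₃ : FBun A) (B₄ : FBun A') where
  a13 : FHom 0 B₁ B₃
  a31 : FHom 0 B₃ B₁
  s14 : FHom 0 B₁ (C.pullB B₄)
  s41 : FHom 0 (C.pullB B₄) B₁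
  s32 : FHom 0 B₃ (C.pullB B₂)
  s23 : FHom 0 (C.pullB B₂) B₃
  b24 : FHom 0 B₂ B₄
  b42 : FHom 0 B₄ B₂
  o14 : ∀ i, ∀ x ∉ S.K, s14.h i x = 0
  o41 : ∀ i, ∀ x ∉ S.K, s41.h i x = 0
  o32 : ∀ i, ∀ x ∉ S.K, s32.h i x = 0
  o23 : ∀ i, ∀ x ∉ S.K, s23.h i x = 0
  p13 : a13.Sup 1
  p31 : a31.Sup 1
  p14 : s14.Sup 1
  p41 : s41.Sup 1
  p32 : s32.Sup 1
  p23 : s23.Sup 1
  p24 : b24.Sup 1
  p42 : b42.Sup 1

namespace Maps

variable {S : Slab C} {B₁ : FBun A} {B₂ : FBun A'} {B₃ : FBun A} {B₄ : FBun A'}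
  (m : Maps S B₁ B₂ B₃ B₄)

/-- exchange the two sides -/
def swap : Maps S B₃ B₄ B₁ B₂ where
  a13 := m.a31
  a31 := m.a13
  s14 := m.s32
  s41 := m.s23
  s32 := m.s14
  s23 := m.s41
  b24 := m.b42
  b42 := m.b24
  o14 := m.o32
  o41 := m.o23
  o32 := m.o14
  o23 := m.o41
  p13 := m.p31
  p31 := m.p13
  p14 := m.p32
  p41 := m.p23
  p32 := m.p14
  p23 := m.p41
  p24 := m.p42
  p42 := m.p24

/-- the excision map -/
def Φ : (Sec B₁ × Sec B₂) →ₗ[ℂ] (Sec B₃ × Sec B₄) :=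
  LinearMap.prod
    (m.a13.actL ∘ₗ LinearMap.fst ℂ _ _ + pullH m.s23 ∘ₗ LinearMap.snd ℂ _ _)
    (pushH S m.s14 m.o14 ∘ₗ LinearMap.fst ℂ _ _ - m.b24.actL ∘ₗ LinearMap.snd ℂ _ _)


/-- the identities for `Φ' Φ = 1` -/
structure Inv : Prop where
  e11 : ∀ i, ∀ x ∈ (A.e i).source, m.a31.h i x * m.a13.h i x + m.s41.h i x * m.s14.h i x = 1
  e12 : ∀ i, ∀ x ∈ (A.e i).source,
    m.a31.h i x * m.s23.h i x = m.s41.h i x * m.b24.h (C.r i) (C.p x)
  e21 : ∀ i, ∀ x ∈ (A.e i).source, x ∈ S.Ω →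
    m.s32.h i x * m.a13.h i x = m.b42.h (C.r i) (C.p x) * m.s14.h i x
  e22 : ∀ i, ∀ x ∈ (A.e i).source, x ∈ S.Ω →
    m.s32.h i x * m.s23.h i x + m.b42.h (C.r i) (C.p x) * m.b24.h (C.r i) (C.p x) = 1
  e22' : ∀ i, ∀ x ∈ (A'.e i).source, x ∉ C.p '' S.Ω → m.b42.h i x * m.b24.h i x = 1


theorem swap_Φ_Φ (h : m.Inv) (u : Sec B₁ × Sec B₂) : m.swap.Φ (m.Φ u) = u := by
  obtain ⟨u, v⟩ := u
  apply Prod.ext
  · apply Subtype.ext
    funext i x
    show m.a31.h i x *ᵥ (m.a13.h i x *ᵥ u.1 i x + m.s23.h i x *ᵥ C.pull v.1 i x) +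
      m.s41.h i x *ᵥ C.pull (S.push (m.s14.act u.1) - m.b24.act v.1) i x = u.1 i x
    by_cases hi : x ∈ (A.e i).source
    · have e12 := h.e12 i x hi
      have e11 := h.e11 i x hi
      rw [C.pull_of_mem hi, C.pull_of_mem hi]
      show m.a31.h i x *ᵥ (m.a13.h i x *ᵥ u.1 i x + m.s23.h i x *ᵥ v.1 (C.r i) (C.p x)) +
        m.s41.h i x *ᵥ (S.push (m.s14.act u.1) (C.r i) (C.p x) -
          m.b24.h (C.r i) (C.p x) *ᵥ v.1 (C.r i) (C.p x)) = u.1 i x
      by_cases hx : x ∈ S.Ω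
      · rw [S.push_apply hi hx, FHom.act_apply, Matrix.mulVec_add, Matrix.mulVec_sub,
          Matrix.mulVec_mulVec, Matrix.mulVec_mulVec, Matrix.mulVec_mulVec, Matrix.mulVec_mulVec,
          e12]
        have : (m.a31.h i x * m.a13.h i x) *ᵥ u.1 i x + (m.s41.h i x * m.s14.h i x) *ᵥ u.1 i x
            = u.1 i x := by
          rw [← Matrix.add_mulVec, e11, Matrix.one_mulVec]
        nth_rewrite 3 [← this]
        abel
      · have hK : x ∉ S.K := fun h => hx (S.sub h)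
        have h1 : m.s41.h i x = 0 := m.o41 i x hK
        have h2 : m.s23.h i x = 0 := m.o23 i x hK
        rw [h1, h2, Matrix.zero_mulVec, Matrix.zero_mulVec, add_zero, add_zero,
          Matrix.mulVec_mulVec]
        rw [h1, Matrix.zero_mul, add_zero] at e11
        rw [e11, Matrix.one_mulVec]
    · rw [C.pull_off hi, C.pull_off hi, Sec.off B₁ u.2 hi]
      simp
  · apply Subtype.ext
    funext i' x'
    show S.push (m.s32.act (m.a13.act u.1 + m.s23.act (C.pull v.1))) i' x' -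
      m.b42.h i' x' *ᵥ (S.push (m.s14.act u.1) i' x' - m.b24.h i' x' *ᵥ v.1 i' x') = v.1 i' x'
    by_cases hi' : x' ∈ (A'.e i').source
    · by_cases hS : x' ∈ C.p '' S.Ω
      · obtain ⟨i, x, rfl, hi, hx, rfl⟩ := S.exists_lift hS hi'
        rw [S.push_apply hi hx, S.push_apply hi hx]
        show m.s32.h i x *ᵥ (m.a13.h i x *ᵥ u.1 i x + m.s23.h i x *ᵥ C.pull v.1 i x) -
          m.b42.h (C.r i) (C.p x) *ᵥ (m.s14.h i x *ᵥ u.1 i x -
            m.b24.h (C.r i) (C.p x) *ᵥ v.1 (C.r i) (C.p x)) = v.1 (C.r i) (C.p x)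
        have e21 := h.e21 i x hi hx
        have e22 := h.e22 i x hi hx
        rw [C.pull_of_mem hi, Matrix.mulVec_add, Matrix.mulVec_sub, Matrix.mulVec_mulVec,
          Matrix.mulVec_mulVec, Matrix.mulVec_mulVec, Matrix.mulVec_mulVec, e21]
        have : (m.s32.h i x * m.s23.h i x) *ᵥ v.1 (C.r i) (C.p x) +
            (m.b42.h (C.r i) (C.p x) * m.b24.h (C.r i) (C.p x)) *ᵥ v.1 (C.r i) (C.p x)
            = v.1 (C.r i) (C.p x) := by
          rw [← Matrix.add_mulVec, e22, Matrix.one_mulVec]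
        nth_rewrite 3 [← this]
        abel
      · rw [S.push_off hS, S.push_off hS, Matrix.mulVec_sub, Matrix.mulVec_mulVec,
          h.e22' i' x' hi' hS, Matrix.one_mulVec, Matrix.mulVec_zero]
        abel
    · rw [S.push_off' hi', S.push_off' hi', Sec.off B₂ v.2 hi']
      simp

/-- the excision isomorphism -/
def equiv (h : m.Inv) (h' : m.swap.Inv) : (Sec B₁ × Sec B₂) ≃ₗ[ℂ] (Sec B₃ × Sec B₄) :=
  LinearEquiv.ofLinearMap m.Φ m.swap.Φ
    (LinearMap.ext fun u => m.swap.swap_Φ_Φ h' u)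
    (LinearMap.ext fun u => m.swap_Φ_Φ h u)

@[simp] theorem equiv_coe (h : m.Inv) (h' : m.swap.Inv) :
    ((m.equiv h h' : (Sec B₁ × Sec B₂) ≃ₗ[ℂ] (Sec B₃ × Sec B₄)) :
      (Sec B₁ × Sec B₂) →ₗ[ℂ] (Sec B₃ × Sec B₄)) = m.Φ := rfl

@[simp] theorem equiv_symm_coe (h : m.Inv) (h' : m.swap.Inv) :
    ((m.equiv h h').symm : (Sec B₃ × Sec B₄) →ₗ[ℂ] (Sec B₁ × Sec B₂)) = m.swap.Φ := rfl

/-- the commutator of the excision map with `∇` -/
def comm : (Sec B₁ × Sec B₂) →ₗ[ℂ] (Sec B₃ × Sec B₄) :=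
  LinearMap.prod
    ((m.a13.dh 1 m.p13).actL ∘ₗ LinearMap.fst ℂ _ _ +
      pullH (m.s23.dh 1 m.p23) ∘ₗ LinearMap.snd ℂ _ _)
    (pushH S (m.s14.dh 1 m.p14) (dh_off m.s14 m.p14 S.closed m.o14) ∘ₗ LinearMap.fst ℂ _ _ -
      (m.b24.dh 1 m.p24).actL ∘ₗ LinearMap.snd ℂ _ _)

theorem nab_Φ : (nabL B₃).prodMap (nabL B₄) ∘ₗ m.Φ =
    m.Φ ∘ₗ (nabL B₁).prodMap (nabL B₂) + m.comm := by
  apply LinearMap.ext
  rintro ⟨u, v⟩
  apply Prod.ext
  · show nabL B₃ (m.a13.actL u + pullH m.s23 v) =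
      (m.a13.actL (nabL B₁ u) + pullH m.s23 (nabL B₂ v)) +
        ((m.a13.dh 1 m.p13).actL u + pullH (m.s23.dh 1 m.p23) v)
    rw [map_add, nabL_actL m.a13 m.p13, nabL_pullH m.s23 m.p23]
    abel
  · show nabL B₄ (pushH S m.s14 m.o14 u - m.b24.actL v) =
      (pushH S m.s14 m.o14 (nabL B₁ u) - m.b24.actL (nabL B₂ v)) +
        (pushH S (m.s14.dh 1 m.p14) (dh_off m.s14 m.p14 S.closed m.o14) u -
          (m.b24.dh 1 m.p24).actL v)
    rw [map_sub, nabL_pushH S m.s14 m.o14 m.p14, nabL_actL m.b24 m.p24]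
    abel

end Maps

end

end Crest.Agent.R275.Exc685
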