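import Mathlib
import Crest.Agent.R275.FLBasic_884
import Crest.Agent.R275.FLc_606

-- ▼ part R275/FLProp_884
section

/-!
R275 / S0418, block FL, part 2: propagation of smallness of almost superharmonic functions
(`chain of balls`) on a connected space covered by boxes.
-/

set_option autoImplicit false

namespace Crest.Agent.R275.FL884

open MeasureTheory Set Filter Topology Metric
open scoped ENNReal NNReal

variable {E : Type*} [NormedAddCommGroup E] [NormedSpace ℂ E]
  [MeasurableSpace E] [BorelSpace E] [FiniteDimensional ℝ E]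
  (μ : Measure E) [μ.IsAddHaarMeasure]

/-- smallness at points near `z` gives smallness of the integral around `z`. -/
lemma tendsto_of_near {N : Type*} {F : Filter N} {U : Set E} {u : N → E → ℝ≥0∞} {δ : N → ℝ≥0∞}
    (hδ : Tendsto δ F (𝓝 0)) (hSM : ∀ n, SM U (δ n) (u n))
    (hmeas : ∀ n, Measurable (U.indicator (u n))) {z : E} {r : ℝ} (hr : 0 < r)
    (hB : closedBall z (4 * r) ⊆ U)
    (hnear : ∀ ε : ℝ≥0∞, 0 < ε → ∀ᶠ n in F, ∃ w ∈ ball z r, u n w ≤ ε) :
    Tendsto (fun n => ∫⁻ w in closedBall z r, u n w ∂μ) F (𝓝 0) := by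
  set m : ℝ≥0∞ := μ (closedBall (0 : E) (2 * r)) with hm
  have hmfin : m ≠ ⊤ := measure_closedBall_lt_top.ne
  set c : ℝ≥0∞ := ENNReal.ofReal ((2 * r) ^ 2) with hc
  have hcfin : c ≠ ⊤ := ENNReal.ofReal_ne_top
  -- the bound function
  have hδ' : Tendsto (fun n => m * (δ n * c)) F (𝓝 0) := by
    have h1 : Tendsto (fun n => δ n * c) F (𝓝 (0 * c)) :=
      ENNReal.Tendsto.mul_const hδ (Or.inr hcfin)
    have h2 : Tendsto (fun n => m * (δ n * c)) F (𝓝 (m * (0 * c))) :=
      ENNReal.Tendsto.const_mul h1 (Or.inr hmfin)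
    simpa using h2
  rw [ENNReal.tendsto_nhds_zero]
  intro ε hε
  rw [ENNReal.tendsto_nhds_zero] at hδ'
  have hε2 : 0 < ε / 2 := ENNReal.half_pos hε.ne'
  -- choose the small value
  obtain ⟨ε', hε'pos, hε'⟩ : ∃ ε' : ℝ≥0∞, 0 < ε' ∧ m * ε' ≤ ε / 2 := by
    by_cases hm0 : m = 0
    · exact ⟨1, one_pos, by simp [hm0]⟩
    · refine ⟨ε / 2 / m, ENNReal.div_pos hε2.ne' hmfin, ?_⟩
      rw [ENNReal.mul_div_cancel hm0 hmfin]
  filter_upwards [hδ' _ hε2, hnear ε' hε'pos] with n h1 h2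
  obtain ⟨w, hw, hwu⟩ := h2
  have hw' : dist w z < r := hw
  have hsub1 : closedBall z r ⊆ closedBall w (2 * r) := by
    intro x hx
    rw [mem_closedBall] at *
    calc dist x w ≤ dist x z + dist z w := dist_triangle _ _ _
      _ ≤ r + r := by
        gcongr
        rw [dist_comm]; exact hw'.le
      _ = 2 * r := by ring
  have hsub2 : closedBall w (2 * r) ⊆ U := by
    refine Subset.trans ?_ hB
    intro x hx
    rw [mem_closedBall] at *
    calc dist x z ≤ dist x w + dist w z := dist_triangle _ _ _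
      _ ≤ 2 * r + r := by gcongr
      _ ≤ 4 * r := by linarith
  calc ∫⁻ w in closedBall z r, u n w ∂μ ≤ ∫⁻ x in closedBall w (2 * r), u n x ∂μ :=
        lintegral_mono_set hsub1
    _ ≤ μ (closedBall w (2 * r)) * (u n w + δ n * c) :=
        (hSM n).ball μ (hmeas n) (by positivity) hsub2
    _ = m * (u n w + δ n * c) := by rw [Measure.addHaar_closedBall_center μ w]
    _ = m * u n w + m * (δ n * c) := by rw [mul_add]
    _ ≤ ε / 2 + ε / 2 := by
        refine add_le_add ?_ h1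
        exact (mul_le_mul_right hwu m).trans hε'
    _ = ε := ENNReal.add_halves ε

/-- if the integrals over a nonempty open set tend to zero, there are points with small value. -/
lemma exists_small_of_tendsto {N : Type*} {F : Filter N} {u : N → E → ℝ≥0∞} {O : Set E}
    (hO : IsOpen O) (hne : O.Nonempty)
    (h : Tendsto (fun n => ∫⁻ w in O, u n w ∂μ) F (𝓝 0)) {ε : ℝ≥0∞} (hε : 0 < ε) :
    ∀ᶠ n in F, ∃ w ∈ O, u n w ≤ ε := by
  by_cases hεt : ε = ⊤
  · obtain ⟨w, hw⟩ := hne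
    exact Eventually.of_forall fun n => ⟨w, hw, by simp [hεt]⟩
  have hpos : 0 < μ O := hO.measure_pos μ hne
  obtain ⟨O', hO'sub, hO'meas, hO'pos, hO'fin⟩ : ∃ O' ⊆ O, MeasurableSet O' ∧ 0 < μ O' ∧ μ O' < ⊤ := by
    obtain ⟨x, hx⟩ := hne
    obtain ⟨r, hr, hrO⟩ := Metric.isOpen_iff.1 hO x hx
    exact ⟨ball x r, hrO, measurableSet_ball, measure_ball_pos μ x hr, measure_ball_lt_top⟩
  rw [ENNReal.tendsto_nhds_zero] at h
  have hlt : 0 < ε * μ O' / 2 := by
    apply ENNReal.half_pos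
    exact (ENNReal.mul_pos hε.ne' hO'pos.ne').ne'
  filter_upwards [h _ hlt] with n hn
  by_contra hcon
  push Not at hcon
  have h1 : ε * μ O' ≤ ∫⁻ w in O', u n w ∂μ := by
    have : ∫⁻ _ in O', ε ∂μ ≤ ∫⁻ w in O', u n w ∂μ := by
      apply setLIntegral_mono' hO'meas
      intro w hw
      exact (hcon w (hO'sub hw)).le
    rwa [setLIntegral_const] at this
  have h2 : ∫⁻ w in O', u n w ∂μ ≤ ∫⁻ w in O, u n w ∂μ := lintegral_mono_set hO'sub
  have h3 : ε * μ O' ≤ ε * μ O' / 2 := (h1.trans h2).trans hn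
  have h4 : ε * μ O' ≠ ⊤ := ENNReal.mul_ne_top hεt hO'fin.ne
  exact absurd (ENNReal.half_lt_self (ENNReal.mul_pos hε.ne' hO'pos.ne').ne' h4) (not_lt.2 h3)

/-- **Propagation.** -/
theorem propagate {Y : Type*} [TopologicalSpace Y] [PreconnectedSpace Y] {J : Type*}
    (U : J → Set E) (p : J → E → Y) (hc : ∀ j, ContinuousOn (p j) (U j))
    (hU : ∀ j, IsOpen (U j))
    (ho : ∀ j, ∀ V ⊆ U j, IsOpen V → IsOpen (p j '' V))
    (hcov : ∀ y, ∃ j, ∃ z ∈ U j, p j z = y)
    {N : Type*} {F : Filter N} {u : N → Y → ℝ≥0∞} {δ : N → ℝ≥0∞}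
    (hδ : Tendsto δ F (𝓝 0)) (hSM : ∀ n j, SM (U j) (δ n) (fun w => u n (p j w)))
    (hmeas : ∀ n j, Measurable ((U j).indicator fun w => u n (p j w)))
    {y : N → Y} {y₀ : Y} (hy : Tendsto y F (𝓝 y₀)) (hu : Tendsto (fun n => u n (y n)) F (𝓝 0))
    {j : J} {z : E} {r : ℝ} (hr : 0 < r) (hB : closedBall z (4 * r) ⊆ U j) :
    Tendsto (fun n => ∫⁻ w in closedBall z r, u n (p j w) ∂μ) F (𝓝 0) := by
  set G : Set Y := {y | ∃ (j : J) (z : E) (r : ℝ), 0 < r ∧ closedBall z r ⊆ U j ∧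
    y ∈ p j '' ball z r ∧
    Tendsto (fun n => ∫⁻ w in closedBall z r, u n (p j w) ∂μ) F (𝓝 0)} with hG
  have hGo : IsOpen G := by
    rw [isOpen_iff_mem_nhds]
    rintro y ⟨j, z, r, hr, hB, hyb, ht⟩
    have h1 : IsOpen (p j '' ball z r) := ho j _ (ball_subset_closedBall.trans hB) isOpen_ball
    refine mem_of_superset (h1.mem_nhds hyb) ?_
    intro y' hy'
    exact ⟨j, z, r, hr, hB, hy', ht⟩
  -- key step
  have key : ∀ y ∈ closure G, ∀ (j' : J) (z' : E) (r' : ℝ), 0 < r' →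
      closedBall z' (4 * r') ⊆ U j' → p j' z' = y →
      Tendsto (fun n => ∫⁻ w in closedBall z' r', u n (p j' w) ∂μ) F (𝓝 0) := by
    intro y hy j' z' r' hr' hB' hpz
    have hb' : ball z' r' ⊆ U j' :=
      (ball_subset_closedBall.trans (closedBall_subset_closedBall (by linarith))).trans hB'
    have hW : IsOpen (p j' '' ball z' r') := ho j' _ hb' isOpen_ball
    have hyW : y ∈ p j' '' ball z' r' := ⟨z', mem_ball_self hr', hpz⟩
    obtain ⟨y1, hy1W, hy1G⟩ := mem_closure_iff.1 hy _ hW hyW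
    obtain ⟨j, z, r, hr, hB, ⟨w1, hw1, hw1y⟩, ht⟩ := hy1G
    have hb : ball z r ⊆ U j := ball_subset_closedBall.trans hB
    -- overlap
    set O : Set E := ball z r ∩ (p j) ⁻¹' (p j' '' ball z' r') with hO
    have hOo : IsOpen O := ((hc j).mono hb).isOpen_inter_preimage isOpen_ball hW
    have hOne : O.Nonempty := ⟨w1, hw1, by rw [mem_preimage, hw1y]; exact hy1W⟩
    have htO : Tendsto (fun n => ∫⁻ w in O, u n (p j w) ∂μ) F (𝓝 0) := by
      refine tendsto_of_tendsto_of_tendsto_of_le_of_le tendsto_const_nhds ht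
        (fun n => zero_le) (fun n => ?_)
      exact lintegral_mono_set (inter_subset_left.trans ball_subset_closedBall)
    refine tendsto_of_near μ hδ (fun n => hSM n j') (fun n => hmeas n j') hr' hB' ?_
    intro ε hε
    filter_upwards [exists_small_of_tendsto μ hOo hOne htO hε] with n hn
    obtain ⟨w, ⟨_, ⟨w', hw', hww'⟩⟩, hwε⟩ := hn
    exact ⟨w', hw', by rw [hww']; exact hwε⟩
  -- start
  have hstart : y₀ ∈ G := by
    obtain ⟨j, z, hz, hpz⟩ := hcov y₀
    obtain ⟨R, hR, hRU⟩ := Metric.isOpen_iff.1 (hU j) z hz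
    set r := R / 8 with hr8
    have hr : 0 < r := by positivity
    have hB : closedBall z (4 * r) ⊆ U j :=
      (closedBall_subset_ball (by rw [hr8]; linarith)).trans hRU
    have hb : ball z r ⊆ U j :=
      (ball_subset_closedBall.trans (closedBall_subset_closedBall (by linarith))).trans hB
    refine ⟨j, z, r, hr, (closedBall_subset_closedBall (by linarith)).trans hB,
      ⟨z, mem_ball_self hr, hpz⟩, ?_⟩
    refine tendsto_of_near μ hδ (fun n => hSM n j) (fun n => hmeas n j) hr hB ?_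
    intro ε hε
    have hW : p j '' ball z r ∈ 𝓝 y₀ := (ho j _ hb isOpen_ball).mem_nhds ⟨z, mem_ball_self hr, hpz⟩
    filter_upwards [hy hW, (ENNReal.tendsto_nhds_zero.1 hu) ε hε] with n hn1 hn2
    obtain ⟨w, hw, hwy⟩ := hn1
    exact ⟨w, hw, by rw [hwy]; exact hn2⟩
  have hGc : IsClosed G := by
    rw [isClosed_iff_clusterPt]
    intro y hy
    have hy' : y ∈ closure G := mem_closure_iff_clusterPt.2 hy
    obtain ⟨j, z, hz, hpz⟩ := hcov y
    obtain ⟨R, hR, hRU⟩ := Metric.isOpen_iff.1 (hU j) z hz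
    set r := R / 8 with hr8
    have hr : 0 < r := by positivity
    have hB : closedBall z (4 * r) ⊆ U j :=
      (closedBall_subset_ball (by rw [hr8]; linarith)).trans hRU
    exact ⟨j, z, r, hr, (closedBall_subset_closedBall (by linarith)).trans hB,
      ⟨z, mem_ball_self hr, hpz⟩, key y hy' j z r hr hB hpz⟩
  have hGu : G = univ := IsClopen.eq_univ ⟨hGc, hGo⟩ ⟨y₀, hstart⟩
  have hzG : p j z ∈ closure G := subset_closure (by rw [hGu]; exact mem_univ _)
  exact key _ hzG j z r hr hB rfl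

end Crest.Agent.R275.FL884
end

-- ▼ part R275/FLd_606

/-!
R275 (S0418), helper606: flux lemma, part d.
Periodic coverings of a space with an action of `ℤ` and the estimates for one pair of additive
almost psh functions.
-/

set_option autoImplicit false
set_option linter.unusedSectionVars false

open MeasureTheory Set Metric Filter Topology
open scoped ENNReal

noncomputable section

namespace Crest.Agent.R275.FL606

variable {E : Type*} [NormedAddCommGroup E] [NormedSpace ℂ E] [MeasurableSpace E] [BorelSpace E]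
  [FiniteDimensional ℝ E]
  {Y : Type*} [TopologicalSpace Y] [MeasurableSpace Y] [BorelSpace Y] {ι : Type*}

/-- parametrizations `p i` of open subsets of `Y` by the ball of radius 16 in `E`, such that the
`g`-translates of the `p i (ball 0 1)` cover `Y`; transitions are holomorphic -/
structure Cov (E : Type*) [NormedAddCommGroup E] [NormedSpace ℂ E] [MeasurableSpace E]
    {Y : Type*} [TopologicalSpace Y] [MeasurableSpace Y] (g : Y ≃ₜ Y) (ι : Type*) where
  p : ι → E → Y
  q : ι → Y → E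
  meas : ∀ i, Measurable (p i)
  cont : ∀ i, ContinuousOn (p i) (ball 0 16)
  qp : ∀ i, ∀ z ∈ ball (0:E) 16, q i (p i z) = z
  opn : ∀ i, ∀ V ⊆ ball (0:E) 16, IsOpen V → IsOpen (p i '' V)
  hol : ∀ i j (m : ℤ), ∀ z ∈ ball (0:E) 16, ∀ z' ∈ ball (0:E) 16, p i z = (g ^ m) (p j z') →
    DifferentiableAt ℂ (fun y => q j ((g ^ (-m)) (p i y))) z
  cover : ∀ y, ∃ i, ∃ m : ℤ, ∃ z ∈ ball (0:E) 1, y = (g ^ m) (p i z)

/-- the basic hypotheses on the height function `g0` -/
structure Height {g : Y ≃ₜ Y} (C : Cov E g ι) (g0 : Y → ℝ) (G C₀ : ℝ) : Prop where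
  meas : Measurable g0
  add : ∀ y, g0 (g y) = g0 y - 1
  bound : ∀ i, ∀ z ∈ ball (0:E) 16, |g0 (C.p i z)| ≤ G
  nonneg : 0 ≤ C₀
  sup : ∀ i (z v : E), (∀ w : ℂ, ‖w‖ ≤ 1 → z + w • v ∈ ball (0:E) 16) →
    av (fun z => g0 (C.p i z)) z v ≤ g0 (C.p i z) + C₀ * ‖v‖ ^ 2

/-- a normalised pair of multiplicative functions whose logarithms are almost psh -/
structure Step {g : Y ≃ₜ Y} (C : Cov E g ι) (g0 : Y → ℝ) (ε η : ℝ) where
  a : Y → ℝ
  b : Y → ℝ
  ma : Measurable a
  mb : Measurable b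
  a0 : ∀ y, 0 ≤ a y
  b0 : ∀ y, 0 ≤ b y
  ag : ∀ y, a (g y) = Real.exp (-1) * a y
  bg : ∀ y, b (g y) = Real.exp 1 * b y
  ale : ∀ y, a y ≤ Real.exp (g0 y)
  able : ∀ y, a y * b y ≤ 1
  exa : ∃ y, Real.exp (g0 y - 1) ≤ a y
  exab : ∃ y, Real.exp (-η) ≤ a y * b y
  sa : ∀ i, LogSM ε (fun z => a (C.p i z)) (ball 0 16)
  sb : ∀ i, LogSM ε (fun z => b (C.p i z)) (ball 0 16)
  bM : ∃ M : ℝ, ∀ i, ∀ z ∈ ball (0:E) 16, b (C.p i z) ≤ Real.exp M

section zpow

variable {g : Y ≃ₜ Y}

lemma zpow_succ_apply (m : ℤ) (y : Y) : (g ^ (m + 1)) y = g ((g ^ m) y) := by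
  rw [add_comm, zpow_add, zpow_one]; rfl

/-- functions with a multiplicative behaviour under `g` -/
lemma mul_zpow {f : Y → ℝ} {s : ℝ} (h : ∀ y, f (g y) = Real.exp s * f y) (m : ℤ) (y : Y) :
    f ((g ^ m) y) = Real.exp (s * m) * f y := by
  have hnat : ∀ (n : ℕ) (y : Y), f ((g ^ (n:ℤ)) y) = Real.exp (s * n) * f y := by
    intro n
    induction n with
    | zero => intro y; simp
    | succ n ih =>
      intro y
      push_cast
      rw [zpow_succ_apply, h, ih, mul_add, mul_one, Real.exp_add]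
      ring
  obtain ⟨n, rfl | rfl⟩ := m.eq_nat_or_neg
  · exact_mod_cast hnat n y
  · have h1 := hnat n ((g ^ (-(n:ℤ))) y)
    have h2 : (g ^ (n:ℤ)) ((g ^ (-(n:ℤ))) y) = y := by
      have : (g ^ (n:ℤ)) * (g ^ (-(n:ℤ))) = 1 := by rw [← zpow_add]; simp
      have h3 := congrArg (fun e : Y ≃ₜ Y => e y) this
      exact h3
    rw [h2] at h1
    rw [h1, ← mul_assoc, ← Real.exp_add]
    push_cast
    have : s * -(n:ℝ) + s * (n:ℝ) = 0 := by ring
    rw [this, Real.exp_zero, one_mul]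

lemma add_zpow {f : Y → ℝ} {s : ℝ} (h : ∀ y, f (g y) = f y + s) (m : ℤ) (y : Y) :
    f ((g ^ m) y) = f y + s * m := by
  have hnat : ∀ (n : ℕ) (y : Y), f ((g ^ (n:ℤ)) y) = f y + s * n := by
    intro n
    induction n with
    | zero => intro y; simp
    | succ n ih =>
      intro y
      push_cast
      rw [zpow_succ_apply, h, ih]
      ring
  obtain ⟨n, rfl | rfl⟩ := m.eq_nat_or_neg
  · exact_mod_cast hnat n y
  · have h1 := hnat n ((g ^ (-(n:ℤ))) y)
    have h2 : (g ^ (n:ℤ)) ((g ^ (-(n:ℤ))) y) = y := by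
      have : (g ^ (n:ℤ)) * (g ^ (-(n:ℤ))) = 1 := by rw [← zpow_add]; simp
      have h3 := congrArg (fun e : Y ≃ₜ Y => e y) this
      exact h3
    rw [h2] at h1
    push_cast
    linarith

end zpow

variable {g : Y ≃ₜ Y} (C : Cov E g ι)

/-- the charts `g ^ m ∘ p i` -/
def Cov.P (j : ι × ℤ) (z : E) : Y := (g ^ j.2) (C.p j.1 z)

lemma Cov.P_cont (j : ι × ℤ) : ContinuousOn (C.P j) (ball 0 16) :=
  (g ^ j.2).continuous.comp_continuousOn (C.cont j.1)

lemma Cov.P_open (j : ι × ℤ) : ∀ V ⊆ ball (0:E) 16, IsOpen V → IsOpen (C.P j '' V) := by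
  intro V hV hVo
  have : C.P j '' V = (g ^ j.2) '' (C.p j.1 '' V) := by
    rw [image_image]; rfl
  rw [this]
  exact (g ^ j.2).isOpenMap _ (C.opn j.1 V hV hVo)

lemma Cov.P_cover (y : Y) : ∃ j, ∃ z ∈ ball (0:E) 16, C.P j z = y := by
  obtain ⟨i, m, z, hz, rfl⟩ := C.cover y
  exact ⟨(i, m), z, ball_subset_ball (by norm_num) hz, rfl⟩

/-- the fundamental compact set -/
def Cov.K : Set Y := ⋃ i, C.p i '' closedBall (0:E) 1

lemma Cov.K_compact [Finite ι] : IsCompact C.K := by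
  refine isCompact_iUnion fun i => ?_
  exact (isCompact_closedBall (0:E) 1).image_of_continuousOn
    ((C.cont i).mono (closedBall_subset_ball (by norm_num)))

lemma Cov.exists_K (y : Y) : ∃ m : ℤ, ∃ y' ∈ C.K, y = (g ^ m) y' := by
  obtain ⟨i, m, z, hz, rfl⟩ := C.cover y
  exact ⟨m, C.p i z, mem_iUnion.2 ⟨i, z, ball_subset_closedBall hz, rfl⟩, rfl⟩

/-- an invariant function attains its values on `K` -/
lemma Cov.exists_K_of_inv {α : Type*} {f : Y → α} (h : ∀ y, f (g y) = f y) (y : Y) :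
    ∃ y' ∈ C.K, f y' = f y := by
  obtain ⟨m, y', hy', rfl⟩ := C.exists_K y
  refine ⟨y', hy', ?_⟩
  have hnat : ∀ (n : ℕ) (y : Y), f ((g ^ (n:ℤ)) y) = f y := by
    intro n
    induction n with
    | zero => intro y; simp
    | succ n ih =>
      intro y
      push_cast
      rw [zpow_succ_apply, h, ih]
  obtain ⟨n, rfl | rfl⟩ := m.eq_nat_or_neg
  · exact (hnat n y').symm
  · have h1 := hnat n ((g ^ (-(n:ℤ))) y')
    have h2 : (g ^ (n:ℤ)) ((g ^ (-(n:ℤ))) y') = y' := by
      have : (g ^ (n:ℤ)) * (g ^ (-(n:ℤ))) = 1 := by rw [← zpow_add]; simp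
      have h3 := congrArg (fun e : Y ≃ₜ Y => e y') this
      exact h3
    rw [h2] at h1
    exact h1

lemma inv_zpow {α : Type*} {f : Y → α} (h : ∀ y, f (g y) = f y) (m : ℤ) (y : Y) :
    f ((g ^ m) y) = f y := by
  have hnat : ∀ (n : ℕ) (y : Y), f ((g ^ (n:ℤ)) y) = f y := by
    intro n
    induction n with
    | zero => intro y; simp
    | succ n ih =>
      intro y
      push_cast
      rw [zpow_succ_apply, h, ih]
  obtain ⟨n, rfl | rfl⟩ := m.eq_nat_or_neg
  · exact hnat n y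
  · have h1 := hnat n ((g ^ (-(n:ℤ))) y)
    have h2 : (g ^ (n:ℤ)) ((g ^ (-(n:ℤ))) y) = y := by
      have : (g ^ (n:ℤ)) * (g ^ (-(n:ℤ))) = 1 := by rw [← zpow_add]; simp
      have h3 := congrArg (fun e : Y ≃ₜ Y => e y) this
      exact h3
    rw [h2] at h1
    exact h1.symm

/-- `b - log F`, value `∞` at the zeros of `F`, on `Y` -/
def costY (b F : Y → ℝ) (y : Y) : ℝ≥0∞ :=
  if F y = 0 then ⊤ else ENNReal.ofReal (b y - Real.log (F y))

lemma costY_p (b F : Y → ℝ) (i : ι) (z : E) :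
    costY b F (C.p i z) = cost 1 (fun z => b (C.p i z)) (fun z => F (C.p i z)) z := by
  simp [costY, cost]

namespace Step

variable {C} {g0 : Y → ℝ} {ε η G C₀ : ℝ} (S : Step C g0 ε η) (hH : Height C g0 G C₀)

/-- minus the sum of the two additive functions -/
def u : Y → ℝ≥0∞ := costY (fun _ => 0) (fun y => S.a y * S.b y)

/-- distance to the height function -/
def w : Y → ℝ≥0∞ := costY g0 S.a

lemma u_inv (y : Y) : S.u (g y) = S.u y := by
  simp only [u, costY]
  rw [S.ag, S.bg]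
  have : Real.exp (-1) * S.a y * (Real.exp 1 * S.b y) = S.a y * S.b y := by
    have h : Real.exp (-1) * Real.exp 1 = 1 := by rw [← Real.exp_add]; simp
    linear_combination (S.a y * S.b y) * h
  rw [this]

lemma a_pos_log (y : Y) (h : 0 < S.a y) : Real.log (S.a (g y)) = Real.log (S.a y) - 1 := by
  rw [S.ag, Real.log_mul (Real.exp_pos _).ne' h.ne', Real.log_exp]; ring

include hH in
lemma w_inv (y : Y) : S.w (g y) = S.w y := by
  unfold w costY
  by_cases h : S.a y = 0
  · have h' : S.a (g y) = 0 := by rw [S.ag, h, mul_zero]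
    rw [if_pos h, if_pos h']
  · have h' : S.a (g y) ≠ 0 := by
      rw [S.ag]; exact mul_ne_zero (Real.exp_pos _).ne' h
    rw [if_neg h, if_neg h', S.a_pos_log y (lt_of_le_of_ne (S.a0 y) (Ne.symm h)), hH.add]
    congr 1; ring

include hH in
lemma a_bound (i : ι) {z : E} (hz : z ∈ ball (0:E) 16) : S.a (C.p i z) ≤ Real.exp G := by
  refine (S.ale _).trans (Real.exp_le_exp.2 ?_)
  exact (le_abs_self _).trans (hH.bound i z hz)

lemma ma' (i : ι) : Measurable (fun z : E => S.a (C.p i z)) := S.ma.comp (C.meas i)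
lemma mb' (i : ι) : Measurable (fun z : E => S.b (C.p i z)) := S.mb.comp (C.meas i)

include hH in
lemma sab (hε : 0 ≤ ε) (i : ι) :
    LogSM (ε + ε) (fun z => S.a (C.p i z) * S.b (C.p i z)) (ball (0:E) 16) := by
  obtain ⟨M, hM⟩ := S.bM
  exact LogSM.mul hε hε (S.ma' i) (S.mb' i) (fun z _ => S.a0 _) (fun z _ => S.b0 _)
    (fun z hz => S.a_bound hH i hz) (fun z hz => hM i z hz) (S.sa i) (S.sb i)

include hH in
lemma sm_u (hε : 0 ≤ ε) (i : ι) :
    FL884.SM (ball (0:E) 16) (ENNReal.ofReal (ε + ε)) (fun z => S.u (C.p i z)) := by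
  have h := sm884_cost (E := E) (B := ball (0:E) 16) (c := ε + ε) (C₀ := 0) (lam := 1)
    (by positivity) le_rfl one_pos
    (F := fun z => S.a (C.p i z) * S.b (C.p i z)) (b := fun _ => 0) ((S.ma' i).mul (S.mb' i))
    (fun z _ => mul_nonneg (S.a0 _) (S.b0 _)) (M := 0)
    (fun z _ => by rw [Real.exp_zero]; exact S.able _) (S.sab hH hε i) measurable_const (G := 0)
    (fun z _ => by simp) (fun z v _ => by simp [av])
    (fun z _ hz => by
      rw [div_one]
      exact Real.log_nonpos (mul_nonneg (S.a0 _) (S.b0 _)) (S.able _))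
  simp only [div_one, add_zero] at h
  refine h.congr fun z _ => ?_
  rw [u, costY_p]

include hH in
lemma sm_w (hε : 0 ≤ ε) (i : ι) :
    FL884.SM (ball (0:E) 16) (ENNReal.ofReal (ε + C₀)) (fun z => S.w (C.p i z)) := by
  have h := sm884_cost (E := E) (B := ball (0:E) 16) (c := ε) (C₀ := C₀) (lam := 1)
    hε hH.nonneg one_pos
    (F := fun z => S.a (C.p i z)) (b := fun z => g0 (C.p i z)) (S.ma' i)
    (fun z _ => S.a0 _) (M := G)
    (fun z hz => S.a_bound hH i hz) (S.sa i) (hH.meas.comp (C.meas i)) (G := G)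
    (fun z hz => hH.bound i z hz) (fun z v hd => hH.sup i z v hd)
    (fun z _ hz => by
      rw [div_one, Real.log_le_iff_le_exp hz]
      exact S.ale _)
  simp only [div_one] at h
  refine h.congr fun z _ => ?_
  rw [w, costY_p]

lemma measurable_u (i : ι) : Measurable (fun z : E => S.u (C.p i z)) := by
  have : Measurable S.u := by
    unfold u costY
    exact Measurable.ite ((S.ma.mul S.mb) (measurableSet_singleton 0)) measurable_const
      (measurable_const.sub (Real.measurable_log.comp (S.ma.mul S.mb))).ennreal_ofReal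
  exact this.comp (C.meas i)

include hH in
lemma measurable_w (i : ι) : Measurable (fun z : E => S.w (C.p i z)) := by
  have : Measurable S.w := by
    unfold w costY
    exact Measurable.ite (S.ma (measurableSet_singleton 0)) measurable_const
      (hH.meas.sub (Real.measurable_log.comp S.ma)).ennreal_ofReal
  exact this.comp (C.meas i)

lemma exists_u : ∃ y ∈ C.K, S.u y ≤ ENNReal.ofReal η := by
  obtain ⟨y, hy⟩ := S.exab
  obtain ⟨y', hy', he⟩ := C.exists_K_of_inv S.u_inv y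
  refine ⟨y', hy', ?_⟩
  rw [he]
  have hpos : 0 < S.a y * S.b y := (Real.exp_pos _).trans_le hy
  unfold u costY
  rw [if_neg hpos.ne']
  refine ENNReal.ofReal_le_ofReal ?_
  have : -η ≤ Real.log (S.a y * S.b y) := by
    rw [Real.le_log_iff_exp_le hpos]; exact hy
  linarith

include hH in
lemma exists_w : ∃ y ∈ C.K, S.w y ≤ 1 := by
  obtain ⟨y, hy⟩ := S.exa
  obtain ⟨y', hy', he⟩ := C.exists_K_of_inv (S.w_inv hH) y
  refine ⟨y', hy', ?_⟩
  rw [he]
  have hpos : 0 < S.a y := (Real.exp_pos _).trans_le hy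
  unfold w costY
  rw [if_neg hpos.ne']
  have : g0 y - 1 ≤ Real.log (S.a y) := by
    rw [Real.le_log_iff_exp_le hpos]; exact hy
  calc ENNReal.ofReal (g0 y - Real.log (S.a y)) ≤ ENNReal.ofReal 1 :=
        ENNReal.ofReal_le_ofReal (by linarith)
    _ = 1 := by simp

end Step

end Crest.Agent.R275.FL606
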