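import Crest.Agent.R275.C1a_509
import Crest.Agent.R275.FmP_96

-- ▼ part R275/VCal_131
section

/-!
# R275, block C (helper131): calculus of smooth vector bundles with a `(0,1)`-connection

* `smOv_iff`, `smAt_iff'`   : pointwise form of smoothness on overlaps;
* `Jm`, `Jm_self`, `Jm_mul`, `det_Jm_ne` : the Jacobian cocycle;
* matrix valued `∂̄` (`dbM`), Leibniz rule;
* operations on `VBun A`: `triv`, `hol` (holomorphic cocycle, `a = 0`), `add`, `mul`, `dual`;
* `VHom`, `VHom.Flat`, `VIso` and the functoriality of the operations.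
-/

set_option autoImplicit false
set_option linter.unusedSectionVars false

open Set Filter Topology Complex
open scoped ContDiff Matrix ComplexConjugate Kronecker

namespace Crest.Agent.R275.VCal131

open Geo Fm96

noncomputable section

variable {n : ℕ} {M : Type} [TopologicalSpace M] {A : Atl n M}

/-! ### smoothness, pointwise -/

theorem smOv_iff {i j : A.ι} {f : M → ℂ} :
    ContDiffOn ℝ ∞ (fun z => f ((A.e i).symm z)) (A.ov i j) ↔
      ∀ x ∈ (A.e i).source ∩ (A.e j).source, SmP A i f x := by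
  constructor
  · intro h x hx
    filter_upwards [(isOpen_ov i j).mem_nhds (mem_ov hx)] with z hz
    exact h.contDiffAt ((isOpen_ov i j).mem_nhds hz)
  · intro h z hz
    have h1 := (h ((A.e i).symm z) ⟨(A.e i).map_target hz.1, hz.2⟩).self_of_nhds
    rw [(A.e i).right_inv hz.1] at h1
    exact h1.contDiffWithinAt


theorem sm_iff {f : M → ℂ} : A.Sm f ↔ ∀ i, ∀ x ∈ (A.e i).source, SmP A i f x :=
  ⟨fun h i => smAt_iff.1 (h i), fun h i => smAt_iff.2 (h i)⟩

/-! ### the Jacobian cocycle -/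

/-- the Jacobian matrix `∂ z^j_b / ∂ z^i_a` (row `b`, column `a`) -/
def Jm (A : Atl n M) (i j : A.ι) (x : M) : Matrix (Fin n) (Fin n) ℂ := Matrix.of (A.J i j x)

@[simp] theorem Jm_apply (i j : A.ι) (x : M) (b a : Fin n) : Jm A i j x b a = A.J i j x b a := rfl

theorem Jm_self {i : A.ι} {x : M} (hx : x ∈ (A.e i).source) : Jm A i i x = 1 := by
  ext b a
  have h : tr A i i =ᶠ[𝓝 (A.e i x)] id := by
    filter_upwards [(A.e i).open_target.mem_nhds ((A.e i).map_source hx)] with z hz
    exact (A.e i).right_inv hz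
  show (fderiv ℂ (tr A i i) (A.e i x) (EuclideanSpace.single a 1)) b = _
  rw [h.fderiv_eq, fderiv_id]
  simp [Matrix.one_apply, PiLp.single_apply]

theorem Jm_mul {i j k : A.ι} {x : M} (hx : x ∈ (A.e i).source ∩ (A.e j).source)
    (hk : x ∈ (A.e k).source) : Jm A j k x * Jm A i j x = Jm A i k x := by
  ext b a
  have h1 : tr A i k =ᶠ[𝓝 (A.e i x)] fun z => tr A j k (tr A i j z) := by
    filter_upwards [(isOpen_ov i j).mem_nhds (mem_ov hx)] with z hz
    simp only [tr]
    rw [(A.e j).left_inv hz.2]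
  have hd1 : DifferentiableAt ℂ (tr A i j) (A.e i x) := (tr_diff hx).self_of_nhds
  have hd2 : DifferentiableAt ℂ (tr A j k) (tr A i j (A.e i x)) := by
    rw [tr_apply hx.1]; exact (tr_diff ⟨hx.2, hk⟩).self_of_nhds
  have h2 : fderiv ℂ (tr A i k) (A.e i x) =
      (fderiv ℂ (tr A j k) (A.e j x)).comp (fderiv ℂ (tr A i j) (A.e i x)) := by
    rw [h1.fderiv_eq]
    have := fderiv_comp (A.e i x) hd2 hd1
    rw [tr_apply hx.1] at this
    exact this
  show _ = (fderiv ℂ (tr A i k) (A.e i x) (EuclideanSpace.single a 1)) b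
  rw [h2, ContinuousLinearMap.comp_apply, sum_bs (fderiv ℂ (tr A i j) (A.e i x) _), map_sum]
  simp only [WithLp.ofLp_sum, Finset.sum_apply, map_smul, PiLp.smul_apply, smul_eq_mul,
    Matrix.mul_apply]
  refine Finset.sum_congr rfl fun c _ => ?_
  rw [mul_comm]
  rfl

theorem Jm_mul_inv {i j : A.ι} {x : M} (hx : x ∈ (A.e i).source ∩ (A.e j).source) :
    Jm A j i x * Jm A i j x = 1 := by
  rw [Jm_mul hx hx.1, Jm_self hx.1]

theorem det_Jm_ne {i j : A.ι} {x : M} (hx : x ∈ (A.e i).source ∩ (A.e j).source) :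
    (Jm A i j x).det ≠ 0 := by
  have h := congrArg Matrix.det (Jm_mul_inv hx)
  rw [Matrix.det_mul, Matrix.det_one] at h
  exact right_ne_zero_of_mul_eq_one h

theorem sum_conj_J {i j : A.ι} {x : M} (hx : x ∈ (A.e i).source ∩ (A.e j).source) (d b : Fin n) :
    ∑ c, conj (A.J i j x c b) * conj (A.J j i x d c) = if d = b then 1 else 0 := by
  have h := congrFun (congrFun (Jm_mul_inv hx) d) b
  have h2 := congrArg conj h
  simp only [Matrix.mul_apply, Jm_apply, map_sum, map_mul, Matrix.one_apply] at h2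
  have h3 : conj (if d = b then (1 : ℂ) else 0) = if d = b then 1 else 0 := by
    split_ifs <;> simp
  rw [h3] at h2
  rw [← h2]
  exact Finset.sum_congr rfl fun c _ => mul_comm _ _

/-! ### matrix valued `∂̄` -/

section dbM

variable {ρ ρ' ρ'' : Type}

/-- entrywise smoothness near `x` -/
def MSm (A : Atl n M) (i : A.ι) (m : M → Matrix ρ ρ' ℂ) (x : M) : Prop :=
  ∀ k l, SmP A i (fun y => m y k l) x

/-- entrywise `∂̄_b` -/
def dbM (A : Atl n M) (i : A.ι) (b : Fin n) (m : M → Matrix ρ ρ' ℂ) (x : M) : Matrix ρ ρ' ℂ :=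
  Matrix.of fun k l => A.db i b (fun y => m y k l) x


variable {i j : A.ι} {x : M}

theorem MSm.change {m : M → Matrix ρ ρ' ℂ} (h : MSm A j m x)
    (hx : x ∈ (A.e i).source ∩ (A.e j).source) : MSm A i m x := fun k l => (h k l).change hx

theorem MSm.congr {m m' : M → Matrix ρ ρ' ℂ} (h : MSm A i m x) (hx : x ∈ (A.e i).source)
    (he : m' =ᶠ[𝓝 x] m) : MSm A i m' x := fun k l =>
  (h k l).congr hx (he.mono fun _ hy => congrFun (congrFun hy k) l)

theorem MSm.const (c : Matrix ρ ρ' ℂ) : MSm A i (fun _ => c) x := fun _ _ => SmP.const _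

theorem MSm.add {m m' : M → Matrix ρ ρ' ℂ} (h : MSm A i m x) (h' : MSm A i m' x) :
    MSm A i (fun y => m y + m' y) x := fun k l => (h k l).add (h' k l)

theorem MSm.neg {m : M → Matrix ρ ρ' ℂ} (h : MSm A i m x) :
    MSm A i (fun y => - m y) x := fun k l => (h k l).neg

theorem MSm.transpose {m : M → Matrix ρ ρ' ℂ} (h : MSm A i m x) :
    MSm A i (fun y => (m y)ᵀ) x := fun k l => h l k

theorem MSm.mul [Fintype ρ'] {m : M → Matrix ρ ρ' ℂ} {m' : M → Matrix ρ' ρ'' ℂ}
    (h : MSm A i m x) (h' : MSm A i m' x) : MSm A i (fun y => m y * m' y) x := fun k l => by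
  simp only [Matrix.mul_apply]
  exact SmP.sum fun c _ => (h k c).mul (h' c l)

theorem MSm.kron {σ σ' : Type} {m : M → Matrix ρ ρ' ℂ} {m' : M → Matrix σ σ' ℂ}
    (h : MSm A i m x) (h' : MSm A i m' x) : MSm A i (fun y => m y ⊗ₖ m' y) x := fun k l => by
  exact (h k.1 l.1).mul (h' k.2 l.2)

theorem MSm.fromBlocks {σ σ' : Type} {a : M → Matrix ρ ρ' ℂ} {b : M → Matrix ρ σ' ℂ}
    {c : M → Matrix σ ρ' ℂ} {d : M → Matrix σ σ' ℂ}
    (ha : MSm A i a x) (hb : MSm A i b x) (hc : MSm A i c x) (hd : MSm A i d x) :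
    MSm A i (fun y => Matrix.fromBlocks (a y) (b y) (c y) (d y)) x := by
  rintro (k | k) (l | l)
  · exact ha k l
  · exact hb k l
  · exact hc k l
  · exact hd k l

theorem SmP.prod {J : Type*} {s : Finset J} {F : J → M → ℂ} (h : ∀ j ∈ s, SmP A i (F j) x) :
    SmP A i (fun y => ∏ j ∈ s, F j y) x := by
  classical
  induction s using Finset.induction_on with
  | empty => simpa using SmP.const (A := A) (i := i) (x := x) 1
  | insert a s ha ih =>
    simp only [Finset.prod_insert ha]
    exact (h a (Finset.mem_insert_self _ _)).mul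
      (ih fun j hj => h j (Finset.mem_insert_of_mem hj))

theorem MSm.det [Fintype ρ] [DecidableEq ρ] {m : M → Matrix ρ ρ ℂ} (h : MSm A i m x) :
    SmP A i (fun y => (m y).det) x := by
  simp only [Matrix.det_apply']
  exact SmP.sum fun σ _ => (SmP.const _).mul (SmP.prod fun k _ => h _ _)

/-- the inverse matrix is smooth where it exists -/
theorem MSm.inv [Fintype ρ] [DecidableEq ρ] {m : M → Matrix ρ ρ ℂ} (h : MSm A i m x)
    (h0 : (m x).det ≠ 0) (hx : x ∈ (A.e i).source) : MSm A i (fun y => (m y)⁻¹) x := by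
  intro k l
  have h1 : (fun y => (m y)⁻¹ k l) =
      fun y => ((m y).det)⁻¹ * ((m y).updateRow l (Pi.single k 1)).det := by
    funext y
    rw [Matrix.inv_def, Matrix.smul_apply, Matrix.adjugate_apply, Ring.inverse_eq_inv',
      smul_eq_mul]
  rw [h1]
  refine (h.det.inv h0 hx).mul ?_
  refine MSm.det (m := fun y => (m y).updateRow l (Pi.single k 1)) fun p q => ?_
  by_cases hp : p = l
  · subst hp
    simp only [Matrix.updateRow_self]
    exact SmP.const _
  · simp only [Matrix.updateRow_ne hp]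
    exact h p q

theorem dbM_congr {m m' : M → Matrix ρ ρ' ℂ} (hx : x ∈ (A.e i).source) (he : m' =ᶠ[𝓝 x] m)
    (b : Fin n) : dbM A i b m' x = dbM A i b m x := by
  ext k l
  exact Fm96.db_congr (f := fun y => m' y k l) (g := fun y => m y k l) hx
    (he.mono fun _ hy => congrFun (congrFun hy k) l)

theorem dbM_const (c : Matrix ρ ρ' ℂ) (b : Fin n) : dbM A i b (fun _ => c) x = 0 := by
  ext k l
  exact db_constP b _




theorem dbM_mul [Fintype ρ'] {m : M → Matrix ρ ρ' ℂ} {m' : M → Matrix ρ' ρ'' ℂ}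
    (h : MSm A i m x) (h' : MSm A i m' x) (hx : x ∈ (A.e i).source) (b : Fin n) :
    dbM A i b (fun y => m y * m' y) x = dbM A i b m x * m' x + m x * dbM A i b m' x := by
  ext k l
  simp only [dbM, Matrix.of_apply, Matrix.add_apply, Matrix.mul_apply]
  rw [db_sumP b fun c _ => (h k c).mul (h' c l), ← Finset.sum_add_distrib]
  exact Finset.sum_congr rfl fun c _ =>
    db_mulP (f := fun y => m y k c) (g := fun y => m' y c l) b (h k c) (h' c l) hx

theorem dbM_kron {σ σ' : Type} {m : M → Matrix ρ ρ' ℂ} {m' : M → Matrix σ σ' ℂ}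
    (h : MSm A i m x) (h' : MSm A i m' x) (hx : x ∈ (A.e i).source) (b : Fin n) :
    dbM A i b (fun y => m y ⊗ₖ m' y) x = dbM A i b m x ⊗ₖ m' x + m x ⊗ₖ dbM A i b m' x := by
  ext ⟨k, k'⟩ ⟨l, l'⟩
  simp only [dbM, Matrix.of_apply, Matrix.add_apply, Matrix.kroneckerMap_apply]
  exact db_mulP (f := fun y => m y k l) (g := fun y => m' y k' l') b (h k l) (h' k' l') hx

theorem dbM_fromBlocks {σ σ' : Type} (a : M → Matrix ρ ρ' ℂ) (b : M → Matrix ρ σ' ℂ)
    (c : M → Matrix σ ρ' ℂ) (d : M → Matrix σ σ' ℂ) (e : Fin n) :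
    dbM A i e (fun y => Matrix.fromBlocks (a y) (b y) (c y) (d y)) x =
      Matrix.fromBlocks (dbM A i e a x) (dbM A i e b x) (dbM A i e c x) (dbM A i e d x) := by
  ext (k | k) (l | l) <;>
  simp only [dbM, Matrix.of_apply, Matrix.fromBlocks_apply₁₁, Matrix.fromBlocks_apply₁₂,
    Matrix.fromBlocks_apply₂₁, Matrix.fromBlocks_apply₂₂]

/-- change of charts -/
theorem dbM_chain {m : M → Matrix ρ ρ' ℂ} (h : MSm A j m x)
    (hx : x ∈ (A.e i).source ∩ (A.e j).source) (b : Fin n) :
    dbM A i b m x = ∑ c, conj (A.J i j x c b) • dbM A j c m x := by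
  ext k l
  simp only [dbM, Matrix.of_apply, Matrix.sum_apply, Matrix.smul_apply, smul_eq_mul]
  exact db_chain b (h k l) hx

end dbM

end

end Crest.Agent.R275.VCal131
end

-- ▼ part R275/VCalB_131

/-!
# R275, block C (helper131): operations on smooth vector bundles with `(0,1)`-connection

`triv`, `hol`, `sum`, `tensor`, `dual`, line bundles `line` from raw cocycles.
-/

set_option autoImplicit false
set_option linter.unusedSectionVars false

open Set Filter Topology Complex
open scoped ContDiff Matrix ComplexConjugate Kronecker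

namespace Crest.Agent.R275.VCal131

open Geo Fm96

noncomputable section

variable {n : ℕ} {M : Type} [TopologicalSpace M] {A : Atl n M}

/-! ### basic facts about a `VBun` -/

section basic

variable (E : VBun A) {i j k : A.ι} {x : M}

theorem g_msm (hx : x ∈ (A.e i).source ∩ (A.e j).source) : MSm A i (E.g i j) x :=
  fun k l => smOv_iff (f := fun y => E.g i j y k l).1 (E.g_smooth i j k l) x hx

theorem a_msm (hx : x ∈ (A.e i).source) (b : Fin n) : MSm A i (E.a i b) x :=
  fun k l => smAt_iff (f := fun y => E.a i b y k l).1 (E.a_smooth i b k l) x hx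

theorem a_trM (hx : x ∈ (A.e i).source ∩ (A.e j).source) (b : Fin n) :
    dbM A i b (E.g i j) x + E.a i b x * E.g i j x
      = ∑ c, conj (A.J i j x c b) • (E.g i j x * E.a j c x) := E.a_tr i j x hx b

theorem g_mul_symm (hx : x ∈ (A.e i).source ∩ (A.e j).source) :
    E.g i j x * E.g j i x = 1 := by
  rw [E.g_mul i j i x ⟨hx, hx.1⟩, E.g_self i x hx.1]



end basic

/-- constructor of a `VBun` from pointwise data -/
def mkV (ρ : Type) [Fintype ρ] [DecidableEq ρ] (g : A.ι → A.ι → M → Matrix ρ ρ ℂ)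
    (gs : ∀ i j, ∀ x ∈ (A.e i).source ∩ (A.e j).source, MSm A i (g i j) x)
    (g1 : ∀ i, ∀ x ∈ (A.e i).source, g i i x = 1)
    (gm : ∀ i j k, ∀ x ∈ (A.e i).source ∩ (A.e j).source ∩ (A.e k).source,
      g i j x * g j k x = g i k x)
    (a : A.ι → Fin n → M → Matrix ρ ρ ℂ)
    (as : ∀ i b, ∀ x ∈ (A.e i).source, MSm A i (a i b) x)
    (at' : ∀ i j, ∀ x ∈ (A.e i).source ∩ (A.e j).source, ∀ b,
      dbM A i b (g i j) x + a i b x * g i j x = ∑ c, conj (A.J i j x c b) • (g i j x * a j c x)) :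
    VBun A where
  ρ := ρ
  g := g
  g_smooth i j k l := smOv_iff (f := fun y => g i j y k l).2 fun x hx => gs i j x hx k l
  g_self := g1
  g_mul := gm
  a := a
  a_smooth i b k l := smAt_iff (f := fun y => a i b y k l).2 fun x hx => as i b x hx k l
  a_tr := at'

/-! ### holomorphic and trivial bundles -/

/-- a holomorphic cocycle, with the connection `a = 0` -/
def hol (ρ : Type) [Fintype ρ] [DecidableEq ρ] (g : A.ι → A.ι → M → Matrix ρ ρ ℂ)
    (gh : ∀ i j, ∀ x ∈ (A.e i).source ∩ (A.e j).source, ∀ k l, HolP A i (fun y => g i j y k l) x)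
    (g1 : ∀ i, ∀ x ∈ (A.e i).source, g i i x = 1)
    (gm : ∀ i j k, ∀ x ∈ (A.e i).source ∩ (A.e j).source ∩ (A.e k).source,
      g i j x * g j k x = g i k x) : VBun A :=
  mkV ρ g (fun i j x hx k l => (gh i j x hx k l).smP) g1 gm (fun _ _ _ => 0)
    (fun _ _ _ _ => MSm.const _) (fun i j x hx b => by
      have : dbM A i b (g i j) x = 0 := by
        ext k l
        exact (gh i j x hx k l).db_eq b
      simp [this])

/-- trivial bundle -/
def triv (A : Atl n M) (ρ : Type) [Fintype ρ] [DecidableEq ρ] : VBun A :=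
  hol ρ (fun _ _ _ => 1) (fun _ _ _ _ _ _ => HolP.const _) (fun _ _ _ => rfl)
    (fun _ _ _ _ _ => one_mul _)

/-! ### direct sum -/

theorem sum_fromBlocks {J : Type} (s : Finset J) {ρ ρ' σ σ' : Type} (a : J → Matrix ρ ρ' ℂ)
    (b : J → Matrix ρ σ' ℂ) (c : J → Matrix σ ρ' ℂ) (d : J → Matrix σ σ' ℂ) :
    ∑ q ∈ s, Matrix.fromBlocks (a q) (b q) (c q) (d q) =
      Matrix.fromBlocks (∑ q ∈ s, a q) (∑ q ∈ s, b q) (∑ q ∈ s, c q) (∑ q ∈ s, d q) := by
  ext (k | k) (l | l) <;> simp [Matrix.sum_apply]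

/-- direct sum -/
def sum (E F : VBun A) : VBun A :=
  mkV (E.ρ ⊕ F.ρ) (fun i j x => Matrix.fromBlocks (E.g i j x) 0 0 (F.g i j x))
    (fun _ _ _ hx => (g_msm E hx).fromBlocks (MSm.const 0) (MSm.const 0) (g_msm F hx))
    (fun i x hx => by rw [E.g_self i x hx, F.g_self i x hx, Matrix.fromBlocks_one])
    (fun i j k x hx => by
      rw [Matrix.fromBlocks_multiply, E.g_mul i j k x hx, F.g_mul i j k x hx]
      simp)
    (fun i b x => Matrix.fromBlocks (E.a i b x) 0 0 (F.a i b x))
    (fun _ b _ hx => (a_msm E hx b).fromBlocks (MSm.const 0) (MSm.const 0) (a_msm F hx b))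
    (fun i j x hx b => by
      have h0 : ∀ (ρ ρ' : Type), dbM A i b (fun _ => (0 : Matrix ρ ρ' ℂ)) x = 0 :=
        fun ρ ρ' => dbM_const _ _
      rw [dbM_fromBlocks, h0, h0]
      simp only [Matrix.fromBlocks_multiply, Matrix.fromBlocks_add, Matrix.mul_zero,
        Matrix.zero_mul, add_zero, zero_add, Matrix.fromBlocks_smul, smul_zero, sum_fromBlocks,
        Finset.sum_const_zero]
      rw [a_trM E hx b, a_trM F hx b])

/-! ### tensor product -/

/-- tensor product -/
def tensor (E F : VBun A) : VBun A :=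
  mkV (E.ρ × F.ρ) (fun i j x => E.g i j x ⊗ₖ F.g i j x)
    (fun _ _ _ hx => (g_msm E hx).kron (g_msm F hx))
    (fun i x hx => by rw [E.g_self i x hx, F.g_self i x hx, Matrix.one_kronecker_one])
    (fun i j k x hx => by
      rw [← Matrix.mul_kronecker_mul, E.g_mul i j k x hx, F.g_mul i j k x hx])
    (fun i b x => E.a i b x ⊗ₖ (1 : Matrix F.ρ F.ρ ℂ) + (1 : Matrix E.ρ E.ρ ℂ) ⊗ₖ F.a i b x)
    (fun _ b _ hx => ((a_msm E hx b).kron (MSm.const 1)).add ((MSm.const 1).kron (a_msm F hx b)))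
    (fun i j x hx b => by
      rw [dbM_kron (g_msm E hx) (g_msm F hx) hx.1]
      simp only [add_mul, mul_add, ← Matrix.mul_kronecker_mul, one_mul, mul_one, smul_add,
        Finset.sum_add_distrib]
      have h1 : ∑ c, conj (A.J i j x c b) • ((E.g i j x * E.a j c x) ⊗ₖ F.g i j x)
          = (dbM A i b (E.g i j) x + E.a i b x * E.g i j x) ⊗ₖ F.g i j x := by
        rw [a_trM E hx b, kron_sum_left]
        simp only [Matrix.smul_kronecker]
      have h2 : ∑ c, conj (A.J i j x c b) • (E.g i j x ⊗ₖ (F.g i j x * F.a j c x))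
          = E.g i j x ⊗ₖ (dbM A i b (F.g i j) x + F.a i b x * F.g i j x) := by
        rw [a_trM F hx b, kron_sum_right]
        simp only [Matrix.kronecker_smul]
      rw [h1, h2, Matrix.add_kronecker, Matrix.kronecker_add]
      abel)

/-! ### dual -/

/-- dual bundle -/
def dual (E : VBun A) : VBun A :=
  mkV E.ρ (fun i j x => (E.g j i x)ᵀ)
    (fun i j x hx => ((g_msm E hx.symm).change hx).transpose)
    (fun i x hx => by rw [E.g_self i x hx, Matrix.transpose_one])
    (fun i j k x hx => by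
      rw [← Matrix.transpose_mul, E.g_mul k j i x ⟨⟨hx.2, hx.1.2⟩, hx.1.1⟩])
    (fun i b x => -(E.a i b x)ᵀ)
    (fun i b x hx => (a_msm E hx b).transpose.neg)
    (fun i j x hx b => by
      have h1 : dbM A i b (fun y => (E.g j i y)ᵀ) x = (dbM A i b (E.g j i) x)ᵀ := rfl
      have h2 : dbM A i b (E.g j i) x
          = E.g j i x * E.a i b x - ∑ c, conj (A.J i j x c b) • (E.a j c x * E.g j i x) := by
        rw [dbM_chain (g_msm E hx.symm) hx b]
        have h3 : ∀ c, dbM A j c (E.g j i) x =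
            (∑ d, conj (A.J j i x d c) • (E.g j i x * E.a i d x)) - E.a j c x * E.g j i x :=
          fun c => eq_sub_of_add_eq (a_trM E hx.symm c)
        simp only [h3, smul_sub, Finset.sum_sub_distrib, Finset.smul_sum, smul_smul]
        congr 1
        rw [Finset.sum_comm]
        simp only [← Finset.sum_smul, sum_conj_J hx, ite_smul, one_smul, zero_smul,
          Finset.sum_ite_eq', Finset.mem_univ, if_true]
      rw [h1, h2]
      simp only [Matrix.transpose_sub, Matrix.transpose_sum, Matrix.transpose_smul,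
        Matrix.transpose_mul, Matrix.neg_mul, Matrix.mul_neg, smul_neg, Finset.sum_neg_distrib]
      abel)

end

end Crest.Agent.R275.VCal131
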