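import Crest.Agent.R275.WBGlue_658

/-!
# R275, block P, leaf CAU (helper658), part 5: heights, weights, sections, class P
-/

set_option autoImplicit false
set_option linter.unusedSectionVars false
set_option linter.unusedVariables false

open Set Filter Topology Complex Metric
open scoped ContDiff ComplexConjugate

namespace Crest.Agent.R275.WB658

open Crest.Agent.R275.Geo Crest.Agent.R275.JB658 Crest.Agent.R275.Fm96
open Crest.Agent.R275.NAtl938 Crest.Agent.R275.Cau658
open Crest.Agent.R275.GC293 (glue glue_eq_sum)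
open Crest.Agent.R275.Core144 (wgt wgt_pos)

noncomputable section

variable {n : ℕ} {Y : Type} [TopologicalSpace Y] {N : NAtl n Y} {g : Y ≃ₜ Y} {h : Y → ℝ}
variable {F : Type*} [NormedAddCommGroup F] [NormedSpace ℝ F]

/-! ### weights -/

theorem slow_wgt (a b : ℝ) : Slow (wgt a b) := by
  intro W hW
  refine ⟨Real.exp ((|a| + |b|) * W), (Real.exp_pos _).le, fun t t' h => ?_⟩
  unfold wgt
  rw [← Real.exp_add]
  apply Real.exp_le_exp.2
  have h1 : |max (-t) 0 - max (-t') 0| ≤ W := by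
    refine (abs_max_sub_max_le_abs (-t) (-t') 0).trans ?_
    rw [show -t - -t' = -(t - t') by ring, abs_neg]
    exact h
  have h2 : |max t 0 - max t' 0| ≤ W := (abs_max_sub_max_le_abs t t' 0).trans h
  have h3 : a * (max (-t) 0 - max (-t') 0) ≤ |a| * W := by
    refine (le_abs_self _).trans ?_
    rw [abs_mul]; gcongr
  have h4 : b * (max t 0 - max t' 0) ≤ |b| * W := by
    refine (le_abs_self _).trans ?_
    rw [abs_mul]; gcongr
  linarith

theorem slow_one : Slow (fun _ => 1) := fun W _ => ⟨1, zero_le_one, fun _ _ _ => by simp⟩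




/-! ### Cauchy estimates for sections -/


/-! ### families supported in finitely many charts -/

theorem wb_of_finite (P : N.Per g h) {w : ℝ → ℝ} (hw : Slow w) (hw0 : ∀ t, 0 < w t)
    {ρ ρ' : ℝ} (h1 : ρ < ρ') (h2 : ρ' ≤ N.R) {f : N.ι → Y → F}
    (hsm : ∀ i, ∀ x ∈ N.B ρ' i, ContDiffAt ℝ ∞ (fun z => f i ((N.E i).symm z)) (N.E i x))
    {S : Set N.ι} (hS : S.Finite) (h0 : ∀ i ∉ S, ∀ x ∈ N.B ρ i, f i =ᶠ[𝓝 x] fun _ => 0) :
    WB N.big (σ := N.ι) (fun i => i) (N.B ρ) (fun x => w (h x)) f := by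
  classical
  have hρR : ρ < N.R := lt_of_lt_of_le h1 h2
  refine wb_intro (fun i x hx => hsm i x (N.B_mono h1.le i hx)) fun k => ?_
  obtain ⟨D, hD, hslow⟩ := hw P.W P.W_pos
  -- bound for each chart
  have hbd : ∀ i, ∃ C : ℝ, 0 ≤ C ∧ ∀ x ∈ N.B ρ i,
      ‖iteratedFDeriv ℝ k (fun z => f i ((N.E i).symm z)) (N.E i x)‖ ≤ C * w (h x) := by
    intro i
    obtain ⟨C, hC⟩ := bdd_of_compact (f := f i) (isCompact_cB hρR i) (fun x hx => hx.1)
      (fun x hx => hsm i x (cB_sub_B h1 hx)) k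
    set x0 := (src_ne (N := N) i).some with hx0
    have hx0' : x0 ∈ (N.E i).source := (src_ne (N := N) i).some_mem
    have hpos : 0 < w (h x0) := hw0 _
    refine ⟨max C 0 * D / w (h x0), by positivity, fun x hx => ?_⟩
    have h3 : w (h x0) ≤ D * w (h x) := hslow _ _ (P.osc i x0 hx0' x hx.1)
    calc ‖iteratedFDeriv ℝ k (fun z => f i ((N.E i).symm z)) (N.E i x)‖ ≤ C := hC x (B_sub_cB hx)
      _ ≤ max C 0 * 1 := by rw [mul_one]; exact le_max_left _ _
      _ ≤ max C 0 * (D * w (h x) / w (h x0)) := by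
          refine mul_le_mul_of_nonneg_left ?_ (le_max_right _ _)
          rw [one_le_div hpos]; exact h3
      _ = _ := by ring
  choose C hC hb using hbd
  refine ⟨∑ i ∈ hS.toFinset, C i, Finset.sum_nonneg fun i _ => hC i, fun i x hx => ?_⟩
  have hwx : 0 < w (h x) := hw0 _
  by_cases hi : i ∈ S
  · have h3 : C i ≤ ∑ i ∈ hS.toFinset, C i :=
      Finset.single_le_sum (fun i _ => hC i) (hS.mem_toFinset.2 hi)
    exact (hb i x hx).trans (mul_le_mul_of_nonneg_right h3 hwx.le)
  · have e : (fun z => f i ((N.E i).symm z)) =ᶠ[𝓝 (N.E i x)] fun _ => 0 := by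
      have h4 : Tendsto (N.E i).symm (𝓝 (N.E i x)) (𝓝 x) := by
        have := (N.E i).continuousAt_symm ((N.E i).map_source hx.1)
        rw [ContinuousAt, (N.E i).left_inv hx.1] at this
        exact this
      exact h4.eventually (h0 i hi x hx)
    have e2 := (e.iteratedFDeriv ℝ k).eq_of_nhds
    show ‖iteratedFDeriv ℝ k (fun z => f i ((N.E i).symm z)) (N.E i x)‖ ≤ _
    rw [e2, iteratedFDeriv_fun_zero]
    simpa using mul_nonneg (Finset.sum_nonneg fun i _ => hC i) hwx.le

/-- a compact set meets finitely many charts -/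
theorem finite_charts (P : N.Per g h) {K : Set Y} (hK : IsCompact K) :
    {i | ((N.E i).source ∩ K).Nonempty}.Finite := by
  classical
  choose j hj using N.cover
  obtain ⟨t, ht1, ht2⟩ := hK.elim_nhds_subcover (fun x => (N.E (j x)).source)
    (fun x _ => (N.E (j x)).open_source.mem_nhds (hj x).1)
  refine ((t.biUnion fun x => nb P (j x)).finite_toSet).subset ?_
  rintro i ⟨y, hy1, hy2⟩
  obtain ⟨x, hx1, hx2⟩ := mem_iUnion₂.1 (ht2 hy2)
  simp only [Finset.coe_biUnion, mem_iUnion, Finset.mem_coe]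
  exact ⟨x, hx1, (mem_nb P).2 ⟨y, hx2, hy1⟩⟩

/-! ### class P -/


section classP

variable {N : NAtl 2 Y} {G θ : N.ι → N.ι → Y → ℂ} {C ρ : ℝ}





end classP

end

end Crest.Agent.R275.WB658
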