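import Crest.Agent.R275.CnD_812
import Crest.Agent.R275.C1f_509
import Crest.Agent.R275.Lam2_130
import Crest.Agent.R275.C10_195
import Crest.Agent.R275.WB_658
import Crest.Agent.R275.WYb_681
import Crest.Agent.R275.C10b_195
import Crest.Agent.R275.Lam2B_130
import Crest.Agent.R275.VCalB_131
import Crest.Agent.R275.Base_144
import Crest.Agent.R275.WYd_681
import Crest.Agent.R275.C10e_195
import Crest.Agent.R275.SupG_912
import Crest.Agent.R275.KerV_631
import Crest.Agent.R275.FHom2_556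
import Crest.Agent.R275.WBHt_658

-- ▼ part R275/CnE_812
section

/-!
# R275, block D, leaf WY3 (helper812), part 1: bundles with bounded data on the cores

* `JC.db`, `JO.J`, `JO.lam2` : derivatives and Jacobians.
* `cn_pz_of_JC`, `cn_ampF_of_JO` : `C^s` norms of localised families.
* `BB P B` : transition matrices and zero-order term bounded on the cores; `bb_lam2`, `bb_tw`.
-/

set_option autoImplicit false
set_option linter.unusedSectionVars false
set_option linter.unusedVariables false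
set_option linter.unusedSimpArgs false

open MeasureTheory Filter Topology Set Complex
open scoped ContDiff Real Matrix Kronecker

namespace Crest.Agent.R275.CnD812

open Tor812 TorE812 TorF812 TorS666 Geo C1d194 C2812 JB658 C10195

noncomputable section

variable {n : ℕ} {M : Type} [TopologicalSpace M] {A : Atl n M} {P : Part A}

/-! ### derivatives -/

theorem jb_dbj {T : Type*} {z : T → Cn n} {w : T → ℝ} {f : T → Cn n → ℂ} (h : JB z w f)
    (a : Fin n) : JB z w (fun t => dbj a (f t)) := by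
  have h1 := (h.fderiv_apply (EuclideanSpace.single a (1 : ℂ)))
  have h2 := (h.fderiv_apply (EuclideanSpace.single a I))
  have h3 := (h1.add (h2.clm ((ContinuousLinearMap.mul ℝ ℂ) I))).clm
    ((ContinuousLinearMap.mul ℝ ℂ) (1 / 2))
  exact h3

theorem JC.db {w : A.ι → ℝ} {f : A.ι → M → ℂ} (h : JC P w f) (a : Fin n) :
    JC P w fun i x => A.db i a (f i) x := by
  have h1 := jb_dbj h a
  refine JB.congr h1 fun t => ?_
  filter_upwards [(A.e t.i).open_target.mem_nhds ((A.e t.i).map_source t.src)] with z hz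
  show dbj a _ _ = _
  rw [(A.e t.i).right_inv hz]

theorem jb_fderiv_tr (hT : TB P) :
    JB (fun t : T2 P => A.e t.i t.x) (fun _ => 1)
      (fun t => fderiv ℝ (fun z => A.e t.j ((A.e t.i).symm z))) := by
  have hsm : ∀ t : T2 P, ContDiffAt ℝ ∞ (fun z => A.e t.j ((A.e t.i).symm z)) (A.e t.i t.x) :=
    fun t => (trans_contDiffOn t.i t.j).contDiffAt
      ((isOpen_ov t.i t.j).mem_nhds (mem_ov ⟨t.srci, t.srcj⟩))
  refine ⟨fun t => (hsm t).fderiv_right (m := ∞) (by simp), fun k => ?_⟩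
  obtain ⟨C, hC⟩ := hT (k + 1) (by omega)
  refine ⟨max C 0, le_max_right _ _, fun t => ?_⟩
  rw [norm_iteratedFDeriv_fderiv, mul_one]
  exact (hC t).trans (le_max_left _ _)

/-- the Jacobians are bounded on the cores -/
theorem JO.J (hT : TB P) (b a : Fin n) :
    JO P (fun _ _ => 1) fun i j x => A.J i j x b a := by
  have h1 := (jb_fderiv_tr hT).clm
    (((EuclideanSpace.proj (𝕜 := ℂ) b : Cn n →L[ℂ] ℂ).restrictScalars ℝ).comp
      (ContinuousLinearMap.apply ℝ (Cn n) (EuclideanSpace.single a (1 : ℂ))))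
  refine JB.congr h1 fun t => ?_
  filter_upwards [(isOpen_ov t.i t.j).mem_nhds (mem_ov ⟨t.srci, t.srcj⟩)] with z hz
  have h2 := Lam2130.J_eq hz b a
  rw [h2]
  have h3 : DifferentiableAt ℂ (fun z => A.e t.j ((A.e t.i).symm z)) z :=
    (A.holo t.i t.j).differentiableAt ((isOpen_ov t.i t.j).mem_nhds hz)
  rw [h3.fderiv_restrictScalars ℝ]
  rfl

/-! ### `C^s` norms of localised families -/

theorem isClosed_core {K : Set M} (i : A.ι) (hK : IsCompact K) (hKs : K ⊆ (A.e i).source) :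
    IsClosed (rc '' (A.e i '' K)) :=
  ((hK.image_of_continuousOn ((A.e i).continuousOn.mono hKs)).image Geo.continuous_rc).isClosed

theorem core_symm {K : Set M} {i : A.ι} (hKs : K ⊆ (A.e i).source) {x : RI n → ℝ}
    (hx : x ∈ rc '' (A.e i '' K)) :
    cc x ∈ (A.e i).target ∧ (A.e i).symm (cc x) ∈ K := by
  obtain ⟨_, ⟨y, hy, rfl⟩, rfl⟩ := hx
  rw [cc_rc, (A.e i).left_inv (hKs hy)]
  exact ⟨(A.e i).map_source (hKs hy), hy⟩

theorem core_mem {K : Set M} {i : A.ι} {x : RI n → ℝ} (hx : cc x ∈ (A.e i).target)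
    (hx' : (A.e i).symm (cc x) ∈ K) : x ∈ rc '' (A.e i '' K) :=
  ⟨cc x, ⟨_, hx', (A.e i).right_inv hx⟩, rc_cc x⟩


variable {B : FBun A} {κ₁ κ₂ : Type} [Fintype κ₂]

theorem cn_ampF_of_JO {v : A.ι → A.ι → ℝ} (hv : ∀ i j, 0 ≤ v i j)
    {a : A.ι → M → Matrix κ₁ B.κ ℂ} {b : A.ι → M → Matrix B.κ κ₂ ℂ}
    (ha : AmpF P a) (hb : AmpF P b) (k : κ₁) (l : κ₂)
    (h : JO P v fun i j x => (a i x * B.τ i j x * b j x) k l) (s : ℕ) :
    ∃ C, 0 ≤ C ∧ ∀ i j, cn s (perz (ampF B i j (a i) (b j) k l)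
      ((isCC_ampF' B (ha.amp i) (hb.amp j) k l).mono (chg A i j).sub)) ≤ C * v i j := by
  have hsub : ∀ i j, tsupport (a i) ∩ tsupport (b j) ⊆
      tsupport (P.χ i) ∩ tsupport (P.χ j) := fun i j =>
    inter_subset_inter (ha.sub i) (hb.sub j)
  have hsrc : ∀ i j, tsupport (a i) ∩ tsupport (b j) ⊆ (A.e i).source := fun i j =>
    inter_subset_left.trans ((ha.sub i).trans (P.χ_sub i))
  have := cn_perz_of_JB (Q := A.ι × A.ι)
    (F := fun q => ampF B q.1 q.2 (a q.1) (b q.2) k l)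
    (fun q => (isCC_ampF' B (ha.amp q.1) (hb.amp q.2) k l).mono (chg A q.1 q.2).sub)
    (w := fun q => v q.1 q.2) (fun q => hv _ _)
    (K := fun q => rc '' (A.e q.1 '' (tsupport (a q.1) ∩ tsupport (b q.2))))
    (fun q => isClosed_core q.1 ((ha.amp q.1).cpt.inter_right (isClosed_tsupport _))
      (hsrc q.1 q.2)) (fun q x hx => ?_) ?_ s
  · obtain ⟨C, hC, h1⟩ := this
    exact ⟨C, hC, fun i j => h1 (i, j)⟩
  · by_cases hU : x ∈ Uij A q.1 q.2
    · rw [ampF_of_mem B _ _ k l hU]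
      have h1 : ¬ ((A.e q.1).symm (cc x) ∈ tsupport (a q.1) ∧
          (A.e q.1).symm (cc x) ∈ tsupport (b q.2)) := fun hh => hx (core_mem hU.1 hh)
      by_cases h2 : (A.e q.1).symm (cc x) ∈ tsupport (a q.1)
      · rw [amp_zero fun h3 => h1 ⟨h2, h3⟩, Matrix.mul_zero]; rfl
      · rw [amp_zero h2, Matrix.zero_mul, Matrix.zero_mul]; rfl
    · exact ampF_off B _ _ k l hU
  · set φ : {t : (A.ι × A.ι) × (RI n → ℝ) //
        t.2 ∈ rc '' (A.e t.1.1 '' (tsupport (a t.1.1) ∩ tsupport (b t.1.2)))} → T2 P :=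
      fun t => ⟨(t.1.1, (A.e t.1.1.1).symm (cc t.1.2)),
        hsub _ _ (core_symm (hsrc t.1.1.1 t.1.1.2) t.2).2⟩ with hφ
    have h1 := JB.reindex h φ
    have e1 : (fun t => A.e (φ t).i (φ t).x) =
        fun t : {t : (A.ι × A.ι) × (RI n → ℝ) //
          t.2 ∈ rc '' (A.e t.1.1 '' (tsupport (a t.1.1) ∩ tsupport (b t.1.2)))} =>
          cc t.1.2 := by
      funext t
      exact (A.e t.1.1.1).right_inv (core_symm (hsrc t.1.1.1 t.1.1.2) t.2).1
    rw [e1] at h1
    have h2 := jb_cc h1 (fun t => hv _ _)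
    refine JB.congr h2 fun t => ?_
    have hm := core_symm (hsrc t.1.1.1 t.1.1.2) t.2
    have hU : t.1.2 ∈ Uij A t.1.1.1 t.1.1.2 :=
      ⟨hm.1, P.χ_sub _ (hb.sub _ hm.2.2)⟩
    filter_upwards [(isOpen_Uij t.1.1.1 t.1.1.2).mem_nhds hU] with y hy
    exact ampF_of_mem B _ _ k l hy

/-! ### matrix products -/

theorem JO.matMul {κ κ' κ'' : Type} [Fintype κ'] {v v' : A.ι → A.ι → ℝ}
    (hv : ∀ i j, 0 ≤ v i j) (hv' : ∀ i j, 0 ≤ v' i j)
    {f : A.ι → A.ι → M → Matrix κ κ' ℂ} {g : A.ι → A.ι → M → Matrix κ' κ'' ℂ}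
    (hf : ∀ k l, JO P v fun i j x => f i j x k l) (hg : ∀ k l, JO P v' fun i j x => g i j x k l)
    (k : κ) (l : κ'') : JO P (fun i j => v i j * v' i j) fun i j x => (f i j x * g i j x) k l :=
  JO.sum Finset.univ (fun i j => mul_nonneg (hv i j) (hv' i j)) fun m _ => (hf k m).mul (hg m l)

theorem JC.matMul {κ κ' κ'' : Type} [Fintype κ'] {w w' : A.ι → ℝ}
    (hw : ∀ i, 0 ≤ w i) (hw' : ∀ i, 0 ≤ w' i)
    {f : A.ι → M → Matrix κ κ' ℂ} {g : A.ι → M → Matrix κ' κ'' ℂ}
    (hf : ∀ k l, JC P w fun i x => f i x k l) (hg : ∀ k l, JC P w' fun i x => g i x k l)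
    (k : κ) (l : κ'') : JC P (fun i => w i * w' i) fun i x => (f i x * g i x) k l :=
  JC.sum Finset.univ (fun i => mul_nonneg (hw i) (hw' i)) fun m _ => (hf k m).mul (hg m l)

theorem JC.mul1 {w : A.ι → ℝ} {f g : A.ι → M → ℂ} (h : JC P w f) (h' : JC P (fun _ => 1) g) :
    JC P w fun i x => f i x * g i x :=
  (h.mul h').mono zero_le_one fun i => by simp

theorem JC.one_mul {w : A.ι → ℝ} {f g : A.ι → M → ℂ} (h : JC P (fun _ => 1) f) (h' : JC P w g) :
    JC P w fun i x => f i x * g i x :=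
  (h.mul h').mono zero_le_one fun i => by simp

theorem JO.mul1 {v : A.ι → A.ι → ℝ} {f g : A.ι → A.ι → M → ℂ} (h : JO P v f)
    (h' : JO P (fun _ _ => 1) g) : JO P v fun i j x => f i j x * g i j x :=
  (h.mul h').mono zero_le_one fun i j => by simp

theorem JO.one_mul {v : A.ι → A.ι → ℝ} {f g : A.ι → A.ι → M → ℂ} (h : JO P (fun _ _ => 1) f)
    (h' : JO P v g) : JO P v fun i j x => f i j x * g i j x :=
  (h.mul h').mono zero_le_one fun i j => by simp

/-! ### the bounds of the blocks -/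

theorem cb_of_JO {κ₁ κ₂ : Type} [Fintype κ₁] [Fintype κ₂] {B : FBun A} {v : A.ι → A.ι → ℝ}
    (hv : ∀ i j, 0 ≤ v i j)
    {a : A.ι → M → Matrix κ₁ B.κ ℂ} {b : A.ι → M → Matrix B.κ κ₂ ℂ}
    (ha : AmpF P a) (hb : AmpF P b)
    (h : ∀ k l, JO P v fun i j x => (a i x * B.τ i j x * b j x) k l) : CB B ha hb v := by
  intro s
  choose C hC h1 using fun k l => cn_ampF_of_JO hv ha hb k l (h k l) s
  refine ⟨∑ k, ∑ l, C k l, Finset.sum_nonneg fun k _ => Finset.sum_nonneg fun l _ => hC k l,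
    fun i j k l => (h1 k l i j).trans (mul_le_mul_of_nonneg_right ?_ (hv i j))⟩
  calc C k l ≤ ∑ l, C k l := Finset.single_le_sum (f := fun l => C k l)
        (fun l _ => hC k l) (Finset.mem_univ l)
    _ ≤ ∑ k, ∑ l, C k l := Finset.single_le_sum (f := fun k => ∑ l, C k l)
        (fun k _ => Finset.sum_nonneg fun l _ => hC k l) (Finset.mem_univ k)

variable (P) in
/-- a family of matrices over the charts whose derivatives are bounded by `C * w i` -/
def AB (w : A.ι → ℝ) {κ κ' : Type} (a : A.ι → M → Matrix κ κ' ℂ) : Prop :=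
  ∀ k l, JC P w fun i x => a i x k l

variable (P) in
/-- transition matrices and zero-order term are bounded on the cores -/
structure BB (B : FBun A) : Prop where
  τ : ∀ k l, JO P (fun _ _ => 1) fun i j x => B.τ i j x k l
  α : AB P (fun _ => 1) B.α

variable (P) in
/-- bounded geometry of the atlas and the partition -/
structure PB : Prop where
  tb : TB P
  bg : BG P
  χ : JC P (fun _ => 1) P.χ
  ψ : JC P (fun _ => 1) P.ψ

theorem ub_of_AB {κ₁ κ₂ : Type} [Fintype κ₁] [Fintype κ₂] {B : FBun A} (hP : PB P)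
    (hB : BB P B) {w w' : A.ι → ℝ} (hw : ∀ i, 0 ≤ w i) (hw' : ∀ i, 0 ≤ w' i)
    {a : A.ι → M → Matrix κ₁ B.κ ℂ} {b : A.ι → M → Matrix B.κ κ₂ ℂ}
    (ha : AmpF P a) (hb : AmpF P b) (hja : AB P w a) (hjb : AB P w' b) :
    UBw B ha hb fun i j => w i * w' j := by
  refine UBw.of_cn B hP.bg (cb_of_JO (fun i j => mul_nonneg (hw i) (hw' j)) ha hb fun k l => ?_)
  have h1 : ∀ k l, JO P (fun i _ => w i) fun i j x => (a i x * B.τ i j x) k l := fun k l =>
    (JO.matMul (v := fun i _ => w i) (v' := fun _ _ => 1) (fun i _ => hw i)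
      (fun _ _ => zero_le_one) (f := fun i _ => a i) (g := B.τ) (fun k l => (hja k l).left)
      hB.τ k l).mono zero_le_one fun i j => by simp
  exact JO.matMul (v := fun i _ => w i) (v' := fun _ j => w' j) (fun i _ => hw i)
    (fun _ j => hw' j) (f := fun i j x => a i x * B.τ i j x) (g := fun _ j => b j) h1
    (fun k l => (hjb k l).right hP.tb hw') k l

theorem ub_of_AB1 {κ₁ κ₂ : Type} [Fintype κ₁] [Fintype κ₂] {B : FBun A} (hP : PB P)
    (hB : BB P B) {a : A.ι → M → Matrix κ₁ B.κ ℂ} {b : A.ι → M → Matrix B.κ κ₂ ℂ}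
    (ha : AmpF P a) (hb : AmpF P b) (hja : AB P (fun _ => 1) a) (hjb : AB P (fun _ => 1) b) :
    UB B ha hb :=
  UBw.mono B (w := fun _ _ => 1 * 1) (ub_of_AB hP hB (w := fun _ => 1) (w' := fun _ => 1)
    (fun _ => zero_le_one) (fun _ => zero_le_one) ha hb hja hjb)
    zero_le_one fun i j => by norm_num

/-! ### the standard amplitudes -/

theorem AB.congr {w : A.ι → ℝ} {κ κ' : Type} {a b : A.ι → M → Matrix κ κ' ℂ} (h : AB P w a)
    (e : ∀ i, ∀ x ∈ (A.e i).source, b i x = a i x) : AB P w b := fun k l =>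
  (h k l).congr fun i x hx => by rw [e i x hx]

theorem ab_smul_one {w : A.ι → ℝ} (hw : ∀ i, 0 ≤ w i) {f : A.ι → M → ℝ} (h : JC P w f)
    (κ : Type) [DecidableEq κ] :
    AB P w fun i x => ((f i x : ℝ) : ℂ) • (1 : Matrix κ κ ℂ) := fun k l => by
  have h1 : JC P w fun i x => ((f i x : ℝ) : ℂ) := h.clm ofRealCLM
  have h2 := h1.mul1 (JC.const (P := P) ((1 : Matrix κ κ ℂ) k l))
  exact h2

theorem ab_chi (hP : PB P) (κ : Type) [DecidableEq κ] : AB P (fun _ => 1) (P.chi κ) :=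
  ab_smul_one (fun _ => zero_le_one) hP.χ κ

theorem ab_psi (hP : PB P) (κ : Type) [DecidableEq κ] : AB P (fun _ => 1) (P.psi κ) :=
  ab_smul_one (fun _ => zero_le_one) hP.ψ κ

theorem ab_dAmp {B : FBun A} {κ' : Type} {w : A.ι → ℝ} (hw : ∀ i, 0 ≤ w i)
    {a : A.ι → M → Matrix B.κ κ' ℂ} (h : AB P w a) : AB P w fun j => dAmp B j (a j) := by
  have h1 : AB P w fun j x => ∑ b, B.e b * Matrix.of
      (fun k l => A.db j b (fun y => a j y k l) x) := by
    intro k l
    have h2 : JC P w fun j x => ∑ b, ∑ m, B.e b k m * A.db j b (fun y => a j y m l) x :=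
      JC.sum _ hw fun b _ => JC.sum _ hw fun m _ => ((h m l).db b).const_mul _
    refine h2.congr fun i x _ => ?_
    show (∑ b, B.e b * Matrix.of (fun k l => A.db i b (fun y => a i y k l) x)) k l = _
    rw [Matrix.sum_apply]
    rfl
  exact h1.congr fun i x hx => dAmp_eq B hx

theorem AB.add {w : A.ι → ℝ} {κ κ' : Type} {a b : A.ι → M → Matrix κ κ' ℂ} (h : AB P w a)
    (h' : AB P w b) : AB P w fun i x => a i x + b i x := fun k l => (h k l).add (h' k l)

theorem AB.sub {w : A.ι → ℝ} {κ κ' : Type} {a b : A.ι → M → Matrix κ κ' ℂ} (h : AB P w a)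
    (h' : AB P w b) : AB P w fun i x => a i x - b i x := fun k l => (h k l).sub (h' k l)

theorem AB.mul1 {w : A.ι → ℝ} (hw : ∀ i, 0 ≤ w i) {κ κ' κ'' : Type} [Fintype κ']
    {a : A.ι → M → Matrix κ κ' ℂ} {b : A.ι → M → Matrix κ' κ'' ℂ} (h : AB P w a)
    (h' : AB P (fun _ => 1) b) : AB P w fun i x => a i x * b i x := fun k l =>
  (JC.matMul hw (fun _ => zero_le_one) h h' k l).mono zero_le_one fun i => by simp

theorem AB.one_mul {w : A.ι → ℝ} (hw : ∀ i, 0 ≤ w i) {κ κ' κ'' : Type} [Fintype κ']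
    {a : A.ι → M → Matrix κ κ' ℂ} {b : A.ι → M → Matrix κ' κ'' ℂ} (h : AB P (fun _ => 1) a)
    (h' : AB P w b) : AB P w fun i x => a i x * b i x := fun k l =>
  (JC.matMul (fun _ => zero_le_one) hw h h' k l).mono zero_le_one fun i => by simp

theorem ab_dchi (hP : PB P) {B : FBun A} (hB : BB P B) : AB P (fun _ => 1) (dchi B P) :=
  AB.add (ab_dAmp (fun _ => zero_le_one) (ab_chi hP B.κ))
    (AB.mul1 (fun _ => zero_le_one) hB.α (ab_chi hP B.κ))

theorem ab_dpsi (hP : PB P) {B : FBun A} (hB : BB P B) : AB P (fun _ => 1) (dpsi B P) :=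
  AB.sub (ab_dAmp (fun _ => zero_le_one) (ab_psi hP B.κ))
    (AB.mul1 (fun _ => zero_le_one) (ab_psi hP B.κ) hB.α)

theorem ub_psi_chi (hP : PB P) {B : FBun A} (hB : BB P B) :
    UB B (P.amp_psi B.κ) (P.amp_chi B.κ) :=
  ub_of_AB1 hP hB _ _ (ab_psi hP B.κ) (ab_chi hP B.κ)

theorem ub_dpsi_chi (hP : PB P) {B : FBun A} (hB : BB P B) :
    UB B (amp_dpsi B P) (P.amp_chi B.κ) :=
  ub_of_AB1 hP hB _ _ (ab_dpsi hP hB) (ab_chi hP B.κ)

theorem ub_psi_dchi (hP : PB P) {B : FBun A} (hB : BB P B) :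
    UB B (P.amp_psi B.κ) (amp_dchi B P) :=
  ub_of_AB1 hP hB _ _ (ab_psi hP B.κ) (ab_dchi hP hB)

/-! ### twisting -/

/-- a bundle with connection, all data bounded on the cores -/
structure VB (P : Part A) (E : VBun A) : Prop where
  g : ∀ k l, JO P (fun _ _ => 1) fun i j x => E.g i j x k l
  a : ∀ b, AB P (fun _ => 1) fun i => E.a i b

theorem bb_tw {B : FBun A} {E : VBun A} (hB : BB P B) (hE : VB P E) : BB P (tw B E) where
  τ := by
    rintro ⟨k, r⟩ ⟨l, t⟩
    exact ((hB.τ k l).mul (hE.g r t)).mono zero_le_one fun i j => by simp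
  α := by
    rintro ⟨k, r⟩ ⟨l, t⟩
    have h1 : JC P (fun _ => 1) fun i x => B.α i x k l * (1 : Matrix E.ρ E.ρ ℂ) r t :=
      (hB.α k l).mul1 (JC.const _)
    have h2 : JC P (fun _ => 1) fun i x => ∑ a, B.e a k l * E.a i a x r t :=
      JC.sum _ (fun _ => zero_le_one) fun a _ => (hE.a a r t).const_mul _
    refine (h1.add h2).congr fun i x _ => ?_
    show (B.α i x ⊗ₖ (1 : Matrix E.ρ E.ρ ℂ) + ∑ a, B.e a ⊗ₖ E.a i a x) (k, r) (l, t) = _
    rw [Matrix.add_apply, Matrix.sum_apply]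
    rfl

end

/-! ### `Λ^{0,*}` in dimension two -/

section Lam2

open Lam2130

variable {M : Type} [TopologicalSpace M] {A : Atl 2 M} {P : Part A}

theorem bb_lam2 (hT : TB P) : BB P (lam2 A) where
  τ := by
    have hJ : ∀ b a, JO P (fun _ _ => 1) fun i j x => (starRingEnd ℂ) (A.J i j x b a) :=
      fun b a => (JO.J hT b a).conj
    intro k l
    show JO P (fun _ _ => 1) fun i j x => tauM (Jm A i j x) k l
    fin_cases k <;> fin_cases l <;>
      first
      | (refine (JO.const (P := P) (0 : ℂ)).congr fun i j x _ => ?_; simp [tauM]; done)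
      | (refine (JO.const (P := P) (1 : ℂ)).congr fun i j x _ => ?_; simp [tauM]; done)
      | (refine (hJ 0 0).congr fun i j x _ => ?_; simp [tauM, Jm]; done)
      | (refine (hJ 1 0).congr fun i j x _ => ?_; simp [tauM, Jm]; done)
      | (refine (hJ 0 1).congr fun i j x _ => ?_; simp [tauM, Jm]; done)
      | (refine (hJ 1 1).congr fun i j x _ => ?_; simp [tauM, Jm]; done)
      | (refine ((((hJ 0 0).mul (hJ 1 1)).sub ((hJ 0 1).mul (hJ 1 0))).mono zero_le_one
          fun i j => by simp).congr fun i j x _ => ?_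
         simp [tauM, Jm, Matrix.det_fin_two])
  α k l := (JC.const (P := P) (0 : ℂ)).congr fun i x _ => by
    show (0 : Matrix (Fin 4) (Fin 4) ℂ) k l = 0
    rfl

end Lam2

end Crest.Agent.R275.CnD812
end

-- ▼ part R275/WY3A_812
section

/-!
# R275, block D, leaf WY3 (helper812), part 2: bounded geometry

* `JO.of_homog`, `JC.of_homog`, `TB.of_homog`, `PB.of_homog` : invariant data over an atlas with
  finitely many orbits of charts (`Homog` of helper195) are bounded on the cores.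
* `bgeo_of_BB` : `PB P`, `BB P B` ⟹ `BGeo P B` (helper681).
* `bgeo_tw_lam2` : `BGeo P (tw (lam2 A) E)` for every `E` with data bounded on the cores.
* `jc_of_wb`, `jo_of_wb`, `tb_of_trB` : from helper658's `WB`, `TrB`.
-/

set_option autoImplicit false
set_option linter.unusedSectionVars false
set_option linter.unusedVariables false
set_option linter.unusedSimpArgs false

open Filter Topology Set Complex
open scoped ContDiff Real Matrix Kronecker

namespace Crest.Agent.R275.CnD812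

open Tor812 TorE812 TorF812 TorS666 Geo C1d194 C2812 JB658 C10195

noncomputable section

variable {n : ℕ} {M : Type} [TopologicalSpace M] {A : Atl n M} {P : Part A}

/-! ### homogeneous data -/

section Homog

variable {W : Type*} [NormedAddCommGroup W] [NormedSpace ℝ W]

theorem bdd_D_of_compact {E : Type*} [NormedAddCommGroup E] [NormedSpace ℝ E] {U K : Set E}
    (hU : IsOpen U) (hK : IsCompact K) (hKU : K ⊆ U) {f : E → W} (hf : ContDiffOn ℝ ∞ f U)
    (k : ℕ) : ∃ C : ℝ, 0 ≤ C ∧ ∀ z ∈ K, ‖iteratedFDeriv ℝ k f z‖ ≤ C := by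
  have h1 : ContinuousOn (iteratedFDerivWithin ℝ k f U) U :=
    hf.continuousOn_iteratedFDerivWithin (by exact_mod_cast le_top) hU.uniqueDiffOn
  have h2 : ContinuousOn (fun z => ‖iteratedFDeriv ℝ k f z‖) K := by
    refine ContinuousOn.norm (((h1.mono hKU).congr fun z hz => ?_))
    exact (iteratedFDerivWithin_of_isOpen k hU (hKU hz)).symm
  obtain ⟨C, hC⟩ := hK.bddAbove_image h2
  refine ⟨max C 0, le_max_right _ _, fun z hz => (hC ⟨z, hz, rfl⟩).trans (le_max_left _ _)⟩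

theorem JO.of_homog {G : Set (Auto A)} (h : Homog P G) {f : A.ι → A.ι → M → W}
    (hsm : ∀ i j, ContDiffOn ℝ ∞ (fun z => f i j ((A.e i).symm z)) (A.ov i j))
    (hinv : ∀ φ ∈ G, ∀ i j, ∀ x ∈ (A.e i).source ∩ (A.e j).source,
      f (φ.r i) (φ.r j) (φ.p x) = f i j x) : JO P (fun _ _ => 1) f := by
  classical
  refine ⟨fun t => (hsm t.i t.j).contDiffAt
    ((isOpen_ov t.i t.j).mem_nhds (mem_ov ⟨t.srci, t.srcj⟩)), fun k => ?_⟩
  have hb : ∀ i j, ∃ C : ℝ, 0 ≤ C ∧ ∀ z ∈ A.e i '' (tsupport (P.χ i) ∩ tsupport (P.χ j)),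
      ‖iteratedFDeriv ℝ k (fun z => f i j ((A.e i).symm z)) z‖ ≤ C := by
    intro i j
    refine bdd_D_of_compact (isOpen_ov i j) ?_ ?_ (hsm i j) k
    · exact ((P.χ_cpt i).inter_right (isClosed_tsupport _)).image_of_continuousOn
        ((A.e i).continuousOn.mono (inter_subset_left.trans (P.χ_sub i)))
    · rintro _ ⟨x, hx, rfl⟩
      exact mem_ov ⟨P.χ_sub _ hx.1, P.χ_sub _ hx.2⟩
  choose C hC hCb using hb
  obtain ⟨F, hF⟩ := h.orb
  have hs0 : ∀ i, 0 ≤ ∑ j ∈ nbr P i, C i j := fun i => Finset.sum_nonneg fun j _ => hC i j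
  refine ⟨∑ i ∈ F, ∑ j ∈ nbr P i, C i j, Finset.sum_nonneg fun i _ => hs0 i, fun t => ?_⟩
  rw [mul_one]
  obtain ⟨φ, hφ, hiF⟩ := hF t.i ⟨_, t.memi⟩
  have hInv := h.inv φ hφ
  have e1 : (fun z => f t.i t.j ((A.e t.i).symm z)) =ᶠ[𝓝 (A.e t.i t.x)]
      fun z => f (φ.r t.i) (φ.r t.j) ((A.e (φ.r t.i)).symm z) := by
    filter_upwards [(isOpen_ov t.i t.j).mem_nhds (mem_ov ⟨t.srci, t.srcj⟩)] with z hz
    rw [φ.symm_app hz.1, hinv φ hφ _ _ _ ⟨(A.e t.i).map_target hz.1, hz.2⟩]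
  rw [(e1.iteratedFDeriv ℝ k).eq_of_nhds]
  have hm : A.e t.i t.x ∈ A.e (φ.r t.i) ''
      (tsupport (P.χ (φ.r t.i)) ∩ tsupport (P.χ (φ.r t.j))) :=
    ⟨φ.p t.x, ⟨(hInv.tsupp_χ _ _).2 t.memi, (hInv.tsupp_χ _ _).2 t.memj⟩,
      φ.app _ _ t.srci⟩
  refine (hCb _ _ _ hm).trans ?_
  have hj : φ.r t.j ∈ nbr P (φ.r t.i) := (hInv.mem_nbr _ _).2 (mem_nbr_of t.memi t.memj)
  exact (Finset.single_le_sum (f := fun j => C (φ.r t.i) j) (fun _ _ => hC _ _) hj).trans
    (Finset.single_le_sum (f := fun i => ∑ j ∈ nbr P i, C i j) (fun i _ => hs0 i) hiF)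

theorem JC.of_homog {G : Set (Auto A)} (h : Homog P G) {f : A.ι → M → W}
    (hsm : ∀ i, A.SmAt i (f i))
    (hinv : ∀ φ ∈ G, ∀ i, ∀ x ∈ (A.e i).source, f (φ.r i) (φ.p x) = f i x) :
    JC P (fun _ => 1) f := by
  have h1 : JO P (fun _ _ => 1) fun i _ => f i :=
    JO.of_homog h (fun i j => (hsm i).mono fun z hz => hz.1)
      fun φ hφ i j x hx => hinv φ hφ i x hx.1
  exact JB.reindex h1 fun t : T1 P => (⟨((t.i, t.i), t.x), ⟨t.mem, t.mem⟩⟩ : T2 P)

theorem TB.of_homog {G : Set (Auto A)} (h : Homog P G) : TB P := by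
  have h1 : JO P (fun _ _ => 1) fun _ j => (A.e j : M → Cn n) :=
    JO.of_homog h (fun i j => trans_contDiffOn i j) fun φ hφ i j x hx => φ.app j x hx.2
  intro k _
  obtain ⟨C, hC, hb⟩ := h1.bd k
  refine ⟨C, fun t => ?_⟩
  have := hb t
  rwa [mul_one] at this

/-- **bounded geometry of homogeneous partitions** -/
theorem PB.of_homog {G : Set (Auto A)} (h : Homog P G) : PB P where
  tb := TB.of_homog h
  bg := h.bg
  χ := JC.of_homog h (fun i => P.χ_sm i i) fun φ hφ i x _ => (h.inv φ hφ).χ i x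
  ψ := JC.of_homog h (fun i => P.ψ_sm i i) fun φ hφ i x _ => (h.inv φ hφ).ψ i x


/-- invariant bundles are bounded -/
theorem BB.of_homog {G : Set (Auto A)} (h : Homog P G) {B : FBun A} (hB : ∀ φ ∈ G, InvB B φ) :
    BB P B where
  τ k l := JO.of_homog h (fun i j => B.τ_smooth i j k l)
    fun φ hφ i j x hx => by rw [(hB φ hφ).τ i j x hx]
  α k l := JC.of_homog h (fun i => B.α_smooth i k l)
    fun φ hφ i x hx => by rw [(hB φ hφ).α i x hx]


end Homog

/-! ### `BGeo` -/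

open WY681

theorem nb_eq (P : Part A) (i : A.ι) : RetC666.nb P i = nbr P i := by
  ext j
  rw [RetC666.mem_nb, C10195.mem_nbr, inter_comm]

theorem exists_card_nb (h : BN P) : ∃ D, ∀ i, (RetC666.nb P i).card ≤ D := by
  obtain ⟨D, hD⟩ := h
  exact ⟨D, fun i => by rw [nb_eq]; exact hD i⟩

/-- **bounded geometry of bundles with bounded data** -/
theorem bgeo_of_BB (hP : PB P) (hN : BN P) {B : FBun A} (hB : BB P B) (hd : ∀ k, B.deg k ≤ n) :
    BGeo P B where
  card := exists_card_nb hN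
  deg_le := hd
  pc := UB.of_C10 (ub_psi_chi hP hB)
  dpc := UB.of_C10 (ub_dpsi_chi hP hB)
  pdc := UB.of_C10 (ub_psi_dchi hP hB)

theorem bgeo_tw (hP : PB P) (hN : BN P) {B : FBun A} (hB : BB P B) (hd : ∀ k, B.deg k ≤ n)
    {E : VBun A} (hE : VB P E) : BGeo P (tw B E) :=
  bgeo_of_BB hP hN (bb_tw hB hE) fun k => hd k.1

end

section Lam2

open Lam2130 WY681

variable {M : Type} [TopologicalSpace M] {A : Atl 2 M} {P : Part A}

theorem deg_lam2_le (k : (lam2 A).κ) : (lam2 A).deg k ≤ 2 := by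
  show dg k ≤ 2
  revert k
  intro k
  fin_cases k <;> simp [dg]


/-- **bounded geometry of `Λ^{0,*} ⊗ E`** -/
theorem bgeo_tw_lam2 (hP : PB P) (hN : BN P) {E : VBun A} (hE : VB P E) :
    BGeo P (tw (lam2 A) E) :=
  bgeo_tw hP hN (bb_lam2 hP.tb) deg_lam2_le hE

end Lam2

end Crest.Agent.R275.CnD812
end

-- ▼ part R275/WY3B_812
section

/-!
# R275, block D, leaf WY3 (helper812), part 3: bounded bundles

* `jc_of_wb`, `jo_of_wb`, `tb_of_trB` : helper658's `WB`, `TrB` give `JC`, `JO`, `TB`.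
* `JO.swap` : `f j i` read in the chart `i`.
* `VB` of trivial bundles, sums, tensor products, duals, `Ω¹`, `K^m`, raw line bundle cocycles.
-/

set_option autoImplicit false
set_option linter.unusedSectionVars false
set_option linter.unusedVariables false
set_option linter.unusedSimpArgs false

open Filter Topology Set Complex
open scoped ContDiff Real Matrix Kronecker

namespace Crest.Agent.R275.CnD812

open Tor812 TorE812 TorF812 TorS666 Geo C1d194 C2812 JB658 C10195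

noncomputable section

variable {n : ℕ} {M : Type} [TopologicalSpace M] {A : Atl n M} {P : Part A}

/-! ### from `WB` -/

section WB

open WB658

variable {W : Type*} [NormedAddCommGroup W] [NormedSpace ℝ W] {w : M → ℝ}


theorem jo_of_wb {O : A.ι × A.ι → Set M} {f : A.ι → A.ι → M → W}
    (h : WB A (fun p : A.ι × A.ι => p.1) O w fun p => f p.1 p.2)
    (hO : ∀ i j, tsupport (P.χ i) ∩ tsupport (P.χ j) ⊆ O (i, j)) {c : A.ι → A.ι → ℝ} {C : ℝ}
    (hC : 0 ≤ C) (hw : ∀ i j, ∀ x ∈ tsupport (P.χ i) ∩ tsupport (P.χ j), w x ≤ C * c i j) :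
    JO P c f :=
  JB.mono (JB.reindex h fun t : T2 P =>
    (⟨((t.i, t.j), t.x), hO _ _ ⟨t.memi, t.memj⟩⟩ :
      {p : (A.ι × A.ι) × M // p.2 ∈ O p.1})) hC fun t => hw _ _ _ ⟨t.memi, t.memj⟩


end WB

/-! ### exchange of the two charts -/

section swap

variable {W : Type*} [NormedAddCommGroup W] [NormedSpace ℝ W]

def T2.sw (t : T2 P) : T2 P := ⟨((t.j, t.i), t.x), ⟨t.memj, t.memi⟩⟩

theorem JO.swap (hT : TB P) {v : A.ι → A.ι → ℝ} (hv : ∀ i j, 0 ≤ v i j)
    {f : A.ι → A.ι → M → W} (h : JO P v f) : JO P (fun i j => v j i) fun i j => f j i := by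
  have h1 := JB.reindex h T2.sw
  have h2 : JB (fun t : T2 P => A.e t.i t.x) (fun t => v t.j t.i)
      (fun t z => f t.j t.i ((A.e t.j).symm (A.e t.j ((A.e t.i).symm z)))) := by
    refine JB.comp (f := fun (t : T2 P) y => f t.j t.i ((A.e t.j).symm y))
      (φ := fun t z => A.e t.j ((A.e t.i).symm z)) ?_ (fun t => hv _ _) (fun t => ?_) hT
    · have e1 : (fun t : T2 P => A.e t.j ((A.e t.i).symm (A.e t.i t.x))) =
          fun t : T2 P => A.e t.j t.x := by
        funext t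
        rw [(A.e t.i).left_inv t.srci]
      rw [e1]
      exact h1
    · exact ((trans_contDiffOn t.i t.j).contDiffAt
        ((isOpen_ov t.i t.j).mem_nhds (mem_ov ⟨t.srci, t.srcj⟩)))
  refine JB.congr h2 fun t => ?_
  filter_upwards [(isOpen_ov t.i t.j).mem_nhds (mem_ov ⟨t.srci, t.srcj⟩)] with z hz
  show f t.j t.i ((A.e t.i).symm z) = _
  rw [(A.e t.j).left_inv hz.2]


theorem JO.pow {f : A.ι → A.ι → M → ℂ} (h : JO P (fun _ _ => 1) f) (m : ℕ) :
    JO P (fun _ _ => 1) fun i j x => f i j x ^ m := by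
  induction m with
  | zero => simpa only [pow_zero] using JO.const (P := P) (1 : ℂ)
  | succ m ih => simpa only [pow_succ] using ih.mul1 h

theorem JO.prod {J : Type*} (s : Finset J) {f : J → A.ι → A.ι → M → ℂ}
    (h : ∀ k ∈ s, JO P (fun _ _ => 1) (f k)) :
    JO P (fun _ _ => 1) fun i j x => ∏ k ∈ s, f k i j x := by
  classical
  induction s using Finset.induction_on with
  | empty => simpa only [Finset.prod_empty] using JO.const (P := P) (1 : ℂ)
  | insert a s ha ih =>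
    simpa only [Finset.prod_insert ha] using
      (h a (Finset.mem_insert_self _ _)).mul1 (ih fun k hk => h k (Finset.mem_insert_of_mem hk))


end swap

/-! ### more blocks -/

theorem ub_chi_chi (hP : PB P) {B : FBun A} (hB : BB P B) :
    UB B (P.amp_chi B.κ) (P.amp_chi B.κ) :=
  ub_of_AB1 hP hB _ _ (ab_chi hP B.κ) (ab_chi hP B.κ)





/-! ### bundles -/

theorem vb_of_holo {ρ : Type} [Fintype ρ] [DecidableEq ρ] {g : A.ι → A.ι → M → Matrix ρ ρ ℂ}
    {h1 h2 h3} (hg : ∀ k l, JO P (fun _ _ => 1) fun i j x => g i j x k l) :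
    VB P (Lam2130.ofHolo ρ g h1 h2 h3) where
  g := hg
  a b k l := (JC.const (P := P) (0 : ℂ)).congr fun i x _ => rfl





theorem VB.sum {E F : VBun A} (h : VB P E) (h' : VB P F) : VB P (VCal131.sum E F) where
  g := by
    rintro (k | k) (l | l)
    · exact h.g k l
    · exact JO.const (P := P) (0 : ℂ)
    · exact JO.const (P := P) (0 : ℂ)
    · exact h'.g k l
  a := by
    rintro b (k | k) (l | l)
    · exact h.a b k l
    · exact JC.const (P := P) (0 : ℂ)
    · exact JC.const (P := P) (0 : ℂ)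
    · exact h'.a b k l


end

/-! ### raw line bundle cocycles on surfaces -/

section Line

open Fm96 Lam2130

variable {M : Type} [TopologicalSpace M] {A : Atl 2 M} {P : Part A} {g : A.ι → A.ι → M → ℂ}

theorem vb_LV (hg : IsLC A g) (h : JO P (fun _ _ => 1) g) : VB P (LV hg) :=
  vb_of_holo fun _ _ => h



end Line

end Crest.Agent.R275.CnD812
end

-- ▼ part R275/YBG_812

/-!
# R275, block D (helper812): bounded geometry on `YBase`

* `BG B`      : the uniformly bounded cocycles, a subgroup (`BS B`), contains class `P` and `KB`.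
* `jo`        : Cauchy: they are bounded with all derivatives on the cores.
* `bgeo`      : `L ∈ BG B → BGeo B.P (BL L)`.
* `hd B`, `nbd B`, `hts B`, `wfY B L hL`, `cxY B L hL`.
* `exists_UB`, `exists_Core1` : the data of `SupC_912`, `SupE_912`.
-/

set_option autoImplicit false
set_option linter.unusedSectionVars false
set_option linter.unusedVariables false

open Set Filter Topology Complex Metric
open scoped Manifold ContDiff Kronecker

namespace Crest.Agent.R275.YBG812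

open Geo NAtl938 Core144 WB658 Fm96 Base144 C10195 KerV631 WY681 CnD812 Tor812 C1d194 C2812
open Lam2130 LauB681 Fred685 Crest.AlgGeometry.Surface

noncomputable section

variable {Y : Type} [TopologicalSpace Y] [ChartedSpace C2 Y] (B : YBase Y)

/-! ### homogeneity -/

/-- the generator of the deck group as an automorphism of the small atlas -/
abbrev phi : Auto B.N.sm := perA B.Q le_rfl

theorem invP : InvP B.P (phi B) := ⟨B.Pt.χ_eq, B.Pt.ψ_eq⟩

theorem homog : Homog B.P (phi B).pows := homog_per B.Q le_rfl (invP B)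

theorem bn : BN B.P := (homog B).bn

theorem pb : PB B.P := PB.of_homog (homog B)

theorem tb : TB B.P := (pb B).tb

/-! ### bounded cocycles -/

/-- the group of the uniformly bounded cocycles -/
def BS : Subgroup (LB B.N.sm) where
  carrier := {L | ∃ D : ℝ, ∀ i j x, ‖L.g i j x‖ ≤ D}
  one_mem' := ⟨1, fun i j x => by simp⟩
  mul_mem' := by
    rintro L L' ⟨D, hD⟩ ⟨D', hD'⟩
    refine ⟨D * D', fun i j x => ?_⟩
    rw [LB.mul_g, norm_mul]
    exact mul_le_mul (hD i j x) (hD' i j x) (norm_nonneg _) ((norm_nonneg _).trans (hD i j x))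
  inv_mem' := by
    rintro L ⟨D, hD⟩
    exact ⟨D, fun i j x => by rw [LB.inv_g, LB.inv_eq]; exact hD j i x⟩

/-- bundles of bounded geometry: the uniformly bounded cocycles -/
def BG : Set (LB B.N.sm) := (BS B : Set (LB B.N.sm))

variable {B} {L L' : LB B.N.sm}



theorem one_mem_BG : (1 : LB B.N.sm) ∈ BG B := (BS B).one_mem

theorem mul_mem_BG (h : L ∈ BG B) (h' : L' ∈ BG B) : L * L' ∈ BG B := (BS B).mul_mem h h'

theorem inv_mem_BG (h : L ∈ BG B) : L⁻¹ ∈ BG B := (BS B).inv_mem h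

theorem exists_bd (h : L ∈ BG B) : ∃ D : ℝ, 0 ≤ D ∧ ∀ i j x, ‖L.g i j x‖ ≤ D := by
  obtain ⟨D, hD⟩ := h
  exact ⟨max D 0, le_max_right _ _, fun i j x => (hD i j x).trans (le_max_left _ _)⟩

/-- class `P` is bounded -/
theorem mem_BG_of_InP (h : InP B.h L) : L ∈ BG B := by
  obtain ⟨ρ, _, C, _, _, hb⟩ := h.bound
  exact ⟨1 + C, hb⟩

theorem mem_BG_of_PG (h : L ∈ PG B.N.sm B.h) : L ∈ BG B := mem_BG_of_InP h


/-- the canonical bundle is bounded -/
theorem KB_mem_BG [T2Space Y] : KB B.N.sm ∈ BG B := by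
  have hR : B.N.r < B.N.R := by have := B.N.r_pos; have := B.N.r_lt; linarith
  obtain ⟨C, hC, h1⟩ := Sup912.exists_J_bd (hρ := le_rfl) B.Q hR
  refine ⟨max 1 (2 * C ^ 2), fun i j x => ?_⟩
  by_cases hx : x ∈ (B.N.sm.e i).source ∩ (B.N.sm.e j).source
  · rw [KB_g hx]
    have hx' : x ∈ B.N.B B.N.r i ∩ B.N.B B.N.r j :=
      ⟨(Set.ext_iff.1 (B.N.at'_source le_rfl i) x).1 hx.1,
        (Set.ext_iff.1 (B.N.at'_source le_rfl j) x).1 hx.2⟩
    have h2 := h1 i j x hx'
    rw [Matrix.det_fin_two]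
    refine le_trans ((norm_sub_le _ _).trans ?_) (le_max_right _ _)
    rw [norm_mul, norm_mul]
    have h3 : ‖Core144.Jm B.N.sm i j x 0 0‖ * ‖Core144.Jm B.N.sm i j x 1 1‖ ≤ C * C :=
      mul_le_mul (h2 _ _) (h2 _ _) (norm_nonneg _) hC
    have h4 : ‖Core144.Jm B.N.sm i j x 0 1‖ * ‖Core144.Jm B.N.sm i j x 1 0‖ ≤ C * C :=
      mul_le_mul (h2 _ _) (h2 _ _) (norm_nonneg _) hC
    nlinarith
  · rw [(KB B.N.sm).off i j x hx, norm_one]
    exact le_max_left _ _


theorem KB_mul_inv_mem_BG [T2Space Y] (h : L ∈ PG B.N.sm B.h) : KB B.N.sm * L⁻¹ ∈ BG B :=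
  mul_mem_BG KB_mem_BG (inv_mem_BG (mem_BG_of_PG h))

/-! ### Cauchy estimates -/

theorem holP_big (L : LB B.N.sm) {i j : B.N.ι} {x : Y} (hx : x ∈ B.N.B B.N.r i ∩ B.N.B B.N.r j) :
    HolP B.N.big i (L.g i j) x := by
  have h1 : x ∈ (B.N.sm.e i).source := by rw [B.N.at'_source]; exact hx.1
  have h2 : x ∈ (B.N.sm.e j).source := by rw [B.N.at'_source]; exact hx.2
  have h3 : HolP B.N.sm i (L.g i j) x := holP_of_holAt (L.hol i j) (B.N.sm.e j).open_source h1 h2
  exact h3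

/-- all derivatives of a bounded cocycle are bounded on the overlaps of smaller balls -/
theorem wb_g [T2Space Y] (h : L ∈ BG B) {ρ : ℝ} (hρ : ρ < B.N.r) :
    WB B.N.big (σ := B.N.ι × B.N.ι) (fun p => p.1) (fun p => B.N.B ρ p.1 ∩ B.N.B ρ p.2)
      (fun _ => 1) (fun p => L.g p.1 p.2) := by
  obtain ⟨D, hD⟩ := h
  exact cau B.Q (w := fun _ => 1) slow_one (fun _ => zero_le_one) hρ B.N.r_le_R
    (fun i j x hx => holP_big L hx) (C := D) (fun i j x hx => by rw [mul_one]; exact hD i j x)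

/-- a bounded cocycle and all its derivatives are bounded on the cores -/
theorem jo [T2Space Y] (h : L ∈ BG B) : JO B.P (fun _ _ => 1) L.g := by
  have h1 : WB B.N.sm (σ := B.N.ι × B.N.ι) (fun p => p.1)
      (fun p => B.N.B B.Pt.ρ p.1 ∩ B.N.B B.Pt.ρ p.2) (fun _ => 1) (fun p => L.g p.1 p.2) :=
    wb_g h B.Pt.ρ_lt
  exact jo_of_wb h1 (fun i j x hx => ⟨B.Pt.core_sub i hx.1, B.Pt.core_sub j hx.2⟩) zero_le_one
    fun i j x _ => by rw [one_mul]

theorem vb [T2Space Y] (h : L ∈ BG B) : VB B.P (LV (KerV631.isLC L)) := vb_LV (KerV631.isLC L) (jo h)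

/-- the Dolbeault bundle of a bounded cocycle has bounded data -/
theorem bb [T2Space Y] (h : L ∈ BG B) : BB B.P (BL L) := bb_tw (bb_lam2 (tb B)) (vb h)

/-- **bounded geometry** -/
theorem bgeo [T2Space Y] (h : L ∈ BG B) : BGeo B.P (BL L) :=
  bgeo_tw_lam2 (pb B) (bn B) (vb h)


theorem bgeo_one [T2Space Y] : BGeo B.P (BL (1 : LB B.N.sm)) := bgeo one_mem_BG

theorem bgeo_KB [T2Space Y] : BGeo B.P (BL (KB B.N.sm)) := bgeo KB_mem_BG


/-! ### heights, the family of weighted spaces -/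

variable (B)

theorem psi_le (j : B.N.ι) (x : Y) : |B.P.ψ j x| ≤ 1 := by
  rw [abs_of_nonneg (B.psi_nonneg j x)]
  have hfin : (Function.support fun i => B.P.ψ i x).Finite := by
    refine (B.P.lf {x} isCompact_singleton).subset fun i hi => ?_
    refine ⟨x, ?_, rfl⟩
    exact B.Pt.tsupport_psi_sub i (subset_tsupport _ hi)
  have h1 : B.P.ψ j x ≤ ∑ᶠ i, B.P.ψ i x :=
    single_le_finsum j hfin fun i => B.psi_nonneg i x
  have h2 : ∑ᶠ i, B.P.ψ i x = 1 := B.P.sum_one x
  rw [← h2]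
  exact h1

/-- height data of helper912 -/
def hd : Sup912.HD B.P B.h := Sup912.HD.ofPer B.Q B.P zero_le_one (psi_le B)

@[simp] theorem hd_ht : (hd B).ht = Sup912.hc B.N B.h := rfl
@[simp] theorem hd_R : (hd B).R = B.Q.W := rfl

theorem card_nb : ∃ D, ∀ i, (RetC666.nb B.P i).card ≤ D := (bn B).card_nb

/-- neighbours -/
def nbd : PNb B.P := PNb.of_card B.P (card_nb B)

/-- heights of helper681 -/
def hts : Hts (nbd B) := Hts.of_HD (hd B) (card_nb B)

@[simp] theorem hts_ht : (hts B).ht = Sup912.hc B.N B.h := rfl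


variable (L)

theorem tw_alpha_zero {n : ℕ} {M : Type} [TopologicalSpace M] {A : Atl n M} {F : FBun A}
    (h : ∀ i x, F.α i x = 0) {E : VBun A} (ha : ∀ i a x, E.a i a x = 0) (i : A.ι) (x : M) :
    (tw F E).α i x = 0 := by
  show F.α i x ⊗ₖ (1 : Matrix E.ρ E.ρ ℂ) + ∑ a, F.e a ⊗ₖ E.a i a x = 0
  rw [h i x, Matrix.zero_kronecker, zero_add]
  refine Finset.sum_eq_zero fun a _ => ?_
  rw [ha i a x, Matrix.kronecker_zero]

theorem alpha_zero (i : B.N.sm.ι) (x : Y) : (BL L).α i x = 0 :=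
  tw_alpha_zero (fun _ _ => rfl) (fun _ _ _ => rfl) i x

theorem nabL_nabL (u : Sec (BL L)) : nabL (BL L) (nabL (BL L) u) = 0 :=
  LinearMap.congr_fun (FHom556.flat_of_alpha_zero fun i x _ => alpha_zero B L i x).nabL_comp u

variable {B} {L}

/-- the weighted spaces of the Dolbeault complex of `L` -/
def wfY (B : YBase Y) (L : LB B.N.sm) (hL : BGeo B.P (BL L)) : WF ℂ (Sec (BL L)) := wf hL (hts B)

/-- the Dolbeault complex of `L` on the weighted spaces -/
def cxY (B : YBase Y) (L : LB B.N.sm) (hL : BGeo B.P (BL L)) : Cx (wfY B L hL) :=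
  cx hL (hts B) (nabL_nabL B L)

@[simp] theorem cxY_D (hL : BGeo B.P (BL L)) : (cxY B L hL).D = nabL (BL L) := rfl




/-! ### the data of helper912 -/

variable (B)


variable {B}

/-- the sup bounds of helper912 -/
theorem exists_UB [T2Space Y] (h : L ∈ BG B) :
    ∃ U : Sup912.UB B.P (BL L), U.nb = Sup912.nbi B.P := by
  obtain ⟨D, hD, hb⟩ := exists_bd h
  exact Sup912.exists_UB_per_LB B.Q (by have := B.N.r_pos; have := B.N.r_lt; linarith) B.P hD
    (fun i j x _ => hb i j x) (bgeo h)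

/-- the sup bounds, with neighbouring heights -/
theorem exists_UB_near [T2Space Y] (h : L ∈ BG B) :
    ∃ U : Sup912.UB B.P (BL L), U.Near (hd B) (2 * B.Q.W) := by
  obtain ⟨U, hU⟩ := exists_UB h
  exact ⟨U, Sup912.UB.near_ofPer B.Q zero_le_one (psi_le B) U hU⟩

/-- the blocks `(χ, χ)` -/
theorem ub_cc [T2Space Y] (h : L ∈ BG B) :
    C10195.UB (BL L) (B.P.amp_chi (BL L).κ) (B.P.amp_chi (BL L).κ) := ub_chi_chi (pb B) (bb h)

/-- the cores `B.K` -/
def core1 [T2Space Y] (h : L ∈ BG B) : Sup912.Core1 B.P (BL L) B.K :=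
  Sup912.Core1.of195 (bn B) (ub_cc h)

@[simp] theorem core1_nb [T2Space Y] (h : L ∈ BG B) : (core1 h).nb = Sup912.nbi B.P := rfl

theorem core1_near [T2Space Y] (h : L ∈ BG B) :
    ∀ i, ∀ x ∈ B.K i, ∀ k ∈ (core1 h).nb i, |B.h x - (hd B).ht k| ≤ 3 * B.Q.W :=
  Sup912.Core1.near_ofPer B.Q zero_le_one (psi_le B) (core1 h) rfl

end

end Crest.Agent.R275.YBG812
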