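import Crest.Agent.R275.VCalC_131
import Crest.Agent.R275.EcV_938
import Crest.Agent.R275.Wy5_197
import Crest.Agent.R275.Core_144
import Crest.Agent.R275.WBGlue_658
import Crest.Agent.R275.FHom2_556
import Crest.Agent.R275.WYc_681
import Crest.Agent.R275.WY4B_193
import Crest.Agent.R275.ScaleF_685

-- ▼ part R275/VCalD_131
section

/-!
# R275, block C (helper131): standard isomorphisms, integrability, line bundles from raw cocycles
-/

set_option autoImplicit false
set_option linter.unusedSectionVars false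

open Set Filter Topology Complex
open scoped ContDiff Matrix ComplexConjugate Kronecker

namespace Crest.Agent.R275.VCal131

open Geo Fm96

noncomputable section

variable {n : ℕ} {M : Type} [TopologicalSpace M] {A : Atl n M}

/-! ### standard isomorphisms -/

section std

variable (E F G : VBun A)
























end std

/-! ### integrability -/

/-- the `(0,2)`-curvature vanishes -/
def Integ (E : VBun A) : Prop := ∀ i, ∀ x ∈ (A.e i).source, ∀ b c,
  dbM A i b (E.a i c) x - dbM A i c (E.a i b) x + E.a i b x * E.a i c x - E.a i c x * E.a i b x = 0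



theorem Integ.sum {E F : VBun A} (hE : Integ E) (hF : Integ F) : Integ (sum E F) :=
  fun i x hx b c => by
  show dbM A i b (fun y => Matrix.fromBlocks (E.a i c y) 0 0 (F.a i c y)) x
    - dbM A i c (fun y => Matrix.fromBlocks (E.a i b y) 0 0 (F.a i b y)) x
    + Matrix.fromBlocks (E.a i b x) 0 0 (F.a i b x) * Matrix.fromBlocks (E.a i c x) 0 0 (F.a i c x)
    - Matrix.fromBlocks (E.a i c x) 0 0 (F.a i c x) * Matrix.fromBlocks (E.a i b x) 0 0 (F.a i b x)
    = 0
  have h0 : ∀ (b : Fin n) (ρ ρ' : Type), dbM A i b (fun _ => (0 : Matrix ρ ρ' ℂ)) x = 0 :=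
    fun b ρ ρ' => dbM_const _ _
  rw [dbM_fromBlocks, dbM_fromBlocks]
  simp only [h0, Matrix.fromBlocks_multiply, Matrix.mul_zero, Matrix.zero_mul, add_zero, zero_add]
  ext (k | k) (l | l)
  · exact congrFun (congrFun (hE i x hx b c) k) l
  · show (0 : ℂ) - 0 + 0 - 0 = 0
    simp
  · show (0 : ℂ) - 0 + 0 - 0 = 0
    simp
  · exact congrFun (congrFun (hF i x hx b c) k) l



end

end Crest.Agent.R275.VCal131
end

-- ▼ part R275/VCalE_131
section

/-!
# R275, block C (helper131): line bundles with `(0,1)`-connection from raw data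

`IsLine A g a` : `g` smooth rank one cocycle, `a` connection coefficients; closed under products
(`g g'`, `a + a'`), inverses (`g⁻¹`, `-a`), integer powers, change of the connection by a
`(0,1)`-form; `line` the associated `VBun` (fibre index `Unit`), `lineIso` from a unit family;
`lineMul`, `lineInv`, `tensorDual`; determinant line bundle of a `VBun`.
-/

set_option autoImplicit false
set_option linter.unusedSectionVars false

open Set Filter Topology Complex
open scoped ContDiff Matrix ComplexConjugate Kronecker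

namespace Crest.Agent.R275.VCal131

open Geo Fm96

noncomputable section

variable {n : ℕ} {M : Type} [TopologicalSpace M] {A : Atl n M}

/-- `1 × 1` matrix -/
def u1 (c : ℂ) : Matrix Unit Unit ℂ := Matrix.of fun _ _ => c

@[simp] theorem u1_apply (c : ℂ) (p q : Unit) : u1 c p q = c := rfl

theorem u1_mul (c d : ℂ) : u1 c * u1 d = u1 (c * d) := by
  ext p q
  simp [Matrix.mul_apply]

theorem u1_one : u1 1 = 1 := by
  ext p q
  simp

theorem u1_add (c d : ℂ) : u1 c + u1 d = u1 (c + d) := rfl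

theorem u1_smul (c d : ℂ) : c • u1 d = u1 (c * d) := rfl

theorem u1_sum {J : Type} (s : Finset J) (f : J → ℂ) : ∑ q ∈ s, u1 (f q) = u1 (∑ q ∈ s, f q) := by
  ext p q
  simp [Matrix.sum_apply]

theorem dbM_u1 (i : A.ι) (b : Fin n) (f : M → ℂ) (x : M) :
    dbM A i b (fun y => u1 (f y)) x = u1 (A.db i b f x) := rfl

/-- raw line bundle with `(0,1)`-connection -/
structure IsLine (A : Atl n M) (g : A.ι → A.ι → M → ℂ) (a : A.ι → Fin n → M → ℂ) : Prop where
  sm : ∀ i j, ∀ x ∈ (A.e i).source ∩ (A.e j).source, SmP A i (g i j) x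
  self : ∀ i, ∀ x ∈ (A.e i).source, g i i x = 1
  mul : ∀ i j k, ∀ x ∈ (A.e i).source ∩ (A.e j).source ∩ (A.e k).source,
    g i j x * g j k x = g i k x
  asm : ∀ i b, ∀ x ∈ (A.e i).source, SmP A i (a i b) x
  atr : ∀ i j, ∀ x ∈ (A.e i).source ∩ (A.e j).source, ∀ b,
    A.db i b (g i j) x + a i b x * g i j x = ∑ c, conj (A.J i j x c b) * (g i j x * a j c x)

/-- `(0,1)`-form in raw form -/
structure IsF1 (A : Atl n M) (β : A.ι → Fin n → M → ℂ) : Prop where
  sm : ∀ i b, ∀ x ∈ (A.e i).source, SmP A i (β i b) x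
  tr : ∀ i j, ∀ x ∈ (A.e i).source ∩ (A.e j).source, ∀ b,
    β i b x = ∑ c, conj (A.J i j x c b) * β j c x

namespace IsLine

variable {g g' : A.ι → A.ι → M → ℂ} {a a' : A.ι → Fin n → M → ℂ}

theorem symm_mul (h : IsLine A g a) {i j : A.ι} {x : M}
    (hx : x ∈ (A.e i).source ∩ (A.e j).source) : g i j x * g j i x = 1 := by
  rw [h.mul i j i x ⟨hx, hx.1⟩, h.self i x hx.1]

theorem ne (h : IsLine A g a) {i j : A.ι} {x : M}
    (hx : x ∈ (A.e i).source ∩ (A.e j).source) : g i j x ≠ 0 :=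
  left_ne_zero_of_mul_eq_one (h.symm_mul hx)

/-- the transformation law in logarithmic form -/
theorem atr' (h : IsLine A g a) {i j : A.ι} {x : M}
    (hx : x ∈ (A.e i).source ∩ (A.e j).source) (b : Fin n) :
    A.db i b (g i j) x * (g i j x)⁻¹ + a i b x = ∑ c, conj (A.J i j x c b) * a j c x := by
  have h1 := congrArg (fun t => t * (g i j x)⁻¹) (h.atr i j x hx b)
  have h0 := h.ne hx
  simp only [add_mul, Finset.sum_mul] at h1
  rw [mul_assoc, mul_inv_cancel₀ h0, mul_one] at h1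
  rw [h1]
  refine Finset.sum_congr rfl fun c _ => ?_
  field_simp

theorem of_atr' (sm : ∀ i j, ∀ x ∈ (A.e i).source ∩ (A.e j).source, SmP A i (g i j) x)
    (self : ∀ i, ∀ x ∈ (A.e i).source, g i i x = 1)
    (mul : ∀ i j k, ∀ x ∈ (A.e i).source ∩ (A.e j).source ∩ (A.e k).source,
      g i j x * g j k x = g i k x)
    (asm : ∀ i b, ∀ x ∈ (A.e i).source, SmP A i (a i b) x)
    (atr' : ∀ i j, ∀ x ∈ (A.e i).source ∩ (A.e j).source, ∀ b,
      A.db i b (g i j) x * (g i j x)⁻¹ + a i b x = ∑ c, conj (A.J i j x c b) * a j c x) :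
    IsLine A g a where
  sm := sm
  self := self
  mul := mul
  asm := asm
  atr i j x hx b := by
    have h0 : g i j x ≠ 0 := by
      have h1 := mul i j i x ⟨hx, hx.1⟩
      rw [self i x hx.1] at h1
      exact left_ne_zero_of_mul_eq_one h1
    have h1 := congrArg (fun t => t * g i j x) (atr' i j x hx b)
    simp only [add_mul, Finset.sum_mul] at h1
    rw [mul_assoc, inv_mul_cancel₀ h0, mul_one] at h1
    rw [h1]
    refine Finset.sum_congr rfl fun c _ => ?_
    ring

theorem prod (h : IsLine A g a) (h' : IsLine A g' a') :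
    IsLine A (fun i j x => g i j x * g' i j x) (fun i b x => a i b x + a' i b x) := by
  refine of_atr' (fun i j x hx => (h.sm i j x hx).mul (h'.sm i j x hx))
    (fun i x hx => by simp [h.self i x hx, h'.self i x hx])
    (fun i j k x hx => by rw [← h.mul i j k x hx, ← h'.mul i j k x hx]; ring)
    (fun i b x hx => (h.asm i b x hx).add (h'.asm i b x hx)) (fun i j x hx b => ?_)
  rw [db_mulP b (h.sm i j x hx) (h'.sm i j x hx) hx.1]
  simp only [mul_add, Finset.sum_add_distrib, ← h.atr' hx b, ← h'.atr' hx b]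
  have h0 := h.ne hx
  have h0' := h'.ne hx
  field_simp
  ring

theorem inv (h : IsLine A g a) :
    IsLine A (fun i j x => (g i j x)⁻¹) (fun i b x => - a i b x) := by
  refine of_atr' (fun i j x hx => (h.sm i j x hx).inv (h.ne hx) hx.1)
    (fun i x hx => by simp [h.self i x hx])
    (fun i j k x hx => by rw [← h.mul i j k x hx, mul_inv])
    (fun i b x hx => (h.asm i b x hx).neg) (fun i j x hx b => ?_)
  rw [db_invP b (h.sm i j x hx) (h.ne hx) hx.1]
  simp only [mul_neg, Finset.sum_neg_distrib, ← h.atr' hx b]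
  have h0 := h.ne hx
  field_simp
  ring

theorem one : IsLine A (fun _ _ _ => 1) (fun _ _ _ => 0) := by
  refine of_atr' (fun i j x hx => SmP.const 1) (fun i x hx => rfl) (fun i j k x hx => one_mul 1)
    (fun i b x hx => SmP.const 0) (fun i j x hx b => ?_)
  rw [db_constP b (1 : ℂ)]
  simp



theorem npow (h : IsLine A g a) (m : ℕ) :
    IsLine A (fun i j x => g i j x ^ m) (fun i b x => m * a i b x) := by
  induction m with
  | zero => simpa using one
  | succ m ih =>
    have h1 := ih.prod h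
    have e : (fun (i : A.ι) (b : Fin n) (x : M) => ((m + 1 : ℕ) : ℂ) * a i b x)
        = fun i b x => (m : ℂ) * a i b x + a i b x := by
      funext i b x
      push_cast
      ring
    rw [e]
    exact h1


/-- the `VBun` of a raw line bundle -/
def line (h : IsLine A g a) : VBun A :=
  mkV Unit (fun i j x => u1 (g i j x))
    (fun i j x hx _ _ => h.sm i j x hx)
    (fun i x hx => by rw [h.self i x hx, u1_one])
    (fun i j k x hx => by rw [u1_mul, h.mul i j k x hx])
    (fun i b x => u1 (a i b x))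
    (fun i b x hx _ _ => h.asm i b x hx)
    (fun i j x hx b => by
      simp only [dbM_u1, u1_mul, u1_add, u1_smul, u1_sum, h.atr i j x hx b])

@[simp] theorem line_ρ (h : IsLine A g a) : h.line.ρ = Unit := rfl


/-- isomorphism of line bundles given by a unit family -/
def lineIso (h : IsLine A g a) (h' : IsLine A g' a') (f : A.ι → M → ℂ)
    (fs : ∀ i, ∀ x ∈ (A.e i).source, SmP A i (f i) x)
    (f0 : ∀ i, ∀ x ∈ (A.e i).source, f i x ≠ 0)
    (ft : ∀ i j, ∀ x ∈ (A.e i).source ∩ (A.e j).source, f i x * g i j x = g' i j x * f j x) :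
    VIso h.line h'.line where
  hom :=
    { h := fun i x => u1 (f i x)
      sm := fun i x hx _ _ => fs i x hx
      tr := fun i j x hx => by
        show u1 (f i x) * u1 (g i j x) = u1 (g' i j x) * u1 (f j x)
        rw [u1_mul, u1_mul, ft i j x hx] }
  inv :=
    { h := fun i x => u1 ((f i x)⁻¹)
      sm := fun i x hx _ _ => (fs i x hx).inv (f0 i x hx) hx
      tr := fun i j x hx => by
        show u1 ((f i x)⁻¹) * u1 (g' i j x) = u1 (g i j x) * u1 ((f j x)⁻¹)
        have h1 := f0 i x hx.1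
        have h2 := f0 j x hx.2
        have h3 := ft i j x hx
        rw [u1_mul, u1_mul]
        congr 1
        rw [inv_mul_eq_iff_eq_mul₀ h1, ← mul_assoc, h3, mul_assoc, mul_inv_cancel₀ h2, mul_one] }
  left i x hx := by
    show u1 ((f i x)⁻¹) * u1 (f i x) = (1 : Matrix Unit Unit ℂ)
    rw [u1_mul, inv_mul_cancel₀ (f0 i x hx), u1_one]
  right i x hx := by
    show u1 (f i x) * u1 ((f i x)⁻¹) = (1 : Matrix Unit Unit ℂ)
    rw [u1_mul, mul_inv_cancel₀ (f0 i x hx), u1_one]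










end IsLine

end

end Crest.Agent.R275.VCal131
end

-- ▼ part R275/Gau_511
section

/-!
# R275, block P, leaf GAUGE (helper511)

`L : LB A` (holomorphic line bundle) with logarithms `θ` of class `c ∈ Z2 A ℤ` and the smooth line
bundle `EcV P hc` (`g = exp (2πi φ)`, `a = 2πi v`) of the same class:

* `gF P c θ i = ∑ ψ_l (θ_li - φ_li)`, `F_j - F_i = θ_ij - φ_ij`;
* `al P c θ i b = v_i + ∂̄F_i` is a global `(0,1)`-form (`isF1_al`);
* `gE P hc hθ` = the bundle `EcV P hc` with the connection `a - 2πi α` (`= - 2πi ∂̄F`);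
* `gIso : L.toVB ≅ gE`, multiplication by `exp (2πi F_i)`, compatible with the connections.
-/

set_option autoImplicit false
set_option linter.unusedSectionVars false
set_option linter.unusedVariables false

open Set Filter Topology Complex
open scoped ContDiff ComplexConjugate

namespace Crest.Agent.R275.Gau511

open Geo Fm96 NAtl938 EcV938 Wy5197 VCal131 Core144
open Crest.Agent.R275.GC293 (exp_eq_one_iff_int Z2 U3 U2 glue glue_eq_sum glue_const glue_sub glue_add finite_psi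
  exists_finset_near tsupport_psi_source mem_source_of_psi)

noncomputable section

variable {Y : Type} [TopologicalSpace Y] {A : Atl 2 Y}

/-- `F_i = ∑ ψ_l (θ_li - φ_li)` -/
def gF (P : Part A) (c : A.ι → A.ι → A.ι → ℤ) (θ : A.ι → A.ι → Y → ℂ) (i : A.ι) : Y → ℂ :=
  glue P (fun l y => θ l i y - phi P c l i y)

/-- `α_i = v_i + ∂̄F_i` -/
def al (P : Part A) (c : A.ι → A.ι → A.ι → ℤ) (θ : A.ι → A.ι → Y → ℂ) (i : A.ι) (b : Fin 2)
    (x : Y) : ℂ := vv P c i b x + A.db i b (gF P c θ i) x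

variable {P : Part A} {G θ : A.ι → A.ι → Y → ℂ} {c : A.ι → A.ι → A.ι → ℤ}

theorem smP_gF (hθ : IsLog A G θ c) {i : A.ι} {x : Y} (hx : x ∈ (A.e i).source) :
    SmP A i (gF P c θ i) x :=
  smP_glue P hx fun l hl =>
    (((hθ.hol l i x ⟨hl, hx⟩).smP).change ⟨hx, hl⟩).sub (phi_smP P c l i i hx)

/-- `F_j - F_i = θ_ij - φ_ij` -/
theorem gF_sub (hθ : IsLog A G θ c) (hc : c ∈ Z2 A ℤ) {i j : A.ι} {x : Y}
    (hx : x ∈ (A.e i).source ∩ (A.e j).source) :
    gF P c θ j x - gF P c θ i x = θ i j x - phi P c i j x := by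
  unfold gF
  rw [glue_sub]
  refine glue_const P fun l hl => ?_
  have h1 := hθ.coc l i j x ⟨⟨hl, hx.1⟩, hx.2⟩
  have h2 := phi_coc (P := P) hc (i := l) (j := i) (k := j) (x := x) ⟨⟨hl, hx.1⟩, hx.2⟩
  rw [← h2] at h1
  linear_combination (-1 : ℂ) * h1

/-- the transition functions -/
theorem gF_tr (hθ : IsLog A G θ c) (hc : c ∈ Z2 A ℤ) {i j : A.ι} {x : Y}
    (hx : x ∈ (A.e i).source ∩ (A.e j).source) :
    Complex.exp (2 * Real.pi * I * gF P c θ i x) * G i j x =
      Complex.exp (2 * Real.pi * I * phi P c i j x) *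
        Complex.exp (2 * Real.pi * I * gF P c θ j x) := by
  rw [← hθ.exp i j x hx, ← Complex.exp_add, ← Complex.exp_add]
  congr 1
  have := gF_sub (P := P) hθ hc hx
  linear_combination (-(2 * Real.pi * I) : ℂ) * this



theorem db_cexp {i : A.ι} {f : Y → ℂ} {x : Y} (b : Fin 2) (hf : SmP A i f x)
    (hx : x ∈ (A.e i).source) :
    A.db i b (fun y => Complex.exp (2 * Real.pi * I * f y)) x =
      Complex.exp (2 * Real.pi * I * f x) * (2 * Real.pi * I * A.db i b f x) := by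
  rw [db_expP b ((SmP.const _).mul hf) hx, db_mulP b (SmP.const _) hf hx, db_constP, zero_mul,
    zero_add]

/-- the raw data of `EcV` -/
theorem isLine_EcV (P : Part A) (hc : c ∈ Z2 A ℤ) :
    IsLine A (fun i j x => Complex.exp (2 * Real.pi * I * phi P c i j x))
      (fun i b x => 2 * Real.pi * I * vv P c i b x) := by
  refine IsLine.of_atr' (fun i j x hx => ((SmP.const _).mul (phi_smP P c i j i hx.1)).exp)
    (fun i x hx => (exp_eq_one_iff_int _).2 ⟨_, phi_self hc hx⟩) (fun i j k x hx => ?_)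
    (fun i b x hx => (SmP.const _).mul
      (smP_of_smOn (vv_sm P c i b) (A.e i).open_source hx hx)) (fun i j x hx b => ?_)
  · have e := phi_coc (P := P) hc (i := i) (j := j) (k := k) (x := x) hx
    have e1 : 2 * Real.pi * I * phi P c i j x + 2 * Real.pi * I * phi P c j k x =
        2 * Real.pi * I * phi P c i k x + 2 * Real.pi * I * ((c i j k : ℤ) : ℂ) := by
      rw [← e]; ring
    have e2 : Complex.exp (2 * Real.pi * I * ((c i j k : ℤ) : ℂ)) = 1 :=
      (exp_eq_one_iff_int _).2 ⟨_, rfl⟩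
    rw [← Complex.exp_add, e1, Complex.exp_add, e2, mul_one]
  · rw [db_cexp b (phi_smP P c i j i hx.1) hx.1]
    have h2 := vv_tr (P := P) hc hx b
    have h3 : ∑ d, conj (A.J i j x d b) * (2 * Real.pi * I * vv P c j d x) =
        2 * Real.pi * I * ∑ d, conj (A.J i j x d b) * vv P c j d x := by
      rw [Finset.mul_sum]
      exact Finset.sum_congr rfl fun d _ => by ring
    rw [h3, ← h2]
    have h4 := Complex.exp_ne_zero (2 * Real.pi * I * phi P c i j x)
    field_simp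







/-- the raw data of a holomorphic line bundle -/
theorem isLine_LB (L : LB A) : IsLine A L.g (fun _ _ _ => 0) where
  sm i j x hx := by
    have h1 := (L.hol i j).contDiffOn (A.e j).open_source
    have h2 : IsOpen ((A.e i).target ∩ (A.e i).symm ⁻¹' (A.e j).source) :=
      isOpen_ti (A.e j).open_source
    have h3 : A.e i x ∈ (A.e i).target ∩ (A.e i).symm ⁻¹' (A.e j).source := mem_ov hx
    filter_upwards [h2.mem_nhds h3] with z hz using h1.contDiffAt (h2.mem_nhds hz)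
  self i x _ := L.self i x
  mul i j k x hx := L.mul i j k x hx
  asm i b x hx := SmP.const 0
  atr i j x hx b := by
    rw [(L.hol i j).db_zero (A.e j).open_source hx.1 hx.2 b]
    simp






end

end Crest.Agent.R275.Gau511
end

-- ▼ part R275/GauB_511
section

/-!
# R275, block P, leaf GAUGE (helper511), part 2: weighted bounds of all derivatives

`F = gF`, `α = al`, `exp (± 2πi F)` on the cores `N.B Q.ρ i` of a periodic atlas.
-/

set_option autoImplicit false
set_option linter.unusedSectionVars false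
set_option linter.unusedVariables false

open Set Filter Topology Complex Metric
open scoped ContDiff ComplexConjugate

namespace Crest.Agent.R275.Gau511

open Geo Fm96 NAtl938 EcV938 Wy5197 VCal131 Core144 WB658 JB658
open Crest.Agent.R275.GC293 (exp_eq_one_iff_int Z2 U3 U2 glue glue_eq_sum glue_const glue_sub
  glue_add finite_psi exists_finset_near tsupport_psi_source mem_source_of_psi)

noncomputable section

/-! ### exponentials -/

section exp

variable {n : ℕ} {M : Type} [TopologicalSpace M] {A : Atl n M} {σ : Type*}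
  {c : σ → A.ι} {O : σ → Set M} {w : M → ℝ} {f : σ → M → ℂ}

theorem wb_exp_sub_one (hf : WB A c O w f) (hO : ∀ s, O s ⊆ (A.e (c s)).source)
    (hw : ∀ x, 0 ≤ w x) (hw1 : ∀ x, w x ≤ 1) :
    WB A c O w (fun s x => Complex.exp (f s x) - 1) := by
  obtain ⟨C, hC, hb⟩ := hf.bound hO
  refine JB.comp_small (φ := fun y : ℂ => Complex.exp y - 1) (K := closedBall (0 : ℂ) C) hf
    (fun t => hw _) (fun t => hw1 _) ?_ ?_ ?_ ?_
  · rintro ⟨⟨s, x⟩, hx⟩
    show f s ((A.e (c s)).symm (A.e (c s) x)) ∈ closedBall (0 : ℂ) C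
    rw [(A.e (c s)).left_inv (hO s hx), mem_closedBall_zero_iff]
    refine (hb s x hx).trans ?_
    calc C * w x ≤ C * 1 := by gcongr; exact hw1 x
      _ = C := mul_one C
  · intro y _
    exact (Complex.contDiff_exp.contDiffAt).sub contDiffAt_const
  · intro k
    have h1 : ContDiff ℝ ∞ (fun y : ℂ => Complex.exp y - 1) :=
      Complex.contDiff_exp.sub contDiff_const
    have h2 : Continuous (fun y => ‖iteratedFDeriv ℝ k (fun y : ℂ => Complex.exp y - 1) y‖) :=
      (h1.continuous_iteratedFDeriv (by exact_mod_cast le_top)).norm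
    obtain ⟨D, hD⟩ := ((isCompact_closedBall (0 : ℂ) C).image h2).bddAbove
    exact ⟨D, fun y hy => hD ⟨y, hy, rfl⟩⟩
  · refine ⟨Real.exp C, (Real.exp_pos _).le, fun y hy => ?_⟩
    have h1 := Convex.norm_image_sub_le_of_norm_deriv_le (f := Complex.exp) (C := Real.exp C)
      (s := closedBall (0 : ℂ) C) (x := 0) (y := y)
      (fun z _ => Complex.differentiable_exp z) (fun z hz => by
        rw [Complex.deriv_exp, Complex.norm_exp]
        apply Real.exp_le_exp.2
        exact ((Complex.re_le_norm z).trans (mem_closedBall_zero_iff.1 hz)))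
      (convex_closedBall _ _) (by simpa using hC) hy
    simpa using h1

theorem wb_exp (hf : WB A c O w f) (hO : ∀ s, O s ⊆ (A.e (c s)).source)
    (hw : ∀ x, 0 ≤ w x) (hw1 : ∀ x, w x ≤ 1) :
    WB A c O (fun _ => 1) (fun s x => Complex.exp (f s x)) := by
  have h1 := ((wb_exp_sub_one hf hO hw hw1).mono (w' := fun _ => 1) zero_le_one
    (fun s x _ => by simpa using hw1 x)).add (wb_const (1 : ℂ))
  simpa using h1

end exp

section fin

variable {n : ℕ} {Y : Type} [TopologicalSpace Y] {N : NAtl n Y} {g : Y ≃ₜ Y} {h : Y → ℝ}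
variable {F : Type*} [NormedAddCommGroup F] [NormedSpace ℝ F]

/-- families vanishing for all but finitely many indices satisfy all weighted bounds -/
theorem wb_of_finite [T2Space Y] (Pr : N.Per g h) {ρ : ℝ} (hρ : ρ < N.R) {O : N.ι → Set Y}
    (hO : ∀ i, O i ⊆ N.B ρ i) {f : N.ι → Y → F} (I0 : Finset N.ι)
    (h0 : ∀ i, i ∉ I0 → ∀ x ∈ O i, f i =ᶠ[𝓝 x] fun _ => 0)
    (hf : ∀ i, ∀ x ∈ cB N ρ i,
      ContDiffAt ℝ ∞ (fun z => f i ((N.E i).symm z)) (N.E i x))
    {w : ℝ → ℝ} (hw : Slow w) (hw0 : ∀ t, 0 < w t) :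
    WB N.big (σ := N.ι) (fun i => i) O (fun x => w (h x)) f := by
  classical
  have hOs : ∀ i, O i ⊆ (N.big.e i).source := fun i x hx => by
    rw [N.big_source]; exact (hO i hx).1
  refine wb_intro (fun i x hx => hf i x (B_sub_cB (hO i hx))) fun k => ?_
  -- constants
  have h1 : ∀ i : N.ι, ∃ C : ℝ, ∀ x ∈ cB N ρ i,
      ‖iteratedFDeriv ℝ k (fun z => f i ((N.E i).symm z)) (N.E i x)‖ ≤ C := fun i =>
    bdd_of_compact (isCompact_cB hρ i) cB_sub (hf i) k
  choose C hC using h1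
  obtain ⟨D, hD, hslow⟩ := hw Pr.W Pr.W_pos
  choose x0 hx0 using fun i => src_ne (N := N) i
  set C' : N.ι → ℝ := fun i => |C i| * (D * (w (h (x0 i)))⁻¹) with hC'
  have hC'0 : ∀ i, 0 ≤ C' i := fun i => by
    have := (hw0 (h (x0 i))).le
    positivity
  refine ⟨∑ i ∈ I0, C' i, Finset.sum_nonneg fun i _ => hC'0 i, fun i x hx => ?_⟩
  by_cases hi : i ∈ I0
  · have h2 := hC i x (B_sub_cB (hO i hx))
    have h3 : w (h (x0 i)) ≤ D * w (h x) := hslow _ _ (Pr.osc i _ (hx0 i) _ (hO i hx).1)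
    have h4 : C' i ≤ ∑ i ∈ I0, C' i :=
      Finset.single_le_sum (f := C') (fun i _ => hC'0 i) hi
    have h5 : 1 ≤ (w (h (x0 i)))⁻¹ * (D * w (h x)) := by
      rw [inv_mul_eq_div, one_le_div (hw0 _)]; exact h3
    calc ‖iteratedFDeriv ℝ k (fun z => f i ((N.big.e i).symm z)) (N.big.e i x)‖ ≤ C i := h2
      _ ≤ |C i| := le_abs_self _
      _ ≤ |C i| * ((w (h (x0 i)))⁻¹ * (D * w (h x))) := le_mul_of_one_le_right (abs_nonneg _) h5
      _ = C' i * w (h x) := by rw [hC']; ring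
      _ ≤ _ := mul_le_mul_of_nonneg_right h4 (hw0 _).le
  · have h2 := h0 i hi x hx
    have h3 : Tendsto (N.big.e i).symm (𝓝 (N.big.e i x)) (𝓝 x) := by
      have := (N.big.e i).continuousAt_symm ((N.big.e i).map_source (hOs i hx))
      rw [ContinuousAt, (N.big.e i).left_inv (hOs i hx)] at this
      exact this
    have h4 : (fun z => f i ((N.big.e i).symm z)) =ᶠ[𝓝 (N.big.e i x)] fun _ => 0 :=
      h3.eventually h2
    rw [(h4.iteratedFDeriv ℝ k).eq_of_nhds]
    have h5 : iteratedFDeriv ℝ k (fun _ : Cn n => (0 : F)) = 0 := iteratedFDeriv_fun_zero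
    rw [h5]
    simp only [Pi.zero_apply, norm_zero]
    exact mul_nonneg (Finset.sum_nonneg fun i _ => hC'0 i) (hw0 _).le

end fin

section main

variable {Y : Type} [TopologicalSpace Y] {N : NAtl 2 Y} {g : Y ≃ₜ Y} {h : Y → ℝ}
variable {Pr : N.Per g h} (Q : EPart N Pr) {G θ : N.ι → N.ι → Y → ℂ} {c : N.ι → N.ι → N.ι → ℤ}

/-- the weight `exp (-ρ |h|)` -/
def we (h : Y → ℝ) (ρ : ℝ) (x : Y) : ℝ := Real.exp (-ρ * |h x|)

theorem we_pos (h : Y → ℝ) (ρ : ℝ) (x : Y) : 0 < we h ρ x := Real.exp_pos _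

theorem we_le_one (h : Y → ℝ) {ρ : ℝ} (hρ : 0 ≤ ρ) (x : Y) : we h ρ x ≤ 1 := by
  apply Real.exp_le_one_iff.2
  have := mul_nonneg hρ (abs_nonneg (h x))
  linarith

theorem smP_big {i : N.ι} {f : Y → ℂ} {x : Y} (hf : SmP N.sm i f x) :
    ContDiffAt ℝ ∞ (fun z => f ((N.E i).symm z)) (N.E i x) := hf.self

theorem cB_sub_sm (i : N.ι) : cB N Q.ρ i ⊆ (N.sm.e i).source := by
  rw [N.at'_source]
  exact cB_sub_B Q.ρ_lt

/-- the indices `i` with `c l m i ≠ 0` for some `l`, `m` -/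
def lastF (c : N.ι → N.ι → N.ι → ℤ) (hc : Fin3 c) : Finset N.ι :=
  (hc.image fun p => p.2.2).toFinset

theorem eq_zero_of_lastF {hf : Fin3 c} {i : N.ι} (hi : i ∉ lastF c hf) (l m : N.ι) :
    c l m i = 0 := by
  by_contra h0
  apply hi
  unfold lastF
  rw [Set.Finite.mem_toFinset]
  exact ⟨(l, m, i), h0, rfl⟩

/-- bounds of `F` -/
theorem wb_gF [T2Space Y] (hθ : IsLog N.sm G θ c) (hf : Fin3 c) {C ρ : ℝ}
    (hd : Dec2 N.sm h θ C ρ) :
    WB N.big (σ := N.ι) (fun i => i) (fun i => N.B Q.ρ i) (we h ρ) (gF Q.toPart c θ) := by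
  -- the part with `θ`
  have h1 : WB N.big (σ := N.ι × N.ι) (fun p => p.1) (fun p => N.B Q.ρ p.1 ∩ N.B Q.ρ p.2)
      (we h ρ) (fun p => θ p.2 p.1) := by
    refine cau Pr (w := fun t => Real.exp (-ρ * |t|)) (slow_exp_abs ρ) (fun t => (Real.exp_pos _).le)
      Q.ρ_lt N.r_le_R (θ := fun i j => θ j i) (C := C) (fun i j x hx => ?_) (fun i j x hx => ?_)
    · have hx' : x ∈ (N.sm.e j).source ∩ (N.sm.e i).source := by
        rw [N.at'_source, N.at'_source]; exact ⟨hx.2, hx.1⟩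
      exact (hθ.hol j i x hx').change ⟨hx'.2, hx'.1⟩
    · have hx' : x ∈ (N.sm.e j).source ∩ (N.sm.e i).source := by
        rw [N.at'_source, N.at'_source]; exact ⟨hx.2, hx.1⟩
      exact hd j i x hx'
  have h2 : WB N.big (σ := N.ι) (fun i => i) (fun i => N.B Q.ρ i) (we h ρ)
      (fun i => glue Q.toPart (fun l => θ l i)) :=
    wb_glue Q (fun x => (we_pos h ρ x).le) Q.ρ_lt_R (fun i => le_rfl) (θ := fun i l => θ l i) h1
  -- the part with `φ`
  have h3 : WB N.big (σ := N.ι) (fun i => i) (fun i => N.B Q.ρ i) (we h ρ)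
      (fun i => glue Q.toPart (fun l => phi Q.toPart c l i)) := by
    refine wb_of_finite Pr Q.ρ_lt_R (fun i => le_rfl) (lastF c hf) (fun i hi x _ => ?_)
      (fun i x hx => ?_) (slow_exp_abs ρ) (fun t => Real.exp_pos _)
    · refine Eventually.of_forall fun y => glue_const Q.toPart (w := (0 : ℂ)) fun l _ => ?_
      exact phi_zero fun m _ => eq_zero_of_lastF hi m l
    · have hx' := cB_sub_sm Q i hx
      exact smP_big (smP_glue Q.toPart hx' fun k _ => phi_smP Q.toPart c k i i hx')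
  refine (h2.sub h3).congr (fun i x hx => ?_) (fun i x _ => Eventually.of_forall fun y => ?_)
  · rw [N.big_source]; exact hx.1
  · show gF Q.toPart c θ i y = _
    unfold gF
    rw [← glue_sub]

/-- bounds of `α` -/
theorem wb_al [T2Space Y] (hθ : IsLog N.sm G θ c) (hf : Fin3 c) {C ρ : ℝ}
    (hd : Dec2 N.sm h θ C ρ) (b : Fin 2) :
    WB N.big (σ := N.ι) (fun i => i) (fun i => N.B Q.ρ i) (we h ρ)
      (fun i => al Q.toPart c θ i b) := by
  have hO : ∀ i : N.ι, N.B Q.ρ i ⊆ (N.big.e i).source := fun i x hx => by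
    rw [N.big_source]; exact hx.1
  have h1 : WB N.big (σ := N.ι) (fun i => i) (fun i => N.B Q.ρ i) (we h ρ)
      (fun i => vv Q.toPart c i b) := by
    refine wb_of_finite Pr Q.ρ_lt_R (fun i => le_rfl) (lastF c hf) (fun i hi x hx => ?_)
      (fun i x hx => ?_) (slow_exp_abs ρ) (fun t => Real.exp_pos _)
    · have hx' : x ∈ (N.sm.e i).source := by
        rw [N.at'_source]; exact N.B_mono Q.ρ_lt.le i hx
      filter_upwards [(N.sm.e i).open_source.mem_nhds hx'] with y hy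
      exact vv_zero hy fun l m _ _ => eq_zero_of_lastF hi m l
    · have hx' := cB_sub_sm Q i hx
      exact smP_big (smP_of_smOn (vv_sm Q.toPart c i b) (N.sm.e i).open_source hx' hx')
  exact h1.add ((wb_gF Q hθ hf hd).db hO b)

/-- bounds of `exp (2πi F)` -/
theorem wb_expF [T2Space Y] (hθ : IsLog N.sm G θ c) (hf : Fin3 c) {C ρ : ℝ} (hρ : 0 ≤ ρ)
    (hd : Dec2 N.sm h θ C ρ) :
    WB N.big (σ := N.ι) (fun i => i) (fun i => N.B Q.ρ i) (fun _ => 1)
      (fun i x => Complex.exp (2 * Real.pi * I * gF Q.toPart c θ i x)) := by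
  have hO : ∀ i : N.ι, N.B Q.ρ i ⊆ (N.big.e i).source := fun i x hx => by
    rw [N.big_source]; exact hx.1
  exact wb_exp ((wb_gF Q hθ hf hd).cmul (2 * Real.pi * I)) hO (fun x => (we_pos h ρ x).le)
    (we_le_one h hρ)


/-- bounds of `exp (2πi F)⁻¹` -/
theorem wb_expF_inv [T2Space Y] (hθ : IsLog N.sm G θ c) (hf : Fin3 c) {C ρ : ℝ} (hρ : 0 ≤ ρ)
    (hd : Dec2 N.sm h θ C ρ) :
    WB N.big (σ := N.ι) (fun i => i) (fun i => N.B Q.ρ i) (fun _ => 1)
      (fun i x => (Complex.exp (2 * Real.pi * I * gF Q.toPart c θ i x))⁻¹) := by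
  have hO : ∀ i : N.ι, N.B Q.ρ i ⊆ (N.big.e i).source := fun i x hx => by
    rw [N.big_source]; exact hx.1
  have h1 := wb_exp (((wb_gF Q hθ hf hd).cmul (2 * Real.pi * I)).neg) hO
    (fun x => (we_pos h ρ x).le) (we_le_one h hρ)
  refine h1.congr hO fun i x _ => Eventually.of_forall fun y => ?_
  exact (Complex.exp_neg _).symm

end main

end

end Crest.Agent.R275.Gau511
end

-- ▼ part R275/GauC_511
section

/-!
# R275, block P, leaf GAUGE (helper511), part 3: bundle maps act on twisted Dolbeault sections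

`twH B f : FHom 0 (tw B E) (tw B F)` for `f : VHom E F`, its Leibniz defect `defM`
(`∑ e_a ⊗ (∂̄_a f + a' f - f a)`, zero iff `f` is flat), the linear equivalence
`secE B φ : Sec (tw B E) ≃ₗ Sec (tw B F)` of a `VIso`, and the isomorphism
`gIso' : VIso L.toVB (EcV P hc)` with defect `2πi α exp (2πi F)`.
-/

set_option autoImplicit false
set_option linter.unusedSectionVars false
set_option linter.unusedVariables false

open Set Filter Topology Complex
open scoped ContDiff Matrix ComplexConjugate Kronecker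

namespace Crest.Agent.R275.Gau511

open Geo Fm96 NAtl938 EcV938 Wy5197 VCal131 Core144
open Crest.Agent.R275.FHom556 (FHom)

noncomputable section

section twH

variable {n : ℕ} {M : Type} [TopologicalSpace M] {A : Atl n M} {E F G : VBun A}

/-- the action of a bundle map on twisted Dolbeault sections -/
def twH (B : FBun A) (f : VHom E F) : FHom 0 (tw B E) (tw B F) where
  h i x := (1 : Matrix B.κ B.κ ℂ) ⊗ₖ f.h i x
  smooth := by
    rintro i ⟨k, r⟩ ⟨l, s⟩
    exact contDiffOn_const.mul (f.smooth i r s)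
  degr := by
    rintro i x ⟨k, r⟩ ⟨l, s⟩ h
    have h1 : k = l := by
      by_contra hne
      apply h
      show (1 : Matrix B.κ B.κ ℂ) k l * f.h i x r s = 0
      rw [Matrix.one_apply_ne hne, zero_mul]
    subst h1
    rfl
  tr i j x hx := by
    show ((1 : Matrix B.κ B.κ ℂ) ⊗ₖ f.h i x) * (B.τ i j x ⊗ₖ E.g i j x) =
      (B.τ i j x ⊗ₖ F.g i j x) * ((1 : Matrix B.κ B.κ ℂ) ⊗ₖ f.h j x)
    rw [← Matrix.mul_kronecker_mul, ← Matrix.mul_kronecker_mul, Matrix.one_mul, Matrix.mul_one,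
      f.tr i j x hx]


theorem twH_sup (B : FBun A) (f : VHom E F) : (twH B f).Sup 1 := by
  intro a i x hx
  show (B.e a ⊗ₖ (1 : Matrix F.ρ F.ρ ℂ)) * ((1 : Matrix B.κ B.κ ℂ) ⊗ₖ f.h i x) =
    (1 : ℂ) • (((1 : Matrix B.κ B.κ ℂ) ⊗ₖ f.h i x) * (B.e a ⊗ₖ (1 : Matrix E.ρ E.ρ ℂ)))
  rw [← Matrix.mul_kronecker_mul, ← Matrix.mul_kronecker_mul, one_smul, Matrix.mul_one,
    Matrix.one_mul, Matrix.one_mul, Matrix.mul_one]

/-- `∂̄_b f + a' f - f a` -/
def dfl (f : VHom E F) (i : A.ι) (b : Fin n) (x : M) : Matrix F.ρ E.ρ ℂ :=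
  dbM A i b (f.h i) x + F.a i b x * f.h i x - f.h i x * E.a i b x

/-- `∑ e_b ⊗ (∂̄_b f + a' f - f a)` -/
def defM (B : FBun A) (f : VHom E F) (i : A.ι) (x : M) : Matrix (tw B F).κ (tw B E).κ ℂ :=
  (∑ b, B.e b ⊗ₖ dfl f i b x : Matrix (B.κ × F.ρ) (B.κ × E.ρ) ℂ)

theorem defM_apply (B : FBun A) (f : VHom E F) (i : A.ι) (x : M) (k : B.κ) (r : F.ρ) (l : B.κ)
    (s : E.ρ) : defM B f i x (k, r) (l, s) = ∑ b, B.e b k l * dfl f i b x r s := by
  show (∑ b, B.e b ⊗ₖ dfl f i b x : Matrix (B.κ × F.ρ) (B.κ × E.ρ) ℂ) (k, r) (l, s) = _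
  rw [Matrix.sum_apply]
  rfl

theorem dmat_twH (B : FBun A) (f : VHom E F) {i : A.ι} {x : M} (hx : x ∈ (A.e i).source) :
    (twH B f).dmat 1 i x = defM B f i x := by
  rw [FHom.dmat, if_pos hx]
  have h1 : ∀ b, (tw B F).e b * FHom556.FHom.dbM i b ((twH B f).h i) x =
      B.e b ⊗ₖ dbM A i b (f.h i) x := by
    intro b
    have h2 : FHom556.FHom.dbM (A := A) i b ((twH B f).h i) x =
        (1 : Matrix B.κ B.κ ℂ) ⊗ₖ dbM A i b (f.h i) x := by
      ext ⟨k, r⟩ ⟨l, s⟩
      show A.db i b (fun y => (1 : Matrix B.κ B.κ ℂ) k l * f.h i y r s) x =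
        (1 : Matrix B.κ B.κ ℂ) k l * A.db i b (fun y => f.h i y r s) x
      rw [db_mulP b (SmP.const _) (f.sm i x hx r s) hx, db_constP, zero_mul, zero_add]
    rw [h2]
    show (B.e b ⊗ₖ (1 : Matrix F.ρ F.ρ ℂ)) * ((1 : Matrix B.κ B.κ ℂ) ⊗ₖ dbM A i b (f.h i) x) = _
    rw [← Matrix.mul_kronecker_mul, Matrix.mul_one, Matrix.one_mul]
  have h2 : (tw B F).α i x * (twH B f).h i x =
      (B.α i x ⊗ₖ f.h i x + ∑ b, B.e b ⊗ₖ (F.a i b x * f.h i x) :
        Matrix (B.κ × F.ρ) (B.κ × E.ρ) ℂ) := by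
    show (B.α i x ⊗ₖ (1 : Matrix F.ρ F.ρ ℂ) + ∑ b, B.e b ⊗ₖ F.a i b x) *
      ((1 : Matrix B.κ B.κ ℂ) ⊗ₖ f.h i x) = _
    rw [Matrix.add_mul, Matrix.sum_mul]
    simp only [← Matrix.mul_kronecker_mul, Matrix.mul_one, Matrix.one_mul]
  have h3 : (twH B f).h i x * (tw B E).α i x =
      (B.α i x ⊗ₖ f.h i x + ∑ b, B.e b ⊗ₖ (f.h i x * E.a i b x) :
        Matrix (B.κ × F.ρ) (B.κ × E.ρ) ℂ) := by
    show ((1 : Matrix B.κ B.κ ℂ) ⊗ₖ f.h i x) *
      (B.α i x ⊗ₖ (1 : Matrix E.ρ E.ρ ℂ) + ∑ b, B.e b ⊗ₖ E.a i b x) = _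
    rw [Matrix.mul_add, Matrix.mul_sum]
    simp only [← Matrix.mul_kronecker_mul, Matrix.mul_one, Matrix.one_mul]
  have key : ∀ (X : Fin n → Matrix (B.κ × F.ρ) (B.κ × E.ρ) ℂ)
      (Y Z : Matrix (B.κ × F.ρ) (B.κ × E.ρ) ℂ),
      (∀ b, X b = B.e b ⊗ₖ dbM A i b (f.h i) x) →
      Y = B.α i x ⊗ₖ f.h i x + ∑ b, B.e b ⊗ₖ (F.a i b x * f.h i x) →
      Z = B.α i x ⊗ₖ f.h i x + ∑ b, B.e b ⊗ₖ (f.h i x * E.a i b x) →
      ∑ b, X b + Y - (1 : ℂ) • Z = ∑ b, B.e b ⊗ₖ dfl f i b x := by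
    intro X Y Z hX hY hZ
    rw [hY, hZ, one_smul, Finset.sum_congr rfl fun b _ => hX b]
    have h4 : ∀ b, B.e b ⊗ₖ dfl f i b x = B.e b ⊗ₖ dbM A i b (f.h i) x +
        B.e b ⊗ₖ (F.a i b x * f.h i x) - B.e b ⊗ₖ (f.h i x * E.a i b x) := by
      intro b
      ext ⟨k, r⟩ ⟨l, s⟩
      simp only [dfl, Matrix.kroneckerMap_apply, Matrix.sub_apply, Matrix.add_apply]
      ring
    rw [Finset.sum_congr rfl fun b _ => h4 b, Finset.sum_sub_distrib, Finset.sum_add_distrib]
    abel
  exact key _ _ _ h1 h2 h3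

/-- the Leibniz rule -/
theorem nab_twH (B : FBun A) (f : VHom E F) {u : A.ι → M → (tw B E).κ → ℂ} {i : A.ι}
    (hu : ∀ k, A.SmAt i (fun x => u i x k)) {x : M} (hx : x ∈ (A.e i).source) :
    nab (tw B F) ((twH B f).act u) i x = (twH B f).h i x *ᵥ nab (tw B E) u i x +
      defM B f i x *ᵥ u i x := by
  rw [FHom.nab_act (twH B f) (twH_sup B f) hu hx, one_smul, dmat_twH B f hx]



/-- the defect as a bundle map of degree `1` -/
def defH (B : FBun A) (f : VHom E F) : FHom 1 (tw B E) (tw B F) :=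
  ((twH B f).dh 1 (twH_sup B f)).cast (by omega)

theorem defH_h (B : FBun A) (f : VHom E F) {i : A.ι} {x : M} (hx : x ∈ (A.e i).source) :
    (defH B f).h i x = defM B f i x := dmat_twH B f hx

theorem nab_twH' (B : FBun A) (f : VHom E F) {u : A.ι → M → (tw B E).κ → ℂ}
    (hu : u ∈ Sec (tw B E)) :
    nab (tw B F) ((twH B f).act u) = (twH B f).act (nab (tw B E) u) + (defH B f).act u := by
  funext i x
  rw [Pi.add_apply, Pi.add_apply]
  by_cases hx : x ∈ (A.e i).source
  · rw [nab_twH B f (hu.1 i) hx, FHom.act_apply, FHom.act_apply, defH_h B f hx]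
  · have h1 : nab (tw B F) ((twH B f).act u) i x = 0 := if_neg hx
    have h2 : nab (tw B E) u i x = 0 := if_neg hx
    rw [h1, FHom.act_apply, FHom.act_apply, h2, hu.2.1 i x hx, Matrix.mulVec_zero,
      Matrix.mulVec_zero, add_zero]

theorem kron_mulVec {κ ρ₁ ρ₂ ρ₃ : Type} [Fintype κ] [DecidableEq κ] [Fintype ρ₁] [Fintype ρ₂]
    (f : Matrix ρ₃ ρ₂ ℂ) (f' : Matrix ρ₂ ρ₁ ℂ) (v : κ × ρ₁ → ℂ) :
    ((1 : Matrix κ κ ℂ) ⊗ₖ f) *ᵥ (((1 : Matrix κ κ ℂ) ⊗ₖ f') *ᵥ v) =
      ((1 : Matrix κ κ ℂ) ⊗ₖ (f * f')) *ᵥ v := by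
  rw [Matrix.mulVec_mulVec, ← Matrix.mul_kronecker_mul, Matrix.one_mul]

/-- composition -/
theorem twH_comp_act (B : FBun A) (f : VHom F G) (f' : VHom E F)
    (u : A.ι → M → (tw B E).κ → ℂ) :
    (twH B f).act ((twH B f').act u) = (twH B (f.comp f')).act u := by
  funext i x
  exact kron_mulVec (f.h i x) (f'.h i x) (u i x)

theorem kron_one_mulVec {κ ρ : Type} [Fintype κ] [DecidableEq κ] [Fintype ρ] [DecidableEq ρ]
    {f : Matrix ρ ρ ℂ} (hf : f = 1) (v : κ × ρ → ℂ) :
    ((1 : Matrix κ κ ℂ) ⊗ₖ f) *ᵥ v = v := by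
  rw [hf, Matrix.one_kronecker_one, Matrix.one_mulVec]

theorem twH_act_of_one (B : FBun A) {f : VHom E E} (hf : ∀ i, ∀ x ∈ (A.e i).source, f.h i x = 1)
    {u : A.ι → M → (tw B E).κ → ℂ} (hu : u ∈ Sec (tw B E)) : (twH B f).act u = u := by
  funext i x
  by_cases hx : x ∈ (A.e i).source
  · exact kron_one_mulVec (hf i x hx) (u i x)
  · rw [FHom.act_apply, hu.2.1 i x hx, Matrix.mulVec_zero]

/-- **the linear equivalence of sections of an isomorphism** -/
def secE (B : FBun A) (φ : VIso E F) : Sec (tw B E) ≃ₗ[ℂ] Sec (tw B F) :=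
  LinearEquiv.ofLinearMap (twH B φ.hom).actL (twH B φ.inv).actL
    (by
      apply LinearMap.ext
      intro u
      apply Subtype.ext
      show (twH B φ.hom).act ((twH B φ.inv).act u.1) = u.1
      rw [twH_comp_act]
      exact twH_act_of_one B (fun i x hx => φ.right i x hx) u.2)
    (by
      apply LinearMap.ext
      intro u
      apply Subtype.ext
      show (twH B φ.inv).act ((twH B φ.hom).act u.1) = u.1
      rw [twH_comp_act]
      exact twH_act_of_one B (fun i x hx => φ.left i x hx) u.2)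





/-- the intertwining relation with its zero order defect -/
theorem nabL_secE (B : FBun A) (φ : VIso E F) (u : Sec (tw B E)) :
    nabL (tw B F) (secE B φ u) = secE B φ (nabL (tw B E) u) + (defH B φ.hom).actL u :=
  Subtype.ext (nab_twH' B φ.hom u.2)


end twH

/-! ### the isomorphism with `EcV` -/

section

variable {Y : Type} [TopologicalSpace Y] {A : Atl 2 Y}
variable {P : Part A} {θ : A.ι → A.ι → Y → ℂ} {c : A.ι → A.ι → A.ι → ℤ}

/-- multiplication by `exp (2πi F)` as an isomorphism `L ≅ EcV` (not flat) -/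
def gIso' (P : Part A) (L : LB A) (hc : c ∈ GC293.Z2 A ℤ) (hθ : IsLog A L.g θ c) :
    VIso L.toVB (EcV P hc) :=
  IsLine.lineIso (isLine_LB L) (isLine_EcV P hc)
    (fun i x => Complex.exp (2 * Real.pi * I * gF P c θ i x))
    (fun i x hx => ((SmP.const _).mul (smP_gF hθ hx)).exp)
    (fun i x hx => Complex.exp_ne_zero _) (fun i j x hx => gF_tr hθ hc hx)



/-- the defect is `2πi α exp (2πi F)` -/
theorem gIso'_dfl (P : Part A) (L : LB A) (hc : c ∈ GC293.Z2 A ℤ) (hθ : IsLog A L.g θ c)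
    {i : A.ι} {x : Y} (hx : x ∈ (A.e i).source) (b : Fin 2) (k l : Unit) :
    dfl (gIso' P L hc hθ).hom i b x k l =
      2 * Real.pi * I * al P c θ i b x * Complex.exp (2 * Real.pi * I * gF P c θ i x) := by
  have h1 : dfl (gIso' P L hc hθ).hom i b x =
      (u1 (A.db i b (fun y => Complex.exp (2 * Real.pi * I * gF P c θ i y)) x) +
        u1 (2 * Real.pi * I * vv P c i b x) * u1 (Complex.exp (2 * Real.pi * I * gF P c θ i x)) -
        u1 (Complex.exp (2 * Real.pi * I * gF P c θ i x)) * u1 0 : Matrix Unit Unit ℂ) := rfl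
  rw [h1, u1_mul, u1_mul, db_cexp b (smP_gF hθ hx) hx]
  show Complex.exp (2 * Real.pi * I * gF P c θ i x) *
      (2 * Real.pi * I * A.db i b (gF P c θ i) x) +
    2 * Real.pi * I * vv P c i b x * Complex.exp (2 * Real.pi * I * gF P c θ i x) -
    Complex.exp (2 * Real.pi * I * gF P c θ i x) * 0 = _
  unfold al
  ring

end

end

end Crest.Agent.R275.Gau511
end

-- ▼ part R275/GauD_511

/-!
# R275, block P, leaf GAUGE (helper511), part 4: the index of `L` is the index of `EcV P c`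

* `LE_of_MB` : multiplication by a family of matrices of local size `c` satisfies the local
  estimates `LE Q r c`.
* `mb_of_wb` : `MB` on a periodic atlas from the weighted bounds `WB`.
* `IsDG`, `IsDQ` : graded scales / quasi-complexes on the weighted spaces `WSm B w` given by the
  degrees and `∇`.
* `ind_eq_gauge` : general gauge invariance; `ind_eq_EcV` : `ind L = ind (EcV P c)`.
-/

set_option autoImplicit false
set_option linter.unusedSectionVars false
set_option linter.unusedVariables false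

open Set Filter Topology Complex Metric
open scoped ContDiff Matrix ComplexConjugate Kronecker

namespace Crest.Agent.R275.Gau511

open Geo Fm96 NAtl938 EcV938 Wy5197 VCal131 Core144 WB658 JB658
open Crest.Agent.R275.FHom556 (FHom)
open Crest.Agent.R275.WY681 Crest.Agent.R275.WY4193 Crest.Agent.R275.Fred685
open Crest.Agent.R275.Tor812 Crest.Agent.R275.C1d194

noncomputable section

/-! ### local estimates of multiplication operators -/

section LE

variable {n : ℕ} {M : Type} [TopologicalSpace M] {A : Atl n M} {P : Part A}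
variable {B B' : FBun A}

theorem sum_Nr_zero {Q : PNb P} (i : A.ι) (x : A.ι → ℝ) : ∑ j ∈ Q.Nr 0 i, x j = x i := by
  have : Q.Nr 0 i = {i} := by
    ext j
    rw [Q.mem_Nr_zero, Finset.mem_singleton]
  rw [this, Finset.sum_singleton]

/-- **multiplication by a family of local size `c` raising the degree by `r`** -/
theorem LE_of_MB (Q : PNb P) {r : ℕ} {c : A.ι → ℝ} (H : FHom r B B') (hH : MB P H.h c)
    (hc : ∀ i, 0 ≤ c i) (hB : ∀ k, B'.deg k ≤ n) : LE Q r c H.actL := by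
  refine WY681.LE.mk' 0 fun s => ?_
  obtain ⟨C, hC, h1⟩ := hH.rows hc (sh₁ := sh B') (sh₂ := sh B) (r := r) (fun i x k l hkl => by
    have h2 := H.degr i x k l hkl
    have h3 := hB k
    unfold sh
    omega) s
  refine ⟨C, hC, fun u i k => ?_⟩
  rw [sum_Nr_zero, mul_assoc]
  exact h1 i (u.1 i) (u.2.1 i) k


end LE

/-! ### from weighted bounds on a periodic atlas to local sizes -/

section wb

variable {n : ℕ} {Y : Type} [TopologicalSpace Y] {N : NAtl n Y} {g : Y ≃ₜ Y} {h : Y → ℝ}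
variable {Pr : N.Per g h} (Q : EPart N Pr)

theorem mb_of_wb {κ₁ κ₂ : Type} [Finite κ₁] [Finite κ₂] {w : Y → ℝ} {c : N.ι → ℝ}
    (hc : ∀ i, 0 ≤ c i)
    {F : N.ι → Y → Matrix κ₁ κ₂ ℂ} (hsm : ∀ i k l, N.sm.SmAt i (fun x => F i x k l))
    (hw : ∀ i, ∀ x ∈ N.B Q.ρ i, w x ≤ c i)
    (hF : ∀ k l, WB N.big (σ := N.ι) (fun i => i) (fun i => N.B Q.ρ i) w (fun i x => F i x k l)) :
    MB Q.toPart F c := by
  classical
  have := Fintype.ofFinite κ₁
  have := Fintype.ofFinite κ₂
  refine ⟨hsm, fun s => ?_⟩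
  choose C hC0 hC using fun k l => (hF k l).bd s
  refine ⟨∑ k, ∑ l, C k l, Finset.sum_nonneg fun k _ => Finset.sum_nonneg fun l _ => hC0 _ _,
    fun i k l x hx => ?_⟩
  have hx' : x ∈ N.B Q.ρ i := Q.core_sub i (Q.ψ_sub i hx)
  refine ((hC k l i x hx').trans (mul_le_mul_of_nonneg_left (hw i x hx') (hC0 k l))).trans ?_
  refine mul_le_mul_of_nonneg_right ?_ (hc i)
  refine le_trans ?_ (Finset.single_le_sum (f := fun k => ∑ l, C k l)
    (fun k _ => Finset.sum_nonneg fun l _ => hC0 _ _) (Finset.mem_univ k))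
  exact Finset.single_le_sum (f := fun l => C k l) (fun l _ => hC0 _ _) (Finset.mem_univ l)

/-- the local size of the weight `exp (-ρ |h|)` -/
def ce (Pr : N.Per g h) (ρ : ℝ) (i : N.ι) : ℝ :=
  Real.exp (ρ * Pr.W) * we h ρ (src_ne (N := N) i).some

theorem ce_pos (ρ : ℝ) (i : N.ι) : 0 < ce Pr ρ i := mul_pos (Real.exp_pos _) (we_pos _ _ _)

theorem we_le_ce {ρ : ℝ} (hρ : 0 ≤ ρ) (i : N.ι) {x : Y} (hx : x ∈ (N.E i).source) :
    we h ρ x ≤ ce Pr ρ i := by
  unfold ce we
  rw [← Real.exp_add]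
  apply Real.exp_le_exp.2
  have h1 := Pr.osc i x hx _ (src_ne (N := N) i).some_mem
  have h2 : |h (src_ne (N := N) i).some| ≤ |h x| + Pr.W := by
    have h3 := abs_sub_abs_le_abs_sub (h (src_ne (N := N) i).some) (h x)
    rw [abs_sub_comm] at h3
    linarith
  nlinarith [mul_le_mul_of_nonneg_left h2 hρ]

theorem finite_ce {ρ : ℝ} (hρ : 0 < ρ) {ε : ℝ} (hε : 0 < ε) : {i | ε < ce Pr ρ i}.Finite := by
  set R : ℝ := (ρ * Pr.W - Real.log ε) / ρ with hR
  refine (Pr.lf (-R) R).subset fun i hi => ?_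
  refine ⟨_, (src_ne (N := N) i).some_mem, abs_le.1 ?_⟩
  have h1 : ε < Real.exp (ρ * Pr.W + -ρ * |h (src_ne (N := N) i).some|) := by
    rw [Real.exp_add]; exact hi
  have h2 := (Real.log_lt_iff_lt_exp hε).2 h1
  rw [hR, le_div_iff₀ hρ]
  nlinarith

end wb

/-! ### graded scales and quasi-complexes on the weighted spaces -/

section gauge

variable {n : ℕ} {M : Type} [TopologicalSpace M] {A : Atl n M} {P : Part A} {Q : PNb P}

/-- the grading of the weighted space by the degrees, involution `(-1)^deg` -/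
structure IsDG {B : FBun A} (hB : BGeo P B) (w : Wt Q) (G : Gd (sc hB w)) : Prop where
  pi : ∀ q (v : WSm B w), ((G.π q v : WSm B w) : Sec B) = pqL B q v.1
  T : G.T = G.sgn

/-- the quasi-complex of `∇` on the weighted space -/
structure IsDQ {B : FBun A} {hB : BGeo P B} {w : Wt Q} {G : Gd (sc hB w)} (D : QC G) : Prop where
  dg : IsDG hB w G
  d : ∀ v : WSm B w, ((D.d v : WSm B w) : Sec B) = nabL B v.1

variable {E F : VBun A} (B : FBun A)

theorem dom_one (w : Wt Q) : Dom (fun _ => 1) w w := ⟨1, zero_le_one, fun i => by simp⟩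

theorem dom_of_le {c : A.ι → ℝ} {C : ℝ} (hC : 0 ≤ C) (h : ∀ i, c i ≤ C) (w : Wt Q) : Dom c w w :=
  ⟨C, hC, fun i => by
    rw [mul_comm]
    exact mul_le_mul_of_nonneg_right (h i) (w.pos i).le⟩

variable (φ : VIso E F)

theorem act_mem (hF : BGeo P (tw B F)) (h1 : MB P (twH B φ.hom).h fun _ => 1) (w : Wt Q) :
    ∀ u ∈ WSm (tw B E) w, secE B φ u ∈ WSm (tw B F) w :=
  (LE_of_MB Q (twH B φ.hom) h1 (fun _ => zero_le_one) hF.deg_le).mem (dom_one w)

theorem act_mem' (hE : BGeo P (tw B E)) (h2 : MB P (twH B φ.inv).h fun _ => 1) (w : Wt Q) :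
    ∀ u ∈ WSm (tw B F) w, (secE B φ).symm u ∈ WSm (tw B E) w :=
  (LE_of_MB Q (twH B φ.inv) h2 (fun _ => zero_le_one) hE.deg_le).mem (dom_one w)

/-- the equivalence of the weighted spaces -/
def wsE (hE : BGeo P (tw B E)) (hF : BGeo P (tw B F)) (h1 : MB P (twH B φ.hom).h fun _ => 1)
    (h2 : MB P (twH B φ.inv).h fun _ => 1) (w : Wt Q) : WSm (tw B E) w ≃ₗ[ℂ] WSm (tw B F) w where
  toFun u := ⟨secE B φ u.1, act_mem B φ hF h1 w u.1 u.2⟩
  map_add' u v := Subtype.ext (map_add (secE B φ) u.1 v.1)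
  map_smul' c u := Subtype.ext (map_smul (secE B φ) c u.1)
  invFun u := ⟨(secE B φ).symm u.1, act_mem' B φ hE h2 w u.1 u.2⟩
  left_inv u := Subtype.ext ((secE B φ).symm_apply_apply u.1)
  right_inv u := Subtype.ext ((secE B φ).apply_symm_apply u.1)

theorem pqL_secE (q : ℕ) (u : Sec (tw B E)) :
    secE B φ (pqL (tw B E) q u) = pqL (tw B F) q (secE B φ u) := by
  apply Subtype.ext
  funext i x
  funext k
  have h1 : ((secE B φ) ((pqL (tw B E) q) u)).1 i x k =
      ∑ l, (twH B φ.hom).h i x k l * pq (tw B E) q u.1 i x l := rfl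
  have h2 : (pqL (tw B F) q (secE B φ u)).1 i x k =
      pq (tw B F) q ((twH B φ.hom).act u.1) i x k := rfl
  rw [h1, h2, pq_apply]
  have h3 : ∀ l, (twH B φ.hom).h i x k l * pq (tw B E) q u.1 i x l =
      if (tw B F).deg k = q then (twH B φ.hom).h i x k l * u.1 i x l else 0 := by
    intro l
    rw [pq_apply]
    by_cases hz : (twH B φ.hom).h i x k l = 0
    · rw [hz]; simp
    · have h4 := (twH B φ.hom).degr i x k l hz
      rw [add_zero] at h4
      rw [h4]
      split_ifs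
      · rfl
      · rw [mul_zero]
  rw [Finset.sum_congr rfl fun l _ => h3 l]
  split_ifs
  · rfl
  · simp

variable {hE : BGeo P (tw B E)} {hF : BGeo P (tw B F)} {w : Wt Q}
  {GE : Gd (sc hE w)} {GF : Gd (sc hF w)}

theorem isoG_wsE (h1 : MB P (twH B φ.hom).h fun _ => 1)
    (h2 : MB P (twH B φ.inv).h fun _ => 1) (hGE : IsDG hE w GE) (hGF : IsDG hF w GF) :
    IsoG GE GF (wsE B φ hE hF h1 h2 w) := by
  have hpi : ∀ q v, wsE B φ hE hF h1 h2 w (GE.π q v) = GF.π q (wsE B φ hE hF h1 h2 w v) := by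
    intro q v
    apply Subtype.ext
    rw [hGF.pi]
    show secE B φ (GE.π q v : WSm (tw B E) w).1 = _
    rw [hGE.pi]
    exact pqL_secE B φ q v.1
  refine ⟨?_, ?_, hpi, fun v => ?_⟩
  · exact (LE_of_MB Q (twH B φ.hom) h1 (fun _ => zero_le_one) hF.deg_le).op0 hE hF (dom_one w)
      (act_mem B φ hF h1 w)
  · exact (LE_of_MB Q (twH B φ.inv) h2 (fun _ => zero_le_one) hE.deg_le).op0 hF hE (dom_one w)
      (act_mem' B φ hE h2 w)
  · rw [hGE.T, hGF.T]
    have hdeg : Deg GE.toGr GF.toGr 0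
        ((wsE B φ hE hF h1 h2 w : WSm (tw B E) w ≃ₗ[ℂ] WSm (tw B F) w) :
          WSm (tw B E) w →ₗ[ℂ] WSm (tw B F) w) := deg_of_comm hpi
    exact hdeg.sgn_even (by simp) v


end gauge

/-! ### the line bundle `L` and `EcV P c` -/

section main

variable {Y : Type} [TopologicalSpace Y] [T2Space Y] {N : NAtl 2 Y} {g : Y ≃ₜ Y} {h : Y → ℝ}
variable {Pr : N.Per g h} (Q : EPart N Pr) (L : LB N.sm) {θ : N.ι → N.ι → Y → ℂ}
  {c : N.ι → N.ι → N.ι → ℤ} {C ρ : ℝ}

theorem mb_hom (B : FBun N.sm) (hc : c ∈ GC293.Z2 N.sm ℤ) (hθ : IsLog N.sm L.g θ c) (hf : Fin3 c)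
    (hρ : 0 ≤ ρ) (hd : Dec2 N.sm h θ C ρ) :
    MB Q.toPart (twH B (gIso' Q.toPart L hc hθ).hom).h fun _ => 1 := by
  refine mb_of_wb Q (w := fun _ => 1) (fun _ => zero_le_one)
    (fun i k l => (twH B (gIso' Q.toPart L hc hθ).hom).smAt i k l)
    (fun i x _ => le_rfl) ?_
  rintro ⟨k, r⟩ ⟨l, s⟩
  exact (wb_expF Q hθ hf hρ hd).cmul ((1 : Matrix B.κ B.κ ℂ) k l)

theorem mb_inv (B : FBun N.sm) (hc : c ∈ GC293.Z2 N.sm ℤ) (hθ : IsLog N.sm L.g θ c) (hf : Fin3 c)
    (hρ : 0 ≤ ρ) (hd : Dec2 N.sm h θ C ρ) :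
    MB Q.toPart (twH B (gIso' Q.toPart L hc hθ).inv).h fun _ => 1 := by
  refine mb_of_wb Q (w := fun _ => 1) (fun _ => zero_le_one)
    (fun i k l => (twH B (gIso' Q.toPart L hc hθ).inv).smAt i k l)
    (fun i x _ => le_rfl) ?_
  rintro ⟨k, r⟩ ⟨l, s⟩
  exact (wb_expF_inv Q hθ hf hρ hd).cmul ((1 : Matrix B.κ B.κ ℂ) k l)

theorem mb_def (B : FBun N.sm) (hc : c ∈ GC293.Z2 N.sm ℤ) (hθ : IsLog N.sm L.g θ c) (hf : Fin3 c)
    (hρ : 0 ≤ ρ) (hd : Dec2 N.sm h θ C ρ) :
    MB Q.toPart (defH B (gIso' Q.toPart L hc hθ).hom).h (ce Pr ρ) := by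
  have hwb : ∀ k l : B.κ, WB N.big (σ := N.ι) (fun i => i) (fun i => N.B Q.ρ i) (we h ρ)
      (fun i x => ∑ b, B.e b k l * (2 * Real.pi * I * (al Q.toPart c θ i b x *
        Complex.exp (2 * Real.pi * I * gF Q.toPart c θ i x)))) := by
    intro k l
    refine WB.sum Finset.univ (fun x => (we_pos h ρ x).le) fun b _ => ?_
    exact ((((wb_al Q hθ hf hd b).mul_right (wb_expF Q hθ hf hρ hd)).cmul
      (2 * Real.pi * I)).cmul (B.e b k l))
  have hO : ∀ i : N.ι, N.B Q.ρ i ⊆ (N.big.e i).source := fun i x hx => by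
    rw [N.big_source]; exact hx.1
  refine mb_of_wb Q (w := we h ρ) (fun i => (ce_pos ρ i).le)
    (fun i k l => (defH B (gIso' Q.toPart L hc hθ).hom).smAt i k l)
    (fun i x hx => we_le_ce hρ i hx.1) ?_
  rintro ⟨k, r⟩ ⟨l, s⟩
  refine (hwb k l).congr hO fun i x hx => ?_
  have hx' : x ∈ (N.sm.e i).source := by
    rw [N.at'_source]; exact N.B_mono Q.ρ_lt.le i hx
  filter_upwards [(N.sm.e i).open_source.mem_nhds hx'] with y hy
  refine (congrFun (congrFun (defH_h B _ hy) (k, r)) (l, s)).trans ?_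
  refine (defM_apply B _ i y k r l s).trans ?_
  refine Finset.sum_congr rfl fun b _ => ?_
  rw [gIso'_dfl Q.toPart L hc hθ hy b r s, mul_assoc (2 * (Real.pi : ℂ) * I)]



end main

end

end Crest.Agent.R275.Gau511
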