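import Crest.Agent.R275.EB_938
import Crest.Agent.R275.EBK_151
import Crest.Agent.R275.RAD_151
import Crest.Agent.R275.KPull_151
import Crest.Agent.R275.XN3_194

-- ▼ part R275/IndN_938
section

/-!
# R275, blocks P / K (helper938): the reduced index as a difference of Euler characteristics on `X_N`

`rr`         : Riemann-Roch on a compact surface with `CMData`, `2 (χ(x) - χ(0)) = x.x - κ.x`
`q0_eq_chi`  : `q0 F c = χ_N(c_N) - χ_N(0)` for `N` large (`c_N` = push-down of the periodisation)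
-/

set_option autoImplicit false
set_option linter.unusedSectionVars false

open Set

namespace Crest.Agent.R275.IndN938

open Geo GC293 XN194 Loc647 NTr151 NGeo151 ChiM825 Smf798 NForm945 KR798 KPull151 Core144 EBF151
open Crest.Agent.R275.EB938 (q0 q0_spec)

noncomputable section

section RR

variable {M : Type} [TopologicalSpace M] [CompactSpace M] {A : Atl 2 M} {P : Part A}
  {I : KIndex (smf A)} {e : ℤ}

/-- Riemann-Roch -/
theorem rr (H : CMData P I e) (x : Z2 A ℤ) :
    2 * (chi P I x - chi P I 0) = bZ P I x x - bZ P I H.kap x := by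
  have h1 : bZ P I (H.kap - x) x = bZ P I H.kap x - bZ P I x x := by
    have := bZ_add (P := P) (I := I) (H.kap - x) x x
    rw [sub_add_cancel] at this
    linarith
  have h2 := H.chi_serre x
  have h3 := H.chi_serre 0
  rw [sub_zero] at h3
  have h4 : bZ P I (H.kap - x) x = chi P I (H.kap - x + x) - chi P I (H.kap - x) - chi P I x +
      chi P I 0 := rfl
  rw [sub_add_cancel] at h4
  linarith

end RR

section main

variable {M Z : Type} [TopologicalSpace M] [TopologicalSpace Z] {A : Atl 2 M} [Finite A.ι]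
  {C : KCov A Z ℤ} {hpc : PreC A} {W : Weight (nerve C hpc)}

/-- **the reduced index on `X_N`** -/
theorem q0_eq_chi {F : Forms (nerve C hpc)} (hIN : ∀ N c d, F.IN N c d = W.INZ N c d)
    {κ : A.ι → A.ι → A.ι → ℤ} (hκ : IsC1 (slb (KB A)) κ) (hkap : F.kap = kapY C hpc κ)
    {c : C2 (A.ι × ℤ)} (hc : c ∈ (nerve C hpc).Z2c) :
    ∃ N₀ : ℕ, ∀ N : ℕ, N₀ < N → ∀ (hN : 1 ≤ N) (e : ℤ) (D : XNIn W N e),
      q0 F c = chi D.part D.I (dn D.F D.hφ hpc ((nerve C hpc).per N c)
        ((nerve C hpc).per_mem hN hc)) - chi D.part D.I 0 := by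
  obtain ⟨N₀, hN₀⟩ := F.IN_per_large hc hc
  refine ⟨N₀, fun N hNN hN e D => ?_⟩
  have hp := (nerve C hpc).per_mem hN hc
  have hkN : kapY C hpc κ ∈ (nerve C hpc).Z2p N := mem_Z2p_of_one (kapY_mem hκ.mem_Z2) N
  have h1 := hN₀ N hNN
  have h2 := F.IN_per N hN F.kap (by rw [hkap]; exact hkN) c hc
  have h3 := (q0_spec F hc).1
  have h4 := rr D.cm (dn D.F D.hφ hpc _ hp)
  have hW : ∀ c (hc : c ∈ (nerve C hpc).Z2p N) d (hd : d ∈ (nerve C hpc).Z2p N),
      W.INZ N c d = bZ D.part D.I (dn D.F D.hφ hpc c hc) (dn D.F D.hφ hpc d hd) := by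
    intro c hc d hd
    have h := W.INZ_cast ⟨_, D.hW c hc d hd⟩
    rw [D.hW c hc d hd] at h
    exact_mod_cast h
  rw [bZ_congr_left (kap_sub_mem (hpc := hpc) D.F D.hφ D.cm hκ), ← hW _ hp _ hp,
    ← hW _ hkN _ hp] at h4
  rw [hIN] at h1 h2
  rw [hkap] at h2 h3
  rw [← h1, ← h2] at h3
  have h5 : W.INZ N ((nerve C hpc).per N c) ((nerve C hpc).per N c) -
      W.INZ N (kapY C hpc κ) ((nerve C hpc).per N c) = 2 * q0 F c := by
    have : ((W.INZ N ((nerve C hpc).per N c) ((nerve C hpc).per N c) -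
      W.INZ N (kapY C hpc κ) ((nerve C hpc).per N c) : ℤ) : ℝ) = ((2 * q0 F c : ℤ) : ℝ) := by
      push_cast
      exact h3
    exact_mod_cast this
  omega

end main

end

end Crest.Agent.R275.IndN938
end

-- ▼ part R275/RADb_151
section

/-!
R275 (S0418), block K/Q (helper151): CHANGE OF RADIUS, line bundles, Chern cocycles, indices.

* `resLB`, `resSLB`, `resC`, `resZ` : restrictions to a finer atlas; `isHS_rs`, `resLB_KB`;
* `chiE_res` : `χ(res L) = χ(L)`; `hq_res`;
* `chi_res` : `chi P I (resZ c) = chi P' I' c` from `CMData.euler` on both sides and HOLSTR;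
* `bZ_res`, `kap_res`;
* instances: `atR : Refine (N.at' ρ) (N.at' σ)`, `liftR : Refine ((nlift N C).at' ρ) C.lift`,
  `liftR' : Refine C.lift (nlift N C).big`.
-/

set_option autoImplicit false
set_option linter.unusedSectionVars false

open Set Filter Topology
open scoped ContDiff

noncomputable section

namespace Crest.Agent.R275.RAD151

open Geo Fm96 Q74 GC293 ChiM825 Core144 Smf798 KR798

namespace Refine

section gen

variable {n : ℕ} {M : Type} [TopologicalSpace M] {A A' : Atl n M} (R : Refine A A')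

/-! ### cochains -/

/-- restriction of 2-cochains -/
def resC {T : Type*} (c : A'.ι → A'.ι → A'.ι → T) : A.ι → A.ι → A.ι → T :=
  fun i j k => c (R.r i) (R.r j) (R.r k)

theorem resC_mem_Z2 {T : Type*} [AddCommGroup T] {c : A'.ι → A'.ι → A'.ι → T}
    (h : c ∈ Z2 A' T) : R.resC c ∈ Z2 A T := by
  rintro i j k l ⟨x, ⟨⟨hi, hj⟩, hk⟩, hl⟩
  exact h _ _ _ _ ⟨x, ⟨⟨R.src i hi, R.src j hj⟩, R.src k hk⟩, R.src l hl⟩


/-- restriction of 2-cocycles -/
def resZ : Z2 A' ℤ →+ Z2 A ℤ where
  toFun c := ⟨R.resC c.1, R.resC_mem_Z2 c.2⟩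
  map_zero' := rfl
  map_add' _ _ := rfl

@[simp] theorem resZ_coe (c : Z2 A' ℤ) : (R.resZ c).1 = R.resC c.1 := rfl

/-! ### smooth line bundles -/

include R in
theorem smOn_res {W : Type*} [NormedAddCommGroup W] [NormedSpace ℝ W] {U : Set M} {f : M → W}
    (h : GC293.SmOn A' U f) : GC293.SmOn A U f := by
  intro x hx i hi
  have h1 := h x hx (R.r i) (R.src i hi)
  rw [R.comp i x hi] at h1
  exact h1.congr_of_eventuallyEq (R.read f hi)

theorem U2_sub (i j : A.ι) : U2 A i j ⊆ U2 A' (R.r i) (R.r j) := fun _ hx => R.mem_src hx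

theorem U3_sub (i j k : A.ι) : U3 A i j k ⊆ U3 A' (R.r i) (R.r j) (R.r k) :=
  fun _ hx => ⟨R.mem_src hx.1, R.src k hx.2⟩

/-- restriction of a smooth line bundle -/
def resSLB (L : SLB A') : SLB A where
  g i j x := L.g (R.r i) (R.r j) x
  sm i j := (R.smOn_res (L.sm (R.r i) (R.r j))).mono (R.U2_sub i j)
  one i x hx := L.one _ _ (R.src i hx)
  mul i j k x hx := L.mul _ _ _ _ (R.U3_sub i j k hx)

@[simp] theorem resSLB_g (L : SLB A') (i j : A.ι) (x : M) :
    (R.resSLB L).g i j x = L.g (R.r i) (R.r j) x := rfl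

theorem iso_res {L L' : SLB A'} (h : SLB.Iso L L') : SLB.Iso (R.resSLB L) (R.resSLB L') := by
  obtain ⟨η, h1, h2, h3⟩ := h
  exact ⟨fun i x => η (R.r i) x, fun i => (R.smOn_res (h1 (R.r i))).mono (R.src i),
    fun i x hx => h2 _ _ (R.src i hx), fun i j x hx => h3 _ _ _ (R.U2_sub i j hx)⟩

theorem isC1_res {L : SLB A'} {c : A'.ι → A'.ι → A'.ι → ℤ} (h : IsC1 L c) :
    IsC1 (R.resSLB L) (R.resC c) := by
  obtain ⟨φ, h1, h2, h3⟩ := h
  exact ⟨fun i j x => φ (R.r i) (R.r j) x,
    fun i j => (R.smOn_res (h1 (R.r i) (R.r j))).mono (R.U2_sub i j),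
    fun i j x hx => h2 _ _ _ (R.U2_sub i j hx), fun i j k x hx => h3 _ _ _ _ (R.U3_sub i j k hx)⟩

/-! ### holomorphic line bundles -/

theorem holAt_res {i : A.ι} {U : Set M} {f : M → ℂ} (h : HolAt A' (R.r i) U f) :
    HolAt A i U f := by
  have h1 : DifferentiableOn ℂ (fun z => f ((A'.e (R.r i)).symm z))
      ((A.e i).target ∩ (A.e i).symm ⁻¹' U) := by
    refine DifferentiableOn.mono h fun z hz => ⟨R.tgt i hz.1, ?_⟩
    rw [mem_preimage, R.symm_eq hz.1]
    exact hz.2
  exact DifferentiableOn.congr h1 fun z hz => by rw [R.symm_eq hz.1]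

open Classical in
/-- restriction of a holomorphic line bundle -/
def resLB : LB A' →* LB A where
  toFun L :=
    { g := fun i j x =>
        if x ∈ (A.e i).source ∩ (A.e j).source then L.g (R.r i) (R.r j) x else 1
      hol := fun i j => by
        refine ((R.holAt_res (L.hol (R.r i) (R.r j))).mono (R.src j)).congr fun x hx hxj => ?_
        rw [if_pos ⟨hx, hxj⟩]
      off := fun i j x hx => if_neg hx
      self := fun i x => by
        split_ifs with hx
        · exact L.self _ _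
        · rfl
      mul := fun i j k x hx => by
        rw [if_pos hx.1, if_pos ⟨hx.1.2, hx.2⟩, if_pos ⟨hx.1.1, hx.2⟩]
        exact L.mul _ _ _ x ⟨R.mem_src hx.1, R.src k hx.2⟩ }
  map_one' := by
    ext i j x
    exact ite_self 1
  map_mul' L L' := by
    ext i j x
    simp only [LB.mul_g]
    split_ifs <;> simp

theorem resLB_g (L : LB A') {i j : A.ι} {x : M} (hx : x ∈ (A.e i).source ∩ (A.e j).source) :
    (R.resLB L).g i j x = L.g (R.r i) (R.r j) x := if_pos hx



theorem iso_slb (L : LB A') : SLB.Iso (R.resSLB (slb L)) (slb (R.resLB L)) :=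
  ⟨fun _ _ => 1, fun _ => smOn_const 1, fun _ _ _ => one_ne_zero, fun i j x hx => by
    change 1 * (R.resLB L).g i j x = L.g (R.r i) (R.r j) x * 1
    rw [R.resLB_g L hx, one_mul, mul_one]⟩



end gen

/-! ### Euler characteristics and indices -/

section surf

variable {M : Type} [TopologicalSpace M] {A A' : Atl 2 M} (R : Refine A A')

theorem eqg_resLB (L : LB A') : R.Eqg (R.resLB L).g L.g := fun _ _ _ hx => R.resLB_g L hx

/-- **Euler characteristics agree** -/
theorem chiE_refine {g : A.ι → A.ι → M → ℂ} {g' : A'.ι → A'.ι → M → ℂ} (hg : IsLC A g)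
    (hg' : IsLC A' g') (hgg : R.Eqg g g') : chiE hg' = chiE hg :=
  chiQ_eq (eq0 hg' hgg) (eq1 hg' hgg) (eq2 hg' hgg) (eq1_D0 hg hg' hgg) (eq2_D1 hg hg' hgg)


theorem chiE_res (L : LB A') : chiE (isLC (R.resLB L)) = chiE (isLC L) :=
  (R.chiE_refine (isLC (R.resLB L)) (isLC L) (R.eqg_resLB L)).symm





variable [CompactSpace M] {P : Part A} {I : KIndex (smf A)} {P' : Part A'} {I' : KIndex (smf A')}

/-- **the index of a class does not depend on the radius** -/
theorem chi_res (eu : ∀ L : LB A, chiL P I (slb L) = chiE (isLC L))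
    (eu' : ∀ L : LB A', chiL P' I' (slb L) = chiE (isLC L))
    (hol' : ∀ L : SLB A', ∃ L' : LB A', SLB.Iso L (slb L')) (c : Z2 A' ℤ) :
    chi P I (R.resZ c) = chi P' I' c := by
  obtain ⟨L', hL'⟩ := hol' (LofC P' c)
  have h1 : chi P' I' c = chiE (isLC L') := by
    rw [← eu' L', ← chiL_congr hL']
    rfl
  have h2 : chi P I (R.resZ c) = chiL P I (R.resSLB (LofC P' c)) :=
    chi_eq' (c := R.resZ c) (R.isC1_res (isC1_LofC P' c))
  rw [h2, h1, chiL_congr ((R.iso_res hL').trans (R.iso_slb L')), eu, R.chiE_res]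


variable {e e' : ℤ}




end surf

/-! ### instances -/

section inst

open NAtl938 XN194

variable {n : ℕ} {M Z K : Type} [TopologicalSpace M] [TopologicalSpace Z] [AddCommGroup K]


/-- the lifts of the balls of radius `ρ` in the lifts of the big balls -/
def liftR (N : NAtl n M) (C : KCov N.big Z K) {ρ : ℝ} (hρ : N.r ≤ ρ) :
    Refine ((nlift N C).at' ρ hρ) C.lift where
  r := id
  src q _ hz := (((nlift N C).at'_source hρ q).subset hz).1
  comp _ _ _ := rfl


end inst

end Refine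

end Crest.Agent.R275.RAD151
end
end

-- ▼ part R275/IndR_151

/-!
# R275, blocks K / P (helper151): the reduced index on a FINER atlas of `X_N`

* `q0_eq_chi_res` : `q0 F c = χ_s(res c_N) - χ_s(0)` for `N` large, for every refinement `A_s` of
  the big atlas of `X_N` (e.g. `Refine.liftR`, the balls of radius `ρ`) and every index `I_s` on
  `A_s` with `chiL P_s I_s (slb L) = chiE (isLC L)` (130's `EulC130.euler`).
-/

set_option autoImplicit false
set_option linter.unusedSectionVars false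

open Set

namespace Crest.Agent.R275.IndR151

open Geo GC293 XN194 Loc647 NTr151 NGeo151 ChiM825 Smf798 NForm945 KR798 KPull151 Core144 EBF151
  RAD151 Fm96 Q74
open Crest.Agent.R275.EB938 (q0 q0_spec)

noncomputable section

variable {M Z : Type} [TopologicalSpace M] [TopologicalSpace Z] {A : Atl 2 M} [Finite A.ι]
  {C : KCov A Z ℤ} {hpc : PreC A} {W : Weight (nerve C hpc)}

/-- **the reduced index on a finer atlas of `X_N`** -/
theorem q0_eq_chi_res {F : Forms (nerve C hpc)} (hIN : ∀ N c d, F.IN N c d = W.INZ N c d)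
    {κ : A.ι → A.ι → A.ι → ℤ} (hκ : IsC1 (slb (KB A)) κ) (hkap : F.kap = kapY C hpc κ)
    {c : C2 (A.ι × ℤ)} (hc : c ∈ (nerve C hpc).Z2c) :
    ∃ N₀ : ℕ, ∀ N : ℕ, N₀ < N → ∀ (hN : 1 ≤ N) (e : ℤ) (D : XNIn W N e)
      {As : Atl 2 D.X} (R : Refine As D.C'.lift) (Ps : Part As) (Is : KIndex (smf As)),
      (∀ L : LB As, chiL Ps Is (slb L) = chiE (isLC L)) →
      q0 F c = chi Ps Is (R.resZ (dn D.F D.hφ hpc ((nerve C hpc).per N c)
        ((nerve C hpc).per_mem hN hc))) - chi Ps Is 0 := by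
  obtain ⟨N₀, h⟩ := IndN938.q0_eq_chi hIN hκ hkap hc
  refine ⟨N₀, fun N hNN hN e D As R Ps Is eu => ?_⟩
  have h1 := R.chi_res eu D.cm.euler D.cm.hol (dn D.F D.hφ hpc ((nerve C hpc).per N c)
        ((nerve C hpc).per_mem hN hc))
  have h2 := R.chi_res eu D.cm.euler D.cm.hol 0
  rw [map_zero] at h2
  rw [h N hNN hN e D, h1, h2]

end

end Crest.Agent.R275.IndR151
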