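import Crest.Agent.R275.LocDef_647
import Mathlib

-- ▼ part R275/LocGlue_647
section

/-!
R275 (S0418), helper647, block K': cutting and gluing of periodic integral cocycles.
-/

set_option autoImplicit false

open Finset

noncomputable section

namespace Crest.Agent.R275.Loc647

namespace Nerve

variable {V : Type*} (P : Nerve V)

/-! ### the action of `g^n` -/

theorem p_pow (n : ℤ) (v : V) : P.p ((P.g ^ n) v) = P.p v + n := by
  induction n using Int.induction_on with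
  | zero => simp
  | succ n ih =>
    rw [add_comm, zpow_add, zpow_one, Equiv.Perm.mul_apply, P.p_g, ih]; ring
  | pred n ih =>
    have h := P.p_g ((P.g ^ (-(n : ℤ) - 1)) v)
    rw [← Equiv.Perm.mul_apply, ← zpow_one_add] at h
    rw [show (1 : ℤ) + (-(n : ℤ) - 1) = -(n : ℤ) by ring, ih] at h
    linarith

theorem pow_pow (m n : ℤ) (v : V) : (P.g ^ m) ((P.g ^ n) v) = (P.g ^ (m + n)) v := by
  rw [← Equiv.Perm.mul_apply, ← zpow_add]

theorem N3_pow (n : ℤ) (i j k : V) :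
    P.N3 ((P.g ^ n) i) ((P.g ^ n) j) ((P.g ^ n) k) ↔ P.N3 i j k := by
  induction n using Int.induction_on with
  | zero => simp
  | succ n ih =>
    rw [add_comm, zpow_add, zpow_one, Equiv.Perm.mul_apply, Equiv.Perm.mul_apply,
      Equiv.Perm.mul_apply, P.N3_g, ih]
  | pred n ih =>
    have h := P.N3_g ((P.g ^ (-(n : ℤ) - 1)) i) ((P.g ^ (-(n : ℤ) - 1)) j)
      ((P.g ^ (-(n : ℤ) - 1)) k)
    rw [← Equiv.Perm.mul_apply, ← Equiv.Perm.mul_apply, ← Equiv.Perm.mul_apply,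
      ← zpow_one_add] at h
    rw [show (1 : ℤ) + (-(n : ℤ) - 1) = -(n : ℤ) by ring, ih] at h
    exact h.symm

theorem N4_pow (n : ℤ) (i j k l : V) :
    P.N4 ((P.g ^ n) i) ((P.g ^ n) j) ((P.g ^ n) k) ((P.g ^ n) l) ↔ P.N4 i j k l := by
  induction n using Int.induction_on with
  | zero => simp
  | succ n ih =>
    rw [add_comm, zpow_add, zpow_one, Equiv.Perm.mul_apply, Equiv.Perm.mul_apply,
      Equiv.Perm.mul_apply, Equiv.Perm.mul_apply, P.N4_g, ih]
  | pred n ih =>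
    have h := P.N4_g ((P.g ^ (-(n : ℤ) - 1)) i) ((P.g ^ (-(n : ℤ) - 1)) j)
      ((P.g ^ (-(n : ℤ) - 1)) k) ((P.g ^ (-(n : ℤ) - 1)) l)
    rw [← Equiv.Perm.mul_apply, ← Equiv.Perm.mul_apply, ← Equiv.Perm.mul_apply,
      ← Equiv.Perm.mul_apply, ← zpow_one_add] at h
    rw [show (1 : ℤ) + (-(n : ℤ) - 1) = -(n : ℤ) by ring, ih] at h
    exact h.symm

theorem sh_apply (n : ℤ) (c : C2 V) (i j k : V) :
    P.sh n c i j k = c ((P.g ^ n) i) ((P.g ^ n) j) ((P.g ^ n) k) := rfl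

theorem sh_sh (m n : ℤ) (c : C2 V) : P.sh m (P.sh n c) = P.sh (m + n) c := by
  funext i j k
  simp only [sh_apply, pow_pow]
  rw [add_comm n m]

@[simp] theorem sh_zero (c : C2 V) : P.sh 0 c = c := by
  funext i j k
  simp [sh_apply]

theorem sh_mem_Z2 {c : C2 V} (hc : c ∈ P.Z2) (n : ℤ) : P.sh n c ∈ P.Z2 := by
  refine ⟨fun i j k h => hc.1 _ _ _ ?_, fun i j k l h => ?_⟩
  · rwa [P.N3_pow]
  · exact hc.2 _ _ _ _ ((P.N4_pow n i j k l).2 h)

theorem sh_mem_Z2c {c : C2 V} (hc : c ∈ P.Z2c) (n : ℤ) : P.sh n c ∈ P.Z2c := by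
  obtain ⟨hc, R, hR⟩ := hc
  refine ⟨P.sh_mem_Z2 hc n, R + |n|, fun i j k h => ?_⟩
  have := hR _ _ _ h
  rw [P.p_pow] at this
  have h2 : |P.p i| ≤ |P.p i + n| + |n| := by
    have := abs_sub (P.p i + n) n
    simpa using this
  linarith

theorem sh_mem_Z2p {N : ℕ} {c : C2 V} (hc : c ∈ P.Z2p N) (n : ℤ) : P.sh n c ∈ P.Z2p N := by
  refine ⟨P.sh_mem_Z2 hc.1 n, ?_⟩
  rw [sh_sh, add_comm, ← sh_sh, hc.2]

theorem Z2p_sh {N : ℕ} {c : C2 V} (hc : c ∈ P.Z2p N) (m : ℤ) : P.sh (m * N) c = c := by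
  induction m using Int.induction_on with
  | zero => simp
  | succ n ih => rw [add_mul, one_mul, add_comm, ← sh_sh, ih, hc.2]
  | pred n ih =>
    have h : P.sh ((-(n : ℤ) - 1) * N) (P.sh N c) = P.sh (-(n : ℤ) * N) c := by
      rw [sh_sh]; congr 2; ring
    rw [hc.2, ih] at h
    exact h

theorem Z2p_mono {k N : ℕ} (h : k ∣ N) : P.Z2p k ≤ P.Z2p N := by
  obtain ⟨m, rfl⟩ := h
  intro c hc
  refine ⟨hc.1, ?_⟩
  have := P.Z2p_sh hc (m : ℤ)
  rw [← this, ← Nat.cast_mul, mul_comm m k, sh_sh, ← two_mul] at *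
  have h2 := P.Z2p_sh hc (2 * m : ℤ)
  have h3 := P.Z2p_sh hc (m : ℤ)
  have e1 : (2 * (↑(k * m) : ℤ)) = (2 * m : ℤ) * k := by push_cast; ring
  have e2 : ((↑(k * m) : ℤ)) = (m : ℤ) * k := by push_cast; ring
  rw [e1, e2, h2, h3]


theorem Z2p_le (N : ℕ) : P.Z2p N ≤ P.Z2 := fun _ h => h.1

/-! ### coboundaries -/

theorem d1_of (b : V → V → ℤ) {i j k : V} (h : P.N3 i j k) :
    P.d1 b i j k = b j k - b i k + b i j := by
  simp [d1, h]

theorem d1_of_not (b : V → V → ℤ) {i j k : V} (h : ¬ P.N3 i j k) : P.d1 b i j k = 0 := by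
  simp [d1, h]

theorem d1_mem_Z2 (b : V → V → ℤ) : P.d1 b ∈ P.Z2 := by
  refine ⟨fun i j k h => P.d1_of_not b h, fun i j k l h => ?_⟩
  rw [P.d1_of b (P.face0 h), P.d1_of b (P.face1 h), P.d1_of b (P.face2 h), P.d1_of b (P.face3 h)]
  ring

theorem d1_mem_Z2p {N : ℕ} {b : V → V → ℤ} (hb : P.Per1 N b) : P.d1 b ∈ P.Z2p N := by
  refine ⟨P.d1_mem_Z2 b, ?_⟩
  funext i j k
  rw [sh_apply]
  by_cases h : P.N3 i j k
  · rw [P.d1_of b h, P.d1_of b ((P.N3_pow _ _ _ _).2 h)]
    have h1 : ∀ x y, b ((P.g ^ (N : ℤ)) x) ((P.g ^ (N : ℤ)) y) = b x y := fun x y => by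
      simpa using hb x y
    rw [h1, h1, h1]
  · rw [P.d1_of_not b h, P.d1_of_not b (fun h' => h ((P.N3_pow _ _ _ _).1 h'))]

/-! ### truncation -/

/-- restrict a periodic cochain to one period -/
def cut (A : ℤ) (N : ℕ) (y : C2 V) : C2 V := fun i j k =>
  if A ≤ P.p i ∧ P.p i < A + N then y i j k else 0

theorem cut_mem {N : ℕ} {y : C2 V} (hy : y ∈ P.Z2p N) (A : ℤ)
    (h0 : ∀ i j k, P.N3 i j k → (A - P.s ≤ P.p i ∧ P.p i ≤ A + P.s) →
      (A - P.s ≤ P.p j ∧ P.p j ≤ A + P.s) → (A - P.s ≤ P.p k ∧ P.p k ≤ A + P.s) →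
      y i j k = 0) :
    P.cut A N y ∈ P.Z2c := by
  have h1 : ∀ i j k, P.N3 i j k → (A + N - P.s ≤ P.p i ∧ P.p i ≤ A + N + P.s) →
      (A + N - P.s ≤ P.p j ∧ P.p j ≤ A + N + P.s) → (A + N - P.s ≤ P.p k ∧ P.p k ≤ A + N + P.s) →
      y i j k = 0 := by
    intro i j k h hi hj hk
    have := P.Z2p_sh hy (-1)
    rw [← this, sh_apply]
    apply h0
    · rwa [P.N3_pow]
    · rw [P.p_pow]; constructor <;> linarith [hi.1, hi.2]
    · rw [P.p_pow]; constructor <;> linarith [hj.1, hj.2]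
    · rw [P.p_pow]; constructor <;> linarith [hk.1, hk.2]
  refine ⟨⟨fun i j k h => ?_, fun i j k l h => ?_⟩, |A| + N, fun i j k h => ?_⟩
  · simp [cut, hy.1.1 i j k h]
  · have hc := hy.1.2 i j k l h
    have s1 := P.spread (P.face3 h)
    have s2 := P.spread (P.face2 h)
    have s3 := P.spread (P.face0 h)
    obtain ⟨a1, a2, a3⟩ := s1
    obtain ⟨b1, b2, b3⟩ := s2
    obtain ⟨c1, c2, c3⟩ := s3
    rw [abs_le] at a1 a2 a3 b1 b2 b3 c1 c2 c3
    by_cases hi : A ≤ P.p i ∧ P.p i < A + N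
    · by_cases hj : A ≤ P.p j ∧ P.p j < A + N
      · simp only [cut, hi, hj, if_true, and_self]; linarith
      · have hz : y j k l = 0 := by
          by_cases hj' : P.p j < A
          · apply h0 _ _ _ (P.face0 h) <;> constructor <;> linarith [hi.1, hi.2]
          · have : A + N ≤ P.p j := by
              by_contra hcon
              exact hj ⟨by linarith, by linarith⟩
            apply h1 _ _ _ (P.face0 h) <;> constructor <;> linarith [hi.1, hi.2]
        simp only [cut, hi, hj, if_true, if_false, and_self]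
        rw [hz] at hc; linarith
    · by_cases hj : A ≤ P.p j ∧ P.p j < A + N
      · have hz : y j k l = 0 := by
          by_cases hi' : P.p i < A
          · apply h0 _ _ _ (P.face0 h) <;> constructor <;> linarith [hj.1, hj.2]
          · have : A + N ≤ P.p i := by
              by_contra hcon
              exact hi ⟨by linarith, by linarith⟩
            apply h1 _ _ _ (P.face0 h) <;> constructor <;> linarith [hj.1, hj.2]
        simp only [cut, hi, hj, if_true, if_false, and_self]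
        rw [hz]; ring
      · simp only [cut, hi, hj, if_false]; ring
  · have h2 : A ≤ P.p i ∧ P.p i < A + N := by
      by_contra hcon
      apply h
      simp only [cut, hcon, if_false]
    rw [abs_le]
    have h3 := neg_abs_le A
    have h4 := le_abs_self A
    constructor
    · have : (0 : ℤ) ≤ N := Int.natCast_nonneg _
      linarith [h2.1]
    · linarith [h2.2]

theorem per_cut {N : ℕ} (hN : 1 ≤ N) {y : C2 V} (hy : y ∈ P.Z2p N) (A : ℤ) :
    P.per N (P.cut A N y) = y := by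
  have hN' : (0 : ℤ) < N := by exact_mod_cast hN
  funext i j k
  rw [per]
  set m₀ : ℤ := -((P.p i - A) / N) with hm₀
  have key : ∀ m : ℤ, (A ≤ P.p i + m * N ∧ P.p i + m * N < A + N) ↔ m = m₀ := by
    intro m
    constructor
    · rintro ⟨h1, h2⟩
      have : (P.p i - A) / (N : ℤ) = -m := by
        rw [Int.ediv_eq_iff_of_pos hN']
        constructor <;> nlinarith
      rw [hm₀, this]; ring
    · rintro rfl
      have h1 := Int.mul_ediv_add_emod (P.p i - A) N
      have h2 := Int.emod_nonneg (P.p i - A) hN'.ne'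
      have h3 := Int.emod_lt_of_pos (P.p i - A) hN'
      rw [hm₀]
      constructor <;> nlinarith
  rw [finsum_eq_single _ m₀]
  · have h1 := (key m₀).2 rfl
    have h2 := congrFun (congrFun (congrFun (P.Z2p_sh hy m₀) i) j) k
    rw [sh_apply] at h2
    rw [sh_apply, cut, P.p_pow, if_pos h1, h2]
  · intro m hm
    rw [sh_apply, cut, P.p_pow, if_neg (fun h => hm ((key m).1 h))]

/-! ### periodic extension -/

/-- the multiple of `k` which moves the position of `v` into `[A, A + k)` -/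
def red (A : ℤ) (k : ℕ) (v : V) : ℤ := -((P.p v - A) / k) * k

theorem red_spec (A : ℤ) {k : ℕ} (hk : 1 ≤ k) (v : V) :
    A ≤ P.p v + P.red A k v ∧ P.p v + P.red A k v < A + k := by
  have hk' : (0 : ℤ) < k := by exact_mod_cast hk
  have h1 := Int.mul_ediv_add_emod (P.p v - A) k
  have h2 := Int.emod_nonneg (P.p v - A) hk'.ne'
  have h3 := Int.emod_lt_of_pos (P.p v - A) hk'
  rw [red]
  constructor <;> nlinarith

theorem red_unique {A : ℤ} {k : ℕ} (hk : 1 ≤ k) {v : V} {m : ℤ}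
    (h1 : A ≤ P.p v + m * k) (h2 : P.p v + m * k < A + k) : P.red A k v = m * k := by
  have hk' : (0 : ℤ) < k := by exact_mod_cast hk
  have : (P.p v - A) / (k : ℤ) = -m := by
    rw [Int.ediv_eq_iff_of_pos hk']
    constructor <;> nlinarith
  rw [red, this]; ring

theorem red_zero {A : ℤ} {k : ℕ} (hk : 1 ≤ k) {v : V}
    (h1 : A ≤ P.p v) (h2 : P.p v < A + k) : P.red A k v = 0 := by
  have := P.red_unique hk (A := A) (v := v) (m := 0) (by simpa using h1) (by simpa using h2)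
  simpa using this

theorem red_shift (A : ℤ) {k : ℕ} (hk : 1 ≤ k) (v : V) :
    P.red A k ((P.g ^ (k : ℤ)) v) = P.red A k v - k := by
  have h := P.red_spec A hk v
  have : P.red A k v = -((P.p v - A) / k) * k := rfl
  have h2 : P.red A k ((P.g ^ (k : ℤ)) v) = (-((P.p v - A) / k) - 1) * k := by
    apply P.red_unique hk
    · rw [P.p_pow]; rw [this] at h; linarith [h.1]
    · rw [P.p_pow]; rw [this] at h; linarith [h.2]
  rw [h2, this]; ring

/-- `k`-periodic extension of a 2-cochain given near `[A, A + k)` -/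
def ext2 (A : ℤ) (k : ℕ) (c : C2 V) : C2 V := fun i j l =>
  c ((P.g ^ P.red A k i) i) ((P.g ^ P.red A k i) j) ((P.g ^ P.red A k i) l)

/-- `k`-periodic extension of a 1-cochain given near `[A, A + k)` -/
def ext1 (A : ℤ) (k : ℕ) (b : V → V → ℤ) : V → V → ℤ := fun i j =>
  b ((P.g ^ P.red A k i) i) ((P.g ^ P.red A k i) j)

theorem ext1_per (A : ℤ) {k : ℕ} (hk : 1 ≤ k) (b : V → V → ℤ) : P.Per1 k (P.ext1 A k b) := by
  intro i j
  have h : ∀ x, (P.g ^ k) x = (P.g ^ (k : ℤ)) x := fun x => by simp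
  rw [h, h]
  simp only [ext1, P.red_shift A hk, P.pow_pow, sub_add_cancel]

theorem ext2_per (A : ℤ) {k : ℕ} (hk : 1 ≤ k) (c : C2 V) :
    P.sh k (P.ext2 A k c) = P.ext2 A k c := by
  funext i j l
  simp only [sh_apply, ext2, P.red_shift A hk, P.pow_pow, sub_add_cancel]

theorem ext1_of {A : ℤ} {k : ℕ} (hk : 1 ≤ k) (b : V → V → ℤ) {i : V} (j : V)
    (h1 : A ≤ P.p i) (h2 : P.p i < A + k) : P.ext1 A k b i j = b i j := by
  simp [ext1, P.red_zero hk h1 h2]

theorem ext2_of {A : ℤ} {k : ℕ} (hk : 1 ≤ k) (c : C2 V) {i : V} (j l : V)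
    (h1 : A ≤ P.p i) (h2 : P.p i < A + k) : P.ext2 A k c i j l = c i j l := by
  simp [ext2, P.red_zero hk h1 h2]

/-- `P.Win lo hi i` : the position of `i` is in `[lo, hi]` -/
def Win (lo hi : ℤ) (i : V) : Prop := lo ≤ P.p i ∧ P.p i ≤ hi

/-- agreement of the periodic extension with the original cochain -/
theorem ext2_agree {A : ℤ} {k L : ℕ} (hk : P.s + L < k) {c : C2 V}
    (hper : ∀ i j l, P.N3 i j l → P.Win (A - P.s) (A + P.s + L) i →
      P.Win (A - P.s) (A + P.s + L) j → P.Win (A - P.s) (A + P.s + L) l →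
      P.sh k c i j l = c i j l) :
    ∀ i j l, P.N3 i j l → P.Win (A - P.s) (A + k + P.s + L) i →
      P.Win (A - P.s) (A + k + P.s + L) j → P.Win (A - P.s) (A + k + P.s + L) l →
      P.ext2 A k c i j l = c i j l := by
  intro i j l h hi hj hl
  have hk1 : 1 ≤ k := by omega
  have hkz : (P.s : ℤ) + L < k := by exact_mod_cast hk
  obtain ⟨a1, a2, a3⟩ := P.spread h
  rw [abs_le] at a1 a2 a3
  obtain ⟨hi1, hi2⟩ := hi
  obtain ⟨hj1, hj2⟩ := hj
  obtain ⟨hl1, hl2⟩ := hl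
  by_cases h1 : P.p i < A
  · have hr : P.red A k i = (1 : ℤ) * k := P.red_unique hk1 (by linarith) (by linarith)
    rw [one_mul] at hr
    simp only [ext2, hr]
    exact hper i j l h ⟨by linarith, by linarith⟩ ⟨by linarith, by linarith⟩
      ⟨by linarith, by linarith⟩
  · rw [not_lt] at h1
    by_cases h2 : P.p i < A + k
    · exact P.ext2_of hk1 c j l h1 h2
    · rw [not_lt] at h2
      have hr : P.red A k i = (-1 : ℤ) * k := P.red_unique hk1 (by linarith) (by linarith)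
      simp only [ext2, hr, neg_mul, one_mul]
      have := hper ((P.g ^ (-(k : ℤ))) i) ((P.g ^ (-(k : ℤ))) j) ((P.g ^ (-(k : ℤ))) l)
        ((P.N3_pow _ _ _ _).2 h) (by constructor <;> rw [P.p_pow] <;> linarith)
        (by constructor <;> rw [P.p_pow] <;> linarith)
        (by constructor <;> rw [P.p_pow] <;> linarith)
      rw [← this, sh_apply]
      simp [P.pow_pow]

theorem ext2_mem {A : ℤ} {k L : ℕ} (hk : P.s + L < k) {c : C2 V} (hc : c ∈ P.Z2)
    (hper : ∀ i j l, P.N3 i j l → P.Win (A - P.s) (A + P.s + L) i →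
      P.Win (A - P.s) (A + P.s + L) j → P.Win (A - P.s) (A + P.s + L) l →
      P.sh k c i j l = c i j l) : P.ext2 A k c ∈ P.Z2p k := by
  have hk1 : 1 ≤ k := by omega
  have hsh : ∀ m : ℤ, P.sh (m * k) (P.ext2 A k c) = P.ext2 A k c := by
    intro m
    induction m using Int.induction_on with
    | zero => simp
    | succ n ih => rw [add_mul, one_mul, add_comm, ← sh_sh, ih, P.ext2_per A hk1]
    | pred n ih =>
      have h : P.sh ((-(n : ℤ) - 1) * k) (P.sh k (P.ext2 A k c)) =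
          P.sh (-(n : ℤ) * k) (P.ext2 A k c) := by
        rw [sh_sh]; congr 2; ring
      rw [P.ext2_per A hk1, ih] at h
      exact h
  refine ⟨⟨fun i j l h => ?_, fun i j l r h => ?_⟩, P.ext2_per A hk1 c⟩
  · simp only [ext2]
    exact hc.1 _ _ _ (fun h' => h ((P.N3_pow _ _ _ _).1 h'))
  · -- move to the fundamental window
    obtain ⟨m, hm⟩ : ∃ m : ℤ, P.red A k i = m * k := ⟨_, rfl⟩
    have h4 : P.N4 ((P.g ^ (m * (k : ℤ))) i) ((P.g ^ (m * (k : ℤ))) j)
      ((P.g ^ (m * (k : ℤ))) l) ((P.g ^ (m * (k : ℤ))) r) := (P.N4_pow _ _ _ _ _).2 h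
    have hi := P.red_spec A hk1 i
    rw [hm, ← P.p_pow] at hi
    have e : ∀ x y z, P.ext2 A k c x y z = P.ext2 A k c ((P.g ^ (m * (k : ℤ))) x)
        ((P.g ^ (m * (k : ℤ))) y) ((P.g ^ (m * (k : ℤ))) z) := fun x y z => by
      rw [← P.sh_apply (m * k) (P.ext2 A k c) x y z, hsh m]
    rw [e j l r, e i l r, e i j r, e i j l]
    generalize ((P.g ^ (m * (k : ℤ))) i) = i' at *
    generalize ((P.g ^ (m * (k : ℤ))) j) = j' at *
    generalize ((P.g ^ (m * (k : ℤ))) l) = l' at *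
    generalize ((P.g ^ (m * (k : ℤ))) r) = r' at *
    obtain ⟨a1, a2, a3⟩ := P.spread (P.face3 h4)
    obtain ⟨b1, b2, b3⟩ := P.spread (P.face2 h4)
    rw [abs_le] at a1 a2 a3 b1 b2 b3
    have hL : (0 : ℤ) ≤ L := Int.natCast_nonneg _
    have hs : (0 : ℤ) ≤ P.s := Int.natCast_nonneg _
    have wi : P.Win (A - P.s) (A + k + P.s + L) i' := ⟨by linarith, by linarith⟩
    have wj : P.Win (A - P.s) (A + k + P.s + L) j' := ⟨by linarith, by linarith⟩
    have wl : P.Win (A - P.s) (A + k + P.s + L) l' := ⟨by linarith, by linarith⟩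
    have wr : P.Win (A - P.s) (A + k + P.s + L) r' := ⟨by linarith, by linarith⟩
    rw [P.ext2_agree hk hper _ _ _ (P.face0 h4) wj wl wr,
      P.ext2_agree hk hper _ _ _ (P.face1 h4) wi wl wr,
      P.ext2_agree hk hper _ _ _ (P.face2 h4) wi wj wr,
      P.ext2_agree hk hper _ _ _ (P.face3 h4) wi wj wl]
    exact hc.2 _ _ _ _ h4

end Nerve

end Crest.Agent.R275.Loc647
end
end

-- ▼ part R275/LocGlueB_647
section

/-!
R275 (S0418), helper647, block K': pigeonhole for torsion classes and the gluing theorem.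
-/

set_option autoImplicit false

open Finset

noncomputable section

namespace Crest.Agent.R275.Loc647

namespace Nerve

variable {V : Type*} (P : Nerve V)

/-- Among sufficiently many torsion classes on a finite subcomplex two are equal. -/
theorem pigeon {W : Set V} (hW : W.Finite) : ∃ T : ℕ, ∀ c : ℕ → C2 V,
    (∀ m ≤ T, ∃ d : ℤ, d ≠ 0 ∧ ∃ u : V → V → ℤ, ∀ i ∈ W, ∀ j ∈ W, ∀ l ∈ W, P.N3 i j l →
      d * c m i j l = u j l - u i l + u i j) →
    ∃ m m' : ℕ, m < m' ∧ m' ≤ T ∧ ∃ v : V → V → ℤ, ∀ i ∈ W, ∀ j ∈ W, ∀ l ∈ W, P.N3 i j l →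
      c m' i j l = c m i j l + (v j l - v i l + v i j) := by
  classical
  haveI : Finite W := hW
  let S := {x : W × W × W // P.N3 x.1 x.2.1 x.2.2}
  haveI : Finite S := inferInstance
  let D : (W × W → ℤ) →ₗ[ℤ] (S → ℤ) :=
    { toFun := fun u x => u (x.1.2.1, x.1.2.2) - u (x.1.1, x.1.2.2) + u (x.1.1, x.1.2.1)
      map_add' := fun u v => by funext x; simp only [Pi.add_apply]; ring
      map_smul' := fun r u => by
        funext x; simp only [Pi.smul_apply, smul_eq_mul, RingHom.id_apply]; ring }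
  let Q := (S → ℤ) ⧸ LinearMap.range D
  let q : (S → ℤ) →ₗ[ℤ] Q := (LinearMap.range D).mkQ
  haveI : Module.Finite ℤ (S → ℤ) := inferInstance
  haveI : Module.Finite ℤ Q := inferInstance
  haveI : Finite (Submodule.torsion ℤ Q) :=
    Module.finite_of_fg_torsion _ (Submodule.torsion_isTorsion)
  haveI := Fintype.ofFinite (Submodule.torsion ℤ Q)
  refine ⟨Fintype.card (Submodule.torsion ℤ Q), fun c hc => ?_⟩
  let r : C2 V → (S → ℤ) := fun c x => c x.1.1 x.1.2.1 x.1.2.2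
  have hmem : ∀ m ≤ Fintype.card (Submodule.torsion ℤ Q), q (r (c m)) ∈ Submodule.torsion ℤ Q := by
    intro m hm
    obtain ⟨d, hd, u, hu⟩ := hc m hm
    rw [Submodule.mem_torsion_iff]
    refine ⟨⟨d, mem_nonZeroDivisors_of_ne_zero hd⟩, ?_⟩
    change d • q (r (c m)) = 0
    rw [← map_smul]
    change (LinearMap.range D).mkQ (d • r (c m)) = 0
    rw [Submodule.mkQ_apply, Submodule.Quotient.mk_eq_zero]
    refine ⟨fun y => u y.1 y.2, ?_⟩
    funext x
    have := hu x.1.1 x.1.1.2 x.1.2.1 x.1.2.1.2 x.1.2.2 x.1.2.2.2 x.2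
    simp only [Pi.smul_apply, smul_eq_mul, r]
    rw [this]
    rfl
  let φ : Fin (Fintype.card (Submodule.torsion ℤ Q) + 1) → Submodule.torsion ℤ Q :=
    fun m => ⟨q (r (c m)), hmem m (Nat.lt_succ_iff.1 m.2)⟩
  obtain ⟨x, y, hxy, hφ⟩ := Fintype.exists_ne_map_eq_of_card_lt φ (by simp)
  have key : ∀ m m' : ℕ, q (r (c m)) = q (r (c m')) → ∃ v : V → V → ℤ, ∀ i ∈ W, ∀ j ∈ W,
      ∀ l ∈ W, P.N3 i j l → c m' i j l = c m i j l + (v j l - v i l + v i j) := by
    intro m m' h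
    have h1 : r (c m') - r (c m) ∈ LinearMap.range D := by
      rw [← Submodule.Quotient.mk_eq_zero, Submodule.Quotient.mk_sub, sub_eq_zero]
      exact h.symm
    obtain ⟨v, hv⟩ := h1
    refine ⟨fun i j => if h : i ∈ W ∧ j ∈ W then v (⟨i, h.1⟩, ⟨j, h.2⟩) else 0, ?_⟩
    intro i hi j hj l hl h3
    have := congrFun hv ⟨(⟨i, hi⟩, ⟨j, hj⟩, ⟨l, hl⟩), h3⟩
    simp only [hi, hj, hl, and_self, dif_pos]
    have h5 : c m' i j l - c m i j l = v (⟨j, hj⟩, ⟨l, hl⟩) - v (⟨i, hi⟩, ⟨l, hl⟩) +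
      v (⟨i, hi⟩, ⟨j, hj⟩) := this.symm
    linarith
  have hval : q (r (c x)) = q (r (c y)) := congrArg Subtype.val hφ
  rcases lt_or_gt_of_ne (fun h => hxy (Fin.ext h) : (x : ℕ) ≠ y) with h | h
  · exact ⟨x, y, h, Nat.lt_succ_iff.1 y.2, key _ _ hval⟩
  · exact ⟨y, x, h, Nat.lt_succ_iff.1 x.2, key _ _ hval.symm⟩

/-- gluing: a periodic cocycle which has two isomorphic restrictions splits into a cocycle of
small period and a compactly supported one -/
theorem glue {N k L : ℕ} (hkN : k ∣ N) (hk : 2 * P.s + L < k) (hN : k + (2 * P.s + L) < N)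
    {c : C2 V} (hc : c ∈ P.Z2p N) {a d : ℤ} {v u : V → V → ℤ}
    (hv : ∀ i j l, P.N3 i j l → P.Win a (a + (2 * P.s + L)) i → P.Win a (a + (2 * P.s + L)) j →
      P.Win a (a + (2 * P.s + L)) l → P.sh k c i j l = c i j l + (v j l - v i l + v i j))
    (hu : ∀ i j l, P.N3 i j l → P.Win a (a + k + (2 * P.s + L)) i →
      P.Win a (a + k + (2 * P.s + L)) j → P.Win a (a + k + (2 * P.s + L)) l →
      d * c i j l = u j l - u i l + u i j) :
    ∃ b, P.Per1 N b ∧ ∃ c1 ∈ P.Z2p k, ∃ x ∈ P.Z2c, c = c1 + P.per N x + P.d1 b ∧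
      (∀ i j l, x i j l ≠ 0 → a + k + P.s + L < P.p i ∧ P.p i < a + P.s + N) ∧
      ∃ u1 : V → V → ℤ, ∀ i j l, P.N3 i j l → P.Win a (a + k + (2 * P.s + L)) i →
        P.Win a (a + k + (2 * P.s + L)) j → P.Win a (a + k + (2 * P.s + L)) l →
        d * c1 i j l = u1 j l - u1 i l + u1 i j := by
  classical
  have hs : (0 : ℤ) ≤ P.s := Int.natCast_nonneg _
  have hL : (0 : ℤ) ≤ L := Int.natCast_nonneg _
  have hkz : 2 * (P.s : ℤ) + L < k := by exact_mod_cast hk
  have hNz : (k : ℤ) + (2 * P.s + L) < N := by exact_mod_cast hN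
  have hN1 : 1 ≤ N := by omega
  have hk1 : 1 ≤ k := by omega
  -- the correcting 1-cochain
  let v' : V → V → ℤ := fun i j =>
    if a + k ≤ P.p i ∧ P.p i ≤ a + k + (2 * P.s + L) then
      v ((P.g ^ (-(k : ℤ))) i) ((P.g ^ (-(k : ℤ))) j) else 0
  let b := P.ext1 a N v'
  have hb : P.Per1 N b := P.ext1_per a hN1 v'
  have hb1 : ∀ i j, P.Win a (a + k + (2 * P.s + L)) i → b i j = v' i j := fun i j hi =>
    P.ext1_of hN1 v' j hi.1 (by linarith [hi.2])
  let c' := c - P.d1 b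
  have hc' : c' ∈ P.Z2p N := (P.Z2p N).sub_mem hc (P.d1_mem_Z2p hb)
  have hper : ∀ i j l, P.N3 i j l → P.Win (a + P.s - P.s) (a + P.s + P.s + L) i →
      P.Win (a + P.s - P.s) (a + P.s + P.s + L) j →
      P.Win (a + P.s - P.s) (a + P.s + P.s + L) l → P.sh k c' i j l = c' i j l := by
    intro i j l h hi hj hl
    have wi : P.Win a (a + (2 * P.s + L)) i := ⟨by linarith [hi.1], by linarith [hi.2]⟩
    have wj : P.Win a (a + (2 * P.s + L)) j := ⟨by linarith [hj.1], by linarith [hj.2]⟩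
    have wl : P.Win a (a + (2 * P.s + L)) l := ⟨by linarith [hl.1], by linarith [hl.2]⟩
    have h1 := hv i j l h wi wj wl
    have z : ∀ x y, P.Win a (a + (2 * P.s + L)) x → b x y = 0 := by
      intro x y hx
      rw [hb1 x y ⟨hx.1, by linarith [hx.2]⟩]
      simp only [v']
      rw [if_neg]
      rintro ⟨h2, -⟩
      linarith [hx.2]
    have z2 : ∀ x y, P.Win a (a + (2 * P.s + L)) x →
        b ((P.g ^ (k : ℤ)) x) ((P.g ^ (k : ℤ)) y) = v x y := by
      intro x y hx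
      have hx2 : P.p ((P.g ^ (k : ℤ)) x) = P.p x + k := P.p_pow k x
      rw [hb1 _ _ (by constructor <;> rw [hx2] <;> linarith [hx.1, hx.2])]
      simp only [v']
      rw [if_pos (by constructor <;> rw [hx2] <;> linarith [hx.1, hx.2])]
      simp [P.pow_pow]
    have e1 : P.sh k c' i j l = P.sh k c i j l -
        P.d1 b ((P.g ^ (k : ℤ)) i) ((P.g ^ (k : ℤ)) j) ((P.g ^ (k : ℤ)) l) := rfl
    have e2 : c' i j l = c i j l - P.d1 b i j l := rfl
    rw [e1, e2, P.d1_of b h, P.d1_of b ((P.N3_pow _ _ _ _).2 h), z2 _ _ wi, z2 _ _ wi, z2 _ _ wj,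
      z _ _ wi, z _ _ wi, z _ _ wj, h1]
    ring
  have hkL : P.s + L < k := by omega
  have hag := P.ext2_agree hkL hper
  have hmem := P.ext2_mem hkL hc'.1 hper
  set c1 := P.ext2 (a + P.s) k c' with hc1
  have hag' : ∀ i j l, P.N3 i j l → P.Win a (a + k + (2 * P.s + L)) i →
      P.Win a (a + k + (2 * P.s + L)) j → P.Win a (a + k + (2 * P.s + L)) l →
      c1 i j l = c' i j l := by
    intro i j l h hi hj hl
    exact hag i j l h ⟨by linarith [hi.1], by linarith [hi.2]⟩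
      ⟨by linarith [hj.1], by linarith [hj.2]⟩ ⟨by linarith [hl.1], by linarith [hl.2]⟩
  have hy : c' - c1 ∈ P.Z2p N := (P.Z2p N).sub_mem hc' (P.Z2p_mono hkN hmem)
  have hy0 : ∀ i j l, P.N3 i j l → P.Win a (a + k + (2 * P.s + L)) i →
      P.Win a (a + k + (2 * P.s + L)) j → P.Win a (a + k + (2 * P.s + L)) l →
      (c' - c1) i j l = 0 := by
    intro i j l h hi hj hl
    change c' i j l - c1 i j l = 0
    rw [hag' i j l h hi hj hl, sub_self]
  have hcut : P.cut (a + P.s) N (c' - c1) ∈ P.Z2c := by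
    refine P.cut_mem hy _ (fun i j l h hi hj hl => hy0 i j l h ?_ ?_ ?_)
    · exact ⟨by linarith [hi.1], by linarith [hi.2]⟩
    · exact ⟨by linarith [hj.1], by linarith [hj.2]⟩
    · exact ⟨by linarith [hl.1], by linarith [hl.2]⟩
  refine ⟨b, hb, c1, hmem, P.cut (a + P.s) N (c' - c1), hcut, ?_, ?_, ?_⟩
  · rw [P.per_cut hN1 hy]
    simp only [c']
    abel
  · intro i j l hx
    have h2 : a + P.s ≤ P.p i ∧ P.p i < a + P.s + N := by
      by_contra hcon
      apply hx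
      simp only [cut, hcon, if_false]
    refine ⟨?_, h2.2⟩
    by_contra hcon
    rw [not_lt] at hcon
    apply hx
    rw [cut, if_pos h2]
    by_cases h3 : P.N3 i j l
    · obtain ⟨a1, a2, a3⟩ := P.spread h3
      rw [abs_le] at a1 a2 a3
      exact hy0 i j l h3 ⟨by linarith [h2.1], by linarith⟩ ⟨by linarith [h2.1], by linarith⟩
        ⟨by linarith [h2.1], by linarith⟩
    · exact hy.1.1 i j l h3
  · refine ⟨fun i j => u i j - d * b i j, fun i j l h hi hj hl => ?_⟩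
    rw [hag' i j l h hi hj hl]
    have e2 : c' i j l = c i j l - P.d1 b i j l := rfl
    rw [e2, P.d1_of b h, mul_sub, hu i j l h hi hj hl]
    ring

/-- cutting a cocycle with torsion restriction at the position `A'` -/
theorem cut_at {k L : ℕ} (hk : 4 * P.s + 2 ≤ k) {c1 : C2 V} (hc1 : c1 ∈ P.Z2p k) {a d : ℤ}
    {u1 : V → V → ℤ}
    (hu : ∀ i j l, P.N3 i j l → P.Win a (a + k + (2 * P.s + L)) i →
      P.Win a (a + k + (2 * P.s + L)) j → P.Win a (a + k + (2 * P.s + L)) l →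
      d * c1 i j l = u1 j l - u1 i l + u1 i j) {A : ℤ} (hA : a + P.s ≤ A)
    (hA' : A ≤ a + P.s + L) :
    ∃ x ∈ P.Z2c, ∃ b, P.Per1 k b ∧ d • c1 = P.per k x + P.d1 b ∧
      ∀ i j l, x i j l ≠ 0 → A - P.s ≤ P.p i ∧ P.p i ≤ A + P.s := by
  classical
  have hs : (0 : ℤ) ≤ P.s := Int.natCast_nonneg _
  have hL : (0 : ℤ) ≤ L := Int.natCast_nonneg _
  have hkz : 4 * (P.s : ℤ) + 2 ≤ k := by exact_mod_cast hk
  have hk1 : 1 ≤ k := by omega
  let b := P.ext1 A k u1
  have hb : P.Per1 k b := P.ext1_per A hk1 u1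
  have hb1 : ∀ i j, A ≤ P.p i → P.p i < A + k → b i j = u1 i j := fun i j h1 h2 =>
    P.ext1_of hk1 u1 j h1 h2
  let y := d • c1 - P.d1 b
  have hy : y ∈ P.Z2p k :=
    (P.Z2p k).sub_mem ((P.Z2p k).zsmul_mem hc1 d) (P.d1_mem_Z2p hb)
  have hy0 : ∀ i j l, P.N3 i j l → A ≤ P.p i → P.p i < A + k → A ≤ P.p j → P.p j < A + k →
      y i j l = 0 := by
    intro i j l h i1 i2 j1 j2
    obtain ⟨a1, a2, a3⟩ := P.spread h
    rw [abs_le] at a1 a2 a3
    have := hu i j l h ⟨by linarith, by linarith⟩ ⟨by linarith, by linarith⟩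
      ⟨by linarith, by linarith⟩
    change d * c1 i j l - P.d1 b i j l = 0
    rw [P.d1_of b h, hb1 _ _ i1 i2, hb1 _ _ i1 i2, hb1 _ _ j1 j2, this]
    ring
  have hy1 : ∀ i j l, P.N3 i j l → A - k ≤ P.p i → P.p i < A → A - k ≤ P.p j → P.p j < A →
      y i j l = 0 := by
    intro i j l h i1 i2 j1 j2
    have e := congrFun (congrFun (congrFun hy.2 i) j) l
    rw [sh_apply] at e
    rw [← e]
    apply hy0 _ _ _ ((P.N3_pow _ _ _ _).2 h) <;> rw [P.p_pow] <;> linarith
  have hcut : P.cut (A - 2 * P.s - 1) k y ∈ P.Z2c := by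
    refine P.cut_mem hy _ (fun i j l h hi hj hl => ?_)
    exact hy1 i j l h (by linarith [hi.1]) (by linarith [hi.2]) (by linarith [hj.1])
      (by linarith [hj.2])
  refine ⟨_, hcut, b, hb, ?_, ?_⟩
  · rw [P.per_cut hk1 hy]
    simp only [y]
    abel
  · intro i j l hx
    have h2 : A - 2 * P.s - 1 ≤ P.p i ∧ P.p i < A - 2 * P.s - 1 + k := by
      by_contra hcon
      apply hx
      simp only [cut, hcon, if_false]
    rw [cut, if_pos h2] at hx
    by_cases h3 : P.N3 i j l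
    · obtain ⟨a1, a2, a3⟩ := P.spread h3
      rw [abs_le] at a1 a2 a3
      constructor
      · by_contra hcon
        rw [not_le] at hcon
        exact hx (hy1 i j l h3 (by linarith [h2.1]) (by linarith) (by linarith [h2.1])
          (by linarith))
      · by_contra hcon
        rw [not_le] at hcon
        exact hx (hy0 i j l h3 (by linarith) (by linarith [h2.2]) (by linarith)
          (by linarith [h2.2]))
    · exact absurd (hy.1.1 i j l h3) hx

end Nerve

end Crest.Agent.R275.Loc647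
end
end

-- ▼ part R275/LocAlg_647
section

/-!
R275 (S0418), helper647, block K': the lattice algebra of the localisation theorem.
-/

set_option autoImplicit false

open Finset

noncomputable section

namespace Crest.Agent.R275.Loc647

/-! ### lattices with an orthonormal basis modulo the radical -/

theorem int01 {ι : Type*} {s : Finset ι} {a : ι → ℤ} (h : ∑ i ∈ s, a i ^ 2 = ∑ i ∈ s, a i) :
    ∀ i ∈ s, a i = 0 ∨ a i = 1 := by
  have h1 : ∑ i ∈ s, (a i ^ 2 - a i) = 0 := by rw [sum_sub_distrib, h, sub_self]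
  have h2 : ∀ i ∈ s, 0 ≤ a i ^ 2 - a i := by
    intro i _
    have : 0 ≤ a i * (a i - 1) := by
      rcases le_or_gt (a i) 0 with h | h
      · exact mul_nonneg_of_nonpos_of_nonpos h (by linarith)
      · exact mul_nonneg h.le (by linarith [Int.add_one_le_iff.2 h])
    nlinarith
  intro i hi
  have h3 := (sum_eq_zero_iff_of_nonneg h2).1 h1 i hi
  have h4 : a i * (a i - 1) = 0 := by nlinarith
  rcases mul_eq_zero.1 h4 with h | h
  · exact Or.inl h
  · exact Or.inr (by linarith)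

section Lattice

variable {G : Type*} [AddCommGroup G]

/-- `e` is an orthonormal (norm `-1`) basis modulo the radical, with all `κ . e i = -1` -/
structure OB (B : G →+ G →+ ℤ) (κ : G) {n : ℕ} (e : Fin n → G) : Prop where
  symm : ∀ x y, B x y = B y x
  gram : ∀ i j, B (e i) (e j) = if i = j then -1 else 0
  kap : ∀ i, B κ (e i) = -1
  span : ∀ x y, B x y = - ∑ i, B x (e i) * B y (e i)

/-- unit vectors -/
def IsU (B : G →+ G →+ ℤ) (κ : G) (x : G) : Prop := B x x = -1 ∧ B κ x = -1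

namespace OB

variable {B : G →+ G →+ ℤ} {κ : G} {n : ℕ} {e : Fin n → G}

theorem nonpos (h : OB B κ e) (x : G) : B x x ≤ 0 := by
  rw [h.span]
  have : 0 ≤ ∑ i, B x (e i) * B x (e i) := sum_nonneg fun i _ => mul_self_nonneg _
  linarith

theorem rad (h : OB B κ e) {x : G} (hx : B x x = 0) (y : G) : B x y = 0 := by
  rw [h.span] at hx
  have h1 : ∑ i, B x (e i) * B x (e i) = 0 := by linarith
  have h2 := (sum_eq_zero_iff_of_nonneg fun i _ => mul_self_nonneg (B x (e i))).1 h1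
  rw [h.span]
  have : ∀ i ∈ (univ : Finset (Fin n)), B x (e i) * B y (e i) = 0 := fun i hi => by
    rw [mul_self_eq_zero.1 (h2 i hi), zero_mul]
  rw [sum_eq_zero this, neg_zero]

theorem kap_apply (h : OB B κ e) (x : G) : B κ x = ∑ i, B x (e i) := by
  rw [h.span, ← sum_neg_distrib]
  refine sum_congr rfl fun i _ => ?_
  rw [h.kap]; ring

theorem q_zero (h : OB B κ e) {x : G} (hx : B x x = B κ x) (i : Fin n) :
    B x (e i) = 0 ∨ B x (e i) = -1 := by
  have h1 : ∑ i, (- B x (e i)) ^ 2 = ∑ i, (- B x (e i)) := by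
    rw [sum_neg_distrib, ← h.kap_apply, ← hx, h.span, neg_neg]
    exact sum_congr rfl fun i _ => by ring
  rcases int01 h1 i (mem_univ i) with h | h
  · left; linarith
  · right; linarith

theorem unit (h : OB B κ e) {x : G} (hx : IsU B κ x) : ∃ i, ∀ y, B x y = B (e i) y := by
  have h0 := fun i => h.q_zero (x := x) (by rw [hx.1, hx.2]) i
  have h1 : ∑ i, B x (e i) = -1 := by rw [← h.kap_apply, hx.2]
  -- exactly one coefficient is nonzero
  obtain ⟨i, hi⟩ : ∃ i, B x (e i) = -1 := by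
    by_contra hcon
    push Not at hcon
    have : ∑ i, B x (e i) = 0 := sum_eq_zero fun i _ => (h0 i).resolve_right (hcon i)
    omega
  refine ⟨i, fun y => ?_⟩
  have h2 : ∀ j, j ≠ i → B x (e j) = 0 := by
    intro j hj
    by_contra hcon
    have hj1 : B x (e j) = -1 := (h0 j).resolve_left hcon
    have h3 : ∑ l, B x (e l) ≤ ∑ l ∈ ({i, j} : Finset (Fin n)), B x (e l) := by
      have h4 : ∑ l ∈ (univ \ ({i, j} : Finset (Fin n))), B x (e l) ≤ 0 :=
        sum_nonpos fun l _ => by rcases h0 l with h | h <;> omega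
      have h5 := sum_sdiff (subset_univ ({i, j} : Finset (Fin n))) (f := fun l => B x (e l))
      linarith
    rw [sum_pair hj.symm, hi, hj1, h1] at h3
    omega
  rw [h.span x y, sum_eq_single i, hi, h.symm (e i) y]
  · ring
  · intro j _ hj; rw [h2 j hj, zero_mul]
  · intro hcon; exact absurd (mem_univ i) hcon

theorem unit_q (h : OB B κ e) {x w : G} (hx : IsU B κ x) (hw : B w w = B κ w) :
    B x w = 0 ∨ B x w = -1 := by
  obtain ⟨i, hi⟩ := h.unit hx
  rw [hi w, h.symm]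
  exact h.q_zero hw i

theorem unit_unit (h : OB B κ e) {x y : G} (hx : IsU B κ x) (hy : IsU B κ y) :
    B x y = 0 ∨ B x y = -1 := h.unit_q hx (by rw [hy.1, hy.2])

end OB

/-- Bessel's inequality for a negative semidefinite integral form -/
theorem bessel {B : G →+ G →+ ℤ} (hsymm : ∀ x y, B x y = B y x) (hneg : ∀ x, B x x ≤ 0)
    {ι : Type*} [DecidableEq ι] (S : Finset ι) (u : ι → G)
    (hu : ∀ s ∈ S, ∀ t ∈ S, B (u s) (u t) = if s = t then -1 else 0) (x : G) :
    ∑ s ∈ S, (B x (u s)) ^ 2 ≤ - B x x := by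
  obtain ⟨z, hz⟩ : ∃ z, z = ∑ s ∈ S, B x (u s) • u s := ⟨_, rfl⟩
  have h0 : ∀ w, B w z = ∑ s ∈ S, B x (u s) * B w (u s) := by
    intro w
    rw [hz, map_sum]
    refine sum_congr rfl fun s _ => ?_
    rw [map_zsmul, smul_eq_mul]
  have h1 : B x z = ∑ s ∈ S, (B x (u s)) ^ 2 := by
    rw [h0]
    exact sum_congr rfl fun s _ => by ring
  have h2 : B z z = - ∑ s ∈ S, (B x (u s)) ^ 2 := by
    rw [h0, ← sum_neg_distrib]
    refine sum_congr rfl fun s hs => ?_
    have h3 : B z (u s) = - B x (u s) := by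
      rw [hsymm, h0, sum_eq_single s]
      · rw [hu s hs s hs, if_pos rfl]; ring
      · intro t ht hts
        rw [hu s hs t ht, if_neg (Ne.symm hts), mul_zero]
      · intro hcon; exact absurd hs hcon
    rw [h3]; ring
  have h3 := hneg (x + z)
  have h4 : B (x + z) (x + z) = B x x + 2 * B x z + B z z := by
    rw [B.map_add, AddMonoidHom.add_apply, map_add, map_add, hsymm z x]; ring
  rw [h4, h1, h2] at h3
  linarith

end Lattice

/-! ### unit vectors with a shift -/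

section Shift

variable {H : Type*} [AddCommGroup H] {t : ℤ → H →+ H} {B : H →+ H →+ ℤ} {κ : H →+ ℤ}

theorem quad_add (hsymm : ∀ x y, B x y = B y x) (x y : H) :
    B (x + y) (x + y) = B x x + 2 * B x y + B y y := by
  rw [B.map_add, AddMonoidHom.add_apply, map_add, map_add, hsymm y x]; ring

theorem quad_sub (hsymm : ∀ x y, B x y = B y x) (x y : H) :
    B (x - y) (x - y) = B x x - 2 * B x y + B y y := by
  rw [B.map_sub, AddMonoidHom.sub_apply, map_sub, map_sub, hsymm y x]; ring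

/-- a vector of norm zero of a semidefinite form is in the radical -/
theorem rad_of (hsymm : ∀ x y, B x y = B y x) (hneg : ∀ x, B x x ≤ 0) {x : H}
    (hx : B x x = 0) (y : H) : B x y = 0 := by
  have key : ∀ n : ℤ, 2 * n * B x y + B y y ≤ 0 := by
    intro n
    have h := hneg (n • x + y)
    have e1 : ∀ w, B (n • x) w = n * B x w := fun w => by
      rw [hsymm, map_zsmul, smul_eq_mul, hsymm]
    have e2 : B x (n • x) = n * B x x := by rw [map_zsmul, smul_eq_mul]
    rw [quad_add hsymm, e1, e1, e2, hx] at h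
    linarith
  by_contra hne
  have h1 := key ((1 - B y y) * B x y)
  have h2 : 1 ≤ B x y * B x y := by
    have : 0 < B x y * B x y := mul_self_pos.2 hne
    omega
  have h3 := hneg y
  nlinarith

theorem u_dich (hsymm : ∀ x y, B x y = B y x) (hneg : ∀ x, B x x ≤ 0)
    (hrad : ∀ x, B x x = 0 → κ x = 0) {x y : H} (hx : B x x = -1) (hx' : κ x = -1)
    (hy : B y y = -1) (hy' : κ y = -1) : B x y = 0 ∨ B x y = -1 := by
  have h1 := hneg (x + y)
  have h2 := hneg (x - y)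
  have h3 := hrad (x + y)
  rw [quad_add hsymm] at h1 h3
  rw [quad_sub hsymm] at h2
  rw [map_add, hx', hy'] at h3
  rw [hx, hy] at h1 h2 h3
  have h4 : B x y ≤ 1 := by linarith
  have h5 : -1 ≤ B x y := by linarith
  have h6 : B x y ≠ 1 := by
    intro h
    have := h3 (by rw [h]; norm_num)
    norm_num at this
  omega

theorem u_eq (hsymm : ∀ x y, B x y = B y x) (hneg : ∀ x, B x x ≤ 0) {x y : H}
    (hx : B x x = -1) (hy : B y y = -1) (hxy : B x y = -1) (w : H) : B x w = B y w := by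
  have h : B (x - y) (x - y) = 0 := by rw [quad_sub hsymm, hx, hy, hxy]; norm_num
  have h2 := rad_of hsymm hneg h w
  rw [B.map_sub, AddMonoidHom.sub_apply] at h2
  linarith

theorem u_free (ht0 : ∀ x, t 0 x = x) (htadd : ∀ m n x, t m (t n x) = t (m + n) x)
    (hsymm : ∀ x y, B x y = B y x) (hBt : ∀ n x y, B (t n x) (t n y) = B x y)
    (hκt : ∀ n x, κ (t n x) = κ x)
    (hfar : ∀ x y, ∃ m : ℕ, ∀ n : ℤ, (m : ℤ) < |n| → B (t n x) y = 0)
    (hneg : ∀ x, B x x ≤ 0) (hrad : ∀ x, B x x = 0 → κ x = 0)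
    {u : H} (hu : B u u = -1) (hu' : κ u = -1) {n : ℤ} (hn : n ≠ 0) : B (t n u) u = 0 := by
  have hun : B (t n u) (t n u) = -1 := by rw [hBt, hu]
  have hun' : κ (t n u) = -1 := by rw [hκt, hu']
  refine (u_dich hsymm hneg hrad hun hun' hu hu').resolve_right (fun hcon => ?_)
  have h1 := u_eq hsymm hneg hun hu hcon
  have h2 : ∀ k : ℕ, B (t (k * n) u) u = -1 := by
    intro k
    induction k with
    | zero => simp [ht0, hu]
    | succ k ih =>
      have e : t (((k + 1 : ℕ) : ℤ) * n) u = t (k * n) (t n u) := by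
        rw [htadd]; congr 1; push_cast; ring_nf
      have e2 : u = t (k * n) (t (-(k * n)) u) := by rw [htadd, add_neg_cancel, ht0]
      have e3 : B (t (k * n) (t n u)) u = B (t (k * n) (t n u)) (t (k * n) (t (-(k * n)) u)) := by
        rw [← e2]
      have e4 : B (t (k * n) u) u = B (t (k * n) u) (t (k * n) (t (-(k * n)) u)) := by
        rw [← e2]
      rw [e, e3, hBt, h1, ← hBt (k * n), ← e4, ih]
  obtain ⟨m, hm⟩ := hfar u u
  have h3 := hm ((m + 1 : ℕ) * n) (by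
    rw [abs_mul]
    have : 1 ≤ |n| := Int.one_le_abs hn
    have h5 : |((m + 1 : ℕ) : ℤ)| = (m : ℤ) + 1 := by
      rw [abs_of_nonneg (by positivity)]; push_cast; ring
    rw [h5]
    nlinarith [Int.natCast_nonneg m])
  rw [h2] at h3
  norm_num at h3

/-- **Orthonormal basis from unit vectors.** -/
theorem orthobasis (ht0 : ∀ x, t 0 x = x) (htadd : ∀ m n x, t m (t n x) = t (m + n) x)
    (hsymm : ∀ x y, B x y = B y x) (hBt : ∀ n x y, B (t n x) (t n y) = B x y)
    (hκt : ∀ n x, κ (t n x) = κ x)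
    (hfar : ∀ x y, ∃ m : ℕ, ∀ n : ℤ, (m : ℤ) < |n| → B (t n x) y = 0)
    (hneg : ∀ x, B x x ≤ 0) (hrad : ∀ x, B x x = 0 → κ x = 0)
    (hne : ∃ u, B u u = -1 ∧ κ u = -1)
    (hfin : ∃ n : ℕ, ∀ v : Fin (n + 1) → H, (∀ i, B (v i) (v i) = -1 ∧ κ (v i) = -1) →
      ∃ i j, i ≠ j ∧ ∃ m : ℤ, B (t m (v i)) (v j) ≠ 0)
    (hloc : ∀ y, (∀ u, B u u = -1 → κ u = -1 → B y u = 0) → B y y = 0) :
    ∃ (b : ℕ) (e : Fin b → H), 0 < b ∧ (∀ i, B (e i) (e i) = -1 ∧ κ (e i) = -1) ∧
      (∀ i j n m, B (t n (e i)) (t m (e j)) = if i = j ∧ n = m then -1 else 0) ∧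
      ∀ x, ∃ S : Finset (Fin b × ℤ), (∀ s, s ∉ S → B x (t s.2 (e s.1)) = 0) ∧
        B (x + ∑ s ∈ S, B x (t s.2 (e s.1)) • t s.2 (e s.1))
          (x + ∑ s ∈ S, B x (t s.2 (e s.1)) • t s.2 (e s.1)) = 0 := by
  classical
  have hBt' : ∀ n m x y, B (t n x) (t m y) = B (t (n - m) x) y := by
    intro n m x y
    have e1 : t n x = t m (t (n - m) x) := by rw [htadd]; congr 1; ring_nf
    rw [e1, hBt]
  -- a maximal family of pairwise unrelated units
  let Q : ℕ → Prop := fun b => ∃ v : Fin b → H, (∀ i, B (v i) (v i) = -1 ∧ κ (v i) = -1) ∧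
    ∀ i j, i ≠ j → ∀ m : ℤ, B (t m (v i)) (v j) = 0
  have hQ0 : Q 0 := ⟨Fin.elim0, fun i => Fin.elim0 i, fun i => Fin.elim0 i⟩
  have hQ1 : Q 1 := by
    obtain ⟨u, hu⟩ := hne
    exact ⟨fun _ => u, fun _ => hu, fun i j hij => absurd (Subsingleton.elim i j) hij⟩
  have hex : ∃ k, ¬ Q k := by
    obtain ⟨n, hn⟩ := hfin
    refine ⟨n + 1, ?_⟩
    rintro ⟨v, hv, hv'⟩
    obtain ⟨i, j, hij, m, hm⟩ := hn v hv
    exact hm (hv' i j hij m)
  obtain ⟨b, hb⟩ : ∃ b, Nat.find hex = b + 1 := by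
    refine Nat.exists_eq_add_one.2 (Nat.pos_of_ne_zero fun h => ?_)
    have := Nat.find_spec hex
    rw [h] at this
    exact this hQ0
  have hnQ : ¬ Q (b + 1) := hb ▸ Nat.find_spec hex
  have hQb : Q b := by
    by_contra hcon
    have := Nat.find_min' hex hcon
    omega
  have hb0 : 0 < b := by
    rcases Nat.eq_zero_or_pos b with h | h
    · rw [h] at hnQ; exact absurd hQ1 hnQ
    · exact h
  obtain ⟨v, hv, hv'⟩ := hQb
  have hcomp : ∀ u, B u u = -1 → κ u = -1 → ∃ i, ∃ m : ℤ, B (t m (v i)) u = -1 := by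
    intro u hu hu'
    by_contra hcon
    push Not at hcon
    have h0 : ∀ i, ∀ m : ℤ, B (t m (v i)) u = 0 := fun i m =>
      (u_dich hsymm hneg hrad (by rw [hBt, (hv i).1]) (by rw [hκt, (hv i).2]) hu
        hu').resolve_right (hcon i m)
    apply hnQ
    refine ⟨Fin.snoc v u, ?_, ?_⟩
    · intro i
      refine Fin.lastCases ?_ (fun i => ?_) i
      · rw [Fin.snoc_last]; exact ⟨hu, hu'⟩
      · rw [Fin.snoc_castSucc]; exact hv i
    · intro i j hij m
      refine Fin.lastCases (motive := fun i => i ≠ j → B (t m (Fin.snoc (α := fun _ => H) v u i))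
        (Fin.snoc (α := fun _ => H) v u j) = 0) ?_ (fun i => ?_) i hij
      · refine Fin.lastCases (motive := fun j => Fin.last b ≠ j →
          B (t m (Fin.snoc (α := fun _ => H) v u (Fin.last b)))
          (Fin.snoc (α := fun _ => H) v u j) = 0) ?_ (fun j _ => ?_) j
        · intro h; exact absurd rfl h
        · rw [Fin.snoc_last, Fin.snoc_castSucc]
          have := h0 j (-m)
          rw [hsymm] at this
          have h2 := hBt' m 0 u (v j)
          rw [ht0, sub_zero] at h2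
          have h3 := hBt' 0 (-m) u (v j)
          rw [ht0, zero_sub, neg_neg] at h3
          rw [← h3, this]
      · intro hij
        refine Fin.lastCases (motive := fun j => i.castSucc ≠ j →
          B (t m (Fin.snoc (α := fun _ => H) v u i.castSucc))
          (Fin.snoc (α := fun _ => H) v u j) = 0) (fun _ => ?_) (fun j hij => ?_) j hij
        · rw [Fin.snoc_last, Fin.snoc_castSucc]; exact h0 i m
        · rw [Fin.snoc_castSucc, Fin.snoc_castSucc]
          exact hv' i j (fun h => hij (by rw [h])) m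
  have hgram : ∀ i j n m, B (t n (v i)) (t m (v j)) = if i = j ∧ n = m then -1 else 0 := by
    intro i j n m
    rw [hBt']
    by_cases hij : i = j
    · subst hij
      by_cases hnm : n = m
      · subst hnm; simp [ht0, (hv i).1]
      · rw [if_neg (fun h => hnm h.2)]
        exact u_free ht0 htadd hsymm hBt hκt hfar hneg hrad (hv i).1 (hv i).2
          (sub_ne_zero.2 hnm)
    · rw [if_neg (fun h => hij h.1), hv' i j hij]
  refine ⟨b, v, hb0, hv, hgram, fun x => ?_⟩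
  choose m hm using fun i => hfar x (v i)
  let M : ℕ := ∑ i, m i
  have hmM : ∀ i, m i ≤ M := fun i => single_le_sum (fun _ _ => Nat.zero_le _) (mem_univ i)
  let S : Finset (Fin b × ℤ) := univ ×ˢ Icc (-(M : ℤ)) M
  have hS : ∀ s, s ∉ S → B x (t s.2 (v s.1)) = 0 := by
    rintro ⟨i, n⟩ hs
    have h1 : (M : ℤ) < |n| := by
      by_contra hcon
      rw [not_lt, abs_le] at hcon
      exact hs (by simp [S, hcon.1, hcon.2])
    have h2 := hBt' 0 n x (v i)
    rw [ht0, zero_sub] at h2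
    rw [h2]
    apply hm
    rw [abs_neg]
    exact lt_of_le_of_lt (by exact_mod_cast hmM i) h1
  refine ⟨S, hS, ?_⟩
  apply hloc
  intro u hu hu'
  obtain ⟨i, n, hin⟩ := hcomp u hu hu'
  have e1 : ∀ w, B w u = B w (t n (v i)) := by
    intro w
    rw [hsymm w, hsymm w]
    exact (u_eq hsymm hneg (by rw [hBt, (hv i).1]) hu hin w).symm
  rw [e1, B.map_add, AddMonoidHom.add_apply]
  have e2 : B (∑ s ∈ S, B x (t s.2 (v s.1)) • t s.2 (v s.1)) (t n (v i)) =
      ∑ s ∈ S, B x (t s.2 (v s.1)) * B (t s.2 (v s.1)) (t n (v i)) := by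
    rw [hsymm, map_sum]
    refine sum_congr rfl fun s _ => ?_
    rw [map_zsmul, smul_eq_mul, hsymm (t n (v i))]
  rw [e2]
  by_cases hmem : (i, n) ∈ S
  · rw [sum_eq_single (i, n)]
    · rw [hgram]; simp
    · rintro ⟨j, m'⟩ _ hne'
      rw [hgram, if_neg, mul_zero]
      rintro ⟨rfl, rfl⟩
      exact hne' rfl
    · intro hcon; exact absurd hmem hcon
  · rw [sum_eq_zero, hS (i, n) hmem, add_zero]
    rintro ⟨j, m'⟩ hs
    rw [hgram, if_neg, mul_zero]
    rintro ⟨rfl, rfl⟩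
    exact hmem hs

end Shift

end Crest.Agent.R275.Loc647
end
end

-- ▼ part R275/LocPer_647

/-!
R275 (S0418), helper647, block K': periodisation, bundled forms, free orbits and counting.
-/

set_option autoImplicit false

open Finset

noncomputable section

namespace Crest.Agent.R275.Loc647

namespace Nerve

variable {V : Type*} (P : Nerve V)

/-! ### periodisation -/

theorem per_eq_sum {N : ℕ} (hN : 1 ≤ N) {x : C2 V} {R : ℤ}
    (hR : ∀ i j k, x i j k ≠ 0 → |P.p i| ≤ R) {i : V} (j k : V) {M : ℤ} (hM : R + |P.p i| ≤ M) :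
    P.per N x i j k = ∑ m ∈ Icc (-M) M, P.sh (m * N) x i j k := by
  have hN' : (1 : ℤ) ≤ N := by exact_mod_cast hN
  rw [per]
  refine finsum_eq_sum_of_support_subset _ fun m hm => ?_
  have h1 := hR _ _ _ (Function.mem_support.1 hm)
  rw [P.p_pow] at h1
  have h2 : |m * (N : ℤ)| ≤ R + |P.p i| := by
    have h3 := abs_sub (P.p i + m * N) (P.p i)
    rw [add_sub_cancel_left] at h3
    linarith
  have h3 : |m| ≤ |m * (N : ℤ)| := by
    rw [abs_mul, abs_of_pos (by linarith : (0 : ℤ) < N)]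
    nlinarith [abs_nonneg m]
  rw [coe_Icc, Set.mem_Icc, ← abs_le]
  linarith

theorem per_mem {N : ℕ} (hN : 1 ≤ N) {x : C2 V} (hx : x ∈ P.Z2c) : P.per N x ∈ P.Z2p N := by
  obtain ⟨hx2, R, hR⟩ := hx
  refine ⟨⟨fun i j k h => ?_, fun i j k l h => ?_⟩, ?_⟩
  · rw [per]
    have : ∀ m : ℤ, P.sh (m * N) x i j k = 0 := fun m => (P.sh_mem_Z2 hx2 _).1 i j k h
    simp [this]
  · have h1 : R + |P.p i| ≤ max (R + |P.p i|) (R + |P.p j|) := le_max_left _ _
    have h2 : R + |P.p j| ≤ max (R + |P.p i|) (R + |P.p j|) := le_max_right _ _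
    rw [P.per_eq_sum hN hR k l h2, P.per_eq_sum hN hR k l h1, P.per_eq_sum hN hR j l h1,
      P.per_eq_sum hN hR j k h1, ← sum_sub_distrib, ← sum_add_distrib, ← sum_sub_distrib]
    exact sum_eq_zero fun m _ => (P.sh_mem_Z2 hx2 _).2 i j k l h
  · funext i j k
    rw [sh_apply]
    simp only [per]
    rw [← finsum_comp_equiv (Equiv.subRight (1 : ℤ))]
    refine finsum_congr fun m => ?_
    simp only [Equiv.subRight_apply, sh_apply, P.pow_pow]
    ring_nf

theorem per_sh {N : ℕ} (x : C2 V) (n : ℤ) :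
    P.per N (P.sh n x) = P.sh n (P.per N x) := by
  funext i j k
  rw [sh_apply]
  simp only [per]
  refine finsum_congr fun m => ?_
  simp only [sh_apply, P.pow_pow]
  rw [add_comm n (m * N)]

/-- for every `M` the periodisation is the sum over `|m| ≤ M` plus something supported far away -/
theorem per_rest {N : ℕ} (hN : 1 ≤ N) {x : C2 V} {R : ℤ}
    (hR : ∀ i j k, x i j k ≠ 0 → |P.p i| ≤ R) (M : ℤ) {i j k : V}
    (h : (P.per N x - ∑ m ∈ Icc (-M) M, P.sh (m * N) x) i j k ≠ 0) : M - R < |P.p i| := by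
  by_contra hcon
  rw [not_lt] at hcon
  apply h
  have : P.per N x i j k = ∑ m ∈ Icc (-M) M, P.sh (m * N) x i j k :=
    P.per_eq_sum hN hR j k (by linarith)
  simp only [Pi.sub_apply, Finset.sum_apply, this, sub_self]

end Nerve

/-! ### the bundled forms -/

namespace Forms

variable {V : Type*} {P : Nerve V} (F : Forms P)

/-- the form of `X_N` as a biadditive map -/
def B {N : ℕ} (hN : 1 ≤ N) : ↥(P.Z2p N) →+ ↥(P.Z2p N) →+ ℤ :=
  AddMonoidHom.mk' (fun c => AddMonoidHom.mk' (fun c' => F.IN N c c') (fun a b => by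
    rw [AddSubgroup.coe_add, F.IN_symm N hN _ c.2 _ ((P.Z2p N).add_mem a.2 b.2),
      F.IN_add_left N hN _ a.2 _ b.2 _ c.2, F.IN_symm N hN _ a.2 _ c.2,
      F.IN_symm N hN _ b.2 _ c.2])) (fun a b => by
    ext x
    exact F.IN_add_left N hN _ a.2 _ b.2 _ x.2)


theorem kap_mem_N (N : ℕ) : F.kap ∈ P.Z2p N := P.Z2p_mono (one_dvd N) F.kap_mem

theorem IN_shn {N : ℕ} (hN : 1 ≤ N) (n : ℕ) {c c' : C2 V} (hc : c ∈ P.Z2p N)
    (hc' : c' ∈ P.Z2p N) : F.IN N (P.sh n c) (P.sh n c') = F.IN N c c' := by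
  induction n with
  | zero => simp
  | succ n ih =>
    have e : ∀ x : C2 V, P.sh ((n + 1 : ℕ) : ℤ) x = P.sh 1 (P.sh n x) := fun x => by
      rw [P.sh_sh]; congr 2; push_cast; ring
    rw [e, e, F.IN_sh N hN _ (P.sh_mem_Z2p hc _) _ (P.sh_mem_Z2p hc' _), ih]

theorem IN_shz {N : ℕ} (hN : 1 ≤ N) (n : ℤ) {c c' : C2 V} (hc : c ∈ P.Z2p N)
    (hc' : c' ∈ P.Z2p N) : F.IN N (P.sh n c) (P.sh n c') = F.IN N c c' := by
  rcases Int.eq_nat_or_neg n with ⟨m, rfl | rfl⟩
  · exact F.IN_shn hN m hc hc'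
  · have h := F.IN_shn hN m (P.sh_mem_Z2p hc (-(m : ℤ))) (P.sh_mem_Z2p hc' (-(m : ℤ)))
    rw [P.sh_sh, P.sh_sh, add_neg_cancel, P.sh_zero, P.sh_zero] at h
    exact h.symm

theorem sh_kap (n : ℤ) : P.sh n F.kap = F.kap := by
  have := P.Z2p_sh F.kap_mem n
  simpa using this

theorem IN_kap_sh {N : ℕ} (hN : 1 ≤ N) (n : ℤ) {c : C2 V} (hc : c ∈ P.Z2p N) :
    F.IN N F.kap (P.sh n c) = F.IN N F.kap c := by
  have h := F.IN_shz hN n (F.kap_mem_N N) hc
  rwa [F.sh_kap] at h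

/-- a unit class of `X_N` -/
def UN (N : ℕ) (c : C2 V) : Prop := c ∈ P.Z2p N ∧ F.IN N c c = -1 ∧ F.IN N F.kap c = -1

theorem UN.sh {N : ℕ} (hN : 1 ≤ N) {c : C2 V} (hc : F.UN N c) (n : ℤ) : F.UN N (P.sh n c) :=
  ⟨P.sh_mem_Z2p hc.1 n, by rw [F.IN_shz hN n hc.1 hc.1, hc.2.1],
    by rw [F.IN_kap_sh hN n hc.1, hc.2.2]⟩

/-- the orthonormal basis as an `OB` -/
theorem exists_OB {N : ℕ} (hN : 1 ≤ N) : ∃ (n : ℕ) (e : Fin n → ↥(P.Z2p N)), 0 < n ∧
    OB (F.B hN) ⟨F.kap, F.kap_mem_N N⟩ e := by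
  obtain ⟨n, e, hn, he, h1, h2, h3⟩ := F.basis N hN
  refine ⟨n, fun i => ⟨e i, he i⟩, hn, ?_, h1, h2, ?_⟩
  · intro x y; exact F.IN_symm N hN _ x.2 _ y.2
  · intro x y; exact h3 x x.2 y y.2

theorem IN_nonpos {N : ℕ} (hN : 1 ≤ N) {c : C2 V} (hc : c ∈ P.Z2p N) : F.IN N c c ≤ 0 := by
  obtain ⟨n, e, -, h⟩ := F.exists_OB hN
  exact h.nonpos ⟨c, hc⟩

theorem IN_rad {N : ℕ} (hN : 1 ≤ N) {c : C2 V} (hc : c ∈ P.Z2p N) (h0 : F.IN N c c = 0)
    {c' : C2 V} (hc' : c' ∈ P.Z2p N) : F.IN N c c' = 0 := by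
  obtain ⟨n, e, -, h⟩ := F.exists_OB hN
  exact h.rad (x := ⟨c, hc⟩) h0 ⟨c', hc'⟩

theorem UN.dich {N : ℕ} (hN : 1 ≤ N) {c c' : C2 V} (hc : F.UN N c) (hc' : F.UN N c') :
    F.IN N c c' = 0 ∨ F.IN N c c' = -1 := by
  obtain ⟨n, e, -, h⟩ := F.exists_OB hN
  exact h.unit_unit (x := ⟨c, hc.1⟩) (y := ⟨c', hc'.1⟩) hc.2 hc'.2

/-- **Step 1: free orbits.** -/
theorem UN.free {N : ℕ} (hN : 1 ≤ N) {c : C2 V} (hc : F.UN N c) {j : ℕ} (hj : 0 < j)
    (hjN : j < N) : F.IN N c (P.sh j c) = 0 := by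
  classical
  have hN0 : (N : ℤ) ≠ 0 := by exact_mod_cast (by omega : N ≠ 0)
  obtain ⟨n, e, -, hOB⟩ := F.exists_OB hN
  obtain ⟨n₁, f, -, hOB₁⟩ := F.exists_OB le_rfl
  -- the norm class
  let z : C2 V := ∑ j ∈ range N, P.sh j c
  have hz1 : P.sh 1 z = z := by
    have e1 : P.sh 1 z = ∑ j ∈ range N, P.sh ((j + 1 : ℕ) : ℤ) c := by
      rw [map_sum]
      refine sum_congr rfl fun j _ => ?_
      rw [P.sh_sh]; congr 2; push_cast; ring
    have e2 := Finset.sum_range_succ (fun j : ℕ => P.sh (j : ℤ) c) N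
    have e3 := Finset.sum_range_succ' (fun j : ℕ => P.sh (j : ℤ) c) N
    rw [e1]
    have e4 : P.sh (N : ℤ) c = c := hc.1.2
    rw [e3, e4] at e2
    simp only [Nat.cast_zero, P.sh_zero] at e2
    exact add_right_cancel e2
  have hzN : z ∈ P.Z2p N := (P.Z2p N).sum_mem fun j _ => P.sh_mem_Z2p hc.1 _
  have hz : z ∈ P.Z2p 1 := ⟨hzN.1, by simpa using hz1⟩
  -- pairing with `1`-periodic classes
  have hINsum : ∀ w ∈ P.Z2p N, F.IN N z w = ∑ j ∈ range N, F.IN N (P.sh j c) w := by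
    intro w hw
    have hzz : (⟨z, hzN⟩ : ↥(P.Z2p N)) = ∑ j ∈ range N, ⟨P.sh j c, P.sh_mem_Z2p hc.1 _⟩ := by
      apply Subtype.ext
      rw [AddSubgroup.val_finsetSum]
    have := congrArg (fun t => F.B hN t ⟨w, hw⟩) hzz
    simp only [map_sum, AddMonoidHom.finsetSum_apply] at this
    exact this
  have h1 : ∀ w ∈ P.Z2p 1, F.IN 1 z w = F.IN N c w := by
    intro w hw
    have hwN : w ∈ P.Z2p N := P.Z2p_mono (one_dvd N) hw
    have hsh : ∀ j : ℤ, P.sh j w = w := fun j => by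
      have := P.Z2p_sh hw j
      simpa using this
    have e1 := F.IN_mul 1 N le_rfl hN z hz w hw
    rw [mul_one, hINsum w hwN] at e1
    have e2 : ∀ j ∈ range N, F.IN N (P.sh j c) w = F.IN N c w := by
      intro j _
      have := F.IN_shz hN j hc.1 hwN
      rwa [hsh] at this
    rw [sum_congr rfl e2, sum_const, card_range, nsmul_eq_mul] at e1
    exact (mul_left_cancel₀ hN0 e1).symm
  have h2 : F.IN 1 F.kap z = -1 := by
    rw [F.IN_symm 1 le_rfl _ F.kap_mem _ hz, h1 _ F.kap_mem,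
      F.IN_symm N hN _ hc.1 _ (F.kap_mem_N N), hc.2.2]
  -- coefficients
  have ht : ∀ i, F.IN 1 z (f i) = 0 ∨ F.IN 1 z (f i) = -1 := by
    intro i
    rw [h1 _ (f i).2]
    have hfN : (f i : C2 V) ∈ P.Z2p N := P.Z2p_mono (one_dvd N) (f i).2
    have e1 := F.IN_mul 1 N le_rfl hN _ (f i).2 _ (f i).2
    have e2 := F.IN_mul 1 N le_rfl hN _ F.kap_mem _ (f i).2
    have g1 : F.IN 1 (f i) (f i) = -1 := by
      have := hOB₁.gram i i
      rwa [if_pos rfl] at this
    have g2 : F.IN 1 F.kap (f i) = -1 := hOB₁.kap i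
    rw [mul_one] at e1 e2
    exact hOB.unit_q (x := ⟨c, hc.1⟩) (w := ⟨f i, hfN⟩) hc.2 (by
      change F.IN N (f i) (f i) = F.IN N F.kap (f i)
      rw [e1, e2, g1, g2])
  have h3 : F.IN 1 z z = -1 := by
    have e1 : F.IN 1 z z = - ∑ i, F.IN 1 z (f i) * F.IN 1 z (f i) :=
      hOB₁.span ⟨z, hz⟩ ⟨z, hz⟩
    have e2 : F.IN 1 F.kap z = ∑ i, F.IN 1 z (f i) := hOB₁.kap_apply ⟨z, hz⟩
    rw [e1, ← h2, e2, ← sum_neg_distrib]
    refine sum_congr rfl fun i _ => ?_
    rcases ht i with h | h <;> rw [h] <;> norm_num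
  have h4 : F.IN N c z = -1 := by rw [← h1 z hz, h3]
  -- expand
  rw [F.IN_symm N hN _ hc.1 _ hzN, hINsum c hc.1] at h4
  have h5 : ∀ j ∈ range N, F.IN N (P.sh j c) c ≤ 0 := fun j _ => by
    rcases (hc.sh F hN j).dich F hN hc with h | h <;> rw [h] <;> norm_num
  by_contra hcon
  have h6 : F.IN N (P.sh j c) c = -1 := by
    rw [F.IN_symm N hN _ hc.1 _ (P.sh_mem_Z2p hc.1 _)] at hcon
    exact ((hc.sh F hN j).dich F hN hc).resolve_left hcon
  have h7 : ∑ l ∈ range N, F.IN N (P.sh l c) c ≤ ∑ l ∈ ({0, j} : Finset ℕ), F.IN N (P.sh l c) c := by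
    have hsub : ({0, j} : Finset ℕ) ⊆ range N := by
      intro l hl
      rw [mem_insert, mem_singleton] at hl
      rcases hl with rfl | rfl
      · exact mem_range.2 (by omega)
      · exact mem_range.2 hjN
    have h8 := sum_sdiff hsub (f := fun l : ℕ => F.IN N (P.sh l c) c)
    have h9 : ∑ l ∈ range N \ {0, j}, F.IN N (P.sh l c) c ≤ 0 :=
      sum_nonpos fun l hl => h5 l (mem_sdiff.1 hl).1
    linarith
  rw [h4, sum_pair hj.ne] at h7
  simp only [Nat.cast_zero, P.sh_zero] at h7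
  rw [h6, hc.2.1] at h7
  norm_num at h7

end Forms

end Crest.Agent.R275.Loc647
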