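import Crest.Agent.R275.YBG_812
import Crest.Agent.R275.EcV_938
import Crest.Agent.R275.IndZ_130
import Crest.Agent.R275.GauE_511
import Crest.Agent.R275.CutB_89
import Crest.Agent.R275.EB_938

-- ▼ part R275/VEc_812
section

/-!
# R275, block D (helper812): bounded geometry of `EcV P hc`

* `JO.of_finite`, `JC.of_finite` : data equal to a constant off finitely many pairs / charts.
* `vb_EcV`  : `Fin3 c → VB P (EcV P hc)`, any partition.
* `bgeo_EcV`, `bb_EcV` : on `YBase`.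
-/

set_option autoImplicit false
set_option linter.unusedSectionVars false
set_option linter.unusedVariables false

open Set Filter Topology Complex Metric
open scoped Manifold ContDiff Kronecker

namespace Crest.Agent.R275.CnD812

open Tor812 TorE812 TorF812 TorS666 Geo C1d194 C2812 JB658 C10195

noncomputable section

section General

variable {n : ℕ} {M : Type} [TopologicalSpace M] {A : Atl n M} {P : Part A}
variable {W : Type*} [NormedAddCommGroup W] [NormedSpace ℝ W]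

theorem norm_D_const_le {E : Type*} [NormedAddCommGroup E] [NormedSpace ℝ E] (c : W) (k : ℕ)
    (z : E) : ‖iteratedFDeriv ℝ k (fun _ : E => c) z‖ ≤ ‖c‖ := by
  rcases k with _ | k
  · rw [norm_iteratedFDeriv_zero]
  · rw [iteratedFDeriv_succ_const]
    simp

theorem JO.of_finite {f : A.ι → A.ι → M → W}
    (hsm : ∀ i j, ContDiffOn ℝ ∞ (fun z => f i j ((A.e i).symm z)) (A.ov i j))
    (c₀ : W) {S : Set (A.ι × A.ι)} (hS : S.Finite)
    (h0 : ∀ i j, (i, j) ∉ S → ∀ x ∈ (A.e i).source ∩ (A.e j).source, f i j x = c₀) :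
    JO P (fun _ _ => 1) f := by
  classical
  refine ⟨fun t => (hsm t.i t.j).contDiffAt
    ((isOpen_ov t.i t.j).mem_nhds (mem_ov ⟨t.srci, t.srcj⟩)), fun k => ?_⟩
  have hb : ∀ i j, ∃ C : ℝ, 0 ≤ C ∧ ∀ z ∈ A.e i '' (tsupport (P.χ i) ∩ tsupport (P.χ j)),
      ‖iteratedFDeriv ℝ k (fun z => f i j ((A.e i).symm z)) z‖ ≤ C := by
    intro i j
    refine bdd_D_of_compact (isOpen_ov i j) ?_ ?_ (hsm i j) k
    · exact ((P.χ_cpt i).inter_right (isClosed_tsupport _)).image_of_continuousOn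
        ((A.e i).continuousOn.mono (inter_subset_left.trans (P.χ_sub i)))
    · rintro _ ⟨x, hx, rfl⟩
      exact mem_ov ⟨P.χ_sub _ hx.1, P.χ_sub _ hx.2⟩
  choose C hC hCb using hb
  have hs0 : 0 ≤ ∑ p ∈ hS.toFinset, C p.1 p.2 := Finset.sum_nonneg fun p _ => hC _ _
  refine ⟨(∑ p ∈ hS.toFinset, C p.1 p.2) + ‖c₀‖, by positivity, fun t => ?_⟩
  rw [mul_one]
  by_cases ht : (t.i, t.j) ∈ S
  · have h1 := hCb t.i t.j (A.e t.i t.x) ⟨t.x, ⟨t.memi, t.memj⟩, rfl⟩
    have h2 : C t.i t.j ≤ ∑ p ∈ hS.toFinset, C p.1 p.2 :=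
      Finset.single_le_sum (f := fun p : A.ι × A.ι => C p.1 p.2) (fun _ _ => hC _ _)
        (hS.mem_toFinset.2 ht)
    exact h1.trans (h2.trans (le_add_of_nonneg_right (norm_nonneg _)))
  · have e1 : (fun z => f t.i t.j ((A.e t.i).symm z)) =ᶠ[𝓝 (A.e t.i t.x)] fun _ => c₀ := by
      filter_upwards [(isOpen_ov t.i t.j).mem_nhds (mem_ov ⟨t.srci, t.srcj⟩)] with z hz
      exact h0 _ _ ht _ ⟨(A.e t.i).map_target hz.1, hz.2⟩
    rw [(e1.iteratedFDeriv ℝ k).eq_of_nhds]
    exact (norm_D_const_le c₀ k _).trans (le_add_of_nonneg_left hs0)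

theorem JC.of_finite {f : A.ι → M → W} (hsm : ∀ i, A.SmAt i (f i)) (c₀ : W) {S : Set A.ι}
    (hS : S.Finite) (h0 : ∀ i ∉ S, ∀ x ∈ (A.e i).source, f i x = c₀) :
    JC P (fun _ => 1) f := by
  classical
  have h1 : JO P (fun _ _ => 1) fun i j x => if i = j then f i x else c₀ := by
    refine JO.of_finite (fun i j => ?_) c₀ (S := (fun i => (i, i)) '' S) (hS.image _) ?_
    · split_ifs
      · exact (hsm i).mono fun z hz => hz.1
      · exact contDiffOn_const
    · intro i j hij x hx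
      split_ifs with h
      · subst h
        exact h0 i (fun hi => hij ⟨i, hi, rfl⟩) x hx.1
      · rfl
  refine JB.congr (JB.reindex h1 fun t : T1 P => (⟨((t.i, t.i), t.x), ⟨t.mem, t.mem⟩⟩ : T2 P))
    fun t => Filter.Eventually.of_forall fun z => ?_
  show f t.i ((A.e t.i).symm z) = if t.i = t.i then f t.i ((A.e t.i).symm z) else c₀
  rw [if_pos rfl]

open EcV938 NAtl938 GC293

/-- **the smooth line bundle of a finitely supported class has bounded data** -/
theorem vb_EcV {c : A.ι → A.ι → A.ι → ℤ} (hc : c ∈ Z2 A ℤ) (hf : Fin3 c) :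
    VB P (EcV P hc) where
  g k l := by
    refine JO.of_finite (fun i j => (EcV P hc).g_smooth i j k l) 1
      (S := (fun p : A.ι × A.ι × A.ι => (p.2.1, p.2.2)) ''
        {p : A.ι × A.ι × A.ι | c p.1 p.2.1 p.2.2 ≠ 0}) (hf.image _) ?_
    intro i j hij x hx
    show Complex.exp (2 * Real.pi * I * phi P c i j x) = 1
    rw [phi_zero, mul_zero, Complex.exp_zero]
    intro l _
    by_contra h
    exact hij ⟨(l, i, j), h, rfl⟩
  a b k l := by
    refine JC.of_finite (fun i => (EcV P hc).a_smooth i b k l) 0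
      (S := (fun p : A.ι × A.ι × A.ι => p.2.2) ''
        {p : A.ι × A.ι × A.ι | c p.1 p.2.1 p.2.2 ≠ 0}) (hf.image _) ?_
    intro i hi x hx
    show 2 * Real.pi * I * vv P c i b x = 0
    rw [vv_zero hx, mul_zero]
    intro l m _ _
    by_contra h
    exact hi ⟨(m, l, i), h, rfl⟩

end General

end

end Crest.Agent.R275.CnD812

namespace Crest.Agent.R275.YBG812

open Geo NAtl938 Core144 WB658 Fm96 Base144 C10195 KerV631 WY681 CnD812 Tor812 C1d194 C2812
open Lam2130 LauB681 Fred685 Crest.AlgGeometry.Surface EcV938 GC293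

noncomputable section

variable {Y : Type} [TopologicalSpace Y] [ChartedSpace C2 Y] (B : YBase Y)
  {c : B.N.sm.ι → B.N.sm.ι → B.N.sm.ι → ℤ}

/-- bounded geometry of `Λ^{0,*} ⊗ E` for bounded `E` -/
theorem bgeo_vb {E : VBun B.N.sm} (hE : VB B.P E) : BGeo B.P (tw (lam2 B.N.sm) E) :=
  bgeo_tw_lam2 (pb B) (bn B) hE


/-- **bounded geometry of the smooth line bundle of a class with finite support** -/
theorem bgeo_EcV (hc : c ∈ Z2 B.N.sm ℤ) (hf : Fin3 c) :
    BGeo B.P (tw (lam2 B.N.sm) (EcV B.P hc)) := bgeo_vb B (vb_EcV hc hf)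


end

end Crest.Agent.R275.YBG812
end

-- ▼ part R275/IndY_130

/-!
# R275, block D, leaf D7 (helper130): the index of the weighted complexes on `Y`

`ExcOK B F` : EXC, the index of `∇` on `EcV P c` minus the one on `EcV P 0`, at any pair of rates,
is the reduced index `q0 F c` (for all `c` in `Pn.Z2c`).

`ind` : for `L ∈ PP B.N B.h` and rates `(a,b)` where the complexes of `L` and of the trivial bundle
have homotopies modulo negligible operators, `Fin (wY L) a b` and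
`chi (wY L) a b = chi (wY 1) a b + qL F B.h L` (the field `ind` of 352's `YAn`).
-/

set_option autoImplicit false
set_option linter.unusedSectionVars false

open Set Filter Topology Complex
open scoped ContDiff Matrix ComplexConjugate

noncomputable section

namespace Crest.Agent.R275.IndY130

open Geo NAtl938 Core144 Base144 WY681 YBG812 Tor812 Q74 Lam2130 LauB681 GG89 WCxY89
open Fred685 Eul130 EulW130 IndZ130 Gau511 EcV938 Sup912 EB938 Loc647 LocT474 Cls938
open Crest.Agent.R275.GC293 (Z2)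
open Crest.AlgGeometry.Surface
open Fm96 hiding isLC
open KerV631 (BL isLC)
open CutB89 (cutY wY)

variable {Y : Type} [TopologicalSpace Y] [T2Space Y] [ChartedSpace C2 Y] (B : YBase Y)
  {Pn : Nerve B.N.ι}

omit [T2Space Y] [ChartedSpace C2 Y] in
theorem src_sub {N : NAtl 2 Y} (i : N.ι) : (N.sm.e i).source ⊆ (N.big.e i).source := by
  have h1 : (N.sm.e i).source = N.B N.r i := N.at'_source le_rfl i
  rw [h1, N.big_source]
  exact N.B_sub _ _

omit [T2Space Y] [ChartedSpace C2 Y] in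
/-- cocycles of the large balls are cocycles of the small balls -/
theorem mem_Z2_sm {N : NAtl 2 Y} {c : N.ι → N.ι → N.ι → ℤ} (hc : c ∈ Z2 N.big ℤ) :
    c ∈ Z2 N.sm ℤ := by
  rintro i j k l ⟨x, ⟨⟨h1, h2⟩, h3⟩, h4⟩
  exact hc i j k l ⟨x, ⟨⟨src_sub i h1, src_sub j h2⟩, src_sub k h3⟩, src_sub l h4⟩

/-! ### a homotopy gives a quasi-complex on the bundle of the class -/

section cls

variable {B} {c : B.N.ι → B.N.ι → B.N.ι → ℤ} (L : LB B.N.sm) (hL : BGeo B.P (BL L))

/-- the index of the weighted complex of `L` is the index of `∇` on `EcV P c` -/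
theorem exists_ecv (hc : c ∈ Z2 B.N.sm ℤ) (hf : Fin3 c) (hcL : HasCls B.N.sm B.h L.g c) {a b : ℝ}
    (hQ : ∃ K : (wfY B L hL).V a b →ₗ[ℂ] (wfY B L hL).V a b,
      QHtp ((wfY B L hL).S a b) ((cxY B L hL).R a b) K ∧ Hg (-1) K) :
    ∃ D : QC (gdW (Gau511.grF (bgeo_EcV B hc hf) (hts B)) a b),
      IsDQ (hB := bgeo_EcV B hc hf) (w := (hts B).wt (-a) b) D ∧
      Sol352.Fin (wY B L hL) a b ∧ Sol352.chi (wY B L hL) a b = D.ind := by
  obtain ⟨K, hK, hg⟩ := hQ
  obtain ⟨D, hD, hi⟩ := exists_ecvQC B.Pt L (lam2 B.N.sm) hc hf hcL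
    (Gau511.isDQ_qcW hL (hts B) a b (nabL_nabL B L) hK hg)
    (isDG_gdW (bgeo_EcV B hc hf) (hts B) a b)
  obtain ⟨h1, h2⟩ := fin_chi_of_qhtp (CutB89.dolF B L hL) (cutY B L hL)
    (Gau511.grF hL (hts B)) hK hg
  exact ⟨D, hD, h1, h2.trans hi.symm⟩

end cls

/-! ### the statement -/

theorem fin3_zero {V : Type} : Fin3 (0 : V → V → V → ℤ) := by
  have h : {p : V × V × V | (0 : V → V → V → ℤ) p.1 p.2.1 p.2.2 ≠ 0} = ∅ := by
    ext p
    simp
  show Set.Finite _
  rw [h]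
  exact Set.finite_empty

/-- **EXC**: the index of the bundles of the classes on `Y` -/
def ExcOK (F : Forms Pn) : Prop :=
  ∀ (c : C2 B.N.ι) (_ : c ∈ Pn.Z2c) (hc : c ∈ Z2 B.N.sm ℤ) (hf : Fin3 c) (a b : ℝ)
    (D : QC (gdW (Gau511.grF (bgeo_EcV B hc hf) (hts B)) a b))
    (D0 : QC (gdW (Gau511.grF (bgeo_EcV B (zero_mem (Z2 B.N.sm ℤ)) fin3_zero) (hts B)) a b)),
    IsDQ (hB := bgeo_EcV B hc hf) (w := (hts B).wt (-a) b) D →
    IsDQ (hB := bgeo_EcV B (zero_mem (Z2 B.N.sm ℤ)) fin3_zero) (w := (hts B).wt (-a) b) D0 →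
    D.ind = D0.ind + q0 F c

variable {B}

/-- **D7**: the index of the weighted complex of an end line bundle -/
theorem ind (Hn : NL B.N B.h Pn) {F : Forms Pn} (hX : ExcOK B F) {L : LB B.N.sm}
    (hL : L ∈ PP B.N B.h) (hB : BGeo B.P (BL L)) (hB1 : BGeo B.P (BL (1 : LB B.N.sm))) {a b : ℝ}
    (hQ : ∃ K : (wfY B L hB).V a b →ₗ[ℂ] (wfY B L hB).V a b,
      QHtp ((wfY B L hB).S a b) ((cxY B L hB).R a b) K ∧ Hg (-1) K)
    (hQ1 : ∃ K : (wfY B 1 hB1).V a b →ₗ[ℂ] (wfY B 1 hB1).V a b,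
      QHtp ((wfY B 1 hB1).S a b) ((cxY B 1 hB1).R a b) K ∧ Hg (-1) K) :
    Sol352.Fin (wY B L hB) a b ∧
      Sol352.chi (wY B L hB) a b = Sol352.chi (wY B 1 hB1) a b + qL F B.h L := by
  obtain ⟨c, hc⟩ := (mem_PP_iff Hn).1 hL
  have hc' := hc.hc Hn
  have hcs := mem_Z2_sm hc'.1.1
  obtain ⟨D, hD, h1, h2⟩ := exists_ecv L hB hcs hc'.1.2 hc.2 hQ
  obtain ⟨D0, hD0, -, h4⟩ := exists_ecv (c := 0) 1 hB1 (zero_mem (Z2 B.N.sm ℤ)) fin3_zero
    (HN.one (Pn := Pn)).2 hQ1
  refine ⟨h1, ?_⟩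
  rw [h2, h4, qL_eq B.good B.Q B.P Hn F hc]
  exact hX c hc.1 hcs hc'.1.2 a b D D0 hD hD0

end Crest.Agent.R275.IndY130
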