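import Crest.Agent.R275.KDual_106
import Crest.Agent.R275.MIi_683

/-!
# R275 (S0418), block K: the geometric index of helper683 in the form `GIx` (helper106)

* `gix P : GIx A`, `(gix P).I = MI683.geoI P (nabL_sq A)` (rfl);
* `link_gix` : LINK for the geometric index;
* `nonempty_xnIn_geo` : `XNIn` from `CMData` for the geometric index and the rank bound.
-/

set_option autoImplicit false
set_option linter.unusedSectionVars false

open Set Filter Topology

namespace Crest.Agent.R275.XNI106

open TopK106 Zig470 Geo Smf798 KR798 SB798 GC293 Core144 ASConv293 KAsm106 KZig106 PDB412 ChiM825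
  NEul865 KX106 XN194 NForm945 NGeo151 NTr151 PDY945 WtY945 INX945 EBF151 Loc647 QPb635 KY293
  Dual945 MI683

noncomputable section

section gix

variable {M : Type} [TopologicalSpace M] [CompactSpace M] {A : Atl 2 M} [Finite A.ι]

/-- the geometric index -/
def gix [T2Space M] (P : Part A) : GIx A where
  G := (gmodP P (LnkP5476.nabL_sq A)).ms
  hσ := gmodP_σ P (LnkP5476.nabL_sq A)
  coh := isCoh_geo P



/-- **LINK for the geometric index**, no hypothesis on the index left -/
theorem link_gix [T2Space M] (P : Part A) {E : (List M → ℤ) → ℝ} (D : Ev 3 E) (hN : Nrm A E)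
    {lab : M → A.ι} (hlab : Lab (UA A) lab) :
    Link P (geoI P (LnkP5476.nabL_sq A)) E lab := (gix P).link P D hN hlab

end gix

section xn

variable {M Z Z' : Type} [TopologicalSpace M] [TopologicalSpace Z] [TopologicalSpace Z']
  [T2Space M] [CompactSpace M] [T2Space Z] [LocallyCompactSpace Z]
  [T2Space Z'] [CompactSpace Z'] {A : Atl 2 M} [Finite A.ι] {N : ℕ}
  {C : KCov A Z ℤ} {C' : KCov A Z' (ZMod N)}

/-- lifted atlases over `ZMod N` are finite -/
theorem finite_lift (hN : 1 ≤ N) : Finite C'.lift.ι := by
  have : NeZero N := ⟨by omega⟩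
  exact inferInstanceAs (Finite (A.ι × ZMod N))


end xn

end

end Crest.Agent.R275.XNI106
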