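import Mathlib
import Crest.Prelude.Def_ComplexSurface
import Crest.Agent.R275.NormA_884
import Crest.Agent.R275.FLBox_884
import Crest.Agent.R275.HolY_631
import Crest.Agent.R275.FLd_606
import Crest.Agent.R275.HolL_631

-- ▼ part R275/NormB_884
section

/-!
R275 / S0418, block NORM, part 2: the glued norm of a section, without a smooth metric.

`Fam Y κ` : locally finite family of open "coordinate balls" `D k = {‖q k‖ < 1}` such that the
half balls cover.  For local functions `s k` with `‖s k‖ ≤ exp (A/2) ‖s l‖` on the overlaps,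
`N s y = sup_k ‖s k y‖ exp (-A ‖q k y‖²)` (over the `k` with `y ∈ D k`).
-/

set_option autoImplicit false
set_option linter.unusedSectionVars false
set_option linter.style.haveILetI false

open MeasureTheory Set Filter Topology Metric Crest.AlgGeometry.Surface
open Crest.Agent.R275.FL606
open scoped Real

namespace Crest.Agent.R275.FL884

/-- `LogSM` depends only on the values in `B` -/
lemma LogSM_congr {E : Type*} [NormedAddCommGroup E] [NormedSpace ℂ E] {ε : ℝ} {f f' : E → ℝ}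
    {B : Set E} (h : LogSM ε f B) (hff : ∀ z ∈ B, f z = f' z) : LogSM ε f' B := by
  intro T z v hd
  have h1 := h T z v hd
  have hz : z ∈ B := by simpa using hd 0 (by simp)
  simp only [hff z hz] at h1
  refine h1.trans (le_of_eq ?_)
  congr 1
  refine Real.circleAverage_congr_sphere fun w hw => ?_
  have hw1 : ‖w‖ ≤ 1 := by
    rw [mem_sphere_zero_iff_norm] at hw
    rw [hw, abs_one]
  show Real.log (max (f (z + w • v)) _) = Real.log (max (f' (z + w • v)) _)
  rw [hff _ (hd w hw1)]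

/-- locally finite family of coordinate balls -/
structure Fam (Y : Type*) [TopologicalSpace Y] (κ : Type*) where
  q : κ → Y → C2
  D : κ → Set Y
  isOpen : ∀ k, IsOpen (D k)
  cont : ∀ k, ContinuousOn (q k) (D k)
  lt : ∀ k, ∀ y ∈ D k, ‖q k y‖ < 1
  closed : ∀ k, ∀ ρ < (1 : ℝ), IsClosed {y | y ∈ D k ∧ ‖q k y‖ ≤ ρ}
  cover : ∀ y, ∃ k, y ∈ D k ∧ ‖q k y‖ ≤ 1 / 2
  locfin : LocallyFinite D

namespace Fam

variable {Y : Type*} [TopologicalSpace Y] {κ : Type*} (F : Fam Y κ)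

open Classical in
/-- one term of the supremum -/
noncomputable def trm (A : ℝ) (s : κ → Y → ℂ) (k : κ) (y : Y) : ℝ :=
  if y ∈ F.D k then ‖s k y‖ * Real.exp (-A * ‖F.q k y‖ ^ 2) else 0

/-- the glued norm -/
noncomputable def N (A : ℝ) (s : κ → Y → ℂ) (y : Y) : ℝ := ⨆ k, F.trm A s k y

/-- the local functions are comparable -/
def Cmp (A : ℝ) (s : κ → Y → ℂ) : Prop :=
  ∀ k l y, y ∈ F.D k → y ∈ F.D l → ‖s k y‖ ≤ Real.exp (A / 2) * ‖s l y‖

variable {F} {A : ℝ} {s : κ → Y → ℂ}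

lemma trm_of_mem {k : κ} {y : Y} (h : y ∈ F.D k) :
    F.trm A s k y = ‖s k y‖ * Real.exp (-A * ‖F.q k y‖ ^ 2) := if_pos h

lemma trm_of_not_mem {k : κ} {y : Y} (h : y ∉ F.D k) : F.trm A s k y = 0 := if_neg h

lemma trm_nonneg (k : κ) (y : Y) : 0 ≤ F.trm A s k y := by
  unfold trm
  split_ifs
  · positivity
  · exact le_rfl

lemma bdd (y : Y) : BddAbove (range fun k => F.trm A s k y) := by
  have h1 : {k | y ∈ F.D k}.Finite := F.locfin.point_finite y
  have h2 : range (fun k => F.trm A s k y) ⊆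
      insert 0 ((fun k => F.trm A s k y) '' {k | y ∈ F.D k}) := by
    rintro _ ⟨k, rfl⟩
    by_cases hk : y ∈ F.D k
    · exact Or.inr ⟨k, hk, rfl⟩
    · exact Or.inl (trm_of_not_mem hk)
  exact (((h1.image _).insert 0).subset h2).bddAbove

lemma le_N (k : κ) (y : Y) : F.trm A s k y ≤ F.N A s y := le_ciSup (bdd y) k

lemma N_nonneg (y : Y) : 0 ≤ F.N A s y := by
  obtain ⟨k, -, -⟩ := F.cover y
  exact (trm_nonneg k y).trans (le_N k y)

lemma N_le {y : Y} {c : ℝ} (h : ∀ k, F.trm A s k y ≤ c) : F.N A s y ≤ c := by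
  obtain ⟨k, -, -⟩ := F.cover y
  haveI : Nonempty κ := ⟨k⟩
  exact ciSup_le h

lemma sq_le_one {k : κ} {y : Y} (hk : y ∈ F.D k) : ‖F.q k y‖ ^ 2 ≤ 1 := by
  have h1 := (F.lt k y hk).le
  have h2 := norm_nonneg (F.q k y)
  nlinarith

lemma lower (hA : 0 ≤ A) {k : κ} {y : Y} (hk : y ∈ F.D k) :
    Real.exp (-A) * ‖s k y‖ ≤ F.N A s y := by
  refine le_trans ?_ (le_N k y)
  rw [trm_of_mem hk, mul_comm]
  gcongr
  have := sq_le_one hk
  nlinarith

lemma upper (hA : 0 ≤ A) (hs : F.Cmp A s) {k : κ} {y : Y} (hk : y ∈ F.D k) :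
    F.N A s y ≤ Real.exp (A / 2) * ‖s k y‖ := by
  refine N_le fun l => ?_
  by_cases hl : y ∈ F.D l
  · rw [trm_of_mem hl]
    have h1 : Real.exp (-A * ‖F.q l y‖ ^ 2) ≤ 1 := by
      rw [Real.exp_le_one_iff]
      have := sq_nonneg ‖F.q l y‖
      nlinarith
    calc ‖s l y‖ * Real.exp (-A * ‖F.q l y‖ ^ 2) ≤ ‖s l y‖ * 1 := by gcongr
      _ = ‖s l y‖ := mul_one _
      _ ≤ _ := hs l k y hl hk
  · rw [trm_of_not_mem hl]
    positivity


/-- terms near the boundary are dominated -/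
lemma dominated (hA : 0 ≤ A) (hs : F.Cmp A s) {k l : κ} {y : Y} (hk : y ∈ F.D k)
    (hk' : 9 / 10 ≤ ‖F.q k y‖) (hl : y ∈ F.D l) (hl' : ‖F.q l y‖ ≤ 1 / 2) :
    F.trm A s k y ≤ F.trm A s l y := by
  rw [trm_of_mem hk, trm_of_mem hl]
  have h1 : (9 / 10 : ℝ) ^ 2 ≤ ‖F.q k y‖ ^ 2 := by gcongr
  have h2 : ‖F.q l y‖ ^ 2 ≤ (1 / 2 : ℝ) ^ 2 := by gcongr
  calc ‖s k y‖ * Real.exp (-A * ‖F.q k y‖ ^ 2)
      ≤ (Real.exp (A / 2) * ‖s l y‖) * Real.exp (-A * ‖F.q k y‖ ^ 2) := by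
        gcongr
        exact hs k l y hk hl
    _ = ‖s l y‖ * Real.exp (A / 2 + -A * ‖F.q k y‖ ^ 2) := by
        rw [Real.exp_add]; ring
    _ ≤ ‖s l y‖ * Real.exp (-A * ‖F.q l y‖ ^ 2) := by
        gcongr
        nlinarith

/-- sets on which each ball is either active or almost out of reach -/
def Good (F : Fam Y κ) (S : Set Y) : Prop :=
  ∀ k, S ⊆ F.D k ∨ ∀ y ∈ S, y ∈ F.D k → 9 / 10 < ‖F.q k y‖

lemma Good.mono {S S' : Set Y} (h : F.Good S) (hS : S' ⊆ S) : F.Good S' := fun k => by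
  rcases h k with h1 | h1
  · exact Or.inl (hS.trans h1)
  · exact Or.inr fun y hy => h1 y (hS hy)

lemma exists_good (F : Fam Y κ) (y : Y) : ∃ W : Set Y, IsOpen W ∧ y ∈ W ∧ F.Good W := by
  classical
  obtain ⟨t, ht, hfin⟩ := F.locfin y
  set Wk : κ → Set Y := fun k => if y ∈ F.D k then F.D k else {x | x ∈ F.D k ∧ ‖F.q k x‖ ≤ 9 / 10}ᶜ
    with hWk
  have h1 : ∀ k, IsOpen (Wk k) ∧ y ∈ Wk k := by
    intro k
    by_cases hk : y ∈ F.D k
    · simp only [hWk, if_pos hk]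
      exact ⟨F.isOpen k, hk⟩
    · simp only [hWk, if_neg hk]
      exact ⟨(F.closed k _ (by norm_num)).isOpen_compl, fun h => hk h.1⟩
  refine ⟨interior t ∩ ⋂ k ∈ {k | (F.D k ∩ t).Nonempty}, Wk k,
    isOpen_interior.inter (hfin.isOpen_biInter fun k _ => (h1 k).1),
    ⟨mem_interior_iff_mem_nhds.2 ht, mem_iInter₂.2 fun k _ => (h1 k).2⟩, ?_⟩
  intro k
  by_cases hk : (F.D k ∩ t).Nonempty
  · by_cases hyk : y ∈ F.D k
    · left
      rintro x ⟨-, hx⟩
      have := mem_iInter₂.1 hx k hk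
      simpa only [hWk, if_pos hyk] using this
    · right
      rintro x ⟨-, hx⟩ hxk
      have := mem_iInter₂.1 hx k hk
      simp only [hWk, if_neg hyk] at this
      by_contra h2
      exact this ⟨hxk, not_lt.1 h2⟩
  · right
    rintro x ⟨hxt, -⟩ hxk
    exact absurd ⟨x, hxk, interior_subset hxt⟩ hk

lemma finite_act {S : Set Y} (hne : S.Nonempty) : Finite {k // S ⊆ F.D k} := by
  obtain ⟨y, hy⟩ := hne
  exact ((F.locfin.point_finite y).subset (fun k (hk : S ⊆ F.D k) => hk hy)).to_subtype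

/-- on a good set only the active balls matter -/
lemma N_eq (hA : 0 ≤ A) (hs : F.Cmp A s) {S : Set Y} (hS : F.Good S) {y : Y} (hy : y ∈ S) :
    Nonempty {k // S ⊆ F.D k} ∧ F.N A s y = ⨆ k : {k // S ⊆ F.D k}, F.trm A s k y := by
  obtain ⟨l, hl, hl'⟩ := F.cover y
  have hlS : S ⊆ F.D l := by
    rcases hS l with h | h
    · exact h
    · exact absurd (h y hy hl) (by linarith)
  haveI : Nonempty {k // S ⊆ F.D k} := ⟨⟨l, hlS⟩⟩
  have hb : BddAbove (range fun k : {k // S ⊆ F.D k} => F.trm A s k y) :=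
    (bdd (A := A) (s := s) y).mono (by rintro _ ⟨k, rfl⟩; exact ⟨k, rfl⟩)
  refine ⟨this, le_antisymm (N_le fun k => ?_) (ciSup_le fun k => le_N _ _)⟩
  have hle : F.trm A s l y ≤ ⨆ k : {k // S ⊆ F.D k}, F.trm A s k y := le_ciSup hb ⟨l, hlS⟩
  by_cases hk : y ∈ F.D k
  · rcases hS k with h | h
    · exact le_ciSup hb ⟨k, h⟩
    · exact (dominated hA hs hk (h y hy hk).le hl hl').trans hle
  · rw [trm_of_not_mem hk]
    exact (trm_nonneg l y).trans hle

/-- supremum of finitely many continuous functions -/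
lemma continuousAt_iSup {X ι : Type*} [TopologicalSpace X] [Finite ι] [Nonempty ι]
    {f : ι → X → ℝ} {x : X} (h : ∀ i, ContinuousAt (f i) x) :
    ContinuousAt (fun x => ⨆ i, f i x) x := by
  haveI := Fintype.ofFinite ι
  have h1 : (fun x => ⨆ i, f i x) =
      fun x => Finset.univ.sup' Finset.univ_nonempty (fun i => f i x) := by
    funext x
    rw [Finset.sup'_univ_eq_ciSup]
  rw [h1]
  exact ContinuousAt.finset_sup'_apply Finset.univ_nonempty fun i _ => h i

lemma continuous_N (hA : 0 ≤ A) (hs : F.Cmp A s) (hc : ∀ k, ContinuousOn (s k) (F.D k)) :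
    Continuous (F.N A s) := by
  rw [continuous_iff_continuousAt]
  intro y
  obtain ⟨W, hW, hyW, hgood⟩ := F.exists_good y
  haveI := (N_eq hA hs hgood hyW).1
  haveI := finite_act (F := F) ⟨y, hyW⟩
  have h1 : F.N A s =ᶠ[𝓝 y] fun x => ⨆ k : {k // W ⊆ F.D k},
      ‖s k x‖ * Real.exp (-A * ‖F.q k x‖ ^ 2) := by
    filter_upwards [hW.mem_nhds hyW] with x hx
    rw [(N_eq hA hs hgood hx).2]
    congr 1
    funext k
    exact trm_of_mem (k.2 hx)
  refine ContinuousAt.congr ?_ h1.symm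
  refine continuousAt_iSup fun k => ?_
  have hn : F.D k ∈ 𝓝 y := (F.isOpen k).mem_nhds (k.2 hyW)
  have h2 : ContinuousAt (s k) y := (hc k).continuousAt hn
  have h3 : ContinuousAt (F.q k) y := (F.cont k).continuousAt hn
  exact h2.norm.mul (Real.continuous_exp.continuousAt.comp
    (continuousAt_const.mul (h3.norm.pow 2)))

/-- **sub-mean value property of the glued norm** along holomorphic boxes in a good set -/
theorem logSM_N (hA : 0 ≤ A) (hs : F.Cmp A s) {S : Set Y} (hS : F.Good S) {R : ℝ} (hR : 0 < R)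
    {p : C2 → Y} (hp : MapsTo p (ball 0 (R + 1)) S)
    (hq : ∀ k, S ⊆ F.D k → DifferentiableOn ℂ (fun z => F.q k (p z)) (ball 0 (R + 1)))
    (hsp : ∀ k, S ⊆ F.D k → DifferentiableOn ℂ (fun z => s k (p z)) (ball 0 (R + 1))) :
    LogSM (2 * A) (fun z => F.N A s (p z)) (ball 0 R) := by
  classical
  have h0 : (0 : C2) ∈ ball (0 : C2) (R + 1) := mem_ball_self (by linarith)
  haveI := (N_eq hA hs hS (hp h0)).1
  haveI := finite_act (F := F) ⟨p 0, hp h0⟩
  have hsub : closedBall (0 : C2) R ⊆ ball 0 (R + 1) := closedBall_subset_ball (by linarith)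
  -- the measurable modifications
  set f : {k // S ⊆ F.D k} → C2 → ℝ := fun k =>
    (ball (0 : C2) (R + 1)).piecewise
      (fun z => ‖s k (p z)‖ * Real.exp (-A * ‖F.q k (p z)‖ ^ 2)) (fun _ => 0) with hf
  have hfc : ∀ k : {k // S ⊆ F.D k}, ContinuousOn
      (fun z => ‖s k (p z)‖ * Real.exp (-A * ‖F.q k (p z)‖ ^ 2)) (ball (0 : C2) (R + 1)) := by
    intro k
    have h1 := (hsp k k.2).continuousOn
    have h2 := (hq k k.2).continuousOn
    exact h1.norm.mul (Real.continuous_exp.comp_continuousOn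
      (continuousOn_const.mul (h2.norm.pow 2)))
  have hfm : ∀ k, Measurable (f k) := fun k =>
    ContinuousOn.measurable_piecewise (hfc k) continuousOn_const isOpen_ball.measurableSet
  have hfe : ∀ k, ∀ z ∈ ball (0 : C2) (R + 1), f k z =
      ‖s k (p z)‖ * Real.exp (-A * ‖F.q k (p z)‖ ^ 2) := fun k z hz =>
    piecewise_eq_of_mem _ _ _ hz
  -- bounds
  have hbd : ∀ k, ∃ M : ℝ, ∀ z ∈ closedBall (0 : C2) R, f k z ≤ Real.exp M := by
    intro k
    obtain ⟨C, hC⟩ := (isCompact_closedBall (0 : C2) R).exists_bound_of_continuousOn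
      ((hfc k).mono hsub)
    refine ⟨C, fun z hz => ?_⟩
    have h1 := hC z hz
    rw [hfe k z (hsub hz)]
    have h2 := (le_abs_self _).trans h1
    have h3 := Real.add_one_le_exp C
    linarith
  choose Mk hMk using hbd
  obtain ⟨M, hM⟩ : ∃ M : ℝ, ∀ k, Mk k ≤ M := by
    obtain ⟨M, hM⟩ := (Set.finite_range Mk).bddAbove
    exact ⟨M, fun k => hM ⟨k, rfl⟩⟩
  have hlog : ∀ k, LogSM (2 * A) (f k) (ball 0 R) := by
    intro k
    have h1 := logSM_of_bounded_coords (E := C2) (ι := Fin 2) hA (s := fun z => s k (p z))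
      (f := fun i z => F.q k (p z) i) (R := R) (hsp k k.2)
      (fun i => by
        have h2 := hq k k.2
        exact (EuclideanSpace.proj (𝕜 := ℂ) i).differentiable.comp_differentiableOn h2)
      (fun i z hz => by
        have h2 := F.lt k _ (k.2 (hp hz))
        exact (PiLp.norm_apply_le (F.q k (p z)) i).trans h2.le)
    have h2 : A * (Fintype.card (Fin 2) : ℝ) = 2 * A := by
      rw [Fintype.card_fin]; push_cast; ring
    rw [h2] at h1
    refine LogSM_congr h1 fun z hz => ?_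
    rw [hfe k z (hsub (ball_subset_closedBall hz)), EuclideanSpace.norm_sq_eq]
  have key := LogSM.iSup (B := ball (0 : C2) R) hfm (M := M)
    (fun k z hz => (hMk k z (ball_subset_closedBall hz)).trans (Real.exp_le_exp.2 (hM k))) hlog
  refine LogSM_congr key fun z hz => ?_
  have hz' : z ∈ ball (0 : C2) (R + 1) := hsub (ball_subset_closedBall hz)
  rw [(N_eq hA hs hS (hp hz')).2]
  congr 1
  funext k
  rw [hfe k z hz', trm_of_mem (k.2 (hp hz'))]

/-! ### equivariance -/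

/-- the family is invariant under the homeomorphism `g` -/
structure Equi (F : Fam Y κ) (g : Y ≃ₜ Y) (τ : κ ≃ κ) : Prop where
  mem : ∀ k y, g y ∈ F.D (τ k) ↔ y ∈ F.D k
  q : ∀ k, ∀ y ∈ F.D k, F.q (τ k) (g y) = F.q k y

variable {g : Y ≃ₜ Y} {τ : κ ≃ κ}

lemma N_g (E : F.Equi g τ) {t : ℂ} {y : Y}
    (ht : ∀ k, y ∈ F.D k → s (τ k) (g y) = t * s k y) :
    F.N A s (g y) = ‖t‖ * F.N A s y := by
  unfold N
  rw [Real.mul_iSup_of_nonneg (norm_nonneg t), ← τ.iSup_comp]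
  congr 1
  funext k
  by_cases hk : y ∈ F.D k
  · rw [trm_of_mem hk, trm_of_mem ((E.mem k y).2 hk), ht k hk, E.q k y hk, norm_mul]
    ring
  · rw [trm_of_not_mem hk, trm_of_not_mem (fun h => hk ((E.mem k y).1 h)), mul_zero]

lemma Equi.symm (E : F.Equi g τ) : F.Equi g.symm τ.symm := by
  refine ⟨fun k y => ?_, fun k y hy => ?_⟩
  · have := E.mem (τ.symm k) (g.symm y)
    rw [g.apply_symm_apply, τ.apply_symm_apply] at this
    exact this.symm
  · have h1 : g.symm y ∈ F.D (τ.symm k) := by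
      have := E.mem (τ.symm k) (g.symm y)
      rw [g.apply_symm_apply, τ.apply_symm_apply] at this
      exact this.1 hy
    have := E.q (τ.symm k) (g.symm y) h1
    rw [g.apply_symm_apply, τ.apply_symm_apply] at this
    exact this.symm

lemma Good.image (E : F.Equi g τ) {S : Set Y} (hS : F.Good S) : F.Good (g '' S) := by
  intro k
  rcases hS (τ.symm k) with h | h
  · left
    rintro _ ⟨y, hy, rfl⟩
    have := (E.mem (τ.symm k) y).2 (h hy)
    rwa [τ.apply_symm_apply] at this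
  · right
    rintro _ ⟨y, hy, rfl⟩ hk
    have h1 : y ∈ F.D (τ.symm k) := by
      have := (E.mem (τ.symm k) y)
      rw [τ.apply_symm_apply] at this
      exact this.1 hk
    have h2 := E.q (τ.symm k) y h1
    rw [τ.apply_symm_apply] at h2
    rw [h2]
    exact h y hy h1

lemma Equi.zpow (E : F.Equi g τ) (n : ℤ) : F.Equi (g ^ n) (τ ^ n : Equiv.Perm κ) := by
  have hnat : ∀ m : ℕ, F.Equi (g ^ m) (τ ^ m : Equiv.Perm κ) := by
    intro m
    induction m with
    | zero => exact ⟨fun k y => by simp, fun k y _ => by simp⟩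
    | succ m ih =>
      refine ⟨fun k y => ?_, fun k y hy => ?_⟩
      · rw [pow_succ' g, pow_succ' (τ : Equiv.Perm κ)]
        exact (E.mem _ _).trans (ih.mem k y)
      · rw [pow_succ' g, pow_succ' (τ : Equiv.Perm κ)]
        exact (E.q _ _ ((ih.mem k y).2 hy)).trans (ih.q k y hy)
  obtain ⟨m, rfl | rfl⟩ := n.eq_nat_or_neg
  · rw [zpow_natCast, zpow_natCast]
    exact hnat m
  · rw [zpow_neg, zpow_neg, zpow_natCast, zpow_natCast]
    exact (hnat m).symm

end Fam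

end Crest.Agent.R275.FL884
end

-- ▼ part R275/NormC_884
section

/-!
R275 / S0418, block NORM, part 3: holomorphic parametrised balls ("boxes"), invariant families
of coordinate balls on an infinite cyclic covering, the structures `Cov` and `Height`.
-/

set_option autoImplicit false
set_option linter.unusedSectionVars false
set_option linter.style.haveILetI false

open MeasureTheory Set Filter Topology Metric Crest.AlgGeometry.Surface
open Crest.Agent.R275.FL606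
open scoped Real Manifold ContDiff

namespace Crest.Agent.R275.FL884

variable {Y : Type*} [TopologicalSpace Y] [ChartedSpace C2 Y]

/-- holomorphic parametrised ball -/
structure Box (p : C2 → Y) (q : Y → C2) (R : ℝ) : Prop where
  hol : ContMDiffOn 𝓘(ℂ, C2) 𝓘(ℂ, C2) 1 p (ball 0 R)
  left : ∀ z ∈ ball (0 : C2) R, q (p z) = z
  opn : ∀ V ⊆ ball (0 : C2) R, IsOpen V → IsOpen (p '' V)
  holq : ContMDiffOn 𝓘(ℂ, C2) 𝓘(ℂ, C2) 1 q (p '' ball 0 R)

lemma Box.cont {p : C2 → Y} {q : Y → C2} {R : ℝ} (b : Box p q R) : ContinuousOn p (ball 0 R) :=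
  b.hol.continuousOn

lemma Box.mono {p : C2 → Y} {q : Y → C2} {R R' : ℝ} (b : Box p q R) (h : R' ≤ R) :
    Box p q R' :=
  ⟨b.hol.mono (ball_subset_ball h), fun z hz => b.left z (ball_subset_ball h hz),
    fun V hV => b.opn V (hV.trans (ball_subset_ball h)),
    b.holq.mono (image_mono (ball_subset_ball h))⟩

lemma Box.compact {p : C2 → Y} {q : Y → C2} {R ρ : ℝ} (b : Box p q R) (h : ρ < R) :
    IsCompact (p '' closedBall 0 ρ) :=
  (isCompact_closedBall (0 : C2) ρ).image_of_continuousOn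
    (b.cont.mono (closedBall_subset_ball h))

/-- small boxes around any point -/
lemma exists_box [IsManifold 𝓘(ℂ, C2) 1 Y] [MeasurableSpace Y] [BorelSpace Y]
    (y : Y) {V : Set Y} (hV : V ∈ 𝓝 y) {R : ℝ} (hR : 0 < R) :
    ∃ (p : C2 → Y) (q : Y → C2), Box p q R ∧ p 0 = y ∧ MapsTo p (ball 0 R) V ∧
      Measurable p := by
  classical
  set e := chartAt C2 y with he
  have hys : y ∈ e.source := mem_chart_source C2 y
  have hyt : e y ∈ e.target := mem_chart_target C2 y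
  have h1 : e.target ∩ e.symm ⁻¹' V ∈ 𝓝 (e y) := by
    refine inter_mem (e.open_target.mem_nhds hyt)
      ((e.continuousAt_symm hyt).preimage_mem_nhds ?_)
    rwa [e.left_inv hys]
  obtain ⟨ρ, hρ, hρB⟩ := Metric.mem_nhds_iff.1 h1
  set r : ℝ := ρ / R with hr
  have hr0 : 0 < r := by positivity
  have hr' : (r : ℂ) ≠ 0 := by exact_mod_cast hr0.ne'
  set φ : C2 → C2 := fun z => e y + (r : ℂ) • z with hφ
  have hφmem : ∀ z ∈ ball (0 : C2) R, φ z ∈ ball (e y) ρ := by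
    intro z hz
    have := aff_mem_ball (c := e y) hr0 hz
    rwa [hr, div_mul_cancel₀ _ hR.ne', ← hr] at this
  set p : C2 → Y := (ball (0 : C2) R).piecewise (fun z => e.symm (φ z)) (fun _ => y) with hp
  set q : Y → C2 := fun x => (r : ℂ)⁻¹ • (e x - e y) with hq
  have hpz : ∀ z ∈ ball (0 : C2) R, p z = e.symm (φ z) := fun z hz =>
    piecewise_eq_of_mem _ _ _ hz
  have hmax : e ∈ IsManifold.maximalAtlas 𝓘(ℂ, C2) 1 Y :=
    IsManifold.subset_maximalAtlas (chart_mem_atlas C2 y)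
  have hφc : ContDiff ℂ 1 φ := by fun_prop
  have hcomp : ContMDiffOn 𝓘(ℂ, C2) 𝓘(ℂ, C2) 1 (fun z => e.symm (φ z)) (ball 0 R) :=
    (contMDiffOn_symm_of_mem_maximalAtlas hmax).comp hφc.contMDiff.contMDiffOn
      (fun z hz => (hρB (hφmem z hz)).1)
  have hhol : ContMDiffOn 𝓘(ℂ, C2) 𝓘(ℂ, C2) 1 p (ball 0 R) := hcomp.congr hpz
  have hsub : p '' ball 0 R ⊆ e.source := by
    rintro _ ⟨z, hz, rfl⟩
    rw [hpz z hz]
    exact e.map_target (hρB (hφmem z hz)).1
  refine ⟨p, q, ⟨hhol, ?_, ?_, ?_⟩, ?_, ?_, ?_⟩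
  · intro z hz
    rw [hpz z hz, hq]
    simp only
    rw [e.right_inv (hρB (hφmem z hz)).1, hφ]
    simp only [add_sub_cancel_left]
    rw [smul_smul, inv_mul_cancel₀ hr', one_smul]
  · intro V' hV' hV'o
    have h2 : p '' V' = e.symm '' (φ '' V') := by
      rw [image_image]
      exact image_congr fun z hz => hpz z (hV' hz)
    have h3 : IsOpen (φ '' V') := by
      let ψ : C2 ≃ₜ C2 := (Homeomorph.smulOfNeZero (r : ℂ) hr').trans (Homeomorph.addLeft (e y))
      exact ψ.isOpenMap V' hV'o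
    rw [h2]
    apply e.symm.isOpen_image_of_subset_source h3
    rintro _ ⟨z, hz, rfl⟩
    exact (hρB (hφmem z (hV' hz))).1
  · have h2 : ContMDiffOn 𝓘(ℂ, C2) 𝓘(ℂ, C2) 1 e e.source :=
      contMDiffOn_of_mem_maximalAtlas hmax
    have h3 : ContDiff ℂ 1 (fun x : C2 => (r : ℂ)⁻¹ • (x - e y)) := by fun_prop
    exact h3.contMDiff.comp_contMDiffOn (h2.mono hsub)
  · rw [hpz 0 (mem_ball_self hR), hφ]
    simp only [smul_zero, add_zero]
    exact e.left_inv hys
  · intro z hz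
    rw [hpz z hz]
    exact (hρB (hφmem z hz)).2
  · exact ContinuousOn.measurable_piecewise hcomp.continuousOn continuousOn_const
      isOpen_ball.measurableSet

/-- finitely many small boxes covering a compact set -/
lemma exists_finite_box [IsManifold 𝓘(ℂ, C2) 1 Y] [MeasurableSpace Y] [BorelSpace Y]
    {K : Set Y} (hK : IsCompact K) {V : Y → Set Y} (hV : ∀ y, V y ∈ 𝓝 y) {R ρ : ℝ}
    (hR : 0 < R) (hρ : 0 < ρ) (hρR : ρ ≤ R) :
    ∃ (m : ℕ) (x : Fin m → Y) (p : Fin m → C2 → Y) (q : Fin m → Y → C2),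
      (∀ j, Box (p j) (q j) R) ∧ (∀ j, MapsTo (p j) (ball 0 R) (V (x j))) ∧
      (∀ j, Measurable (p j)) ∧ ∀ y ∈ K, ∃ j, ∃ z ∈ ball (0 : C2) ρ, p j z = y := by
  choose p q hb hp0 hpV hpm using fun y : Y => exists_box y (hV y) hR
  have hopen : ∀ y, IsOpen (p y '' ball 0 ρ) := fun y =>
    (hb y).opn _ (ball_subset_ball hρR) isOpen_ball
  obtain ⟨t, ht⟩ := hK.elim_finite_subcover (fun y : Y => p y '' ball 0 ρ) hopen
    (fun y _ => mem_iUnion.2 ⟨y, 0, mem_ball_self hρ, hp0 y⟩)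
  let f : Fin t.card ≃ t := t.equivFin.symm
  refine ⟨t.card, fun i => (f i : Y), fun i => p (f i : Y), fun i => q (f i : Y),
    fun i => hb _, fun i => hpV _, fun i => hpm _, ?_⟩
  intro y hy
  obtain ⟨x, hx, z, hz, hzy⟩ := mem_iUnion₂.1 (ht hy)
  refine ⟨f.symm ⟨x, hx⟩, z, hz, ?_⟩
  simpa using hzy

/-! ### invariant families of coordinate balls -/

/-- the index shift -/
def shf (m : ℕ) : Fin m × ℤ ≃ Fin m × ℤ :=
  Equiv.prodCongr (Equiv.refl _) (Equiv.addRight (1 : ℤ))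

@[simp] lemma shf_apply (m : ℕ) (j : Fin m) (n : ℤ) : shf m (j, n) = (j, n + 1) := rfl

lemma shf_symm_apply (m : ℕ) (j : Fin m) (n : ℤ) : (shf m).symm (j, n) = (j, n - 1) := by
  rw [Equiv.symm_apply_eq, shf_apply, sub_add_cancel]

lemma shf_zpow (m : ℕ) (n : ℤ) (j : Fin m) (k : ℤ) :
    (shf m ^ n : Equiv.Perm (Fin m × ℤ)) (j, k) = (j, k + n) := by
  induction n using Int.induction_on generalizing k with
  | zero => simp
  | succ n ih =>
    rw [zpow_add_one, Equiv.Perm.mul_apply, shf_apply, ih]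
    congr 1; ring
  | pred n ih =>
    rw [zpow_sub_one, Equiv.Perm.mul_apply]
    have : (shf m : Equiv.Perm (Fin m × ℤ))⁻¹ (j, k) = (j, k - 1) := shf_symm_apply m j k
    rw [this, ih]
    congr 1; ring

/-- `g`-invariant family of coordinate balls indexed by `Fin m × ℤ` -/
structure EFam (g : Y ≃ₜ Y) (h : Y → ℝ) (m : ℕ) extends Fam Y (Fin m × ℤ) where
  equi : toFam.Equi g (shf m)
  hol : ∀ k, ContMDiffOn 𝓘(ℂ, C2) 𝓘(ℂ, C2) 1 (q k) (D k)
  H : ℝ
  hgt : ∀ (j : Fin m) (n : ℤ), ∀ y ∈ D (j, n), |h y + n| ≤ H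

open Crest.Agent.R275.HolY631

lemma hol_zpow {g : Y ≃ₜ Y} {h : Y → ℝ} (D : Deck g h) (n : ℤ) :
    ContMDiff 𝓘(ℂ, C2) 𝓘(ℂ, C2) 1 (g ^ n : Y ≃ₜ Y) := by
  have h1 : ∀ m : ℕ, ContMDiff 𝓘(ℂ, C2) 𝓘(ℂ, C2) 1 (g ^ m : Y ≃ₜ Y) := by
    intro m
    induction m with
    | zero => rw [pow_zero]; exact contMDiff_id
    | succ m ih => rw [pow_succ]; exact ih.comp D.hol
  have h2 : ∀ m : ℕ, ContMDiff 𝓘(ℂ, C2) 𝓘(ℂ, C2) 1 ((g ^ m)⁻¹ : Y ≃ₜ Y) := by
    intro m
    induction m with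
    | zero => rw [pow_zero, inv_one]; exact contMDiff_id
    | succ m ih =>
      rw [pow_succ', mul_inv_rev]
      exact ih.comp D.hol_symm
  obtain ⟨m, rfl | rfl⟩ := n.eq_nat_or_neg
  · rw [zpow_natCast]; exact h1 m
  · rw [zpow_neg, zpow_natCast]; exact h2 m

lemma zpow_neg_cancel (g : Y ≃ₜ Y) (n : ℤ) (y : Y) : (g ^ (-n)) ((g ^ n) y) = y := by
  rw [← Homeomorph.mul_apply, ← zpow_add, neg_add_cancel, zpow_zero]; rfl

lemma zpow_cancel_neg (g : Y ≃ₜ Y) (n : ℤ) (y : Y) : (g ^ n) ((g ^ (-n)) y) = y := by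
  rw [← Homeomorph.mul_apply, ← zpow_add, add_neg_cancel, zpow_zero]; rfl

/-- **existence of invariant families** -/
theorem exists_fam [IsManifold 𝓘(ℂ, C2) 1 Y] [T2Space Y] {g : Y ≃ₜ Y} {h : Y → ℝ}
    (D : Deck g h) {V : Y → Set Y} (hV : ∀ y, V y ∈ 𝓝 y) :
    ∃ (m : ℕ) (F : EFam g h m) (x : Fin m → Y) (K : Fin m → Set Y), ∀ j,
      IsCompact (K j) ∧ F.D (j, 0) ⊆ K j ∧ K j ⊆ V (x j) := by
  classical
  letI : MeasurableSpace Y := borel Y
  haveI : BorelSpace Y := ⟨rfl⟩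
  obtain ⟨m, x, p, q, hb, hpV, -, hcov⟩ := exists_finite_box (D.slab 0 1) hV (R := 2)
    (ρ := 1 / 2) (by norm_num) (by norm_num) (by norm_num)
  have h12 : ball (0 : C2) 1 ⊆ ball 0 2 := ball_subset_ball (by norm_num)
  have hK : ∀ j, IsCompact (p j '' closedBall 0 1) := fun j => (hb j).compact (by norm_num)
  have hKH : ∃ H : ℝ, ∀ j, ∀ y ∈ p j '' closedBall 0 1, |h y| ≤ H := by
    have h1 : ∀ j, ∃ H : ℝ, ∀ y ∈ p j '' closedBall 0 1, |h y| ≤ H := fun j =>
      (hK j).exists_bound_of_continuousOn D.cont.continuousOn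
    choose Hj hHj using h1
    obtain ⟨H, hH⟩ := (Set.finite_range Hj).bddAbove
    exact ⟨H, fun j y hy => (hHj j y hy).trans (hH ⟨j, rfl⟩)⟩
  obtain ⟨H, hH⟩ := hKH
  set Dk : Fin m × ℤ → Set Y := fun k => {y | (g ^ (-k.2)) y ∈ p k.1 '' ball 0 1} with hDk
  set qk : Fin m × ℤ → Y → C2 := fun k y => q k.1 ((g ^ (-k.2)) y) with hqk
  have hopen1 : ∀ j, IsOpen (p j '' ball 0 1) := fun j => (hb j).opn _ h12 isOpen_ball
  have hopen : ∀ k, IsOpen (Dk k) := fun k =>
    (hopen1 k.1).preimage (g ^ (-k.2)).continuous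
  have hhol : ∀ k, ContMDiffOn 𝓘(ℂ, C2) 𝓘(ℂ, C2) 1 (qk k) (Dk k) := fun k =>
    ((hb k.1).holq.mono (image_mono h12)).comp (hol_zpow D (-k.2)).contMDiffOn
      (fun y hy => hy)
  have hsub1 : ball (0 : C2) 1 ⊆ closedBall 0 1 := ball_subset_closedBall
  have hhgt : ∀ (j : Fin m) (n : ℤ), ∀ y ∈ Dk (j, n), |h y + n| ≤ H := by
    intro j n y hy
    have h1 := hH j _ (image_mono hsub1 hy)
    rw [D.shift_zpow] at h1
    push_cast at h1
    rwa [sub_neg_eq_add] at h1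
  have hshift : ∀ (n : ℤ) (y : Y), (g ^ (-(n + 1))) (g y) = (g ^ (-n)) y := by
    intro n y
    rw [neg_add, zpow_add, Homeomorph.mul_apply, zpow_neg_one]
    congr 1
    exact g.symm_apply_apply y
  have hclosed : ∀ k, ∀ ρ < (1 : ℝ), IsClosed {y | y ∈ Dk k ∧ ‖qk k y‖ ≤ ρ} := by
    intro k ρ hρ
    have h1 : {y | y ∈ Dk k ∧ ‖qk k y‖ ≤ ρ} =
        (g ^ (-k.2)) ⁻¹' (p k.1 '' closedBall 0 ρ) := by
      ext y
      constructor
      · rintro ⟨⟨z, hz, hzy⟩, h2⟩
        have h3 : qk k y = z := by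
          rw [hqk]
          simp only
          rw [← hzy, (hb k.1).left z (h12 hz)]
        rw [h3] at h2
        exact ⟨z, mem_closedBall_zero_iff.2 h2, hzy⟩
      · rintro ⟨z, hz, hzy⟩
        have hz1 : z ∈ ball (0 : C2) 1 := closedBall_subset_ball hρ hz
        have h3 : qk k y = z := by
          rw [hqk]
          simp only
          rw [← hzy, (hb k.1).left z (h12 hz1)]
        refine ⟨⟨z, hz1, hzy⟩, ?_⟩
        rw [h3]
        exact mem_closedBall_zero_iff.1 hz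
    rw [h1]
    exact ((hb k.1).compact (by linarith)).isClosed.preimage (g ^ (-k.2)).continuous
  let F0 : Fam Y (Fin m × ℤ) :=
    { q := qk
      D := Dk
      isOpen := hopen
      cont := fun k => (hhol k).continuousOn
      lt := by
        rintro k y ⟨z, hz, hzy⟩
        have h3 : qk k y = z := by
          rw [hqk]
          simp only
          rw [← hzy, (hb k.1).left z (h12 hz)]
        rw [h3]
        exact mem_ball_zero_iff.1 hz
      closed := hclosed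
      cover := by
        intro y
        obtain ⟨n, hn1, hn2⟩ := D.exists_zpow_mem y
        obtain ⟨j, z, hz, hzy⟩ := hcov _ ⟨hn1, hn2.le⟩
        have hz1 : z ∈ ball (0 : C2) 1 := ball_subset_ball (by norm_num) hz
        refine ⟨(j, -n), ⟨z, hz1, ?_⟩, ?_⟩
        · rw [neg_neg]; exact hzy
        · have h3 : qk (j, -n) y = z := by
            simp only [hqk, neg_neg]
            rw [← hzy, (hb j).left z (h12 hz1)]
          rw [h3]
          exact (mem_ball_zero_iff.1 hz).le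
      locfin := by
        intro y0
        refine ⟨{y | |h y - h y0| < 1}, ?_, ?_⟩
        · have h1 : IsOpen {y | |h y - h y0| < 1} :=
            isOpen_lt ((D.cont.sub continuous_const).abs) continuous_const
          exact h1.mem_nhds (by simp)
        · refine ((Set.finite_univ (α := Fin m)).prod
            (Set.finite_Icc ⌊-h y0 - H - 1⌋ ⌈-h y0 + H + 1⌉)).subset ?_
          rintro ⟨j, n⟩ ⟨y, hy1, hy2⟩
          have h1 := abs_le.1 (hhgt j n y hy1)
          have h20 : |h y - h y0| < 1 := hy2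
          have h2 := abs_lt.1 h20
          refine ⟨mem_univ _, ?_, ?_⟩
          · have h3 : (⌊-h y0 - H - 1⌋ : ℝ) ≤ n := by
              have := Int.floor_le (-h y0 - H - 1)
              linarith [h1.1, h2.2]
            exact_mod_cast h3
          · have h3 : (n : ℝ) ≤ ⌈-h y0 + H + 1⌉ := by
              have := Int.le_ceil (-h y0 + H + 1)
              linarith [h1.2, h2.1]
            exact_mod_cast h3 }
  refine ⟨m, ⟨F0, ⟨?_, ?_⟩, hhol, H, hhgt⟩, x, fun j => p j '' closedBall 0 1, fun j =>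
    ⟨hK j, ?_, ?_⟩⟩
  · rintro ⟨j, n⟩ y
    show (g ^ (-(n + 1))) (g y) ∈ p j '' ball 0 1 ↔ (g ^ (-n)) y ∈ p j '' ball 0 1
    rw [hshift]
  · rintro ⟨j, n⟩ y -
    show q j ((g ^ (-(n + 1))) (g y)) = q j ((g ^ (-n)) y)
    rw [hshift]
  · rintro y hy
    have h1 : (g ^ (-(0 : ℤ))) y = y := by simp
    have h2 : (g ^ (-(0 : ℤ))) y ∈ p j '' ball 0 1 := hy
    rw [h1] at h2
    exact image_mono hsub1 h2
  · rintro _ ⟨z, hz, rfl⟩
    exact hpV j (closedBall_subset_ball (by norm_num) hz)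

/-! ### `Cov` -/

/-- **existence of `Cov`** with small holomorphic boxes -/
theorem exists_cov [IsManifold 𝓘(ℂ, C2) 1 Y] [MeasurableSpace Y] [BorelSpace Y]
    {g : Y ≃ₜ Y} {h : Y → ℝ} (D : Deck g h) {W : Y → Set Y} (hW : ∀ y, W y ∈ 𝓝 y) :
    ∃ (m : ℕ) (C : Cov C2 g (Fin m)) (x : Fin m → Y), (∀ j, Box (C.p j) (C.q j) 17) ∧
      ∀ j, MapsTo (C.p j) (ball 0 17) (W (x j)) := by
  obtain ⟨m, x, p, q, hb, hpV, hpm, hcov⟩ := exists_finite_box (D.slab 0 1) hW (R := 17)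
    (ρ := 1) (by norm_num) (by norm_num) (by norm_num)
  have hsub : ball (0 : C2) 16 ⊆ ball 0 17 := ball_subset_ball (by norm_num)
  refine ⟨m,
    { p := p
      q := q
      meas := hpm
      cont := fun j => (hb j).cont.mono hsub
      qp := fun j z hz => (hb j).left z (hsub hz)
      opn := fun j V hV => (hb j).opn V (hV.trans hsub)
      hol := ?_
      cover := ?_ }, x, hb, hpV⟩
  · intro i j n z hz z' hz' hpp
    have h1 : ContMDiffAt 𝓘(ℂ, C2) 𝓘(ℂ, C2) 1 (p i) z :=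
      (hb i).hol.contMDiffAt (isOpen_ball.mem_nhds (hsub hz))
    have h2 : ContMDiffAt 𝓘(ℂ, C2) 𝓘(ℂ, C2) 1 (g ^ (-n) : Y ≃ₜ Y) (p i z) :=
      (hol_zpow D (-n)).contMDiffAt
    have h3 : (g ^ (-n)) (p i z) = p j z' := by rw [hpp, zpow_neg_cancel]
    have h4 : ContMDiffAt 𝓘(ℂ, C2) 𝓘(ℂ, C2) 1 (q j) ((g ^ (-n)) (p i z)) := by
      rw [h3]
      exact (hb j).holq.contMDiffAt (((hb j).opn _ Subset.rfl isOpen_ball).mem_nhds
        ⟨z', hsub hz', rfl⟩)
    have h5 := h4.comp (p i z) h2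
    have h6 : ContMDiffAt 𝓘(ℂ, C2) 𝓘(ℂ, C2) 1 (fun y => q j ((g ^ (-n)) (p i y))) z :=
      h5.comp z h1
    exact (contMDiffAt_iff_contDiffAt.1 h6).differentiableAt (by norm_num)
  · intro y
    obtain ⟨n, hn1, hn2⟩ := D.exists_zpow_mem y
    obtain ⟨j, z, hz, hzy⟩ := hcov _ ⟨hn1, hn2.le⟩
    refine ⟨j, -n, z, hz, ?_⟩
    rw [hzy, zpow_neg_cancel]

end Crest.Agent.R275.FL884
end

-- ▼ part R275/NormD_884
section

/-!
R275 / S0418, block NORM, part 4: the `Height` structure for a smooth height function.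
-/

set_option autoImplicit false
set_option linter.unusedSectionVars false
set_option linter.style.haveILetI false

open MeasureTheory Set Filter Topology Metric Crest.AlgGeometry.Surface
open Crest.Agent.R275.FL606 Crest.Agent.R275.HolY631
open scoped Real Manifold ContDiff

namespace Crest.Agent.R275.FL884

/-- upper bound for circle averages of a `C²` function -/
lemma av_le_of_contDiffOn {E : Type*} [NormedAddCommGroup E] [NormedSpace ℂ E] {ψ : E → ℝ}
    {B : Set E} (hψ : ∀ z ∈ B, ContDiffAt ℝ 2 ψ z) {K : ℝ}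
    (hK : ∀ z ∈ B, ‖fderiv ℝ (fderiv ℝ ψ) z‖ ≤ K) {z v : E}
    (hd : ∀ w : ℂ, ‖w‖ ≤ 1 → z + w • v ∈ B) : av ψ z v ≤ ψ z + K / 2 * ‖v‖ ^ 2 := by
  rw [av_eq_circleAverage]
  set u : ℂ → ℝ := fun w => -ψ (z + w • v) with hu
  have hmem : ∀ w ∈ closedBall (0 : ℂ) 1, z + w • v ∈ B := fun w hw =>
    hd w (mem_closedBall_zero_iff.1 hw)
  have hψn : ∀ x ∈ B, ContDiffAt ℝ 2 (fun x => -ψ x) x := fun x hx => (hψ x hx).neg
  have hsm : ∀ w ∈ closedBall (0 : ℂ) 1, ContDiffAt ℝ 2 u w := by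
    intro w hw
    exact ContDiffAt.comp (g := fun x => -ψ x) w (hψn _ (hmem w hw))
      (contDiff_line z v).contDiffAt
  have hL : ∀ w ∈ closedBall (0 : ℂ) 1, -(4 * (K / 2 * ‖v‖ ^ 2)) ≤
      fderiv ℝ (fderiv ℝ u) w 1 1 + fderiv ℝ (fderiv ℝ u) w Complex.I Complex.I := by
    intro w hw
    have hx := hψn _ (hmem w hw)
    have e1 := fderiv_fderiv_line (g := fun x => -ψ x) (z := z) (v := v) (ζ := w) hx 1 1
    have e2 := fderiv_fderiv_line (g := fun x => -ψ x) (z := z) (v := v) (ζ := w) hx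
      Complex.I Complex.I
    have e3 : fderiv ℝ (fderiv ℝ (fun x => -ψ x)) (z + w • v) =
        -fderiv ℝ (fderiv ℝ ψ) (z + w • v) := by
      have h1 : fderiv ℝ (fun x => -ψ x) = fun x => -fderiv ℝ ψ x := by
        funext x
        exact fderiv_fun_neg
      rw [h1]
      exact fderiv_fun_neg
    rw [e3] at e1 e2
    rw [hu]
    rw [e1, e2]
    have hb : ∀ x : E, |(-fderiv ℝ (fderiv ℝ ψ) (z + w • v)) x x| ≤ K * ‖x‖ ^ 2 := by
      intro x
      have h1 := (fderiv ℝ (fderiv ℝ ψ) (z + w • v)).le_opNorm₂ x x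
      have h2 := hK _ (hmem w hw)
      have h3 : (-fderiv ℝ (fderiv ℝ ψ) (z + w • v)) x x =
        -(fderiv ℝ (fderiv ℝ ψ) (z + w • v) x x) := rfl
      rw [h3, abs_neg]
      calc _ ≤ ‖fderiv ℝ (fderiv ℝ ψ) (z + w • v)‖ * ‖x‖ * ‖x‖ := h1
        _ ≤ K * ‖x‖ * ‖x‖ := by gcongr
        _ = _ := by ring
    have b1 := (abs_le.1 (hb ((1 : ℂ) • v))).1
    have b2 := (abs_le.1 (hb (Complex.I • v))).1
    rw [norm_smul, norm_one, one_mul] at b1
    rw [norm_smul, Complex.norm_I, one_mul] at b2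
    linarith
  have key := le_circleAverage_of_contDiffAt hsm hL
  have h2 : Real.circleAverage u 0 1 = -Real.circleAverage (fun w : ℂ => ψ (z + w • v)) 0 1 := by
    have h5 : u = (-1 : ℝ) • (fun w : ℂ => ψ (z + w • v)) := by
      funext w
      simp [hu]
    rw [h5, Real.circleAverage_smul]
    simp
  rw [h2] at key
  have h3 : u 0 = -ψ z := by simp [hu]
  rw [h3] at key
  linarith

variable {Y : Type*} [TopologicalSpace Y] [ChartedSpace C2 Y]

/-- composition of a real `C²` function with a holomorphic map -/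
lemma contDiffAt_comp_hol [IsManifold 𝓘(ℂ, C2) 1 Y] {h : Y → ℝ}
    (hh : ContMDiff 𝓘(ℝ, C2) 𝓘(ℝ, ℝ) 2 h) {p : C2 → Y} {B : Set C2} (hB : IsOpen B)
    (hp : ContMDiffOn 𝓘(ℂ, C2) 𝓘(ℂ, C2) 1 p B) {z : C2} (hz : z ∈ B) :
    ContDiffAt ℝ 2 (fun z => h (p z)) z := by
  set e := chartAt C2 (p z) with he
  have hes : p z ∈ e.source := mem_chart_source C2 _
  have hpc : ContinuousOn p B := hp.continuousOn
  have hU : IsOpen (B ∩ p ⁻¹' e.source) := hpc.isOpen_inter_preimage hB e.open_source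
  have hzU : z ∈ B ∩ p ⁻¹' e.source := ⟨hz, hes⟩
  have hmax : e ∈ IsManifold.maximalAtlas 𝓘(ℂ, C2) 1 Y :=
    IsManifold.subset_maximalAtlas (chart_mem_atlas C2 _)
  have h1 : ContMDiffOn 𝓘(ℂ, C2) 𝓘(ℂ, C2) 1 (fun x => e (p x)) (B ∩ p ⁻¹' e.source) :=
    (contMDiffOn_of_mem_maximalAtlas hmax).comp (hp.mono inter_subset_left)
      (fun x hx => hx.2)
  have h2 : DifferentiableOn ℂ (fun x => e (p x)) (B ∩ p ⁻¹' e.source) :=
    (contMDiffOn_iff_contDiffOn.1 h1).differentiableOn one_ne_zero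
  have h3 : ContDiffAt ℝ 2 (fun x => e (p x)) z :=
    (((Crest.Agent.R266.SCV.contDiffOn_omega_of_differentiableOn hU h2).of_le
      (by simp : (2 : WithTop ℕ∞) ≤ ω)).contDiffAt (hU.mem_nhds hzU)).restrict_scalars ℝ
  have h4 : ContDiffAt ℝ 2 (fun x => h (e.symm x)) (e (p z)) := by
    have h5 := (contMDiffAt_iff.1 (hh (p z))).2
    simp only [mfld_simps, ← he, Function.comp_def] at h5
    exact contDiffWithinAt_univ.1 h5
  have h6 : ContDiffAt ℝ 2 (fun x => h (e.symm (e (p x)))) z :=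
    ContDiffAt.comp (g := fun x => h (e.symm x)) z h4 h3
  refine h6.congr_of_eventuallyEq ?_
  filter_upwards [hU.mem_nhds hzU] with x hx
  rw [e.left_inv hx.2]

/-- **`Height` for a smooth height function** -/
theorem exists_height [IsManifold 𝓘(ℂ, C2) 1 Y] [MeasurableSpace Y] [BorelSpace Y]
    {g : Y ≃ₜ Y} {h : Y → ℝ} (D : Deck g h) (hh : ContMDiff 𝓘(ℝ, C2) 𝓘(ℝ, ℝ) 2 h) {m : ℕ}
    (C : Cov C2 g (Fin m)) (hb : ∀ j, Box (C.p j) (C.q j) 17) :
    ∃ G C₀ : ℝ, Height C h G C₀ := by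
  have hsub : closedBall (0 : C2) 16 ⊆ ball 0 17 := closedBall_subset_ball (by norm_num)
  have hcd : ∀ j, ∀ z ∈ ball (0 : C2) 17, ContDiffAt ℝ 2 (fun z => h (C.p j z)) z :=
    fun j z hz => contDiffAt_comp_hol hh isOpen_ball (hb j).hol hz
  have hG : ∀ j, ∃ G : ℝ, ∀ z ∈ closedBall (0 : C2) 16, |h (C.p j z)| ≤ G := by
    intro j
    refine (isCompact_closedBall (0 : C2) 16).exists_bound_of_continuousOn
      (f := fun z => h (C.p j z)) ?_
    exact fun z hz => (hcd j z (hsub hz)).continuousAt.continuousWithinAt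
  have hK : ∀ j, ∃ K : ℝ, ∀ z ∈ closedBall (0 : C2) 16,
      ‖fderiv ℝ (fderiv ℝ (fun z => h (C.p j z))) z‖ ≤ K := by
    intro j
    refine (isCompact_closedBall (0 : C2) 16).exists_bound_of_continuousOn
      (f := fderiv ℝ (fderiv ℝ (fun z => h (C.p j z)))) ?_
    intro z hz
    have h1 := hcd j z (hsub hz)
    have h2 : ContDiffAt ℝ 1 (fderiv ℝ (fun z => h (C.p j z))) z :=
      h1.fderiv_right (by norm_num)
    have h3 : ContDiffAt ℝ 0 (fderiv ℝ (fderiv ℝ (fun z => h (C.p j z)))) z :=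
      h2.fderiv_right (by norm_num)
    exact h3.continuousAt.continuousWithinAt
  choose Gj hGj using hG
  choose Kj hKj using hK
  obtain ⟨G, hG⟩ := (Set.finite_range Gj).bddAbove
  obtain ⟨K, hK⟩ := (Set.finite_range Kj).bddAbove
  refine ⟨G, max K 0 / 2, ⟨D.cont.measurable, D.shift, fun j z hz => ?_, by positivity,
    fun j z v hd => ?_⟩⟩
  · exact (hGj j z (ball_subset_closedBall hz)).trans (hG ⟨j, rfl⟩)
  · refine av_le_of_contDiffOn (B := ball (0 : C2) 16) (ψ := fun z => h (C.p j z))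
      (fun z hz => hcd j z (hsub (ball_subset_closedBall hz))) (fun z hz => ?_) hd
    exact (hKj j z (ball_subset_closedBall hz)).trans ((hK ⟨j, rfl⟩).trans (le_max_left _ _))

end Crest.Agent.R275.FL884
end

-- ▼ part R275/NormE_884

/-!
R275 / S0418, block NORM, part 5: norms of sections over an invariant open cover.

`Sys g h U ρ` : an invariant family of coordinate balls subordinate to the invariant open cover
`U i`, together with a `Cov` (holomorphic boxes of radius `17`) adapted to it.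
`S.nm A s` : the glued norm of a family of local functions `s i` on `U i`.
-/

set_option autoImplicit false
set_option linter.unusedSectionVars false
set_option linter.style.haveILetI false

open MeasureTheory Set Filter Topology Metric Crest.AlgGeometry.Surface
open Crest.Agent.R275.FL606 Crest.Agent.R275.HolY631 Crest.Agent.R275.HolL631
open scoped Real Manifold ContDiff

namespace Crest.Agent.R275.FL884

variable {Y : Type*} [TopologicalSpace Y] [ChartedSpace C2 Y] {g : Y ≃ₜ Y} {h : Y → ℝ}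
  {I : Type*} {U : I → Set Y} {ρ : I ≃ I}

/-- `g`-invariant open cover -/
structure InvU (g : Y ≃ₜ Y) (U : I → Set Y) (ρ : I ≃ I) : Prop where
  isOpen : ∀ i, IsOpen (U i)
  cover : ∀ y, ∃ i, y ∈ U i
  mem : ∀ i y, g y ∈ U (ρ i) ↔ y ∈ U i

lemma InvU.mem_zpow (E : InvU g U ρ) (n : ℤ) (i : I) (y : Y) :
    (g ^ n) y ∈ U ((ρ ^ n : Equiv.Perm I) i) ↔ y ∈ U i := by
  induction n using Int.induction_on generalizing i y with
  | zero => simp
  | succ n ih =>
    rw [zpow_add_one, zpow_add_one, Homeomorph.mul_apply, Equiv.Perm.mul_apply, ih]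
    exact E.mem i y
  | pred n ih =>
    rw [zpow_sub_one, zpow_sub_one, Homeomorph.mul_apply, Equiv.Perm.mul_apply, ih]
    have h1 := E.mem ((ρ⁻¹ : Equiv.Perm I) i) (g⁻¹ y)
    have h2 : g (g⁻¹ y) = y := g.apply_symm_apply y
    have h3 : ρ ((ρ⁻¹ : Equiv.Perm I) i) = i := ρ.apply_symm_apply i
    rw [h2, h3] at h1
    exact h1.symm

lemma invU_of_inv {L : Coc Y I} (E : Inv L g ρ) : InvU g L.U ρ :=
  ⟨L.isOpen, L.cover, E.mem⟩

/-- coordinate balls and boxes adapted to an invariant cover -/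
structure Sys [MeasurableSpace Y] (g : Y ≃ₜ Y) (h : Y → ℝ) (U : I → Set Y) (ρ : I ≃ I) where
  m : ℕ
  F : EFam g h m
  ix : Fin m → I
  K : Fin m → Set Y
  compact : ∀ j, IsCompact (K j)
  DK : ∀ j, F.D (j, 0) ⊆ K j
  KU : ∀ j, K j ⊆ U (ix j)
  m' : ℕ
  C : Cov C2 g (Fin m')
  box : ∀ j, Box (C.p j) (C.q j) 17
  good : ∀ j, F.Good (C.p j '' ball 0 17)

theorem exists_sys [IsManifold 𝓘(ℂ, C2) 1 Y] [T2Space Y] [MeasurableSpace Y] [BorelSpace Y]
    (D : Deck g h) (E : InvU g U ρ) : Nonempty (Sys g h U ρ) := by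
  choose i hi using E.cover
  obtain ⟨m, F, x, K, hK⟩ := exists_fam D (V := fun y => U (i y))
    (fun y => (E.isOpen _).mem_nhds (hi y))
  choose W hWo hyW hWg using fun y => F.exists_good y
  obtain ⟨m', C, x', hb, hW⟩ := exists_cov D (W := W) (fun y => (hWo y).mem_nhds (hyW y))
  exact ⟨⟨m, F, fun j => i (x j), K, fun j => (hK j).1, fun j => (hK j).2.1,
    fun j => (hK j).2.2, m', C, hb, fun j => (hWg (x' j)).mono (hW j).image_subset⟩⟩

namespace Sys

variable [MeasurableSpace Y] (S : Sys g h U ρ)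

/-- the index in `I` of a coordinate ball -/
def idx (k : Fin S.m × ℤ) : I := (ρ ^ k.2 : Equiv.Perm I) (S.ix k.1)

lemma idx_shf (k : Fin S.m × ℤ) : S.idx (shf S.m k) = ρ (S.idx k) := by
  obtain ⟨j, n⟩ := k
  show (ρ ^ (n + 1) : Equiv.Perm I) (S.ix j) = ρ ((ρ ^ n : Equiv.Perm I) (S.ix j))
  rw [add_comm n 1, zpow_one_add]
  rfl

lemma mem_D_zpow (n k : ℤ) (j : Fin S.m) (y : Y) :
    (g ^ n) y ∈ S.F.D (j, k + n) ↔ y ∈ S.F.D (j, k) := by
  have := (S.F.equi.zpow n).mem (j, k) y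
  rwa [shf_zpow] at this

lemma D_sub (E : InvU g U ρ) (k : Fin S.m × ℤ) : S.F.D k ⊆ U (S.idx k) := by
  obtain ⟨j, n⟩ := k
  intro y hy
  have h1 : (g ^ (-n)) y ∈ S.F.D (j, n + -n) := (S.mem_D_zpow (-n) n j y).2 hy
  rw [add_neg_cancel] at h1
  have h2 := S.KU j (S.DK j h1)
  have h3 := (E.mem_zpow n (S.ix j) ((g ^ (-n)) y)).2 h2
  rwa [zpow_cancel_neg] at h3

/-- the glued norm -/
noncomputable def nm (A : ℝ) (s : I → Y → ℂ) (y : Y) : ℝ :=
  S.F.N A (fun k => s (S.idx k)) y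

/-- comparability of the local functions on the coordinate balls -/
def Cm (A : ℝ) (s : I → Y → ℂ) : Prop := S.F.Cmp A (fun k => s (S.idx k))

/-- bound for a cocycle on the coordinate balls -/
def Bd (G : I → I → Y → ℂ) (A : ℝ) : Prop :=
  ∀ k l y, y ∈ S.F.D k → y ∈ S.F.D l → ‖G (S.idx k) (S.idx l) y‖ ≤ Real.exp (A / 2)

variable {S}

lemma Bd.mono {G : I → I → Y → ℂ} {A A' : ℝ} (hG : S.Bd G A) (hA : A ≤ A') : S.Bd G A' :=
  fun k l y hk hl => (hG k l y hk hl).trans (Real.exp_le_exp.2 (by linarith))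

lemma Bd.mul {G G' : I → I → Y → ℂ} {A A' : ℝ} (hG : S.Bd G A) (hG' : S.Bd G' A') :
    S.Bd (fun i j y => G i j y * G' i j y) (A + A') := by
  intro k l y hk hl
  rw [norm_mul, add_div, Real.exp_add]
  exact mul_le_mul (hG k l y hk hl) (hG' k l y hk hl) (norm_nonneg _) (Real.exp_pos _).le

lemma Bd.congr (E : InvU g U ρ) {G G' : I → I → Y → ℂ} {A : ℝ} (hG : S.Bd G A)
    (h : ∀ i j y, y ∈ U i → y ∈ U j → G' i j y = G i j y) : S.Bd G' A := by
  intro k l y hk hl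
  rw [h _ _ y (S.D_sub E k hk) (S.D_sub E l hl)]
  exact hG k l y hk hl

lemma Bd.pow {G : I → I → Y → ℂ} {A : ℝ} (hG : S.Bd G A) (a : ℕ) :
    S.Bd (fun i j y => G i j y ^ a) (a * A) := by
  intro k l y hk hl
  rw [norm_pow]
  refine (pow_le_pow_left₀ (norm_nonneg _) (hG k l y hk hl) a).trans (le_of_eq ?_)
  rw [← Real.exp_nat_mul]
  congr 1
  ring

lemma Bd.of_bound (E : InvU g U ρ) {G : I → I → Y → ℂ} {A : ℝ}
    (h : ∀ i j y, y ∈ U i → y ∈ U j → ‖G i j y‖ ≤ Real.exp (A / 2)) : S.Bd G A :=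
  fun k l y hk hl => h _ _ y (S.D_sub E k hk) (S.D_sub E l hl)

lemma Bd.cm (E : InvU g U ρ) {G : I → I → Y → ℂ} {A : ℝ} (hG : S.Bd G A) {s : I → Y → ℂ}
    (tr : ∀ i j y, y ∈ U i → y ∈ U j → s i y = G i j y * s j y) : S.Cm A s := by
  intro k l y hk hl
  show ‖s (S.idx k) y‖ ≤ _ * ‖s (S.idx l) y‖
  rw [tr _ _ y (S.D_sub E k hk) (S.D_sub E l hl), norm_mul]
  gcongr
  exact hG k l y hk hl

variable (S)

/-- bound for an invariant cocycle -/
theorem exists_bd [T2Space Y] (E : InvU g U ρ) {G : I → I → Y → ℂ}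
    (hc : ∀ i j, ContinuousOn (G i j) (U i ∩ U j))
    (hG : ∀ i j y, y ∈ U i → y ∈ U j → G (ρ i) (ρ j) (g y) = G i j y) :
    ∃ A : ℝ, 0 ≤ A ∧ S.Bd G A := by
  -- invariance under powers
  have hGn : ∀ (n : ℤ) i j y, y ∈ U i → y ∈ U j →
      G ((ρ ^ n : Equiv.Perm I) i) ((ρ ^ n : Equiv.Perm I) j) ((g ^ n) y) = G i j y := by
    intro n
    induction n using Int.induction_on with
    | zero => intro i j y _ _; simp
    | succ n ih =>
      intro i j y hi hj
      rw [zpow_add_one, zpow_add_one, Homeomorph.mul_apply, Equiv.Perm.mul_apply,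
        Equiv.Perm.mul_apply, ih _ _ _ ((E.mem i y).2 hi) ((E.mem j y).2 hj), hG i j y hi hj]
    | pred n ih =>
      intro i j y hi hj
      have h2 : g (g⁻¹ y) = y := g.apply_symm_apply y
      have h3 : ∀ i, ρ ((ρ⁻¹ : Equiv.Perm I) i) = i := fun i => ρ.apply_symm_apply i
      have hm : ∀ i, y ∈ U i → g⁻¹ y ∈ U ((ρ⁻¹ : Equiv.Perm I) i) := by
        intro i hi
        have h1 := E.mem ((ρ⁻¹ : Equiv.Perm I) i) (g⁻¹ y)
        rw [h2, h3] at h1
        exact h1.1 hi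
      rw [zpow_sub_one, zpow_sub_one, Homeomorph.mul_apply, Equiv.Perm.mul_apply,
        Equiv.Perm.mul_apply, ih _ _ _ (hm i hi) (hm j hj),
        ← hG _ _ _ (hm i hi) (hm j hj), h2, h3, h3]
  -- bounds on compact pieces
  have hK : ∀ (j j' : Fin S.m) (d : ℤ), ∃ M : ℝ, ∀ y ∈ S.K j, (g ^ (-d)) y ∈ S.K j' →
      ‖G (S.ix j) ((ρ ^ d : Equiv.Perm I) (S.ix j')) y‖ ≤ M := by
    intro j j' d
    have hcomp : IsCompact (S.K j ∩ (g ^ (-d)) ⁻¹' (S.K j')) :=
      (S.compact j).inter_right ((S.compact j').isClosed.preimage (g ^ (-d)).continuous)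
    have hsub : S.K j ∩ (g ^ (-d)) ⁻¹' (S.K j') ⊆ U (S.ix j) ∩
        U ((ρ ^ d : Equiv.Perm I) (S.ix j')) := by
      rintro y ⟨hy1, hy2⟩
      refine ⟨S.KU j hy1, ?_⟩
      have h3 := (E.mem_zpow d (S.ix j') ((g ^ (-d)) y)).2 (S.KU j' hy2)
      rwa [zpow_cancel_neg] at h3
    obtain ⟨M, hM⟩ := hcomp.exists_bound_of_continuousOn ((hc _ _).mono hsub)
    exact ⟨M, fun y hy hy' => hM y ⟨hy, hy'⟩⟩
  choose M hM using hK
  set T : Set (Fin S.m × Fin S.m × ℤ) :=
    univ ×ˢ (univ ×ˢ Icc ⌊-(2 * S.F.H)⌋ ⌈2 * S.F.H⌉) with hT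
  have hTfin : T.Finite :=
    Set.finite_univ.prod (Set.finite_univ.prod (Set.finite_Icc _ _))
  obtain ⟨B, hB⟩ := (hTfin.image (fun t => M t.1 t.2.1 t.2.2)).bddAbove
  refine ⟨2 * max B 0, by positivity, ?_⟩
  rintro ⟨j, n⟩ ⟨j', n'⟩ y hk hl
  -- translate to `n = 0`
  have h1 : (g ^ (-n)) y ∈ S.F.D (j, 0) := by
    have := (S.mem_D_zpow (-n) n j y).2 hk
    rwa [add_neg_cancel] at this
  have h2 : (g ^ (-n')) y ∈ S.F.D (j', 0) := by
    have := (S.mem_D_zpow (-n') n' j' y).2 hl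
    rwa [add_neg_cancel] at this
  have e1 : (g ^ (-(n' - n))) ((g ^ (-n)) y) = (g ^ (-n')) y := by
    rw [← Homeomorph.mul_apply, ← zpow_add]
    congr 2
    ring
  have e2 : S.idx (j, n) = (ρ ^ n : Equiv.Perm I) (S.ix j) := rfl
  have e3 : S.idx (j', n') = (ρ ^ n : Equiv.Perm I) ((ρ ^ (n' - n) : Equiv.Perm I) (S.ix j')) := by
    rw [← Equiv.Perm.mul_apply, ← zpow_add]
    show (ρ ^ n' : Equiv.Perm I) (S.ix j') = _
    congr 2
    ring
  have h3 := hM j j' (n' - n) ((g ^ (-n)) y) (S.DK j h1) (by rw [e1]; exact S.DK j' h2)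
  have h4 : G (S.idx (j, n)) (S.idx (j', n')) y =
      G (S.ix j) ((ρ ^ (n' - n) : Equiv.Perm I) (S.ix j')) ((g ^ (-n)) y) := by
    rw [e2, e3]
    conv_lhs => rw [← zpow_cancel_neg g n y]
    refine hGn n _ _ _ (S.KU j (S.DK j h1)) ?_
    have h5 := (E.mem_zpow (n' - n) (S.ix j') ((g ^ (-n')) y)).2 (S.KU j' (S.DK j' h2))
    rw [← e1, zpow_cancel_neg] at h5
    exact h5
  rw [h4]
  refine h3.trans ?_
  have h5 : (j, j', n' - n) ∈ T := by
    have b1 := abs_le.1 (S.F.hgt j n y hk)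
    have b2 := abs_le.1 (S.F.hgt j' n' y hl)
    refine ⟨mem_univ _, mem_univ _, ?_, ?_⟩
    · have h6 : (⌊-(2 * S.F.H)⌋ : ℝ) ≤ ((n' - n : ℤ) : ℝ) := by
        have := Int.floor_le (-(2 * S.F.H))
        push_cast
        linarith [b1.2, b2.1]
      exact_mod_cast h6
    · have h6 : ((n' - n : ℤ) : ℝ) ≤ (⌈2 * S.F.H⌉ : ℝ) := by
        have := Int.le_ceil (2 * S.F.H)
        push_cast
        linarith [b1.1, b2.2]
      exact_mod_cast h6
  have h6 : M j j' (n' - n) ≤ B := hB ⟨_, h5, rfl⟩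
  have h7 := Real.add_one_le_exp (max B 0)
  have h8 := le_max_left B 0
  have h9 : 2 * max B 0 / 2 = max B 0 := by ring
  rw [h9]
  linarith

theorem exists_bd_coc [T2Space Y] {L : Coc Y I} (E : Inv L g ρ) (S : Sys g h L.U ρ) :
    ∃ A : ℝ, 0 ≤ A ∧ S.Bd L.G A :=
  S.exists_bd (invU_of_inv E) (fun i j => (L.hol i j).continuousOn) E.G

/-! ### properties of the norm -/

variable {S} {A : ℝ} {s : I → Y → ℂ}

lemma nm_nonneg (y : Y) : 0 ≤ S.nm A s y := Fam.N_nonneg y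

lemma nm_lower (hA : 0 ≤ A) {k : Fin S.m × ℤ} {y : Y} (hk : y ∈ S.F.D k) :
    Real.exp (-A) * ‖s (S.idx k) y‖ ≤ S.nm A s y := Fam.lower (s := fun k => s (S.idx k)) hA hk

lemma nm_upper (hA : 0 ≤ A) (hs : S.Cm A s) {k : Fin S.m × ℤ} {y : Y} (hk : y ∈ S.F.D k) :
    S.nm A s y ≤ Real.exp (A / 2) * ‖s (S.idx k) y‖ := Fam.upper hA hs hk


/-- the norm of a section (relation by an invertible cocycle) is nonzero where the section is -/
lemma nm_ne_zero (E : InvU g U ρ) (hA : 0 ≤ A) {G : I → I → Y → ℂ}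
    (tr : ∀ i j y, y ∈ U i → y ∈ U j → s i y = G i j y * s j y) {i : I} {y : Y} (hi : y ∈ U i)
    (hne : s i y ≠ 0) : S.nm A s y ≠ 0 := by
  obtain ⟨k, hk, -⟩ := S.F.cover y
  have h1 := nm_lower (A := A) (s := s) hA hk
  have h2 : s (S.idx k) y ≠ 0 := by
    intro h3
    apply hne
    rw [tr i _ y hi (S.D_sub E k hk), h3, mul_zero]
  have h3 : 0 < Real.exp (-A) * ‖s (S.idx k) y‖ := mul_pos (Real.exp_pos _) (norm_pos_iff.2 h2)
  exact (h3.trans_le h1).ne'

/-- two sided comparison with the local functions -/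
lemma nm_le_of_bound (hA : 0 ≤ A) (hs : S.Cm A s) {y : Y} {c : ℝ}
    (hc : ∀ i, y ∈ U i → ‖s i y‖ ≤ c) (E : InvU g U ρ) :
    S.nm A s y ≤ Real.exp (A / 2) * c := by
  obtain ⟨k, hk, -⟩ := S.F.cover y
  refine (nm_upper hA hs hk).trans ?_
  gcongr
  exact hc _ (S.D_sub E k hk)

lemma continuous_nm (E : InvU g U ρ) (hA : 0 ≤ A) (hs : S.Cm A s)
    (hc : ∀ i, ContinuousOn (s i) (U i)) : Continuous (S.nm A s) :=
  Fam.continuous_N hA hs fun k => (hc _).mono (S.D_sub E k)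

lemma nm_g (E : InvU g U ρ) {t : ℂ} (ht : ∀ i y, y ∈ U i → s (ρ i) (g y) = t * s i y) (y : Y) :
    S.nm A s (g y) = ‖t‖ * S.nm A s y := by
  refine Fam.N_g S.F.equi fun k hk => ?_
  show s (S.idx (shf S.m k)) (g y) = t * s (S.idx k) y
  rw [S.idx_shf]
  exact ht _ y (S.D_sub E k hk)



end Sys

end Crest.Agent.R275.FL884
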