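import Crest.Agent.R275.NegA_908
import Crest.Agent.R275.NegC_908
import Crest.Agent.R275.NormF_884
import Crest.Agent.R275.NormE_884
import Crest.Agent.R275.FLm_606
import Crest.Agent.R275.XN5_194
import Crest.Agent.R275.HSe_328
import Crest.Agent.R275.SerR_398
import Crest.Agent.R275.SerQ_398
import Crest.Agent.R275.KY_293
import Crest.Agent.R275.GIx_106
import Crest.Agent.R275.FlXC_161
import Crest.Agent.R275.XinM_473
import Crest.Agent.R275.SNerveG_865

-- ▼ part R275/NegY_908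
section

/-!
R275 (S0418), helper908, block NEG: the covering `YC u → X` of helper352 is a `Prj`; NEG for `X`.
-/

set_option autoImplicit false
set_option linter.unusedSectionVars false

open Set Filter Topology Metric Crest.AlgGeometry.Surface MeasureTheory
open scoped Manifold ContDiff

noncomputable section

namespace Crest.Agent.R275.NegY908

open Crest.Agent.R275.HolY631 Crest.Agent.R275.HolL631 Crest.Agent.R275.FL606
  Crest.Agent.R275.Neg2908 Crest.Agent.R275.Neg3908 Crest.Agent.R275.Neg4908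
  Crest.Agent.R275.NegX908 Crest.Agent.R275.Geo Crest.Agent.R275.Fm96 Crest.Agent.R275.Lt893
  Crest.Agent.R275.NegA908 Crest.Agent.R275.ZC352

variable {X : Type} [TopologicalSpace X] [ChartedSpace C2 X] [IsManifold 𝓘(ℂ, C2) 1 X]
  {A : Atl 2 X}

theorem prjYC (u : C(X, Circ)) : Prj (YC.pr u) (YC.dk u ^ 1) where
  hol := YC.contMDiff_pr u
  sec y := by
    obtain ⟨V, hVo, hV, σ, hσ, hσx, hσp, -⟩ := YC.exists_section (I := 𝓘(ℂ, C2)) (n := 1) u y
    exact ⟨σ, V, hVo.mem_nhds hV, hσx, hσp, hσ⟩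
  surj := YC.pr_surjective u
  inv y := by
    rw [pow_one]
    exact YC.pr_dk u y
  fib y y' h := by
    obtain ⟨n, h1 | h1⟩ := YC.fibre u h
    · refine ⟨n, ?_⟩
      rw [pow_one, zpow_natCast, ← h1]
      clear h1
      induction n with
      | zero => rfl
      | succ n ih => rw [Function.iterate_succ', pow_succ', Homeomorph.mul_apply, ← ih]; rfl
    · refine ⟨-n, ?_⟩
      rw [pow_one, zpow_neg, zpow_natCast]
      have h2 : ((YC.dk u) ^ n : YC u ≃ₜ YC u) y' = y := by
        rw [← h1]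
        clear h1
        induction n with
        | zero => rfl
        | succ n ih => rw [Function.iterate_succ', pow_succ', Homeomorph.mul_apply, ih]; rfl
      rw [← h2]
      exact (((YC.dk u) ^ n : YC u ≃ₜ YC u).symm_apply_apply y').symm

/-- the heights and the lifts -/
theorem lift_int {u : C(X, Circ)} {Z : ZD A} (hZ : Z.Lift u) (i : A.ι) (y : YC u)
    (hy : YC.pr u y ∈ (A.e i).source) :
    ∃ k : ℤ, YC.ht u y / ((1 : ℕ) : ℝ) - Z.f i (YC.pr u y) = k := by
  refine ⟨lev Z u i y, ?_⟩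
  rw [lev_eq hZ hy]
  simp

variable [CompactSpace X] [MeasurableSpace X]


end Crest.Agent.R275.NegY908
end
end

-- ▼ part R275/NegF_908
section

/-!
R275 (S0418), helper908, block NEG: the final form.

* `neg_gen` : the field `neg` of `CMData` for a compact surface `M = Y / γ ^ m`;
* `neg_YC` : for `M = X` (`Y = YC u`, `m = 1`);
* `prjYX`, `exists_ZDN`, `neg_XC` : for `M = X_N = XC N u` (`m = N`).

The only remaining hypothesis is `hK : h⁰(K) = 0`.
-/

set_option autoImplicit false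
set_option linter.unusedSectionVars false
set_option linter.style.haveILetI false

open Set Filter Topology Metric Crest.AlgGeometry.Surface MeasureTheory
open scoped Manifold ContDiff

noncomputable section

namespace Crest.Agent.R275.NegF908

open Crest.Agent.R275.HolY631 Crest.Agent.R275.HolL631
  Crest.Agent.R275.Neg2908 Crest.Agent.R275.Neg3908 Crest.Agent.R275.Neg4908
  Crest.Agent.R275.NegX908 Crest.Agent.R275.Geo Crest.Agent.R275.Lt893
  Crest.Agent.R275.NegA908 Crest.Agent.R275.NegY908 Crest.Agent.R275.NegC908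
  Crest.Agent.R275.Core144 Crest.Agent.R275.GC293
  Crest.Agent.R275.ChiM825 Crest.Agent.R275.ZC352

section gen

variable {M : Type} [TopologicalSpace M] [ChartedSpace C2 M] [IsManifold 𝓘(ℂ, C2) 1 M]
  {A : Atl 2 M} {Y : Type} [TopologicalSpace Y] [ChartedSpace C2 Y] [IsManifold 𝓘(ℂ, C2) 1 Y]
  {γ : Y ≃ₜ Y} {h : Y → ℝ} {p : Y → M}

/-- **NEG**: every line bundle is topologically isomorphic to one with `h⁰ = h² = 0`. -/
theorem neg_gen [T2Space Y] [PreconnectedSpace Y] (D : Deck γ h)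
    (hh : ContMDiff 𝓘(ℝ, C2) 𝓘(ℝ, ℝ) 2 h) (hB : FL606.B1Prop Y γ) {m : ℕ} (hm : m ≠ 0)
    (P : Prj p (γ ^ m)) (hA : HolA A) (Z : ZD A)
    (hf : ∀ i y, p y ∈ (A.e i).source → ∃ k : ℤ, h y / m - Z.f i (p y) = k)
    (hK : ∀ u, IsHS (KB A) univ u → u = 0) (L : LB A) :
    ∃ L' : LB A, SLB.Iso (slb L) (slb L') ∧ (∀ u, IsHS L' univ u → u = 0) ∧
      ∀ u, IsHS (KB A * L'⁻¹) univ u → u = 0 := by
  letI : MeasurableSpace Y := borel Y
  haveI : BorelSpace Y := ⟨rfl⟩
  obtain ⟨n, C, c, hc, hb, ⟨H⟩, ⟨H'⟩⟩ := FL884.exists_secNorm₂ D hm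
    (inv_pull (cocM hA (isLC L)) P) (inv_pull (cocM hA (isLC (KB A * L⁻¹))) P)
  obtain ⟨G, C₀, hH⟩ := FL884.exists_height D hh C hb
  have hF : Flux C h := FL606.flux C hH hB
  obtain ⟨t, ht, h1, h2⟩ := neg_raw D hm P hA (isLC L) (isLC (KB A * L⁻¹)) (isLC (KB A))
    (fun i j x hx => by
      rw [LB.mul_g, LB.inv_g]
      have := L.ne_zero i j x
      field_simp) Z hf hc H H' hH.bound hF
    (fun v hv => hK v (isHS_of_isH0 (fun _ _ _ _ => rfl) hv))
  refine ⟨L * ltB Z t ht, iso_ltB L Z t ht, fun u hu => h1 u (isH0_of_isHS ?_ hu),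
    fun u hu => h2 u (isH0_of_isHS ?_ hu)⟩
  · intro i j x hx
    rw [LB.mul_g, ltB_g hx]
    show _ = ltc Z t i j x * L.g i j x
    ring
  · intro i j x hx
    rw [LB.mul_g, LB.inv_g, LB.mul_g, ltB_g hx, ltc_inv]
    show _ = (ltc Z t i j x)⁻¹ * ((KB A).g i j x * (L.g i j x)⁻¹)
    rw [mul_inv]
    ring

end gen

lemma two_le : (2 : WithTop ℕ∞) ≤ ∞ := WithTop.coe_le_coe.2 (le_top : (2 : ℕ∞) ≤ ⊤)

variable {X : Type} [TopologicalSpace X] [CompactSpace X] [T2Space X] [ChartedSpace C2 X]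
  [IsManifold 𝓘(ℂ, C2) 1 X] {u : C(X, Circ)}

/-- **NEG for `X`.** -/
theorem neg_YC [ConnectedSpace (YC u)] (hh : ContMDiff 𝓘(ℝ, C2) 𝓘(ℝ, ℝ) ∞ (YC.ht u))
    (hU : ∀ Q : LPS X ℝ, ∃ (v : ℝ) (F : YC u → ℝ),
      (Q.pull (YC.prC u)).IsPrim F ∧ ∀ y, F (YC.dk u y) = F y - v)
    {A : Atl 2 X} (hA : HolA A) {Z : ZD A} (hZ : Z.Lift u)
    (hK : ∀ v, IsHS (KB A) univ v → v = 0) (L : LB A) :
    ∃ L' : LB A, SLB.Iso (slb L) (slb L') ∧ (∀ v, IsHS L' univ v → v = 0) ∧
      ∀ v, IsHS (KB A * L'⁻¹) univ v → v = 0 :=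
  neg_gen (deckY u) (hh.of_le two_le) (FL606.b1Prop_YC u hU) one_ne_zero
    (prjYC u) hA Z (lift_int hZ) hK L

/-! ### the space `X_N` -/

open Crest.Agent.R275.XN194 (XC)

lemma pow_apply {Y : Type} [TopologicalSpace Y] (g : Y ≃ₜ Y) (n : ℕ) (y : Y) :
    (g ^ n : Y ≃ₜ Y) y = g^[n] y := by
  induction n with
  | zero => rfl
  | succ n ih => rw [Function.iterate_succ', pow_succ', Homeomorph.mul_apply, ih]; rfl

/-- the covering `Y → X_N` -/
theorem prjYX (N : ℕ) [NeZero N] (u : C(X, Circ)) : Prj (XC.YX N u) (YC.dk u ^ N) where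
  hol := XC.contMDiff_YX N u
  sec y := by
    obtain ⟨V, hVo, hV, σ, hσ, hσx, hσp, -⟩ := YC.exists_section (I := 𝓘(ℂ, C2)) (n := 1) u y
    obtain ⟨-, -, -, τ, -, -, -, -, hτ⟩ := XC.exists_section (I := 𝓘(ℂ, C2)) (n := 1) N u
      (XC.YX N u y)
    have hc : ContinuousAt (fun z => XC.YX N u (σ (XC.pr N u z))) (XC.YX N u y) := by
      refine (XC.continuous_YX N u).continuousAt.comp ?_
      refine ContinuousAt.comp (g := σ) ?_ (XC.continuous_pr N u).continuousAt
      exact hσ.continuousOn.continuousAt (hVo.mem_nhds hV)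
    have he : XC.YX N u (σ (XC.pr N u (XC.YX N u y))) = XC.YX N u y := by
      rw [XC.pr_YX, hσx]
    have h1 : ∀ᶠ z in 𝓝 (XC.YX N u y), XC.pr N u z ∈ V :=
      (XC.continuous_pr N u).continuousAt.eventually (hVo.mem_nhds hV)
    have h2 : ∀ᶠ z in 𝓝 (XC.YX N u y), τ (XC.pr N u (XC.YX N u (σ (XC.pr N u z)))) =
        XC.YX N u (σ (XC.pr N u z)) := by
      have h3 : ∀ᶠ w in 𝓝 (XC.YX N u (σ (XC.pr N u (XC.YX N u y)))),
          τ (XC.pr N u w) = w := by
        rw [he]
        exact hτ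
      exact hc.eventually h3
    refine ⟨fun z => σ (XC.pr N u z), {z | XC.pr N u z ∈ V ∧ XC.YX N u (σ (XC.pr N u z)) = z},
      ?_, ?_, fun z hz => hz.2, ?_⟩
    · filter_upwards [h1, h2, hτ] with z hz1 hz2 hz3
      refine ⟨hz1, ?_⟩
      rw [← hz2, XC.pr_YX, hσp _ hz1, hz3]
    · show σ (XC.pr N u (XC.YX N u y)) = y
      rw [XC.pr_YX, hσx]
    · exact hσ.comp (XC.contMDiff_pr N u).contMDiffOn fun z hz => hz.1
  surj := XC.YX_surjective N u
  inv y := by
    rw [pow_apply]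
    have h : ∀ n : ℕ, XC.YX N u ((YC.dk u)^[n] y) = (XC.dk N u)^[n] (XC.YX N u y) := by
      intro n
      induction n with
      | zero => rfl
      | succ n ih => rw [Function.iterate_succ_apply', XC.YX_dk, ih, Function.iterate_succ_apply']
    rw [h, XC.dk_iterate_N]
    rfl
  fib y y' h := by
    have h1 : YC.pr u y = YC.pr u y' := congrArg (XC.pr N u) h
    obtain ⟨k, hk⟩ := (prjYC u).fib y y' h1
    rw [pow_one] at hk
    have h2 : ((YC.ht u y / N : ℝ) : Circ) = ((YC.ht u y' / N : ℝ) : Circ) := congrArg FP.snd h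
    obtain ⟨n, hn⟩ := coe_eq_coe_iff.1 h2
    have hN : (N : ℝ) ≠ 0 := Nat.cast_ne_zero.2 (NeZero.ne N)
    have h3 : YC.ht u y' = YC.ht u y - k := by rw [hk, ht_dk_zpow]
    have h4 : (k : ℝ) = N * n := by
      rw [h3] at hn
      field_simp at hn
      linarith
    have h5 : k = N * n := by exact_mod_cast h4
    refine ⟨n, ?_⟩
    rw [hk, h5, zpow_mul, zpow_natCast]

open Classical in
/-- lifts of the circle valued map of `X_N` -/
theorem exists_ZDN (N : ℕ) [NeZero N] {A : Atl 2 X} {AN : Atl 2 (XC N u)} (c : XN194.Cov AN A)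
    (hc : ∀ z, c.p z = XC.pr N u z) {Z : ZD A} (hZ : Z.Lift u) :
    ∃ ZN : ZD AN, ∀ i, ∀ z ∈ (AN.e i).source, ((ZN.f i z : ℝ) : Circ) = FP.snd z := by
  have hN : (N : ℝ) ≠ 0 := Nat.cast_ne_zero.2 (NeZero.ne N)
  choose rep hrep using exists_coe_eq
  have hfin : {t : Circ | N • t = 0}.Finite := by
    refine (Set.finite_range (ZMod.toAddCircle : ZMod N → Circ)).subset fun t ht => ?_
    obtain ⟨a, ha⟩ := XN194.exists_toAddCircle N ht
    exact ⟨a, ha⟩
  set t : AN.ι → XC N u → Circ := fun i z =>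
    FP.snd z - ((Z.f (c.r i) (c.p z) / N : ℝ) : Circ) with ht
  have hcont : ∀ i, ContinuousOn (Z.f i) (A.e i).source := fun i => by
    have h1 : ContinuousOn (fun x => Z.f i ((A.e i).symm (A.e i x))) (A.e i).source :=
      (Z.sm i).continuousOn.comp (A.e i).continuousOn (fun x hx => (A.e i).map_source hx)
    refine h1.congr fun x hx => ?_
    beta_reduce
    rw [(A.e i).left_inv hx]
  have htors : ∀ i, ∀ z ∈ (AN.e i).source, N • t i z = 0 := by
    intro i z hz
    have h1 : N • (FP.snd z : Circ) = u (XC.pr N u z) := (FP.eq z).symm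
    have h2 := hZ (c.r i) (c.p z) (c.src i z hz)
    rw [ht]
    beta_reduce
    rw [smul_sub, h1, ← hc, ← h2, ← AddCircle.coe_nsmul, nsmul_eq_mul, mul_div_cancel₀ _ hN,
      sub_self]
  have htcont : ∀ i, ContinuousOn (t i) (AN.e i).source := by
    intro i
    refine ContinuousOn.sub FP.continuous_snd.continuousOn ?_
    refine (AddCircle.continuous_mk' (1:ℝ)).comp_continuousOn ?_
    refine ContinuousOn.div_const ?_ _
    exact (hcont (c.r i)).comp c.cont.continuousOn (fun z hz => c.src i z hz)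
  have hloc : ∀ i, ∀ z ∈ (AN.e i).source, ∀ᶠ w in 𝓝 z, t i w = t i z := by
    intro i z hz
    have h1 : ContinuousAt (t i) z := (htcont i).continuousAt ((AN.e i).open_source.mem_nhds hz)
    have h2 : ({s : Circ | N • s = 0} \ {t i z})ᶜ ∈ 𝓝 (t i z) :=
      (hfin.subset sdiff_subset).isClosed.isOpen_compl.mem_nhds fun h => h.2 rfl
    filter_upwards [h1.eventually h2, (AN.e i).open_source.mem_nhds hz] with w hw hw'
    by_contra hne
    exact hw ⟨htors i w hw', hne⟩
  set f : AN.ι → XC N u → ℝ := fun i z => Z.f (c.r i) (c.p z) / N + rep (t i z) with hf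
  have hfs : ∀ i, ∀ z, ((f i z : ℝ) : Circ) = FP.snd z := by
    intro i z
    rw [hf]
    beta_reduce
    rw [AddCircle.coe_add, hrep, ht]
    beta_reduce
    rw [add_sub_cancel]
  refine ⟨⟨f, fun i => ?_, fun i j z hz => ?_⟩, fun i z _ => hfs i z⟩
  · intro w hw
    have hs : (AN.e i).symm w ∈ (AN.e i).source := (AN.e i).map_target hw
    have h1 : ContDiffWithinAt ℝ ∞ (fun w => Z.f (c.r i) (c.p ((AN.e i).symm w)))
        (AN.e i).target w := c.smAt_comp (Z.sm (c.r i)) w hw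
    have h2 : ContDiffWithinAt ℝ ∞ (fun w' => Z.f (c.r i) (c.p ((AN.e i).symm w')) / N +
        rep (t i ((AN.e i).symm w))) (AN.e i).target w := (h1.div_const _).add contDiffWithinAt_const
    refine h2.congr_of_eventuallyEq ?_ rfl
    have h3 : ContinuousAt (AN.e i).symm w := (AN.e i).symm.continuousAt (by simpa using hw)
    have h4 := h3.eventually (hloc i _ hs)
    filter_upwards [mem_nhdsWithin_of_mem_nhds h4] with w' hw'
    show _ + rep (t i ((AN.e i).symm w')) = _
    rw [hw']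
  · have h1 : ((f i z : ℝ) : Circ) = (f j z : ℝ) := by rw [hfs, hfs]
    obtain ⟨m, hm⟩ := coe_eq_coe_iff.1 h1
    exact ⟨m, by rw [hm]; ring⟩

/-- **NEG for `X_N`.** -/
theorem neg_XC (N : ℕ) [NeZero N] [ConnectedSpace (YC u)]
    (hh : ContMDiff 𝓘(ℝ, C2) 𝓘(ℝ, ℝ) ∞ (YC.ht u))
    (hU : ∀ Q : LPS X ℝ, ∃ (v : ℝ) (F : YC u → ℝ),
      (Q.pull (YC.prC u)).IsPrim F ∧ ∀ y, F (YC.dk u y) = F y - v)
    {A : Atl 2 X} {AN : Atl 2 (XC N u)} (c : XN194.Cov AN A) (hc : ∀ z, c.p z = XC.pr N u z)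
    (hAN : HolA AN) {Z : ZD A} (hZ : Z.Lift u)
    (hK : ∀ v, IsHS (KB AN) univ v → v = 0) (L : LB AN) :
    ∃ L' : LB AN, SLB.Iso (slb L) (slb L') ∧ (∀ v, IsHS L' univ v → v = 0) ∧
      ∀ v, IsHS (KB AN * L'⁻¹) univ v → v = 0 := by
  obtain ⟨ZN, hZN⟩ := exists_ZDN N c hc hZ
  refine neg_gen (deckY u) (hh.of_le two_le) (FL606.b1Prop_YC u hU) (NeZero.ne N)
    (prjYX N u) hAN ZN (fun i y hy => ?_) hK L
  have h1 : ((ZN.f i (XC.YX N u y) : ℝ) : Circ) = ((YC.ht u y / N : ℝ) : Circ) := hZN i _ hy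
  obtain ⟨m, hm⟩ := coe_eq_coe_iff.1 h1.symm
  exact ⟨m, by rw [hm]; ring⟩

end Crest.Agent.R275.NegF908
end
end

-- ▼ part R275/CMInst_615
section

/-!
# R275 (S0418), integration (helper615): the instance of helper825's `CMData`

* `fin_LB`, `serre` : for a finite atlas of a compact surface `M` the Dolbeault cohomology of every
  `L : LB A` is finite dimensional and Serre duality holds (helper398's `serre_raw`, `rz`);
* `Ix P I e` : the index theoretic inputs (`euler`, `noether`), the only fields left open here;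
* `cmData_of` : `CMData P I e` from `GoodA`, convex chart targets (`H1Z`), `p_g = 0`, `neg`, `Ix`;
* `no_sec_KB` : `p_g = 0` for `M = X` and for the cyclic coverings `X_N = XC N u`;
* `cmX`, `cmXC` : `CMData` for `X` and for `(xcov N u L).lift` on `X_N`.
-/

set_option autoImplicit false
set_option linter.unusedSectionVars false

open Set Filter Topology Complex Crest.AlgGeometry.Surface
open scoped Manifold ContDiff

noncomputable section

namespace Crest.Agent.R275.CM615

open Crest.Agent.R275.Geo Crest.Agent.R275.Core144 Crest.Agent.R275.ChiM825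
  Crest.Agent.R275.GC293 Crest.Agent.R275.Q74 Crest.Agent.R275.SerG398 Crest.Agent.R275.Smf798
  Crest.Agent.R275.KR798 Crest.Agent.R275.Lt893 Crest.Agent.R275.XN194 Crest.Agent.R275.ZC352
  Crest.Agent.R275.HS328 Crest.Agent.R275.Plu825

/-! ### finiteness and Serre duality -/

section three

variable {K V V0 V1 V2 : Type*} [Field K] [AddCommGroup V] [Module K V] [AddCommGroup V0]
  [Module K V0] [AddCommGroup V1] [Module K V1] [AddCommGroup V2] [Module K V2]
  (e : V ≃ₗ[K] V0 × V1 × V2) {d : V →ₗ[K] V} {D0 : V0 →ₗ[K] V1} {D1 : V1 →ₗ[K] V2}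
  (hd : ∀ v, e (d v) = (0, D0 (e v).1, D1 (e v).2.1)) {p : ℕ → V →ₗ[K] V}

include hd

theorem finQ_of_finS (h0 : ∀ v, p 0 v = v ↔ (e v).2.1 = 0 ∧ (e v).2.2 = 0)
    (h1 : ∀ v, p 1 v = v ↔ (e v).1 = 0 ∧ (e v).2.2 = 0)
    (h2 : ∀ v, p 2 v = v ↔ (e v).1 = 0 ∧ (e v).2.1 = 0)
    (hf : ∀ q, SerG398.FinS (LinearMap.ker d ⊓ LinearMap.ker (p q - 1))
      (LinearMap.range d ⊓ LinearMap.ker (p q - 1))) : FinQ D0 D1 ⊥ ⊥ ⊥ := by
  have hk : ∀ q v, v ∈ LinearMap.ker (p q - 1) ↔ p q v = v := fun q v => by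
    rw [LinearMap.mem_ker, LinearMap.sub_apply, Module.End.one_apply, sub_eq_zero]
  have hk0 : ∀ v, v ∈ LinearMap.ker d ↔ D0 (e v).1 = 0 ∧ D1 (e v).2.1 = 0 := fun v => by
    rw [LinearMap.mem_ker, ← e.map_eq_zero_iff, hd]
    simp [Prod.ext_iff]
  refine ⟨?_, ?_, ?_⟩
  · obtain ⟨E⟩ := finrank_quot_eq
      (Z := LinearMap.ker d ⊓ LinearMap.ker (p 0 - 1))
      (B := LinearMap.range d ⊓ LinearMap.ker (p 0 - 1))
      (Z' := (⊥ : Submodule K V1).comap D0) (B' := ⊥)
      (LinearMap.fst K V0 (V1 × V2) ∘ₗ e.toLinearMap)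
      (e.symm.toLinearMap ∘ₗ LinearMap.inl K V0 (V1 × V2))
      (fun z hz => by
        rw [Submodule.mem_comap, Submodule.mem_bot]
        exact ((hk0 z).1 hz.1).1)
      (fun z hz => by
        have hz' : D0 z = 0 := hz
        refine ⟨(hk0 _).2 ?_, (hk 0 _).2 ((h0 _).2 ?_)⟩ <;> simp [hz'])
      (fun z hz => by
        obtain ⟨h1, h2⟩ := (h0 z).1 ((hk 0 z).1 hz.2)
        show e.symm ((e z).1, 0) = z
        rw [LinearEquiv.symm_apply_eq]
        exact Prod.ext rfl (Prod.ext h1.symm h2.symm))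
      (fun z hz => by simp)
      (fun z hz => by
        rw [Submodule.mem_bot]
        show _ ↔ (e z).1 = 0
        obtain ⟨h1, h2⟩ := (h0 z).1 ((hk 0 z).1 hz.2)
        constructor
        · rintro ⟨⟨v, rfl⟩, -⟩
          rw [hd]
        · intro h0
          have : z = 0 := by
            rw [← e.map_eq_zero_iff]
            exact Prod.ext h0 (Prod.ext h1 h2)
          rw [this]
          exact Submodule.zero_mem _)
    have := hf 0
    unfold SerG398.FinS at this
    exact Module.Finite.equiv E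
  · obtain ⟨E⟩ := finrank_quot_eq
      (Z := LinearMap.ker d ⊓ LinearMap.ker (p 1 - 1))
      (B := LinearMap.range d ⊓ LinearMap.ker (p 1 - 1))
      (Z' := (⊥ : Submodule K V2).comap D1) (B' := ⊥ ⊔ LinearMap.range D0)
      (LinearMap.fst K V1 V2 ∘ₗ LinearMap.snd K V0 (V1 × V2) ∘ₗ e.toLinearMap)
      (e.symm.toLinearMap ∘ₗ LinearMap.inr K V0 (V1 × V2) ∘ₗ LinearMap.inl K V1 V2)
      (fun z hz => by
        rw [Submodule.mem_comap, Submodule.mem_bot]
        exact ((hk0 z).1 hz.1).2)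
      (fun z hz => by
        have hz' : D1 z = 0 := hz
        refine ⟨(hk0 _).2 ?_, (hk 1 _).2 ((h1 _).2 ?_)⟩ <;> simp [hz'])
      (fun z hz => by
        obtain ⟨h1, h2⟩ := (h1 z).1 ((hk 1 z).1 hz.2)
        show e.symm (0, (e z).2.1, 0) = z
        rw [LinearEquiv.symm_apply_eq]
        exact Prod.ext h1.symm (Prod.ext rfl h2.symm))
      (fun z hz => by simp)
      (fun z hz => by
        rw [bot_sup_eq, LinearMap.mem_range]
        show _ ↔ ∃ y, D0 y = (e z).2.1
        obtain ⟨h1, h2⟩ := (h1 z).1 ((hk 1 z).1 hz.2)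
        constructor
        · rintro ⟨⟨v, rfl⟩, -⟩
          exact ⟨(e v).1, by rw [hd]⟩
        · rintro ⟨y, hy⟩
          refine ⟨⟨e.symm (y, 0, 0), ?_⟩, hz.2⟩
          apply e.injective
          rw [hd, e.apply_symm_apply]
          refine Prod.ext h1.symm (Prod.ext hy ?_)
          show D1 0 = (e z).2.2
          rw [map_zero, h2])
    have := hf 1
    unfold SerG398.FinS at this
    exact Module.Finite.equiv E
  · obtain ⟨E⟩ := finrank_quot_eq
      (Z := LinearMap.ker d ⊓ LinearMap.ker (p 2 - 1))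
      (B := LinearMap.range d ⊓ LinearMap.ker (p 2 - 1))
      (Z' := (⊤ : Submodule K V2)) (B' := ⊥ ⊔ LinearMap.range D1)
      (LinearMap.snd K V1 V2 ∘ₗ LinearMap.snd K V0 (V1 × V2) ∘ₗ e.toLinearMap)
      (e.symm.toLinearMap ∘ₗ LinearMap.inr K V0 (V1 × V2) ∘ₗ LinearMap.inr K V1 V2)
      (fun z hz => trivial)
      (fun z hz => by
        refine ⟨(hk0 _).2 ?_, (hk 2 _).2 ((h2 _).2 ?_)⟩ <;> simp)
      (fun z hz => by
        obtain ⟨h1, h2⟩ := (h2 z).1 ((hk 2 z).1 hz.2)
        show e.symm (0, 0, (e z).2.2) = z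
        rw [LinearEquiv.symm_apply_eq]
        exact Prod.ext h1.symm (Prod.ext h2.symm rfl))
      (fun z hz => by simp)
      (fun z hz => by
        rw [bot_sup_eq, LinearMap.mem_range]
        show _ ↔ ∃ y, D1 y = (e z).2.2
        obtain ⟨h1, h2⟩ := (h2 z).1 ((hk 2 z).1 hz.2)
        constructor
        · rintro ⟨⟨v, rfl⟩, -⟩
          exact ⟨(e v).2.1, by rw [hd]⟩
        · rintro ⟨y, hy⟩
          refine ⟨⟨e.symm (0, y, 0), ?_⟩, hz.2⟩
          apply e.injective
          rw [hd, e.apply_symm_apply]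
          refine Prod.ext h1.symm (Prod.ext ?_ hy)
          show D0 0 = (e z).2.1
          rw [map_zero, h2])
    have := hf 2
    unfold SerG398.FinS at this
    exact Module.Finite.equiv E

end three

section gen

variable {M : Type} [TopologicalSpace M] {A : Atl 2 M}

/-- the canonical pairing `L ⊗ (K ⊗ L⁻¹) = K` -/
theorem kb_pair (L : LB A) : ∀ i j, ∀ x ∈ (A.e i).source ∩ (A.e j).source,
    L.g i j x * (KB A * L⁻¹).g i j x = detJ A i j x := by
  intro i j x hx
  have h1 : (KB A).g i j x = detJ A i j x := by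
    unfold KB detJ
    exact if_pos hx
  rw [LB.mul_g, LB.inv_g, h1]
  have := L.ne_zero i j x
  field_simp

variable [CompactSpace M] [T2Space M] [Finite A.ι] (P : Part A)

include P

/-- **finite dimensional Dolbeault cohomology** -/
theorem fin_LB (L : LB A) : FinE (isLC L) :=
  finQ_of_finS (eq3 (isLC L)) (eq3_nab (isLC L)) (p := fun q => Geo.pqL (LB1 (isLC L)) q)
    (deg0_raw _) (deg1_raw _) (deg2_raw _) fun q =>
      finite_HB P (pairRaw (isLC L) (isLC (KB A * L⁻¹)) (kb_pair L)) (nab_nab_raw _) (rz P _)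
        (rz P _) q

/-- **Serre duality** -/
theorem serre_LB (L : LB A) : hq 0 L = hq 2 (KB A * L⁻¹) ∧ hq 1 L = hq 1 (KB A * L⁻¹) ∧
    hq 2 L = hq 0 (KB A * L⁻¹) :=
  serre_raw P (isLC L) (isLC (KB A * L⁻¹)) (kb_pair L) (rz P _) (rz P _)

variable {P} {I : KIndex (smf A)} {e : ℤ}

omit [T2Space M] [Finite A.ι] in
variable (P I e) in
/-- the index theoretic inputs: Riemann-Roch in the form "index = Euler characteristic" and
Noether's formula -/
structure Ix : Prop where
  euler : ∀ L : LB A, chiL P I (slb L) = chiE (isLC L)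
  noether : 12 * chiL P I (SLB.triv A) = bL P I (slb (KB A)) (slb (KB A)) + e

/-- **`CMData`** for a compact surface -/
theorem cmData_of (good : GoodA A) (h1 : ∀ i, H1Z (A.e i).target)
    (hK : ∀ u, IsHS (KB A) univ u → u = 0)
    (neg : ∀ L : LB A, ∃ L' : LB A, SLB.Iso (slb L) (slb L') ∧ (∀ u, IsHS L' univ u → u = 0) ∧
      ∀ u, IsHS (KB A * L'⁻¹) univ u → u = 0)
    (H : Ix P I e) : CMData P I e where
  good := good
  hol := hol_of P h1 (fin_LB P 1).2.2 (serre_LB P 1).2.2 hK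
  fin := fin_LB P
  euler := H.euler
  serre0 L := (serre_LB P L).2.2
  serre1 L := (serre_LB P L).2.1
  neg := neg
  noether := H.noether

end gen

/-! ### `p_g = 0` -/

section pg

variable {M : Type} [TopologicalSpace M] [ChartedSpace C2 M] [IsManifold 𝓘(ℂ, C2) 1 M] {A : Atl 2 M}

theorem kFam_of_isHS {v : A.ι → M → ℂ} (hv : IsHS (KB A) univ v) : KFam A 1 v where
  hol i := by
    have h := hv.hol i
    unfold HolAt at h
    rwa [preimage_univ, inter_univ] at h
  tr i j x hx := by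
    have h1 : (KB A).g i j x = Matrix.det (Matrix.of (A.J i j x)) := by
      unfold KB
      exact if_pos hx
    rw [pow_one, ← h1]
    exact hv.tr i j x hx trivial

variable {X : Type} [TopologicalSpace X] [ChartedSpace C2 X] [IsManifold 𝓘(ℂ, C2) 1 X]

theorem no_sec_X (hκ : PlurigeneraVanish X) {A : Atl 2 X}
    (hA : ∀ i, A.e i ∈ IsManifold.maximalAtlas 𝓘(ℂ, C2) 1 X) (v : A.ι → X → ℂ)
    (hv : IsHS (KB A) univ v) : v = 0 := by
  funext i x
  by_cases hx : x ∈ (A.e i).source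
  · exact KFam.eq_zero_of_plurigenera hκ hA le_rfl (kFam_of_isHS hv) i hx
  · exact hv.off i x hx

theorem no_sec_cover (hκ : PlurigeneraVanish X) [T2Space M] [PreconnectedSpace M] {N : ℕ}
    {π : M → X} (hπ : HCov N π) (hA : ∀ i, A.e i ∈ IsManifold.maximalAtlas 𝓘(ℂ, C2) 1 M)
    (v : A.ι → M → ℂ) (hv : IsHS (KB A) univ v) : v = 0 := by
  funext i x
  by_cases hx : x ∈ (A.e i).source
  · exact KFam.eq_zero_of_cover hκ hπ hA le_rfl (kFam_of_isHS hv) i hx
  · exact hv.off i x hx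

end pg

/-! ### the instances -/

section inst

variable {X : Type} [TopologicalSpace X] [CompactSpace X] [T2Space X] [ChartedSpace C2 X]
  [IsManifold 𝓘(ℂ, C2) 1 X]

/-- the geometric base: a circle valued map `u` with smooth height on the connected covering, the
real periods of `X` are generated by `u` (`b₁ = 1`), a finite good holomorphic atlas with lifts of
`u`, and vanishing plurigenera -/
structure XBase (u : C(X, Circ)) (A : Atl 2 X) : Prop where
  conn : ConnectedSpace (YC u)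
  ht : ContMDiff 𝓘(ℝ, C2) 𝓘(ℝ, ℝ) ∞ (YC.ht u)
  per : ∀ Q : LPS X ℝ, ∃ (v : ℝ) (F : YC u → ℝ),
    (Q.pull (YC.prC u)).IsPrim F ∧ ∀ y, F (YC.dk u y) = F y - v
  fin : Finite A.ι
  hol : HolA A
  max : ∀ i, A.e i ∈ IsManifold.maximalAtlas 𝓘(ℂ, C2) 1 X
  good : GoodA A
  h1 : ∀ i, H1Z (A.e i).target
  plu : PlurigeneraVanish X

variable {u : C(X, Circ)} {A : Atl 2 X}


/-- **`CMData` for `X`** -/
theorem cmX (H : XBase u A) {Z : ZD A} (hZ : Z.Lift u) {P : Part A} {I : KIndex (smf A)} {e : ℤ}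
    (HI : Ix P I e) : CMData P I e := by
  have := H.conn
  have := H.fin
  exact cmData_of H.good H.h1 (no_sec_X H.plu H.max)
    (NegF908.neg_YC H.ht H.per H.hol hZ (no_sec_X H.plu H.max)) HI

variable (N : ℕ) [NeZero N]

/-- the lifted atlas on `X_N` -/
abbrev AN (L : Lifts A (u : X → Circ)) : Atl 2 (XC N u) := (xcov N u L).lift

theorem finite_AN (H : XBase u A) (L : Lifts A (u : X → Circ)) : Finite (AN N L).ι := by
  have := H.fin
  exact inferInstanceAs (Finite (A.ι × ZMod N))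

theorem holA_AN (H : XBase u A) (L : Lifts A (u : X → Circ)) : HolA (AN N L) :=
  holA_lift (xcov N u L) (XC.lbi N u) H.hol

theorem max_AN (H : XBase u A) (L : Lifts A (u : X → Circ)) (q : (AN N L).ι) :
    (AN N L).e q ∈ IsManifold.maximalAtlas 𝓘(ℂ, C2) 1 (XC N u) :=
  lift_mem_max (xcov N u L) (XC.lbi N u) H.hol q

theorem good_AN (H : XBase u A) (L : Lifts A (u : X → Circ)) : GoodA (AN N L) :=
  KY293.goodA_lift (xcov N u L) H.good

theorem no_sec_AN (H : XBase u A) (L : Lifts A (u : X → Circ)) (v : (AN N L).ι → XC N u → ℂ)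
    (hv : IsHS (KB (AN N L)) univ v) : v = 0 := by
  have := H.conn
  exact no_sec_cover H.plu (hcov N u) (max_AN N H L) v hv


/-- **`CMData` for `X_N`** -/
theorem cmXC (H : XBase u A) {Z : ZD A} (hZ : Z.Lift u) (L : Lifts A (u : X → Circ))
    {P : Part (AN N L)} {I : KIndex (smf (AN N L))} {e : ℤ} (HI : Ix P I e) : CMData P I e := by
  have := H.conn
  have := finite_AN N H L
  exact cmData_of (good_AN N H L) (h1z_lift (xcov N u L) H.h1) (no_sec_AN N H L)
    (NegF908.neg_XC N H.ht H.per (xcov N u L).cov (fun _ => rfl) (holA_AN N H L) hZ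
      (no_sec_AN N H L)) HI

end inst

end Crest.Agent.R275.CM615
end
end

-- ▼ part R275/KXN_865

set_option autoImplicit false
set_option linter.unusedSectionVars false

open Set Filter Topology

namespace Crest.Agent.R275.KXN865

open ASConv293 GC293 Geo Zig470 XN194 NGeo151 Loc647 NForm945 PDB412 TopK106 NTr151
  QPb635 WtY945 INX945 PDY945 KY293 ChiM825 Smf798 KR798 SB798 Core144 KAsm106 KZig106 KX106
  NEul865 EBF151 Fl161 Lt893 ZC352 Fm96 XNI106 MI683

noncomputable section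

/-! ### transfer -/

section transfer

variable {n : ℕ} {M Z' : Type} [TopologicalSpace M] [TopologicalSpace Z'] {A : Atl n M}
  {N : ℕ} [NeZero N]



end transfer

/-! ### `b_2 ≥ 1` on the good atlas of `X` -/

section b2

variable {n : ℕ} {X : Type} [TopologicalSpace X] {A : Atl n X} [Finite A.ι]


/-- the integral form (`hb₂` of `EBF151.formsX`) -/
theorem hb2_int (hA : GoodA A)
    (hb : Nontrivial (Crest.Topology.RationalHomology.rationalHomology X 2)) :
    ∃ c : GC293.Z2 A ℤ, ∀ m : ℤ, m • c.1 ∈ GC293.B2 A ℤ → m = 0 := by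
  obtain ⟨c, h1, -, -, h4⟩ := SNerve865.hb2_good A hA hb
  refine ⟨⟨c, fun i j l m h => ?_⟩, fun m hm => ?_⟩
  · have := h1 i j l m h
    exact this
  · by_contra h0
    obtain ⟨b, hb⟩ := hm
    exact h4 m h0 ⟨b, fun i j l h => hb i j l h⟩

end b2

/-! ### the rank bound on a cyclic covering -/

section general

variable {X Y X' : Type} [TopologicalSpace X] [T2Space X] [CompactSpace X]
  [TopologicalSpace X'] [T2Space X'] [CompactSpace X'] {A : Atl 2 X} [Finite A.ι] {N : ℕ}
  {C' : KCov A X' (ZMod N)} [NeZero N]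


end general

/-! ### `X_N = XC N u` -/

/-- the coverings `YC u` are locally compact -/
instance locallyCompact_YC {X : Type} [TopologicalSpace X] [LocallyCompactSpace X]
    (u : C(X, Circ)) : LocallyCompactSpace (YC u) :=
  (FP.isClosedEmbedding (u := (u : X → Circ)) (q := fun r : ℝ => (r : Circ)) u.continuous
    (AddCircle.continuous_mk' 1)).locallyCompactSpace

section xc

variable {X : Type} [TopologicalSpace X] [T2Space X] [CompactSpace X] {A : Atl 2 X}
  {u : C(X, Circ)} {Z : ZD A}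

/-- the lifted atlas of `X_N` -/
abbrev AX (N : ℕ) [NeZero N] (L : Lifts A (u : X → Circ)) : Atl 2 (XC N u) := (xcov N u L).lift

/-- the lifted partition of `X_N` -/
abbrev PX (N : ℕ) [NeZero N] (P : Part A) (L : Lifts A (u : X → Circ)) : Part (AX N L) :=
  liftP (xcov N u L) P

instance finite_AX [Finite A.ι] (N : ℕ) [NeZero N] (L : Lifts A (u : X → Circ)) :
    Finite (AX N L).ι := inferInstanceAs (Finite (A.ι × ZMod N))



variable [Finite A.ι] (P : Part A) (hZ : Z.Lift u)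




end xc

section base

open CM615 (XBase Ix)

variable {X : Type} [TopologicalSpace X] [CompactSpace X] [T2Space X] [ConnectedSpace X]
  [ChartedSpace Crest.AlgGeometry.Surface.C2 X]
  [IsManifold (modelWithCornersSelf ℂ Crest.AlgGeometry.Surface.C2) 1 X] {u : C(X, Circ)}
  {A : Atl 2 X} {Z : ZD A} [Finite A.ι]




end base

end

end Crest.Agent.R275.KXN865
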