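import Crest.Agent.R275.RetE_666
import Crest.Agent.R275.C1g_509
import Crest.Agent.R275.FHom_556

-- ▼ part R275/RetF_666
section

/-!
# R275, block C (helper666): multiplications (FHom of helper556), change of weights, `∇²`

* `chw`      : change of weights on the indices of a set `S` where `w' ≤ C w`.
* `WLe w w' H` : `w' ≤ C w` on the charts where `χ_i H_i ≠ 0`.
* `SV.act X X' H` : `V →ₗ V'` induced by a bundle map `H : FHom r B B'`, order `-r`.
* `SV.pq q`  : degree projections, order `0`.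
* `SV.opm_nab_sq` : `∇ ∇` has order `-1`.
* `SV.nrm_loc_le` : `w_i ‖loc_i (a_i, u_i)_k‖ ≤ C ‖u‖` for every amplitude family.
-/

set_option autoImplicit false
set_option linter.unusedSectionVars false
set_option linter.unusedSimpArgs false
set_option linter.unusedVariables false

open Set Filter Topology Complex
open scoped ContDiff Matrix ComplexConjugate

namespace Crest.Agent.R275.RetC666

open Geo Tor812 TorS666 C1d194 C2812 Ret666 Fred685 FHom556

noncomputable section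

variable {n : ℕ} {M : Type} [TopologicalSpace M] {A : Atl n M} {P : Part A} {w w' : Wt P}
  {B B' : FBun A}

/-! ### change of weights -/

section weights

variable {κ : Type} [Fintype κ] {sh : κ → ℕ}

theorem ts_weight {S : Set A.ι} {C : ℝ} (hw : ∀ i ∈ S, w'.w i ≤ C * w.w i)
    {f f' : A.ι × κ → SPer (RI n)} (hf : f ∈ TS (ws w sh)) (h1 : ∀ p, p.1 ∈ S → f' p = f p)
    (h0 : ∀ p, p.1 ∉ S → f' p = 0) : f' ∈ TS (ws w' sh) := by
  rw [mem_TS] at hf ⊢
  intro s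
  refine Summable.of_nonneg_of_le (fun j => sq_nonneg _) (fun p => ?_) ((hf s).mul_left (C ^ 2))
  rw [← mul_pow]
  by_cases hp : p.1 ∈ S
  · refine pow_le_pow_left₀ (mul_nonneg ((ws w' sh).pos p).le (nrm_nonneg _ _)) ?_ 2
    rw [h1 p hp, ← mul_assoc]
    exact mul_le_mul_of_nonneg_right (hw _ hp) (nrm_nonneg _ _)
  · rw [h0 p hp, nrm_zero_fun, mul_zero, zero_pow two_ne_zero]
    positivity

theorem nT_weight {S : Set A.ι} {C : ℝ} (hC : 0 ≤ C) (hw : ∀ i ∈ S, w'.w i ≤ C * w.w i)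
    {f : FT (RI n) (ws w sh)} {f' : FT (RI n) (ws w' sh)}
    (h1 : ∀ p, p.1 ∈ S → f'.fn p = f.fn p) (h0 : ∀ p, p.1 ∉ S → f'.fn p = 0) (s : ℕ) :
    nT s f' ≤ C * nT s f := by
  refine nT_le_of hC fun F => ?_
  have h2 : ∀ p ∈ F, ((ws w' sh).om p * nrm (s + (ws w' sh).sh p) (f'.fn p)) ^ 2
      ≤ C ^ 2 * ((ws w sh).om p * nrm (s + (ws w sh).sh p) (f.fn p)) ^ 2 := by
    intro p _
    rw [← mul_pow]
    by_cases hp : p.1 ∈ S
    · refine pow_le_pow_left₀ (mul_nonneg ((ws w' sh).pos p).le (nrm_nonneg _ _)) ?_ 2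
      rw [h1 p hp, ← mul_assoc]
      exact mul_le_mul_of_nonneg_right (hw _ hp) (nrm_nonneg _ _)
    · rw [h0 p hp, nrm_zero_fun, mul_zero, zero_pow two_ne_zero]
      positivity
  refine (Finset.sum_le_sum h2).trans ?_
  rw [← Finset.mul_sum]
  exact mul_le_mul_of_nonneg_left (sum_le_nT s f F) (sq_nonneg _)

theorem exists_nonneg_weight {S : Set A.ι} (h : ∃ C, ∀ i ∈ S, w'.w i ≤ C * w.w i) :
    ∃ C, 0 ≤ C ∧ ∀ i ∈ S, w'.w i ≤ C * w.w i := by
  obtain ⟨C, hC⟩ := h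
  exact ⟨max C 0, le_max_right _ _, fun i hi => (hC i hi).trans
    (mul_le_mul_of_nonneg_right (le_max_left _ _) (w.pos i).le)⟩

open Classical in
/-- change of weights, keeping the indices in `S` -/
def chw (sh : κ → ℕ) (S : Set A.ι) (h : ∃ C, ∀ i ∈ S, w'.w i ≤ C * w.w i) :
    FT (RI n) (ws w sh) →ₗ[ℂ] FT (RI n) (ws w' sh) where
  toFun f := FT.mk (fun p => if p.1 ∈ S then f.fn p else 0) (by
    obtain ⟨C, hC⟩ := h
    exact ts_weight hC f.mem (fun p hp => if_pos hp) (fun p hp => if_neg hp))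
  map_add' f g := by
    apply FT.ext
    intro p
    show (if p.1 ∈ S then f.fn p + g.fn p else 0) = (if p.1 ∈ S then f.fn p else 0) +
      (if p.1 ∈ S then g.fn p else 0)
    split_ifs
    · rfl
    · rw [add_zero]
  map_smul' c f := by
    apply FT.ext
    intro p
    show (if p.1 ∈ S then c • f.fn p else 0) = c • (if p.1 ∈ S then f.fn p else 0)
    split_ifs
    · rfl
    · rw [smul_zero]

theorem chw_of_mem {S : Set A.ι} (h : ∃ C, ∀ i ∈ S, w'.w i ≤ C * w.w i)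
    (f : FT (RI n) (ws w sh)) {p : A.ι × κ} (hp : p.1 ∈ S) : (chw sh S h f).fn p = f.fn p :=
  if_pos hp

theorem chw_of_not {S : Set A.ι} (h : ∃ C, ∀ i ∈ S, w'.w i ≤ C * w.w i)
    (f : FT (RI n) (ws w sh)) {p : A.ι × κ} (hp : p.1 ∉ S) : (chw sh S h f).fn p = 0 :=
  if_neg hp

theorem opR_chw {S : Set A.ι} (h : ∃ C, ∀ i ∈ S, w'.w i ≤ C * w.w i) :
    OpR 0 (scT (ws w sh)) (scT (ws w' sh)) (chw sh S h) := by
  intro s
  obtain ⟨C, hC0, hC⟩ := exists_nonneg_weight h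
  exact ⟨C, fun f => nT_weight hC0 hC (fun p hp => chw_of_mem h f hp)
    (fun p hp => chw_of_not h f hp) s⟩

end weights

/-! ### amplitudes from bundle maps -/

/-- the charts where `χ_i H_i ≠ 0` -/
def suppH (P : Part A) {r : ℕ} (H : FHom r B B') : Set A.ι :=
  {i | ∃ x, P.χ i x ≠ 0 ∧ H.h i x ≠ 0}

/-- `w' ≤ C w` on the charts where `χ_i H_i ≠ 0` -/
def WLe (w w' : Wt P) {r : ℕ} (H : FHom r B B') : Prop :=
  ∃ C, ∀ i ∈ suppH P H, w'.w i ≤ C * w.w i

theorem WLe.refl (w : Wt P) {r : ℕ} (H : FHom r B B') : WLe w w H :=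
  ⟨1, fun i _ => by rw [one_mul]⟩

theorem WLe.of_le {r : ℕ} {C : ℝ} (h : ∀ i, w'.w i ≤ C * w.w i) (H : FHom r B B') :
    WLe w w' H := ⟨C, fun i _ => h i⟩

theorem AmpF.mul_H {κ : Type} [Fintype κ] {a : A.ι → M → Matrix κ B'.κ ℂ} (ha : AmpF P a) {r : ℕ}
    (H : FHom r B B') : AmpF P (fun i x => a i x * H.h i x) := by
  refine ⟨fun i => isAmp_mul_right (ha.amp i) fun k l => H.smAt i k l, fun i => ?_⟩
  refine closure_minimal ?_ (isClosed_tsupport _)
  intro x hx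
  by_contra h
  apply hx
  show a i x * H.h i x = 0
  rw [amp_zero fun hh => h (ha.sub i hh), Matrix.zero_mul]

theorem AmpF.H_mul {κ : Type} [Fintype κ] {a : A.ι → M → Matrix B.κ κ ℂ} (ha : AmpF P a) {r : ℕ}
    (H : FHom r B B') : AmpF P (fun i x => H.h i x * a i x) := by
  refine ⟨fun i => isAmp_mul_left (ha.amp i) fun k l => H.smAt i k l, fun i => ?_⟩
  refine closure_minimal ?_ (isClosed_tsupport _)
  intro x hx
  by_contra h
  apply hx
  show H.h i x * a i x = 0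
  rw [amp_zero fun hh => h (ha.sub i hh), Matrix.mul_zero]

/-- `ψ' H` -/
def AF.psiH [hG : PTy P B'] {r : ℕ} (H : FHom r B B') (hH : FTp A H.h) : AF P B'.κ B.κ :=
  ⟨fun i x => P.psi B'.κ i x * H.h i x, AmpF.mul_H (P.amp_psi B'.κ) H,
    (ftp_psi hG B'.κ).mul hH⟩

/-- `χ' H` -/
def AF.chiH [hG : PTy P B'] {r : ℕ} (H : FHom r B B') (hH : FTp A H.h) : AF P B'.κ B.κ :=
  ⟨fun i x => P.chi B'.κ i x * H.h i x, AmpF.mul_H (P.amp_chi B'.κ) H,
    (ftp_chi hG B'.κ).mul hH⟩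

theorem psiH_entry [hG : PTy P B'] {r : ℕ} {H : FHom r B B'} {hH : FTp A H.h} {i : A.ι} {x : M}
    {k : B'.κ} {l : B.κ} (h : (AF.psiH (P := P) H hH).f i x k l ≠ 0) : B'.deg k = B.deg l + r := by
  have h1 : (P.psi B'.κ i x * H.h i x) k l ≠ 0 := h
  rw [Matrix.mul_apply] at h1
  obtain ⟨p, -, hp⟩ := Finset.exists_ne_zero_of_sum_ne_zero h1
  rw [psiP_entry (left_ne_zero_of_mul hp)]
  exact H.degr i x p l (right_ne_zero_of_mul hp)

theorem chiH_entry [hG : PTy P B'] {r : ℕ} {H : FHom r B B'} {hH : FTp A H.h} {i : A.ι} {x : M}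
    {k : B'.κ} {l : B.κ} (h : (AF.chiH (P := P) H hH).f i x k l ≠ 0) : B'.deg k = B.deg l + r := by
  have h1 : (P.chi B'.κ i x * H.h i x) k l ≠ 0 := h
  rw [Matrix.mul_apply] at h1
  obtain ⟨p, -, hp⟩ := Finset.exists_ne_zero_of_sum_ne_zero h1
  rw [chiP_entry (left_ne_zero_of_mul hp)]
  exact H.degr i x p l (right_ne_zero_of_mul hp)

/-- a localisation with vanishing amplitude vanishes -/
theorem loc_eq_zero {i : A.ι} {κ κ' : Type} [Fintype κ] [Fintype κ'] {a : M → Matrix κ κ' ℂ}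
    (ha : IsAmp A i a) {v : M → κ' → ℂ} (hv : ∀ l, A.SmAt i (fun x => v x l)) (h : ∀ x, a x = 0)
    (k : κ) : loc A i a v k = 0 := by
  apply SPer.ext
  intro x
  rw [C1c193.loc_apply ha hv]
  have h1 : (fun y => (a y *ᵥ v y) k) = fun _ => (0 : ℂ) := by
    funext y; rw [h y, Matrix.zero_mulVec]; rfl
  rw [h1]
  by_cases hx : fr x ∈ C1c193.rdU A i
  · rw [C1c193.rd_of_mem hx]; rfl
  · rw [C1c193.rd_of_not hx]; rfl

theorem psiH_zero [hG : PTy P B'] {r : ℕ} {H : FHom r B B'} {hH : FTp A H.h} {i : A.ι}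
    (hi : i ∉ suppH P H) (x : M) : (AF.psiH (P := P) H hH).f i x = 0 := by
  show P.psi B'.κ i x * H.h i x = 0
  by_cases h1 : H.h i x = 0
  · rw [h1, Matrix.mul_zero]
  · have h2 : P.χ i x = 0 := by
      by_contra h3
      exact hi ⟨x, h3, h1⟩
    have h3 : P.ψ i x = 0 := by
      rw [← P.chi_mul_psi, h2, zero_mul]
    show ((P.ψ i x : ℂ) • (1 : Matrix B'.κ B'.κ ℂ)) * H.h i x = 0
    rw [h3, ofReal_zero, zero_smul, Matrix.zero_mul]

theorem chiH_zero [hG : PTy P B'] {r : ℕ} {H : FHom r B B'} {hH : FTp A H.h} {i : A.ι}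
    (hi : i ∉ suppH P H) (x : M) : (AF.chiH (P := P) H hH).f i x = 0 := by
  show P.chi B'.κ i x * H.h i x = 0
  by_cases h1 : H.h i x = 0
  · rw [h1, Matrix.mul_zero]
  · have h2 : P.χ i x = 0 := by
      by_contra h3
      exact hi ⟨x, h3, h1⟩
    show ((P.χ i x : ℂ) • (1 : Matrix B'.κ B'.κ ℂ)) * H.h i x = 0
    rw [h2, ofReal_zero, zero_smul, Matrix.zero_mul]

/-! ### the action of bundle maps on section spaces -/

namespace SV

variable {V V' : Type*} [AddCommGroup V] [Module ℂ V] [AddCommGroup V'] [Module ℂ V']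
  (X : SV w B V) (X' : SV w' B' V') [hG : PTy P B] [hG' : PTy P B']

theorem LocV_act {r : ℕ} (H : FHom r B B') (hH : FTp A H.h) (sh : B'.κ → ℕ) (v : V)
    (p : A.ι × B'.κ) :
    LocV P (H.actL (X.inc v)) p = (X.LocA (AF.psiH (P := P) H hH) sh v).fn p :=
  (congrFun (C1c193.loc_amp_mul ((P.amp_psi B'.κ).amp p.1) (fun k l => H.smAt p.1 k l)
    ((X.inc v).2.1 p.1)) p.2).symm

theorem LocA_psiH_zero {r : ℕ} {H : FHom r B B'} (hH : FTp A H.h) (sh : B'.κ → ℕ) (v : V)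
    {p : A.ι × B'.κ} (hp : p.1 ∉ suppH P H) :
    (X.LocA (AF.psiH (P := P) H hH) sh v).fn p = 0 :=
  loc_eq_zero ((AF.psiH (P := P) H hH).amp.amp p.1) ((X.inc v).2.1 p.1)
    (fun x => psiH_zero hp x) p.2

theorem mem_act {r : ℕ} (H : FHom r B B') (hH : FTp A H.h) (hw : WLe w w' H) (v : V) :
    LocV P ((H.actL ∘ₗ X.inc) v) ∈ TS (ws w' fun _ => 0) := by
  obtain ⟨C, hC⟩ := hw
  refine ts_weight hC (X.LocA (AF.psiH (P := P) H hH) (fun _ => 0) v).mem
    (fun p _ => X.LocV_act H hH _ v p) (fun p hp => ?_)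
  rw [LinearMap.comp_apply, X.LocV_act H hH (fun _ => 0) v p]
  exact X.LocA_psiH_zero hH _ v hp

/-- the action of a bundle map -/
def act {r : ℕ} (H : FHom r B B') (hH : FTp A H.h) (hw : WLe w w' H) : V →ₗ[ℂ] V' :=
  X'.lift (H.actL ∘ₗ X.inc) (X.mem_act H hH hw)

@[simp] theorem inc_act {r : ℕ} (H : FHom r B B') (hH : FTp A H.h) (hw : WLe w w' H) (v : V) :
    X'.inc (X.act X' H hH hw v) = H.actL (X.inc v) :=
  X'.inc_lift (H.actL ∘ₗ X.inc) (X.mem_act H hH hw) v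

theorem LocA_act {r : ℕ} (H : FHom r B B') (hH : FTp A H.h) (hw : WLe w w' H) (sh : B'.κ → ℕ) :
    X'.LocA (AF.psi P B') sh ∘ₗ X.act X' H hH hw =
      chw sh (suppH P H) hw ∘ₗ X.LocA (AF.psiH (P := P) H hH) sh := by
  apply LinearMap.ext
  intro v
  apply FT.ext
  intro p
  have h1 : ((X'.LocA (AF.psi P B') sh ∘ₗ X.act X' H hH hw) v).fn p =
      LocV P (H.actL (X.inc v)) p := by
    show loc A p.1 _ ((X'.inc (X.act X' H hH hw v)).1 p.1) p.2 = _
    rw [inc_act]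
    rfl
  rw [h1, X.LocV_act H hH sh v p, LinearMap.comp_apply]
  by_cases hp : p.1 ∈ suppH P H
  · rw [chw_of_mem hw _ hp]
  · rw [chw_of_not hw _ hp, X.LocA_psiH_zero hH sh v hp]

/-- **a bundle map raising the degree by `r` has order `-r`** for the shifted norms -/
theorem opR_act {r : ℕ} (H : FHom r B B') (hH : FTp A H.h) (hw : WLe w w' H) {N : ℕ}
    (hN : ∀ k, B'.deg k ≤ N) : OpR r (X.sc N) (X'.sc N) (X.act X' H hH hw) := by
  rw [X'.opR_iff, X.LocA_act X' H hH hw]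
  refine (opR_chw hw).comp0' (X.opR_LocA _ fun i x k l h => ?_)
  have h1 := psiH_entry h
  have h2 := hN k
  simp only [shB]
  omega

theorem op0_act {r : ℕ} (H : FHom r B B') (hH : FTp A H.h) (hw : WLe w w' H) {N : ℕ}
    (hN : ∀ k, B'.deg k ≤ N) : Op0 (X.sc N) (X'.sc N) (X.act X' H hH hw) :=
  (X.opR_act X' H hH hw hN).op0


end SV

/-! ### degree projections -/

/-- the degree projection as a bundle map -/
def Hq (B : FBun A) (q : ℕ) : FHom 0 B B where
  h _ _ := Dq B q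
  smooth i k l := contDiffOn_const
  degr i x k l h := by
    by_contra hne
    apply h
    show Matrix.diagonal _ k l = 0
    rw [Matrix.diagonal_apply_ne]
    rintro rfl
    exact hne rfl
  tr i j x hx := Dq_comm (B := B) (fun k l => B.τ_deg i j x k l) q

theorem ftp_Hq (P : Part A) (B : FBun A) [hG : PTy P B] (q : ℕ) : FTp A (Hq B q).h :=
  hG.psi.map fun _ => Dq B q

theorem Hq_actL (B : FBun A) (q : ℕ) : (Hq B q).actL = pqL B q := rfl

namespace SV

variable {V : Type*} [AddCommGroup V] [Module ℂ V] (X : SV w B V) [hG : PTy P B]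

/-- degree projection -/
def pq (q : ℕ) : V →ₗ[ℂ] V := X.act X (Hq B q) (ftp_Hq P B q) (WLe.refl w _)

@[simp] theorem inc_pq (q : ℕ) (v : V) : X.inc (X.pq q v) = pqL B q (X.inc v) :=
  X.inc_act X (Hq B q) (ftp_Hq P B q) (WLe.refl w _) v

theorem op0_pq {N : ℕ} (hN : ∀ k, B.deg k ≤ N) (q : ℕ) : Op0 (X.sc N) (X.sc N) (X.pq q) :=
  X.op0_act X _ _ _ hN

/-! ### `∇ ∇` -/

theorem LocA_nab_apply {N : ℕ} (hN : ∀ k, B.deg k ≤ N) (v : V) :
    X.LocA (AF.psi P B) (shB N B) (X.nab v) =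
      TT w ((tb_DT hN).tbd A) (X.LocA (AF.psi P B) (shB N B) v)
        - X.LocA (AF.dpsi P B) (shB N B) v :=
  LinearMap.congr_fun (X.LocA_nab hN) v

theorem DT_sq {N : ℕ} (hN : ∀ k, B.deg k ≤ N) (f : FT (RI n) (ws w (shB N B))) :
    TT w ((tb_DT hN).tbd A) (TT w ((tb_DT hN).tbd A) f) = 0 := by
  apply FT.ext
  intro p
  show DT B.e (DT B.e (cur f p.1)) p.2 = 0
  rw [Tor812.DT_DT B.ee]
  rfl

/-- the localisation of `∇ ∇ v` -/
def nab2F {N : ℕ} (hN : ∀ k, B.deg k ≤ N) : V →ₗ[ℂ] FT (RI n) (ws w (shB N B)) :=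
  -(TT w ((tb_DT hN).tbd A) ∘ₗ X.LocA (AF.dpsi P B) (shB N B))
    - X.LocA (AF.dpsi P B) (shB N B) ∘ₗ X.nab

theorem LocA_nab_nab {N : ℕ} (hN : ∀ k, B.deg k ≤ N) (v : V) :
    X.LocA (AF.psi P B) (shB N B) (X.nab (X.nab v)) = X.nab2F hN v := by
  rw [X.LocA_nab_apply hN (X.nab v), X.LocA_nab_apply hN v, map_sub, DT_sq hN, zero_sub]
  rfl

/-- **`∇ ∇` has order `-1`** -/
theorem opm_nab_sq {N : ℕ} (hN : ∀ k, B.deg k ≤ N) : Opm (X.sc N) (X.sc N) (X.nab ∘ₗ X.nab) := by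
  have h1 : OpR 1 (X.sc N) (scT (ws w (shB N B))) (X.nab2F hN) :=
    (((opR_TT w ((tb_DT hN).tbd A)).comp0' (X.opR_LocA_dpsi hN)).neg).sub
      ((X.opR_LocA_dpsi hN).comp0 (opR_zero.2 (X.op0_nab hN)))
  intro s
  obtain ⟨C, hC⟩ := h1 s
  refine ⟨C, fun v => ?_⟩
  have h2 := hC v
  rw [← X.LocA_nab_nab hN v] at h2
  exact h2

/-- comparison of the localisations with the norms of the scale -/
theorem nrm_loc_le {N : ℕ} {κ₁ : Type} [Fintype κ₁] (a : AF P κ₁ B.κ)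
    (sh₁ : κ₁ → ℕ) (hd : ∀ i x k l, a.f i x k l ≠ 0 → sh₁ k ≤ N - B.deg l) (s : ℕ) :
    ∃ C : ℝ, ∀ (v : V) (i : A.ι) (k : κ₁),
      w.w i * nrm (s + sh₁ k) (loc A i (a.f i) ((X.inc v).1 i) k) ≤ C * (X.sc N).nrm s v := by
  obtain ⟨C, hC⟩ := X.opR_LocA (r := 0) (N := N) a hd s
  exact ⟨C, fun v i k => (coord_le s (X.LocA a sh₁ v) (i, k)).trans (hC v)⟩


end SV

end

end Crest.Agent.R275.RetC666
end

-- ▼ part R275/RetG_666

/-!
# R275, block C (helper666): the compact case (finite atlas), literally on `Sec B`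

`scS P B N : Scale ℂ (Sec B)`; for `N ≥ deg`:
* `op0_nabL`, `op0_KML`, `neg_RML`, `neg_nabL_sq`, `op0_actL`, `neg_actL` (`1 ≤ r`), `op0_pqL`,
  `op0_fmul`;
* `rellichS` : `∀ ε > 0, ∃ F, SmFin F ∧ ∀ u, ‖u - F u‖₀ ≤ ε ‖u‖₁`; `neg_of_opmS`;
* `nrm_loc_any`, `nrm_ext_any` : comparison with the localisations / extensions for ANY amplitude
  in one chart; `op0_id_part` : independence of the partition.
-/

set_option autoImplicit false
set_option linter.unusedSectionVars false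
set_option linter.unusedSimpArgs false
set_option linter.unusedVariables false

open Set Filter Topology Complex
open scoped ContDiff Matrix ComplexConjugate

namespace Crest.Agent.R275.RetC666

open Geo Tor812 TorS666 C1d194 C2812 Ret666 Fred685 FHom556

noncomputable section

variable {n : ℕ} {M : Type} [TopologicalSpace M] {A : Atl n M}

section

variable [Finite A.ι] (P : Part A) (B : FBun A) {B' : FBun A}

/-- the section space of a bundle over a finite atlas -/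
abbrev XS : SV (Wt.one P) B (Sec B) := SV.full (Wt.one P) B

/-- the scale on `Sec B` -/
def scS (N : ℕ) : Scale ℂ (Sec B) := (XS P B).sc N

/-- the retract structure on `Sec B` -/
def retS (N : ℕ) : Ret (RI n) (Sec B) := (XS P B).ret N


instance (N : ℕ) : Finite (retS P B N).J := inferInstanceAs (Finite (A.ι × B.κ))

theorem XS_nab : (XS P B).nab = nabL B := by
  refine (XS P B).hext fun v => ?_
  rw [SV.inc_nab]
  rfl

theorem XS_K : (XS P B).K = KML B P := by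
  refine (XS P B).hext fun v => Subtype.ext ?_
  rw [SV.inc_K]
  rfl

theorem XS_R : (XS P B).R = RML B P := by
  refine (XS P B).hext fun v => Subtype.ext ?_
  rw [SV.inc_R]
  rfl

theorem XS_pq (q : ℕ) : (XS P B).pq q = pqL B q := by
  refine (XS P B).hext fun v => ?_
  rw [SV.inc_pq]
  rfl

theorem XS_act {r : ℕ} (H : FHom r B B') :
    (XS P B).act (XS P B') H (FTp.of_finite _) (WLe.refl _ _) = H.actL := by
  refine (XS P B').hext fun v => ?_
  rw [SV.inc_act]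
  rfl

variable {N : ℕ}

theorem op0_nabL (hN : ∀ k, B.deg k ≤ N) : Op0 (scS P B N) (scS P B N) (nabL B) := by
  rw [← XS_nab P B]; exact (XS P B).op0_nab hN

theorem op0_KML (N : ℕ) : Op0 (scS P B N) (scS P B N) (KML B P) := by
  rw [← XS_K P B]; exact (XS P B).op0_K N

theorem opm_RML (hN : ∀ k, B.deg k ≤ N) : Opm (scS P B N) (scS P B N) (RML B P) := by
  rw [← XS_R P B]; exact (XS P B).opm_R hN

theorem opm_nabL_sq (hN : ∀ k, B.deg k ≤ N) :
    Opm (scS P B N) (scS P B N) (nabL B ∘ₗ nabL B) := by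
  rw [← XS_nab P B]; exact (XS P B).opm_nab_sq hN

theorem op0_pqL (hN : ∀ k, B.deg k ≤ N) (q : ℕ) : Op0 (scS P B N) (scS P B N) (pqL B q) := by
  rw [← XS_pq P B]; exact (XS P B).op0_pq hN q

variable {B} in
theorem opR_actL {r : ℕ} (H : FHom r B B') (hN : ∀ k, B'.deg k ≤ N) :
    OpR r (scS P B N) (scS P B' N) H.actL := by
  rw [← XS_act P B H]; exact (XS P B).opR_act (XS P B') H _ _ hN

variable {B} in
theorem op0_actL {r : ℕ} (H : FHom r B B') (hN : ∀ k, B'.deg k ≤ N) :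
    Op0 (scS P B N) (scS P B' N) H.actL := (opR_actL P H hN).op0


variable {B} in
theorem neg_of_opmSS {T : Sec B →ₗ[ℂ] Sec B'} {N' : ℕ} (hT : Opm (scS P B N') (scS P B' N) T) :
    Neg (scS P B N') (scS P B' N) T :=
  (retS P B N').neg_of_opm (retS P B' N) hT

theorem neg_RML (hN : ∀ k, B.deg k ≤ N) : Neg (scS P B N) (scS P B N) (RML B P) :=
  neg_of_opmSS P (opm_RML P B hN)

theorem neg_nabL_sq (hN : ∀ k, B.deg k ≤ N) :
    Neg (scS P B N) (scS P B N) (nabL B ∘ₗ nabL B) :=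
  neg_of_opmSS P (opm_nabL_sq P B hN)

/-- homotopy identity modulo negligible operators -/
theorem neg_htpy (hN : ∀ k, B.deg k ≤ N) : Neg (scS P B N) (scS P B N)
    (LinearMap.id - nabL B ∘ₗ KML B P - KML B P ∘ₗ nabL B) := by
  have h := neg_RML P B hN
  rw [← XS_R P B] at h
  rw [← XS_nab P B, ← XS_K P B]
  exact h




/-! ### comparison with arbitrary localisations and extensions -/

theorem nT_le_sum {J : Type} [Fintype J] {W : WS J} (s : ℕ) (f : FT (RI n) W) :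
    nT s f ≤ ∑ j, W.om j * nrm (s + W.sh j) (f.fn j) := by
  classical
  have h0 : ∀ j, 0 ≤ W.om j * nrm (s + W.sh j) (f.fn j) := fun j =>
    mul_nonneg (W.pos j).le (nrm_nonneg _ _)
  have h1 : nT s f ^ 2 = ∑ j, (W.om j * nrm (s + W.sh j) (f.fn j)) ^ 2 := by
    rw [← (hasSum_nT s f).tsum_eq, tsum_fintype]
  have h2 : nT s f ^ 2 ≤ (∑ j, W.om j * nrm (s + W.sh j) (f.fn j)) ^ 2 := by
    rw [h1]
    exact Finset.sum_sq_le_sq_sum_of_nonneg fun j _ => h0 j
  exact (pow_le_pow_iff_left₀ (nT_nonneg _ _) (Finset.sum_nonneg fun j _ => h0 j) two_ne_zero).1 h2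


theorem coordS (N s : ℕ) (u : Sec B) (i : A.ι) (k : B.κ) :
    nrm (s + (N - B.deg k)) (loc A i (P.psi B.κ i) (u.1 i) k) ≤ (scS P B N).nrm s u := by
  have h := coord_le s ((XS P B).LocA (AF.psi P B) (shB N B) u) (i, k)
  have h1 : (ws (Wt.one P) (shB N B)).om (i, k) = 1 := rfl
  rw [h1, one_mul] at h
  exact h

theorem nrmS_le_sum [Fintype A.ι] (N s : ℕ) (u : Sec B) :
    (scS P B N).nrm s u ≤
      ∑ i, ∑ k, nrm (s + (N - B.deg k)) (loc A i (P.psi B.κ i) (u.1 i) k) := by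
  refine (nT_le_sum s ((XS P B).LocA (AF.psi P B) (shB N B) u)).trans (le_of_eq ?_)
  rw [Fintype.sum_prod_type]
  refine Finset.sum_congr rfl fun i _ => Finset.sum_congr rfl fun k _ => ?_
  show (1 : ℝ) * _ = _
  rw [one_mul]
  rfl

variable {κ₁ κ₂ : Type} [Fintype κ₁] [Fintype κ₂]

theorem loc_ExtF_fin [Fintype A.ι] {i : A.ι} {a : M → Matrix κ₁ B.κ ℂ} (ha : IsAmp A i a)
    {b : A.ι → M → Matrix B.κ κ₂ ℂ} (hb : AmpF P b) (f : A.ι → κ₂ → SPer (RI n)) (k : κ₁) :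
    loc A i a (ExtF B b f i) k = ∑ j, ∑ l, Tkl B ha (hb.amp j) k l (f j l) := by
  have hs : ∀ j, ∀ l, A.SmAt i (fun x => ext B j (b j) (f j) i x l) := fun j l =>
    ext_smAt B j (hb.amp j) (f j) i l
  have h1 : ExtF B b f i = ∑ j, ext B j (b j) (f j) i := by
    funext x
    rw [Finset.sum_apply]
    exact finsum_eq_sum_of_fintype _
  rw [h1, C1c193.loc_sum ha _ hs, Finset.sum_apply]
  refine Finset.sum_congr rfl fun j _ => ?_
  rw [loc_ext_eq B ha (hb.amp j)]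

/-- **comparison with the localisation with an arbitrary amplitude in one chart** -/
theorem nrm_loc_any {i : A.ι} {a : M → Matrix κ₁ B.κ ℂ} (ha : IsAmp A i a) (N r : ℕ)
    (sh₁ : κ₁ → ℕ) (hd : ∀ x k l, a x k l ≠ 0 → sh₁ k + r ≤ N - B.deg l) (s : ℕ) :
    ∃ C, 0 ≤ C ∧ ∀ (u : Sec B) (k : κ₁),
      nrm (s + r + sh₁ k) (loc A i a (u.1 i) k) ≤ C * (scS P B N).nrm s u := by
  classical
  have := Fintype.ofFinite A.ι
  choose C hC0 hC using fun (k : κ₁) (j : A.ι) (l : B.κ) =>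
    nrm_Tkl_le B (s + r + sh₁ k) ha ((P.amp_chi B.κ).amp j) k l
  refine ⟨∑ k, ∑ j, ∑ l, C k j l, Finset.sum_nonneg fun k _ => Finset.sum_nonneg fun j _ =>
    Finset.sum_nonneg fun l _ => hC0 k j l, fun u k => ?_⟩
  have h1 := ExtF_LocF B P u.2
  have h2 := loc_ExtF_fin P B ha (P.amp_chi B.κ) (LocF B (P.psi B.κ) u.1) k
  rw [h1] at h2
  rw [h2]
  have h3 : ∑ j, ∑ l, C k j l ≤ ∑ k, ∑ j, ∑ l, C k j l :=
    Finset.single_le_sum (f := fun k => ∑ j, ∑ l, C k j l) (fun k _ => Finset.sum_nonneg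
      fun j _ => Finset.sum_nonneg fun l _ => hC0 k j l) (Finset.mem_univ k)
  refine le_trans ?_ (mul_le_mul_of_nonneg_right h3 (apply_nonneg _ _))
  rw [Finset.sum_mul]
  refine (nrm_sum_le _ _ _).trans (Finset.sum_le_sum fun j _ => ?_)
  rw [Finset.sum_mul]
  refine (nrm_sum_le _ _ _).trans (Finset.sum_le_sum fun l _ => ?_)
  by_cases hz : ∀ x, (a x * B.τ i j x * P.chi B.κ j x) k l = 0
  · rw [Tkl_eq_zero B ha ((P.amp_chi B.κ).amp j) hz, nrm_zero_fun]
    exact mul_nonneg (hC0 k j l) (apply_nonneg _ _)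
  · push Not at hz
    obtain ⟨x, hx⟩ := hz
    rw [Matrix.mul_assoc, Matrix.mul_apply] at hx
    obtain ⟨p, -, hp⟩ := Finset.exists_ne_zero_of_sum_ne_zero hx
    have h4 := right_ne_zero_of_mul hp
    rw [Matrix.mul_apply] at h4
    obtain ⟨q, -, hq⟩ := Finset.exists_ne_zero_of_sum_ne_zero h4
    have h5 := B.τ_deg i j x p q (left_ne_zero_of_mul hq)
    have h6 := chiP_entry (right_ne_zero_of_mul hq)
    have h7 := hd x k p (left_ne_zero_of_mul hp)
    rw [h5, h6] at h7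
    refine (hC k j l _).trans (mul_le_mul_of_nonneg_left ?_ (hC0 k j l))
    exact (nrm_mono (by omega) _).trans (coordS P B N s u j l)


/-- **independence of the partition** -/
theorem op0_id_part (P' : Part A) (N : ℕ) :
    Op0 (scS P B N) (scS P' B N) (LinearMap.id : Sec B →ₗ[ℂ] Sec B) := by
  classical
  have := Fintype.ofFinite A.ι
  intro s
  choose C hC0 hC using fun i : A.ι => nrm_loc_any P B ((P'.amp_psi B.κ).amp i) N 0
    (fun k => N - B.deg k) (fun x k l h => by rw [psiP_entry h]; omega) s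
  refine ⟨∑ i, Fintype.card B.κ * C i, fun u => ?_⟩
  refine (nrmS_le_sum P' B N s u).trans ?_
  rw [Finset.sum_mul]
  refine Finset.sum_le_sum fun i _ => ?_
  have h1 : ∀ k ∈ (Finset.univ : Finset B.κ),
      nrm (s + (N - B.deg k)) (loc A i (P'.psi B.κ i) (u.1 i) k) ≤ C i * (scS P B N).nrm s u :=
    fun k _ => hC i u k
  refine (Finset.sum_le_sum h1).trans (le_of_eq ?_)
  rw [Finset.sum_const, nsmul_eq_mul, Finset.card_univ, mul_assoc]

end

end

end Crest.Agent.R275.RetC666
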