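import Crest.Agent.R275.NA4j_412_Mg
import Crest.Agent.R275.RetG_666
import Crest.Agent.R275.ScaleD_685
import Crest.Agent.R275.SwLift_763
import Crest.Agent.R275.BrixB_509
import Crest.Agent.R275.EDR_890
import Crest.Agent.R275.MIe_683
import Crest.Agent.R275.LnkP6_476
import Crest.Agent.R275.SymRel_585
import Crest.Agent.R275.ChiM_825
import Crest.Agent.R275.MIi_683

-- ▼ part R275/Kun5_570
section

/-!
R275, PART I', leaf NA0 = XS0 (helper570): the Kunneth theorem, final form.

* `nice_scS`    : the scale `scS P B N` of 666 is equivalent to the chart norms.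
* `kunneth_SC`  : `AA.st = A0.st` for the supercomplexes on `Sec (B.prod B)`, `Sec B`.
* `kunneth_dol` : `(dolL hBB (swLift B)).sc.st = (scB B hB).st`.
-/

set_option autoImplicit false
set_option linter.unusedSectionVars false

open Filter Topology Set Complex
open scoped ContDiff Real Matrix Kronecker

namespace Crest.Agent.R275.Kun570

open Crest.Agent.R275.Tor812 Crest.Agent.R275.TorE812 Crest.Agent.R275.TorS666
open Crest.Agent.R275.Geo Crest.Agent.R275.Prod363 Crest.Agent.R275.C1c193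
open Crest.Agent.R275.Fred685 Crest.Agent.R275.RetC666 Crest.Agent.R275.NA7763
open Crest.Agent.R275.DolG763

noncomputable section

variable {n : ℕ} {M : Type} [TopologicalSpace M] {A : Atl n M}

/-! ### the scale of 666 -/

section scale

theorem cut_smul {κ : Type} [Fintype κ] [DecidableEq κ] {i : A.ι} {a : M → ℂ} (ha : Cut A i a) :
    IsAmp A i (fun x => a x • (1 : Matrix κ κ ℂ)) :=
  amp_of_fun ha.sm ha.cpt ha.sub (m := fun _ => (1 : Matrix κ κ ℂ)) fun _ _ => smAt_const _

theorem loc_eq_La {B : FBun A} {i : A.ι} {a : M → ℂ} (ha : Cut A i a) (k : B.κ) (u : Sec B) :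
    loc A i (fun x => a x • (1 : Matrix B.κ B.κ ℂ)) (u.1 i) k = La B ha k u := by
  rw [C1c193.loc_eq (cut_smul ha) (u.2.1 i)]
  refine pf_congr _ _ (smAt_mul ha.sm (sec_sm u i k)) (ha.cptIn.mul_right _) fun x _ => ?_
  rw [Matrix.smul_mulVec, Matrix.one_mulVec]
  rfl

theorem cut_psi (P : Part A) (i : A.ι) : Cut A i (fun x => (P.ψ i x : ℂ)) := by
  have hs : tsupport (fun x => (P.ψ i x : ℂ)) ⊆ tsupport (P.ψ i) := by
    refine closure_mono fun y hy hy' => hy ?_
    show (P.ψ i y : ℂ) = 0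
    rw [hy', Complex.ofReal_zero]
  refine ⟨?_, (P.ψ_cpt i).of_isClosed_subset (isClosed_tsupport _) hs,
    hs.trans ((P.ψ_sub i).trans (P.χ_sub i))⟩
  exact Complex.ofRealCLM.contDiff.comp_contDiffOn (P.ψ_sm i i)

variable [Finite A.ι] (P : Part A) (B : FBun A) (N : ℕ)

theorem nice_scS : Nice (scS P B N) := by
  classical
  constructor
  · intro s
    have := Fintype.ofFinite A.ι
    refine ⟨Finset.univ, fun i x => (P.ψ i x : ℂ), fun i => cut_psi P i, s + N, 1, zero_le_one,
      fun w => ?_⟩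
    rw [one_mul]
    refine (nrmS_le_sum P B N s w).trans (Finset.sum_le_sum fun i _ =>
      Finset.sum_le_sum fun k _ => ?_)
    have h1 : loc A i (P.psi B.κ i) (w.1 i) k = La B (cut_psi P i) k w :=
      loc_eq_La (cut_psi P i) k w
    rw [h1]
    exact nrm_mono (by omega) _
  · intro i a ha κ s
    obtain ⟨C, hC0, hC⟩ := nrm_loc_any P B (cut_smul (κ := B.κ) ha) N 0 (fun _ => 0)
      (fun _ _ _ _ => Nat.zero_le _) s
    refine ⟨s, C, hC0, fun w => ?_⟩
    have h := hC w κ
    rw [loc_eq_La ha κ w] at h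
    exact h

theorem op0_gam (hN : ∀ k, B.deg k ≤ N) : Op0 (scS P B N) (scS P B N) (gam B) := by
  have h1 : gam B = ∑ q ∈ Finset.range (topDeg B + 1), ((-1 : ℂ) ^ q) • pqL B q := by
    refine LinearMap.ext fun u => ?_
    have h2 : ∀ q, gam B (pqL B q u) = ((-1 : ℂ) ^ q) • pqL B q u := by
      intro q
      refine Subtype.ext (funext fun i => funext fun x => funext fun k => ?_)
      show (-1 : ℂ) ^ B.deg k * pq B q u.1 i x k = (-1 : ℂ) ^ q * pq B q u.1 i x k
      rw [pq_apply]
      split_ifs with h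
      · rw [h]
      · rw [mul_zero, mul_zero]
    have h3 := congrArg (gam B) (pqL_sum (B := B) le_rfl u)
    rw [map_sum] at h3
    rw [← h3]
    simp only [h2, LinearMap.sum_apply, LinearMap.smul_apply]
  rw [h1]
  exact op0_sum _ fun q _ => (op0_pqL P B hN q).smul _

end scale

/-! ### final forms -/

section final

variable [T2Space M] [Finite A.ι]

/-- **Kunneth, supercomplex form** -/
theorem kunneth_SC (P : Part A) (B : FBun A) (A0 : SC ℂ (Sec B)) (h0d : A0.d = nabL B) (h0T : A0.T = gam B)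
    (AA : SC ℂ (Sec (B.prod B))) (hd : AA.d = nabL (B.prod B))
    (hT : AA.T = gam (B.prod B) ∘ₗ swpL B) :
    FiniteDimensional ℂ AA.H ∧ AA.st = A0.st :=
  kunneth_geo (nice_scS P B (topDeg B)) (op0_nabL P B fun k => deg_le_topDeg k)
    (op0_gam P B (topDeg B) fun k => deg_le_topDeg k) (op0_KML P B (topDeg B))
    (neg_htpy P B fun k => deg_le_topDeg k) A0 h0d h0T AA hd hT

end final

section dol

variable {A : Atl 2 M} [T2Space M] [Finite A.ι]

/-- **Kunneth, final form (XS0)** -/
theorem kunneth_dol (P : Part A) (B : FBun A) (hB : ∀ u : Sec B, nabL B (nabL B u) = 0)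
    (hBB : ∀ u : Sec (B.prod B), nabL (B.prod B) (nabL (B.prod B) u) = 0) :
    FiniteDimensional ℂ (dolL hBB (swLift B)).sc.H ∧
      (dolL hBB (swLift B)).sc.st = (Brix509.scB B hB).st :=
  kunneth_SC P B (Brix509.scB B hB) rfl rfl (dolL hBB (swLift B)).sc rfl rfl

end dol

end

end Crest.Agent.R275.Kun570
end

-- ▼ part R275/NoeAsm_890
section

/-!
# R275, Noether assembly, part 1 (helper890)

For helper683's module index `G` on `Sec (lam2 A)` (`σ = 1`, `IsCoh G` = 683's cohesive theorem):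
* `ind_eq`    : `indE P (G.kIndex hσ) E = G.ind (pr P E) 1`;
* `ind_st`    : for an integrable `E : VBun A`, `H^*(M, E)` is finite-dimensional and
                `indE P (G.kIndex hσ) E.sb = st (Sec (tw (lam2 A) E), nab, (-1)^deg)`;
* `e_formula` : `ind 1 - ind Ω¹ + ind K = nerveChi` (block EDR).
-/

set_option autoImplicit false
set_option linter.unusedSectionVars false

open Set Filter Topology Complex
open scoped ContDiff Matrix ComplexConjugate Kronecker

namespace Crest.Agent.R275.NoeAsm890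

open Geo Smf798 KR798 SB798 NA7763 NA6b763 DolG763 Brix509 MI683 Lam2130 EDR890 EDRConc585
open LnkP5476 LnkP6476

noncomputable section

variable {M : Type} [TopologicalSpace M] {A : Atl 2 M} [CompactSpace M]

section index

variable {G : ModSc (smf A) (Sec (lam2 A))} (hσ : ∀ f : smf A, G.σ f = f) (P : Part A)

/-- the index of a bundle in 683's terms -/
theorem ind_eq (E : SB A) : indE P (G.kIndex hσ) E = G.ind (pr P E) 1 := by
  have h0 : pr P E * pr P E = pr P E := pr_idem P E
  have h1 := idem_reindex (Fintype.equivFin _) h0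
  have h2 : (G.kIndex hσ).data.indR (cE P (G.kIndex hσ) E) =
      (G.kIndex hσ).ind (Matrix.reindex (Fintype.equivFin _) (Fintype.equivFin _) (pr P E)) := by
    unfold cE
    rw [(G.kIndex hσ).c_congr h0 h1 (isoM_reindex (Fintype.equivFin _) h0), KIndex.indR_c]
  unfold indE
  rw [h2]
  obtain ⟨a, b, hab, hba⟩ := isoM_reindex (Fintype.equivFin _) h0
  exact (G.ind_iso h0 h1 (G.eqv_one hσ _) (G.eqv_one hσ _) hab hba (G.eqv_one hσ b)).symm

variable (hG : IsCoh G)

include hG in
/-- **index = Euler characteristic** for integrable bundles -/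
theorem ind_st (E : VBun A)
    (hE : ∀ u : Sec (tw (lam2 A) E), nabL (tw (lam2 A) E) (nabL (tw (lam2 A) E) u) = 0) :
    FiniteDimensional ℂ (scB (tw (lam2 A) E) hE).H ∧
      (scB (tw (lam2 A) E) hE).st = ((indE P (G.kIndex hσ) E.sb : ℤ) : ℂ) := by
  obtain ⟨h1, h2⟩ := hG _ (supE P (lam2 A) E (nabL_sq A) hE) (fun _ => le_rfl)
  have h3 : FiniteDimensional ℂ (supE P (lam2 A) E (nabL_sq A) hE).sc.H := h1
  refine ⟨finite_supE P (lam2 A) E (nabL_sq A) hE, ?_⟩
  refine (st_supE P (lam2 A) E (nabL_sq A) hE).trans (h2.trans ?_)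
  rw [ind_eq hσ P]
  congr 2

end index

/-- 509's supercomplex is a Dolbeault supercomplex in the sense of EDR -/
theorem isDol_scB {n : ℕ} {M : Type} [TopologicalSpace M] {A : Atl n M} (B : FBun A)
    (h : ∀ u : Sec B, nabL B (nabL B u) = 0) : IsDol B (scB B h) where
  d _ := rfl
  T _ _ _ _ := rfl

section formula

variable {G : ModSc (smf A) (Sec (lam2 A))} (hσ : ∀ f : smf A, G.σ f = f) (P : Part A)
  (hG : IsCoh G)

/-- holomorphic bundles are integrable -/
theorem flat_tw (E : VBun A) (ha : ∀ i b, ∀ x ∈ (A.e i).source, E.a i b x = 0)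
    (u : Sec (tw (lam2 A) E)) : nabL (tw (lam2 A) E) (nabL (tw (lam2 A) E) u) = 0 :=
  nabL_nabL_tw (fun _ _ _ => rfl) ha u

theorem flat_sym (m : ℕ) (u : Sec (tw (lam2 A) (SymBun585.symV A m))) :
    nabL (tw (lam2 A) (SymBun585.symV A m)) (nabL (tw (lam2 A) (SymBun585.symV A m)) u) = 0 :=
  flat_tw _ (fun _ _ _ _ => rfl) u

theorem flat_om (u : Sec (tw (lam2 A) (OmT75.Om1 A))) :
    nabL (tw (lam2 A) (OmT75.Om1 A)) (nabL (tw (lam2 A) (OmT75.Om1 A)) u) = 0 :=
  flat_tw _ (fun _ _ _ _ => rfl) u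

theorem flat_K (u : Sec (tw (lam2 A) (SymBun585.KV A))) :
    nabL (tw (lam2 A) (SymBun585.KV A)) (nabL (tw (lam2 A) (SymBun585.KV A)) u) = 0 :=
  flat_tw _ (fun _ _ _ _ => rfl) u

theorem indE_sym0 (I : KIndex (smf A)) :
    indE P I (SymBun585.symV A 0).sb = indE P I (SB.one A) := by
  exact congrArg I.data.indR (cE_congr (SymIso585.iso0 (SymBun585.coc A)))

include hG in
/-- **the Euler number of the nerve is `χ(O) - χ(Ω¹) + χ(K)`** -/
theorem e_formula [Fintype A.ι] (hA : GC293.GoodA A) :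
    indE P (G.kIndex hσ) (SB.one A) - indE P (G.kIndex hσ) (OmT75.Om1 A).sb
      + indE P (G.kIndex hσ) (SymBun585.KV A).sb =
      nerveChi (fun i => (A.e i).source) Finset.univ := by
  obtain ⟨f0, s0⟩ := ind_st hσ P hG (SymBun585.symV A 0) (flat_sym 0)
  obtain ⟨f1, s1⟩ := ind_st hσ P hG (OmT75.Om1 A) flat_om
  obtain ⟨f2, s2⟩ := ind_st hσ P hG (SymBun585.KV A) flat_K
  have h := edr' hA P (comp0 A) (comp1 A) (comp2 A) _ _ _ (isDol_scB _ _) (isDol_scB _ _)
    (isDol_scB _ _) f0 f1 f2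
  rw [s0, s1, s2, indE_sym0] at h
  exact_mod_cast h

/-- the index of the trivial bundle -/
theorem indE_one : indE P (G.kIndex hσ) (SB.one A) = G.chi := by
  have h1 : indE P (G.kIndex hσ) (SB.one A) = (G.kIndex hσ).data.indR 1 :=
    congrArg (G.kIndex hσ).data.indR cE_one
  rw [h1, ← (G.kIndex hσ).c_one (n := Fin 1), KR798.KIndex.indR_c]
  show G.ind (1 : Matrix (Fin 1) (Fin 1) (smf A)) 1 = _
  rw [G.ind_one]
  simp


include hG in
theorem st_one : (scB (lam2 A) (nabL_sq A)).st = ((indE P (G.kIndex hσ) (SB.one A) : ℤ) : ℂ) := by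
  rw [indE_one]
  exact hG.st_eq

/-- flatness on the product -/
theorem flat_prod (u : Sec ((lam2 A).prod (lam2 A))) :
    nabL ((lam2 A).prod (lam2 A)) (nabL ((lam2 A).prod (lam2 A)) u) = 0 :=
  nabL_nabL_zero (fun i p _ => by
    show (lam2 A).α i.1 p.1 ⊗ₖ (1 : Matrix (lam2 A).κ (lam2 A).κ ℂ) +
      Prod363.sg (lam2 A).deg ⊗ₖ (lam2 A).α i.2 p.2 = 0
    have h1 : (lam2 A).α i.1 p.1 = 0 := rfl
    have h2 : (lam2 A).α i.2 p.2 = 0 := rfl
    rw [h1, h2, Matrix.zero_kronecker, Matrix.kronecker_zero, add_zero]) u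

open ChiM825 NA8759 in
include hG in
/-- **Noether's formula** (field `noether` of 825's `CMData`, `e` = Euler number of the nerve) -/
theorem noether [T2Space M] [Fintype A.ι] (hA : GC293.GoodA A) (PP : Part (A.prod A))
    (Ix : SInd (EE (lam2 A) flat_prod))
    (h4 : ∀ m, FiniteDimensional ℂ (SS PP (lam2 A) flat_prod m).H →
      FiniteDimensional ℂ (SS PP (lam2 A) flat_prod (m + 1)).H →
      (SS PP (lam2 A) flat_prod m).st - (SS PP (lam2 A) flat_prod (m + 1)).st =
        (-1) ^ m * (dolP (flat_sym (A := A) m)).sc.st)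
    (hK : chiL P (G.kIndex hσ) (slb (Core144.KB A)) = chiL P (G.kIndex hσ) (GC293.SLB.triv A)) :
    12 * chiL P (G.kIndex hσ) (GC293.SLB.triv A) =
      bL P (G.kIndex hσ) (slb (Core144.KB A)) (slb (Core144.KB A)) +
        nerveChi (fun i => (A.e i).source) Finset.univ := by
  refine noether_cm P PP (G.kIndex hσ) (lam2 A) flat_prod Ix
    (fun m => (dolP (flat_sym (A := A) m)).sc.st) ?_ h4 ?_ hK _ ?_
  · rw [← st_one hσ P hG]
    exact (Kun570.kunneth_dol P (lam2 A) (nabL_sq A) flat_prod).2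
  · intro m
    exact (ind_st hσ P hG (SymBun585.symV A m) (flat_sym m)).2
  · have h1 : chiL P (G.kIndex hσ) (GC293.SLB.triv A) = indE P (G.kIndex hσ) (SB.one A) := by
      rw [chiL_def, indE, indE, cE_congr isoOne]
    have h2 : chiL P (G.kIndex hσ) (slb (Core144.KB A)) =
        indE P (G.kIndex hσ) (SymBun585.KV A).sb := by
      rw [chiL_def, indE, indE, cE_congr isoKV]
    rw [h1, h2, e_formula hσ P hG hA]

open ChiM825 Core144 Q74 in
/-- Serre duality for the index, from 825's fields `euler`, `serre0`, `serre1` -/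
theorem hK_of {I : KIndex (smf A)} (euler : ∀ L : LB A, chiL P I (slb L) = chiE (isLC L))
    (serre0 : ∀ L : LB A, hq 2 L = hq 0 (Core144.KB A * L⁻¹))
    (serre1 : ∀ L : LB A, hq 1 L = hq 1 (Core144.KB A * L⁻¹)) :
    chiL P I (slb (Core144.KB A)) = chiL P I (GC293.SLB.triv A) := by
  have h := serre_chi serre0 serre1 (1 : LB A)
  rw [inv_one, mul_one] at h
  rw [← slb_one, euler, euler, h]


end formula

end

end Crest.Agent.R275.NoeAsm890
end

-- ▼ part R275/NoeFin_890

/-!
# R275, Noether's formula, final form (helper890)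

`noether_geo`: 825's field `CMData.noether` for helper683's geometric index `geoI P' _`, for every
compact Hausdorff `M` with a finite good atlas; inputs: acyclicity `Hac` (783), swap `Hsw` (585),
Serre duality.
-/

set_option autoImplicit false
set_option linter.unusedSectionVars false

open Set Filter Topology Complex
open scoped ContDiff Matrix ComplexConjugate Kronecker

namespace Crest.Agent.R275.NoeFin890

open Geo Smf798 KR798 SB798 NA7763 NA6b763 DolG763 Brix509 MI683 Lam2130 EDR890 EDRConc585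
open LnkP5476 LnkP6476 NoeAsm890 Prod363 NA4783 NA8759

noncomputable section

variable {M : Type} [TopologicalSpace M] [T2Space M] [CompactSpace M]

/-- 783's acyclicity, in the form used by 476 -/
def Hac (A : Atl 2 M) : Prop :=
  ∀ (m q : ℕ) (w : Fm (BB A) m), IsDeg (BB A) q w.1.1 → rho A m w = 0 →
    nabL (BB A) w.1 ∈ Fm (BB A) (m + 1) → ∃ v : Fm (BB A) m, rho A m v = 0 ∧
      w.1 - nabL (BB A) v.1 ∈ Fm (BB A) (m + 1)

/-- 585's swap rule, in the form used by 476 -/
def Hsw (A : Atl 2 M) : Prop :=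
  ∀ (m : ℕ) (w : Fm (BB A) m) (hw : (swpL (lam2 A) w.1 : Sec (BB A)) ∈ Fm (BB A) m),
    rho A m ⟨swpL (lam2 A) w.1, hw⟩ = ((-1 : ℂ) ^ m) • rho A m w

variable {A : Atl 2 M}

theorem noether_geo [Fintype A.ι] (hA : GC293.GoodA A) (P P' : Part A) (hac : Hac A)
    (hsw : Hsw A)
    (hK : ChiM825.chiL P (geoI P' (nabL_sq A)) (ChiM825.slb (Core144.KB A)) =
      ChiM825.chiL P (geoI P' (nabL_sq A)) (GC293.SLB.triv A)) :
    12 * ChiM825.chiL P (geoI P' (nabL_sq A)) (GC293.SLB.triv A) =
      ChiM825.bL P (geoI P' (nabL_sq A)) (ChiM825.slb (Core144.KB A))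
        (ChiM825.slb (Core144.KB A)) + nerveChi (fun i => (A.e i).source) Finset.univ := by
  refine noether (gmodP_σ P' (nabL_sq A)) P (isCoh_geo P') hA (P.prod P)
    (sindSw P flat_prod) (fun m _ _ => ?_) hK
  exact (NA4U476.graded_all (P.prod P) flat_prod flat_sym (EE_s (lam2 A) flat_prod)
    (EE_cond (P.prod P) (lam2 A) flat_prod) (sindSw P flat_prod) hac
    (fun m => NA4j412.rho_surj) hsw m).2

open ChiM825 Core144 Q74 in
/-- the same with 825's fields `euler`, `serre0`, `serre1` -/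
theorem noether_geo' [Fintype A.ι] (hA : GC293.GoodA A) (P P' : Part A) (hac : Hac A)
    (hsw : Hsw A)
    (euler : ∀ L : LB A, chiL P (geoI P' (nabL_sq A)) (slb L) = chiE (isLC L))
    (serre0 : ∀ L : LB A, hq 2 L = hq 0 (Core144.KB A * L⁻¹))
    (serre1 : ∀ L : LB A, hq 1 L = hq 1 (Core144.KB A * L⁻¹)) :
    12 * chiL P (geoI P' (nabL_sq A)) (GC293.SLB.triv A) =
      bL P (geoI P' (nabL_sq A)) (slb (Core144.KB A)) (slb (Core144.KB A)) +
        nerveChi (fun i => (A.e i).source) Finset.univ :=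
  noether_geo hA P P' hac hsw (hK_of P euler serre0 serre1)

end

end Crest.Agent.R275.NoeFin890
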