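import Mathlib
import Crest.Agent.R275.FLm_606
import Crest.Agent.R275.NormE_884

-- ▼ part R275/FLn_606
section

/-!
R275 (S0418), helper606: flux lemma, part n.
The original form: there is no sequence of functions on the `ℤ`-cover with uniformly almost psh
logarithms which decay faster and faster at both ends.
-/

set_option autoImplicit false
set_option linter.unusedSectionVars false

open MeasureTheory Set Metric Filter Topology
open scoped ENNReal

noncomputable section

namespace Crest.Agent.R275.FL606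

section sup

variable {Y : Type*} [TopologicalSpace Y] [MeasurableSpace Y] [BorelSpace Y] {g : Y ≃ₜ Y}
  {h : Y → ℝ} {F : Y → ℝ}

/-- the translates of `F` with exponential weights -/
def trs (g : Y ≃ₜ Y) (F : Y → ℝ) (s : ℝ) (n : ℤ) (y : Y) : ℝ := Real.exp (s * n) * F ((g ^ n) y)

/-- the supremum of the translates -/
def supT (g : Y ≃ₜ Y) (F : Y → ℝ) (s : ℝ) (y : Y) : ℝ := ⨆ n : ℤ, trs g F s n y

lemma h_zpow (hg : ∀ y, h (g y) = h y - 1) (n : ℤ) (y : Y) : h ((g ^ n) y) = h y - n := by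
  have := add_zpow (g := g) (f := h) (s := -1) (fun y => by rw [hg]; ring) n y
  rw [this]; ring

lemma trs_nonneg (hF0 : ∀ y, 0 ≤ F y) (s : ℝ) (n : ℤ) (y : Y) : 0 ≤ trs g F s n y :=
  mul_nonneg (Real.exp_pos _).le (hF0 _)

lemma trs_le (hg : ∀ y, h (g y) = h y - 1) {K Λ : ℝ} (hK : 0 ≤ K)
    (hF : ∀ y, F y ≤ K * Real.exp (-(Λ * |h y|))) (s : ℝ) (n : ℤ) (y : Y) :
    trs g F s n y ≤ K * Real.exp (s * h y) * Real.exp (-((Λ - |s|) * |h y - n|)) := by
  unfold trs
  have h1 := hF ((g ^ n) y)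
  rw [h_zpow hg] at h1
  have h2 : s * n ≤ s * h y + |s| * |h y - n| := by
    have h3 : s * (n - h y) ≤ |s| * |h y - n| := by
      rw [abs_sub_comm, ← abs_mul]; exact le_abs_self _
    linarith
  calc Real.exp (s * n) * F ((g ^ n) y) ≤ Real.exp (s * n) * (K * Real.exp (-(Λ * |h y - n|))) := by
        gcongr
    _ ≤ Real.exp (s * h y + |s| * |h y - n|) * (K * Real.exp (-(Λ * |h y - n|))) := by
        gcongr
    _ = K * Real.exp (s * h y) * Real.exp (-((Λ - |s|) * |h y - n|)) := by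
        rw [Real.exp_add]
        have : Real.exp (-((Λ - |s|) * |h y - n|)) =
            Real.exp (|s| * |h y - n|) * Real.exp (-(Λ * |h y - n|)) := by
          rw [← Real.exp_add]; congr 1; ring
        rw [this]; ring

lemma trs_le' (hg : ∀ y, h (g y) = h y - 1) {K Λ : ℝ} (hK : 0 ≤ K)
    (hF : ∀ y, F y ≤ K * Real.exp (-(Λ * |h y|))) {s : ℝ} (hs : |s| ≤ Λ) (n : ℤ) (y : Y) :
    trs g F s n y ≤ K * Real.exp (s * h y) := by
  refine (trs_le hg hK hF s n y).trans ?_
  have : Real.exp (-((Λ - |s|) * |h y - n|)) ≤ 1 := by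
    rw [Real.exp_le_one_iff]
    have : 0 ≤ (Λ - |s|) * |h y - n| := mul_nonneg (by linarith) (abs_nonneg _)
    linarith
  have h0 : 0 ≤ K * Real.exp (s * h y) := by positivity
  nlinarith

lemma trs_bdd (hg : ∀ y, h (g y) = h y - 1) {K Λ : ℝ} (hK : 0 ≤ K)
    (hF : ∀ y, F y ≤ K * Real.exp (-(Λ * |h y|))) {s : ℝ} (hs : |s| ≤ Λ) (y : Y) :
    BddAbove (range fun n : ℤ => trs g F s n y) := by
  refine ⟨K * Real.exp (s * h y), ?_⟩
  rintro _ ⟨n, rfl⟩
  exact trs_le' hg hK hF hs n y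


lemma le_supT (hg : ∀ y, h (g y) = h y - 1) {K Λ : ℝ} (hK : 0 ≤ K)
    (hF : ∀ y, F y ≤ K * Real.exp (-(Λ * |h y|))) {s : ℝ} (hs : |s| ≤ Λ) (n : ℤ) (y : Y) :
    trs g F s n y ≤ supT g F s y := le_ciSup (trs_bdd hg hK hF hs y) n

lemma le_supT_zero (hg : ∀ y, h (g y) = h y - 1) {K Λ : ℝ} (hK : 0 ≤ K)
    (hF : ∀ y, F y ≤ K * Real.exp (-(Λ * |h y|))) {s : ℝ} (hs : |s| ≤ Λ) (y : Y) :
    F y ≤ supT g F s y := by
  have := le_supT hg hK hF hs 0 y
  simpa [trs] using this

lemma supT_g (s : ℝ) (y : Y) : supT g F s (g y) = Real.exp (-s) * supT g F s y := by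
  unfold supT
  rw [Real.mul_iSup_of_nonneg (Real.exp_pos _).le]
  rw [← (Equiv.addRight (1:ℤ)).iSup_comp (g := fun n : ℤ => Real.exp (-s) * trs g F s n y)]
  congr 1
  funext n
  simp only [trs, Equiv.coe_addRight]
  have h1 : (g ^ (n + 1)) y = (g ^ n) (g y) := by
    rw [zpow_add, zpow_one]; rfl
  rw [h1, ← mul_assoc, ← Real.exp_add]
  congr 2
  push_cast
  ring

/-- the supremum of the translates is continuous -/
theorem continuous_supT (hc : Continuous h) (hg : ∀ y, h (g y) = h y - 1) {K Λ : ℝ} (hK : 0 ≤ K)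
    (hFc : Continuous F) (hF0 : ∀ y, 0 ≤ F y)
    (hF : ∀ y, F y ≤ K * Real.exp (-(Λ * |h y|))) {s : ℝ} (hs : |s| < Λ) :
    Continuous (supT g F s) := by
  have htc : ∀ n : ℤ, Continuous (trs g F s n) := fun n =>
    continuous_const.mul (hFc.comp (g ^ n).continuous)
  rw [continuous_iff_continuousAt]
  intro y₀
  refine continuousAt_of_locally_uniform_approx_of_continuousAt ?_
  intro u hu
  obtain ⟨ε, hε, hεu⟩ := Metric.mem_uniformity_dist.1 hu
  set H : ℝ := |h y₀| with hH
  set D : ℝ := K * Real.exp (|s| * (H + 1)) with hD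
  set δ : ℝ := Λ - |s| with hδ
  have hδ0 : 0 < δ := by linarith
  have hlim : Tendsto (fun M : ℕ => D * Real.exp (-(δ * ((M:ℝ) - (H + 1))))) atTop (𝓝 (D * 0)) := by
    refine Tendsto.const_mul D (Real.tendsto_exp_atBot.comp ?_)
    refine tendsto_neg_atTop_atBot.comp (Tendsto.const_mul_atTop hδ0 ?_)
    exact tendsto_atTop_add_const_right _ _ tendsto_natCast_atTop_atTop
  rw [mul_zero] at hlim
  obtain ⟨M, hM⟩ := (hlim.eventually (gt_mem_nhds hε)).exists
  set I : Finset ℤ := Finset.Icc (-(M:ℤ)) M with hI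
  have hIne : I.Nonempty := ⟨0, by simp [hI]⟩
  set G : Y → ℝ := fun y => I.sup' hIne (fun n => trs g F s n y) with hG
  have hGc : Continuous G := by
    have := Continuous.finset_sup'_apply hIne (f := fun n y => trs g F s n y)
      (fun n _ => htc n)
    exact this
  set W : Set Y := {y | |h y - h y₀| < 1} with hW
  have hWn : W ∈ 𝓝 y₀ := by
    have : Continuous fun y => |h y - h y₀| := (hc.sub continuous_const).abs
    exact (this.isOpen_preimage _ isOpen_Iio).mem_nhds (by simp)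
  refine ⟨W, hWn, G, hGc.continuousAt, fun y hy => hεu ?_⟩
  have hyW : |h y - h y₀| < 1 := hy
  have hhy : |h y| ≤ H + 1 := by
    have := abs_sub_abs_le_abs_sub (h y) (h y₀)
    linarith
  have h1 : G y ≤ supT g F s y := by
    refine Finset.sup'_le hIne _ fun n _ => ?_
    exact le_supT hg hK hF hs.le n y
  have hG0 : 0 ≤ G y := (trs_nonneg hF0 s 0 y).trans
    (Finset.le_sup' (fun n => trs g F s n y) (by simp [hI]))
  have h2 : ∀ n : ℤ, trs g F s n y ≤ max (G y) (D * Real.exp (-(δ * ((M:ℝ) - (H + 1))))) := by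
    intro n
    by_cases hn : n ∈ I
    · exact (Finset.le_sup' (fun n => trs g F s n y) hn).trans (le_max_left _ _)
    · refine le_trans ?_ (le_max_right _ _)
      refine (trs_le hg hK hF s n y).trans ?_
      have hn' : (M:ℝ) ≤ |(n:ℝ)| := by
        by_contra hlt
        push Not at hlt
        apply hn
        rw [hI, Finset.mem_Icc]
        have h3 : |n| < (M:ℤ) := by exact_mod_cast hlt
        have h4 := abs_lt.1 h3
        exact ⟨h4.1.le, h4.2.le⟩
      have h5 : (M:ℝ) - (H + 1) ≤ |h y - n| := by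
        have h6 : |(n:ℝ)| ≤ |h y - n| + |h y| := by
          have h7 : (n:ℝ) = -(h y - n) + h y := by ring
          calc |(n:ℝ)| = |-(h y - n) + h y| := by rw [← h7]
            _ ≤ |-(h y - n)| + |h y| := abs_add_le _ _
            _ = _ := by rw [abs_neg]
        linarith
      have h8 : s * h y ≤ |s| * (H + 1) := by
        calc s * h y ≤ |s * h y| := le_abs_self _
          _ = |s| * |h y| := abs_mul _ _
          _ ≤ _ := by gcongr
      rw [hD]
      gcongr
  have h3 : supT g F s y ≤ G y + D * Real.exp (-(δ * ((M:ℝ) - (H + 1)))) := by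
    refine (ciSup_le h2).trans (max_le ?_ ?_)
    · have : 0 ≤ D * Real.exp (-(δ * ((M:ℝ) - (H + 1)))) := by positivity
      linarith
    · linarith
  rw [Real.dist_eq, abs_of_nonneg (by linarith)]
  linarith

end sup

section final

variable {E : Type*} [NormedAddCommGroup E] [InnerProductSpace ℂ E] [MeasurableSpace E]
  [BorelSpace E] [FiniteDimensional ℝ E]
  {Y : Type} [TopologicalSpace Y] [MeasurableSpace Y] [BorelSpace Y] [PreconnectedSpace Y]
  {ι : Type} [Finite ι] {g : Y ≃ₜ Y} (C : Cov E g ι) {h : Y → ℝ} {G C₀ : ℝ}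

/-- almost psh bounds for the supremum of the translates -/
lemma logSM_supT (hg : ∀ y, h (g y) = h y - 1) {Γ : ℝ}
    (hΓ : ∀ i, ∀ z ∈ ball (0:E) 16, |h (C.p i z)| ≤ Γ)
    {K Λ : ℝ} (hK : 0 ≤ K) {F : Y → ℝ} (hFm : Measurable F)
    (hF : ∀ y, F y ≤ K * Real.exp (-(Λ * |h y|))) {s : ℝ} (hs : |s| ≤ Λ) {c : ℝ}
    (i : ι) (hFs : ∀ n : ℤ, LogSM c (fun z => F ((g ^ n) (C.p i z))) (ball 0 16)) :
    LogSM c (fun z => supT g F s (C.p i z)) (ball 0 16) := by
  have hΓ0 : 0 ≤ Γ := (abs_nonneg _).trans (hΓ i 0 (by simp))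
  have hm : ∀ n : ℤ, Measurable (fun z : E => F ((g ^ n) (C.p i z))) := fun n =>
    hFm.comp ((g ^ n).continuous.measurable.comp (C.meas i))
  have hFK : ∀ y, F y ≤ K + 1 := by
    intro y
    refine (hF y).trans ?_
    have : Real.exp (-(Λ * |h y|)) ≤ 1 := by
      rw [Real.exp_le_one_iff]
      have : 0 ≤ Λ * |h y| := mul_nonneg ((abs_nonneg s).trans hs) (abs_nonneg _)
      linarith
    nlinarith
  refine LogSM.iSup (f := fun (n : ℤ) z => trs g F s n (C.p i z)) ?_
    (M := Real.log (K * Real.exp (|s| * Γ) + 1)) ?_ ?_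
  · intro n
    exact (hm n).const_mul _
  · intro n z hz
    rw [Real.exp_log (by positivity)]
    refine (trs_le' hg hK hF hs n _).trans ?_
    have h1 : s * h (C.p i z) ≤ |s| * Γ := by
      calc s * h (C.p i z) ≤ |s * h (C.p i z)| := le_abs_self _
        _ = |s| * |h (C.p i z)| := abs_mul _ _
        _ ≤ _ := by gcongr; exact hΓ i z hz
    have h2 : K * Real.exp (s * h (C.p i z)) ≤ K * Real.exp (|s| * Γ) := by gcongr
    linarith
  · intro n
    refine LogSM.const_mul (hm n) (M := Real.log (K + 1)) ?_ (hFs n) (Real.exp_pos _)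
    intro z _
    rw [Real.exp_log (by positivity)]
    exact hFK _

/-- a decaying function gives a step -/
theorem exists_step_of_decay (hc : Continuous h) (hg : ∀ y, h (g y) = h y - 1)
    (hslab : ∀ a b : ℝ, IsCompact {y | a ≤ h y ∧ h y ≤ b}) {Γ : ℝ}
    (hΓ : ∀ i, ∀ z ∈ ball (0:E) 16, |h (C.p i z)| ≤ Γ)
    {c a K : ℝ} (hc0 : 0 ≤ c) (ha : 0 < a) {F : Y → ℝ} (hFc : Continuous F)
    (hF0 : ∀ y, 0 ≤ F y) (hne : ∃ y, F y ≠ 0)
    (hF : ∀ y, F y ≤ K * Real.exp (-(2 * a * |h y|)))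
    (hFs : ∀ i, ∀ n : ℤ, LogSM c (fun z => F ((g ^ n) (C.p i z))) (ball 0 16)) :
    Nonempty (Step C h (c / a) 0) := by
  obtain ⟨y₁, hy₁⟩ := hne
  have hK : 0 ≤ K := by
    have h1 := (hF0 y₁).trans (hF y₁)
    exact nonneg_of_mul_nonneg_left h1 (Real.exp_pos _)
  have hs1 : |a| < 2 * a := by rw [abs_of_pos ha]; linarith
  have hs2 : |-a| < 2 * a := by rw [abs_neg]; exact hs1
  have hpos : 0 < F y₁ := lt_of_le_of_ne (hF0 _) (Ne.symm hy₁)
  have h1 := NegS908.exists_step C hc hg hslab hΓ hc0 ha ha (F := supT g F a)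
    (H := supT g F (-a))
    (continuous_supT hc hg hK hFc hF0 hF hs1) (continuous_supT hc hg hK hFc hF0 hF hs2)
    (fun y => (hF0 y).trans (le_supT_zero hg hK hF hs1.le y))
    (fun y => (hF0 y).trans (le_supT_zero hg hK hF hs2.le y))
    (fun y => supT_g a y) (fun y => by rw [supT_g, neg_neg])
    (fun i => logSM_supT C hg hΓ hK hFc.measurable hF hs1.le i (hFs i))
    (fun i => logSM_supT C hg hΓ hK hFc.measurable hF hs2.le i (hFs i))
    ⟨y₁, (mul_pos (hpos.trans_le (le_supT_zero hg hK hF hs1.le y₁))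
      (hpos.trans_le (le_supT_zero hg hK hF hs2.le y₁))).ne'⟩
  rwa [min_self] at h1

/-- **Flux lemma, original form**: no sequence of nonzero functions with uniformly almost psh
logarithms (on all translates of the charts) with `F N ≤ K N * exp (- Λ N * |h|)`, `Λ N → ∞`. -/
theorem no_decay (hH : Height C h G C₀) (hB : B1Prop Y g) (hc : Continuous h)
    (hslab : ∀ a b : ℝ, IsCompact {y | a ≤ h y ∧ h y ≤ b}) {c : ℝ} (hc0 : 0 ≤ c)
    {Λ K : ℕ → ℝ} (hΛ : Tendsto Λ atTop atTop) {F : ℕ → Y → ℝ}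
    (hFc : ∀ N, Continuous (F N)) (hF0 : ∀ N y, 0 ≤ F N y) (hne : ∀ N, ∃ y, F N y ≠ 0)
    (hF : ∀ N y, F N y ≤ K N * Real.exp (-(Λ N * |h y|)))
    (hFs : ∀ N i, ∀ n : ℤ, LogSM c (fun z => F N ((g ^ n) (C.p i z))) (ball 0 16)) : False := by
  have h1 : ∀ k : ℕ, ∃ N, ((k:ℝ) + 1) ≤ Λ N := fun k => (hΛ.eventually_ge_atTop _).exists
  choose N hN using h1
  have hstep : ∀ k : ℕ, Nonempty (Step C h (c / (((k:ℝ) + 1) / 2)) 0) := by
    intro k
    have hKn : 0 ≤ K (N k) := by
      obtain ⟨y, hy⟩ := hne (N k)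
      exact nonneg_of_mul_nonneg_left ((hF0 _ y).trans (hF _ y)) (Real.exp_pos _)
    refine exists_step_of_decay C hc hH.add hslab hH.bound hc0 (by positivity) (hFc (N k))
      (hF0 (N k)) (hne (N k)) (K := K (N k)) ?_ (hFs (N k))
    intro y
    refine (hF (N k) y).trans ?_
    have h2 : 2 * (((k:ℝ) + 1) / 2) * |h y| ≤ Λ (N k) * |h y| := by
      have := hN k
      have h3 : 2 * (((k:ℝ) + 1) / 2) = (k:ℝ) + 1 := by ring
      rw [h3]
      gcongr
    gcongr
  refine no_steps C hH hB (ε := fun k : ℕ => c / (((k:ℝ) + 1) / 2)) (η := fun _ => 0)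
    (fun k => (hstep k).some) (fun k => by positivity) ?_ tendsto_const_nhds
  have h2 : Tendsto (fun k : ℕ => ((k:ℝ) + 1) / 2) atTop atTop :=
    (tendsto_atTop_add_const_right _ _ tendsto_natCast_atTop_atTop).atTop_div_const (by norm_num)
  exact h2.const_div_atTop c


end final

end Crest.Agent.R275.FL606
end
end

-- ▼ part R275/LargeEndA_884
section

/-!
R275 / S0418: the LARGE end, part A: classes of functions, density of the nonvanishing set.
-/

set_option autoImplicit false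
set_option linter.unusedSectionVars false
set_option linter.style.haveILetI false

open MeasureTheory Set Filter Topology Metric Crest.AlgGeometry.Surface
open Crest.Agent.R275.FL606 Crest.Agent.R275.HolY631 Crest.Agent.R275.HolL631
open scoped Real Manifold ContDiff

namespace Crest.Agent.R275.FL884

/-! ### a function with the sub-mean value property does not vanish on an open set -/

/-- a function with `LogSM` which is positive at the centre of a disc cannot vanish near a point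
of the boundary circle -/
lemma LogSM.not_eventually_zero {E : Type*} [NormedAddCommGroup E] [NormedSpace ℂ E]
    [MeasurableSpace E] [BorelSpace E] {c : ℝ} {u : E → ℝ} {B : Set E} (hu : LogSM c u B)
    (hm : Measurable u) {M : ℝ} (hM : ∀ z ∈ B, u z ≤ Real.exp M) {z v : E}
    (hd : ∀ w : ℂ, ‖w‖ ≤ 1 → z + w • v ∈ B) (hz : 0 < u z)
    (hv : ∀ᶠ x in 𝓝 (z + v), u x = 0) : False := by
  set M' : ℝ := max M 0 with hM'
  have hM'0 : 0 ≤ M' := le_max_right _ _
  have hM1 : ∀ z ∈ B, u z ≤ Real.exp M' := fun z hz =>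
    (hM z hz).trans (Real.exp_le_exp.2 (le_max_left _ _))
  set A : Set ℝ := {θ | u (z + ang θ • v) = 0} with hA
  have hAm : MeasurableSet A := (measurable_circ hm z v) (measurableSet_singleton 0)
  -- `A` has positive measure
  have hApos : 0 < circ.real A := by
    have hcont : ContinuousAt (fun θ : ℝ => z + ang θ • v) 0 := by
      have := continuous_ang
      fun_prop
    have h0 : z + ang 0 • v = z + v := by simp [ang]
    have h1 : ∀ᶠ θ in 𝓝 (0 : ℝ), u (z + ang θ • v) = 0 := by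
      have : Tendsto (fun θ : ℝ => z + ang θ • v) (𝓝 0) (𝓝 (z + v)) := by
        rw [← h0]; exact hcont
      exact this.eventually hv
    obtain ⟨δ, hδ, hδB⟩ := Metric.eventually_nhds_iff.1 h1
    set δ' : ℝ := min δ (2 * π) with hδ'
    have hδ'0 : 0 < δ' := lt_min hδ (by positivity)
    have hsub : Ioo 0 δ' ⊆ A := by
      intro θ hθ
      apply hδB
      rw [Real.dist_eq, sub_zero, abs_of_pos hθ.1]
      exact hθ.2.trans_le (min_le_left _ _)
    have h2 : 0 < circ A := by
      refine lt_of_lt_of_le ?_ (measure_mono hsub)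
      rw [circ, Measure.smul_apply, Measure.restrict_apply measurableSet_Ioo]
      have h3 : Ioo 0 δ' ∩ Ioc 0 (2 * π) = Ioo 0 δ' := by
        apply inter_eq_left.2
        intro θ hθ
        exact ⟨hθ.1, hθ.2.le.trans (min_le_right _ _)⟩
      rw [h3, Real.volume_Ioo, sub_zero, smul_eq_mul]
      exact ENNReal.mul_pos (ENNReal.inv_ne_zero.2 ENNReal.ofReal_ne_top)
        (by simpa using hδ'0)
    exact ENNReal.toReal_pos h2.ne' (measure_ne_top _ _)
  -- the main inequality
  have key : ∀ T : ℝ, 0 ≤ T → Real.log (u z) ≤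
      M' - (T + M') * circ.real A + c * ‖v‖ ^ 2 := by
    intro T hT
    have h1 := (hu.sm T).le hd
    have h2 := log_le_tlog (T := T) hz
    have h3 : av (fun z => tlog T (u z)) z v ≤ M' - (T + M') * circ.real A := by
      unfold av
      have hi1 : Integrable (fun θ => tlog T (u (z + ang θ • v))) circ :=
        integrable_circ (B := B) (K := |T| + |M'|) (u := fun z => tlog T (u z))
          ((measurable_tlog T).comp hm) (fun z hz => abs_tlog_le (hM1 z hz)) hd
      have hi2 : Integrable (A.indicator fun _ => (T + M')) circ :=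
        (integrable_const _).indicator hAm
      have hi3 : Integrable (fun θ => M' - A.indicator (fun _ => (T + M')) θ) circ :=
        (integrable_const _).sub hi2
      have h4 := integral_mono hi1 hi3 (fun θ => ?_)
      · rw [integral_sub (integrable_const _) hi2, integral_indicator hAm] at h4
        simp only [integral_const, probReal_univ, smul_eq_mul,
          MeasureTheory.measureReal_restrict_apply_univ] at h4
        linarith
      · by_cases hθ : θ ∈ A
        · simp only [indicator_of_mem hθ]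
          have h5 : u (z + ang θ • v) = 0 := hθ
          rw [h5, tlog_of_le (Real.exp_pos _).le]
          linarith
        · simp only [indicator_of_notMem hθ, sub_zero]
          rw [tlog_le_iff]
          exact ⟨hM1 _ (disc_ang hd θ), by linarith⟩
    linarith
  -- let `T → ∞`
  set m := circ.real A with hmdef
  have hT := key (max 0 ((M' + c * ‖v‖ ^ 2 - Real.log (u z)) / m + 1)) (le_max_left _ _)
  have h5 : (M' + c * ‖v‖ ^ 2 - Real.log (u z)) / m + 1 ≤
      max 0 ((M' + c * ‖v‖ ^ 2 - Real.log (u z)) / m + 1) := le_max_right _ _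
  set T := max 0 ((M' + c * ‖v‖ ^ 2 - Real.log (u z)) / m + 1)
  have h6 : M' + c * ‖v‖ ^ 2 - Real.log (u z) < T * m := by
    have h7 : (M' + c * ‖v‖ ^ 2 - Real.log (u z)) / m < T := by linarith
    exact (div_lt_iff₀ hApos).1 h7
  have h8 : 0 ≤ M' * m := by positivity
  nlinarith

variable {Y : Type} [TopologicalSpace Y] [ChartedSpace C2 Y] [MeasurableSpace Y] [BorelSpace Y]
  {g : Y ≃ₜ Y} {h : Y → ℝ}

/-- uniform sub-mean value property along all small holomorphic boxes and their translates -/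
def QP (g : Y ≃ₜ Y) (F : Y → ℝ) (c : ℝ) (W : Y → Set Y) : Prop :=
  ∀ (n : ℤ) (p : C2 → Y), ContMDiffOn 𝓘(ℂ, C2) 𝓘(ℂ, C2) 1 p (ball 0 17) → Measurable p →
    (∃ x, MapsTo p (ball 0 17) (W x)) → LogSM c (fun z => F ((g ^ n) (p z))) (ball 0 16)

lemma bdd_box {F : Y → ℝ} (hF : Continuous F) (n : ℤ) {p : C2 → Y}
    (hp : ContinuousOn p (ball 0 17)) :
    ∃ M : ℝ, ∀ z ∈ ball (0 : C2) 16, F ((g ^ n) (p z)) ≤ Real.exp M := by
  have hsub : closedBall (0 : C2) 16 ⊆ ball 0 17 := closedBall_subset_ball (by norm_num)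
  obtain ⟨M, hM⟩ := (isCompact_closedBall (0 : C2) 16).exists_bound_of_continuousOn
    (f := fun z => F ((g ^ n) (p z)))
    ((hF.comp (g ^ n).continuous).comp_continuousOn (hp.mono hsub))
  refine ⟨M, fun z hz => ?_⟩
  have h1 := (le_abs_self _).trans (hM z (ball_subset_closedBall hz))
  linarith [Real.add_one_le_exp M]

lemma QP.mul {F F' : Y → ℝ} {c c' : ℝ} {W W' : Y → Set Y} (hc : 0 ≤ c) (hc' : 0 ≤ c')
    (hF : Continuous F) (hF' : Continuous F') (hF0 : ∀ y, 0 ≤ F y) (hF0' : ∀ y, 0 ≤ F' y)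
    (h1 : QP g F c W) (h2 : QP g F' c' W') :
    QP g (fun y => F y * F' y) (c + c') (fun y => W y ∩ W' y) := by
  rintro n p hp hpm ⟨x, hx⟩
  obtain ⟨M, hM⟩ := bdd_box (g := g) hF n hp.continuousOn
  obtain ⟨M', hM'⟩ := bdd_box (g := g) hF' n hp.continuousOn
  exact LogSM.mul hc hc' ((hF.comp (g ^ n).continuous).measurable.comp hpm)
    ((hF'.comp (g ^ n).continuous).measurable.comp hpm) (fun z _ => hF0 _) (fun z _ => hF0' _)
    hM hM' (h1 n p hp hpm ⟨x, fun z hz => (hx hz).1⟩) (h2 n p hp hpm ⟨x, fun z hz => (hx hz).2⟩)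

lemma QP.mono {F : Y → ℝ} {c c' : ℝ} {W W' : Y → Set Y} (h1 : QP g F c W) (hc : c ≤ c')
    (hW : ∀ y, W' y ⊆ W y) : QP g F c' W' := by
  rintro n p hp hpm ⟨x, hx⟩
  exact (h1 n p hp hpm ⟨x, hx.mono_right (hW x)⟩).mono_eps hc

lemma QP.symm {F : Y → ℝ} {c : ℝ} {W : Y → Set Y} (h1 : QP g F c W) : QP g.symm F c W := by
  intro n p hp hpm hx
  have h2 := h1 (-n) p hp hpm hx
  have h3 : (g ^ (-n) : Y ≃ₜ Y) = g.symm ^ n := by
    have : g.symm = g⁻¹ := rfl
    rw [this, _root_.inv_zpow, zpow_neg]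
  rwa [h3] at h2

/-- powers of the modulus of a holomorphic function -/
lemma QP.of_hol [IsManifold 𝓘(ℂ, C2) 1 Y] (D : Deck g h) {f : Y → ℂ} (hf : Hol f) (N : ℕ)
    (W : Y → Set Y) : QP g (fun y => ‖f y‖ ^ N) 0 W := by
  intro n p hp _ _
  have h1 : ContMDiffOn 𝓘(ℂ, C2) 𝓘(ℂ) 1 (fun z => f ((g ^ n) (p z))) (ball 0 17) :=
    (hf.comp (hol_zpow D n)).comp_contMDiffOn hp
  have h2 : DifferentiableOn ℂ (fun z => f ((g ^ n) (p z))) (ball 0 16) :=
    ((contMDiffOn_iff_contDiffOn.1 h1).differentiableOn one_ne_zero).mono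
      (ball_subset_ball (by norm_num))
  have h3 := logSM_of_differentiableOn (E := C2) (w := fun _ => 0) (Cw := 0) isOpen_ball
    (h2.pow N) contDiffOn_const (fun z _ => by
      have h4 : fderiv ℝ (fun _ : C2 => (0 : ℝ)) = fun _ => 0 := by
        funext x; exact fderiv_const_apply _
      rw [h4]
      have h5 : fderiv ℝ (fun _ : C2 => (0 : C2 →L[ℝ] ℝ)) z = 0 := fderiv_const_apply _
      rw [h5]
      exact ContinuousLinearMap.opNorm_zero.le)
  simpa [norm_pow] using h3

/-- **density of the nonvanishing set** -/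
theorem QP.dense [IsManifold 𝓘(ℂ, C2) 1 Y] [PreconnectedSpace Y] {F : Y → ℝ} {c : ℝ}
    {W : Y → Set Y} (hW : ∀ y, W y ∈ 𝓝 y) (hF : QP g F c W) (hc : Continuous F)
    (h0 : ∀ y, 0 ≤ F y) (hne : ∃ y, F y ≠ 0) : Dense {y | F y ≠ 0} := by
  set V : Set Y := interior {y | F y = 0} with hV
  have hclosed : IsClosed V := by
    rw [← closure_subset_iff_isClosed]
    intro y hy
    obtain ⟨p, q, hb, hp0, hpW, hpm⟩ := exists_box y (hW y) (R := 17) (by norm_num)
    have hopen : IsOpen (p '' ball 0 1) :=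
      hb.opn _ (ball_subset_ball (by norm_num)) isOpen_ball
    have hyB : y ∈ p '' ball 0 1 := ⟨0, mem_ball_self one_pos, hp0⟩
    obtain ⟨v, ⟨z₁, hz₁, rfl⟩, hvV⟩ := mem_closure_iff.1 hy _ hopen hyB
    have hB : p '' ball 0 1 ⊆ {y | F y = 0} := by
      rintro _ ⟨z₀, hz₀, rfl⟩
      show F (p z₀) = 0
      by_contra hcon
      have hpos : 0 < F (p z₀) := lt_of_le_of_ne (h0 _) (Ne.symm hcon)
      have hlog : LogSM c (fun z => F (p z)) (ball 0 16) := by
        have := hF 0 p hb.hol hpm ⟨y, hpW⟩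
        simpa using this
      obtain ⟨M, hM⟩ := bdd_box (g := g) hc 0 hb.cont
      have hM' : ∀ z ∈ ball (0 : C2) 16, F (p z) ≤ Real.exp M := by simpa using hM
      refine LogSM.not_eventually_zero hlog (hc.measurable.comp hpm) hM' (z := z₀)
        (v := z₁ - z₀) (fun w hw => ?_) hpos ?_
      · rw [mem_ball_zero_iff] at *
        calc ‖z₀ + w • (z₁ - z₀)‖ ≤ ‖z₀‖ + ‖w • (z₁ - z₀)‖ := norm_add_le _ _
          _ ≤ ‖z₀‖ + 1 * (‖z₁‖ + ‖z₀‖) := by
              rw [norm_smul]
              gcongr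
              exact norm_sub_le _ _
          _ < 16 := by linarith
      · rw [add_sub_cancel]
        have h2 : ContinuousAt p z₁ :=
          hb.cont.continuousAt (isOpen_ball.mem_nhds
            (ball_subset_ball (by norm_num : (1 : ℝ) ≤ 17) hz₁))
        have h3 : V ∈ 𝓝 (p z₁) := isOpen_interior.mem_nhds hvV
        filter_upwards [h2.preimage_mem_nhds h3] with x hx
        exact interior_subset (s := {y | F y = 0}) hx
    exact interior_maximal hB hopen hyB
  have hclopen : IsClopen V := ⟨hclosed, isOpen_interior⟩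
  rcases isClopen_iff.1 hclopen with h1 | h1
  · rw [hV, interior_eq_empty_iff_dense_compl] at h1
    exact h1
  · obtain ⟨y, hy⟩ := hne
    have : y ∈ V := by rw [h1]; exact mem_univ _
    exact absurd (interior_subset this) hy

end Crest.Agent.R275.FL884
end

-- ▼ part R275/LargeEndB_884

/-!
R275 / S0418: the LARGE end, part B: existence.
-/

set_option autoImplicit false
set_option linter.unusedSectionVars false
set_option linter.style.haveILetI false

open MeasureTheory Set Filter Topology Metric Crest.AlgGeometry.Surface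
open Crest.Agent.R275.FL606 Crest.Agent.R275.HolY631 Crest.Agent.R275.HolL631
open scoped Real Manifold ContDiff

namespace Crest.Agent.R275.FL884

variable {Y : Type} [TopologicalSpace Y] [ChartedSpace C2 Y] [MeasurableSpace Y] [BorelSpace Y]
  {g : Y ≃ₜ Y} {h : Y → ℝ}

/-- admissible functions: continuous, nonnegative, nonzero, almost psh logarithm (uniformly on all
small boxes and their translates), at most exponential growth -/
structure AdmF (g : Y ≃ₜ Y) (h F : Y → ℝ) : Prop where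
  cont : Continuous F
  nonneg : ∀ y, 0 ≤ F y
  ne : ∃ y, F y ≠ 0
  qp : ∃ c : ℝ, 0 ≤ c ∧ ∃ W : Y → Set Y, (∀ y, W y ∈ 𝓝 y) ∧ QP g F c W
  grow : ∃ a b : ℝ, ∀ y, F y ≤ Real.exp (a * |h y| + b)

/-- superexponential decay at the end `h → +∞` -/
def SupL (h F : Y → ℝ) : Prop :=
  ∀ R : ℝ, ∃ C : ℝ, ∀ y, 0 ≤ h y → F y ≤ C * Real.exp (-(R * h y))

/-- the end `h → +∞` is the LARGE end -/
structure LargeEnd (g : Y ≃ₜ Y) (h : Y → ℝ) : Prop where
  spec : ∀ (t : ℂ) (f : Y → ℂ), Hol f → (∀ y, f (g y) = t * f y) → (∃ y, f y ≠ 0) → ‖t‖ ≤ 1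
  no : ∀ F, AdmF g h F → ¬ SupL h F

lemma deck_flip (D : Deck g h) : Deck g.symm (fun y => -h y) := by
  refine ⟨D.hol_symm, D.hol, D.cont.neg, fun y => ?_, fun a b => ?_⟩
  · rw [D.shift_symm]; ring
  · have h1 : {y | a ≤ -h y ∧ -h y ≤ b} = {y | -b ≤ h y ∧ h y ≤ -a} := by
      ext y
      constructor
      · rintro ⟨h1, h2⟩; exact ⟨by linarith, by linarith⟩
      · rintro ⟨h1, h2⟩; exact ⟨by linarith, by linarith⟩
    rw [h1]
    exact D.slab _ _

/-- growth of eigenfunctions -/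
lemma eig_growth (D : Deck g h) [Nonempty Y] {f : Y → ℂ} (hf : Continuous f) {t : ℂ}
    (ht0 : t ≠ 0) (ht : ∀ y, f (g y) = t * f y) :
    ∃ K : ℝ, 0 ≤ K ∧ ∀ y, ‖f y‖ ≤ K * Real.exp (-Real.log ‖t‖ * h y) := by
  obtain ⟨K, hK⟩ := (D.slab 0 1).exists_bound_of_continuousOn
    (f := fun y => f y * (Real.exp (Real.log ‖t‖ * h y) : ℝ))
    (by
      have := D.cont
      exact (hf.mul (Complex.continuous_ofReal.comp
        (Real.continuous_exp.comp (continuous_const.mul this)))).continuousOn)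
  have hpos : 0 < ‖t‖ := norm_pos_iff.2 ht0
  have hinv : ∀ y, ‖f (g y) * (Real.exp (Real.log ‖t‖ * h (g y)) : ℝ)‖ =
      ‖f y * (Real.exp (Real.log ‖t‖ * h y) : ℝ)‖ := by
    intro y
    rw [ht, D.shift, norm_mul, norm_mul, norm_mul, Complex.norm_real, Complex.norm_real,
      Real.norm_of_nonneg (Real.exp_pos _).le, Real.norm_of_nonneg (Real.exp_pos _).le, mul_sub,
      mul_one, Real.exp_sub, Real.exp_log hpos]
    field_simp
  have hall : ∀ y, ‖f y * (Real.exp (Real.log ‖t‖ * h y) : ℝ)‖ ≤ K := by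
    intro y
    obtain ⟨n, hn1, hn2⟩ := D.exists_zpow_mem y
    have h1 := hK _ ⟨hn1, hn2.le⟩
    have h2 : ∀ (n : ℤ) (y : Y), ‖f ((g ^ n) y) * (Real.exp (Real.log ‖t‖ * h ((g ^ n) y)) : ℝ)‖ =
        ‖f y * (Real.exp (Real.log ‖t‖ * h y) : ℝ)‖ := by
      intro n
      induction n using Int.induction_on with
      | zero => intro y; simp
      | succ n ih =>
        intro y
        rw [zpow_add_one, Homeomorph.mul_apply, ih, hinv]
      | pred n ih =>
        intro y
        rw [zpow_sub_one, Homeomorph.mul_apply, ih]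
        have h1 := hinv (g⁻¹ y)
        have h2 : g (g⁻¹ y) = y := g.apply_symm_apply y
        rw [h2] at h1
        exact h1.symm
    rwa [h2] at h1
  have hK0 : 0 ≤ K := (norm_nonneg _).trans (hall (Classical.arbitrary Y))
  refine ⟨K, hK0, fun y => ?_⟩
  have h1 := hall y
  rw [norm_mul, Complex.norm_real, Real.norm_of_nonneg (Real.exp_pos _).le] at h1
  have h2 : Real.exp (-Real.log ‖t‖ * h y) = (Real.exp (Real.log ‖t‖ * h y))⁻¹ := by
    rw [← Real.exp_neg]; congr 1; ring
  rw [h2, ← div_eq_mul_inv, le_div_iff₀ (Real.exp_pos _)]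
  exact h1

lemma eig_ne_zero {f : Y → ℂ} {t : ℂ} (ht : ∀ y, f (g y) = t * f y) (hne : ∃ y, f y ≠ 0) :
    t ≠ 0 := by
  rintro rfl
  obtain ⟨y, hy⟩ := hne
  apply hy
  have := ht (g.symm y)
  rw [g.apply_symm_apply, zero_mul] at this
  exact this

/-- the hypotheses on the covering which give the flux lemma -/
structure FluxHyp (g : Y ≃ₜ Y) (h : Y → ℝ) : Prop where
  deck : Deck g h
  smooth : ContMDiff 𝓘(ℝ, C2) 𝓘(ℝ, ℝ) 2 h
  b1 : B1Prop Y g

lemma FluxHyp.flip (H : FluxHyp g h) : FluxHyp g.symm (fun y => -h y) :=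
  ⟨deck_flip H.deck, H.smooth.neg, H.b1.symm⟩

variable [IsManifold 𝓘(ℂ, C2) 1 Y]

/-- no sequence of admissible functions with the same `c`, `W`, faster and faster decay -/
theorem FluxHyp.no_decay [PreconnectedSpace Y] (H : FluxHyp g h) {c : ℝ}
    (hc0 : 0 ≤ c) {W : Y → Set Y} (hW : ∀ y, W y ∈ 𝓝 y) {Λ K : ℕ → ℝ}
    (hΛ : Tendsto Λ atTop atTop) {F : ℕ → Y → ℝ}
    (hFc : ∀ N, Continuous (F N)) (hF0 : ∀ N y, 0 ≤ F N y) (hne : ∀ N, ∃ y, F N y ≠ 0)
    (hF : ∀ N y, F N y ≤ K N * Real.exp (-(Λ N * |h y|)))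
    (hFs : ∀ N, QP g (F N) c W) : False := by
  obtain ⟨m, C, x, hb, hmaps⟩ := exists_cov H.deck hW
  obtain ⟨G, C₀, hH⟩ := exists_height H.deck H.smooth C hb
  exact FL606.no_decay C hH H.b1 H.deck.cont H.deck.slab hc0 hΛ hFc hF0 hne hF
    (fun N i n => hFs N n (C.p i) (hb i).hol (C.meas i) ⟨x i, hmaps i⟩)

/-- no two eigenfunctions with `|t₀| < 1 < |t₁|` -/
theorem FluxHyp.no_two_eig [PreconnectedSpace Y] (H : FluxHyp g h) {t₀ t₁ : ℂ} {f₀ f₁ : Y → ℂ}
    (hf₀ : Hol f₀) (hf₁ : Hol f₁) (h₀ : ∀ y, f₀ (g y) = t₀ * f₀ y)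
    (h₁ : ∀ y, f₁ (g y) = t₁ * f₁ y) (hn₀ : ∃ y, f₀ y ≠ 0) (hn₁ : ∃ y, f₁ y ≠ 0)
    (ht₀ : ‖t₀‖ < 1) (ht₁ : 1 < ‖t₁‖) : False := by
  have ht00 : t₀ ≠ 0 := eig_ne_zero h₀ hn₀
  have hp0 : 0 < ‖t₀‖ := norm_pos_iff.2 ht00
  obtain ⟨m, C, x, hb, hmaps⟩ := exists_cov H.deck (W := fun _ => univ) (fun y => univ_mem)
  obtain ⟨G, C₀, hH⟩ := exists_height H.deck H.smooth C hb
  have hflux := FL606.flux C hH H.b1
  set a : ℝ := -Real.log ‖t₀‖ with ha
  set b : ℝ := Real.log ‖t₁‖ with hb'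
  have ha0 : 0 < a := neg_pos.2 (Real.log_neg hp0 ht₀)
  have hb0 : 0 < b := Real.log_pos ht₁
  refine hflux (fun _ => 0) (fun _ => 0) (fun _ => le_rfl) tendsto_const_nhds
    tendsto_const_nhds (fun n => ?_)
  -- a common nonzero point
  have hd : Dense {y | ‖f₀ y‖ ^ 1 ≠ 0} :=
    QP.dense (W := fun _ => univ) (fun y => univ_mem) (QP.of_hol H.deck hf₀ 1 _)
      (hf₀.continuous.norm.pow 1) (fun y => by positivity)
      (by obtain ⟨y, hy⟩ := hn₀; exact ⟨y, by simpa using hy⟩)
  obtain ⟨y₁, hy₁⟩ := hn₁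
  have ho : IsOpen {y | f₁ y ≠ 0} := isOpen_ne.preimage hf₁.continuous
  obtain ⟨y, hy1, hy0⟩ := hd.exists_mem_open ho ⟨y₁, hy₁⟩
  have hQ0 := QP.of_hol H.deck hf₀ 1 (fun _ => univ)
  have hQ1 := QP.of_hol H.deck hf₁ 1 (fun _ => univ)
  have key := NegS908.exists_step C H.deck.cont H.deck.shift H.deck.slab hH.bound (c := 0)
    le_rfl ha0 hb0 (F := fun y => ‖f₀ y‖ ^ 1) (H := fun y => ‖f₁ y‖ ^ 1)
    (hf₀.continuous.norm.pow 1) (hf₁.continuous.norm.pow 1) (fun y => by positivity)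
    (fun y => by positivity)
    (fun y => by
      simp only [pow_one]
      rw [h₀, norm_mul, ha, neg_neg, Real.exp_log hp0])
    (fun y => by
      simp only [pow_one]
      rw [h₁, norm_mul, hb', Real.exp_log (by linarith)])
    (fun i => by
      have := hQ0 0 (C.p i) (hb i).hol (C.meas i) ⟨x i, hmaps i⟩
      simpa using this)
    (fun i => by
      have := hQ1 0 (C.p i) (hb i).hol (C.meas i) ⟨x i, hmaps i⟩
      simpa using this)
    ⟨y, mul_ne_zero hy1 (by simpa using hy0)⟩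
  simpa using key

/-- Enoki case: if some eigenfunction has `|t₀| < 1` then `h → +∞` is the LARGE end -/
theorem FluxHyp.largeEnd_of_eig [PreconnectedSpace Y] (H : FluxHyp g h) {t₀ : ℂ} {f₀ : Y → ℂ}
    (hf₀ : Hol f₀) (h₀ : ∀ y, f₀ (g y) = t₀ * f₀ y) (hn₀ : ∃ y, f₀ y ≠ 0)
    (ht₀ : ‖t₀‖ < 1) : LargeEnd g h := by
  refine ⟨fun t f hf ht hn => ?_, fun F hF hS => ?_⟩
  · by_contra hcon
    exact H.no_two_eig hf₀ hf h₀ ht hn₀ hn ht₀ (not_le.1 hcon)
  · have ht00 : t₀ ≠ 0 := eig_ne_zero h₀ hn₀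
    have hp0 : 0 < ‖t₀‖ := norm_pos_iff.2 ht00
    haveI : Nonempty Y := ⟨hn₀.choose⟩
    obtain ⟨K, hK0, hK⟩ := eig_growth H.deck hf₀.continuous ht00 h₀
    set a : ℝ := -Real.log ‖t₀‖ with ha
    have ha0 : 0 < a := neg_pos.2 (Real.log_neg hp0 ht₀)
    obtain ⟨c, hc, W, hW, hQ⟩ := hF.qp
    obtain ⟨A, B, hAB⟩ := hF.grow
    choose CR hCR using hS
    -- the sequence
    refine H.no_decay (c := c + 0) (by linarith) (W := fun y => W y ∩ W y)
      (fun y => inter_mem (hW y) (hW y)) (Λ := fun N => a * N - |A|)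
      (K := fun N => (|CR (2 * a * N)| + Real.exp B) * K ^ N)
      (F := fun N y => F y * ‖f₀ y‖ ^ N) ?_ (fun N => hF.cont.mul (hf₀.continuous.norm.pow N))
      (fun N y => mul_nonneg (hF.nonneg y) (by positivity)) (fun N => ?_) (fun N y => ?_)
      (fun N => QP.mul hc le_rfl hF.cont (hf₀.continuous.norm.pow N) hF.nonneg
        (fun y => by positivity) hQ (QP.of_hol H.deck hf₀ N W))
    · have h1 : Tendsto (fun N : ℕ => a * (N : ℝ)) atTop atTop :=
        tendsto_natCast_atTop_atTop.const_mul_atTop ha0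
      exact tendsto_atTop_add_const_right _ _ h1
    · obtain ⟨y₁, hy₁⟩ := hF.ne
      have hd : Dense {y | ‖f₀ y‖ ^ 1 ≠ 0} :=
        QP.dense (W := fun _ => univ) (fun y => univ_mem) (QP.of_hol H.deck hf₀ 1 _)
          (hf₀.continuous.norm.pow 1) (fun y => by positivity)
          (by obtain ⟨y, hy⟩ := hn₀; exact ⟨y, by simpa using hy⟩)
      have ho : IsOpen {y | F y ≠ 0} := isOpen_ne.preimage hF.cont
      obtain ⟨y, hy1, hy0⟩ := hd.exists_mem_open ho ⟨y₁, hy₁⟩
      refine ⟨y, mul_ne_zero hy0 (pow_ne_zero _ ?_)⟩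
      simpa using hy1
    · have hf : ‖f₀ y‖ ^ N ≤ K ^ N * Real.exp (a * N * h y) := by
        calc ‖f₀ y‖ ^ N ≤ (K * Real.exp (a * h y)) ^ N := by
              gcongr
              exact hK y
          _ = K ^ N * Real.exp (a * N * h y) := by
              rw [mul_pow, ← Real.exp_nat_mul]
              congr 2
              ring
      have hKN : 0 ≤ K ^ N := by positivity
      have hAle := neg_abs_le A
      rcases le_or_gt 0 (h y) with hy | hy
      · have h1 := hCR (2 * a * N) y hy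
        have h2 : F y ≤ |CR (2 * a * N)| * Real.exp (-(2 * a * N * h y)) :=
          h1.trans (by gcongr; exact le_abs_self _)
        rw [abs_of_nonneg hy]
        calc F y * ‖f₀ y‖ ^ N ≤ (|CR (2 * a * N)| * Real.exp (-(2 * a * N * h y))) *
              (K ^ N * Real.exp (a * N * h y)) := by
              gcongr
          _ = |CR (2 * a * N)| * K ^ N * Real.exp (-(2 * a * N * h y) + a * N * h y) := by
              rw [Real.exp_add]; ring
          _ ≤ (|CR (2 * a * N)| + Real.exp B) * K ^ N * Real.exp (-((a * N - |A|) * h y)) := by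
              have e1 : -(2 * a * N * h y) + a * N * h y ≤ -((a * N - |A|) * h y) := by
                have := mul_nonneg (abs_nonneg A) hy
                nlinarith
              have e2 : |CR (2 * a * N)| ≤ |CR (2 * a * N)| + Real.exp B := by
                linarith [Real.exp_pos B]
              gcongr
      · rw [abs_of_neg hy]
        have h1 := hAB y
        rw [abs_of_neg hy] at h1
        calc F y * ‖f₀ y‖ ^ N ≤ Real.exp (A * -h y + B) * (K ^ N * Real.exp (a * N * h y)) := by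
              gcongr
          _ = Real.exp B * K ^ N * Real.exp (A * -h y + a * N * h y) := by
              rw [Real.exp_add, Real.exp_add]; ring
          _ ≤ (|CR (2 * a * N)| + Real.exp B) * K ^ N * Real.exp (-((a * N - |A|) * -h y)) := by
              have e1 : A * -h y + a * N * h y ≤ -((a * N - |A|) * -h y) := by
                have := mul_le_mul_of_nonneg_right (le_abs_self A) (by linarith : 0 ≤ -h y)
                nlinarith
              have e2 : Real.exp B ≤ |CR (2 * a * N)| + Real.exp B := by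
                linarith [abs_nonneg (CR (2 * a * N))]
              gcongr

/-- **existence of the LARGE end** -/
theorem FluxHyp.largeEnd [PreconnectedSpace Y] (H : FluxHyp g h) :
    LargeEnd g h ∨ LargeEnd g.symm (fun y => -h y) := by
  -- the spectrum
  by_cases h1 : ∃ (t : ℂ) (f : Y → ℂ), Hol f ∧ (∀ y, f (g y) = t * f y) ∧ (∃ y, f y ≠ 0) ∧ ‖t‖ < 1
  · obtain ⟨t, f, hf, ht, hn, htn⟩ := h1
    exact Or.inl (H.largeEnd_of_eig hf ht hn htn)
  by_cases h2 : ∃ (t : ℂ) (f : Y → ℂ), Hol f ∧ (∀ y, f (g y) = t * f y) ∧ (∃ y, f y ≠ 0) ∧ 1 < ‖t‖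
  · obtain ⟨t, f, hf, ht, hn, htn⟩ := h2
    right
    have ht0 : t ≠ 0 := eig_ne_zero ht hn
    refine H.flip.largeEnd_of_eig hf (t₀ := t⁻¹) (fun y => ?_) hn ?_
    · have := ht (g.symm y)
      rw [g.apply_symm_apply] at this
      rw [this, ← mul_assoc, inv_mul_cancel₀ ht0, one_mul]
    · rw [norm_inv]
      exact inv_lt_one_of_one_lt₀ htn
  push Not at h1 h2
  have hspec : ∀ (t : ℂ) (f : Y → ℂ), Hol f → (∀ y, f (g y) = t * f y) → (∃ y, f y ≠ 0) →
      ‖t‖ = 1 := fun t f hf ht hn => le_antisymm (h2 t f hf ht hn) (h1 t f hf ht hn)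
  by_contra hcon
  rw [not_or] at hcon
  obtain ⟨hc1, hc2⟩ := hcon
  have hex1 : ∃ F, AdmF g h F ∧ SupL h F := by
    by_contra hno
    push Not at hno
    exact hc1 ⟨fun t f hf ht hn => (hspec t f hf ht hn).le, hno⟩
  have hex2 : ∃ F, AdmF g.symm (fun y => -h y) F ∧ SupL (fun y => -h y) F := by
    by_contra hno
    push Not at hno
    refine hc2 ⟨fun t f hf ht hn => ?_, hno⟩
    have ht0 : t ≠ 0 := eig_ne_zero (g := g.symm) ht hn
    have h3 := hspec t⁻¹ f hf (fun y => by
      have := ht (g y)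
      rw [g.symm_apply_apply] at this
      rw [this, ← mul_assoc, inv_mul_cancel₀ ht0, one_mul]) hn
    rw [norm_inv, inv_eq_one] at h3
    exact h3.le
  obtain ⟨F, hF, hS⟩ := hex1
  obtain ⟨F', hF', hS'⟩ := hex2
  obtain ⟨c, hc, W, hW, hQ⟩ := hF.qp
  obtain ⟨c', hc', W', hW', hQ'⟩ := hF'.qp
  obtain ⟨A, B, hAB⟩ := hF.grow
  obtain ⟨A', B', hAB'⟩ := hF'.grow
  have hQ'' : QP g F' c' W' := by
    have := hQ'.symm
    rwa [Homeomorph.symm_symm] at this
  choose CR hCR using hS
  choose CR' hCR' using hS'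
  refine H.no_decay (c := c + c') (by positivity) (W := fun y => W y ∩ W' y)
    (fun y => inter_mem (hW y) (hW' y)) (Λ := fun N => (N : ℝ))
    (K := fun N => |CR (N + |A'|)| * Real.exp B' + |CR' (N + |A|)| * Real.exp B)
    (F := fun _ y => F y * F' y) tendsto_natCast_atTop_atTop (fun _ => hF.cont.mul hF'.cont)
    (fun _ y => mul_nonneg (hF.nonneg y) (hF'.nonneg y)) (fun _ => ?_) (fun N y => ?_)
    (fun _ => QP.mul hc hc' hF.cont hF'.cont hF.nonneg hF'.nonneg hQ hQ'')
  · obtain ⟨y₁, hy₁⟩ := hF'.ne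
    have hd : Dense {y | F y ≠ 0} := QP.dense hW hQ hF.cont hF.nonneg hF.ne
    have ho : IsOpen {y | F' y ≠ 0} := isOpen_ne.preimage hF'.cont
    obtain ⟨y, hy1, hy0⟩ := hd.exists_mem_open ho ⟨y₁, hy₁⟩
    exact ⟨y, mul_ne_zero hy1 hy0⟩
  · have h3 := hAB y
    have h3' := hAB' y
    simp only [abs_neg] at h3'
    rcases le_or_gt 0 (h y) with hy | hy
    · have h4 : F y ≤ |CR (N + |A'|)| * Real.exp (-((N + |A'|) * h y)) :=
        (hCR _ y hy).trans (by gcongr; exact le_abs_self _)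
      rw [abs_of_nonneg hy] at h3' ⊢
      calc F y * F' y ≤ (|CR (N + |A'|)| * Real.exp (-((N + |A'|) * h y))) *
            Real.exp (A' * h y + B') :=
            mul_le_mul h4 h3' (hF'.nonneg y) (by positivity)
        _ = |CR (N + |A'|)| * Real.exp B' * Real.exp (-((N + |A'|) * h y) + A' * h y) := by
            rw [Real.exp_add, Real.exp_add]; ring
        _ ≤ (|CR (N + |A'|)| * Real.exp B' + |CR' (N + |A|)| * Real.exp B) *
            Real.exp (-(N * h y)) := by
            have e1 : -((N + |A'|) * h y) + A' * h y ≤ -(N * h y) := by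
              have := mul_le_mul_of_nonneg_right (le_abs_self A') hy
              nlinarith
            have e2 : 0 ≤ |CR' (N + |A|)| * Real.exp B := by positivity
            gcongr
            linarith
    · have h4 : F' y ≤ |CR' (N + |A|)| * Real.exp (-((N + |A|) * -h y)) :=
        (hCR' _ y (by linarith)).trans (by gcongr; exact le_abs_self _)
      rw [abs_of_neg hy] at h3 ⊢
      calc F y * F' y ≤ Real.exp (A * -h y + B) *
            (|CR' (N + |A|)| * Real.exp (-((N + |A|) * -h y))) :=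
            mul_le_mul h3 h4 (hF'.nonneg y) (by positivity)
        _ = |CR' (N + |A|)| * Real.exp B * Real.exp (-((N + |A|) * -h y) + A * -h y) := by
            rw [Real.exp_add, Real.exp_add]; ring
        _ ≤ (|CR (N + |A'|)| * Real.exp B' + |CR' (N + |A|)| * Real.exp B) *
            Real.exp (-(N * -h y)) := by
            have e1 : -((N + |A|) * -h y) + A * -h y ≤ -(N * -h y) := by
              have := mul_le_mul_of_nonneg_right (le_abs_self A) (by linarith : 0 ≤ -h y)
              nlinarith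
            have e2 : 0 ≤ |CR (N + |A'|)| * Real.exp B' := by positivity
            gcongr
            linarith

end Crest.Agent.R275.FL884
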