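import Crest.Agent.R275.SerYh_940_Mg
import Crest.Agent.R275.CutZ_89
import Crest.Agent.R275.YBG_812
import Crest.Agent.R275.SolY_352
import Crest.Agent.R275.Cls_938
import Crest.Agent.R275.Wy5C_197
import Crest.Agent.R275.FamY_160

-- ▼ part R275/TranY_474
section

/-!
# R275, block D (helper474): the transports on the cover (rows `tr`, `V`, `trK` of `YAn`)

For `B : YBase Y` and weighted complexes `F.W = wL (bgeo hL) (hd B) (card_nb B) B.smooth_sm s`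
(helper89's complex with the standard cut-off, any height `s`):

* `mult_Y` : the multiplication property `Mult`, exact rates;
* `one_mem_Y` : `one ∈ W₀ a b` for `a < 0 < b`; `chiOne_Y`;
* `exists_tran` : `∃ T : Tran F F1 one, VCmp F F1.W one T.tL` for `L ∈ PP B.N B.h`;
* `exists_trK` : `∃ ρ t, TrL FD.W FK.W ρ t` for `FD` at `M * L⁻¹`, `FK` at `M` (`M` any bounded bundle).
-/

set_option autoImplicit false
set_option linter.unusedSectionVars false

open Set Filter Topology Complex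
open scoped Manifold ContDiff ComplexConjugate

namespace Crest.Agent.R275.Tri474

open Geo NAtl938 Core144 Fm96 GG89 Q74 Sol352 Lam2130 WY681 WY4193 WCxY89 LauB681 MulW193 Base144
  YBG812 CutZ89 CutY89 Wy5197 Cls938 Crest.AlgGeometry.Surface

noncomputable section

variable {Y : Type} [TopologicalSpace Y] [ChartedSpace C2 Y] [T2Space Y] {B : YBase Y}

/-- the cores, near their reference heights -/
theorem near_Y (B : YBase Y) (i : B.N.sm.ι) (x : Y) (hx : x ∈ tsupport (B.P.ψ i)) :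
    |B.h x - (Hts.of_HD (hd B) (card_nb B)).ht i| ≤ (hd B).R := by
  have h1 : x ∈ tsupport (B.P.χ i) := B.Pt.tsupport_psi_sub i hx
  exact (hd B).near i x h1

/-- **the multiplication property on the cover** -/
theorem mult_Y {L₁ L₂ : LB B.N.sm} (h₁ : L₁ ∈ BG B) (h₂ : L₂ ∈ BG B)
    {F₁ : WFam B.N.sm B.K B.h L₁} {F₂ : WFam B.N.sm B.K B.h L₂} {s₁ s₂ : ℝ}
    (e₁ : F₁.W = wL (bgeo h₁) (hd B) (card_nb B) B.smooth_sm s₁)
    (e₂ : F₂.W = wL (bgeo h₂) (hd B) (card_nb B) B.smooth_sm s₂)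
    {g : B.N.sm.ι → B.N.sm.ι → Y → ℂ} (eq : EqOv B.N.sm (g * L₁.g) L₂.g) :
    Mult B.K B.h g F₁.W F₂.W := by
  rw [e₁, e₂]
  exact mult_WCxY (fun i => Subset.rfl) (near_Y B) _ _ _ _ eq

/-- the constant `1` is in all classes of positive rates -/
theorem one_mem_Y (F1 : WFam B.N.sm B.K B.h 1) {one : ZZ0 B.N.sm (1 : LB B.N.sm).g}
    (hone : ∀ i, ∀ x ∈ (B.N.sm.e i).source, (one : B.N.sm.ι → Y → ℂ) i x = 1) {a b : ℝ}
    (ha : a < 0) (hb : 0 < b) : one ∈ F1.W.W₀ a b := by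
  have h1 : Fm96.WB B.N.sm B.K (fun _ => 1) (fn B.N.sm (fun _ : Y => (1 : ℂ))) := by
    refine B.cor.comp (ρ := fun _ => (1 : ℂ)) contDiff_const fun k => ?_
    exact bounded_iter (c0 := 1) (c1 := 1) contDiff_const (t0 := 0) (t1 := 0)
      (fun _ _ => rfl) (fun _ _ => rfl) k
  have h2 : BD B.N.sm B.K B.h 0 0 (fn B.N.sm (fun _ : Y => (1 : ℂ))) :=
    Fm96.WB.mono h1 zero_le_one fun i x _ => by rw [wgt_zero]; norm_num
  have h3 : (one : B.N.sm.ι → Y → ℂ) = fn B.N.sm (fun _ : Y => (1 : ℂ)) := by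
    funext i x
    by_cases hx : x ∈ (B.N.sm.e i).source
    · rw [hone i x hx, fn_of_mem hx]
    · rw [fn_of_not_mem hx]
      exact one.2.off i x hx
  have h4 : BD B.N.sm B.K B.h 0 0 (one : B.N.sm.ι → Y → ℂ) := by rw [h3]; exact h2
  have h5 := F1.s20 (u := one) (a' := -a) (b' := b) h4 (by linarith) hb
  rwa [neg_neg] at h5

/-- the cut-off of `one` -/
theorem chiOne_Y (h1 : (1 : LB B.N.sm) ∈ BG B) {F1 : WFam B.N.sm B.K B.h 1} {s : ℝ}
    (e₁ : F1.W = wL (bgeo h1) (hd B) (card_nb B) B.smooth_sm s)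
    (one : ZZ0 B.N.sm (1 : LB B.N.sm).g) : ChiOne B.h F1.W one := by
  rw [e₁]
  exact chiOne_of_isMul _ (isMul_thC (bgeo h1) (hd B) (card_nb B) B.smooth_sm s)
    (S := s) (T := s + 1) (fun x hx => theta_zero hx.le) (fun x hx => theta_one hx.le) one

/-- logarithms of the bundles of `PP` -/
theorem log_PP {L : LB B.N.sm} (hL : L ∈ PP B.N B.h) :
    ∃ (θ : B.N.sm.ι → B.N.sm.ι → Y → ℂ) (c : B.N.sm.ι → B.N.sm.ι → B.N.sm.ι → ℤ) (C ρ : ℝ),
      IsLog B.N.sm L.g θ c ∧ Dec2 B.N.sm B.h θ C ρ ∧ 0 < ρ ∧ Fin3 c := by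
  obtain ⟨c, ⟨-, hc⟩, θ, hθ, C, ρ, hρ, hd⟩ := hL
  exact ⟨θ, c, C, ρ, hθ, hd, hρ, hc⟩

/-- **rows `tr` and `V` of `YAn`** -/
theorem exists_tran {L : LB B.N.sm} (hL : L ∈ PP B.N B.h) (hB : L ∈ BG B)
    (hB1 : (1 : LB B.N.sm) ∈ BG B) {F : WFam B.N.sm B.K B.h L} {F1 : WFam B.N.sm B.K B.h 1}
    {s s₁ : ℝ} (e : F.W = wL (bgeo hB) (hd B) (card_nb B) B.smooth_sm s)
    (e₁ : F1.W = wL (bgeo hB1) (hd B) (card_nb B) B.smooth_sm s₁)
    {one : ZZ0 B.N.sm (1 : LB B.N.sm).g}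
    (hone : ∀ i, ∀ x ∈ (B.N.sm.e i).source, (one : B.N.sm.ι → Y → ℂ) i x = 1) :
    ∃ T : Tran F F1 one, VCmp F F1.W one T.tL ∧ 0 < T.ρ := by
  obtain ⟨θ, c, C, ρ, hθ, hdec, hρ, hc⟩ := log_PP hL
  obtain ⟨tL, tS, tL₁, tS₁, e', h1, h2, h3, h4, h5, h6⟩ :=
    exists_tdata B.cor (ug_psi B.Pt) F F1 hθ hdec hρ hc
      (mult_Y hB hB1 e e₁ fun i j x _ => by
        show (L.g i j x)⁻¹ * L.g i j x = 1
        exact inv_mul_cancel₀ (L.ne_zero i j x))
      (mult_Y hB1 hB e₁ e fun i j x _ => by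
        show L.g i j x * 1 = L.g i j x
        exact mul_one _)
      (mult_Y hB hB e e fun i j x _ => by
        show 1 * L.g i j x = L.g i j x
        exact one_mul _)
      (mult_Y hB1 hB1 e₁ e₁ fun i j x _ => by
        show (1 : ℂ) * 1 = 1
        exact one_mul _)
      hone (fun a b ha hb => one_mem_Y F1 hone ha hb) (chiOne_Y hB1 e₁ one)
  exact ⟨⟨ρ, tL, tL₁, tS, tS₁, e', h1, h2, h3, h4, h5⟩, h6, hρ⟩

/-- **row `trK` of `YAn`** : the transport from `M L⁻¹` to `M` at the large end -/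
theorem exists_trK {L M : LB B.N.sm} (hL : L ∈ PP B.N B.h) (hD : M * L⁻¹ ∈ BG B)
    (hM : M ∈ BG B) {FD : WFam B.N.sm B.K B.h (M * L⁻¹)} {FM : WFam B.N.sm B.K B.h M}
    {s s₁ : ℝ} (e : FD.W = wL (bgeo hD) (hd B) (card_nb B) B.smooth_sm s)
    (e₁ : FM.W = wL (bgeo hM) (hd B) (card_nb B) B.smooth_sm s₁) :
    ∃ (ρ : ℝ) (t : ZZ0 B.N.sm (M * L⁻¹).g →ₗ[ℂ] ZZ0 B.N.sm M.g), TrL FD.W FM.W ρ t := by
  obtain ⟨θ, c, C, ρ, hθ, hdec, hρ, hc⟩ := log_PP ((PP B.N B.h).inv_mem hL)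
  obtain ⟨⟨t, t₁, h1⟩, -⟩ := exists_tr (G := L⁻¹) B.cor (ug_psi B.Pt) FD FM hθ hdec hρ hc
    (mult_Y hD hM e e₁ fun i j x _ => by
      show (((L.g i j x)⁻¹)⁻¹) * (M.g i j x * (L.g i j x)⁻¹) = M.g i j x
      rw [inv_inv, mul_left_comm, mul_inv_cancel₀ (L.ne_zero i j x), mul_one])
    (mult_Y hM hD e₁ e fun i j x _ => by
      show (L.g i j x)⁻¹ * M.g i j x = M.g i j x * (L.g i j x)⁻¹
      exact mul_comm _ _)
    (mult_Y hD hD e e fun i j x _ => by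
      show 1 * (M * L⁻¹).g i j x = (M * L⁻¹).g i j x
      exact one_mul _)
  exact ⟨ρ, t, h1.toTrL⟩

end

end Crest.Agent.R275.Tri474
end

-- ▼ part R275/SerYi_940

/-!
# R275, block D, field `ser` (helper940): `H²_{a,b}(Y, L) = 0`

`topV_wf`  : the top-degree duality on helper681's family `wf h H`.
`ex2_wL`   : `Ex₂` for helper89's weighted complex `wL`, any cocycle of bounded geometry.
`ser_Y`    : the field `ser` of `Sol352.YAn` on `YBase`: QHtp at `(a, b)` and `Ex₀` of `K ⊗ L⁻¹` for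
             all rates give `Ex₂` at `(a, b)`.
-/

set_option autoImplicit false
set_option linter.unusedSectionVars false
set_option linter.unusedVariables false

open Set Filter Topology Complex MeasureTheory
open scoped ContDiff NNReal ComplexConjugate Matrix Kronecker

namespace Crest.Agent.R275.SerY940

open Crest.Agent.R275.Geo Crest.Agent.R275.Dol967 Crest.Agent.R275.Fm96 Crest.Agent.R275.FmExt861
  Crest.Agent.R275.Fred685 Crest.Agent.R275.Lam2130 Crest.Agent.R275.Tor812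
  Crest.Agent.R275.TorS666 Crest.Agent.R275.WY681 Crest.Agent.R275.Ret666
  Crest.Agent.R275.LauB681 Crest.Agent.R275.Core144 Crest.Agent.R275.JB658
  Crest.Agent.R275.Q74 Crest.Agent.R275.GG89 Crest.Agent.R275.WCxY89 Crest.Agent.R275.Sol352

noncomputable section

section gen

variable {M : Type} [TopologicalSpace M] {A : Atl 2 M} {P : Part A} {Q : PNb P}
  {g : A.ι → A.ι → M → ℂ} {hg : IsLC A g}

theorem πR_two (hB : BGeo P (BL hg)) (H : Hts Q) (a b : ℝ) :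
    (wf hB H).πR a b 2 = pW hg (H.wt (-a) b) :=
  LinearMap.ext fun v => Subtype.ext <| by
    show piZ (BL hg) 2 v.1 = pqL (BL hg) 2 v.1
    exact congrArg (fun T => T v.1) (piZ_natCast (B := BL hg) 2)

/-- the top-degree duality on the family of helper681 -/
theorem topV_wf (hB : BGeo P (BL hg)) (H : Hts Q)
    (hdd : ∀ u, nabL (BL hg) (nabL (BL hg) u) = 0) (a b : ℝ) :
    TopV P hg ((wf hB H).S a b) ((wf hB H).V a b).subtype ((wf hB H).πR a b 2)
      ((cx hB H hdd).R a b) (H.wt (-a) b).w := by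
  rw [πR_two]
  exact TopV.of_WSm hB (H.wt (-a) b)

variable {h : M → ℝ} (H : Sup912.HD P h) (hc : ∃ D, ∀ i, (RetC666.nb P i).card ≤ D)

/-- the dual weights -/
theorem om_le (a b : ℝ) : ∃ C : ℝ, 0 ≤ C ∧ ∀ i, ∀ x ∈ tsupport (P.ψ i),
    ((Hts.of_HD H hc).wt (-a) b).w i ≤ C * wgt a (-b) (h x) := by
  refine ⟨Real.exp ((|a| + |-b|) * H.R), (Real.exp_pos _).le, fun i x hx => ?_⟩
  show (wgt (-a) b (H.ht i))⁻¹ ≤ _
  rw [Sup912.wgt_inv, neg_neg]
  refine (Sup912.wgt_le_mul a (-b) (H.ht i) (h x)).trans ?_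
  refine mul_le_mul_of_nonneg_right (Real.exp_le_exp.2 ?_) (wgt_pos _ _ _).le
  refine mul_le_mul_of_nonneg_left ?_ (add_nonneg (abs_nonneg _) (abs_nonneg _))
  rw [abs_sub_comm]
  exact H.near i x (tsupport_ψ_sub P i hx)

variable [T2Space M] (hr : Room P) (hh : A.Sm h)


include hr in
/-- **(D6)** the same from `Ex₀` of a weighted complex of `K ⊗ L⁻¹` -/
theorem ex2_wL' {L : LB A} {hg : IsLC A L.g} (hB : BGeo P (BL hg)) (s : ℝ) {a b : ℝ}
    {K : (wf hB (Hts.of_HD H hc)).V a b →ₗ[ℂ] (wf hB (Hts.of_HD H hc)).V a b}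
    (hK : QHtp ((wf hB (Hts.of_HD H hc)).S a b)
      ((cx hB (Hts.of_HD H hc) (CutZ89.dd_LV hg)).R a b) K)
    (G : WFam A (fun i => tsupport (P.ψ i)) h (KB A * L⁻¹)) {a' b' : ℝ} (ha : a < a')
    (hb : -b < b') (e : G.W.Ex₀ (-a') b') :
    (CutZ89.wL hB H hc hh s).Ex₂ a b :=
  ex2_WCxY' _ _ (topV_wf hB _ _ a b) hr hK (om_le H hc a b) G ha hb e

end gen

/-! ### on `YBase` -/

section Y

open Base144 YBG812 FamY160 Crest.AlgGeometry.Surface

variable {Y : Type} [TopologicalSpace Y] [ChartedSpace C2 Y] [T2Space Y] {B : YBase Y}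

theorem room_Y (B : YBase Y) : Room B.P := Room.of_homog (homog B)


/-- **field `ser` of `Sol352.YAn`** on `YBase` -/
theorem ser_Y {L : LB B.N.sm} (hL : L ∈ BG B) (hD : KB B.N.sm * L⁻¹ ∈ BG B) {a b : ℝ}
    (hK : ∃ K : (wfY B L (bgeo hL)).V a b →ₗ[ℂ] (wfY B L (bgeo hL)).V a b,
      QHtp ((wfY B L (bgeo hL)).S a b) ((cxY B L (bgeo hL)).R a b) K)
    (h0 : ∀ a b, (famY B _ hD).W.Ex₀ a b) : (famY B L hL).W.Ex₂ a b := by
  obtain ⟨K, hK⟩ := hK
  exact ex2_wL' (hd B) (card_nb B) (room_Y B) B.smooth_sm (hg := KerV631.isLC L) (bgeo hL) 0 hK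
    (famY B _ hD) (lt_add_one a) (lt_add_one (-b)) (h0 _ _)


end Y

end

end Crest.Agent.R275.SerY940
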