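import Crest.Agent.R275.INX_945_Mg
import Crest.Agent.R275.EBK_151
import Crest.Agent.R275.LnkD_894
import Crest.Agent.R275.Rk2_798
import Crest.Agent.R275.Dg1_199
import Crest.Agent.R275.Dg4_199
import Crest.Agent.R275.StdSec_880
import Crest.Agent.R275.LnkCup_692
import Crest.Agent.R275.ChiM_825
import Crest.Agent.R275.LnkP6_476
import Crest.Agent.R275.EOF_627
import Crest.Agent.R275.KY_293

-- ▼ part R275/XNI_106
section

/-!
# R275 (S0418), block K: constructor of helper151's `XNIn` (helper106)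

`xnIn` : the inputs of (EB) on `X_N` from
* the covering data `C' : KCov A Z' (ZMod N)`, `F : KHom C C'`;
* `cm : CMData (liftP C' P) I e` (helper825);
* `G : EFn` with weights `jw (liftP C' P)` and normalisation (helper627);
* LINK (helper894);
* the rank bound (helper865, helper470).
-/

set_option autoImplicit false
set_option linter.unusedSectionVars false

open Set Filter Topology

namespace Crest.Agent.R275.XNI106

open TopK106 Zig470 Geo Smf798 KR798 SB798 GC293 Core144 ASConv293 KAsm106 KZig106 PDB412 ChiM825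
  NEul865 KX106 XN194 NForm945 NGeo151 NTr151 PDY945 WtY945 INX945 EBF151 Loc647 QPb635

noncomputable section

/-- the functional of helper470 from the one of helper945 -/
theorem ev_of_efn {M : Type*} [TopologicalSpace M] {V : Type*} {U : V → Set M} {lab : M → V}
    {w : (Fin 5 → V) → ℝ} (G : EFn M U lab w) : Ev 3 G.E :=
  ⟨G.add, G.congr, G.dl⟩

variable {M Z Z' : Type} [TopologicalSpace M] [TopologicalSpace Z] [TopologicalSpace Z']
  [T2Space M] [LocallyCompactSpace M] [T2Space Z] [LocallyCompactSpace Z]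
  [T2Space Z'] [CompactSpace Z'] {A : Atl 2 M} [Finite A.ι] {N : ℕ}
  {C : KCov A Z ℤ} {C' : KCov A Z' (ZMod N)}

section

variable (hpc : PreC A) (P : Part A) (F : KHom C C') (hφ : ∀ k : ℤ, F.φ k = (k : ZMod N))
  (hN : 1 ≤ N) {I : KIndex (smf C'.lift)} {e : ℤ} (cm : CMData (liftP C' P) I e)
  {lab : Z' → A.ι × ZMod N} (hlab : Lab (UA C'.lift) lab)
  (G : EFn Z' (fun v : A.ι × ZMod N => C'.sheet v.1 v.2) lab (jw (liftP C' P)))
  (hNrm : Nrm C'.lift G.E) (hlink : Link (liftP C' P) I G.E lab)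

include hN cm hlab hNrm hlink in
/-- the periodic form on the nerve of `Y` is the index form of `X_N` -/
theorem INR_eq_bZ {c d : C2 (A.ι × ℤ)} (hc : c ∈ (nerve C hpc).Z2p N)
    (hd : d ∈ (nerve C hpc).Z2p N) :
    (wtY C hpc P).INR N c d = (bZ (liftP C' P) I (dn F hφ hpc c hc) (dn F hφ hpc d hd) : ℤ) := by
  rw [INR_eq_E hpc P F hφ hN G hc hd,
    bZ_eq_IZ cm.good (ev_of_efn G) hNrm hlab hlink (dn F hφ hpc c hc) (dn F hφ hpc d hd),
    IZ_cast cm.good (ev_of_efn G) hNrm hlab (mem_Z2_iff.1 (dn F hφ hpc c hc).2)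
      (mem_Z2_iff.1 (dn F hφ hpc d hd).2)]
  exact congrArg G.E (congrArg₂ (ASZ627.cup 2) (lp_eq_of2 (A := C'.lift) lab _).symm
    (lp_eq_of2 (A := C'.lift) lab _).symm)

/-- **constructor of `XNIn`** -/
def xnIn (he : Rk C'.lift e) : XNIn (wtY C hpc P) N e where
  X := Z'
  C' := C'
  F := F
  hφ := hφ
  part := liftP C' P
  I := I
  cm := cm
  hdual := by
    have : NeZero N := ⟨by omega⟩
    have hfin : Finite C'.lift.ι := inferInstanceAs (Finite (A.ι × ZMod N))
    exact fun φ hφ' => bZ_dual cm.good (ev_of_efn G) hNrm hlab hlink φ hφ'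
  he := fun n v hv hind => he n v hv hind
  hW := fun c hc d hd => INR_eq_bZ hpc P F hφ hN cm hlab G hNrm hlink hc hd

end


end

end Crest.Agent.R275.XNI106
end

-- ▼ part R275/LnkE_894
section

set_option autoImplicit false
set_option linter.unusedSectionVars false

open Set Filter Topology Complex
open scoped ContDiff Matrix ComplexConjugate Kronecker
open Crest.Agent.R275.Geo Crest.Agent.R275.Smf798 Crest.Agent.R275.KR798
open Crest.Agent.R275.LnkA894 Crest.Agent.R275.SB798 Crest.Agent.R275.Dg199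

namespace Crest.Agent.R275.LnkE894

noncomputable section

variable {n : ℕ} {M : Type} [TopologicalSpace M] {A : Atl n M} (P : Part A)

/-- the cocycle is smooth at the points of the overlap -/
theorem smN_g (E : SB A) {i j : A.ι} {q : M} (hi : q ∈ (A.e i).source) (hj : q ∈ (A.e j).source)
    (k l : E.ρ) : SmN A (fun x => E.g i j x k l) q :=
  ⟨i, hi, (E.g_smooth i j k l).contDiffAt ((isOpen_ov i j).mem_nhds (mem_ov ⟨hi, hj⟩))⟩

theorem smN_gg {c : A.ι} {σ : smf A} (hσ : tsupport σ.1 ⊆ (A.e c).source)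
    {m : A.ι} {χ : M → ℝ} (hχ : A.Sm χ) (hs : tsupport χ ⊆ (A.e m).source) {G : M → ℂ}
    (hG : ∀ q ∈ (A.e c).source, q ∈ (A.e m).source → SmN A G q) (q : M) :
    SmN A (fun x => σ.1 x * G x * (χ x : ℂ)) q := by
  have h1 : ∀ q, SmN A (fun x => σ.1 x * ((χ x : ℂ) * G x)) q := by
    refine smN_mul_tsupport (fun q => smN_of_mem σ q) fun q hq => ?_
    have hc := hσ hq
    by_cases h : q ∈ tsupport χ
    · exact ((sm_iff.1 hχ q).ofReal).mul (hG q hc (hs h))
    · refine (smN_const (A := A) (0 : ℂ) q).congr ?_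
      filter_upwards [(isClosed_tsupport χ).isOpen_compl.mem_nhds h] with x hx
      rw [image_eq_zero_of_notMem_tsupport hx, Complex.ofReal_zero, zero_mul]
  have h2 : (fun x => σ.1 x * G x * (χ x : ℂ)) = fun x => σ.1 x * ((χ x : ℂ) * G x) := by
    funext x; ring
  rw [h2]; exact h1 q

theorem tsupport_psi (i : A.ι) : tsupport (P.ψ i) ⊆ (A.e i).source := by
  intro x hx
  refine P.χ_sub i (subset_tsupport _ ?_)
  rw [Function.mem_support, (P.χ_one i x hx).self_of_nhds]
  exact one_ne_zero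

variable [CompactSpace M]

section rowcol

variable (E : SB A) {c : A.ι} {σ : smf A} (hσ : tsupport σ.1 ⊆ (A.e c).source)
  {k : Type} (e : k → E.ρ)

/-- the cut-off frame, row form -/
def rowL : Matrix k (Ix P × E.ρ) (smf A) := fun r w =>
  mk' (fun x => σ.1 x * E.g c w.1.1 x (e r) w.2 * (P.χ w.1.1 x : ℂ))
    (smN_gg hσ (P.χ_sm _) (P.χ_sub _) fun _ h1 h2 => smN_g E h1 h2 _ _)

/-- the cut-off frame, column form -/
def colL : Matrix (Ix P × E.ρ) k (smf A) := fun w r =>
  mk' (fun x => σ.1 x * E.g w.1.1 c x w.2 (e r) * (P.ψ w.1.1 x : ℂ))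
    (smN_gg hσ (P.ψ_sm _) (tsupport_psi P _) fun _ h1 h2 => smN_g E h2 h1 _ _)

theorem mev_rowL (x : M) (r : k) (w : Ix P × E.ρ) :
    mev (rowL P E hσ e) x r w = σ.1 x * E.g c w.1.1 x (e r) w.2 * (P.χ w.1.1 x : ℂ) := rfl

theorem mev_colL (x : M) (r : k) (w : Ix P × E.ρ) :
    mev (colL P E hσ e) x w r = σ.1 x * E.g w.1.1 c x w.2 (e r) * (P.ψ w.1.1 x : ℂ) := rfl

end rowcol

theorem sig_zero {c : A.ι} {σ : smf A} (hσ : tsupport σ.1 ⊆ (A.e c).source) {x : M}
    (hx : x ∉ (A.e c).source) : σ.1 x = 0 :=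
  image_eq_zero_of_notMem_tsupport fun h => hx (hσ h)

section relations

variable {E F : SB A} {c : A.ι} {σ : smf A} (hσ : tsupport σ.1 ⊆ (A.e c).source)
  {k l : Type} [Fintype k] [DecidableEq k] [Fintype l] [DecidableEq l] (e : k ≃ E.ρ)
  (f : l ≃ F.ρ)

theorem row_col : rowL P E hσ e * colL P E hσ e = (σ * σ) • (1 : Matrix k k (smf A)) := by
  apply mev_ext
  intro x
  rw [mev_mul]
  ext r r'
  rw [Matrix.mul_apply]
  have hR : mev ((σ * σ) • (1 : Matrix k k (smf A))) x r r' =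
      σ.1 x * σ.1 x * (1 : Matrix k k ℂ) r r' := by
    have h1 : mev ((σ * σ) • (1 : Matrix k k (smf A))) x r r' =
      σ.1 x * σ.1 x * mev (1 : Matrix k k (smf A)) x r r' := rfl
    rw [h1, mev_one]
  rw [hR]
  by_cases hc : x ∈ (A.e c).source
  swap
  · rw [sig_zero hσ hc, zero_mul, zero_mul]
    refine Finset.sum_eq_zero fun w _ => ?_
    rw [mev_rowL, sig_zero hσ hc]; ring
  rw [Fintype.sum_prod_type]
  have h1 : ∀ m : Ix P, ∑ s, mev (rowL P E hσ e) x r (m, s) * mev (colL P E hσ e) x (m, s) r' =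
      (P.χ m.1 x : ℂ) * (P.ψ m.1 x : ℂ) *
        (σ.1 x * σ.1 x * (E.g c m.1 x * E.g m.1 c x) (e r) (e r')) := by
    intro m
    rw [Matrix.mul_apply, Finset.mul_sum, Finset.mul_sum]
    refine Finset.sum_congr rfl fun s _ => ?_
    rw [mev_rowL, mev_colL]; ring
  simp only [h1]
  refine collapse P fun m hm => ?_
  rw [E.g_inv ⟨hc, hm⟩]
  by_cases h : r = r'
  · rw [h, Matrix.one_apply_eq, Matrix.one_apply_eq]
  · rw [Matrix.one_apply_ne h, Matrix.one_apply_ne fun h' => h (e.injective h')]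

theorem col_row : colL P E hσ e * rowL P E hσ e = (σ * σ) • pr P E := by
  apply mev_ext
  intro x
  rw [mev_mul]
  ext w w'
  have hR : mev ((σ * σ) • pr P E) x w w' = σ.1 x * σ.1 x * mev (pr P E) x w w' := rfl
  rw [hR, mev_pr, Matrix.mul_apply]
  by_cases hc : x ∈ (A.e c).source
  swap
  · rw [sig_zero hσ hc, zero_mul, zero_mul]
    refine Finset.sum_eq_zero fun r _ => ?_
    rw [mev_rowL, sig_zero hσ hc]; ring
  by_cases h1 : x ∈ (A.e w.1.1).source
  swap
  · rw [psi_zero P h1]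
    refine (Finset.sum_eq_zero fun r _ => ?_).trans (by simp)
    rw [mev_colL, psi_zero P h1]; simp
  by_cases h2 : x ∈ (A.e w'.1.1).source
  swap
  · rw [chi_zero P h2]
    refine (Finset.sum_eq_zero fun r _ => ?_).trans (by simp)
    rw [mev_rowL, chi_zero P h2]; simp
  rw [← E.g_mul w.1.1 c w'.1.1 x ⟨⟨h1, hc⟩, h2⟩, Matrix.mul_apply, Finset.mul_sum, Finset.sum_mul,
    Finset.mul_sum, ← e.sum_comp]
  refine Finset.sum_congr rfl fun r _ => ?_
  rw [mev_rowL, mev_colL]; ring

variable {hσ e f}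

theorem row_mat (φ : SB.Hom E F) (Φ : Matrix l k (smf A))
    (hΦ : ∀ x a b, σ.1 x * (Φ a b).1 x = σ.1 x * φ.φ c x (f a) (e b)) :
    rowL P F hσ f * mat P φ = Φ * rowL P E hσ e := by
  apply mev_ext
  intro x
  rw [mev_mul, mev_mul]
  ext r w
  rw [Matrix.mul_apply, Matrix.mul_apply]
  by_cases hc : x ∈ (A.e c).source
  swap
  · refine (Finset.sum_eq_zero fun s _ => ?_).trans (Finset.sum_eq_zero fun s _ => ?_).symm
    · rw [mev_rowL, sig_zero hσ hc]; ring
    · rw [mev_rowL, sig_zero hσ hc]; ring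
  by_cases h2 : x ∈ (A.e w.1.1).source
  swap
  · refine (Finset.sum_eq_zero fun s _ => ?_).trans (Finset.sum_eq_zero fun s _ => ?_).symm
    · rw [mev_mat, chi_zero P h2]; simp
    · rw [mev_rowL, chi_zero P h2]; simp
  have e1 : ∑ a, mev Φ x r a * mev (rowL P E hσ e) x a w =
      σ.1 x * (φ.φ c x * E.g c w.1.1 x) (f r) w.2 * (P.χ w.1.1 x : ℂ) := by
    rw [Matrix.mul_apply, Finset.mul_sum, Finset.sum_mul, ← e.sum_comp]
    refine Finset.sum_congr rfl fun a _ => ?_
    rw [mev_rowL, mev_apply]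
    linear_combination (E.g c w.1.1 x (e a) w.2 * (P.χ w.1.1 x : ℂ)) * hΦ x r a
  rw [e1, Fintype.sum_prod_type]
  have h1 : ∀ m : Ix P, ∑ s, mev (rowL P F hσ f) x r (m, s) * mev (mat P φ) x (m, s) w =
      (P.χ m.1 x : ℂ) * (P.ψ m.1 x : ℂ) *
        (σ.1 x * (F.g c m.1 x * (φ.φ m.1 x * E.g m.1 w.1.1 x)) (f r) w.2 *
          (P.χ w.1.1 x : ℂ)) := by
    intro m
    rw [Matrix.mul_apply (M := F.g c m.1 x), Finset.mul_sum, Finset.sum_mul, Finset.mul_sum]
    refine Finset.sum_congr rfl fun s _ => ?_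
    rw [mev_rowL, mev_mat]; ring
  simp only [h1]
  refine collapse P fun m hm => ?_
  rw [← Matrix.mul_assoc, ← φ.tr c m.1 x ⟨hc, hm⟩, Matrix.mul_assoc,
    E.g_mul c m.1 w.1.1 x ⟨⟨hc, hm⟩, h2⟩]

theorem mat_col (φ : SB.Hom E F) (Φ : Matrix l k (smf A))
    (hΦ : ∀ x a b, σ.1 x * (Φ a b).1 x = σ.1 x * φ.φ c x (f a) (e b)) :
    mat P φ * colL P E hσ e = colL P F hσ f * Φ := by
  apply mev_ext
  intro x
  rw [mev_mul, mev_mul]
  ext w r
  rw [Matrix.mul_apply, Matrix.mul_apply]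
  by_cases hc : x ∈ (A.e c).source
  swap
  · refine (Finset.sum_eq_zero fun s _ => ?_).trans (Finset.sum_eq_zero fun s _ => ?_).symm
    · rw [mev_colL, sig_zero hσ hc]; ring
    · rw [mev_colL, sig_zero hσ hc]; ring
  by_cases h2 : x ∈ (A.e w.1.1).source
  swap
  · refine (Finset.sum_eq_zero fun s _ => ?_).trans (Finset.sum_eq_zero fun s _ => ?_).symm
    · rw [mev_mat, psi_zero P h2]; simp
    · rw [mev_colL, psi_zero P h2]; simp
  have e1 : ∑ a, mev (colL P F hσ f) x w a * mev Φ x a r =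
      σ.1 x * (F.g w.1.1 c x * φ.φ c x) w.2 (e r) * (P.ψ w.1.1 x : ℂ) := by
    rw [Matrix.mul_apply, Finset.mul_sum, Finset.sum_mul, ← f.sum_comp]
    refine Finset.sum_congr rfl fun a _ => ?_
    rw [mev_colL, mev_apply]
    linear_combination (F.g w.1.1 c x w.2 (f a) * (P.ψ w.1.1 x : ℂ)) * hΦ x a r
  rw [e1, Fintype.sum_prod_type]
  have h1 : ∀ m : Ix P, ∑ s, mev (mat P φ) x w (m, s) * mev (colL P E hσ e) x (m, s) r =
      (P.χ m.1 x : ℂ) * (P.ψ m.1 x : ℂ) *
        (σ.1 x * ((φ.φ w.1.1 x * E.g w.1.1 m.1 x) * E.g m.1 c x) w.2 (e r) *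
          (P.ψ w.1.1 x : ℂ)) := by
    intro m
    rw [Matrix.mul_apply (N := E.g m.1 c x), Finset.mul_sum, Finset.sum_mul, Finset.mul_sum]
    refine Finset.sum_congr rfl fun s _ => ?_
    rw [mev_colL, mev_mat]; ring
  simp only [h1]
  refine collapse P fun m hm => ?_
  rw [Matrix.mul_assoc, E.g_mul w.1.1 m.1 c x ⟨⟨h2, hm⟩, hc⟩, ← φ.tr w.1.1 c x ⟨h2, hc⟩]

variable (hσ e)

theorem row_pr : rowL P E hσ e * pr P E = rowL P E hσ e := by
  unfold pr
  rw [row_mat P (hσ := hσ) (e := e) (f := e) (SB.Hom.id E) 1, Matrix.one_mul]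
  intro x a b
  show σ.1 x * (mev (1 : Matrix k k (smf A)) x a b) = σ.1 x * (1 : Matrix E.ρ E.ρ ℂ) (e a) (e b)
  rw [mev_one]
  by_cases h : a = b
  · rw [h, Matrix.one_apply_eq, Matrix.one_apply_eq]
  · rw [Matrix.one_apply_ne h, Matrix.one_apply_ne fun h' => h (e.injective h')]

theorem pr_col : pr P E * colL P E hσ e = colL P E hσ e := by
  unfold pr
  rw [mat_col P (hσ := hσ) (e := e) (f := e) (SB.Hom.id E) 1, Matrix.mul_one]
  intro x a b
  show σ.1 x * (mev (1 : Matrix k k (smf A)) x a b) = σ.1 x * (1 : Matrix E.ρ E.ρ ℂ) (e a) (e b)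
  rw [mev_one]
  by_cases h : a = b
  · rw [h, Matrix.one_apply_eq, Matrix.one_apply_eq]
  · rw [Matrix.one_apply_ne h, Matrix.one_apply_ne fun h' => h (e.injective h')]

end relations

/-! ### the identification -/

/-- Local trivialisation of a triple of bundle maps on the chart `c`: `T'` is a triple on trivial
bundles whose matrices agree with the local matrices of the bundle maps on the support of `σ`. -/
def locI {E0 E1 : SB A} (d : SB.Hom E0 E1) (h : SB.Hom E1 E0) (f : smf A)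
    (hd : ∀ i, ∀ x ∈ (A.e i).source, h.φ i x * d.φ i x = f.1 x • (1 : Matrix E0.ρ E0.ρ ℂ))
    (dh : ∀ i, ∀ x ∈ (A.e i).source, d.φ i x * h.φ i x = f.1 x • (1 : Matrix E1.ρ E1.ρ ℂ))
    {c : A.ι} {σ : smf A} (hσ : tsupport σ.1 ⊆ (A.e c).source)
    {k l : Type} [Fintype k] [DecidableEq k] [Fintype l] [DecidableEq l] (e : k ≃ E0.ρ)
    (e' : l ≃ E1.ρ) (D : Matrix l k (smf A)) (H : Matrix k l (smf A)) (g : smf A)
    (hHD : H * D = g • 1) (hDH : D * H = g • 1)
    (eD : ∀ x a b, σ.1 x * (D a b).1 x = σ.1 x * d.φ c x (e' a) (e b))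
    (eH : ∀ x a b, σ.1 x * (H a b).1 x = σ.1 x * h.φ c x (e a) (e' b)) :
    Ident (triB P d h f hd dh)
      { n0 := k, n1 := l, p0 := 1, p1 := 1, d := D, h := H, g := g, i0 := one_idem,
        i1 := one_idem, pd := Matrix.one_mul _, dp := Matrix.mul_one _, ph := Matrix.one_mul _,
        hp := Matrix.mul_one _, hd := hHD, dh := hDH } σ where
  a := rowL P E0 hσ e
  a' := colL P E0 hσ e
  b := rowL P E1 hσ e'
  b' := colL P E1 hσ e'
  qa := Matrix.one_mul _
  ap := row_pr P hσ e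
  pa' := pr_col P hσ e
  a'q := Matrix.mul_one _
  qb := Matrix.one_mul _
  bp := row_pr P hσ e'
  pb' := pr_col P hσ e'
  b'q := Matrix.mul_one _
  aa' := row_col P hσ e
  a'a := col_row P hσ e
  bb' := row_col P hσ e'
  b'b := col_row P hσ e'
  bd := row_mat P d D eD
  ah := row_mat P h H eH
  da' := mat_col P d D eD
  hb' := mat_col P h H eH

/-- local trivialisation of the triple `1 → L` of a section of a line bundle -/
theorem triL_I {E : SB A} [Unique E.ρ] {s : A.ι → M → E.ρ → ℂ} (hs : SB798.IsSec E s) {c : A.ι}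
    {σ : smf A} (hσ : tsupport σ.1 ⊆ (A.e c).source) (x x' : smf A)
    (hx : ∀ y, σ.1 y * x.1 y = σ.1 y * s c y default)
    (hx' : ∀ y, σ.1 y * x'.1 y = σ.1 y * hdual P E s c y default) :
    Nonempty (Ident (triL (P := P) hs) (LnkB894.L1 x x') σ) := by
  have hfin : ∀ (u : smf A) (a b : Fin 1), (u • (1 : Matrix (Fin 1) (Fin 1) (smf A))) a b = u := by
    intro u a b
    rw [Subsingleton.elim a b, Matrix.smul_apply, Matrix.one_apply_eq, smul_eq_mul, mul_one]
  refine ⟨locI P (colHom hs) (rowHom (P := P) hs) (nsqF (P := P) hs) _ _ hσ (Equiv.refl (Fin 1))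
    (Equiv.ofUnique (Fin 1) E.ρ) (x • 1) (x' • 1) (x' * x) ?_ ?_ ?_ ?_⟩
  · exact LnkB894.o_mul' _ _
  · exact LnkB894.o_mul _ _
  · intro y a b
    rw [hfin]
    exact (hx y).trans (by rfl)
  · intro y a b
    rw [hfin]
    exact (hx' y).trans (by rfl)

end

end Crest.Agent.R275.LnkE894
end

-- ▼ part R275/LnkF_894
section

set_option autoImplicit false
set_option linter.unusedSectionVars false

open Set Filter Topology Complex
open scoped ContDiff Matrix ComplexConjugate Kronecker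
open Crest.Agent.R275.Geo Crest.Agent.R275.Smf798 Crest.Agent.R275.KR798
open Crest.Agent.R275.LnkA894 Crest.Agent.R275.SB798 Crest.Agent.R275.Dg199
open Crest.Agent.R275.LnkE894

namespace Crest.Agent.R275.LnkF894

noncomputable section

/-! ### classes of identity matrices -/

section cone

variable {R : Type*} [CommRing R] (I : KIndex R)

theorem c_one_fin (k : ℕ) : I.c (1 : Matrix (Fin k) (Fin k) R) one_idem = (k : I.Rg) := by
  have h := c_bd I k (fun _ => Fin 1) (fun _ => (1 : Matrix (Fin 1) (Fin 1) R)) (fun _ => one_idem)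
  rw [Finset.sum_congr rfl (fun j _ => I.c_one (n := Fin 1)), Finset.sum_const, Finset.card_univ,
    Fintype.card_fin, nsmul_eq_mul, mul_one] at h
  rw [← h]
  apply I.c_congr
  have e : (Σ _ : Fin k, Fin 1) ≃ Fin k := Equiv.sigmaUnique (Fin k) (fun _ => Fin 1)
  have h2 : Matrix.reindex e e (Matrix.blockDiagonal' fun _ : Fin k =>
      (1 : Matrix (Fin 1) (Fin 1) R)) = 1 := by
    have h3 : (Matrix.blockDiagonal' fun _ : Fin k => (1 : Matrix (Fin 1) (Fin 1) R)) = 1 :=
      Matrix.blockDiagonal'_one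
    rw [h3]
    simp
  rw [← h2]
  exact (isoM_reindex e (idem_bd fun _ => one_idem)).symm

end cone

variable {M : Type} [TopologicalSpace M]

/-! ### metric weights -/

section weight

variable {n : ℕ} {A : Atl n M} (P : Part A) [CompactSpace M] (E : SB A) [Unique E.ρ]

/-- the metric weight of the frame `c` -/
def wt (c : A.ι) (x : M) : ℝ :=
  ∑ m : Ix P, P.ψ m.1 x ^ 2 * ‖E.g m.1 c x default default‖ ^ 2

theorem hdual_eq {s : A.ι → M → E.ρ → ℂ} (hs : SB798.IsSec E s) {c : A.ι} {x : M}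
    (hx : x ∈ (A.e c).source) :
    hdual P E s c x default = (wt P E c x : ℂ) * conj (s c x default) := by
  unfold hdual wt
  rw [Fintype.sum_prod_type]
  push_cast
  rw [Finset.sum_mul]
  refine Finset.sum_congr rfl fun m _ => ?_
  rw [Fintype.sum_unique]
  by_cases hm : x ∈ (A.e m.1).source
  · have h1 : s m.1 x default = E.g m.1 c x default default * s c x default := by
      have h2 := congrFun (hs.tr m.1 c x ⟨hm, hx⟩) default
      rw [h2, Matrix.mulVec, dotProduct, Fintype.sum_unique]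
    have h3 : conj (E.g m.1 c x default default) * E.g m.1 c x default default =
        ((‖E.g m.1 c x default default‖ : ℝ) : ℂ) ^ 2 := by
      rw [mul_comm, Complex.mul_conj, Complex.normSq_eq_norm_sq]; push_cast; ring
    rw [h1, map_mul]
    linear_combination ((P.ψ m.1 x : ℂ) ^ 2 * conj (s c x default)) * h3
  · rw [psi_zero P hm]; simp

theorem wt_pos {c : A.ι} {x : M} (hx : x ∈ (A.e c).source) : 0 < wt P E c x := by
  obtain ⟨m, hm, hxm⟩ := exists_psi_ne P x
  refine Finset.sum_pos' (fun m _ => by positivity) ⟨m, Finset.mem_univ _, ?_⟩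
  have h1 : E.g m.1 c x default default ≠ 0 := by
    intro h
    have h2 := congrFun (congrFun (E.g_inv ⟨hxm, hx⟩) default) default
    rw [Matrix.mul_apply, Fintype.sum_unique, Matrix.one_apply_eq, h, zero_mul] at h2
    exact zero_ne_one h2
  have h3 : 0 < ‖E.g m.1 c x default default‖ := norm_pos_iff.2 h1
  positivity

theorem wt_smN {c : A.ι} {q : M} (hq : q ∈ (A.e c).source) :
    SmN A (fun x => (wt P E c x : ℂ)) q := by
  have h : (fun x => (wt P E c x : ℂ)) = fun x => ∑ m : Ix P,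
      ((P.ψ m.1 x : ℂ) * (P.ψ m.1 x : ℂ)) * (E.g m.1 c x default default *
        conj (E.g m.1 c x default default)) := by
    funext x
    unfold wt
    push_cast
    refine Finset.sum_congr rfl fun m _ => ?_
    rw [Complex.mul_conj, Complex.normSq_eq_norm_sq]
    push_cast; ring
  rw [h]
  refine SmN.sum fun m _ => ?_
  have hpsi : SmN A (fun x => (P.ψ m.1 x : ℂ)) q := (sm_iff.1 (P.ψ_sm m.1) q).ofReal
  by_cases hm : q ∈ tsupport (P.ψ m.1)
  · have hm' := tsupport_psi P m.1 hm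
    have hg := smN_g E hm' hq default default
    exact (hpsi.mul hpsi).mul (hg.mul hg.conj)
  · refine (smN_const (A := A) (0 : ℂ) q).congr ?_
    filter_upwards [(isClosed_tsupport (P.ψ m.1)).isOpen_compl.mem_nhds hm] with x hx
    rw [image_eq_zero_of_notMem_tsupport hx]; simp

/-- a positive smooth function equal to the weight near `p` -/
theorem exists_u [T2Space M] {c : A.ι} {p : M} (hp : p ∈ (A.e c).source) :
    ∃ (u v : smf A), u * v = 1 ∧ (∀ x, ∃ r : ℝ, 0 < r ∧ u.1 x = r) ∧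
      ∀ᶠ x in 𝓝 p, u.1 x = (wt P E c x : ℂ) := by
  obtain ⟨φ, h1, h2, h3, -, h4, h5⟩ := exists_bump A ((A.e c).open_source.mem_nhds hp)
  have hφ : ∀ q, SmN A (fun x => (φ x : ℂ)) q := fun q => (h1 q).ofReal
  have hsub0 : tsupport (fun x => (φ x : ℂ)) ⊆ tsupport φ := by
    refine closure_mono fun y hy h0 => hy ?_
    show (φ y : ℂ) = 0
    rw [h0]; rfl
  have hsub : tsupport (fun x => (φ x : ℂ)) ⊆ (A.e c).source := hsub0.trans h3
  let F : M → ℝ := fun x => φ x * wt P E c x + (1 - φ x)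
  have hF : ∀ x, 0 < F x := by
    intro x
    by_cases h0 : φ x = 0
    · show 0 < φ x * wt P E c x + (1 - φ x)
      rw [h0]; norm_num
    · have hx : x ∈ (A.e c).source := h3 (subset_tsupport _ h0)
      have hpos : 0 < φ x := lt_of_le_of_ne (h4 x) (Ne.symm h0)
      have := mul_pos hpos (wt_pos P E hx)
      show 0 < φ x * wt P E c x + (1 - φ x)
      linarith [h5 x]
  have hFs : ∀ q, SmN A (fun x => (F x : ℂ)) q := by
    intro q
    have e : (fun x => (F x : ℂ)) = fun x => (φ x : ℂ) * (wt P E c x : ℂ) + (1 - (φ x : ℂ)) := by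
      funext x
      show ((φ x * wt P E c x + (1 - φ x) : ℝ) : ℂ) = _
      push_cast; ring
    rw [e]
    exact (smN_mul_tsupport hφ (fun q hq => wt_smN P E (hsub hq)) q).add
      ((smN_const _ q).sub (hφ q))
  have hne : ∀ x, (F x : ℂ) ≠ 0 := fun x => by exact_mod_cast (hF x).ne'
  refine ⟨mk' _ hFs, mk' (fun x => ((F x : ℂ))⁻¹) (fun q => (hFs q).inv (hne q)), ?_,
    fun x => ⟨F x, hF x, rfl⟩, ?_⟩
  · exact smf_ext fun x => mul_inv_cancel₀ (hne x)
  · filter_upwards [h2] with x hx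
    show ((φ x * wt P E c x + (1 - φ x) : ℝ) : ℂ) = _
    rw [hx]; push_cast; ring

end weight

/-! ### division near a point -/

section div

variable {A : Atl 2 M}

/-- the coordinates -/
def T0 : Cn 2 ≃L[ℂ] ℂ × (ℂ × Cn 0) :=
  LinearEquiv.toContinuousLinearEquiv
    { toFun := fun z => (z 0, (z 1, 0))
      invFun := fun w => WithLp.toLp 2 ![w.1, w.2.1]
      map_add' := fun v w => by
        refine Prod.ext rfl (Prod.ext rfl ?_)
        exact Subsingleton.elim _ _
      map_smul' := fun c v => by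
        refine Prod.ext rfl (Prod.ext rfl ?_)
        exact Subsingleton.elim _ _
      left_inv := fun z => by
        ext i
        fin_cases i <;> rfl
      right_inv := fun w => by
        refine Prod.ext rfl (Prod.ext rfl ?_)
        exact Subsingleton.elim _ _ }

@[simp] theorem T0_fst (z : Cn 2) : (T0 z).1 = z 0 := rfl
@[simp] theorem T0_snd (z : Cn 2) : (T0 z).2.1 = z 1 := rfl

variable [T2Space M]

/-- a point as an adapted set -/
def adp {c : A.ι} {p : M} (hp : p ∈ (A.e c).source) : Adapted 0 A where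
  D := {p}
  closed := isClosed_singleton
  K := Unit
  ix _ := c
  T _ := T0
  c _ := A.e c p
  cover := by
    rintro q rfl
    exact ⟨(), hp⟩
  eq := by
    intro _ q hq
    rw [mem_singleton_iff, T0_fst, T0_snd]
    constructor
    · rintro rfl
      simp
    · rintro ⟨h0, h1⟩
      have h2 : A.e c q = A.e c p := by
        rw [← sub_eq_zero]
        ext i
        fin_cases i
        · exact h0
        · exact h1
      exact (A.e c).injOn hq hp h2

theorem adp_uu0 {c : A.ι} {p : M} (hp : p ∈ (A.e c).source) (q : M) :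
    (adp hp).uu () 0 q = (A.e c q - A.e c p) 0 := rfl

theorem adp_uu1 {c : A.ι} {p : M} (hp : p ∈ (A.e c).source) (q : M) :
    (adp hp).uu () 1 q = (A.e c q - A.e c p) 1 := rfl

variable {c : A.ι} {p : M} {U : Set M} {h : Fin 3 → smf A} {σ : smf A}

/-- functions killed by the first coordinate vanish -/
theorem nd_aux (hp : p ∈ (A.e c).source) (hU : IsOpen U) (hUc : U ⊆ (A.e c).source)
    {f : M → ℂ} (hf : ∀ q ∈ U, SmN A f q)
    (h0 : ∀ x ∈ U, (A.e c x - A.e c p) 0 * f x = 0) {x : M} (hx : x ∈ U) : f x = 0 := by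
  by_contra hne
  have h1 := (hf x hx).continuousAt.eventually_ne hne
  have h2 := (adp hp).dense_aux () (q := x) (hUc hx)
  refine h2 ?_
  filter_upwards [h1, hU.mem_nhds hx] with y hy hyU
  have := h0 y hyU
  simp only [not_not]
  exact (mul_eq_zero.1 this).resolve_right hy

theorem nd_of (hp : p ∈ (A.e c).source) (hU : IsOpen U) (hUc : U ⊆ (A.e c).source)
    (hσ : tsupport σ.1 ⊆ U) (e0 : ∀ x ∈ U, (h 0).1 x = (A.e c x - A.e c p) 0) (f : smf A)
    (hf : h 0 * f = 0) : σ * f = 0 := by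
  refine smf_ext fun x => ?_
  by_cases hx : x ∈ U
  · have h1 : f.1 x = 0 := by
      refine nd_aux hp hU hUc (fun q _ => smN_of_mem f q) (fun y hy => ?_) hx
      rw [← e0 y hy]
      exact congrFun (congrArg Subtype.val hf) y
    show σ.1 x * f.1 x = 0
    rw [h1, mul_zero]
  · show σ.1 x * f.1 x = 0
    rw [image_eq_zero_of_notMem_tsupport fun h => hx (hσ h), zero_mul]

theorem dv_of (hp : p ∈ (A.e c).source) (hU : IsOpen U) (hUc : U ⊆ (A.e c).source)
    (hσ : tsupport σ.1 ⊆ U) (e0 : ∀ x ∈ U, (h 0).1 x = (A.e c x - A.e c p) 0)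
    (e1 : ∀ x ∈ U, (h 1).1 x = (A.e c x - A.e c p) 1) (e2 : ∀ x ∈ U, (h 2).1 x = 0)
    (v : Fin 3 → smf A) (hv : ∑ a, h a * v a = 0) :
    ∃ w : smf A, σ * v 0 = -(h 1 * w) ∧ σ * v 1 = h 0 * w := by
  have hv' : ∀ x ∈ U, (h 0).1 x * (v 0).1 x + (h 1).1 x * (v 1).1 x = 0 := by
    intro x hx
    rw [Fin.sum_univ_three] at hv
    have h3 : (h 0).1 x * (v 0).1 x + (h 1).1 x * (v 1).1 x + (h 2).1 x * (v 2).1 x = 0 :=
      congrFun (congrArg Subtype.val hv) x
    rw [e2 x hx, zero_mul, add_zero] at h3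
    exact h3
  obtain ⟨w, hw1, hw2⟩ := (adp hp).div_aux () U hU hUc (fun x => -(v 1).1 x) (v 0).1
    (fun q _ => (smN_of_mem (v 1) q).neg) (fun q _ => smN_of_mem (v 0) q) (fun x hx => by
      rw [adp_uu0, adp_uu1, ← e0 x hx, ← e1 x hx]
      linear_combination hv' x hx)
  have hσ0 : ∀ x ∉ U, σ.1 x = 0 := fun x hx => image_eq_zero_of_notMem_tsupport fun h => hx (hσ h)
  have hsm : ∀ q, SmN A (fun x => σ.1 x * w x) q :=
    smN_mul_tsupport (fun q => smN_of_mem σ q) fun q hq => hw1 q (hσ hq)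
  refine ⟨mk' (fun x => -(σ.1 x * w x)) (fun q => (hsm q).neg), smf_ext fun x => ?_,
    smf_ext fun x => ?_⟩
  · show σ.1 x * (v 0).1 x = -((h 1).1 x * -(σ.1 x * w x))
    by_cases hx : x ∈ U
    · have h4 : ∀ y ∈ U, (A.e c y - A.e c p) 0 * ((v 0).1 y - (h 1).1 y * w y) = 0 := by
        intro y hy
        have h5 := hw2 y hy
        rw [adp_uu0] at h5
        have h6 := hv' y hy
        rw [e0 y hy] at h6
        linear_combination h6 + (h 1).1 y * h5
      have h7 : (v 0).1 x - (h 1).1 x * w x = 0 :=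
        nd_aux hp hU hUc (f := fun y => (v 0).1 y - (h 1).1 y * w y)
          (fun q hq => (smN_of_mem (v 0) q).sub ((smN_of_mem (h 1) q).mul (hw1 q hq))) h4 hx
      linear_combination σ.1 x * h7
    · rw [hσ0 x hx]; ring
  · show σ.1 x * (v 1).1 x = (h 0).1 x * -(σ.1 x * w x)
    by_cases hx : x ∈ U
    · have h5 := hw2 x hx
      rw [adp_uu0, ← e0 x hx] at h5
      linear_combination (-σ.1 x) * h5
    · rw [hσ0 x hx]; ring

end div

/-- Resolution of the ideal of a point with its index (block LINK, leaf D4). -/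
structure PtRes (A : Atl 2 M) (I : KIndex (smf A)) (p : M) (c : A.ι) where
  h : Fin 3 → smf A
  n : Type
  [fn : Fintype n]
  [dn : DecidableEq n]
  q : Matrix n n (smf A)
  io : Matrix (Fin 3) n (smf A)
  res : NA3m425.Res h q io
  h0 : ∀ᶠ x in 𝓝 p, (h 0).1 x = (A.e c x - A.e c p) 0
  h1 : ∀ᶠ x in 𝓝 p, (h 1).1 x = (A.e c x - A.e c p) 1
  h2 : ∀ᶠ x in 𝓝 p, (h 2).1 x = 0
  nz : ∀ x, x ≠ p → ∃ i, (h i).1 x ≠ 0
  ind : I.data.indR (I.c q res.idem) = 2 * I.data.indR 1 + 1

attribute [instance] PtRes.fn PtRes.dn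

end

end Crest.Agent.R275.LnkF894
end

-- ▼ part R275/LnkG_894
section

set_option autoImplicit false
set_option linter.unusedSectionVars false

open Set Filter Topology Complex
open scoped ContDiff Matrix ComplexConjugate Kronecker
open Crest.Agent.R275.Geo Crest.Agent.R275.Smf798 Crest.Agent.R275.KR798
open Crest.Agent.R275.LnkA894 Crest.Agent.R275.SB798 Crest.Agent.R275.Dg199
open Crest.Agent.R275.LnkE894 Crest.Agent.R275.LnkF894
open Crest.Agent.R275.LnkB894 Crest.Agent.R275.LnkC894 Crest.Agent.R275.LnkD894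
open Crest.Agent.R275.StdSec880 (StdPair)

namespace Crest.Agent.R275.LnkG894

noncomputable section

variable {M : Type} [TopologicalSpace M] {A : Atl 2 M}

/-- the scalar cocycle of a line bundle -/
def gsc (E : SB A) [Unique E.ρ] : A.ι → A.ι → M → ℂ := fun i j x => E.g i j x default default

theorem isSec_of {E : SB A} [Unique E.ρ] {s : A.ι → M → ℂ}
    (hs : StdSec880.IsSec A (gsc E) s) : SB798.IsSec E (fun i x _ => s i x) where
  sm i _ := hs.sm i
  tr i j x hx := by
    funext k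
    rw [Matrix.mulVec, dotProduct, Fintype.sum_unique, Subsingleton.elim k default]
    exact hs.tr i j x hx

variable [T2Space M] [CompactSpace M] (P : Part A) (I : KIndex (smf A))

theorem nsq_loc {E : SB A} [Unique E.ρ] {s : A.ι → M → E.ρ → ℂ} (hs : SB798.IsSec E s) {c : A.ι}
    {x : M} (hx : x ∈ (A.e c).source) :
    (nsq P E s x : ℂ) = (wt P E c x : ℂ) * conj (s c x default) * s c x default := by
  rw [← hdual_dot hs hx, dotProduct, Fintype.sum_unique, hdual_eq P E hs hx]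

/-- the local model at a zero -/
theorem local_model (hpt : ∀ p c, p ∈ (A.e c).source → Nonempty (PtRes A I p c)) (E E' : SB A)
    [Unique E.ρ] [Unique E'.ρ] (S : StdPair A (gsc E) (gsc E')) {p : M} (hp : p ∈ S.Z)
    {W : Set M} (hW : W ∈ 𝓝 p) :
    ∃ (σ τ : smf A) (T' : Tri (smf A))
      (Y : Ident (addR (addT ((triL (P := P) (isSec_of S.sec)).mul (triL (P := P)
        (isSec_of S.sec'))))) T' τ), Supp Y σ ∧ (∀ x ∉ W, σ.1 x = 0) ∧
      (∀ x, ∃ r : ℝ, 0 ≤ r ∧ r ≤ 1 ∧ τ.1 x = r) ∧ τ.1 p = 1 ∧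
      (∀ x, ∃ r : ℝ, 0 ≤ r ∧ T'.g.1 x = r ∧ (x ≠ p → 0 < r)) ∧
      I.data.indR (T'.kap I) = if S.sg p then 1 else -1 := by
  have hc := S.mem p hp
  obtain ⟨R⟩ := hpt p (S.c p) hc
  obtain ⟨u, v, huv, hur, hue⟩ := exists_u P E hc
  obtain ⟨u', v', -, hur', hue'⟩ := exists_u P E' hc
  set hs3 : Fin 3 → smf A := ![u * cj (R.h 0), u' * cj (R.h 1), cj (R.h 2)] with hhs3
  obtain ⟨jo, D⟩ := exists_dual R.res hs3
  -- a good neighbourhood
  have hev : ∀ᶠ x in 𝓝 p,
      S.s (S.c p) x = (if S.sg p then (R.h 0).1 x else conj ((R.h 0).1 x)) ∧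
      S.s' (S.c p) x = (R.h 1).1 x ∧ (R.h 0).1 x = (A.e (S.c p) x - A.e (S.c p) p) 0 ∧
      (R.h 1).1 x = (A.e (S.c p) x - A.e (S.c p) p) 1 ∧ (R.h 2).1 x = 0 ∧
      u.1 x = (wt P E (S.c p) x : ℂ) ∧ u'.1 x = (wt P E' (S.c p) x : ℂ) ∧
      x ∈ (A.e (S.c p)).source ∧ x ∈ W := by
    filter_upwards [S.std p hp, R.h0, R.h1, R.h2, hue, hue',
      (A.e (S.c p)).open_source.mem_nhds hc, hW] with x a1 a2 a3 a4 a5 a6 a7 a8
    refine ⟨?_, ?_, a2, a3, a4, a5, a6, a7, a8⟩
    · rw [a1.1, a2]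
    · rw [a1.2, a3]
  obtain ⟨U, hU, hUo, hpU⟩ := eventually_nhds_iff.1 hev
  obtain ⟨φ, b1, b2, b3, -, b4, b5⟩ := exists_bump A (hUo.mem_nhds hpU)
  have hφ : ∀ q, SmN A (fun x => (φ x : ℂ)) q := fun q => (b1 q).ofReal
  set σ : smf A := mk' (fun x => (φ x : ℂ)) hφ with hσdef
  have hσv : ∀ x, σ.1 x = (φ x : ℂ) := fun x => rfl
  have hsub0 : tsupport σ.1 ⊆ tsupport φ := by
    refine closure_mono fun y hy h0 => hy ?_
    rw [hσv, h0]; rfl
  have hσU : tsupport σ.1 ⊆ U := hsub0.trans b3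
  have hUc : U ⊆ (A.e (S.c p)).source := fun x hx => (hU x hx).2.2.2.2.2.2.2.1
  have hσc : tsupport σ.1 ⊆ (A.e (S.c p)).source := hσU.trans hUc
  have hσ0 : ∀ x, x ∉ U → σ.1 x = 0 := fun x hx =>
    image_eq_zero_of_notMem_tsupport fun h => hx (hσU h)
  -- the two line triples
  have k0 : ∀ x, (hs3 0).1 x = u.1 x * conj ((R.h 0).1 x) := fun x => rfl
  have k1 : ∀ x, (hs3 1).1 x = u'.1 x * conj ((R.h 1).1 x) := fun x => rfl
  have k2 : ∀ x, (hs3 2).1 x = conj ((R.h 2).1 x) := fun x => rfl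
  obtain ⟨X2⟩ := triL_I P (isSec_of S.sec') hσc (R.h 1) (hs3 1)
    (fun y => by
      by_cases hy : y ∈ U
      · rw [(hU y hy).2.1]
      · rw [hσ0 y hy, zero_mul, zero_mul])
    (fun y => by
      by_cases hy : y ∈ U
      · rw [k1, hdual_eq P E' (isSec_of S.sec') (hUc hy), (hU y hy).2.2.2.2.2.2.1,
          (hU y hy).2.1]
      · rw [hσ0 y hy, zero_mul, zero_mul])
  have h2 : σ * R.h 2 = 0 := smf_ext fun x => by
    show σ.1 x * (R.h 2).1 x = 0
    by_cases hx : x ∈ U
    · rw [(hU x hx).2.2.2.2.1, mul_zero]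
    · rw [hσ0 x hx, zero_mul]
  have hs2 : σ * hs3 2 = 0 := smf_ext fun x => by
    show σ.1 x * (hs3 2).1 x = 0
    by_cases hx : x ∈ U
    · rw [k2, (hU x hx).2.2.2.2.1, map_zero, mul_zero]
    · rw [hσ0 x hx, zero_mul]
  have nd : ∀ f : smf A, R.h 0 * f = 0 → σ * f = 0 :=
    nd_of hc hUo hUc hσU (fun x hx => (hU x hx).2.2.1)
  have dv := dv_of hc hUo hUc hσU (h := R.h) (fun x hx => (hU x hx).2.2.1)
    (fun x hx => (hU x hx).2.2.2.1) (fun x hx => (hU x hx).2.2.2.2.1)
  set T : Tri (smf A) := (triL (P := P) (isSec_of S.sec)).mul (triL (P := P)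
        (isSec_of S.sec')) with hT
  have hgU : ∀ x ∈ U, T.g.1 x = u.1 x * conj ((R.h 0).1 x) * (R.h 0).1 x +
      u'.1 x * conj ((R.h 1).1 x) * (R.h 1).1 x := by
    intro x hx
    have e1 : T.g.1 x = (nsq P E (fun i x _ => S.s i x) x : ℂ) +
      (nsq P E' (fun i x _ => S.s' i x) x : ℂ) := rfl
    rw [e1, nsq_loc P (isSec_of S.sec) (hUc hx), nsq_loc P (isSec_of S.sec') (hUc hx),
      (hU x hx).1, (hU x hx).2.1, (hU x hx).2.2.2.2.2.1, (hU x hx).2.2.2.2.2.2.1]
    split_ifs
    · rfl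
    · rw [Complex.conj_conj]; ring
  -- the index of the point triple
  have hind : I.data.indR ((ptTri D).kap I) = 1 := by
    rw [kap_ptTri, c_one_fin, map_sub, map_add, R.ind]
    have h3 : ((3 : ℕ) : I.Rg) = (3 : ℕ) • (1 : I.Rg) := by rw [nsmul_eq_mul, mul_one]
    rw [h3, map_nsmul]
    simp only [nsmul_eq_mul]
    push_cast
    ring
  have hgp : ∀ x, ∃ r : ℝ, 0 ≤ r ∧ (ptTri D).g.1 x = r ∧ (x ≠ p → 0 < r) := by
    intro x
    obtain ⟨r1, hr1, q1⟩ := hur x
    obtain ⟨r2, hr2, q2⟩ := hur' x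
    have e1 : (ptTri D).g.1 x = (R.h 0).1 x * (hs3 0).1 x + (R.h 1).1 x * (hs3 1).1 x +
        (R.h 2).1 x * (hs3 2).1 x := by
      have e2 : (ptTri D).g = R.h 0 * hs3 0 + R.h 1 * hs3 1 + R.h 2 * hs3 2 := by
        show ∑ a, R.h a * hs3 a = _
        rw [Fin.sum_univ_three]
      rw [e2]; rfl
    have e3 : ∀ w : ℂ, w * conj w = ((‖w‖ ^ 2 : ℝ) : ℂ) := by
      intro w
      rw [Complex.mul_conj, Complex.normSq_eq_norm_sq]
    refine ⟨r1 * ‖(R.h 0).1 x‖ ^ 2 + r2 * ‖(R.h 1).1 x‖ ^ 2 + ‖(R.h 2).1 x‖ ^ 2, by positivity,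
      ?_, fun hx => ?_⟩
    · rw [e1, k0, k1, k2, q1, q2]
      push_cast
      have f0 := e3 ((R.h 0).1 x)
      have f1 := e3 ((R.h 1).1 x)
      have f2 := e3 ((R.h 2).1 x)
      push_cast at f0 f1 f2
      linear_combination (r1 : ℂ) * f0 + (r2 : ℂ) * f1 + f2
    · obtain ⟨i, hi⟩ := R.nz x hx
      have hi' := norm_pos_iff.2 hi
      have n0 : 0 ≤ r1 * ‖(R.h 0).1 x‖ ^ 2 := by positivity
      have n1 : 0 ≤ r2 * ‖(R.h 1).1 x‖ ^ 2 := by positivity
      have n2 : 0 ≤ ‖(R.h 2).1 x‖ ^ 2 := by positivity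
      fin_cases i
      · have : 0 < r1 * ‖(R.h 0).1 x‖ ^ 2 := by
          have h9 : 0 < ‖(R.h 0).1 x‖ := hi'
          positivity
        linarith
      · have : 0 < r2 * ‖(R.h 1).1 x‖ ^ 2 := by
          have h9 : 0 < ‖(R.h 1).1 x‖ := hi'
          positivity
        linarith
      · have : 0 < ‖(R.h 2).1 x‖ ^ 2 := by
          have h9 : 0 < ‖(R.h 2).1 x‖ := hi'
          positivity
        linarith
  -- the values of the cut-off
  have hτ : ∀ x, (σ * σ * (σ * (1 * (σ * σ))) : smf A).1 x = ((φ x ^ 5 : ℝ) : ℂ) := by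
    intro x
    show (φ x : ℂ) * (φ x : ℂ) * ((φ x : ℂ) * (1 * ((φ x : ℂ) * (φ x : ℂ)))) = _
    push_cast; ring
  have hτ1 : ∀ x, ∃ r : ℝ, 0 ≤ r ∧ r ≤ 1 ∧ (σ * σ * (σ * (1 * (σ * σ))) : smf A).1 x = r :=
    fun x => ⟨φ x ^ 5, pow_nonneg (b4 x) 5, pow_le_one₀ (b4 x) (b5 x), hτ x⟩
  have hτp : (σ * σ * (σ * (1 * (σ * σ))) : smf A).1 p = 1 := by
    rw [hτ p, b2.self_of_nhds]; norm_num
  have hσW : ∀ x ∉ W, σ.1 x = 0 := fun x hx => hσ0 x fun hxU => hx (hU x hxU).2.2.2.2.2.2.2.2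
  have hσmul : ∀ {a b : smf A}, (∀ x ∈ U, a.1 x = b.1 x) → σ * (1 * (σ * σ)) * a =
      σ * (1 * (σ * σ)) * b := by
    intro a b hab
    refine smf_ext fun x => ?_
    show σ.1 x * (1 * (σ.1 x * σ.1 x)) * a.1 x = σ.1 x * (1 * (σ.1 x * σ.1 x)) * b.1 x
    by_cases hx : x ∈ U
    · rw [hab x hx]
    · rw [hσ0 x hx]; ring
  by_cases hsg : S.sg p = true
  · -- positive zero
    obtain ⟨X1⟩ := triL_I P (isSec_of S.sec) hσc (R.h 0) (hs3 0)
      (fun y => by
        by_cases hy : y ∈ U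
        · have := (hU y hy).1
          rw [if_pos hsg] at this
          rw [this]
        · rw [hσ0 y hy, zero_mul, zero_mul])
      (fun y => by
        by_cases hy : y ∈ U
        · have := (hU y hy).1
          rw [if_pos hsg] at this
          rw [k0, hdual_eq P E (isSec_of S.sec) (hUc hy), (hU y hy).2.2.2.2.2.1, this]
        · rw [hσ0 y hy, zero_mul, zero_mul])
    let X : Ident T (Kz (R.h 0) (R.h 1) (hs3 0) (hs3 1)) (σ * (1 * (σ * σ))) :=
      scaleI (comp (mulI X1 X2) (mulL1 _ _ _ _)) σ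
    obtain ⟨Y, hY⟩ := chain_pos D X (supp_scaleI _ σ) (hσmul fun x hx => by
      rw [hgU x hx]; rfl) h2 hs2 nd dv
    refine ⟨σ, _, addR (ptTri D), Y, hY, hσW, hτ1, hτp, hgp, ?_⟩
    rw [kap_addR, hind, if_pos hsg]
  · -- negative zero
    have hX1 : Nonempty (Ident (triL (P := P) (isSec_of S.sec)) (L1 (hs3 0) (R.h 0)) σ) := by
      obtain ⟨X0⟩ := triL_I P (isSec_of S.sec) hσc (cj (R.h 0)) (u * R.h 0)
        (fun y => by
          by_cases hy : y ∈ U
          · have := (hU y hy).1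
            rw [if_neg hsg] at this
            rw [this]; rfl
          · rw [hσ0 y hy, zero_mul, zero_mul])
        (fun y => by
          by_cases hy : y ∈ U
          · have h7 := (hU y hy).1
            rw [if_neg hsg] at h7
            rw [hdual_eq P E (isSec_of S.sec) (hUc hy), ← (hU y hy).2.2.2.2.2.1, h7,
              Complex.conj_conj]
            rfl
          · rw [hσ0 y hy, zero_mul, zero_mul])
      have e1 : v * (u * R.h 0) = R.h 0 := by
        rw [← mul_assoc, mul_comm v u, huv, one_mul]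
      have X00 : Ident (triL (P := P) (isSec_of S.sec)) (L1 (u * cj (R.h 0)) (v * (u * R.h 0)))
        (1 * σ) := comp X0 (frameI _ _ u v huv)
      rw [e1, one_mul] at X00
      exact ⟨X00⟩
    obtain ⟨X1⟩ := hX1
    let X : Ident T (Kz (hs3 0) (R.h 1) (R.h 0) (hs3 1)) (σ * (1 * (σ * σ))) :=
      scaleI (comp (mulI X1 X2) (mulL1 _ _ _ _)) σ
    obtain ⟨Y, hY⟩ := chain_neg D X (supp_scaleI _ σ) (hσmul fun x hx => by
      rw [hgU x hx]
      show _ = (R.h 0).1 x * (hs3 0).1 x + (hs3 1).1 x * (R.h 1).1 x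
      rw [k0, k1]; ring) h2 hs2 nd dv
    refine ⟨σ, _, addT (rev (ptTri D)), Y, hY, hσW, hτ1, hτp, hgp, ?_⟩
    rw [kap_addT, kap_rev, map_neg, hind, if_neg hsg]

/-- **THEOREM D3**: the index form of two line bundles is the signed number of zeros of a standard
pair of sections. -/
theorem linkIdx (hpt : ∀ p c, p ∈ (A.e c).source → Nonempty (PtRes A I p c)) (E E' : SB A)
    [Unique E.ρ] [Unique E'.ρ] (S : StdPair A (gsc E) (gsc E')) :
    I.data.indR ((1 - cE P I E) * (1 - cE P I E')) = ∑ p ∈ S.Z, if S.sg p then 1 else -1 := by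
  classical
  obtain ⟨W, hW1, hW2⟩ := S.Z.finite_toSet.t2_separation
  set k := S.Z.card with hk
  let z : Fin k → M := fun j => (S.Z.equivFin.symm j : M)
  have hz : ∀ j, z j ∈ S.Z := fun j => (S.Z.equivFin.symm j).2
  have hzi : ∀ i j, i ≠ j → z i ≠ z j := fun i j hij h =>
    hij (S.Z.equivFin.symm.injective (Subtype.ext h))
  have key := fun j => local_model P I hpt E E' S (hz j) ((hW1 (z j)).2.mem_nhds (hW1 (z j)).1)
  set T : Tri (smf A) := (triL (P := P) (isSec_of S.sec)).mul (triL (P := P)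
        (isSec_of S.sec')) with hT
  choose σ τ T' Y hY hσ hτ hτ1 hg hind using key
  have hdis : ∀ i j, i ≠ j → σ i * σ j = 0 := by
    intro i j hij
    refine smf_ext fun x => ?_
    show (σ i).1 x * (σ j).1 x = 0
    by_cases h1 : x ∈ W (z i)
    · have h2 : x ∉ W (z j) := fun h2 =>
        Set.disjoint_left.1 (hW2 (hz i) (hz j) (hzi i j hij)) h1 h2
      rw [hσ j x h2, mul_zero]
    · rw [hσ i x h1, zero_mul]
  -- unit conditions
  have hTg : ∀ x, ∃ r : ℝ, 0 ≤ r ∧ (addR (addT T)).g.1 x = r ∧ (x ∉ S.Z → 0 < r) := by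
    intro x
    refine ⟨nsq P E (fun i x _ => S.s i x) x + nsq P E' (fun i x _ => S.s' i x) x,
      add_nonneg (nsq_nonneg _ _ _) (nsq_nonneg _ _ _), ?_, fun hx => ?_⟩
    · have e1 : T.g.1 x = (nsq P E (fun i x _ => S.s i x) x : ℂ) +
        (nsq P E' (fun i x _ => S.s' i x) x : ℂ) := rfl
      rw [addR_g, addT_g, e1]; push_cast; rfl
    · obtain ⟨i, hi⟩ := A.cover x
      have h0 := (S.zero_iff i x hi).not.2 hx
      have n1 := nsq_nonneg (P := P) E (fun i x _ => S.s i x) x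
      have n2 := nsq_nonneg (P := P) E' (fun i x _ => S.s' i x) x
      by_cases h1 : S.s i x = 0
      · have h2 : S.s' i x ≠ 0 := fun h2 => h0 ⟨h1, h2⟩
        have := nsq_pos (P := P) (isSec_of S.sec') hi (fun h => h2 (congrFun h default))
        linarith
      · have := nsq_pos (P := P) (isSec_of S.sec) hi (fun h => h1 (congrFun h default))
        linarith
  have hu : IsUnit ((1 - ∑ i, τ i) * (1 - ∑ i, τ i) * (addR (addT T)).g + ∑ i, τ i * τ i) := by
    rw [Smf798.isUnit_iff]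
    intro x
    choose r hr1 hr2 hr3 using fun j => hτ j x
    obtain ⟨g, hg0, hg1, hg2⟩ := hTg x
    have e0 : ((1 - ∑ i, τ i) * (1 - ∑ i, τ i) * (addR (addT T)).g + ∑ i, τ i * τ i).1 x =
        (((1 - ∑ i, r i) * (1 - ∑ i, r i) * g + ∑ i, r i * r i : ℝ) : ℂ) := by
      have e1 : ((1 - ∑ i, τ i) * (1 - ∑ i, τ i) * (addR (addT T)).g + ∑ i, τ i * τ i).1 x =
          ev x ((1 - ∑ i, τ i) * (1 - ∑ i, τ i) * (addR (addT T)).g + ∑ i, τ i * τ i) := rfl
      rw [e1]
      simp only [map_add, map_mul, map_sub, map_one, map_sum, ev_apply, hr3, hg1]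
      push_cast; rfl
    rw [e0, Ne, Complex.ofReal_eq_zero]
    have p1 : 0 ≤ (1 - ∑ i, r i) * (1 - ∑ i, r i) * g := mul_nonneg (mul_self_nonneg _) hg0
    have p2 : 0 ≤ ∑ i, r i * r i := Finset.sum_nonneg fun i _ => mul_self_nonneg _
    by_cases hr : ∀ i, r i = 0
    · have hxZ : x ∉ S.Z := by
        intro hx
        obtain ⟨j, hj⟩ : ∃ j, z j = x := ⟨S.Z.equivFin ⟨x, hx⟩, by
          show ((S.Z.equivFin.symm (S.Z.equivFin ⟨x, hx⟩) : S.Z) : M) = x
          rw [Equiv.symm_apply_apply]⟩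
        have h1 := hτ1 j
        rw [hj, hr3 j, hr j] at h1
        norm_num at h1
      have := hg2 hxZ
      simp only [hr, Finset.sum_const_zero, sub_zero, mul_one, one_mul, mul_zero, add_zero]
      exact this.ne'
    · push Not at hr
      obtain ⟨j, hj⟩ := hr
      have : 0 < ∑ i, r i * r i :=
        Finset.sum_pos' (fun i _ => mul_self_nonneg _) ⟨j, Finset.mem_univ _, mul_self_pos.2 hj⟩
      linarith
  have hv : ∀ j, IsUnit (τ j * τ j + (1 - τ j) * (1 - τ j) * (T' j).g) := by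
    intro j
    rw [Smf798.isUnit_iff]
    intro x
    obtain ⟨r, hr1, hr2, hr3⟩ := hτ j x
    obtain ⟨g, hg0, hg1, hg2⟩ := hg j x
    have e0 : (τ j * τ j + (1 - τ j) * (1 - τ j) * (T' j).g).1 x =
        ((r * r + (1 - r) * (1 - r) * g : ℝ) : ℂ) := by
      have e1 : (τ j * τ j + (1 - τ j) * (1 - τ j) * (T' j).g).1 x =
          ev x (τ j * τ j + (1 - τ j) * (1 - τ j) * (T' j).g) := rfl
      rw [e1]
      simp only [map_add, map_mul, map_sub, map_one, ev_apply, hr3, hg1]
      push_cast; rfl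
    rw [e0, Ne, Complex.ofReal_eq_zero]
    have p1 : 0 ≤ (1 - r) * (1 - r) * g := mul_nonneg (mul_self_nonneg _) hg0
    by_cases hr : r = 0
    · have hxp : x ≠ z j := by
        rintro rfl
        have h1 := hτ1 j
        rw [hr3, hr] at h1
        norm_num at h1
      have := hg2 hxp
      rw [hr]
      simp only [mul_zero, sub_zero, mul_one, one_mul, zero_add]
      exact this.ne'
    · have : 0 < r * r := mul_self_pos.2 hr
      linarith
  have hloc := kap_loc (fam Y hY hdis) I hu hv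
  rw [kap_addR, kap_addT, Tri.kap_mul, kap_triL, kap_triL] at hloc
  rw [hloc, map_sum]
  simp only [hind]
  rw [← Finset.sum_coe_sort S.Z (fun p => if S.sg p then (1 : ℤ) else -1)]
  exact S.Z.equivFin.symm.sum_comp (fun p : S.Z => if S.sg p then (1 : ℤ) else -1)

end

end Crest.Agent.R275.LnkG894
end

-- ▼ part R275/LnkH_894
section

set_option autoImplicit false
set_option linter.unusedSectionVars false

open Set Filter Topology
open Crest.Agent.R275.Geo Crest.Agent.R275.Smf798 Crest.Agent.R275.KR798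
open Crest.Agent.R275.SB798 Crest.Agent.R275.GC293 Crest.Agent.R275.ChiM825
open Crest.Agent.R275.LnkF894 Crest.Agent.R275.LnkG894 Crest.Agent.R275.StdSec880
open Crest.Agent.R275.LnkCup692 Crest.Agent.R275.ASZ627

namespace Crest.Agent.R275.LnkH894

noncomputable section

variable {M : Type} [TopologicalSpace M] {A : Atl 2 M}

/-- a smooth line bundle gives a smooth cocycle in the sense of `StdSec_880` -/
theorem sCoc (L : SLB A) : SCoc A L.g where
  sm i j := (smOn_inter_iff i j).1 (L.sm i j)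
  self i x hx := L.one i x hx
  mul i j k x hx := L.mul i j k x hx

variable [T2Space M] [CompactSpace M] (P : Part A) (I : KIndex (smf A))

/-- the index form counts zeros -/
theorem bL_eq_deg (hpt : ∀ p c, p ∈ (A.e c).source → Nonempty (PtRes A I p c)) (L L' : SLB A)
    (S : StdPair A L.g L'.g) : bL P I L L' = StdPair.deg S := by
  rw [bL_eq]
  have h := linkIdx P I hpt (toSB L) (toSB L') S
  rw [show cl P I L = cE P I (toSB L) from rfl, show cl P I L' = cE P I (toSB L') from rfl, h,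
    StdPair.deg]
  refine Finset.sum_congr rfl fun p _ => ?_
  cases hs : S.sg p <;> simp [sgn]

/-- **LINK**: the index form is the cup product form. -/
theorem link (hpt : ∀ p c, p ∈ (A.e c).source → Nonempty (PtRes A I p c)) {R : Type*}
    [AddCommGroup R] (O : OrE M R) (one : R) {L L' : SLB A} {c c' : A.ι → A.ι → A.ι → ℤ}
    (hc : IsC1 L c) (hc' : IsC1 L' c') {lab : M → A.ι}
    (hlab : RLab (fun i => (A.e i).source) lab)
    (nrm : ∀ (i : A.ι) (p : M), p ∈ (A.e i).source → ∃ V ∈ 𝓝 p, closure V ⊆ (A.e i).source ∧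
      O.E (tau A i p V) = one) :
    O.E (cup 2 (lp lab c) (lp lab c')) = bL P I L L' • one := by
  obtain ⟨S⟩ := stdPair (sCoc L) (sCoc L')
  rw [bL_eq_deg P I hpt L L' S, linkCup_int O one A S hc hc' hlab nrm]


end

end Crest.Agent.R275.LnkH894
end

-- ▼ part R275/LnkI_894
section

set_option autoImplicit false
set_option linter.unusedSectionVars false

open Set Filter Topology
open Crest.Agent.R275.Geo Crest.Agent.R275.Smf798 Crest.Agent.R275.KR798
open Crest.Agent.R275.SB798 Crest.Agent.R275.GC293 Crest.Agent.R275.ChiM825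
open Crest.Agent.R275.LnkF894 Crest.Agent.R275.LnkG894 Crest.Agent.R275.StdSec880
open Crest.Agent.R275.LnkCup692 Crest.Agent.R275.ASZ627 Crest.Agent.R275.LnkP6476
open Crest.Agent.R275.MI683 Crest.Agent.R275.Lam2130 Crest.Agent.R275.SmR425

namespace Crest.Agent.R275.LnkI894

noncomputable section

variable {M : Type} [TopologicalSpace M] [T2Space M] [CompactSpace M] {A : Atl 2 M}
  {G : ModSc (smf A) (Sec (lam2 A))}

/-- the resolutions of points exist for the geometric index -/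
theorem ptRes (hσ : ∀ f : smf A, G.σ f = f) (hG : IsCoh G) (P : Part A) (p : M) (c : A.ι)
    (hp : p ∈ (A.e c).source) : Nonempty (PtRes A (G.kIndex hσ) p c) := by
  obtain ⟨h, N, q, io, R, h0, h1, h2, h3, -, h4⟩ := ind_pt hσ hG P hp
  exact ⟨{ h := h, n := Fin N, q := q, io := io, res := R, h0 := h0, h1 := h1, h2 := h2,
           nz := h3, ind := h4 }⟩


end

end Crest.Agent.R275.LnkI894
end

-- ▼ part R275/XNJ_106
section

/-!
# R275 (S0418), block K: LINK plugged into the constructor of `XNIn` (helper106)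

* `link_of`  : `KX106.Link` from helper894's `link` and the normalisation `Nrm`;
* `xnIn'`    : `XNIn` from `CMData`, the point resolutions, and the orientation functional;
* `xnInG`    : the same for the geometric index of helper683.
-/

set_option autoImplicit false
set_option linter.unusedSectionVars false

open Set Filter Topology

namespace Crest.Agent.R275.XNI106

open TopK106 Zig470 Geo Smf798 KR798 SB798 GC293 Core144 ASConv293 KAsm106 KZig106 PDB412 ChiM825
  NEul865 KX106 XN194 NForm945 NGeo151 NTr151 PDY945 WtY945 INX945 EBF151 Loc647 QPb635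

noncomputable section

section link

variable {M : Type} [TopologicalSpace M] [CompactSpace M] [T2Space M] {A : Atl 2 M}

/-- LINK for a normalised orientation functional -/
theorem link_of (P : Part A) (I : KIndex (smf A))
    (hpt : ∀ p c, p ∈ (A.e c).source → Nonempty (LnkF894.PtRes A I p c))
    {E : (List M → ℤ) → ℝ} (D : Ev 3 E) (hN : Nrm A E) {lab : M → A.ι}
    (hlab : Lab (UA A) lab) : Link P I E lab := by
  intro L L' c c' hc hc'
  have h := LnkH894.link P I hpt (orE D) (1 : ℝ) hc hc' (rlab_iff.2 hlab)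
    (PDB2412.tau_of_nrm D hN)
  rw [zsmul_eq_mul, mul_one] at h
  exact h

/-- the geometric index of helper683 (a structure over `A`, so that it can be used at lifted atlases
without synthesising instances) -/
structure GIx (A : Atl 2 M) where
  G : MI683.ModSc (smf A) (Geo.Sec (Lam2130.lam2 A))
  hσ : ∀ f : smf A, G.σ f = f
  coh : LnkP6476.IsCoh G

/-- the index map -/
def GIx.I (g : GIx A) : KIndex (smf A) := g.G.kIndex g.hσ

theorem GIx.ptRes (g : GIx A) (P : Part A) (p : M) (c : A.ι) (hp : p ∈ (A.e c).source) :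
    Nonempty (LnkF894.PtRes A g.I p c) := LnkI894.ptRes g.hσ g.coh P p c hp

/-- LINK for the geometric index of helper683 -/
theorem GIx.link (g : GIx A) (P : Part A)
    {E : (List M → ℤ) → ℝ} (D : Ev 3 E) (hN : Nrm A E) {lab : M → A.ι}
    (hlab : Lab (UA A) lab) : Link P g.I E lab :=
  link_of P _ (g.ptRes P) D hN hlab

end link

variable {M Z Z' : Type} [TopologicalSpace M] [TopologicalSpace Z] [TopologicalSpace Z']
  [T2Space M] [LocallyCompactSpace M] [T2Space Z] [LocallyCompactSpace Z]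
  [T2Space Z'] [CompactSpace Z'] {A : Atl 2 M} [Finite A.ι] {N : ℕ}
  {C : KCov A Z ℤ} {C' : KCov A Z' (ZMod N)}


/-- **constructor of `XNIn` for the geometric index** -/
def xnInG (hpc : PreC A) (P : Part A) (F : KHom C C') (hφ : ∀ k : ℤ, F.φ k = (k : ZMod N))
    (hN : 1 ≤ N) (g : GIx C'.lift) {e : ℤ} (cm : CMData (liftP C' P) g.I e)
    {lab : Z' → A.ι × ZMod N} (hlab : Lab (UA C'.lift) lab)
    (G : EFn Z' (fun v : A.ι × ZMod N => C'.sheet v.1 v.2) lab (jw (liftP C' P)))
    (hNrm : Nrm C'.lift G.E) (he : Rk C'.lift e) : XNIn (wtY C hpc P) N e :=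
  xnIn hpc P F hφ hN cm hlab G hNrm
    (g.link (liftP C' P) (ev_of_efn G) hNrm hlab) he

end

end Crest.Agent.R275.XNI106
end

-- ▼ part R275/KDual_106

/-!
# R275 (S0418), block K: the orientation functional on coverings, duality on `Y` (helper106)

* `exists_efn` : for `C : KCov A Z K` over a compact surface, labels and the orientation functional
  `EFn` of `Z` with the weights `jw (liftP C P)`, normalised;
* `dual_lift`  : the field `dual` of `EBF151.formsX` for the weight `wtY C hpc P`;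
* `xnIn_of`    : `XNIn` from `CMData` for the geometric index and the rank bound;
* `formsK`     : `Forms` from `CMData` on all `X_N`.
-/

set_option autoImplicit false
set_option linter.unusedSectionVars false

open Set Filter Topology

namespace Crest.Agent.R275.XNI106

open TopK106 Zig470 Geo Smf798 KR798 SB798 GC293 Core144 ASConv293 KAsm106 KZig106 PDB412 ChiM825
  NEul865 KX106 XN194 NForm945 NGeo151 NTr151 PDY945 WtY945 INX945 EBF151 Loc647 QPb635 KY293
  Dual945

noncomputable section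

section efn

variable {K : Type} [AddCommGroup K] [Countable K] {M Z : Type} [TopologicalSpace M]
  [TopologicalSpace Z] [T2Space M] [CompactSpace M] [T2Space Z] [LocallyCompactSpace Z]
  {A : Atl 2 M} [Finite A.ι]

/-- the orientation functional of a covering of a compact surface, for given robust labels -/
theorem exists_efn_lab (C : KCov A Z K) (hpc : PreC A) (P : Part A) :
    ∃ (E : (List Z → ℤ) → ℝ), Ev 3 E ∧ Nrm C.lift E ∧ ∀ lab : Z → A.ι × K,
      Lab (sh C) lab → ∃ G : EFn Z (sh C) lab (jw (liftP C P)), G.E = E := by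
  have hc : Countable C.lift.ι := inferInstanceAs (Countable (A.ι × K))
  obtain ⟨E, D, hN, hl⟩ := EOF627.exists_functional (B := C.lift) (liftP C P)
    (fun v => isCompact_closure_sheet C hpc v)
  exact ⟨E, D, hN, fun lab hlab => ⟨efn D (hl lab hlab), rfl⟩⟩

/-- labels and orientation functional of a covering of a compact surface -/
theorem exists_efn (C : KCov A Z K) (hpc : PreC A) (P : Part A) :
    ∃ (lab : Z → A.ι × K) (_ : Lab (sh C) lab) (G : EFn Z (sh C) lab (jw (liftP C P))),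
      Nrm C.lift G.E := by
  obtain ⟨lab, hlab⟩ := exists_lab_lift C
  obtain ⟨E, -, hN, h⟩ := exists_efn_lab C hpc P
  obtain ⟨G, rfl⟩ := h lab hlab
  exact ⟨lab, hlab, G, hN⟩

end efn

section dual

variable {M Z : Type} [TopologicalSpace M] [TopologicalSpace Z] [T2Space M] [CompactSpace M]
  [T2Space Z] [LocallyCompactSpace Z] {A : Atl 2 M} [Finite A.ι] (C : KCov A Z ℤ)

/-- **Poincaré duality on `Y`**, no hypothesis left -/
theorem pDual_wtY (hA : GoodA A) (hpc : PreC A) (P : Part A) : PDual (wtY C hpc P) := by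
  obtain ⟨lab, hlab, G, hN⟩ := exists_efn C hpc P
  exact pDual_lift C hA hpc (wtY C hpc P) hlab G hN

/-- the field `dual` of `formsX` -/
theorem dual_lift (hA : GoodA A) (hpc : PreC A) (P : Part A) (w : ℕ) :
    ∃ (r : ℕ) (x : Fin r → C2 (A.ι × ℤ)), (∀ i, x i ∈ (nerve C hpc).Z2c) ∧
      ∀ c ∈ (nerve C hpc).Z2, (∀ i, (wtY C hpc P).IYR c (x i) = 0) → ∃ d : ℕ, 0 < d ∧
        ∃ u : A.ι × ℤ → A.ι × ℤ → ℤ, ∀ i j k, (nerve C hpc).N3 i j k →
        (0 ≤ (nerve C hpc).p i ∧ (nerve C hpc).p i ≤ w) →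
        (0 ≤ (nerve C hpc).p j ∧ (nerve C hpc).p j ≤ w) →
        (0 ≤ (nerve C hpc).p k ∧ (nerve C hpc).p k ≤ w) →
        (d : ℤ) * c i j k = u j k - u i k + u i j :=
  dual_of_PDual (wtY C hpc P) (pDual_wtY C hA hpc P) w

end dual

section xn

variable {M Z Z' : Type} [TopologicalSpace M] [TopologicalSpace Z] [TopologicalSpace Z']
  [T2Space M] [CompactSpace M] [T2Space Z] [LocallyCompactSpace Z]
  [T2Space Z'] [CompactSpace Z'] {A : Atl 2 M} [Finite A.ι] {N : ℕ}
  {C : KCov A Z ℤ} {C' : KCov A Z' (ZMod N)}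

/-- **`XNIn` from `CMData` for the geometric index and the rank bound** -/
theorem nonempty_xnIn (hpc : PreC A) (P : Part A) (F : KHom C C')
    (hφ : ∀ k : ℤ, F.φ k = (k : ZMod N)) (hN : 1 ≤ N) (g : GIx C'.lift) {e : ℤ}
    (cm : CMData (liftP C' P) g.I e) (he : Rk C'.lift e) :
    Nonempty (XNIn (wtY C hpc P) N e) := by
  have : NeZero N := ⟨by omega⟩
  obtain ⟨lab, hlab, G, hG⟩ := exists_efn C' hpc P
  exact ⟨xnInG hpc P F hφ hN g cm hlab G hG he⟩


/-- **`Forms` from the data on all `X_N`** -/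
def formsK (hA : GoodA A) (hpc : PreC A) (P : Part A) {κ : A.ι → A.ι → A.ι → ℤ}
    (hκ : IsC1 (slb (KB A)) κ)
    (D : ∀ N : ℕ, 1 ≤ N → ∃ e : ℤ, Nonempty (XNIn (wtY C hpc P) N e))
    (hb₂ : ∃ c : GC293.Z2 A ℤ, ∀ m : ℤ, m • c.1 ∈ GC293.B2 A ℤ → m = 0) : Forms (nerve C hpc) :=
  formsX (wtY C hpc P) hκ D (dual_lift C hA hpc P) hb₂

end xn

end

end Crest.Agent.R275.XNI106
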