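import Crest.Agent.R275.ZC9_352
import Crest.Agent.R275.Lau4D_473
import Crest.Agent.R275.Core_144

/-! R275, block ZC (helper352), file 10: `Deck`, `EndCover` and `HasLog` for the `Z`-cover. -/

set_option autoImplicit false
set_option linter.unusedSectionVars false

open Topology Set Filter
open scoped Manifold ContDiff

namespace Crest.Agent.R275.ZC352

open Crest.AlgGeometry.Surface Crest.Agent.R275.HolY631

noncomputable section

section powers

variable {Y : Type} [TopologicalSpace Y]


end powers

section cover

variable {X : Type} [TopologicalSpace X]

namespace YC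

variable (u : C(X, Circ))




variable [ChartedSpace C2 X] [IsManifold 𝓘(ℂ, C2) 1 X]

theorem deck [CompactSpace X] : Deck (dk u) (ht u) where
  hol := contMDiff_dk u
  hol_symm := contMDiff_dk_symm u
  cont := continuous_ht u
  shift := ht_dk u
  slab := isCompact_slab u


end YC


end cover

section haslog

variable {X : Type} [TopologicalSpace X] [T2Space X] [CompactSpace X] [ConnectedSpace X]
  [ChartedSpace C2 X] [IsManifold 𝓘(ℂ, C2) 1 X] (u : C(X, Circ))


end haslog

end

end Crest.Agent.R275.ZC352
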