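import Mathlib
import Crest.Agent.R275.LargeEndB_884
import Crest.Agent.R275.ZC10_352
import Crest.Agent.R275.Xin_473
import Crest.Agent.R275.YCneg_630
import Crest.Agent.R275.YBaseX_144
import Crest.Agent.R275.FlXC_161
import Crest.Agent.R275.HSe_328
import Crest.Agent.R275.QPe_893
import Crest.Agent.R275.KY_293
import Crest.Agent.R275.WD_977
import Crest.Agent.R275.KDual_106
import Crest.Agent.R275.IndR_151
import Crest.Agent.R275.KXN_865

-- ▼ part R275/LEnd_884
section

/-!
R275 / S0418 (helper884): the LARGE end of the `ℤ`-cover `YC u` of helper352.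

* `fluxHyp_YC`, `largeEnd_YC` : `LargeEnd (YC.dk u) (YC.ht u)` or the same for the flipped cover;
* `LargeEnd.norm_le`, `LargeEnd.nonSp` : the multipliers at the large end, in helper473's form.
-/

set_option autoImplicit false
set_option linter.unusedSectionVars false

open MeasureTheory Set Filter Topology Metric Crest.AlgGeometry.Surface
open Crest.Agent.R275.FL606 Crest.Agent.R275.HolY631 Crest.Agent.R275.HolL631
open Crest.Agent.R275.ZC352 Crest.Agent.R275.Lau473 Crest.Agent.R275.Xin473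
open scoped Real Manifold ContDiff

namespace Crest.Agent.R275.FL884

section spec

variable {Y : Type} [TopologicalSpace Y] [ChartedSpace C2 Y] [MeasurableSpace Y] [BorelSpace Y]
  {g : Y ≃ₜ Y} {h : Y → ℝ}

/-- all multipliers have absolute value at most `1` -/
theorem LargeEnd.norm_le (H : LargeEnd g h) {t : ℂ} (ht : t ∈ Spec g) : ‖t‖ ≤ 1 := by
  obtain ⟨f, hf, hfg, hne⟩ := ht
  exact H.spec t f hf hfg hne

/-- positive rates of growth are nonspectral -/
theorem LargeEnd.nonSp (H : LargeEnd g h) {r : ℝ} (hr : 0 < r) : NonSp g r := fun t ht htr => by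
  have h1 := H.norm_le ht
  rw [htr] at h1
  exact absurd (Real.exp_le_one_iff.1 h1) (not_le.2 hr)

/-- helper352's sign: negative rates are nonspectral -/
theorem LargeEnd.nonSp_neg (H : LargeEnd g h) {r : ℝ} (hr : r < 0) : NonSp g (-r) :=
  H.nonSp (neg_pos.2 hr)

end spec

section YC

variable {X : Type} [TopologicalSpace X] [T2Space X] [CompactSpace X]
  [ChartedSpace C2 X] [IsManifold 𝓘(ℂ, C2) 1 X] (u : C(X, Circ))

/-- the hypotheses of the flux lemma for the `ℤ`-cover -/
theorem fluxHyp_YC (hs : ContMDiff 𝓘(ℝ, C2) 𝓘(ℝ, ℝ) ∞ (YC.ht u))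
    (hQ : ∀ Q : LPS X ℝ, ∃ (v : ℝ) (F : YC u → ℝ),
      (Q.pull (YC.prC u)).IsPrim F ∧ ∀ y, F (YC.dk u y) = F y - v) :
    FluxHyp (YC.dk u) (YC.ht u) where
  deck := YC.deck u
  smooth := hs.of_le ENat.LEInfty.out
  b1 := b1Prop_YC u hQ


end YC

end Crest.Agent.R275.FL884
end

-- ▼ part R275/Orient_884
section

/-!
R275 / S0418 (helper884): the oriented `ℤ`-cover, no hypotheses left.
-/

set_option autoImplicit false
set_option linter.unusedSectionVars false

open Set Filter Topology Metric Crest.AlgGeometry.Surface Crest.Topology.RationalHomology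
open Crest.Agent.R275.HolY631 Crest.Agent.R275.ZC352 Crest.Agent.R275.YCneg630
open scoped Real Manifold ContDiff

namespace Crest.Agent.R275.FL884

/-- the flux hypotheses of every covering with `CovData` -/
theorem CovData.fluxHyp {X : Type} [TopologicalSpace X] [T2Space X] [CompactSpace X]
    [ChartedSpace C2 X] [IsManifold 𝓘(ℂ, C2) 1 X] {u : C(X, Circ)} (H : CovData u)
    [MeasurableSpace (YC u)] [BorelSpace (YC u)] : FluxHyp (YC.dk u) (YC.ht u) :=
  fluxHyp_YC u H.smooth fun Q => H.univ ℝ Q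

/-- **the oriented covering**: `h → +∞` is the LARGE end of `YC u` -/
theorem exists_large (X : Type) [TopologicalSpace X] [T2Space X] [CompactSpace X]
    [ConnectedSpace X] [ChartedSpace C2 X] [IsManifold 𝓘(ℂ, C2) 1 X]
    (hb₁ : rationalBettiNumber X 1 = 1) :
    ∃ u : C(X, Circ), CovData u ∧
      (letI : MeasurableSpace (YC u) := borel (YC u); LargeEnd (YC.dk u) (YC.ht u)) :=
  exists_oriented X hb₁ fun _ _ _ H => CovData.fluxHyp H

end Crest.Agent.R275.FL884
end

-- ▼ part R275/SkelX_328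
section

/-!
R275 (S0418), X-SIDE (helper328), part 1: facts about helper144's geometric base `G : XGeo X`.

* `exists_geo` : an oriented geometric base from `b₁(X) = 1`;
* `good_at`, `adm_at`, `hol_at`, `h1z_at` : the atlases `G.N.at' ρ` (small and big balls);
* `Zat` (`ZD`), `Zat_lift` : smooth lifts of `u`; `Lat` : 194's `Lifts`;
* `comp_at` : 893's `Comp` for the infinite cyclic covering, all radii;
* `xc N`, `yx N` : the coverings `X_N → X` and `Y → X_N` over the big balls, `rest_yc`, `rest_xc`.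
-/

set_option autoImplicit false

open Set Filter Topology Metric
open scoped Manifold ContDiff

noncomputable section

namespace Crest.Agent.R275.SkelX328

open Crest.AlgGeometry.Surface
open Geo GC293 NAtl938 Core144 Lt893 ZC352 XN194 YCneg630 FL884 Base144 PartN194

/-- **the oriented geometric base** -/
theorem exists_geo (X : Type) [TopologicalSpace X] [T2Space X] [CompactSpace X]
    [ConnectedSpace X] [ChartedSpace C2 X] [IsManifold 𝓘(ℂ, C2) 1 X]
    (hb₁ : Crest.Topology.RationalHomology.rationalBettiNumber X 1 = 1) :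
    ∃ G : XGeo X, CovData G.u ∧
      (letI : MeasurableSpace (YC G.u) := borel (YC G.u); LargeEnd (YC.dk G.u) (YC.ht G.u)) := by
  obtain ⟨u, hu, hL⟩ := exists_large X hb₁
  obtain ⟨G, rfl⟩ := exists_xGeo X u hu.lifts
  exact ⟨G, hu, hL⟩

variable {X : Type} [TopologicalSpace X] [ChartedSpace C2 X] (G : XGeo X)

section at'

variable {ρ : ℝ} (hρ : G.N.r ≤ ρ) (h : ρ ≤ G.N.R)

include h in
theorem smAt_at (i : G.N.ι) : (G.N.at' ρ hρ).SmAt i (G.f i) := by
  have h0 : ((G.N.at' ρ hρ).e i).target ⊆ (G.N₀.big.e i).target := by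
    refine ((G.N.at'_target hρ h i).subset).trans ?_
    refine (ball_subset_ball (h.trans G.h2)).trans (G.N₀.big_target i).symm.subset
  exact ContDiffOn.mono (G.sm i) h0

theorem src_at {i : G.N.ι} {x : X} (hx : x ∈ ((G.N.at' ρ hρ).e i).source) :
    x ∈ (G.N₀.E i).source :=
  G.src_sub i ((G.N.at'_source hρ i).subset hx).1

/-- the lifts of `u` on the balls of radius `ρ` -/
def Zat : ZD (G.N.at' ρ hρ) where
  f := G.f
  sm i := smAt_at G hρ h i
  int i j x hx := by
    have h1 : ((G.f i x : ℝ) : Circ) = ((G.f j x : ℝ) : Circ) := by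
      rw [G.mod i x (src_at G hρ hx.1), G.mod j x (src_at G hρ hx.2)]
    obtain ⟨m, hm⟩ := coe_eq_coe_iff.1 h1
    exact ⟨m, by rw [hm]; ring⟩

theorem Zat_lift : (Zat G hρ h).Lift G.u := fun i x hx => G.mod i x (src_at G hρ hx)


include h in
theorem good_at : GoodA (G.N.at' ρ hρ) := WD977.goodA G.good hρ h

include h in
theorem h1z_at : ∀ i, HS328.H1Z ((G.N.at' ρ hρ).e i).target := HS328.h1z_nested G.N hρ h




variable [IsManifold 𝓘(ℂ, C2) 1 X]

omit [IsManifold 𝓘(ℂ, C2) 1 X] in
theorem adm_at : Adm (G.N.at' ρ hρ) := AdmN.adm G.maxN hρ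

theorem hol_at : HolA (G.N.at' ρ hρ) := HolA.of_max (adm_at G hρ)

end at'

section cov

variable (n : ℕ) [NeZero n]

/-- `X_n → X` over the big balls -/
abbrev xc : KCov G.N.big (XC n G.u) (ZMod n) := xcov n G.u G.L

/-- `Y → X_n` -/
abbrev yx : KHom G.C (xc G n) := yxHom n G.u G.L

theorem yx_φ (k : ℤ) : (yx G n).φ k = (k : ZMod n) := rfl

variable {ρ : ℝ} (hρ : G.N.r ≤ ρ)




end cov

end Crest.Agent.R275.SkelX328
end
end

-- ▼ part R275/SkelXB_328

/-!
R275 (S0418), X-SIDE (helper328), part 2: `Forms` on the nerve of `Y` and the index on `X_n`.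

* `exists_kap`, `hb2_big` : the canonical cocycle and `b₂ > 0` on the big balls;
* `FData G F`   : how `F` was built (partition `Pb`, cocycle `κ`);
* `XnD`         : the inputs on `X_n` (`CMData` and the rank bound) on `(xc G n).lift`;
* `exists_forms` : `F : Forms G.Pn` from `XnD` for all `n`;
* `q0_xc`       : the reduced index on `(nlift G.N (xc G n)).at' ρ` (938, 151).
-/

set_option autoImplicit false

open Set Filter Topology Metric
open scoped Manifold ContDiff

noncomputable section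

namespace Crest.Agent.R275.SkelX328

open Crest.AlgGeometry.Surface
open Geo GC293 NAtl938 Core144 Lt893 ZC352 XN194 YCneg630 FL884 Base144 PartN194
open ChiM825 Loc647 NTr151 NGeo151 EBF151 Smf798 KR798 XNI106 QPb635 WtY945 KX106 Q74

variable {X : Type} [TopologicalSpace X] [ChartedSpace C2 X] (G : XGeo X)

/-- the canonical cocycle on the big balls -/
theorem exists_kap : ∃ κ, IsC1 (slb (KB G.N.big)) κ :=
  exists_isC1 (good_at G G.N.r_le_R le_rfl) _

/-- `b₂ > 0` -/
theorem hb2_big (hb₂ : Nontrivial (Crest.Topology.RationalHomology.rationalHomology X 2)) :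
    ∃ c : GC293.Z2 G.N.big ℤ, ∀ m : ℤ, m • c.1 ∈ GC293.B2 G.N.big ℤ → m = 0 :=
  KXN865.hb2_int (good_at G G.N.r_le_R le_rfl) hb₂

variable [IsManifold 𝓘(ℂ, C2) 1 X]

section forms

variable [CompactSpace X] [T2Space X]

/-- how the forms were built -/
structure FData (F : Forms G.Pn) (Pb : Part G.N.big) (κ : G.N.ι → G.N.ι → G.N.ι → ℤ) : Prop where
  hκ : IsC1 (slb (KB G.N.big)) κ
  hIY : F.IY = (wtY G.C G.preC Pb).IYR
  hIN : F.IN = (wtY G.C G.preC Pb).INZ
  hkap : F.kap = kapY G.C G.preC κ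

variable {Pb : Part G.N.big}

/-- the inputs on `X_n` (helper615's `cmXC`, helper865's rank bound) -/
structure XnD (Pb : Part G.N.big) (n : ℕ) [NeZero n] (g : GIx (xc G n).lift) (e : ℤ) : Prop where
  cm : CMData (liftP (xc G n) Pb) g.I e
  rk : Rk (xc G n).lift e


/-- **the reduced index on `X_n`** -/
theorem q0_xc {F : Forms G.Pn} {κ : G.N.ι → G.N.ι → G.N.ι → ℤ} (H : FData G F Pb κ)
    (hX : ∀ (n : ℕ) [NeZero n], ∃ g e, XnD G Pb n g e)
    {c : C2 (G.N.ι × ℤ)} (hc : c ∈ G.Pn.Z2c) :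
    ∃ N₀ : ℕ, ∀ n : ℕ, N₀ < n → ∀ (hn : 1 ≤ n) [NeZero n] {ρ : ℝ} (hρ : G.N.r ≤ ρ)
      (Ps : Part ((nlift G.N (xc G n)).at' ρ hρ)) (Is : KIndex (smf ((nlift G.N (xc G n)).at' ρ hρ))),
      (∀ L : LB ((nlift G.N (xc G n)).at' ρ hρ), chiL Ps Is (slb L) = chiE (isLC L)) →
      EB938.q0 F c = chi Ps Is ((RAD151.Refine.liftR G.N (xc G n) hρ).resZ
        (dn (yx G n) (yx_φ G n) G.preC (G.Pn.per n c) (G.Pn.per_mem hn hc))) - chi Ps Is 0 := by
  obtain ⟨N₀, h0⟩ := IndR151.q0_eq_chi_res (W := wtY G.C G.preC Pb) (hpc := G.preC) (F := F)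
    (fun N c d => by rw [H.hIN]) H.hκ H.hkap hc
  refine ⟨N₀, fun n hn0 hn _ ρ hρ Ps Is eu => ?_⟩
  obtain ⟨g, e, D⟩ := hX n
  obtain ⟨lab, hlab, Gf, hNrm⟩ := exists_efn (xc G n) G.preC Pb
  exact h0 n hn0 hn e (xnInG G.preC Pb (yx G n) (yx_φ G n) hn g D.cm hlab Gf hNrm D.rk)
    (RAD151.Refine.liftR G.N (xc G n) hρ) Ps Is eu

end forms

end Crest.Agent.R275.SkelX328
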