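import Crest.Agent.R275.EB_151
import Crest.Agent.R275.LocDef_647
import Crest.Agent.R275.TopK_106

-- ▼ part R275/EBN_151
section

/-!
R275 (S0418), block K12 / Q4 (helper151): instance of `EB_151` for the `g^N`-periodic cocycles of
the nerve of `Y` (helper647's `Nerve`): the field `basis` of `Loc647.Forms`.
-/

set_option autoImplicit false

open Module

noncomputable section

namespace Crest.Agent.R275.EB151

open Loc647

universe u

variable {V : Type u} (P : Nerve V)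

lemma g_inv (v : V) : P.g (P.g⁻¹ v) = v := by
  rw [← Equiv.Perm.mul_apply, mul_inv_cancel, Equiv.Perm.one_apply]



lemma N3_zpow (n : ℤ) : ∀ i j k : V,
    P.N3 ((P.g ^ n) i) ((P.g ^ n) j) ((P.g ^ n) k) ↔ P.N3 i j k := by
  induction n with
  | zero => simp
  | succ n ih =>
    intro i j k
    rw [zpow_add_one, Equiv.Perm.mul_apply, Equiv.Perm.mul_apply, Equiv.Perm.mul_apply, ih,
      P.N3_g]
  | pred n ih =>
    intro i j k
    rw [zpow_sub_one, Equiv.Perm.mul_apply, Equiv.Perm.mul_apply, Equiv.Perm.mul_apply, ih,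
      ← P.N3_g (P.g⁻¹ i) (P.g⁻¹ j) (P.g⁻¹ k)]
    simp only [g_inv]

lemma sh_add (m n : ℤ) (c : C2 V) : P.sh (m + n) c = P.sh m (P.sh n c) := by
  funext i j k
  simp only [Nerve.sh, AddMonoidHom.coe_mk, ZeroHom.coe_mk]
  rw [add_comm m n, zpow_add, Equiv.Perm.mul_apply, Equiv.Perm.mul_apply, Equiv.Perm.mul_apply]

lemma sh_zero (c : C2 V) : P.sh 0 c = c := by
  funext i j k
  simp [Nerve.sh]

lemma sh_mul (N : ℕ) (c : C2 V) (hc : P.sh N c = c) (m : ℤ) : P.sh (m * N) c = c := by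
  induction m with
  | zero => simp [sh_zero]
  | succ n ih => rw [add_mul, one_mul, sh_add, hc, ih]
  | pred n ih =>
    have h : P.sh (-(N : ℤ)) c = c := by
      conv_lhs => rw [← hc, ← sh_add]
      simp [sh_zero]
    rw [sub_mul, one_mul, sub_eq_add_neg, sh_add, h, ih]

/-- the fundamental domain of triples -/
def FD (N : ℕ) : Set (V × V × V) :=
  {t | 0 ≤ P.p t.1 ∧ P.p t.1 < N ∧ P.N3 t.1 t.2.1 t.2.2}







end Crest.Agent.R275.EB151
end
end

-- ▼ part R275/NTr_151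

/-!
R275 (S0418), block K (helper151): TRANSPORT between the nerve of `X_N = Y / g^N` (index set `W`,
cover `U : W → Set M`, cochains in the conventions of `TopK_106`) and the `g^N`-periodic cochains
on the nerve of `Y` (`Nerve`, `Z2p N` of `LocDef_647`).
-/

set_option autoImplicit false

noncomputable section

namespace Crest.Agent.R275.NTr151

open Loc647 TopK106 EB151

universe u

variable {V : Type u} {P : Nerve V} {N : ℕ} {W M : Type*} {U : W → Set M}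

/-- the nerve of `X_N` (cover `U`) is the quotient of the nerve of `Y` by `g^N`; `N2 v w` means
that the sets with indices `v`, `w` of the cover of `Y` meet. -/
structure NQ (P : Nerve V) (N : ℕ) (U : W → Set M) where
  π : V → W
  π_surj : Function.Surjective π
  π_eq : ∀ {v w}, π v = π w ↔ ∃ m : ℤ, w = (P.g ^ (m * N)) v
  M3_iff : ∀ {a b c}, (U a ∩ U b ∩ U c).Nonempty ↔
    ∃ i j k, π i = a ∧ π j = b ∧ π k = c ∧ P.N3 i j k
  M4_iff : ∀ {a b c d}, (U a ∩ U b ∩ U c ∩ U d).Nonempty ↔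
    ∃ i j k l, π i = a ∧ π j = b ∧ π k = c ∧ π l = d ∧ P.N4 i j k l
  N2 : V → V → Prop
  N2_g : ∀ {v w}, N2 (P.g v) (P.g w) ↔ N2 v w
  N2_of_N3 : ∀ {i j k}, P.N3 i j k → N2 i j ∧ N2 i k ∧ N2 j k
  uniq : ∀ {v w w'}, N2 v w → N2 v w' → π w = π w' → w = w'


lemma Z2p_zpow {c : C2 V} (hc : c ∈ P.Z2p N) (m : ℤ) (i j k : V) :
    c ((P.g ^ (m * N)) i) ((P.g ^ (m * N)) j) ((P.g ^ (m * N)) k) = c i j k := by
  have h := sh_mul P N c hc.2 m
  exact congrFun (congrFun (congrFun h i) j) k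

namespace NQ

variable (Q : NQ P N U)

include Q in
lemma N2_zpow (n : ℤ) : ∀ {v w}, Q.N2 ((P.g ^ n) v) ((P.g ^ n) w) ↔ Q.N2 v w := by
  induction n with
  | zero => simp
  | succ n ih =>
    intro v w
    rw [zpow_add_one, Equiv.Perm.mul_apply, Equiv.Perm.mul_apply, ih, Q.N2_g]
  | pred n ih =>
    intro v w
    rw [zpow_sub_one, Equiv.Perm.mul_apply, Equiv.Perm.mul_apply, ih, ← Q.N2_g, g_inv, g_inv]

lemma π_zpow (m : ℤ) (v : V) : Q.π ((P.g ^ (m * N)) v) = Q.π v :=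
  (Q.π_eq.2 ⟨m, rfl⟩).symm


/-- two lifts of a triple differ by a power of `g^N` -/
lemma lift3 {i j k i' j' k' : V} (h : P.N3 i j k) (h' : P.N3 i' j' k') (hi : Q.π i = Q.π i')
    (hj : Q.π j = Q.π j') (hk : Q.π k = Q.π k') :
    ∃ m : ℤ, i' = (P.g ^ (m * N)) i ∧ j' = (P.g ^ (m * N)) j ∧ k' = (P.g ^ (m * N)) k := by
  obtain ⟨a, b, -⟩ := Q.N2_of_N3 h
  obtain ⟨a', b', -⟩ := Q.N2_of_N3 h'
  obtain ⟨m, rfl⟩ := Q.π_eq.1 hi
  refine ⟨m, rfl, ?_, ?_⟩
  · refine Q.uniq a' ((Q.N2_zpow _).2 a) ?_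
    rw [← hj, Q.π_zpow]
  · refine Q.uniq b' ((Q.N2_zpow _).2 b) ?_
    rw [← hk, Q.π_zpow]

/-- pull-back of 2-cochains from `X_N` to `Y` (normalised) -/
def up (c : C2 W) : C2 V := fun i j k =>
  haveI := Classical.propDecidable (P.N3 i j k)
  if P.N3 i j k then c (Q.π i) (Q.π j) (Q.π k) else 0

lemma up_apply {c : C2 W} {i j k : V} (h : P.N3 i j k) :
    Q.up c i j k = c (Q.π i) (Q.π j) (Q.π k) := by
  unfold up
  rw [if_pos h]

lemma up_apply_not {c : C2 W} {i j k : V} (h : ¬ P.N3 i j k) : Q.up c i j k = 0 := by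
  unfold up
  rw [if_neg h]

lemma M3_of {i j k : V} (h : P.N3 i j k) : (U (Q.π i) ∩ U (Q.π j) ∩ U (Q.π k)).Nonempty :=
  Q.M3_iff.2 ⟨i, j, k, rfl, rfl, rfl, h⟩

lemma M4_of {i j k l : V} (h : P.N4 i j k l) :
    (U (Q.π i) ∩ U (Q.π j) ∩ U (Q.π k) ∩ U (Q.π l)).Nonempty :=
  Q.M4_iff.2 ⟨i, j, k, l, rfl, rfl, rfl, rfl, h⟩

lemma up_mem {c : C2 W} (hc : IsZ2 U c) : Q.up c ∈ P.Z2p N := by
  refine ⟨⟨fun i j k h => Q.up_apply_not h, fun i j k l h => ?_⟩, ?_⟩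
  · rw [Q.up_apply (P.face0 h), Q.up_apply (P.face1 h), Q.up_apply (P.face2 h),
      Q.up_apply (P.face3 h)]
    exact hc _ _ _ _ (Q.M4_of h)
  · funext i j k
    change Q.up c ((P.g ^ (N : ℤ)) i) ((P.g ^ (N : ℤ)) j) ((P.g ^ (N : ℤ)) k) = Q.up c i j k
    have hπ : ∀ v, Q.π ((P.g ^ (N : ℤ)) v) = Q.π v := by
      intro v
      have := Q.π_zpow 1 v
      rwa [one_mul] at this
    by_cases h : P.N3 i j k
    · rw [Q.up_apply h, Q.up_apply ((N3_zpow P _ _ _ _).2 h), hπ, hπ, hπ]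
    · rw [Q.up_apply_not h, Q.up_apply_not (fun h' => h ((N3_zpow P _ _ _ _).1 h'))]





/-- push-down of periodic 2-cochains from `Y` to `X_N` -/
def down (c : C2 V) : C2 W := fun a b d =>
  haveI := Classical.propDecidable (U a ∩ U b ∩ U d).Nonempty
  if h : (U a ∩ U b ∩ U d).Nonempty then
    c (Q.M3_iff.1 h).choose (Q.M3_iff.1 h).choose_spec.choose
      (Q.M3_iff.1 h).choose_spec.choose_spec.choose
  else 0

lemma down_apply {c : C2 V} (hc : c ∈ P.Z2p N) {i j k : V} (h : P.N3 i j k) :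
    Q.down c (Q.π i) (Q.π j) (Q.π k) = c i j k := by
  unfold down
  rw [dif_pos (Q.M3_of h)]
  have hs := (Q.M3_iff.1 (Q.M3_of h)).choose_spec.choose_spec.choose_spec
  obtain ⟨h1, h2, h3, h4⟩ := hs
  obtain ⟨m, e1, e2, e3⟩ := Q.lift3 h h4 h1.symm h2.symm h3.symm
  rw [e3, e2, e1]
  exact Z2p_zpow hc m i j k

lemma down_mem {c : C2 V} (hc : c ∈ P.Z2p N) : IsZ2 U (Q.down c) := by
  intro a b d e h
  obtain ⟨i, j, k, l, rfl, rfl, rfl, rfl, h4⟩ := Q.M4_iff.1 h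
  rw [Q.down_apply hc (P.face0 h4), Q.down_apply hc (P.face1 h4), Q.down_apply hc (P.face2 h4),
    Q.down_apply hc (P.face3 h4)]
  exact hc.1.2 _ _ _ _ h4


lemma down_up {c : C2 W} (hc : IsZ2 U c) {a b d : W} (h : (U a ∩ U b ∩ U d).Nonempty) :
    Q.down (Q.up c) a b d = c a b d := by
  obtain ⟨i, j, k, rfl, rfl, rfl, h3⟩ := Q.M3_iff.1 h
  rw [Q.down_apply (Q.up_mem hc) h3, Q.up_apply h3]

lemma down_up_sub {c : C2 W} (hc : IsZ2 U c) : IsB2 U (Q.down (Q.up c) - c) :=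
  ⟨0, fun a b d h => by simp [Q.down_up hc h]⟩










end NQ


end Crest.Agent.R275.NTr151
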