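import Crest.Agent.R275.Zig3_470
import Crest.Agent.R275.Bet2_470
import Crest.Agent.R275.ASNv_293
import Crest.Agent.R275.NNerve_865
import Crest.Agent.R275.EDRMV_890
import Crest.Agent.R275.TopK_106
import Crest.Agent.R275.PDB_412
import Crest.Agent.R275.ASAtl_293
import Crest.Agent.R275.KZig_106
import Crest.Agent.R275.ChiM_825
import Crest.Agent.R275.NTr_151
import Crest.Agent.R275.WtY_945
import Crest.Agent.R275.Zig2_470

-- ▼ part R275/Bet3_470
section

set_option autoImplicit false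
set_option linter.unusedSectionVars false

open Set Filter Topology

namespace Crest.Agent.R275.Bet470

open ASZ627 ASN627 Zig470 NEul865 ASConv293

variable {ι : Type*}

section alg

variable {T : Finset ι}

open Classical in
theorem sumT_ite {R : Type*} [AddCommGroup R] {k : ℕ} {I : List ι} (hI : TL T k I) (r : R) :
    sumT T k (fun J => if J = I then r else 0) = r := by
  induction k generalizing I with
  | zero =>
    obtain rfl := hI.zero_eq
    simp
  | succ k ih =>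
    match I, hI with
    | x :: I, hI =>
      rw [sumT_succ]
      rw [Finset.sum_eq_single x]
      · have h1 : sumT T k (fun l => if x :: l = x :: I then r else 0) =
            sumT T k (fun l => if l = I then r else 0) :=
          sumT_congr fun J _ => by simp
        rw [h1, ih hI.tail]
      · intro y _ hy
        have h1 : sumT T k (fun l => if y :: l = x :: I then r else 0) =
            sumT T k (fun _ => (0 : R)) :=
          sumT_congr fun J _ => by simp [hy]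
        rw [h1, sumT_const_zero]
      · intro hx
        exact absurd hI.head hx

/-- the two pairings agree -/
theorem sumT_eq_ev {k : ℕ} (z : List ι →₀ ℤ) (hz : ∀ I ∈ z.support, TL T k I) (a : List ι → ℤ) :
    sumT T k (fun I => a I * z I) = ev z a := by
  classical
  have h1 : ∀ I, a I * z I = ∑ J ∈ z.support, if I = J then a J * z J else 0 := by
    intro I
    rw [Finset.sum_ite_eq]
    split_ifs with h
    · rfl
    · rw [Finsupp.notMem_support_iff.1 h, mul_zero]
  have e : (fun I => a I * z I) = fun I => ∑ J ∈ z.support, if I = J then a J * z J else 0 :=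
    funext h1
  rw [e, sumT_sum]
  unfold ev Finsupp.sum
  refine Finset.sum_congr rfl fun J hJ => ?_
  rw [sumT_ite (hz J hJ)]
  ring

theorem bdT_eq_zero {q : ℕ} (z : List ι →₀ ℤ) (hz : ∀ I ∈ z.support, TL T (q + 1) I)
    (hcyc : ∀ b : List ι → ℤ, ev z (dl b) = 0) {K : List ι} (hK : TL T q K) :
    bdT T z K = 0 := by
  classical
  have h1 := hcyc (fun J => if J = K then 1 else 0)
  rw [← sumT_eq_ev z hz, sumT_dl] at h1
  have h2 : sumT T q (fun J => (if J = K then (1 : ℤ) else 0) * bdT T z J) =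
      sumT T q (fun J => if J = K then bdT T z K else 0) := by
    refine sumT_congr fun J _ => ?_
    split_ifs with h
    · rw [h, one_mul]
    · rw [zero_mul]
  rw [h2, sumT_ite hK] at h1
  exact h1

end alg

section top

variable {M : Type*} [TopologicalSpace M] [CompactSpace M] {U : ι → Set M} {lab : M → ι}
  {E : (List M → ℤ) → ℝ}

theorem rob_of_lab (h : Lab U lab) : Rob U lab := by
  intro x
  obtain ⟨F, h1, h2⟩ := h x
  exact h2.mono fun y hy => h1 _ hy

/-- **the zigzag data of a compact 4-manifold** -/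
theorem zigData [Fintype ι] (hlab : Rob U lab) (D : Ev 3 E)
    (hloc : ∀ J, J ≠ [] → Nv U J → LocW 3 E (UJ U J)) : ZigData (Nv U) lab E where
  sub l m hl hm := hl.mono fun i hi => hm.subset hi
  robust p := (hlab.near p).mono fun l hl => ⟨p, hl⟩
  E_congr c d h := D.congr c d h
  E_add c d hc hd := D.add c d hc hd ((isClosed_supp _ _).isCompact) ((isClosed_supp _ _).isCompact)
  E_dl f := D.dl f ((isClosed_supp _ _).isCompact)
  zig q hq := by
    refine ⟨1, one_ne_zero, fun z hz => ?_⟩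
    have hTL : ∀ I ∈ z.support, TL (Finset.univ : Finset ι) (q + 1) I := fun I hI =>
      ⟨(hz.1 I hI).2, fun x _ => Finset.mem_univ x⟩
    obtain ⟨c, h1, -, -, h4⟩ := zigzag (T := Finset.univ) (p := q) (z := z) hlab D hloc
      (fun I hI => (hz.1 I (Finsupp.mem_support_iff.2 hI)).1)
      (fun K hK => bdT_eq_zero z hTL hz.2 hK) (d := 4 - q) (by omega)
    refine ⟨c, h1, fun n hn => ?_⟩
    have h5 := h4 n hn
    rw [sumT_eq_ev z hTL] at h5
    rw [Int.cast_one, one_mul]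
    exact h5
  zig' q z hq hz n hn := by
    have hTL : ∀ I ∈ z.support, TL (Finset.univ : Finset ι) (q + 1) I := fun I hI =>
      ⟨(hz.1 I hI).2, fun x _ => Finset.mem_univ x⟩
    have h5 := zigzag_high (T := Finset.univ) (p := q) (z := z) hlab D hloc
      (fun I hI => (hz.1 I (Finsupp.mem_support_iff.2 hI)).1)
      (fun K hK => bdT_eq_zero z hTL hz.2 hK) (by omega) n hn
    rwa [sumT_eq_ev z hTL] at h5

end top

section nerve

variable {M : Type*} [TopologicalSpace M] [CompactSpace M] [LinearOrder ι] [Fintype ι]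
  {U : ι → Set M} {lab : M → ι} {E : (List M → ℤ) → ℝ}

theorem nv_iff {l : List ι} : Nv U l ↔ (nerve U).K l := by
  rw [nerve_K]
  rfl

theorem coc_iff {R : Type*} [CommRing R] {q : ℕ} {c : List ι → R} :
    Coc (Nv U) q c ↔ c ∈ (nerve U).Z R (q + 1) := by
  constructor
  · intro h l hl hr
    exact h l (nv_iff.2 hl) hr
  · intro h l hl hr
    exact h l (nv_iff.1 hl) hr

theorem cob_iff {R : Type*} [CommRing R] {q : ℕ} {c : List ι → R} :
    Cob (Nv U) q c ↔ c ∈ (nerve U).B R (q + 1) := by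
  constructor
  · rintro ⟨b, hb⟩
    exact ⟨b, fun l hl hr => hb l (nv_iff.2 hl) hr⟩
  · rintro ⟨b, hb⟩
    exact ⟨b, fun l hl hr => hb l (nv_iff.1 hl) hr⟩

/-- two closed AS 1-cochains are dependent -/
theorem dep_one (hUo : ∀ v, IsOpen (U v)) (hlab : Lab U lab)
    (h1 : ∀ v, AS1 ℤ (U v)) (h0 : ∀ v w, IsPreconnected (U v ∩ U w))
    (hb : (nerve U).h ℚ 2 ≤ 1) (c d : List M → ℤ) (hc : Cl 1 c) (hd : Cl 1 d) :
    ∃ a b : ℤ, (a ≠ 0 ∨ b ≠ 0) ∧ ∃ f : List M → ℤ, EqN 1 (fun l => a * c l + b * d l) (dl f) := by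
  obtain ⟨c', β, hc', -, hcβ, -⟩ := as_to_nerve1 hUo h1 h0 hlab hc univ
    (fun v hv => absurd (mem_univ v) hv)
  obtain ⟨d', γ, hd', -, hdγ, -⟩ := as_to_nerve1 hUo h1 h0 hlab hd univ
    (fun v hv => absurd (mem_univ v) hv)
  have hmz : ∀ e : ι → ι → ℤ, (∀ i j k, (U i ∩ U j ∩ U k).Nonempty → e j k - e i k + e i j = 0) →
      ASConv293.of1 e ∈ (nerve U).Z ℤ 2 := fun e he => mem_Z_two.2 he
  obtain ⟨a, ha, hab⟩ : ∃ a : Fin 2 → ℤ, a ≠ 0 ∧
      ∑ i, a i • (![ASConv293.of1 c', ASConv293.of1 d'] : Fin 2 → List ι → ℤ) i ∈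
        (nerve U).B ℤ 2 := by
    by_contra hno
    push Not at hno
    have := card_le_h (nerve U) 2 ![ASConv293.of1 c', ASConv293.of1 d'] (fun i => by
      fin_cases i
      · exact hmz c' hc'
      · exact hmz d' hd') (fun a ha => by
      by_contra hne
      exact hno a hne ha)
    omega
  simp only [Fin.sum_univ_two, Matrix.cons_val_zero, Matrix.cons_val_one] at hab
  obtain ⟨b, hb'⟩ := hab
  refine ⟨a 0, a 1, ?_, fun l => pb lab b l + (a 0 * of0 β l + a 1 * of0 γ l), ?_⟩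
  · by_contra hcon
    push Not at hcon
    apply ha
    funext i
    fin_cases i
    · exact hcon.1
    · exact hcon.2
  · intro p
    refine ((hcβ p).mono₂ (hdγ p) fun l k1 k2 => And.intro k1 k2).mono₂ ((rob_of_lab hlab).near p)
      fun l k12 k3 hl => ?_
    have k4 : (nerve U).K (l.map lab) := nv_iff.1 ⟨p, k3⟩
    have k5 := hb' (l.map lab) k4 (by simpa using hl)
    rw [dl_add, dl_add, dl_mul_left, dl_mul_left, dl_pb]
    beta_reduce
    rw [k12.1 hl, k12.2 hl]
    simp only [Pi.add_apply, Pi.smul_apply, smul_eq_mul] at k5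
    have k6 : pb lab (dl b) l = dl b (l.map lab) := rfl
    rw [k6, ← k5]
    ring

/-- **BETTI NUMBERS OF THE NERVE** -/
theorem bet (hUo : ∀ v, IsOpen (U v)) (hlab : Lab U lab)
    (h2 : ∀ v, AS2 ℤ (U v)) (h1 : ∀ v w, AS1 ℤ (U v ∩ U w))
    (h0 : ∀ u v w, IsPreconnected (U u ∩ U v ∩ U w)) (D : Ev 3 E)
    (hloc : ∀ J, J ≠ [] → Nv U J → LocW 3 E (UJ U J))
    (hb1 : (nerve U).h ℚ 2 ≤ 1) (hb2 : 1 ≤ (nerve U).h ℚ 3) :
    (nerve U).h ℚ 4 ≤ 1 ∧ 1 ≤ (nerve U).h ℚ 5 ∧ ∀ r, 6 ≤ r → (nerve U).h ℚ r = 0 := by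
  have Z : ZigData (Nv U) lab E := zigData (rob_of_lab hlab) D hloc
  have h1' : ∀ v, AS1 ℤ (U v) := fun v => by
    have := h1 v v
    rwa [inter_self] at this
  have h0' : ∀ v w, IsPreconnected (U v ∩ U w) := fun v w => by
    have := h0 v w w
    rwa [inter_assoc, inter_self] at this
  refine ⟨?_, ?_, ?_⟩
  · -- `b_3 ≤ 1`
    by_cases hall : ∀ c ∈ (nerve U).Z ℚ 4, c ∈ (nerve U).B ℚ 4
    · rw [Cx.h_eq_zero hall]
      exact zero_le_one
    · push Not at hall
      obtain ⟨c₀, hc₀, hne⟩ := hall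
      refine Cx.h_le_one hc₀ fun c hc => ?_
      obtain ⟨a, b, hab, hcob⟩ := Z.dep_three
        (dep_one hUo hlab h1' h0' hb1) (coc_iff.2 hc : Coc (Nv U) 3 c) (coc_iff.2 hc₀)
      have hB : (fun l => a * c l + b * c₀ l) ∈ (nerve U).B ℚ 4 := cob_iff.1 hcob
      have ha : a ≠ 0 := by
        rintro rfl
        have hb : b ≠ 0 := by
          rcases hab with h | h
          · exact absurd rfl h
          · exact h
        apply hne
        have h6 : c₀ = b⁻¹ • (fun l => (0 : ℚ) * c l + b * c₀ l) := by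
          funext l
          simp only [Pi.smul_apply, smul_eq_mul]
          field_simp
          ring
        rw [h6]
        exact Submodule.smul_mem _ _ hB
      refine ⟨-(b / a), ?_⟩
      have h6 : c - (-(b / a)) • c₀ = a⁻¹ • (fun l => a * c l + b * c₀ l) := by
        funext l
        simp only [Pi.sub_apply, Pi.smul_apply, smul_eq_mul]
        field_simp
        ring
      rw [h6]
      exact Submodule.smul_mem _ _ hB
  · -- `b_4 ≥ 1`
    obtain ⟨c, hc, hcB⟩ : ∃ c ∈ (nerve U).Z ℚ 3, c ∉ (nerve U).B ℚ 3 := by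
      by_contra hno
      push Not at hno
      have := Cx.h_eq_zero (N := nerve U) (F := ℚ) (r := 3) hno
      omega
    obtain ⟨N, hN, n, hn, hnc⟩ := exists_int_coc Z.sub (coc_iff.2 hc : Coc (Nv U) 2 c)
    have hn0 : ¬ Cob (Nv U) 2 (fun l => (n l : ℚ)) := by
      intro hcob
      apply hcB
      have hNq : (N : ℚ) ≠ 0 := by exact_mod_cast hN
      exact cob_iff.1 (Cob.of_smul hNq (Cob.congr (fun l hl hq => (hnc l hl hq).symm) hcob))
    obtain ⟨m, hm, -, hmB⟩ := Z.exists_four (fun η hη => by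
      obtain ⟨c, β, hc, -, hcβ, -⟩ := as_to_nerve2 hUo h2 h1 h0 hlab hη univ
        (fun v hv => absurd (mem_univ v) hv)
      exact ⟨ASConv293.of2 c, coc_iff.2 (mem_Z_three.2 hc), ASConv293.of1 β, hcβ⟩) hn hn0
    exact Cx.one_le_h (coc_iff.1 hm.cast) fun hB => hmB (cob_iff.2 hB)
  · intro r hr
    obtain ⟨q, rfl⟩ : ∃ q, r = q + 1 := ⟨r - 1, by omega⟩
    refine Cx.h_eq_zero fun c hc => ?_
    exact cob_iff.1 (Z.cob_of_five_le (by omega) (coc_iff.2 hc))

end nerve

end Crest.Agent.R275.Bet470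
end

-- ▼ part R275/NRank_865
section

/-!
# R275 (S0418), block K (helper865): rank of `H^2` of the nerve is at most 890's `nerveChi`

`BettiQ U`: the Betti hypotheses in terms of functions on lists (no linear order, no quotients);
`BettiQ.he`: literally the hypothesis `he` of 151's `ebX`.
-/

set_option autoImplicit false

open Set

namespace Crest.Agent.R275.NEul865

open Crest.Agent.R275.ASZ627 Crest.Agent.R275.TopK106 Crest.Agent.R275.EDR890

noncomputable section

/-- rational cocycles on lists of length `r` -/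
def IsZQ {X ι : Type*} (U : ι → Set X) (r : ℕ) (c : List ι → ℚ) : Prop :=
  ∀ l : List ι, (∃ x, ∀ i ∈ l, x ∈ U i) → l.length = r + 1 → dl c l = 0

/-- rational coboundaries on lists of length `r` -/
def IsBQ {X ι : Type*} (U : ι → Set X) (r : ℕ) (c : List ι → ℚ) : Prop :=
  ∃ b : List ι → ℚ, ∀ l : List ι, (∃ x, ∀ i ∈ l, x ∈ U i) → l.length = r → c l = dl b l

/-- the Betti numbers of the nerve of a good cover of a compact surface with `b_1 = 1`
(lists of length `r` have degree `r - 1`) -/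
structure BettiQ {X ι : Type*} (U : ι → Set X) : Prop where
  /-- `b_1 = 1` -/
  h2 : ∃ c₀ : ι → ι → ℚ,
    (∀ i j l, (U i ∩ U j ∩ U l).Nonempty → c₀ j l - c₀ i l + c₀ i j = 0) ∧
    (¬ ∃ b : ι → ℚ, ∀ i j, (U i ∩ U j).Nonempty → c₀ i j = b j - b i) ∧
    ∀ c : ι → ι → ℚ,
      (∀ i j l, (U i ∩ U j ∩ U l).Nonempty → c j l - c i l + c i j = 0) →
      ∃ r : ℚ, ∃ b : ι → ℚ, ∀ i j, (U i ∩ U j).Nonempty → c i j - r * c₀ i j = b j - b i
  /-- `b_3 ≤ 1` -/
  h4 : ∃ c₀, IsZQ U 4 c₀ ∧ ∀ c, IsZQ U 4 c → ∃ t : ℚ, IsBQ U 4 (fun l => c l - t * c₀ l)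
  /-- `b_4 ≥ 1` -/
  h5 : ∃ c₀, IsZQ U 5 c₀ ∧ ¬ IsBQ U 5 c₀
  /-- `b_q = 0` for `q ≥ 5` -/
  h6 : ∀ r, 6 ≤ r → ∀ c, IsZQ U r c → IsBQ U r c

variable {X ι : Type*} {U : ι → Set X}

theorem isZQ_iff [LinearOrder ι] {r : ℕ} {c : List ι → ℚ} : IsZQ U r c ↔ c ∈ (nerve U).Z ℚ r := by
  rw [Cx.mem_Z]
  simp only [nerve_K]
  rfl

theorem isBQ_iff [LinearOrder ι] {r : ℕ} {c : List ι → ℚ} : IsBQ U r c ↔ c ∈ (nerve U).B ℚ r := by
  rw [Cx.mem_B]
  simp only [nerve_K]
  rfl

/-- the two forms of the Euler characteristic of the nerve -/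
theorem finsum_eq_nerveChi [Fintype ι] (U : ι → Set X) :
    (∑ᶠ s : {s : Finset ι // s.Nonempty ∧ ∃ x, ∀ i ∈ s, x ∈ U i}, (-1 : ℤ) ^ (s.1.card + 1)) =
      nerveChi U Finset.univ := by
  classical
  unfold nerveChi
  rw [finsum_eq_sum_of_fintype, Finset.powerset_univ, ← Finset.sum_filter]
  rw [← Finset.sum_subtype (Finset.univ.filter
      (fun s : Finset ι => s.Nonempty ∧ ∃ x, ∀ i ∈ s, x ∈ U i)) (by simp)
      (fun s : Finset ι => (-1 : ℤ) ^ (s.card + 1))]
  refine Finset.sum_congr ?_ fun _ _ => rfl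
  ext s
  simp only [Finset.mem_filter, Finset.mem_univ, true_and, Set.Nonempty, Set.mem_iInter]

/-- **rank of `H^2(N; ℤ)` is at most `χ(N)`** (the hypothesis `he` of `NTr151.ebX`) -/
theorem BettiQ.he [Fintype ι] [TopologicalSpace X] [ConnectedSpace X]
    (hUo : ∀ i, IsOpen (U i)) (hUc : ∀ x, ∃ i, x ∈ U i) (B : BettiQ U)
    (n : ℕ) (v : Fin n → ι → ι → ι → ℤ) (hv : ∀ i, IsZ2 U (v i))
    (hind : ∀ a : Fin n → ℤ, IsB2 U (∑ i, a i • v i) → a = 0) :
    (n : ℤ) ≤ nerveChi U Finset.univ := by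
  classical
  let _ : LinearOrder ι := linearOrderOfSTO (WellOrderingRel (α := ι))
  rw [← finsum_eq_nerveChi]
  obtain ⟨c₀, h1, h2, h3⟩ := B.h2
  obtain ⟨c₄, h41, h42⟩ := B.h4
  obtain ⟨c₅, h51, h52⟩ := B.h5
  refine rank_le_chi hUo hUc (h2_of_gen ℚ c₀ h1 h2 h3) ?_ ?_ ?_ v (fun a i j l m h => ?_) ?_
  · refine Cx.h_le_one (isZQ_iff.1 h41) fun c hc => ?_
    obtain ⟨t, ht⟩ := h42 c (isZQ_iff.2 hc)
    exact ⟨t, isBQ_iff.1 ht⟩
  · exact Cx.one_le_h (isZQ_iff.1 h51) fun h => h52 (isBQ_iff.2 h)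
  · intro r hr
    exact Cx.h_eq_zero fun c hc => isBQ_iff.1 (B.h6 r hr c (isZQ_iff.2 hc))
  · exact hv a i j l m h
  · rintro a ⟨b, hb⟩
    refine hind a ⟨b, fun i j l h => ?_⟩
    rw [← hb i j l h]
    simp [Finset.sum_apply]

end

end Crest.Agent.R275.NEul865
end

-- ▼ part R275/Bet4_470
section

set_option autoImplicit false
set_option linter.unusedSectionVars false

open Set Filter Topology

namespace Crest.Agent.R275.Bet470

open ASZ627 ASN627 Zig470 NEul865 ASConv293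

section gen

variable {ι : Type*} {M : Type*} [TopologicalSpace M] [CompactSpace M] [Finite ι]
  {U : ι → Set M} {lab : M → ι} {E : (List M → ℤ) → ℝ}

/-- `BettiQ` of the nerve of a good cover of a compact oriented 4-manifold with `b_1 = 1`,
`b_2 ≥ 1` -/
theorem bettiQ (hUo : ∀ v, IsOpen (U v)) (hlab : Lab U lab)
    (h2 : ∀ v, AS2 ℤ (U v)) (h1 : ∀ v w, AS1 ℤ (U v ∩ U w))
    (h0 : ∀ u v w, IsPreconnected (U u ∩ U v ∩ U w)) (D : Ev 3 E)
    (hloc : ∀ J, J ≠ [] → Nv U J → LocW 3 E (UJ U J))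
    (hb1 : ∃ c₀ : ι → ι → ℚ,
      (∀ i j l, (U i ∩ U j ∩ U l).Nonempty → c₀ j l - c₀ i l + c₀ i j = 0) ∧
      (¬ ∃ b : ι → ℚ, ∀ i j, (U i ∩ U j).Nonempty → c₀ i j = b j - b i) ∧
      ∀ c : ι → ι → ℚ,
        (∀ i j l, (U i ∩ U j ∩ U l).Nonempty → c j l - c i l + c i j = 0) →
        ∃ r : ℚ, ∃ b : ι → ℚ, ∀ i j, (U i ∩ U j).Nonempty → c i j - r * c₀ i j = b j - b i)
    (hb2 : ∃ c : ι → ι → ι → ℚ,
      (∀ i j l m, (U i ∩ U j ∩ U l ∩ U m).Nonempty →
        c j l m - c i l m + c i j m - c i j l = 0) ∧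
      ¬ ∃ b : ι → ι → ℚ, ∀ i j l, (U i ∩ U j ∩ U l).Nonempty →
        c i j l = b j l - b i l + b i j) : BettiQ U := by
  classical
  have := Fintype.ofFinite ι
  let _ : LinearOrder ι := linearOrderOfSTO (WellOrderingRel (α := ι))
  have hh2 : (nerve U).h ℚ 2 ≤ 1 := by
    obtain ⟨c₀, k1, k2, k3⟩ := hb1
    exact (h2_of_gen ℚ c₀ k1 k2 k3).le
  have hh3 : 1 ≤ (nerve U).h ℚ 3 := by
    obtain ⟨c, k1, k2⟩ := hb2
    refine Cx.one_le_h (c₀ := of3 c) (mem_Z_three.2 k1) fun hB => k2 ?_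
    exact mem_B_three.1 hB
  obtain ⟨q4, q5, q6⟩ := bet hUo hlab h2 h1 h0 D hloc hh2 hh3
  refine ⟨hb1, ?_, ?_, ?_⟩
  · -- from `h 4 ≤ 1`
    by_cases hall : ∀ c ∈ (nerve U).Z ℚ 4, c ∈ (nerve U).B ℚ 4
    · refine ⟨0, isZQ_iff.2 (Submodule.zero_mem _), fun c hc => ⟨0, ?_⟩⟩
      have h5 : (fun l => c l - 0 * (0 : List ι → ℚ) l) = c := by
        funext l; simp
      rw [h5]
      exact isBQ_iff.2 (hall c (isZQ_iff.1 hc))
    · push Not at hall
      obtain ⟨c₀, hc₀, hne⟩ := hall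
      refine ⟨c₀, isZQ_iff.2 hc₀, fun c hc => ?_⟩
      have := (nerve U).finite_H ℚ 4
      rw [Cx.h, finrank_le_one_iff] at q4
      obtain ⟨v, hv⟩ := q4
      obtain ⟨s, hs⟩ := hv (Submodule.Quotient.mk ⟨c₀, hc₀⟩)
      obtain ⟨t, ht⟩ := hv (Submodule.Quotient.mk ⟨c, isZQ_iff.1 hc⟩)
      have hs0 : s ≠ 0 := by
        rintro rfl
        rw [zero_smul, eq_comm, Submodule.Quotient.mk_eq_zero] at hs
        exact hne hs
      refine ⟨t / s, isBQ_iff.2 ?_⟩
      have h5 : (Submodule.Quotient.mk (⟨c, isZQ_iff.1 hc⟩ - (t / s) • ⟨c₀, hc₀⟩) :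
          (nerve U).H ℚ 4) = 0 := by
        rw [Submodule.Quotient.mk_sub, Submodule.Quotient.mk_smul, ← hs, ← ht, smul_smul,
          div_mul_cancel₀ _ hs0, sub_self]
      rw [Submodule.Quotient.mk_eq_zero] at h5
      exact h5
  · by_contra hno
    push Not at hno
    have := Cx.h_eq_zero (N := nerve U) (F := ℚ) (r := 5) fun c hc =>
      isBQ_iff.1 (hno c (isZQ_iff.2 hc))
    omega
  · intro r hr c hc
    have h5 := q6 r hr
    rw [Cx.h_eq_zero_iff] at h5
    exact isBQ_iff.2 (h5 c (isZQ_iff.1 hc))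

end gen

section geo

open Geo GC293 PDB412

variable {M : Type} [TopologicalSpace M] [CompactSpace M] [T2Space M]

/-- **`BettiQ` for a good atlas** (`X` and `X_N`) -/
theorem bettiQ_goodA {A : Atl 2 M} [Finite A.ι] (hA : GoodA A) (P : Part A)
    {E : (List M → ℤ) → ℝ} (hE : Ev 3 E) (hN : Nrm A E)
    (hb1 : ∃ c₀ : A.ι → A.ι → ℚ,
      (∀ i j l, ((A.e i).source ∩ (A.e j).source ∩ (A.e l).source).Nonempty →
        c₀ j l - c₀ i l + c₀ i j = 0) ∧
      (¬ ∃ b : A.ι → ℚ, ∀ i j, ((A.e i).source ∩ (A.e j).source).Nonempty →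
        c₀ i j = b j - b i) ∧
      ∀ c : A.ι → A.ι → ℚ,
        (∀ i j l, ((A.e i).source ∩ (A.e j).source ∩ (A.e l).source).Nonempty →
          c j l - c i l + c i j = 0) →
        ∃ r : ℚ, ∃ b : A.ι → ℚ, ∀ i j, ((A.e i).source ∩ (A.e j).source).Nonempty →
          c i j - r * c₀ i j = b j - b i)
    (hb2 : ∃ c : A.ι → A.ι → A.ι → ℚ,
      (∀ i j l m, ((A.e i).source ∩ (A.e j).source ∩ (A.e l).source ∩ (A.e m).source).Nonempty →
        c j l m - c i l m + c i j m - c i j l = 0) ∧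
      ¬ ∃ b : A.ι → A.ι → ℚ, ∀ i j l,
        ((A.e i).source ∩ (A.e j).source ∩ (A.e l).source).Nonempty →
        c i j l = b j l - b i l + b i j) : BettiQ (fun i => (A.e i).source) := by
  obtain ⟨lab, hlab, -⟩ := exists_lab P
  exact bettiQ (fun i => (A.e i).open_source) hlab (fun i => (as_source hA i).2)
    (fun i j => (as_source2 hA i j).1) (fun i j k => hA.isPreconnected3 i j k) hE
    (locW_goodA hA hE hN) hb1 hb2

end geo

end Crest.Agent.R275.Bet470
end

-- ▼ part R275/KX_106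
section

/-!
# R275 (S0418), block K: the compact side (helper106)

`M` compact, `A : Atl 2 M` good, `P : Part A`, `I : KIndex (smf A)`, `H : CMData P I e` (helper825),
`D : Ev 3 E` and `Nrm A E` (orientation functional), and LINK (`hlink`).

* `bZ_eq_IZ`  : the index form is the integral intersection form;
* `bZ_dual`   : unimodularity of the index form (`hdual` of `CMData.eb`);
* `eb_M`      : the lattice theorem of `M`;
* `ebY`       : the lattice theorem for the periodic cocycles of a nerve covering the nerve of `M`.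
-/

set_option autoImplicit false
set_option linter.unusedSectionVars false

open Set Filter Topology

namespace Crest.Agent.R275.KX106

open TopK106 Zig470 Geo Smf798 KR798 SB798 GC293 Core144 ASConv293 KAsm106 KZig106 PDB412 ChiM825
  NEul865

noncomputable section

variable {M : Type} [TopologicalSpace M] [CompactSpace M] [T2Space M] {A : Atl 2 M}
  {P : Part A} {I : KIndex (smf A)} {E : (List M → ℤ) → ℝ} {lab : M → A.ι}

/-- LINK: the second difference of the index is the value of `E` on the cup product -/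
def Link (P : Part A) (I : KIndex (smf A)) (E : (List M → ℤ) → ℝ) (lab : M → A.ι) : Prop :=
  ∀ (L L' : SLB A) (c c' : A.ι → A.ι → A.ι → ℤ), IsC1 L c → IsC1 L' c' →
    E (ASZ627.cup 2 (LnkCup692.lp lab c) (LnkCup692.lp lab c')) = ((bL P I L L' : ℤ) : ℝ)

section form

variable (hA : GoodA A) (D : Ev 3 E) (hN : Nrm A E) (hlab : Lab (UA A) lab)
  (hlink : Link P I E lab)

include hA D hN hlab hlink

/-- the integral intersection form is the index form -/
theorem IZ_eq_bL {L L' : SLB A} {c c' : A.ι → A.ι → A.ι → ℤ} (h : IsC1 L c) (h' : IsC1 L' c') :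
    IZ hA D hN lab c c' = bL P I L L' := by
  have h1 := IZ_cast hA D hN hlab (mem_Z2_iff.1 h.mem_Z2) (mem_Z2_iff.1 h'.mem_Z2)
  rw [hlink L L' c c' h h'] at h1
  exact_mod_cast h1

theorem bZ_eq_IZ (c d : GC293.Z2 A ℤ) : bZ P I c d = IZ hA D hN lab c.1 d.1 := by
  rw [bZ_eq]
  exact (IZ_eq_bL hA D hN hlab hlink (isC1_LofC P c) (isC1_LofC P d)).symm


/-- **unimodularity of the index form** -/
theorem bZ_dual [Finite A.ι] (φ : GC293.Z2 A ℤ →+ ℤ) (hφ : ∀ b ∈ BZ A, φ b = 0) :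
    ∃ c, ∀ x, bZ P I x c = φ x := by
  let φ' : TopK106.Z2 (UA A) →+ ℤ :=
    { toFun := fun x => φ ⟨x.1, mem_Z2_iff.2 x.2⟩
      map_zero' := φ.map_zero
      map_add' := fun x y => φ.map_add ⟨x.1, mem_Z2_iff.2 x.2⟩ ⟨y.1, mem_Z2_iff.2 y.2⟩ }
  obtain ⟨c, hc, h⟩ := IZ_dual hA D hN hlab φ' (fun x hx => hφ _ (mem_B2_iff.2 hx))
  refine ⟨⟨c, mem_Z2_iff.2 hc⟩, fun x => ?_⟩
  rw [bZ_eq_IZ hA D hN hlab hlink]
  exact h ⟨x.1, mem_Z2_iff.1 x.2⟩

end form

section lattice

variable {e : ℤ} (H : CMData P I e) (D : Ev 3 E) (hN : Nrm A E) (hlab : Lab (UA A) lab)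
  (hlink : Link P I E lab)

/-- the rank bound on cocycles modulo coboundaries -/
def Rk (A : Atl 2 M) (e : ℤ) : Prop :=
  ∀ (n : ℕ) (v : Fin n → A.ι → A.ι → A.ι → ℤ), (∀ i, IsZ2 (UA A) (v i)) →
    (∀ a : Fin n → ℤ, IsB2 (UA A) (∑ i, a i • v i) → a = 0) → (n : ℤ) ≤ e

/-- rank bound from the Betti numbers (helper865, helper470) -/
theorem rk_of_betti [ConnectedSpace M] [Fintype A.ι] (B : BettiQ (UA A)) :
    Rk A (EDR890.nerveChi (UA A) Finset.univ) := fun n v hv hind =>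
  B.he (fun i => (A.e i).open_source) (fun x => A.cover x) n v hv hind



end lattice

end

end Crest.Agent.R275.KX106
end

-- ▼ part R275/INX_945

set_option autoImplicit false
set_option linter.unusedSectionVars false

open Set Filter Topology
open scoped BigOperators

namespace Crest.Agent.R275.INX945

open ASZ627 ASN627 ASConv293 Geo XN194 QPb635 NForm945 Loc647 NGeo151 NTr151 PDY945 WtY945 TopK106

noncomputable section

section label

variable {M : Type*} [TopologicalSpace M] {V : Type*} {U : V → Set M} {lab : M → V}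
  {w : (Fin 5 → V) → ℝ}

/-- the interface `EFn` from helper470's `Ev 3 E` and the label formula -/
def efn {E : (List M → ℤ) → ℝ} (D : Zig470.Ev 3 E)
    (hlabel : ∀ C : List V → ℤ, (∀ l : List V, l.length = 6 → (∃ x, ∀ v ∈ l, x ∈ U v) →
        ASZ627.dl C l = 0) →
      {l : List V | l.length = 5 ∧ (∃ x, ∀ v ∈ l, x ∈ U v) ∧ C l ≠ 0}.Finite →
      E (fun l => C (l.map lab)) = ∑ᶠ t : Fin 5 → V, ((C [t 0, t 1, t 2, t 3, t 4] : ℤ) : ℝ) * w t) :
    EFn M U lab w where
  E := E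
  add := D.add
  congr := D.congr
  dl := D.dl
  label := hlabel

theorem dl_cup_nerve {c c' : V → V → V → ℤ} (hc : IsZ2 U c) (hc' : IsZ2 U c') (l : List V)
    (hl : l.length = 6) (hx : ∃ x, ∀ v ∈ l, x ∈ U v) : dl (cup 2 (of2 c) (of2 c')) l = 0 := by
  obtain ⟨q, hq⟩ := hx
  rw [dl_cup 2 _ _ _ (by omega)]
  have e6 : dl (of2 c) (l.take (2 + 1 + 1)) = 0 := by
    obtain ⟨a, b, d, e, hl4⟩ := exists_four (l := l.take (2 + 1 + 1)) (by simp; omega)
    rw [hl4, dl_four]
    simp only [of2_apply]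
    have hm : ∀ v ∈ [a, b, d, e], q ∈ U v := fun v hv => hq v (by
      rw [← hl4] at hv; exact List.mem_of_mem_take hv)
    exact hc _ _ _ _ ⟨q, ⟨⟨hm a (by simp), hm b (by simp)⟩, hm d (by simp)⟩, hm e (by simp)⟩
  have e7 : dl (of2 c') (l.drop 2) = 0 := by
    obtain ⟨a, b, d, e, hl4⟩ := exists_four (l := l.drop 2) (by simp; omega)
    rw [hl4, dl_four]
    simp only [of2_apply]
    have hm : ∀ v ∈ [a, b, d, e], q ∈ U v := fun v hv => hq v (by
      rw [← hl4] at hv; exact List.mem_of_mem_drop hv)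
    exact hc' _ _ _ _ ⟨q, ⟨⟨hm a (by simp), hm b (by simp)⟩, hm d (by simp)⟩, hm e (by simp)⟩
  simp only [cup, e6, e7, zero_mul, mul_zero, add_zero]

/-- the label formula for cup products of nerve cocycles, finite index set -/
theorem label_cup [Finite V] (G : EFn M U lab w) {c c' : V → V → V → ℤ} (hc : IsZ2 U c)
    (hc' : IsZ2 U c') :
    G.E (cup 2 (fun l => of2 c (l.map lab)) (fun l => of2 c' (l.map lab))) =
      ∑ᶠ s : Fin 5 → V, (c (s 0) (s 1) (s 2) : ℝ) * (c' (s 2) (s 3) (s 4) : ℝ) * w s := by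
  have e5 : cup 2 (fun l => of2 c (l.map lab)) (fun l => of2 c' (l.map lab)) =
      fun l => (cup 2 (of2 c) (of2 c')) (l.map lab) := by
    funext l
    simp only [cup, List.map_take, List.map_drop]
  rw [e5, G.label _ (dl_cup_nerve hc hc') ?_]
  · refine finsum_congr fun t => ?_
    simp only [cup, List.take_succ_cons, List.take_zero, List.drop_succ_cons, List.drop_zero,
      of2_apply, Int.cast_mul]
  · exact (List.finite_length_eq V 5).subset fun l hl => hl.1

end label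

variable {M Z Z' : Type} [TopologicalSpace M] [TopologicalSpace Z] [TopologicalSpace Z']
  [T2Space M] [LocallyCompactSpace M] [T2Space Z] [LocallyCompactSpace Z]
  [T2Space Z'] [LocallyCompactSpace Z'] {A : Atl 2 M} [Finite A.ι] {N : ℕ}
  {C : KCov A Z ℤ} {C' : KCov A Z' (ZMod N)}

/-- **the periodic form on the nerve of `Y` is the cup product form of `X_N`** -/
theorem INR_eq_E (hpc : PreC A) (P : Part A) (F : KHom C C')
    (hφ : ∀ k : ℤ, F.φ k = (k : ZMod N)) (hN : 1 ≤ N) {lab : Z' → A.ι × ZMod N}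
    (G : EFn Z' (fun v : A.ι × ZMod N => C'.sheet v.1 v.2) lab (jw (liftP C' P)))
    {c c' : C2 (A.ι × ℤ)} (hc : c ∈ (nerve C hpc).Z2p N) (hc' : c' ∈ (nerve C hpc).Z2p N) :
    (wtY C hpc P).INR N c c' =
      G.E (cup 2 (fun l => of2 ((quot F hφ hpc).down c) (l.map lab))
        (fun l => of2 ((quot F hφ hpc).down c') (l.map lab))) := by
  have : NeZero N := ⟨by omega⟩
  rw [INR_wtY hpc P F hφ hN hc hc',
    label_cup G ((quot F hφ hpc).down_mem hc) ((quot F hφ hpc).down_mem hc')]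

end

end Crest.Agent.R275.INX945
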