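import Crest.Agent.R266.SCV
import Mathlib.Analysis.Normed.Module.MultipliableUniformlyOn
import Mathlib.Analysis.SpecialFunctions.Log.Summable
import Mathlib.Analysis.Normed.Group.FunctionSeries
import Mathlib.Analysis.SpecificLimits.Normed
import Crest.Agent.R275.XN1_194
import Crest.Agent.R275.Core_144
import Crest.Agent.R275.NAtl_938
import Crest.Agent.R275.XN3_194
import Crest.Agent.R275.NGeo_151
import Crest.Agent.R275.Cls_938
import Crest.Agent.R275.SecD_572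

-- ▼ part R275/PushA_768
section

/-!
# R275, leaf O1 (D7 on `Y`), file 1 (helper768): infinite products and sums over `ℤ`

* `summable_exp_abs` : `∑_{n ∈ ℤ} exp (-ρ |n|) < ∞`;
* `diffOn_tprod`, `diffOn_tsum` : products / sums of holomorphic functions of several variables;
* `tprod_ne_zero`, `tprod_shift`.
-/

set_option autoImplicit false
set_option linter.unusedSectionVars false

open Set Filter Topology Metric

namespace Crest.Agent.R275.PushS768

noncomputable section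

theorem summable_exp_abs {ρ : ℝ} (hρ : 0 < ρ) (K : ℝ) :
    Summable fun n : ℤ => K * Real.exp (-ρ * |(n : ℝ)|) := by
  have h0 : Summable fun n : ℕ => Real.exp (-ρ * n) := by
    have h1 : (fun n : ℕ => Real.exp (-ρ * n)) = fun n : ℕ => Real.exp (-ρ) ^ n := by
      funext n
      rw [← Real.exp_nat_mul, mul_comm]
    rw [h1]
    exact summable_geometric_of_lt_one (Real.exp_pos _).le (Real.exp_lt_one_iff.2 (by linarith))
  refine Summable.mul_left K ?_
  refine Summable.of_nat_of_neg ?_ ?_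
  · refine h0.congr fun n => ?_
    rw [Int.cast_natCast, abs_of_nonneg (Nat.cast_nonneg n)]
  · refine h0.congr fun n => ?_
    rw [Int.cast_neg, Int.cast_natCast, abs_neg, abs_of_nonneg (Nat.cast_nonneg n)]

section several

variable {E : Type*} [NormedAddCommGroup E] [NormedSpace ℂ E] [FiniteDimensional ℂ E]
variable {ι : Type*} {D : Set E} {F : ι → E → ℂ} {u : ι → ℝ}

theorem multipliable_of_bound {f : ι → ℂ} (hu : Summable u) (hb : ∀ n, ‖f n - 1‖ ≤ u n) :
    Multipliable f := by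
  have h1 : Summable fun n => ‖f n - 1‖ := hu.of_nonneg_of_le (fun _ => norm_nonneg _) hb
  have h2 := multipliable_one_add_of_summable (f := fun n => f n - 1) h1
  simpa using h2

theorem tprod_ne_zero {f : ι → ℂ} (hu : Summable u) (hb : ∀ n, ‖f n - 1‖ ≤ u n)
    (h0 : ∀ n, f n ≠ 0) : ∏' n, f n ≠ 0 := by
  have h1 : Summable fun n => ‖f n - 1‖ := hu.of_nonneg_of_le (fun _ => norm_nonneg _) hb
  have h2 := tprod_one_add_ne_zero_of_summable (f := fun n => f n - 1) (by simpa using h0) h1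
  simpa using h2

theorem diffOn_tprod (hD : IsOpen D) (hF : ∀ n, DifferentiableOn ℂ (F n) D) (hu : Summable u)
    (hb : ∀ n, ∀ z ∈ D, ‖F n z - 1‖ ≤ u n) : DifferentiableOn ℂ (fun z => ∏' n, F n z) D := by
  have : LocallyCompactSpace E := by
    have := FiniteDimensional.proper ℂ E
    infer_instance
  have h1 := Summable.hasProdLocallyUniformlyOn_one_add (f := fun n z => F n z - 1) hD hu
    (Eventually.of_forall hb) (fun n => (hF n).continuousOn.sub continuousOn_const)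
  have h2 : TendstoLocallyUniformlyOn (fun (s : Finset ι) z => ∏ n ∈ s, F n z)
      (fun z => ∏' n, F n z) atTop D := by
    simpa using hasProdLocallyUniformlyOn_iff_tendstoLocallyUniformlyOn.1 h1
  refine (Crest.Agent.R266.SCV.analyticOnNhd_of_tendstoLocallyUniformlyOn hD h2
    (Eventually.of_forall fun s => ?_)).differentiableOn
  classical
  induction s using Finset.induction_on with
  | empty => simp
  | insert k s hk ih =>
    simp only [Finset.prod_insert hk]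
    exact (hF k).mul ih

theorem diffOn_tsum (hD : IsOpen D) (hF : ∀ n, DifferentiableOn ℂ (F n) D) (hu : Summable u)
    (hb : ∀ n, ∀ z ∈ D, ‖F n z‖ ≤ u n) : DifferentiableOn ℂ (fun z => ∑' n, F n z) D := by
  have h2 := (tendstoUniformlyOn_tsum hu hb).tendstoLocallyUniformlyOn
  refine (Crest.Agent.R266.SCV.analyticOnNhd_of_tendstoLocallyUniformlyOn hD h2
    (Eventually.of_forall fun s => ?_)).differentiableOn
  exact DifferentiableOn.fun_sum fun n _ => hF n

end several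

/-- normalising constants: `a` for `0 ≤ n`, `b` for `n < 0` -/
def cc (a b : ℂ) (n : ℤ) : ℂ := if 0 ≤ n then a else b

theorem cc_ne {a b : ℂ} (ha : a ≠ 0) (hb : b ≠ 0) (n : ℤ) : cc a b n ≠ 0 := by
  unfold cc
  split_ifs
  · exact ha
  · exact hb

/-- the shift of a normalised product -/
theorem tprod_shift {a b : ℂ} (ha : a ≠ 0) (hb : b ≠ 0) {f : ℤ → ℂ}
    (hm : Multipliable fun n => f n / cc a b n) :
    ∏' n : ℤ, f (n + 1) / cc a b n = a / b * ∏' n : ℤ, f n / cc a b n := by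
  have h1 : ∀ n : ℤ, f (n + 1) / cc a b n =
      (if n = -1 then a / b else 1) * (f (n + 1) / cc a b (n + 1)) := by
    intro n
    by_cases hn : n = -1
    · subst hn
      simp only [cc]
      norm_num
      field_simp
    · rw [if_neg hn, one_mul]
      congr 1
      unfold cc
      by_cases h0 : 0 ≤ n
      · rw [if_pos h0, if_pos (by omega)]
      · rw [if_neg h0, if_neg (by omega)]
  have h2 : Multipliable fun n : ℤ => f (n + 1) / cc a b (n + 1) := by
    have h := (Equiv.addRight (1 : ℤ)).multipliable_iff.2 hm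
    simpa only [Function.comp_def, Equiv.coe_addRight] using h
  have h3 : ∏' n : ℤ, f (n + 1) / cc a b (n + 1) = ∏' n : ℤ, f n / cc a b n := by
    have h := (Equiv.addRight (1 : ℤ)).tprod_eq fun n => f n / cc a b n
    simpa only [Equiv.coe_addRight] using h
  have h5 : HasProd (fun n : ℤ => (if n = -1 then a / b else 1 : ℂ)) (a / b) := by
    have := hasProd_single (f := fun n : ℤ => (if n = -1 then a / b else 1 : ℂ)) (-1 : ℤ)
      (fun n hn => if_neg hn)
    simpa using this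
  have h4 := h5.multipliable
  rw [tprod_congr h1, Multipliable.tprod_mul h4 h2, h3]
  rw [h5.tprod_eq]

end

end Crest.Agent.R275.PushS768
end

-- ▼ part R275/PushS_768
section

/-!
# R275, leaf O1 (D7 on `Y`), file 2 (helper768): push-forward of a section of compact type

`DkCov A A' h` : an infinite cyclic covering `Y → X` of atlased surfaces with deck transformation
`g` (index shift `s`, level `lv`) and `h (g y) = h y - 1`.

If `L : LB A` has logarithms `θ` of class `c`, exponentially decaying at both ends, and `σ` is a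
section of `L` with non-zero limits `a` (small end) and `b` (large end), attained exponentially,
then the products `∏ₙ (gⁿ)^* σ / (a or b)` define a non-zero holomorphic section on `X` of a line
bundle with class `∑ₙ (gⁿ)^* c`.  MAIN RESULT: `DkCov.exists_push`.
-/

set_option autoImplicit false
set_option linter.unusedSectionVars false

open Set Filter Topology Complex Metric
open scoped ContDiff

namespace Crest.Agent.R275.PushS768

open Geo Core144 NAtl938 XN194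

noncomputable section

variable {Y X : Type} [TopologicalSpace Y] [TopologicalSpace X]

/-- infinite cyclic covering of atlased surfaces -/
structure DkCov (A : Atl 2 Y) (A' : Atl 2 X) (h : Y → ℝ) where
  C : Cov A A'
  surj : Function.Surjective C.p
  g : Y ≃ₜ Y
  s : Equiv.Perm A.ι
  lv : A.ι → ℤ
  lv_s : ∀ i, lv (s i) = lv i + 1
  src : ∀ i y, g y ∈ (A.e (s i)).source ↔ y ∈ (A.e i).source
  app : ∀ i, ∀ y ∈ (A.e i).source, A.e (s i) (g y) = A.e i y
  p_g : ∀ y, C.p (g y) = C.p y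
  r_s : ∀ i, C.r (s i) = C.r i
  fib : ∀ y y', C.p y = C.p y' → ∃ m : ℤ, (g ^ m) y = y'
  h_g : ∀ y, h (g y) = h y - 1
  h_cont : Continuous h

namespace DkCov

variable {A : Atl 2 Y} {A' : Atl 2 X} {h : Y → ℝ} (D : DkCov A A' h)

/-! ### powers -/

theorem s_inv (i : A.ι) : D.s (D.s⁻¹ i) = i := D.s.apply_symm_apply i

theorem src_zpow (n : ℤ) : ∀ i y, (D.g ^ n) y ∈ (A.e ((D.s ^ n) i)).source ↔
    y ∈ (A.e i).source := by
  induction n using Int.induction_on with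
  | zero => intro i y; simp
  | succ k ih =>
    intro i y
    rw [zpow_add_one, zpow_add_one, Homeomorph.mul_apply, Equiv.Perm.mul_apply, ih, D.src]
  | pred k ih =>
    intro i y
    rw [zpow_sub_one, zpow_sub_one, Homeomorph.mul_apply, Equiv.Perm.mul_apply, ih]
    have h1 := D.src (D.s⁻¹ i) (D.g⁻¹ y)
    have h2 : D.g (D.g⁻¹ y) = y := D.g.apply_symm_apply y
    rw [D.s_inv, h2] at h1
    exact h1.symm

theorem app_zpow (n : ℤ) : ∀ i, ∀ y ∈ (A.e i).source,
    A.e ((D.s ^ n) i) ((D.g ^ n) y) = A.e i y := by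
  induction n using Int.induction_on with
  | zero => intro i y _; simp
  | succ k ih =>
    intro i y hy
    rw [zpow_add_one, zpow_add_one, Homeomorph.mul_apply, Equiv.Perm.mul_apply,
      ih _ _ ((D.src i y).2 hy), D.app i y hy]
  | pred k ih =>
    intro i y hy
    rw [zpow_sub_one, zpow_sub_one, Homeomorph.mul_apply, Equiv.Perm.mul_apply]
    have h2 : D.g (D.g⁻¹ y) = y := D.g.apply_symm_apply y
    have h3 : D.g⁻¹ y ∈ (A.e (D.s⁻¹ i)).source := by
      rw [← D.src, D.s_inv, h2]; exact hy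
    rw [ih _ _ h3, ← D.app _ _ h3, D.s_inv, h2]

theorem h_zpow (n : ℤ) : ∀ y, h ((D.g ^ n) y) = h y - n := by
  induction n using Int.induction_on with
  | zero => intro y; simp
  | succ k ih =>
    intro y
    rw [zpow_add_one, Homeomorph.mul_apply, ih, D.h_g]
    push_cast
    ring
  | pred k ih =>
    intro y
    rw [zpow_sub_one, Homeomorph.mul_apply, ih]
    have h2 : D.g (D.g⁻¹ y) = y := D.g.apply_symm_apply y
    have h3 := D.h_g (D.g⁻¹ y)
    rw [h2] at h3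
    push_cast
    linarith


theorem r_zpow (n : ℤ) : ∀ i, D.C.r ((D.s ^ n) i) = D.C.r i := by
  induction n using Int.induction_on with
  | zero => intro y; simp
  | succ k ih =>
    intro i
    rw [zpow_add_one, Equiv.Perm.mul_apply, ih, D.r_s]
  | pred k ih =>
    intro i
    rw [zpow_sub_one, Equiv.Perm.mul_apply, ih]
    have h3 := D.r_s (D.s⁻¹ i)
    rw [D.s_inv] at h3
    exact h3.symm


theorem tgt_zpow (n : ℤ) (i : A.ι) : (A.e ((D.s ^ n) i)).target = (A.e i).target := by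
  rw [D.C.target, D.C.target, D.r_zpow]

theorem symm_zpow (n : ℤ) {i : A.ι} {z : Cn 2} (hz : z ∈ (A.e i).target) :
    (A.e ((D.s ^ n) i)).symm z = (D.g ^ n) ((A.e i).symm z) := by
  have h1 := (A.e i).map_target hz
  have h2 := D.app_zpow n i _ h1
  rw [(A.e i).right_inv hz] at h2
  have h3 := (A.e ((D.s ^ n) i)).left_inv ((D.src_zpow n i _).2 h1)
  rwa [h2] at h3

/-- the lifts of a chart at two points over the same point differ by a power of `s` -/
theorem exists_shift {i j : A.ι} (hij : D.C.r i = D.C.r j) {x y : Y} (hx : x ∈ (A.e i).source)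
    (hy : y ∈ (A.e j).source) (hxy : D.C.p x = D.C.p y) :
    ∃ m : ℤ, (D.g ^ m) x = y ∧ (D.s ^ m) i = j := by
  obtain ⟨m, hm⟩ := D.fib x y hxy
  refine ⟨m, hm, D.C.uniq _ _ ?_ y ?_ hy⟩
  · rw [D.r_zpow, hij]
  · rw [← hm]; exact (D.src_zpow m i x).2 hx

/-! ### descent -/

section descent

variable {W : Type}

/-- two-index families which are invariant under the deck transformations -/
def Inv2 (F : A.ι → A.ι → Y → W) : Prop :=
  ∀ i j, ∀ y ∈ (A.e i).source ∩ (A.e j).source, F (D.s i) (D.s j) (D.g y) = F i j y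

theorem Inv2.zpow {F : A.ι → A.ι → Y → W} (hF : D.Inv2 F) (n : ℤ) : ∀ i j,
    ∀ y ∈ (A.e i).source ∩ (A.e j).source,
      F ((D.s ^ n) i) ((D.s ^ n) j) ((D.g ^ n) y) = F i j y := by
  induction n using Int.induction_on with
  | zero => intro i j y _; simp
  | succ k ih =>
    intro i j y hy
    rw [zpow_add_one, zpow_add_one, Homeomorph.mul_apply, Equiv.Perm.mul_apply,
      Equiv.Perm.mul_apply, ih _ _ _ ⟨(D.src i y).2 hy.1, (D.src j y).2 hy.2⟩, hF i j y hy]
  | pred k ih =>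
    intro i j y hy
    rw [zpow_sub_one, zpow_sub_one, Homeomorph.mul_apply, Equiv.Perm.mul_apply,
      Equiv.Perm.mul_apply]
    have h2 : D.g (D.g⁻¹ y) = y := D.g.apply_symm_apply y
    have h3 : D.g⁻¹ y ∈ (A.e (D.s⁻¹ i)).source := by
      rw [← D.src, D.s_inv, h2]; exact hy.1
    have h4 : D.g⁻¹ y ∈ (A.e (D.s⁻¹ j)).source := by
      rw [← D.src, D.s_inv, h2]; exact hy.2
    rw [ih _ _ _ ⟨h3, h4⟩, ← hF _ _ _ ⟨h3, h4⟩, D.s_inv,
      D.s_inv, h2]

open Classical in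
/-- descent of an invariant two-index family, with value `w₀` off the overlaps -/
def dsc2 (F : A.ι → A.ι → Y → W) (w₀ : W) (i' j' : A'.ι) (x' : X) : W :=
  if H : ∃ i j x, D.C.r i = i' ∧ D.C.r j = j' ∧ x ∈ (A.e i).source ∩ (A.e j).source ∧ D.C.p x = x'
  then F H.choose H.choose_spec.choose H.choose_spec.choose_spec.choose else w₀

theorem dsc2_apply {F : A.ι → A.ι → Y → W} (hF : D.Inv2 F) {w₀ : W} {i j : A.ι} {x : Y}
    (hx : x ∈ (A.e i).source ∩ (A.e j).source) :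
    D.dsc2 F w₀ (D.C.r i) (D.C.r j) (D.C.p x) = F i j x := by
  have H : ∃ i₁ j₁ x₁, D.C.r i₁ = D.C.r i ∧ D.C.r j₁ = D.C.r j ∧
      x₁ ∈ (A.e i₁).source ∩ (A.e j₁).source ∧ D.C.p x₁ = D.C.p x := ⟨i, j, x, rfl, rfl, hx, rfl⟩
  unfold dsc2
  rw [dif_pos H]
  obtain ⟨h1, h2, h3, h4⟩ := H.choose_spec.choose_spec.choose_spec
  generalize H.choose_spec.choose_spec.choose = x₁ at *
  generalize H.choose_spec.choose = j₁ at *
  generalize H.choose = i₁ at *
  obtain ⟨m, hm, hm'⟩ := D.exists_shift h1 h3.1 hx.1 h4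
  have h5 : (D.s ^ m) j₁ = j := by
    refine D.C.uniq _ _ ?_ x ?_ hx.2
    · rw [D.r_zpow, h2]
    · rw [← hm]; exact (D.src_zpow m j₁ x₁).2 h3.2
  rw [← hF.zpow D m i₁ j₁ x₁ h3, hm, hm', h5]


/-- invariance under the deck group gives 194's `Inv` -/
theorem inv_of {u : A.ι → Y → W} (hu : ∀ i, ∀ y ∈ (A.e i).source, u (D.s i) (D.g y) = u i y) :
    D.C.Inv u := by
  intro i j hij x hx y hy hxy
  obtain ⟨m, hm, hm'⟩ := D.exists_shift hij hx hy hxy
  have h1 : D.Inv2 fun i _ y => u i y := fun i _ y hy => hu i y hy.1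
  have h2 := h1.zpow D m i i x ⟨hx, hx⟩
  simp only [hm, hm'] at h2
  exact h2.symm

end descent

end DkCov

end

end Crest.Agent.R275.PushS768
end

-- ▼ part R275/PushS2_768
section

/-!
# R275, leaf O1 (D7 on `Y`), file 3 (helper768): the products and sums over the deck group
-/

set_option autoImplicit false
set_option linter.unusedSectionVars false

open Set Filter Topology Complex Metric
open scoped ContDiff

namespace Crest.Agent.R275.PushS768

open Geo Core144 NAtl938 XN194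

noncomputable section

variable {Y X : Type} [TopologicalSpace Y] [TopologicalSpace X]

namespace DkCov

variable {A : Atl 2 Y} {A' : Atl 2 X} {h : Y → ℝ} (D : DkCov A A' h)

/-- the elementary estimate for the weights -/
theorem exp_le {ρ H : ℝ} (hρ : 0 < ρ) {t : ℝ} (ht : |t| ≤ H) (n : ℤ) :
    Real.exp (-ρ * |t - n|) ≤ Real.exp (ρ * H) * Real.exp (-ρ * |(n : ℝ)|) := by
  rw [← Real.exp_add]
  apply Real.exp_le_exp.2
  have h1 : |(n : ℝ)| ≤ |t - n| + |t| := by
    have h2 := abs_add_le (-(t - n)) t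
    have h3 : -(t - n) + t = (n : ℝ) := by ring
    rw [h3, abs_neg] at h2
    exact h2
  nlinarith [h1, ht, hρ]

theorem one_le_exp {ρ H : ℝ} (hρ : 0 < ρ) {n : ℤ} (hn : |(n : ℝ)| ≤ H) :
    1 ≤ Real.exp (ρ * H) * Real.exp (-ρ * |(n : ℝ)|) := by
  rw [← Real.exp_add, ← Real.exp_zero]
  apply Real.exp_le_exp.2
  nlinarith

/-! ### the sum of the logarithms -/

/-- `∑ₙ (gⁿ)^* θ` -/
def TH (θ : A.ι → A.ι → Y → ℂ) (i j : A.ι) (y : Y) : ℂ :=
  ∑' n : ℤ, θ ((D.s ^ n) i) ((D.s ^ n) j) ((D.g ^ n) y)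

variable {θ : A.ι → A.ι → Y → ℂ} {C ρ : ℝ}

theorem TH_bound (hρ : 0 < ρ) (hθ : Dec2 A h θ C ρ) {i j : A.ι} {y : Y}
    (hy : y ∈ (A.e i).source ∩ (A.e j).source) {H : ℝ} (hH : |h y| ≤ H) (n : ℤ) :
    ‖θ ((D.s ^ n) i) ((D.s ^ n) j) ((D.g ^ n) y)‖ ≤
      |C| * Real.exp (ρ * H) * Real.exp (-ρ * |(n : ℝ)|) := by
  have h1 := hθ ((D.s ^ n) i) ((D.s ^ n) j) ((D.g ^ n) y)
    ⟨(D.src_zpow n i y).2 hy.1, (D.src_zpow n j y).2 hy.2⟩
  rw [D.h_zpow] at h1
  refine h1.trans ?_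
  calc C * Real.exp (-ρ * |h y - n|) ≤ |C| * Real.exp (-ρ * |h y - n|) :=
        mul_le_mul_of_nonneg_right (le_abs_self C) (Real.exp_pos _).le
    _ ≤ |C| * (Real.exp (ρ * H) * Real.exp (-ρ * |(n : ℝ)|)) :=
        mul_le_mul_of_nonneg_left (exp_le hρ hH n) (abs_nonneg C)
    _ = _ := by ring

theorem TH_summable (hρ : 0 < ρ) (hθ : Dec2 A h θ C ρ) {i j : A.ι} {y : Y}
    (hy : y ∈ (A.e i).source ∩ (A.e j).source) :
    Summable fun n : ℤ => θ ((D.s ^ n) i) ((D.s ^ n) j) ((D.g ^ n) y) :=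
  Summable.of_norm_bounded (summable_exp_abs hρ _) (D.TH_bound hρ hθ hy le_rfl)

theorem TH_inv (θ : A.ι → A.ι → Y → ℂ) (i j : A.ι) (y : Y) :
    D.TH θ (D.s i) (D.s j) (D.g y) = D.TH θ i j y := by
  unfold TH
  have h1 := (Equiv.addRight (1 : ℤ)).tsum_eq
    fun n => θ ((D.s ^ n) i) ((D.s ^ n) j) ((D.g ^ n) y)
  simp only [Equiv.coe_addRight, zpow_add_one, Homeomorph.mul_apply, Equiv.Perm.mul_apply] at h1
  exact h1

theorem TH_coc (hρ : 0 < ρ) (hθ : Dec2 A h θ C ρ) {c : A.ι → A.ι → A.ι → ℤ}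
    (hc : ∀ i j k, ∀ x ∈ (A.e i).source ∩ (A.e j).source ∩ (A.e k).source,
      θ j k x - θ i k x + θ i j x = c i j k) {i j k : A.ι} {y : Y}
    (hy : y ∈ (A.e i).source ∩ (A.e j).source ∩ (A.e k).source) :
    D.TH θ j k y - D.TH θ i k y + D.TH θ i j y =
      ∑' n : ℤ, ((c ((D.s ^ n) i) ((D.s ^ n) j) ((D.s ^ n) k) : ℤ) : ℂ) := by
  unfold TH
  have h1 := D.TH_summable hρ hθ (i := j) (j := k) (y := y) ⟨hy.1.2, hy.2⟩
  have h2 := D.TH_summable hρ hθ (i := i) (j := k) (y := y) ⟨hy.1.1, hy.2⟩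
  have h3 := D.TH_summable hρ hθ (i := i) (j := j) (y := y) hy.1
  rw [← h1.tsum_sub h2, ← (h1.sub h2).tsum_add h3]
  refine tsum_congr fun n => ?_
  exact hc _ _ _ _ ⟨⟨(D.src_zpow n i y).2 hy.1.1, (D.src_zpow n j y).2 hy.1.2⟩,
    (D.src_zpow n k y).2 hy.2⟩

theorem TH_coc_int (hρ : 0 < ρ) (hθ : Dec2 A h θ C ρ) {c : A.ι → A.ι → A.ι → ℤ}
    (hc : ∀ i j k, ∀ x ∈ (A.e i).source ∩ (A.e j).source ∩ (A.e k).source,
      θ j k x - θ i k x + θ i j x = c i j k) {i j k : A.ι} {y : Y}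
    (hy : y ∈ (A.e i).source ∩ (A.e j).source ∩ (A.e k).source) :
    D.TH θ j k y - D.TH θ i k y + D.TH θ i j y =
      ((∑ᶠ n : ℤ, c ((D.s ^ n) i) ((D.s ^ n) j) ((D.s ^ n) k) : ℤ) : ℂ) := by
  rw [D.TH_coc hρ hθ hc hy]
  have h1 := D.TH_summable hρ hθ (i := j) (j := k) (y := y) ⟨hy.1.2, hy.2⟩
  have h2 := D.TH_summable hρ hθ (i := i) (j := k) (y := y) ⟨hy.1.1, hy.2⟩
  have h3 := D.TH_summable hρ hθ (i := i) (j := j) (y := y) hy.1
  have h4 : Summable fun n : ℤ => ((c ((D.s ^ n) i) ((D.s ^ n) j) ((D.s ^ n) k) : ℤ) : ℂ) := by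
    refine ((h1.sub h2).add h3).congr fun n => ?_
    exact hc _ _ _ _ ⟨⟨(D.src_zpow n i y).2 hy.1.1, (D.src_zpow n j y).2 hy.1.2⟩,
      (D.src_zpow n k y).2 hy.2⟩
  have h5 : {n : ℤ | c ((D.s ^ n) i) ((D.s ^ n) j) ((D.s ^ n) k) ≠ 0}.Finite := by
    have h6 := h4.tendsto_cofinite_zero
    have h7 : ∀ᶠ n : ℤ in cofinite,
        ((c ((D.s ^ n) i) ((D.s ^ n) j) ((D.s ^ n) k) : ℤ) : ℂ) ∈ ball (0 : ℂ) 1 :=
      h6 (ball_mem_nhds _ one_pos)
    refine Set.Finite.subset h7 fun n hn hn' => hn ?_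
    have hn2 : ((c ((D.s ^ n) i) ((D.s ^ n) j) ((D.s ^ n) k) : ℤ) : ℂ) ∈ ball (0 : ℂ) 1 := hn'
    rw [mem_ball_zero_iff, Complex.norm_intCast] at hn2
    exact Int.abs_lt_one_iff.1 (by exact_mod_cast hn2)
  have h8 : (Function.support fun n : ℤ =>
      ((c ((D.s ^ n) i) ((D.s ^ n) j) ((D.s ^ n) k) : ℤ) : ℂ)).Finite := by
    refine h5.subset fun n hn => ?_
    simpa using hn
  have h9 : (Function.support fun n : ℤ =>
      c ((D.s ^ n) i) ((D.s ^ n) j) ((D.s ^ n) k)).Finite := h5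
  rw [tsum_eq_finsum h8]
  exact ((Int.castAddHom ℂ).map_finsum h9).symm

/-- the exponential of the sum of the logarithms -/
theorem exp_TH (hρ : 0 < ρ) (hθ : Dec2 A h θ C ρ) {G : A.ι → A.ι → Y → ℂ}
    (hG : ∀ i j, ∀ x ∈ (A.e i).source ∩ (A.e j).source,
      Complex.exp (2 * Real.pi * I * θ i j x) = G i j x) {i j : A.ι} {y : Y}
    (hy : y ∈ (A.e i).source ∩ (A.e j).source) :
    HasProd (fun n : ℤ => G ((D.s ^ n) i) ((D.s ^ n) j) ((D.g ^ n) y))
      (Complex.exp (2 * Real.pi * I * D.TH θ i j y)) := by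
  have h1 := ((D.TH_summable hρ hθ hy).hasSum.mul_left (2 * Real.pi * I)).cexp
  refine h1.congr_fun ?_
  intro n
  exact (hG _ _ _ ⟨(D.src_zpow n i y).2 hy.1, (D.src_zpow n j y).2 hy.2⟩).symm

theorem TH_hol (hρ : 0 < ρ) (hθ : Dec2 A h θ C ρ)
    (hhol : ∀ i j, ∀ x ∈ (A.e i).source ∩ (A.e j).source, Fm96.HolP A i (θ i j) x)
    {i j : A.ι} {y : Y} (hy : y ∈ (A.e i).source ∩ (A.e j).source) :
    Fm96.HolP A i (D.TH θ i j) y := by
  -- a neighbourhood on which `h` is bounded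
  set O : Set (Cn 2) := A.ov i j ∩ ((A.e i).target ∩ (A.e i).symm ⁻¹' {x | |h x| < |h y| + 1})
    with hO
  have hopen : IsOpen O := by
    refine (isOpen_ov i j).inter ((A.e i).isOpen_inter_preimage_symm ?_)
    exact isOpen_lt (D.h_cont.abs) continuous_const
  have hmem : A.e i y ∈ O := by
    refine ⟨mem_ov hy, (A.e i).map_source hy.1, ?_⟩
    show |h ((A.e i).symm (A.e i y))| < |h y| + 1
    rw [(A.e i).left_inv hy.1]
    linarith
  have key : DifferentiableOn ℂ (fun z => D.TH θ i j ((A.e i).symm z)) O := by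
    refine diffOn_tsum hopen (u := fun n : ℤ => |C| * Real.exp (ρ * (|h y| + 1)) *
      Real.exp (-ρ * |(n : ℝ)|)) ?_ (summable_exp_abs hρ _) ?_
    · intro n z hz
      have h1 : (A.e i).symm z ∈ (A.e i).source := (A.e i).map_target hz.1.1
      have h2 : (A.e i).symm z ∈ (A.e j).source := hz.1.2
      have h3 := (hhol ((D.s ^ n) i) ((D.s ^ n) j) ((D.g ^ n) ((A.e i).symm z))
        ⟨(D.src_zpow n i _).2 h1, (D.src_zpow n j _).2 h2⟩).self
      rw [D.app_zpow n i _ h1, (A.e i).right_inv hz.1.1] at h3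
      refine (h3.congr_of_eventuallyEq ?_).differentiableWithinAt
      filter_upwards [(A.e i).open_target.mem_nhds hz.1.1] with w hw
      rw [D.symm_zpow n hw]
    · intro n z hz
      have h1 : (A.e i).symm z ∈ (A.e i).source := (A.e i).map_target hz.1.1
      exact D.TH_bound hρ hθ ⟨h1, hz.1.2⟩ (le_of_lt hz.2.2) n
  exact (hopen.eventually_mem hmem).mono fun z hz => key.differentiableAt (hopen.mem_nhds hz)

/-! ### the product of the sections -/

variable {σ : A.ι → Y → ℂ} {a b : ℂ} {K : ℝ}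

/-- normalised factors -/
def fac (σ : A.ι → Y → ℂ) (a b : ℂ) (i : A.ι) (y : Y) (n : ℤ) : ℂ :=
  σ ((D.s ^ n) i) ((D.g ^ n) y) / cc a b n

open Classical in
/-- `∏ₙ (gⁿ)^* σ / (a or b)` -/
def SS (σ : A.ι → Y → ℂ) (a b : ℂ) (i : A.ι) (y : Y) : ℂ :=
  if y ∈ (A.e i).source then ∏' n : ℤ, D.fac σ a b i y n else 0

theorem fac_bound (ha : a ≠ 0) (hb : b ≠ 0) (hρ : 0 < ρ) (hL : Lim A h σ a b K ρ) {i : A.ι} {y : Y}
    (hy : y ∈ (A.e i).source) {H : ℝ} (hH : |h y| ≤ H) (n : ℤ) :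
    ‖D.fac σ a b i y n - 1‖ ≤ (|K| + ‖a‖ + ‖b‖) * Real.exp (ρ * H) / min ‖a‖ ‖b‖ *
      Real.exp (-ρ * |(n : ℝ)|) := by
  have hm : 0 < min ‖a‖ ‖b‖ := lt_min (norm_pos_iff.2 ha) (norm_pos_iff.2 hb)
  have hy' := (D.src_zpow n i y).2 hy
  obtain ⟨h1, h2⟩ := hL _ _ hy'
  rw [D.h_zpow] at h1 h2
  have hcn := cc_ne ha hb n
  have hle : min ‖a‖ ‖b‖ ≤ ‖cc a b n‖ := by
    unfold cc
    split_ifs
    · exact min_le_left _ _
    · exact min_le_right _ _
  have e1 : Real.exp (-ρ * |h y - n|) ≤ 1 := by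
    rw [Real.exp_le_one_iff]
    have := mul_nonneg hρ.le (abs_nonneg (h y - n))
    linarith
  have e2 := exp_le hρ hH n
  have key : ‖σ ((D.s ^ n) i) ((D.g ^ n) y) - cc a b n‖ ≤
      (|K| + ‖a‖ + ‖b‖) * (Real.exp (ρ * H) * Real.exp (-ρ * |(n : ℝ)|)) := by
    have hK : K * Real.exp (-ρ * |h y - n|) ≤ |K| * (Real.exp (ρ * H) *
        Real.exp (-ρ * |(n : ℝ)|)) := by
      calc _ ≤ |K| * Real.exp (-ρ * |h y - n|) :=
            mul_le_mul_of_nonneg_right (le_abs_self K) (Real.exp_pos _).le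
        _ ≤ _ := mul_le_mul_of_nonneg_left e2 (abs_nonneg K)
    have hpos : 0 < Real.exp (ρ * H) * Real.exp (-ρ * |(n : ℝ)|) := by positivity
    have hab : 0 ≤ (‖a‖ + ‖b‖) * (Real.exp (ρ * H) * Real.exp (-ρ * |(n : ℝ)|)) := by positivity
    -- the case when the constant is the right one
    by_cases hn : 0 ≤ n
    · rw [show cc a b n = a from if_pos hn]
      rcases le_total (h y - n) 0 with ht | ht
      · have := h1 ht
        nlinarith
      · have h3 := h2 ht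
        have hnn : |(n : ℝ)| ≤ H := by
          rw [abs_of_nonneg (by exact_mod_cast hn)]
          have := le_abs_self (h y)
          linarith
        have h4 := one_le_exp hρ hnn
        have h5 : ‖σ ((D.s ^ n) i) ((D.g ^ n) y) - a‖ ≤
            ‖σ ((D.s ^ n) i) ((D.g ^ n) y) - b‖ + (‖a‖ + ‖b‖) := by
          have e : σ ((D.s ^ n) i) ((D.g ^ n) y) - a =
            (σ ((D.s ^ n) i) ((D.g ^ n) y) - b) + (b - a) := by ring
          rw [e]
          refine (norm_add_le _ _).trans ?_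
          have := norm_sub_le b a
          linarith
        have hab' : 0 ≤ ‖a‖ + ‖b‖ := by positivity
        nlinarith
    · rw [show cc a b n = b from if_neg hn]
      rcases le_total 0 (h y - n) with ht | ht
      · have := h2 ht
        nlinarith
      · have h3 := h1 ht
        have hnn : |(n : ℝ)| ≤ H := by
          have hn0 : (n : ℝ) < 0 := by exact_mod_cast not_le.1 hn
          rw [abs_of_neg hn0]
          have := neg_abs_le (h y)
          linarith
        have h4 := one_le_exp hρ hnn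
        have h5 : ‖σ ((D.s ^ n) i) ((D.g ^ n) y) - b‖ ≤
            ‖σ ((D.s ^ n) i) ((D.g ^ n) y) - a‖ + (‖a‖ + ‖b‖) := by
          have e : σ ((D.s ^ n) i) ((D.g ^ n) y) - b =
            (σ ((D.s ^ n) i) ((D.g ^ n) y) - a) + (a - b) := by ring
          rw [e]
          refine (norm_add_le _ _).trans ?_
          have := norm_sub_le a b
          linarith
        have hab' : 0 ≤ ‖a‖ + ‖b‖ := by positivity
        nlinarith
  have e3 : D.fac σ a b i y n - 1 = (σ ((D.s ^ n) i) ((D.g ^ n) y) - cc a b n) / cc a b n := by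
    unfold fac
    field_simp
  rw [e3, norm_div, div_le_iff₀ (norm_pos_iff.2 hcn)]
  refine key.trans ?_
  have hpos : 0 ≤ (|K| + ‖a‖ + ‖b‖) * (Real.exp (ρ * H) * Real.exp (-ρ * |(n : ℝ)|)) := by
    positivity
  calc _ = (|K| + ‖a‖ + ‖b‖) * (Real.exp (ρ * H) * Real.exp (-ρ * |(n : ℝ)|)) /
        min ‖a‖ ‖b‖ * min ‖a‖ ‖b‖ := by field_simp
    _ ≤ (|K| + ‖a‖ + ‖b‖) * (Real.exp (ρ * H) * Real.exp (-ρ * |(n : ℝ)|)) /
        min ‖a‖ ‖b‖ * ‖cc a b n‖ := by
          refine mul_le_mul_of_nonneg_left hle ?_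
          positivity
    _ = _ := by ring

theorem fac_multipliable (ha : a ≠ 0) (hb : b ≠ 0) (hρ : 0 < ρ) (hL : Lim A h σ a b K ρ)
    {i : A.ι} {y : Y} (hy : y ∈ (A.e i).source) : Multipliable (D.fac σ a b i y) :=
  multipliable_of_bound (summable_exp_abs hρ _) (D.fac_bound ha hb hρ hL hy le_rfl)

theorem SS_of_mem {i : A.ι} {y : Y} (hy : y ∈ (A.e i).source) :
    D.SS σ a b i y = ∏' n : ℤ, D.fac σ a b i y n := if_pos hy


theorem SS_shift (ha : a ≠ 0) (hb : b ≠ 0) (hρ : 0 < ρ) (hL : Lim A h σ a b K ρ) {i : A.ι} {y : Y}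
    (hy : y ∈ (A.e i).source) : D.SS σ a b (D.s i) (D.g y) = a / b * D.SS σ a b i y := by
  rw [D.SS_of_mem hy, D.SS_of_mem ((D.src i y).2 hy)]
  have h1 := tprod_shift ha hb (f := fun n : ℤ => σ ((D.s ^ n) i) ((D.g ^ n) y))
    (D.fac_multipliable ha hb hρ hL hy)
  simp only [zpow_add_one, Homeomorph.mul_apply, Equiv.Perm.mul_apply] at h1
  exact h1

theorem SS_tr (ha : a ≠ 0) (hb : b ≠ 0) (hρ : 0 < ρ) (hL : Lim A h σ a b K ρ)
    (hθ : Dec2 A h θ C ρ) {L : LB A}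
    (hG : ∀ i j, ∀ x ∈ (A.e i).source ∩ (A.e j).source,
      Complex.exp (2 * Real.pi * I * θ i j x) = L.g i j x)
    (hσ : IsHS L univ σ) {i j : A.ι} {y : Y} (hy : y ∈ (A.e i).source ∩ (A.e j).source) :
    D.SS σ a b i y = Complex.exp (2 * Real.pi * I * D.TH θ i j y) * D.SS σ a b j y := by
  rw [D.SS_of_mem hy.1, D.SS_of_mem hy.2, ← (D.exp_TH hρ hθ hG hy).tprod_eq,
    ← (D.exp_TH hρ hθ hG hy).multipliable.tprod_mul (D.fac_multipliable ha hb hρ hL hy.2)]
  refine tprod_congr fun n => ?_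
  unfold fac
  rw [hσ.tr _ _ _ ⟨(D.src_zpow n i y).2 hy.1, (D.src_zpow n j y).2 hy.2⟩ (mem_univ _), mul_div_assoc]

theorem SS_hol (ha : a ≠ 0) (hb : b ≠ 0) (hρ : 0 < ρ) (hL : Lim A h σ a b K ρ) {L : LB A}
    (hσ : IsHS L univ σ) (i : A.ι) : HolAt A i univ (D.SS σ a b i) := by
  intro z hz
  have hz1 : z ∈ (A.e i).target := hz.1
  set y := (A.e i).symm z with hy
  set O : Set (Cn 2) := (A.e i).target ∩ (A.e i).symm ⁻¹' {x | |h x| < |h y| + 1} with hO
  have hopen : IsOpen O :=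
    (A.e i).isOpen_inter_preimage_symm (isOpen_lt (D.h_cont.abs) continuous_const)
  have hmem : z ∈ O := ⟨hz1, by show |h ((A.e i).symm z)| < |h y| + 1; rw [← hy]; linarith⟩
  have key : DifferentiableOn ℂ (fun z => ∏' n : ℤ, D.fac σ a b i ((A.e i).symm z) n) O := by
    refine diffOn_tprod hopen (F := fun (n : ℤ) w => D.fac σ a b i ((A.e i).symm w) n)
      (u := fun n : ℤ => (|K| + ‖a‖ + ‖b‖) * Real.exp (ρ * (|h y| + 1)) / min ‖a‖ ‖b‖ *
      Real.exp (-ρ * |(n : ℝ)|)) ?_ (summable_exp_abs hρ _) ?_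
    · intro n w hw
      have h1 := hσ.hol ((D.s ^ n) i)
      have h2 : DifferentiableOn ℂ (fun w => σ ((D.s ^ n) i) ((A.e ((D.s ^ n) i)).symm w))
          (A.e i).target := by
        refine DifferentiableOn.mono h1 fun v hv => ⟨?_, mem_univ _⟩
        rw [D.tgt_zpow]; exact hv
      have h3 : DifferentiableOn ℂ (fun w => D.fac σ a b i ((A.e i).symm w) n) (A.e i).target := by
        unfold fac
        have h5 : DifferentiableOn ℂ (fun w => σ ((D.s ^ n) i) ((D.g ^ n) ((A.e i).symm w)))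
            (A.e i).target := h2.congr fun v hv => by rw [D.symm_zpow n hv]
        simp only [div_eq_mul_inv]
        exact h5.mul_const _
      exact (h3.mono inter_subset_left) w hw
    · intro n w hw
      exact D.fac_bound ha hb hρ hL ((A.e i).map_target hw.1) (le_of_lt hw.2) n
  have h4 : DifferentiableAt ℂ (fun z => D.SS σ a b i ((A.e i).symm z)) z := by
    refine (key.differentiableAt (hopen.mem_nhds hmem)).congr_of_eventuallyEq ?_
    filter_upwards [(A.e i).open_target.mem_nhds hz1] with w hw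
    exact D.SS_of_mem ((A.e i).map_target hw)
  exact h4.differentiableWithinAt

end DkCov

end

end Crest.Agent.R275.PushS768
end

-- ▼ part R275/PushS3_768
section

/-!
# R275, leaf O1 (D7 on `Y`), file 4 (helper768): descent to `X`, `exists_push`, `D7Y`
-/

set_option autoImplicit false
set_option linter.unusedSectionVars false

open Set Filter Topology Complex Metric
open scoped ContDiff

namespace Crest.Agent.R275.PushS768

open Geo Core144 NAtl938 XN194

noncomputable section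

variable {Y X : Type} [TopologicalSpace Y] [TopologicalSpace X]

/-- finitely many functions analytic on a preconnected open set, none of them identically zero,
have a common point where they do not vanish -/
theorem exists_prod_ne_zero {E : Type*} [NormedAddCommGroup E] [NormedSpace ℂ E] {ι : Type*}
    {U : Set E} (hU : IsOpen U) (hc : IsPreconnected U) (hne : U.Nonempty) (s : Finset ι)
    {f : ι → E → ℂ} (hf : ∀ n ∈ s, AnalyticOnNhd ℂ (f n) U) (h0 : ∀ n ∈ s, ∃ x ∈ U, f n x ≠ 0) :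
    AnalyticOnNhd ℂ (fun x => ∏ n ∈ s, f n x) U ∧ ∃ x ∈ U, ∏ n ∈ s, f n x ≠ 0 := by
  classical
  induction s using Finset.induction_on with
  | empty =>
    obtain ⟨x, hx⟩ := hne
    refine ⟨?_, x, hx, by simp⟩
    simp only [Finset.prod_empty]
    exact fun _ _ => analyticAt_const
  | insert k s hk ih =>
    obtain ⟨h1, h2⟩ := ih (fun n hn => hf n (by simp [hn])) fun n hn => h0 n (by simp [hn])
    have h3 := hf k (by simp)
    simp only [Finset.prod_insert hk]
    refine ⟨h3.mul h1, ?_⟩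
    obtain ⟨x, hx, hx'⟩ := Crest.Agent.R266.SCV.exists_mul_ne_zero hU hc h3 h1 (h0 k (by simp)) h2
    exact ⟨x, hx, hx'⟩

namespace DkCov

variable {A : Atl 2 Y} {A' : Atl 2 X} {h : Y → ℝ} (D : DkCov A A' h)

variable {θ : A.ι → A.ι → Y → ℂ} {C ρ : ℝ} {σ : A.ι → Y → ℂ} {a b : ℂ} {K : ℝ}

/-- the logarithms of the descended line bundle, upstairs -/
def TT (θ : A.ι → A.ι → Y → ℂ) (τ : ℂ) (i j : A.ι) (y : Y) : ℂ :=
  D.TH θ i j y + τ * ((D.lv j : ℂ) - D.lv i)

theorem TT_inv (τ : ℂ) : D.Inv2 (D.TT θ τ) := by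
  intro i j y _
  unfold TT
  rw [D.TH_inv, D.lv_s, D.lv_s]
  push_cast
  ring

/-- the invariant section upstairs; `t = a / b` -/
def ST (σ : A.ι → Y → ℂ) (a b : ℂ) (i : A.ι) (y : Y) : ℂ := (a / b) ^ (-D.lv i) * D.SS σ a b i y

theorem ST_inv (ha : a ≠ 0) (hb : b ≠ 0) (hρ : 0 < ρ) (hL : Lim A h σ a b K ρ) (i : A.ι) (y : Y)
    (hy : y ∈ (A.e i).source) : D.ST σ a b (D.s i) (D.g y) = D.ST σ a b i y := by
  unfold ST
  rw [D.SS_shift ha hb hρ hL hy, D.lv_s, neg_add, zpow_add₀ (div_ne_zero ha hb), zpow_neg_one]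
  have : a / b ≠ 0 := div_ne_zero ha hb
  field_simp

theorem exp_TT {τ : ℂ} (hτ : Complex.exp (2 * Real.pi * I * τ) = a / b) (i j : A.ι) (y : Y) :
    Complex.exp (2 * Real.pi * I * D.TT θ τ i j y) =
      (a / b) ^ (D.lv j - D.lv i) * Complex.exp (2 * Real.pi * I * D.TH θ i j y) := by
  unfold TT
  rw [mul_add, Complex.exp_add, mul_comm]
  congr 1
  rw [← hτ, ← Complex.exp_int_mul]
  congr 1
  push_cast
  ring

theorem ST_tr (ha : a ≠ 0) (hb : b ≠ 0) (hρ : 0 < ρ) (hL : Lim A h σ a b K ρ)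
    (hθ : Dec2 A h θ C ρ) {L : LB A}
    (hG : ∀ i j, ∀ x ∈ (A.e i).source ∩ (A.e j).source,
      Complex.exp (2 * Real.pi * I * θ i j x) = L.g i j x)
    (hσ : IsHS L univ σ) {τ : ℂ} (hτ : Complex.exp (2 * Real.pi * I * τ) = a / b) {i j : A.ι}
    {y : Y} (hy : y ∈ (A.e i).source ∩ (A.e j).source) :
    D.ST σ a b i y = Complex.exp (2 * Real.pi * I * D.TT θ τ i j y) * D.ST σ a b j y := by
  have h0 : a / b ≠ 0 := div_ne_zero ha hb
  rw [D.exp_TT hτ]
  unfold ST
  rw [D.SS_tr ha hb hρ hL hθ hG hσ hy]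
  have h1 : (a / b) ^ (D.lv j - D.lv i) * (a / b) ^ (-D.lv j) = (a / b) ^ (-D.lv i) := by
    rw [← zpow_add₀ h0]; congr 1; ring
  rw [← h1]
  ring

/-- a function which near `p y` is given by a holomorphic function upstairs is holomorphic -/
theorem holP_down {i : A.ι} {y : Y} (hy : y ∈ (A.e i).source) {F : Y → ℂ} {f : X → ℂ}
    (hF : Fm96.HolP A i F y) (hf : ∀ᶠ w in 𝓝 y, f (D.C.p w) = F w) :
    Fm96.HolP A' (D.C.r i) f (D.C.p y) := by
  unfold Fm96.HolP at hF ⊢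
  rw [D.C.comp i y hy]
  have h1 : (fun z => f ((A'.e (D.C.r i)).symm z)) =ᶠ[𝓝 (A.e i y)]
      fun z => F ((A.e i).symm z) := by
    have h2 : Tendsto (A.e i).symm (𝓝 (A.e i y)) (𝓝 y) := by
      have := (A.e i).continuousAt_symm ((A.e i).map_source hy)
      rw [ContinuousAt, (A.e i).left_inv hy] at this
      exact this
    filter_upwards [h2.eventually hf, (A.e i).open_target.mem_nhds ((A.e i).map_source hy)]
      with z hz hz'
    rw [← D.C.p_symm hz', hz]
  filter_upwards [hF, h1.eventually_nhds] with z hz hz'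
  exact hz.congr_of_eventuallyEq hz'

/-- the descended logarithms -/
def TX (θ : A.ι → A.ι → Y → ℂ) (τ : ℂ) : A'.ι → A'.ι → X → ℂ := D.dsc2 (D.TT θ τ) 0

theorem TX_apply {τ : ℂ} {i j : A.ι} {y : Y} (hy : y ∈ (A.e i).source ∩ (A.e j).source) :
    D.TX θ τ (D.C.r i) (D.C.r j) (D.C.p y) = D.TT θ τ i j y := D.dsc2_apply (D.TT_inv τ) hy

theorem exists_lift2 {i' j' : A'.ι} {x : X} (hx : x ∈ (A'.e i').source ∩ (A'.e j').source) :
    ∃ i j y, D.C.r i = i' ∧ D.C.r j = j' ∧ D.C.p y = x ∧ y ∈ (A.e i).source ∩ (A.e j).source := by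
  obtain ⟨y, rfl⟩ := D.surj x
  obtain ⟨i, rfl, hi⟩ := D.C.lift y i' hx.1
  obtain ⟨j, rfl, hj⟩ := D.C.lift y j' hx.2
  exact ⟨i, j, y, rfl, rfl, rfl, hi, hj⟩

theorem TX_hol (hρ : 0 < ρ) (hθ : Dec2 A h θ C ρ)
    (hhol : ∀ i j, ∀ x ∈ (A.e i).source ∩ (A.e j).source, Fm96.HolP A i (θ i j) x) (τ : ℂ)
    (i' j' : A'.ι) (x : X) (hx : x ∈ (A'.e i').source ∩ (A'.e j').source) :
    Fm96.HolP A' i' (D.TX θ τ i' j') x := by
  obtain ⟨i, j, y, rfl, rfl, rfl, hy⟩ := D.exists_lift2 hx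
  refine D.holP_down hy.1 (F := D.TT θ τ i j) ?_ ?_
  · unfold TT
    exact (D.TH_hol hρ hθ hhol hy).add (Fm96.HolP.const _)
  · filter_upwards [((A.e i).open_source.inter (A.e j).open_source).mem_nhds hy] with w hw
    exact D.TX_apply hw

/-- the descended line bundle -/
def LX (hρ : 0 < ρ) (hθ : Dec2 A h θ C ρ)
    (hhol : ∀ i j, ∀ x ∈ (A.e i).source ∩ (A.e j).source, Fm96.HolP A i (θ i j) x)
    {c : A.ι → A.ι → A.ι → ℤ}
    (hc : ∀ i j k, ∀ x ∈ (A.e i).source ∩ (A.e j).source ∩ (A.e k).source,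
      θ j k x - θ i k x + θ i j x = c i j k)
    (hself : ∀ i, ∀ x ∈ (A.e i).source, Complex.exp (2 * Real.pi * I * θ i i x) = 1)
    (τ : ℂ) : LB A' where
  g i j x := open Classical in
    if x ∈ (A'.e i).source ∩ (A'.e j).source then Complex.exp (2 * Real.pi * I * D.TX θ τ i j x)
    else 1
  hol i j := by
    intro z hz
    have hx : (A'.e i).symm z ∈ (A'.e i).source ∩ (A'.e j).source :=
      ⟨(A'.e i).map_target hz.1, hz.2⟩
    have h1 := (D.TX_hol hρ hθ hhol τ i j _ hx).self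
    rw [(A'.e i).right_inv hz.1] at h1
    have h2 : DifferentiableAt ℂ (fun z => Complex.exp (2 * Real.pi * I *
        D.TX θ τ i j ((A'.e i).symm z))) z := (h1.const_mul _).cexp
    refine (h2.congr_of_eventuallyEq ?_).differentiableWithinAt
    have h3 : IsOpen ((A'.e i).target ∩ (A'.e i).symm ⁻¹' (A'.e j).source) :=
      (A'.e i).isOpen_inter_preimage_symm (A'.e j).open_source
    filter_upwards [h3.mem_nhds hz] with w hw
    rw [if_pos ⟨(A'.e i).map_target hw.1, hw.2⟩]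
  off i j x hx := if_neg hx
  self i x := by
    split_ifs with hx
    · obtain ⟨i₁, j₁, y, h1, h2, rfl, hy⟩ := D.exists_lift2 hx
      have h3 : i₁ = j₁ := D.C.uniq _ _ (h1.trans h2.symm) y hy.1 hy.2
      subst h3
      subst h1
      rw [D.TX_apply hy]
      unfold TT
      rw [sub_self, mul_zero, add_zero]
      exact (D.exp_TH hρ hθ (G := fun i j y => Complex.exp (2 * Real.pi * I * θ i j y))
        (fun _ _ _ _ => rfl) hy).unique (by
          have : (fun n : ℤ => Complex.exp (2 * Real.pi * I *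
              θ ((D.s ^ n) i₁) ((D.s ^ n) i₁) ((D.g ^ n) y))) = fun _ => 1 := by
            funext n
            exact hself _ _ ((D.src_zpow n i₁ y).2 hy.1)
          rw [this]
          exact hasProd_one)
    · rfl
  mul i j k x hx := by
    rw [if_pos hx.1, if_pos ⟨hx.1.2, hx.2⟩, if_pos ⟨hx.1.1, hx.2⟩, ← Complex.exp_add]
    obtain ⟨i₁, j₁, y, rfl, rfl, rfl, hy⟩ := D.exists_lift2 hx.1
    obtain ⟨k₁, rfl, hk⟩ := D.C.lift y k hx.2
    rw [D.TX_apply hy, D.TX_apply ⟨hy.2, hk⟩, D.TX_apply ⟨hy.1, hk⟩]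
    have h1 := D.TH_coc_int hρ hθ hc ⟨hy, hk⟩
    set m : ℤ := ∑ᶠ n : ℤ, c ((D.s ^ n) i₁) ((D.s ^ n) j₁) ((D.s ^ n) k₁) with hm
    have h2 : 2 * Real.pi * I * D.TT θ τ i₁ j₁ y + 2 * Real.pi * I * D.TT θ τ j₁ k₁ y =
        2 * Real.pi * I * D.TT θ τ i₁ k₁ y + m * (2 * Real.pi * I) := by
      unfold TT
      linear_combination (2 * Real.pi * I) * h1
    rw [h2, Complex.exp_add, Complex.exp_int_mul_two_pi_mul_I, mul_one]

/-- `σ` does not vanish identically near any point -/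
def NZ (A : Atl 2 Y) (σ : A.ι → Y → ℂ) : Prop :=
  ∀ i, ∀ x ∈ (A.e i).source, ∃ᶠ y in 𝓝 x, σ i y ≠ 0

/-- the product does not vanish identically near any point -/
theorem exists_SS_ne (ha : a ≠ 0) (hb : b ≠ 0) (hρ : 0 < ρ) (hL : Lim A h σ a b K ρ) {L : LB A}
    (hσ : IsHS L univ σ) (hnz : NZ A σ) {i : A.ι} {y : Y} (hy : y ∈ (A.e i).source) :
    ∃ w ∈ (A.e i).source, D.SS σ a b i w ≠ 0 := by
  -- a ball around `y` on which `h` is bounded
  set O : Set (Cn 2) := (A.e i).target ∩ (A.e i).symm ⁻¹' {x | |h x| < |h y| + 1} with hO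
  have hopen : IsOpen O :=
    (A.e i).isOpen_inter_preimage_symm (isOpen_lt (D.h_cont.abs) continuous_const)
  have hmem : A.e i y ∈ O := by
    refine ⟨(A.e i).map_source hy, ?_⟩
    show |h ((A.e i).symm (A.e i y))| < |h y| + 1
    rw [(A.e i).left_inv hy]
    linarith
  obtain ⟨r, hr, hrO⟩ := Metric.isOpen_iff.1 hopen _ hmem
  set B : Set (Cn 2) := ball (A.e i y) r with hB
  have hBc : IsPreconnected B := (convex_ball _ _).isPreconnected
  -- the factors read in the chart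
  set F : ℤ → Cn 2 → ℂ := fun n z => D.fac σ a b i ((A.e i).symm z) n with hF
  have hFan : ∀ n, AnalyticOnNhd ℂ (F n) B := by
    intro n
    have h2 : DifferentiableOn ℂ (fun w => σ ((D.s ^ n) i) ((A.e ((D.s ^ n) i)).symm w))
        (A.e i).target := by
      refine DifferentiableOn.mono (hσ.hol ((D.s ^ n) i)) fun v hv => ⟨?_, mem_univ _⟩
      rw [D.tgt_zpow]; exact hv
    have h5 : DifferentiableOn ℂ (fun w => σ ((D.s ^ n) i) ((D.g ^ n) ((A.e i).symm w)))
        (A.e i).target := h2.congr fun v hv => by rw [D.symm_zpow n hv]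
    have h3 : DifferentiableOn ℂ (F n) (A.e i).target := by
      simp only [hF, fac, div_eq_mul_inv]
      exact h5.mul_const _
    exact Crest.Agent.R266.SCV.analyticOnNhd_of_differentiableOn isOpen_ball
      (h3.mono fun z hz => (hrO hz).1)
  have hbd : ∀ n, ∀ z ∈ B, ‖F n z - 1‖ ≤ (|K| + ‖a‖ + ‖b‖) * Real.exp (ρ * (|h y| + 1)) /
      min ‖a‖ ‖b‖ * Real.exp (-ρ * |(n : ℝ)|) := fun n z hz =>
    D.fac_bound ha hb hρ hL ((A.e i).map_target (hrO hz).1) (le_of_lt (hrO hz).2) n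
  have hsum := summable_exp_abs hρ ((|K| + ‖a‖ + ‖b‖) * Real.exp (ρ * (|h y| + 1)) /
      min ‖a‖ ‖b‖)
  -- only finitely many factors can vanish on `B`
  have hfin : {n : ℤ | ¬ (|K| + ‖a‖ + ‖b‖) * Real.exp (ρ * (|h y| + 1)) /
      min ‖a‖ ‖b‖ * Real.exp (-ρ * |(n : ℝ)|) < 1}.Finite :=
    hsum.tendsto_cofinite_zero.eventually (gt_mem_nhds one_pos)
  have hne : ∀ n, ∃ z ∈ B, F n z ≠ 0 := by
    intro n
    have h1 := hnz ((D.s ^ n) i) ((D.g ^ n) y) ((D.src_zpow n i y).2 hy)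
    by_contra hcon
    push Not at hcon
    apply h1
    have h2 : ∀ᶠ w in 𝓝 ((D.g ^ n) y), (D.g ^ n)⁻¹ w ∈ (A.e i).source ∩ A.e i ⁻¹' B := by
      have h3 : (A.e i).source ∩ A.e i ⁻¹' B ∈ 𝓝 ((D.g ^ n)⁻¹ ((D.g ^ n) y)) := by
        have e : (D.g ^ n)⁻¹ ((D.g ^ n) y) = y := (D.g ^ n).symm_apply_apply y
        rw [e]
        exact ((A.e i).isOpen_inter_preimage isOpen_ball).mem_nhds ⟨hy, mem_ball_self hr⟩
      exact (D.g ^ n)⁻¹.continuous.continuousAt.eventually_mem h3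
    filter_upwards [h2] with w hw
    have h4 := hcon _ hw.2
    have e2 : (D.g ^ n) ((D.g ^ n)⁻¹ w) = w := (D.g ^ n).apply_symm_apply w
    simp only [hF, fac, (A.e i).left_inv hw.1, e2] at h4
    intro h5
    exact (div_ne_zero h5 (cc_ne ha hb n)) h4
  obtain ⟨-, z, hz, hz'⟩ := exists_prod_ne_zero isOpen_ball hBc ⟨_, mem_ball_self hr⟩
    hfin.toFinset (f := F) (fun n _ => hFan n) fun n _ => hne n
  refine ⟨(A.e i).symm z, (A.e i).map_target (hrO hz).1, ?_⟩
  rw [D.SS_of_mem ((A.e i).map_target (hrO hz).1)]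
  refine tprod_ne_zero hsum (fun n => hbd n z hz) fun n => ?_
  by_cases hn : n ∈ hfin.toFinset
  · exact (Finset.prod_ne_zero_iff.1 hz') n hn
  · rw [Set.Finite.mem_toFinset] at hn
    have h6 : (|K| + ‖a‖ + ‖b‖) * Real.exp (ρ * (|h y| + 1)) /
      min ‖a‖ ‖b‖ * Real.exp (-ρ * |(n : ℝ)|) < 1 := by
      by_contra hcon; exact hn hcon
    intro h0
    have h7 := (hbd n z hz).trans_lt h6
    have h8 : F n z = 0 := h0
    rw [h8, zero_sub, norm_neg, norm_one] at h7
    exact lt_irrefl _ h7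

/-- **push-forward of a section of compact type** -/
theorem exists_push [Nonempty Y] (ha : a ≠ 0) (hb : b ≠ 0) (hρ : 0 < ρ)
    (hL : Lim A h σ a b K ρ) {L : LB A} {c : A.ι → A.ι → A.ι → ℤ} (hlog : IsLog A L.g θ c)
    (hθ : Dec2 A h θ C ρ) (hσ : IsHS L univ σ) (hnz : NZ A σ) {c' : A'.ι → A'.ι → A'.ι → ℤ}
    (hc' : ∀ i j k, ((A.e i).source ∩ (A.e j).source ∩ (A.e k).source).Nonempty →
      c' (D.C.r i) (D.C.r j) (D.C.r k) = ∑ᶠ n : ℤ, c ((D.s ^ n) i) ((D.s ^ n) j) ((D.s ^ n) k)) :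
    ∃ (L' : LB A') (θ' : A'.ι → A'.ι → X → ℂ) (S : A'.ι → X → ℂ),
      IsLog A' L'.g θ' c' ∧ IsHS L' univ S ∧ S ≠ 0 := by
  obtain ⟨τ, hτ⟩ : ∃ τ : ℂ, Complex.exp (2 * Real.pi * I * τ) = a / b := by
    refine ⟨Complex.log (a / b) / (2 * Real.pi * I), ?_⟩
    rw [mul_div_cancel₀ _ Complex.two_pi_I_ne_zero, Complex.exp_log (div_ne_zero ha hb)]
  have hself : ∀ i, ∀ x ∈ (A.e i).source, Complex.exp (2 * Real.pi * I * θ i i x) = 1 := by
    intro i x hx
    rw [hlog.exp i i x ⟨hx, hx⟩, L.self]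
  refine ⟨D.LX hρ hθ hlog.hol hlog.coc hself τ, D.TX θ τ, D.C.desc (D.ST σ a b), ?_, ?_, ?_⟩
  · refine ⟨D.TX_hol hρ hθ hlog.hol τ, fun i j x hx => (if_pos hx).symm, fun i j k x hx => ?_⟩
    obtain ⟨i₁, j₁, y, rfl, rfl, rfl, hy⟩ := D.exists_lift2 hx.1
    obtain ⟨k₁, rfl, hk⟩ := D.C.lift y k hx.2
    rw [D.TX_apply hy, D.TX_apply ⟨hy.2, hk⟩, D.TX_apply ⟨hy.1, hk⟩, hc' i₁ j₁ k₁ ⟨y, hy, hk⟩,
      ← D.TH_coc_int hρ hθ hlog.coc ⟨hy, hk⟩]
    unfold TT
    ring
  · have hinv := D.inv_of (u := D.ST σ a b) (D.ST_inv ha hb hρ hL)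
    refine ⟨fun i' => ?_, fun i' x hx => D.C.desc_off hx, fun i' j' x hx _ => ?_⟩
    · intro z hz
      have hx : (A'.e i').symm z ∈ (A'.e i').source := (A'.e i').map_target hz.1
      obtain ⟨i, j, y, rfl, hj, hy', hy⟩ := D.exists_lift2 ⟨hx, hx⟩
      have hFi : Fm96.HolP A i (D.ST σ a b i) y := by
        have h1 : DifferentiableOn ℂ (fun z => D.ST σ a b i ((A.e i).symm z))
            ((A.e i).target ∩ (A.e i).symm ⁻¹' univ) := (D.SS_hol ha hb hρ hL hσ i).const_mul _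
        rw [preimage_univ, inter_univ] at h1
        filter_upwards [(A.e i).open_target.mem_nhds ((A.e i).map_source hy.1)] with w hw
        exact h1.differentiableAt ((A.e i).open_target.mem_nhds hw)
      have h2 := D.holP_down hy.1 (f := D.C.desc (D.ST σ a b) (D.C.r i)) hFi (by
        filter_upwards [(A.e i).open_source.mem_nhds hy.1] with w hw
        exact D.C.desc_apply hinv hw)
      rw [hy'] at h2
      have h3 := h2.self
      rw [(A'.e (D.C.r i)).right_inv hz.1] at h3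
      exact h3.differentiableWithinAt
    · obtain ⟨i, j, y, rfl, rfl, rfl, hy⟩ := D.exists_lift2 hx
      rw [D.C.desc_apply hinv hy.1, D.C.desc_apply hinv hy.2]
      have h1 : (D.LX hρ hθ hlog.hol hlog.coc hself τ).g (D.C.r i) (D.C.r j) (D.C.p y) =
          Complex.exp (2 * Real.pi * I * D.TX θ τ (D.C.r i) (D.C.r j) (D.C.p y)) :=
        if_pos (D.C.mem_src hy)
      rw [h1, D.TX_apply hy]
      exact D.ST_tr ha hb hρ hL hθ hlog.exp hσ hτ hy
  · have hinv := D.inv_of (u := D.ST σ a b) (D.ST_inv ha hb hρ hL)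
    obtain ⟨y⟩ := ‹Nonempty Y›
    obtain ⟨i, hi⟩ := A.cover y
    obtain ⟨w, hw, hw'⟩ := D.exists_SS_ne ha hb hρ hL hσ hnz hi
    intro h0
    have h1 := D.C.desc_apply hinv hw
    rw [h0] at h1
    have h2 : D.ST σ a b i w = 0 := h1.symm
    unfold ST at h2
    rcases mul_eq_zero.1 h2 with h3 | h3
    · exact zpow_ne_zero _ (div_ne_zero ha hb) h3
    · exact hw' h3

end DkCov

end

end Crest.Agent.R275.PushS768
end

-- ▼ part R275/PushN_768

/-!
# R275, leaf O1 (D7 on `Y`), file 5 (helper768): the lifted nested atlas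

For `N : NAtl 2 X`, `C : KCov N.big Y ℤ` (helper194), `h (C.act 1 y) = h y - 1`:
* `dkN : DkCov (nlift N C).sm N.sm h`;
* `pc c` : the push-forward of a finitely supported cochain of the nerve of `Y` to the nerve of
  `X`; `pc_spec`, `pc_mem_Z2`, `down_per` (it is helper151's `down` of `per 1 c`);
* `exists_section` : a section of compact type of an end line bundle of class `c` on `Y` gives a
  non-zero section on `X` of a line bundle of class `pc c`.
-/

set_option autoImplicit false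
set_option linter.unusedSectionVars false

open Set Filter Topology Complex Metric
open scoped ContDiff Manifold

namespace Crest.Agent.R275.PushS768

open Geo Core144 NAtl938 XN194 NGeo151 NTr151
open Crest.AlgGeometry.Surface (C2)
open Loc647 (Nerve)

noncomputable section

variable {Y X : Type} [TopologicalSpace Y] [TopologicalSpace X]

section dk

variable (N : NAtl 2 X) (C : KCov N.big Y ℤ) {h : Y → ℝ}

theorem mem_sm_nlift {i : N.ι} {k : ℤ} {z : Y} :
    z ∈ ((nlift N C).sm.e (i, k)).source ↔ z ∈ C.sheet i k ∧ C.p z ∈ N.B N.r i := by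
  show z ∈ (((nlift N C).at' (nlift N C).r le_rfl).e (i, k)).source ↔ _
  rw [NAtl.at'_source]
  exact mem_nB

theorem act_one_zpow (m : ℤ) : ∀ y, ((C.actH 1) ^ m) y = C.act m y := by
  induction m using Int.induction_on with
  | zero => intro y; simp [C.act_zero]
  | succ k ih =>
    intro y
    rw [zpow_add_one, Homeomorph.mul_apply, ih, KCov.actH_apply, C.act_add]
  | pred k ih =>
    intro y
    rw [zpow_sub_one, Homeomorph.mul_apply, ih]
    have h1 : (C.actH 1)⁻¹ y = C.act (-1) y := rfl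
    rw [h1, sub_eq_add_neg, C.act_add]

/-- the deck transformation of the lifted nested atlas -/
def dkN (hact : ∀ y, h (C.act 1 y) = h y - 1) (hh : Continuous h) :
    DkCov (nlift N C).sm N.sm h where
  C := ncov N C le_rfl
  surj := C.surj
  g := C.actH 1
  s := shiftV N.ι
  lv v := v.2
  lv_s _ := rfl
  src := by
    rintro ⟨i, k⟩ y
    show C.act 1 y ∈ ((nlift N C).sm.e (i, k + 1)).source ↔ _
    rw [mem_sm_nlift, mem_sm_nlift, C.p_act]
    exact and_congr (act_mem_sheet C) Iff.rfl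
  app := by
    rintro ⟨i, k⟩ y _
    show N.E i (C.p (C.act 1 y)) = N.E i (C.p y)
    rw [C.p_act]
  p_g y := C.p_act 1 y
  r_s _ := rfl
  fib y y' hy := by
    obtain ⟨k, hk⟩ := C.fibre hy
    exact ⟨k, by rw [act_one_zpow]; exact hk⟩
  h_g := hact
  h_cont := hh

end dk

/-! ### push-forward of cochains -/

section pc

variable {A : Atl 2 X} (C : KCov A Y ℤ) (hpc : PreC A)

/-- the push-forward of a 2-cochain (finitely supported) -/
def pc (c : A.ι × ℤ → A.ι × ℤ → A.ι × ℤ → ℤ) : A.ι → A.ι → A.ι → ℤ := fun i j k =>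
  ∑ᶠ n : ℤ, c (i, n) (j, n + wind C hpc i j) (k, n + wind C hpc i k)

theorem finsum_shift (F : ℤ → ℤ) (a : ℤ) : ∑ᶠ n : ℤ, F (a + n) = ∑ᶠ n : ℤ, F n :=
  finsum_comp_equiv (Equiv.addLeft a) (f := F)

theorem pc_spec (c : A.ι × ℤ → A.ι × ℤ → A.ι × ℤ → ℤ) {u v w : A.ι × ℤ}
    (hne : (C.sheet u.1 u.2 ∩ C.sheet v.1 v.2 ∩ C.sheet w.1 w.2).Nonempty) :
    pc C hpc c u.1 v.1 w.1 = ∑ᶠ n : ℤ, c (((shiftV A.ι) ^ n) u) (((shiftV A.ι) ^ n) v)
      (((shiftV A.ι) ^ n) w) := by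
  obtain ⟨z, ⟨h1, h2⟩, h3⟩ := hne
  have e1 := ((mem_sheet_iff_wind C hpc h1).1 h2).2
  have e2 := ((mem_sheet_iff_wind C hpc h1).1 h3).2
  simp only [shiftV_zpow]
  unfold pc
  rw [← finsum_shift (fun n : ℤ => c (u.1, n) (v.1, n + wind C hpc u.1 v.1)
    (w.1, n + wind C hpc u.1 w.1)) u.2]
  refine finsum_congr fun n => ?_
  rw [e1, e2]
  congr 2
  · ring
  · ring



/-- the nerve of `X` as the quotient of the nerve of `Y` by `g` -/
def quot1 [Finite A.ι] : NQ (nerve C hpc) 1 (fun i : A.ι => (A.e i).source) where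
  π v := v.1
  π_surj i := ⟨(i, 0), rfl⟩
  π_eq := by
    rintro ⟨i, k⟩ ⟨j, l⟩
    constructor
    · intro h
      refine ⟨l - k, ?_⟩
      change (j, l) = ((shiftV A.ι) ^ ((l - k) * ((1 : ℕ) : ℤ))) (i, k)
      rw [shiftV_zpow]
      simp only [Prod.mk.injEq]
      exact ⟨h.symm, by push_cast; ring⟩
    · rintro ⟨m, hm⟩
      change (j, l) = ((shiftV A.ι) ^ (m * ((1 : ℕ) : ℤ))) (i, k) at hm
      rw [shiftV_zpow] at hm
      exact (Prod.mk.inj hm).1.symm
  M3_iff := by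
    intro a b c
    constructor
    · rintro ⟨x, ⟨h1, h2⟩, h3⟩
      have hz := C.act_s_mem h1 0
      have hpz : C.p (C.act 0 (C.s a x)) = x := C.p_act_s h1 0
      exact ⟨(a, 0), (b, 0 + wind C hpc a b), (c, 0 + wind C hpc a c), rfl, rfl, rfl,
        _, ⟨hz, (mem_sheet_iff_wind C hpc hz).2 ⟨by rw [hpz]; exact h2, rfl⟩⟩,
        (mem_sheet_iff_wind C hpc hz).2 ⟨by rw [hpz]; exact h3, rfl⟩⟩
    · rintro ⟨i, j, k, rfl, rfl, rfl, ⟨z, ⟨h1, h2⟩, h3⟩⟩
      exact ⟨C.p z, ⟨h1.1, h2.1⟩, h3.1⟩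
  M4_iff := by
    intro a b c d
    constructor
    · rintro ⟨x, ⟨⟨h1, h2⟩, h3⟩, h4⟩
      have hz := C.act_s_mem h1 0
      have hpz : C.p (C.act 0 (C.s a x)) = x := C.p_act_s h1 0
      exact ⟨(a, 0), (b, 0 + wind C hpc a b), (c, 0 + wind C hpc a c), (d, 0 + wind C hpc a d),
        rfl, rfl, rfl, rfl,
        _, ⟨⟨hz, (mem_sheet_iff_wind C hpc hz).2 ⟨by rw [hpz]; exact h2, rfl⟩⟩,
        (mem_sheet_iff_wind C hpc hz).2 ⟨by rw [hpz]; exact h3, rfl⟩⟩,
        (mem_sheet_iff_wind C hpc hz).2 ⟨by rw [hpz]; exact h4, rfl⟩⟩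
    · rintro ⟨i, j, k, l, rfl, rfl, rfl, rfl, ⟨z, ⟨⟨h1, h2⟩, h3⟩, h4⟩⟩
      exact ⟨C.p z, ⟨⟨h1.1, h2.1⟩, h3.1⟩, h4.1⟩
  N2 u v := (C.sheet u.1 u.2 ∩ C.sheet v.1 v.2).Nonempty
  N2_g := by
    intro u v
    constructor
    · rintro ⟨z, h1, h2⟩
      refine ⟨C.act (-1) z, ?_, ?_⟩
      · rw [← act_mem_sheet C (m := 1), ← C.act_add, add_neg_cancel, C.act_zero]; exact h1
      · rw [← act_mem_sheet C (m := 1), ← C.act_add, add_neg_cancel, C.act_zero]; exact h2
    · rintro ⟨z, h1, h2⟩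
      exact ⟨C.act 1 z, (act_mem_sheet C).2 h1, (act_mem_sheet C).2 h2⟩
  N2_of_N3 := by
    rintro u v w ⟨z, ⟨h1, h2⟩, h3⟩
    exact ⟨⟨z, h1, h2⟩, ⟨z, h1, h3⟩, ⟨z, h2, h3⟩⟩
  uniq := by
    rintro u v w ⟨z, h1, h2⟩ ⟨z', h1', h3⟩ hvw
    have e1 := ((mem_sheet_iff_wind C hpc h1).1 h2).2
    have e2 := ((mem_sheet_iff_wind C hpc h1').1 h3).2
    have hvw' : v.1 = w.1 := hvw
    refine Prod.ext hvw' ?_
    rw [e1, e2, hvw']

/-- `pc c` is helper151's `down` of helper647's `per 1 c` -/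
theorem down_per [Finite A.ι] (c : A.ι × ℤ → A.ι × ℤ → A.ι × ℤ → ℤ)
    (hp : (nerve C hpc).per 1 c ∈ (nerve C hpc).Z2p 1) {i j k : A.ι}
    (hne : ((A.e i).source ∩ (A.e j).source ∩ (A.e k).source).Nonempty) :
    (quot1 C hpc).down ((nerve C hpc).per 1 c) i j k = pc C hpc c i j k := by
  obtain ⟨u, v, w, rfl, rfl, rfl, h3⟩ := (quot1 C hpc).M3_iff.1 hne
  rw [(quot1 C hpc).down_apply hp h3]
  show _ = pc C hpc c u.1 v.1 w.1
  rw [pc_spec C hpc c h3]
  unfold Nerve.per Nerve.sh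
  refine finsum_congr fun n => ?_
  show c (((shiftV A.ι) ^ (n * ((1 : ℕ) : ℤ))) u) _ _ = _
  have e : n * ((1 : ℕ) : ℤ) = n := by push_cast; ring
  rw [e]
  rfl

end pc

/-! ### the section on `X` -/

section main

variable {N : NAtl 2 X} {C : KCov N.big Y ℤ} {h : Y → ℝ}


theorem nz_of_ne [ChartedSpace C2 Y] [IsManifold 𝓘(ℂ, C2) 1 Y] [PreconnectedSpace Y]
    {A : Atl 2 Y} (hA : Adm A) {L : LB A} {σ : A.ι → Y → ℂ} (hσ : IsHS L univ σ) (h0 : σ ≠ 0) :
    DkCov.NZ A σ := by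
  intro i x hx hcon
  refine h0 (GeoP572.eq_zero_of_ev hA hσ hx ?_)
  filter_upwards [hcon] with y hy
  simpa using hy

/-- **a section of compact type on `Y` gives a section on `X`** -/
theorem exists_section [Nonempty Y] (hpc : PreC N.big) (hact : ∀ y, h (C.act 1 y) = h y - 1)
    (hh : Continuous h) {L : LB (nlift N C).sm} {c : (nlift N C).ι → (nlift N C).ι →
      (nlift N C).ι → ℤ} (hcls : HasCls (nlift N C).sm h L.g c)
    {σ : (nlift N C).ι → Y → ℂ} (hσ : IsHS L univ σ) (hnz : DkCov.NZ (nlift N C).sm σ)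
    {a b : ℂ} {K ρ : ℝ} (ha : a ≠ 0) (hb : b ≠ 0) (hρ : 0 < ρ)
    (hL : Lim (nlift N C).sm h σ a b K ρ) :
    ∃ (L' : LB N.sm) (θ' : N.ι → N.ι → X → ℂ) (S : N.ι → X → ℂ),
      IsLog N.sm L'.g θ' (pc (A := N.big) C hpc c) ∧ IsHS L' univ S ∧ S ≠ 0 := by
  obtain ⟨θ, hlog, K', ρ', hρ', hdec⟩ := hcls
  -- a common rate
  have hlog' := hlog
  set ρ₀ := min ρ ρ' with hρ₀
  have hρ₀' : 0 < ρ₀ := lt_min hρ hρ'
  have hmono : ∀ {r : ℝ}, ρ₀ ≤ r → ∀ t : ℝ, Real.exp (-r * |t|) ≤ Real.exp (-ρ₀ * |t|) := by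
    intro r hr t
    apply Real.exp_le_exp.2
    have := mul_le_mul_of_nonneg_right hr (abs_nonneg t)
    linarith
  have hdec' : Dec2 (nlift N C).sm h θ |K'| ρ₀ := by
    intro i j x hx
    refine (hdec i j x hx).trans ?_
    calc K' * Real.exp (-ρ' * |h x|) ≤ |K'| * Real.exp (-ρ' * |h x|) :=
          mul_le_mul_of_nonneg_right (le_abs_self _) (Real.exp_pos _).le
      _ ≤ |K'| * Real.exp (-ρ₀ * |h x|) :=
          mul_le_mul_of_nonneg_left (hmono (min_le_right _ _) _) (abs_nonneg _)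
  have hL' : Lim (nlift N C).sm h σ a b |K| ρ₀ := by
    intro i x hx
    have key : K * Real.exp (-ρ * |h x|) ≤ |K| * Real.exp (-ρ₀ * |h x|) := by
      calc K * Real.exp (-ρ * |h x|) ≤ |K| * Real.exp (-ρ * |h x|) :=
            mul_le_mul_of_nonneg_right (le_abs_self _) (Real.exp_pos _).le
        _ ≤ |K| * Real.exp (-ρ₀ * |h x|) :=
            mul_le_mul_of_nonneg_left (hmono (min_le_left _ _) _) (abs_nonneg _)
    exact ⟨fun h1 => ((hL i x hx).1 h1).trans key, fun h1 => ((hL i x hx).2 h1).trans key⟩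
  refine (dkN N C hact hh).exists_push ha hb hρ₀' hL' hlog' hdec' hσ hnz ?_
  rintro u v w ⟨z, ⟨h1, h2⟩, h3⟩
  exact pc_spec C hpc c ⟨z, ⟨((mem_sm_nlift N C).1 h1).1, ((mem_sm_nlift N C).1 h2).1⟩,
    ((mem_sm_nlift N C).1 h3).1⟩

end main

end

end Crest.Agent.R275.PushS768
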