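import Crest.Agent.R275.QN_74
import Crest.Agent.R275.CntD_508
import Crest.Agent.R275.Loc2E_879
import Crest.Agent.R275.St3A_686
import Crest.Agent.R275.QSec_74
import Crest.Agent.R275.GermX_967
import Crest.Agent.R275.Dv1_69
import Crest.Agent.R275.CntC_508
import Crest.Agent.R275.Fm_96
import Crest.Agent.R275.QN2b_734
import Crest.Agent.R275.CntF_508
import Crest.Agent.R275.Loc2G_879
import Crest.Agent.R275.DivP_572
import Crest.Agent.R275.Root3_595
import Crest.Agent.R275.SolC_352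
import Crest.Agent.R275.Sec1B_197
import Crest.Agent.R275.Int4_95

-- ▼ part R275/QCons_734
section

/-!
# R275, block N, leaf N8 (helper734): consumer forms of Theorem N, part A

* `CZ A s w` : common zeros of `s` and `w`; `finite_CZ` : finite if `s` has compact zero set and
  `w` is coprime to `s` (`AllCop`).
* `rs_of_hol`, `allCop_hol` : holomorphic sections as elements of `RS`, coprimality from
  `IsRelPrime` of the germs.
* `chiS_of_chiE` : `χ(Q_s(E)) = χ(E) - χ(E - L)` if the right side is finite-dimensional.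
-/

set_option autoImplicit false
set_option linter.unusedSectionVars false

open Set Filter Topology Complex
open scoped ContDiff ComplexConjugate Manifold

namespace Crest.Agent.R275.QCons734

open Crest.AlgGeometry.Surface Geo Fm96 Dv69 Core144 EffDiv Q74 Cnt508

noncomputable section

variable {M : Type} [TopologicalSpace M] {A : Atl 2 M} {i j : A.ι} {x : M}
variable {g gL gF : A.ι → A.ι → M → ℂ} {s w : A.ι → M → ℂ}

/-! ### common zeros -/

/-- common zeros of two families -/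
def CZ (A : Atl 2 M) (s w : A.ι → M → ℂ) : Set M :=
  {x | ∃ i, x ∈ (A.e i).source ∧ s i x = 0 ∧ w i x = 0}

theorem mem_CZ_iff (hgL : IsLC A gL) (hg : IsLC A g) (hs : IsZ0 A gL univ s)
    (hw : IsZ0 A g univ w) (hi : x ∈ (A.e i).source) : x ∈ CZ A s w ↔ s i x = 0 ∧ w i x = 0 := by
  constructor
  · rintro ⟨j, hj, h1, h2⟩
    exact ⟨by rw [hs.tr i j x ⟨hi, hj⟩ trivial, h1, mul_zero],
      by rw [hw.tr i j x ⟨hi, hj⟩ trivial, h2, mul_zero]⟩
  · rintro ⟨h1, h2⟩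
    exact ⟨i, hi, h1, h2⟩

theorem not_mem_CZ (hgL : IsLC A gL) (hg : IsLC A g) (hs : IsZ0 A gL univ s)
    (hw : IsZ0 A g univ w) (hx : x ∉ CZ A s w) (i : A.ι) (hi : x ∈ (A.e i).source) :
    s i x ≠ 0 ∨ w i x ≠ 0 := by
  rw [mem_CZ_iff hgL hg hs hw hi] at hx
  tauto

section germs

variable [ChartedSpace C2 M] [IsManifold 𝓘(ℂ, C2) 1 M]

/-- common zeros are isolated -/
theorem isolated_CZ (hA : Adm A) (hgL : IsLC A gL) (hg : IsLC A g) (hs : IsNZ A gL univ s)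
    (hw : RS A g gL s w) (hc : AllCop A s w) (x : M) : ∀ᶠ y in 𝓝 x, y ∈ CZ A s w → y = x := by
  obtain ⟨i, hi⟩ := A.cover x
  obtain ⟨ρ, hρ⟩ := hw.rep hs hi
  have h1 : HolN (s i) x := (holN_iff_holP hA hi _).2 ((hs.nz i).hol x hi trivial)
  have h2 : HolN ρ x := (holN_iff_holP hA hi _).2 hρ.1
  obtain ⟨h3, b, hb, e⟩ := id hρ
  filter_upwards [Loc2879.isolated_surface h1 h2 (hc i x hi ρ hρ), e, src_nhds hi]
    with y h4 h5 h6 hy
  obtain ⟨h7, h8⟩ := (mem_CZ_iff hgL hg hs.z0 hw.z0 h6).1 hy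
  refine h4 h7 ?_
  rw [h7, zero_mul, add_zero] at h5
  rw [← h5, h8]

/-- there are finitely many common zeros in a compact set -/
theorem finite_CZ (hA : Adm A) (hgL : IsLC A gL) (hg : IsLC A g) (hs : IsNZ A gL univ s)
    (hw : RS A g gL s w) (hc : AllCop A s w) {K : Set M} (hK : IsCompact K)
    (hz : ∀ i, ∀ x ∈ (A.e i).source, s i x = 0 → x ∈ K) : (CZ A s w).Finite := by
  choose U hU hU2 using fun x => Filter.eventually_iff_exists_mem.1
    (isolated_CZ hA hgL hg hs hw hc x)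
  obtain ⟨t, -, ht⟩ := hK.elim_nhds_subcover U fun x _ => hU x
  refine (t.finite_toSet).subset ?_
  rintro y ⟨i, hi, h1, h2⟩
  have hy := ht (hz i y hi h1)
  rw [mem_iUnion₂] at hy
  obtain ⟨x, hx, hyU⟩ := hy
  rw [hU2 x y hyU ⟨i, hi, h1, h2⟩]
  exact hx

end germs

/-! ### holomorphic sections -/

/-- a holomorphic section gives an element of `H⁰(Q_s(E))` -/
theorem rs_of_hol (hw : IsZ0 A g univ w) (hh : IsHol A w) : RS A g gL s w := by
  refine ⟨hw, 0, IsZ1.zero, ?_⟩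
  funext i x b
  rw [hh i x]
  simp [sm1]

theorem holP_of_isHol (hw : IsZ0 A g univ w) (hh : IsHol A w) (hi : x ∈ (A.e i).source) :
    HolP A i (w i) x :=
  holP_of_db hi (hw.sm i x hi trivial) (by
    filter_upwards [src_nhds hi] with y hy a
    have := congrFun (hh i y) a
    rwa [d0_of_mem hy] at this)

theorem isRep_self (hw : IsZ0 A g univ w) (hh : IsHol A w) (hi : x ∈ (A.e i).source) :
    IsRep A s w i x (w i) :=
  ⟨holP_of_isHol hw hh hi, fun _ => 0, SmP.const 0, Eventually.of_forall fun y => by simp⟩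

/-- families from Core_144 -/
theorem isHol_of_isHS {L : LB A} (hs : IsHS L univ s) : IsHol A s := by
  intro i x
  funext b
  by_cases hx : x ∈ (A.e i).source
  · rw [d0_of_mem hx]
    exact (hs.hol i).db_zero isOpen_univ hx trivial b
  · rw [d0_of_not_mem hx]

theorem isZ0_of_isHS {L : LB A} (hs : IsHS L univ s) : IsZ0 A L.g univ s :=
  (St3686.isH_of_isHS isOpen_univ hs).z0

/-- nowhere locally zero -/
def NLZ (A : Atl 2 M) (s : A.ι → M → ℂ) : Prop := ∀ i, ∀ x ∈ (A.e i).source, ¬ s i =ᶠ[𝓝 x] 0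

theorem isNZ_of_isHS {L : LB A} (hs : IsHS L univ s) (h0 : NLZ A s) : IsNZ A L.g univ s :=
  ⟨isZ0_of_isHS hs, fun i => ⟨fun _ hx _ =>
    holP_of_isHol (isZ0_of_isHS hs) (isHol_of_isHS hs) hx, fun x hx _ => h0 i x hx⟩⟩

section germs

variable [ChartedSpace C2 M] [IsManifold 𝓘(ℂ, C2) 1 M]

theorem allCop_hol (hA : Adm A) (hg : IsLC A g) (hgL : IsLC A gL) (hs : IsNZ A gL univ s)
    (hw : IsZ0 A g univ w) (hh : IsHol A w)
    (h : ∀ x, ∃ i, x ∈ (A.e i).source ∧ IsRelPrime (gt (s i) x) (gt (w i) x)) :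
    AllCop A s w := by
  refine allCop_of hA hg hgL hs hw fun x => ?_
  obtain ⟨i, hi, h1⟩ := h x
  exact ⟨i, hi, w i, isRep_self hw hh hi, h1⟩

/-- coprimality in terms of the divisors -/
theorem allCop_of_inf (hA : Adm A) (hg : IsLC A g) (hgL : IsLC A gL) (hs : IsNZ A gL univ s)
    (hw : IsNZ A g univ w) (hh : IsHol A w)
    (h : divOf (isSec_of hA hgL hs) ⊓ divOf (isSec_of hA hg hw) = 0) : AllCop A s w := by
  refine allCop_hol hA hg hgL hs hw.z0 hh fun x => ?_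
  obtain ⟨i, hi⟩ := A.cover x
  refine ⟨i, hi, ?_⟩
  rw [relPrime_iff_inf, ← (divOf_leq (isSec_of hA hgL hs) hi).2.2,
    ← (divOf_leq (isSec_of hA hg hw) hi).2.2, ← inf_D, h]
  rfl

end germs

/-! ### the absolute case -/

theorem mS0_injective (hs : IsNZ A gL univ s) :
    Function.Injective (mS0 (g' := gF) hs.z0) := by
  intro u v h
  apply Subtype.ext
  funext i x
  by_cases hx : x ∈ (A.e i).source
  · have h1 : ∀ y, s i y * (u : A.ι → M → ℂ) i y = s i y * (v : A.ι → M → ℂ) i y := fun y =>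
      congrFun (congrFun (congrArg Subtype.val h) i) y
    exact cancel (((u.2.sm i x hx trivial).continuousAt hx))
      (((v.2.sm i x hx trivial).continuousAt hx)) ((hs.nz i).ne x hx trivial)
      (Eventually.of_forall h1)
  · rw [u.2.off i x hx, v.2.off i x hx]

end

end Crest.Agent.R275.QCons734
end

-- ▼ part R275/QGerm_967
section

/-!
# R275 block N (helper967): the germ part of `DataX` on the types of `QSec_74`

`s` holomorphic section of `gL`, `gE = gL * gF` on overlaps, `P : Finset M`.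

* `dv0_iff`, `dv1_iff`, `dv2_iff` : membership in `SB0/1/2` is divisibility of one chart reading.
* `ac1`, `ac2`                    : fields `ac1`, `ac2` of `DataX`.
* `Pts A P s σ`                   : charts at the points of `P`, holomorphic representatives of `σ`,
                                    coprimality; `exists_pts`.
* `Pts.W`, `Pts.e`                : `∏_{p ∈ P} O_p/(s,ρ_p)` and the evaluation map.
* `Pts.ker`, `Pts.e_sur`, `Pts.e_ker` : the remaining fields.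
-/

set_option autoImplicit false
set_option linter.unusedSectionVars false

open Set Filter Topology Complex
open scoped ContDiff ComplexConjugate

namespace Crest.Agent.R275.QGerm967

open Geo Fm96 Q74 GermQ967 GermX967 Glob967 Dv69

noncomputable section

variable {M : Type} [TopologicalSpace M] {A : Atl 2 M}
  {gL gF gE g : A.ι → A.ι → M → ℂ} {s : A.ι → M → ℂ} {k : A.ι} {p : M}


variable [T2Space M]

/-! ### membership in `SBq` -/

theorem dv0_iff (hs : IsZ0 A gL univ s) (hF : IsLC A gF) (hE : EqOv A gE (gL * gF))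
    (hk : p ∈ (A.e k).source) {u : A.ι → M → ℂ} (hu : IsZ0 A gE univ u) :
    (∃ v ∈ ZZ0 A gF, ∀ᶠ x in 𝓝 p, ∀ i, u i x = s i x * v i x) ↔ DvP A k (s k) (u k) p := by
  constructor
  · rintro ⟨v, hv, e⟩
    exact ⟨v k, hv.sm k p hk trivial, e.mono fun x hx => hx k⟩
  · rintro ⟨w, hw, e⟩
    obtain ⟨v, hv, hvw, -⟩ := one0 hF hk (U := univ) univ_mem hw
    refine ⟨v, hv, ?_⟩
    filter_upwards [e, hvw, src_nhds hk] with x h1 h2 h3 i
    by_cases hi : x ∈ (A.e i).source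
    · rw [hu.tr i k x ⟨hi, h3⟩ trivial, hs.tr i k x ⟨hi, h3⟩ trivial,
        hv.tr i k x ⟨hi, h3⟩ trivial, hE i k x ⟨hi, h3⟩, h1, h2]
      simp only [Pi.mul_apply]
      ring
    · rw [hu.off i x hi, hs.off i x hi, zero_mul]

theorem dv1_iff (hs : IsZ0 A gL univ s) (hF : IsLC A gF) (hE : EqOv A gE (gL * gF))
    (hk : p ∈ (A.e k).source) {u : A.ι → M → Fin 2 → ℂ} (hu : IsZ1 A gE univ u) :
    (∃ v ∈ ZZ1 A gF, ∀ᶠ x in 𝓝 p, ∀ i b, u i x b = s i x * v i x b) ↔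
      ∀ b, DvP A k (s k) (fun x => u k x b) p := by
  constructor
  · rintro ⟨v, hv, e⟩ b
    exact ⟨fun x => v k x b, hv.sm k b p hk trivial, e.mono fun x hx => hx k b⟩
  · intro h
    choose w hw e using h
    obtain ⟨v, hv, hvw, -⟩ := one1 hF hk (U := univ) univ_mem (w := fun x b => w b x) hw
    refine ⟨v, hv, ?_⟩
    filter_upwards [eventually_all.2 e, hvw, src_nhds hk] with x h1 h2 h3 i b
    by_cases hi : x ∈ (A.e i).source
    · rw [hu.tr i k x ⟨hi, h3⟩ trivial, hs.tr i k x ⟨hi, h3⟩ trivial,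
        hv.tr i k x ⟨hi, h3⟩ trivial, hE i k x ⟨hi, h3⟩]
      simp only [h1, h2, Pi.mul_apply, Fin.sum_univ_two]
      ring
    · rw [hu.off i x hi, hs.off i x hi, zero_mul]
      rfl


variable {P : Finset M} {c : M → A.ι}

theorem mem_SB0_iff (hs : IsZ0 A gL univ s) (hF : IsLC A gF) (hE : EqOv A gE (gL * gF))
    (hc : ∀ p ∈ P, p ∈ (A.e (c p)).source) {u : ZZ0 A gE} :
    u ∈ SB0 s (P : Set M) gF gE ↔
      ∀ p ∈ P, DvP A (c p) (s (c p)) ((u : A.ι → M → ℂ) (c p)) p := by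
  rw [mem_SB0]
  exact forall₂_congr fun p hp => dv0_iff hs hF hE (hc p hp) u.2

theorem mem_SB1_iff (hs : IsZ0 A gL univ s) (hF : IsLC A gF) (hE : EqOv A gE (gL * gF))
    (hc : ∀ p ∈ P, p ∈ (A.e (c p)).source) {u : ZZ1 A gE} :
    u ∈ SB1 s (P : Set M) gF gE ↔
      ∀ p ∈ P, ∀ b, DvP A (c p) (s (c p)) (fun x => (u : A.ι → M → Fin 2 → ℂ) (c p) x b) p := by
  rw [mem_SB1]
  exact forall₂_congr fun p hp => dv1_iff hs hF hE (hc p hp) u.2



/-! ### acyclicity -/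



/-! ### the local data at the points -/

/-- the ideal `(s, ρ)` of `O_p` (germs read in the chart `k`) -/
def idW (A : Atl 2 M) (k : A.ι) (s ρ : M → ℂ) (p : M) : Ideal (Og (Y := Cn 2) (A.e k p)) :=
  Ideal.span {gt (rd A k s) (A.e k p), gt (rd A k ρ) (A.e k p)}

/-- `O_p / (s, ρ)` -/
abbrev WL (A : Atl 2 M) (k : A.ι) (s ρ : M → ℂ) (p : M) : Type :=
  Og (Y := Cn 2) (A.e k p) ⧸ idW A k s ρ p

theorem gt_eq_gmP {f : M → ℂ} (h : HolP A k f p) : gt (rd A k f) (A.e k p) = gmP h :=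
  gt_eq (holN_iff.2 (hlN_iff.2 h))

theorem idW_eq {s σ ρ : M → ℂ} (hs : HolP A k s p) (hσ : RepP A k s σ ρ p) :
    idW A k s ρ p = idl hs hσ := by
  rw [idW, idl, gt_eq_gmP hs, gt_eq_gmP hσ.1]

theorem finrank_pi_aux {T : Type*} [Fintype T] {V : T → Type*} [∀ i, AddCommGroup (V i)]
    [∀ i, Module ℂ (V i)] (h : FiniteDimensional ℂ (∀ i, V i)) :
    Module.finrank ℂ (∀ i, V i) = ∑ i, Module.finrank ℂ (V i) := by
  have : ∀ i, Module.Finite ℂ (V i) := fun i =>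
    Module.Finite.of_surjective (LinearMap.proj (R := ℂ) (φ := V) i)
      (Function.surjective_eval i)
  exact Module.finrank_pi_fintype ℂ

/-- points, charts, holomorphic representatives of `σ` modulo `s`, coprimality -/
structure Pts (A : Atl 2 M) (P : Finset M) (s σ : A.ι → M → ℂ) where
  /-- chart at `p` -/
  c : M → A.ι
  mem : ∀ p ∈ P, p ∈ (A.e (c p)).source
  /-- representative of `σ` at `p` -/
  ρ : M → M → ℂ
  hol : ∀ p ∈ P, HolP A (c p) (s (c p)) p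
  nz : ∀ p ∈ P, ¬ s (c p) =ᶠ[𝓝 p] 0
  rep : ∀ p ∈ P, RepP A (c p) (s (c p)) (σ (c p)) (ρ p) p
  cop : ∀ p ∈ P, IsRelPrime (gt (rd A (c p) (s (c p))) (A.e (c p) p))
    (gt (rd A (c p) (ρ p)) (A.e (c p) p))

namespace Pts

variable {σ : A.ι → M → ℂ} {gM : A.ι → A.ι → M → ℂ}

/-- `∏_{p ∈ P} O_p/(s, ρ_p)` -/
abbrev W (D : Pts A P s σ) : Type := ∀ p : P, WL A (D.c p) (s (D.c p)) (D.ρ p) p

theorem qp_of_mem (D : Pts A P s σ) (hs : IsZ0 A gL univ s) (hF : IsLC A gF) (hE : IsLC A gE)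
    (hEL : EqOv A gE (gL * gF)) {y : ZZ0 A gE} (hy : D0 hE y ∈ SB1 s (P : Set M) gF gE)
    (p : M) (hp : p ∈ P) : QP A (D.c p) (s (D.c p)) ((y : A.ι → M → ℂ) (D.c p)) p := by
  rw [mem_SB1_iff hs hF hEL D.mem] at hy
  exact ⟨y.2.sm _ p (D.mem p hp) trivial, fun b => (hy p hp b).congr
    (d0_ev (D.mem p hp) (y : A.ι → M → ℂ) b)⟩


theorem mem_idW (D : Pts A P s σ) (p : M) (hp : p ∈ P) :
    gmP (D.hol p hp) ∈ idW A (D.c p) (s (D.c p)) (D.ρ p) p := by
  rw [idW_eq (D.hol p hp) (D.rep p hp)]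
  exact mem_idl_left _ _

/-- the evaluation map -/
def e (D : Pts A P s σ) (hs : IsZ0 A gL univ s) (hF : IsLC A gF) (hE : IsLC A gE)
    (hEL : EqOv A gE (gL * gF)) :
    ↥((SB1 s (P : Set M) gF gE).comap (D0 hE)) →ₗ[ℂ] D.W where
  toFun y p := clP A (D.c p) (s (D.c p)) p (idW A (D.c p) (s (D.c p)) (D.ρ p) p)
    (((y : ZZ0 A gE) : A.ι → M → ℂ) (D.c p))
  map_add' y z := by
    funext p
    exact clP_add (D.mem p p.2) (D.hol p p.2) (D.nz p p.2) (D.mem_idW p p.2)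
      (D.qp_of_mem hs hF hE hEL y.2 p p.2) (D.qp_of_mem hs hF hE hEL z.2 p p.2)
  map_smul' a y := by
    funext p
    exact clP_smul (D.mem p p.2) (D.hol p p.2) (D.nz p p.2) (D.mem_idW p p.2)
      (D.qp_of_mem hs hF hE hEL y.2 p p.2) a




/-- field `ker` of `DataX` -/
theorem ker (D : Pts A P s σ) (hs : IsZ0 A gL univ s) (hσ : IsZ0 A gM univ σ) (hF : IsLC A gF)
    (hE : IsLC A gE) (hM : IsLC A gM) (hEL : EqOv A gE (gL * gF)) (x : ZZ0 A gE)
    (hx : D0 hE x ∈ SB1 s (P : Set M) gF gE)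
    (h : mS0 hσ x ∈ SB0 s (P : Set M) (gM * gF) (gM * gE)) : x ∈ SB0 s (P : Set M) gF gE := by
  have hEL' : EqOv A (gM * gE) (gL * (gM * gF)) := fun i j y hy => by
    simp only [Pi.mul_apply, hEL i j y hy]
    ring
  rw [mem_SB0_iff hs (hM.prod hF) hEL' D.mem] at h
  rw [mem_SB0_iff hs hF hEL D.mem]
  intro p hp
  refine ker_loc (D.mem p hp) (D.hol p hp) (D.nz p hp) (D.rep p hp) ?_
    (D.qp_of_mem hs hF hE hEL hx p hp) (h p hp)
  intro a ha
  have h1 := D.cop p hp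
  rw [gt_eq_gmP (D.hol p hp), gt_eq_gmP (D.rep p hp).1] at h1
  have := Loc2879.ufd_Og (Y := Cn 2) (A.e (D.c p) p)
  exact cancel_of_isRelPrime h1 a ha


end Pts

/-! ### existence of the local data -/




end

end Crest.Agent.R275.QGerm967
end

-- ▼ part R275/QNb_74
section

/-!
# R275, block N (helper74): THEOREM N, consumer form

* `FinS_congr`, `chiS_congr` : the Euler characteristics depend only on the cocycles on overlaps.
* `ogEquiv` : `O_p` on the surface and in a chart (`Adm A`).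
* `IT f h p` : `O_p / (f, h)`; `itEquiv` : the same read in a chart.
* `theoremN'` : Theorem N with arbitrary cocycles, `RS`, `IsRep` (helper508), `IT`.
-/

set_option autoImplicit false
set_option linter.unusedSectionVars false

open Set Filter Topology Complex
open scoped ContDiff ComplexConjugate Manifold

namespace Crest.Agent.R275.Q74

open Crest.AlgGeometry.Surface Geo Fm96 Cnt508 QN2b734 GermX967 GermQ967 Dv69 Core144

noncomputable section

variable {M : Type} [TopologicalSpace M] {A : Atl 2 M}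
  {s σ : A.ι → M → ℂ} {gL gM gF gF' gE gE' gG gH g : A.ι → A.ι → M → ℂ} {P : Finset M}
  {c : M → A.ι}

/-! ### congruence -/

theorem mem_SA0_congr (hF : EqOv A gF gF') {u : A.ι → M → ℂ} (hu : u ∈ ZZ0 A gE)
    (hu' : u ∈ ZZ0 A gE') : (⟨u, hu⟩ : ZZ0 A gE) ∈ SA0 s gF gE ↔
      (⟨u, hu'⟩ : ZZ0 A gE') ∈ SA0 s gF' gE' := by
  rw [mem_SA0, mem_SA0, ZZ0_congr hF]

theorem mem_SA1_congr (hF : EqOv A gF gF') {u : A.ι → M → Fin 2 → ℂ} (hu : u ∈ ZZ1 A gE)
    (hu' : u ∈ ZZ1 A gE') : (⟨u, hu⟩ : ZZ1 A gE) ∈ SA1 s gF gE ↔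
      (⟨u, hu'⟩ : ZZ1 A gE') ∈ SA1 s gF' gE' := by
  rw [mem_SA1, mem_SA1, ZZ1_congr hF]

theorem mem_SA2_congr (hF : EqOv A gF gF') {u : A.ι → M → ℂ} (hu : u ∈ ZZ2 A gE)
    (hu' : u ∈ ZZ2 A gE') : (⟨u, hu⟩ : ZZ2 A gE) ∈ SA2 s gF gE ↔
      (⟨u, hu'⟩ : ZZ2 A gE') ∈ SA2 s gF' gE' := by
  rw [mem_SA2, mem_SA2, ZZ2_congr hF]

theorem quot_congr (hE : IsLC A gE) (hE' : IsLC A gE') (h : EqOv A gE gE')
    (hF : EqOv A gF gF') : (FinS s gF hE ↔ FinS s gF' hE') ∧ chiS s gF hE = chiS s gF' hE' := by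
  have key : ∀ (Z0 Z0' : Submodule ℂ (A.ι → M → ℂ)) (Z1 Z1' : Submodule ℂ (A.ι → M → Fin 2 → ℂ))
      (Z2 Z2' : Submodule ℂ (A.ι → M → ℂ)) (e0 : Z0 = Z0') (e1 : Z1 = Z1') (e2 : Z2 = Z2')
      (a : Z0 →ₗ[ℂ] Z1) (a' : Z0' →ₗ[ℂ] Z1') (b : Z1 →ₗ[ℂ] Z2) (b' : Z1' →ₗ[ℂ] Z2')
      (A0 : Submodule ℂ Z0) (A0' : Submodule ℂ Z0') (A1 : Submodule ℂ Z1)
      (A1' : Submodule ℂ Z1') (A2 : Submodule ℂ Z2) (A2' : Submodule ℂ Z2')
      (_ : ∀ u (hu : u ∈ Z0) (hu' : u ∈ Z0'), ((a ⟨u, hu⟩ : Z1) : A.ι → M → Fin 2 → ℂ) = a' ⟨u, hu'⟩)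
      (_ : ∀ u (hu : u ∈ Z1) (hu' : u ∈ Z1'), ((b ⟨u, hu⟩ : Z2) : A.ι → M → ℂ) = b' ⟨u, hu'⟩)
      (_ : ∀ u (hu : u ∈ Z0) (hu' : u ∈ Z0'), ⟨u, hu⟩ ∈ A0 ↔ ⟨u, hu'⟩ ∈ A0')
      (_ : ∀ u (hu : u ∈ Z1) (hu' : u ∈ Z1'), ⟨u, hu⟩ ∈ A1 ↔ ⟨u, hu'⟩ ∈ A1')
      (_ : ∀ u (hu : u ∈ Z2) (hu' : u ∈ Z2'), ⟨u, hu⟩ ∈ A2 ↔ ⟨u, hu'⟩ ∈ A2'),
      (FinQ a b A0 A1 A2 ↔ FinQ a' b' A0' A1' A2') ∧
        chiQ a b A0 A1 A2 = chiQ a' b' A0' A1' A2' := by
    rintro Z0 _ Z1 _ Z2 _ rfl rfl rfl a a' b b' A0 A0' A1 A1' A2 A2' ha hb h0 h1 h2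
    have e1 : a = a' := by
      ext1 ⟨u, hu⟩; exact Subtype.ext (ha u hu hu)
    have e2 : b = b' := by
      ext1 ⟨u, hu⟩; exact Subtype.ext (hb u hu hu)
    have e3 : A0 = A0' := by ext ⟨u, hu⟩; exact h0 u hu hu
    have e4 : A1 = A1' := by ext ⟨u, hu⟩; exact h1 u hu hu
    have e5 : A2 = A2' := by ext ⟨u, hu⟩; exact h2 u hu hu
    rw [e1, e2, e3, e4, e5]
    exact ⟨Iff.rfl, rfl⟩
  exact key _ _ _ _ _ _ (ZZ0_congr h) (ZZ1_congr h) (ZZ2_congr h) _ _ _ _ _ _ _ _ _ _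
    (fun _ _ _ => rfl) (fun _ _ _ => rfl) (fun _ hu hu' => mem_SA0_congr hF hu hu')
    (fun _ hu hu' => mem_SA1_congr hF hu hu') (fun _ hu hu' => mem_SA2_congr hF hu hu')

theorem FinS_congr (hE : IsLC A gE) (hE' : IsLC A gE') (h : EqOv A gE gE')
    (hF : EqOv A gF gF') : FinS s gF hE ↔ FinS s gF' hE' := (quot_congr hE hE' h hF).1

theorem chiS_congr (hE : IsLC A gE) (hE' : IsLC A gE') (h : EqOv A gE gE')
    (hF : EqOv A gF gF') : chiS s gF hE = chiS s gF' hE' := (quot_congr hE hE' h hF).2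

/-! ### holomorphic sections -/

theorem isHol_of_isNZ (hs : IsNZ A gL univ s) : IsHol A s := by
  intro i x
  funext b
  by_cases hx : x ∈ (A.e i).source
  · rw [d0_of_mem hx, ((hs.nz i).hol x hx trivial).db_eq b]; rfl
  · rw [d0_of_not_mem hx]

theorem isRep_iff {k : A.ι} {p : M} {ρ : M → ℂ} :
    IsRep A s σ k p ρ ↔ RepP A k (s k) (σ k) ρ p := by
  refine and_congr Iff.rfl ⟨?_, ?_⟩
  · rintro ⟨b, hb, e⟩
    refine ⟨b, hb, ?_⟩
    filter_upwards [e] with y hy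
    rw [hy]; ring
  · rintro ⟨b, hb, e⟩
    refine ⟨b, hb, ?_⟩
    filter_upwards [e] with y hy
    linear_combination hy

theorem RS.dv1 {gM : A.ι → A.ι → M → ℂ} (h : RS A gM gL s σ) (x : M) : DV1 A s (d0 A σ) x := by
  obtain ⟨η, hη, e⟩ := h.dv
  intro b i hi
  refine ⟨fun y => η i y b, hη.sm i b x hi trivial, Eventually.of_forall fun y => ?_⟩
  show d0 A σ i y b = _
  rw [e]; rfl


theorem isRep_self {k : A.ι} {p : M} (h : HolP A k (σ k) p) : IsRep A s σ k p (σ k) :=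
  ⟨h, fun _ => 0, SmP.const 0, Eventually.of_forall fun y => by simp⟩

/-! ### the local ring on the surface and in a chart -/

section germs

variable [ChartedSpace C2 M] [IsManifold 𝓘(ℂ, C2) 1 M]

theorem holN_rd_iff (hA : Adm A) {k : A.ι} {p : M} (hk : p ∈ (A.e k).source) (f : M → ℂ) :
    HolN f p ↔ HolN (Y := Cn 2) (rd A k f) (A.e k p) := by
  rw [holN_iff_holP hA hk, holN_iff]; exact Iff.rfl

theorem tendsto_symm74 {k : A.ι} {p : M} (hk : p ∈ (A.e k).source) :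
    Tendsto (A.e k).symm (𝓝 (A.e k p)) (𝓝 p) := by
  have := ((A.e k).continuousAt_symm ((A.e k).map_source hk)).tendsto
  rwa [(A.e k).left_inv hk] at this


/-- germs on the surface, read in a chart -/
def rdG (hA : Adm A) {k : A.ι} {p : M} (hk : p ∈ (A.e k).source) :
    Og p →ₐ[ℂ] Og (Y := Cn 2) (A.e k p) where
  toFun x := ⟨(x : Germ (𝓝 p) ℂ).compTendsto (A.e k).symm (tendsto_symm74 hk), by
    obtain ⟨f, hf, rfl⟩ := exists_gm x
    exact ⟨rd A k f, (holN_rd_iff hA hk f).1 hf, rfl⟩⟩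
  map_one' := rfl
  map_zero' := rfl
  map_mul' x y := by
    obtain ⟨f, hf, rfl⟩ := exists_gm x
    obtain ⟨g, hg, rfl⟩ := exists_gm y
    rfl
  map_add' x y := by
    obtain ⟨f, hf, rfl⟩ := exists_gm x
    obtain ⟨g, hg, rfl⟩ := exists_gm y
    rfl
  commutes' _ := rfl

theorem rdG_gm (hA : Adm A) {k : A.ι} {p : M} (hk : p ∈ (A.e k).source) {f : M → ℂ}
    (hf : HolN f p) : rdG hA hk (gm hf) = gm ((holN_rd_iff hA hk f).1 hf) := rfl

theorem rdG_gt (hA : Adm A) {k : A.ι} {p : M} (hk : p ∈ (A.e k).source) {f : M → ℂ}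
    (hf : HolN f p) : rdG hA hk (gt f p) = gt (rd A k f) (A.e k p) := by
  rw [gt_eq hf, gt_eq ((holN_rd_iff hA hk f).1 hf)]; rfl

theorem rdG_bijective (hA : Adm A) {k : A.ι} {p : M} (hk : p ∈ (A.e k).source) :
    Function.Bijective (rdG hA hk) := by
  constructor
  · rw [injective_iff_map_eq_zero]
    intro x hx
    obtain ⟨f, hf, rfl⟩ := exists_gm x
    rw [rdG_gm, gm_eq_zero_iff] at hx
    rw [gm_eq_zero_iff]
    exact (ev_iff hk).2 hx
  · intro y
    obtain ⟨φ, hφ, rfl⟩ := exists_gm y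
    have h1 : HolN (pl A k φ) p :=
      (holN_iff_holP hA hk _).2 (holP_pl hk (holN_iff.1 hφ))
    refine ⟨gm h1, ?_⟩
    rw [rdG_gm, gm_eq_iff]
    exact rd_pl hk φ

/-- `O_p` on the surface and in a chart -/
def ogEquiv (hA : Adm A) {k : A.ι} {p : M} (hk : p ∈ (A.e k).source) :
    Og p ≃ₐ[ℂ] Og (Y := Cn 2) (A.e k p) :=
  AlgEquiv.ofBijective (rdG hA hk) (rdG_bijective hA hk)

theorem ogEquiv_gt (hA : Adm A) {k : A.ι} {p : M} (hk : p ∈ (A.e k).source) {f : M → ℂ}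
    (hf : HolN f p) : ogEquiv hA hk (gt f p) = gt (rd A k f) (A.e k p) := rdG_gt hA hk hf

/-- `O_p / (f, h)` -/
abbrev IT (f h : M → ℂ) (p : M) : Type := Og p ⧸ Ideal.span {gt f p, gt h p}

/-- `O_p / (f, h)` on the surface and in a chart -/
def itEquiv (hA : Adm A) {k : A.ι} {p : M} (hk : p ∈ (A.e k).source) {f h : M → ℂ}
    (hf : HolN f p) (hh : HolN h p) :
    IT f h p ≃ₗ[ℂ] QGerm967.WL A k f h p :=
  (Ideal.quotientEquivAlg (Ideal.span {gt f p, gt h p}) (QGerm967.idW A k f h p)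
    (ogEquiv hA hk) (by
      rw [QGerm967.idW, Ideal.map_span, Set.image_pair]
      have e1 : (RingHomClass.toRingHom (ogEquiv hA hk)) (gt f p) = gt (rd A k f) (A.e k p) :=
        ogEquiv_gt hA hk hf
      have e2 : (RingHomClass.toRingHom (ogEquiv hA hk)) (gt h p) = gt (rd A k h) (A.e k p) :=
        ogEquiv_gt hA hk hh
      rw [← e1, ← e2])).toLinearEquiv


theorem isRelPrime_rd (hA : Adm A) {k : A.ι} {p : M} (hk : p ∈ (A.e k).source) {f h : M → ℂ}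
    (hf : HolN f p) (hh : HolN h p) (hc : IsRelPrime (gt f p) (gt h p)) :
    IsRelPrime (gt (rd A k f) (A.e k p)) (gt (rd A k h) (A.e k p)) := by
  have h1 := (Loc2879.isRelPrime_map (ogEquiv hA hk).toRingEquiv.toMulEquiv).2 hc
  rw [← ogEquiv_gt hA hk hf, ← ogEquiv_gt hA hk hh]
  exact h1

/-! ### Theorem N, consumer form -/

variable [T2Space M]

/-- **THEOREM N**, consumer form -/
theorem theoremN' (hA : Adm A) (Pt : Part A) (hL : IsLC A gL) (hM : IsLC A gM)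
    (hF : IsLC A gF) (hE : IsLC A gE) (hG : IsLC A gG)
    (eE : EqOv A gE (gL * gF)) (eG : EqOv A gG (gM * gE)) (eH : EqOv A gH (gM * gF))
    (hs : IsNZ A gL univ s) (hσ : RS A gM gL s σ)
    (hc : ∀ p ∈ P, p ∈ (A.e (c p)).source) {ρ : M → M → ℂ}
    (hρ : ∀ p ∈ P, IsRep A s σ (c p) p (ρ p))
    (hcop : ∀ p ∈ P, IsRelPrime (gt (s (c p)) p) (gt (ρ p) p))
    (off : ∀ x ∉ P, ∀ i, x ∈ (A.e i).source → s i x ≠ 0 ∨ σ i x ≠ 0)
    (fE : FinS s gF hE) (fG : FinS s gH hG) :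
    (∀ p ∈ P, FiniteDimensional ℂ (IT (s (c p)) (ρ p) p)) ∧
      chiS s gH hG - chiS s gF hE =
        ∑ p ∈ P, (Module.finrank ℂ (IT (s (c p)) (ρ p) p) : ℤ) := by
  have h : NData A gL gM gF s σ (P : Set M) :=
    { hL := hL, hM := hM, hF := hF, hs := hs, hol := isHol_of_isNZ hs, hσ := hσ.z0
      dσ := RS.dv1 hσ, fin := P.finite_toSet
      off := fun x hx => off x (by exact_mod_cast hx) }
  have k : PData A s σ P c ρ :=
    { hc := hc, hol := fun p hp => (hs.nz (c p)).hol p (hc p hp) trivial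
      rep := fun p hp => isRep_iff.1 (hρ p hp) }
  have hsN : ∀ p ∈ P, HolN (s (c p)) p := fun p hp => (holN_iff_holP hA (hc p hp) _).2 (k.hol p hp)
  have hρN : ∀ p ∈ P, HolN (ρ p) p := fun p hp =>
    (holN_iff_holP hA (hc p hp) _).2 (hρ p hp).1
  have hcop' : k.Cop := by
    intro p a ha
    have := Loc2879.ufd_Og (Y := Cn 2) (A.e (c p) p)
    refine cancel_of_isRelPrime ?_ a ha
    have h1 := isRelPrime_rd hA (hc p p.2) (hsN p p.2) (hρN p p.2) (hcop p p.2)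
    rwa [QGerm967.gt_eq_gmP (k.hol p p.2), QGerm967.gt_eq_gmP (k.rep p p.2).1] at h1
  have eG' : EqOv A gG (gM * (gL * gF)) := eG.trans ((EqOv.refl gM).mul eE)
  obtain ⟨h1, h2⟩ := h.theoremN k Pt hcop'
    ((FinS_congr hE h.hE eE (EqOv.refl gF)).1 fE) ((FinS_congr hG h.hG eG' eH).1 fG)
  -- the summands
  have e : ∀ p : P, QGerm967.WL A (c p) (s (c p)) (ρ p) p =
      (Og (Y := Cn 2) (A.e (c p) p) ⧸ idl (k.hol p p.2) (k.rep p p.2)) := fun p => by
    show (_ ⧸ _) = _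
    rw [QGerm967.idW_eq (k.hol p p.2) (k.rep p p.2)]
  have fin : ∀ p : P, FiniteDimensional ℂ
      (Og (Y := Cn 2) (A.e (c p) p) ⧸ idl (k.hol p p.2) (k.rep p p.2)) := fun p =>
    Module.Finite.of_surjective (LinearMap.proj (R := ℂ)
      (φ := fun p : P => Og (Y := Cn 2) (A.e (c p) p) ⧸ idl (k.hol p p.2) (k.rep p p.2)) p)
      (Function.surjective_eval p)
  have key : ∀ p : P, FiniteDimensional ℂ (IT (s (c p)) (ρ p) (p : M)) ∧
      Module.finrank ℂ (IT (s (c p)) (ρ p) (p : M)) = Module.finrank ℂ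
        (Og (Y := Cn 2) (A.e (c p) p) ⧸ idl (k.hol p p.2) (k.rep p p.2)) := by
    intro p
    have h3 := itEquiv hA (hc p p.2) (hsN p p.2) (hρN p p.2)
    have h4 : ∀ (I J : Ideal (Og (Y := Cn 2) (A.e (c p) p))) (_ : I = J)
        (_ : IT (s (c p)) (ρ p) (p : M) ≃ₗ[ℂ] Og (Y := Cn 2) (A.e (c p) p) ⧸ I)
        (_ : FiniteDimensional ℂ (Og (Y := Cn 2) (A.e (c p) p) ⧸ J)),
        FiniteDimensional ℂ (IT (s (c p)) (ρ p) (p : M)) ∧
          Module.finrank ℂ (IT (s (c p)) (ρ p) (p : M)) =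
            Module.finrank ℂ (Og (Y := Cn 2) (A.e (c p) p) ⧸ J) := by
      rintro I _ rfl f _
      exact ⟨f.symm.finiteDimensional, f.finrank_eq⟩
    exact h4 _ _ (QGerm967.idW_eq (k.hol p p.2) (k.rep p p.2)) h3 (fin p)
  refine ⟨fun p hp => (key ⟨p, hp⟩).1, ?_⟩
  rw [chiS_congr hG h.hG eG' eH, chiS_congr hE h.hE eE (EqOv.refl gF), h2,
    QGerm967.finrank_pi_aux h1, ← Finset.sum_coe_sort P, Nat.cast_sum]
  exact Finset.sum_congr rfl fun p _ => by rw [(key p).2]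

end germs

end

end Crest.Agent.R275.Q74
end

-- ▼ part R275/N5B_238
section

/-!
# R275, block N, leaf N5 (helper238): division by a section away from its zeros

`s` a section of the line bundle `l`, `ρ` a smooth function equal to `1` near the zeros of `s`.
For a form `y` with values in `l * g` the quotient `v = (1 - ρ) y / s` is a smooth form with values
in `g`, and `y - s v = ρ y`.
-/

set_option autoImplicit false
set_option linter.unusedSectionVars false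

open Set Filter Topology Complex
open scoped ContDiff ComplexConjugate

namespace Crest.Agent.R275.N5238

open Geo Fm96

noncomputable section

variable {M : Type} [TopologicalSpace M] {A : Atl 2 M} {g l : A.ι → A.ι → M → ℂ}

/-- `ρ` is smooth and equal to one near the zeros of `s` -/
structure Cut (A : Atl 2 M) (s : A.ι → M → ℂ) (ρ : M → ℂ) : Prop where
  sm : SmOn A univ ρ
  one : ∀ i, ∀ x ∈ (A.e i).source, s i x = 0 → ∀ᶠ y in 𝓝 x, ρ y = 1

/-- cut-off quotient of sections (or `(0,2)`-forms) -/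
def cq (ρ : M → ℂ) (s y : A.ι → M → ℂ) : A.ι → M → ℂ := fun i x => (1 - ρ x) * (y i x / s i x)

/-- cut-off quotient of `(0,1)`-forms -/
def cq1 (ρ : M → ℂ) (s : A.ι → M → ℂ) (y : A.ι → M → Fin 2 → ℂ) : A.ι → M → Fin 2 → ℂ :=
  fun i x b => (1 - ρ x) * (y i x b / s i x)

variable {ρ : M → ℂ} {s : A.ι → M → ℂ}

theorem Cut.eq_one (hρ : Cut A s ρ) {i : A.ι} {x : M} (hx : x ∈ (A.e i).source)
    (h0 : s i x = 0) : ρ x = 1 := (hρ.one i x hx h0).self_of_nhds

theorem smP_cq (hs : IsZ0 A l univ s) (hρ : Cut A s ρ) {f : M → ℂ} {i : A.ι} {x : M}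
    (hx : x ∈ (A.e i).source) (hf : SmP A i f x) :
    SmP A i (fun y => (1 - ρ y) * (f y / s i y)) x := by
  by_cases h0 : s i x = 0
  · refine (SmP.const 0).congr hx ?_
    filter_upwards [hρ.one i x hx h0] with y hy
    rw [hy, sub_self, zero_mul]
  · exact ((SmP.const 1).sub (hρ.sm i x hx trivial)).mul (hf.div (hs.sm i x hx trivial) h0 hx)

theorem cq_tr (hl : IsLC A l) (hs : IsZ0 A l univ s) (hρ : Cut A s ρ) {i j : A.ι} {x : M}
    (hx : x ∈ (A.e i).source ∩ (A.e j).source) {a b c : ℂ} (h : a = (l i j x * c) * b) :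
    (1 - ρ x) * (a / s i x) = c * ((1 - ρ x) * (b / s j x)) := by
  by_cases h0 : s j x = 0
  · rw [hρ.eq_one hx.2 h0]; ring
  · have h1 := hs.tr i j x hx trivial
    have h2 := hl.ne i j x hx
    rw [h, h1]
    field_simp

theorem isZ0_cq (hl : IsLC A l) (hs : IsZ0 A l univ s) (hρ : Cut A s ρ) {y : A.ι → M → ℂ}
    (hy : IsZ0 A (l * g) univ y) : IsZ0 A g univ (cq ρ s y) where
  sm i x hx hG := smP_cq hs hρ hx (hy.sm i x hx hG)
  off i x hx := by simp [cq, hy.off i x hx]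
  tr i j x hx hG := by
    refine cq_tr hl hs hρ hx ?_
    rw [hy.tr i j x hx hG]; simp only [Pi.mul_apply]

theorem isZ2_cq (hl : IsLC A l) (hs : IsZ0 A l univ s) (hρ : Cut A s ρ) {y : A.ι → M → ℂ}
    (hy : IsZ2 A (l * g) univ y) : IsZ2 A g univ (cq ρ s y) where
  sm i x hx hG := smP_cq hs hρ hx (hy.sm i x hx hG)
  off i x hx := by simp [cq, hy.off i x hx]
  tr i j x hx hG := by
    have h := cq_tr (c := g i j x * dJ A i j x) hl hs hρ hx (a := y i x) (b := y j x) (by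
      rw [hy.tr i j x hx hG]; simp only [Pi.mul_apply]; ring)
    simp only [cq]
    rw [h]; ring

theorem isZ1_cq (hl : IsLC A l) (hs : IsZ0 A l univ s) (hρ : Cut A s ρ)
    {y : A.ι → M → Fin 2 → ℂ} (hy : IsZ1 A (l * g) univ y) : IsZ1 A g univ (cq1 ρ s y) where
  sm i b x hx hG := smP_cq hs hρ hx (hy.sm i b x hx hG)
  off i x hx := by funext b; simp [cq1, hy.off i x hx]
  tr i j x hx hG b := by
    have h := cq_tr (c := g i j x) hl hs hρ hx (a := y i x b)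
      (b := ∑ c, conj (A.J i j x c b) * y j x c) (by
        rw [hy.tr i j x hx hG b]; simp only [Pi.mul_apply])
    simp only [cq1]
    rw [h]
    simp only [Fin.sum_univ_two]
    ring

/-- `s * (y / s) = (1 - ρ) y` -/
theorem mul_cq_aux (hρ : Cut A s ρ) {i : A.ι} {x : M} {c : ℂ}
    (hc : x ∉ (A.e i).source → c = 0) : s i x * ((1 - ρ x) * (c / s i x)) = (1 - ρ x) * c := by
  by_cases hx : x ∈ (A.e i).source
  · by_cases h0 : s i x = 0
    · rw [hρ.eq_one hx h0]; ring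
    · field_simp
  · rw [hc hx]; ring

theorem sm_cq (hρ : Cut A s ρ) {y : A.ι → M → ℂ} (hy : ∀ i, ∀ x ∉ (A.e i).source, y i x = 0)
    (i : A.ι) (x : M) : sm s (cq ρ s y) i x = (1 - ρ x) * y i x :=
  mul_cq_aux hρ (hy i x)

theorem sm1_cq (hρ : Cut A s ρ) {y : A.ι → M → Fin 2 → ℂ}
    (hy : ∀ i, ∀ x ∉ (A.e i).source, y i x = 0) (i : A.ι) (x : M) (b : Fin 2) :
    sm1 s (cq1 ρ s y) i x b = (1 - ρ x) * y i x b :=
  mul_cq_aux hρ (fun hx => by rw [hy i x hx]; rfl)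



/-- existence of compactly supported cut-offs -/
theorem exists_cut [T2Space M] (A : Atl 2 M) {s : A.ι → M → ℂ} {K : Set M} (hK : IsCompact K)
    (hz : ∀ i, ∀ x ∈ (A.e i).source, s i x = 0 → x ∈ K) :
    ∃ ρ : M → ℂ, Cut A s ρ ∧ IsCompact (tsupport ρ) ∧ ∀ᶠ y in 𝓝ˢ K, ρ y = 1 := by
  obtain ⟨φ, h1, h2, h3, h4, -⟩ := QN2b734.exists_bump A hK isOpen_univ (subset_univ K)
  have h5 : A.Sm (fun y => (φ y : ℂ)) := QN2b734.sm_iff.2 fun x => (h1 x).ofReal
  have h6 : ∀ᶠ y in 𝓝ˢ K, (φ y : ℂ) = 1 := h3.mono fun y hy => by rw [hy]; simp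
  refine ⟨fun y => (φ y : ℂ), ⟨fun i x hx _ => (smAt_iff (A := A) (i := i) (f := fun y => (φ y : ℂ))).1 (h5 i) x hx,
    fun i x hx h0 => ?_⟩, ?_, h6⟩
  · exact nhds_le_nhdsSet (hz i x hx h0) h6
  · refine h4.of_isClosed_subset (isClosed_tsupport _) (closure_mono ?_)
    intro y hy
    simp only [Function.mem_support, ne_eq, Complex.ofReal_eq_zero] at hy ⊢
    exact hy

end

end Crest.Agent.R275.N5238
end

-- ▼ part R275/QConsB_734
section

/-!
# R275, block N, leaf N8 (helper734): consumer forms of Theorem N, part B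

* `sup_top`, `h2_zero` : `H²(Q_s(E)) = 0` if the zero set of `s` is compact (`M` not compact);
* `thmN` : Theorem N for sections with compact zero set: the common zeros are finite and
  `χ(Q_s(M + E)) - χ(Q_s(E))` is the sum of the local intersection numbers;
* `thmN_nonneg`, `thmN_zero`, `thmN_one` : the cases of difference `≥ 0`, `= 0`, `= 1`.
-/

set_option autoImplicit false
set_option linter.unusedSectionVars false

open Set Filter Topology Complex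
open scoped ContDiff ComplexConjugate Manifold

namespace Crest.Agent.R275.QCons734

open Crest.AlgGeometry.Surface Geo Fm96 Dv69 Core144 EffDiv Q74 Cnt508 N5238

noncomputable section

variable {M : Type} [TopologicalSpace M] {A : Atl 2 M} {i j : A.ι} {x : M}
variable {g gL gM gF gE gG gH : A.ι → A.ι → M → ℂ} {s w : A.ι → M → ℂ}

/-- `s` vanishes only on the compact set `K` -/
structure ZIn (A : Atl 2 M) (s : A.ι → M → ℂ) (K : Set M) : Prop where
  cpt : IsCompact K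
  sub : ∀ i, ∀ x ∈ (A.e i).source, s i x = 0 → x ∈ K

/-! ### `H² = 0` -/

theorem sup_top [T2Space M] (P : Part A) (hgL : IsLC A gL) (hgF : IsLC A gF)
    (hE : IsLC A gE) (he : EqOv A gE (gL * gF)) (hs : IsNZ A gL univ s) {K : Set M}
    (hK : ZIn A s K) : SA2 s gF gE ⊔ LinearMap.range (D1 hE) = ⊤ := by
  obtain ⟨ρ, hρ, hρc, -⟩ := exists_cut A hK.cpt hK.sub
  rw [eq_top_iff]
  rintro ⟨F, hF⟩ -
  have hF' : IsZ2 A (gL * gF) univ F := (ZZ2_congr he).le hF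
  -- the cut-off form
  have h1 : IsZ2 A (gL * gF) univ (fun i x => ρ x * F i x) :=
    { sm := fun i x hx hG => (hρ.sm i x hx trivial).mul (hF'.sm i x hx hG)
      off := fun i x hx => by simp [hF'.off i x hx]
      tr := fun i j x hx hG => by
        show ρ x * F i x = _
        rw [hF'.tr i j x hx hG]; ring }
  obtain ⟨γ, η, k1, k2, -, -, k3⟩ := FmExt861.glob P hgL hgF (s := s)
    (fun i x hx => (hs.nz i).hol x hx trivial) hs.z0
    (fun i x hx h => (hs.nz i).ne x hx trivial (h.mono fun y hy => not_not.1 hy))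
    h1 ⟨tsupport ρ, hρc, fun i x hx => by
      show ρ x * F i x = 0
      rw [image_eq_zero_of_notMem_tsupport hx, zero_mul]⟩
  have hγ : γ ∈ ZZ1 A gE := (ZZ1_congr he).ge k1
  have hq : IsZ2 A gF univ (cq ρ s F) := isZ2_cq hgL hs.z0 hρ hF'
  have hη : sm s (η + cq ρ s F) ∈ ZZ2 A gE := (ZZ2_congr he).ge (hs.z0.sm2' (k2.add hq))
  refine Submodule.mem_sup.2 ⟨⟨sm s (η + cq ρ s F), hη⟩, ⟨_, k2.add hq, rfl⟩, D1 hE ⟨γ, hγ⟩,
    ⟨_, rfl⟩, ?_⟩
  apply Subtype.ext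
  funext i x
  show s i x * (η i x + cq ρ s F i x) + d1 A γ i x = F i x
  have h2 : s i x * cq ρ s F i x = (1 - ρ x) * F i x := sm_cq hρ hF'.off i x
  have h3 := k3 i x
  linear_combination h2 - h3

theorem h2_zero [T2Space M] (P : Part A) (hgL : IsLC A gL) (hgF : IsLC A gF)
    (hE : IsLC A gE) (he : EqOv A gE (gL * gF)) (hs : IsNZ A gL univ s) {K : Set M}
    (hK : ZIn A s K) : Module.finrank ℂ (H2 (D1 hE) (SA2 s gF gE)) = 0 := by
  have h : Subsingleton (H2 (D1 hE) (SA2 s gF gE)) := by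
    refine ⟨fun a b => ?_⟩
    obtain ⟨a, rfl⟩ := Submodule.Quotient.mk_surjective _ a
    obtain ⟨b, rfl⟩ := Submodule.Quotient.mk_surjective _ b
    rw [HQ_mk_eq, sup_top P hgL hgF hE he hs hK]
    trivial
  exact Module.finrank_zero_of_subsingleton

/-! ### Theorem N with compact zero set -/

section germs

variable [ChartedSpace C2 M] [IsManifold 𝓘(ℂ, C2) 1 M] [T2Space M]

theorem ing_pos (hA : Adm A) (hi : x ∈ (A.e i).source) {ρ : M → ℂ} (hs : IsNZ A gL univ s)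
    (hρ : IsRep A s w i x ρ) (hc : IsRelPrime (gt (s i) x) (gt ρ x)) (h0 : s i x = 0)
    (h1 : w i x = 0) : 0 < Loc2879.ing (gt (s i) x) (gt ρ x) :=
  (Loc2879.ing_pos_iff ((holN_iff_holP hA hi _).2 ((hs.nz i).hol x hi trivial))
    ((holN_iff_holP hA hi _).2 hρ.1) hc).2 ⟨h0, (hρ.value h0).trans h1⟩

/-- **Theorem N** for a section with compact zero set -/
theorem thmN (hA : Adm A) (Pt : Part A) (hL : IsLC A gL) (hM : IsLC A gM)
    (hF : IsLC A gF) (hE : IsLC A gE) (hG : IsLC A gG)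
    (eE : EqOv A gE (gL * gF)) (eG : EqOv A gG (gM * gE)) (eH : EqOv A gH (gM * gF))
    (hs : IsNZ A gL univ s) (hw : RS A gM gL s w) (hc : AllCop A s w) {K : Set M}
    (hK : ZIn A s K) (fE : FinS s gF hE) (fG : FinS s gH hG) :
    ∃ hfin : (CZ A s w).Finite, ∀ (c : M → A.ι) (ρ : M → M → ℂ),
      (∀ p, p ∈ (A.e (c p)).source) → (∀ p, IsRep A s w (c p) p (ρ p)) →
      chiS s gH hG - chiS s gF hE =
        ∑ p ∈ hfin.toFinset, (Loc2879.ing (gt (s (c p)) p) (gt (ρ p) p) : ℤ) := by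
  refine ⟨finite_CZ hA hL hM hs hw hc hK.cpt hK.sub, fun c ρ hcc hρ => ?_⟩
  exact (theoremN' hA Pt hL hM hF hE hG eE eG eH hs hw (fun p _ => hcc p) (fun p _ => hρ p)
    (fun p _ => hc _ p (hcc p) _ (hρ p)) (fun x hx i hi => not_mem_CZ hL hM hs.z0 hw.z0
      (fun h => hx ((Set.Finite.mem_toFinset _).2 h)) i hi) fE fG).2

/-- the consequences of Theorem N used in sections 4 and 5 -/
structure NOut (A : Atl 2 M) (s w : A.ι → M → ℂ) (n : ℤ) : Prop where
  fin : (CZ A s w).Finite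
  nonneg : 0 ≤ n
  zero : n = 0 → CZ A s w = ∅
  one : n = 1 → ∃ p, CZ A s w = {p} ∧ ∀ i, p ∈ (A.e i).source → ∀ ρ, IsRep A s w i p ρ →
    Loc2879.ing (gt (s i) p) (gt ρ p) = 1

theorem nOut (hA : Adm A) (Pt : Part A) (hL : IsLC A gL) (hM : IsLC A gM)
    (hF : IsLC A gF) (hE : IsLC A gE) (hG : IsLC A gG)
    (eE : EqOv A gE (gL * gF)) (eG : EqOv A gG (gM * gE)) (eH : EqOv A gH (gM * gF))
    (hs : IsNZ A gL univ s) (hw : RS A gM gL s w) (hc : AllCop A s w) {K : Set M}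
    (hK : ZIn A s K) (fE : FinS s gF hE) (fG : FinS s gH hG) :
    NOut A s w (chiS s gH hG - chiS s gF hE) := by
  classical
  obtain ⟨hfin, h⟩ := thmN hA Pt hL hM hF hE hG eE eG eH hs hw hc hK fE fG
  have hmem : ∀ p, p ∈ hfin.toFinset ↔ p ∈ CZ A s w := fun p => Set.Finite.mem_toFinset _
  have hpos : ∀ p ∈ CZ A s w, ∀ i, p ∈ (A.e i).source → ∀ ρ, IsRep A s w i p ρ →
      0 < Loc2879.ing (gt (s i) p) (gt ρ p) := fun p hp i hi ρ hρ => by
    obtain ⟨h1, h2⟩ := (mem_CZ_iff hL hM hs.z0 hw.z0 hi).1 hp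
    exact ing_pos hA hi hs hρ (hc i p hi ρ hρ) h1 h2
  choose c hcc using A.cover
  choose ρ hρ using fun p => hw.rep hs (hcc p)
  have h1 := h c ρ hcc hρ
  refine ⟨hfin, ?_, ?_, ?_⟩
  · rw [h1]
    exact Finset.sum_nonneg fun p _ => Int.natCast_nonneg _
  · intro h0
    rw [h1, Finset.sum_eq_zero_iff_of_nonneg fun p _ => Int.natCast_nonneg _] at h0
    rw [eq_empty_iff_forall_notMem]
    intro p hp
    have h2 := h0 p ((hmem p).2 hp)
    have h3 := hpos p hp _ (hcc p) _ (hρ p)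
    omega
  · intro h0
    rw [h1] at h0
    -- exactly one point
    obtain ⟨p, hp⟩ : (CZ A s w).Nonempty := by
      rw [nonempty_iff_ne_empty]
      intro he
      have : hfin.toFinset = ∅ := by
        ext p
        rw [hmem, he]
        simp
      rw [this, Finset.sum_empty] at h0
      exact zero_ne_one h0
    have hle : ∀ q ∈ hfin.toFinset, (1 : ℤ) ≤ Loc2879.ing (gt (s (c q)) q) (gt (ρ q) q) :=
      fun q hq => by
        have := hpos q ((hmem q).1 hq) _ (hcc q) _ (hρ q)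
        omega
    have hcard : (hfin.toFinset.card : ℤ) ≤ 1 := by
      rw [← h0]
      have := Finset.card_nsmul_le_sum hfin.toFinset _ (1 : ℤ) hle
      simpa using this
    have huniq : CZ A s w = {p} := by
      ext q
      rw [mem_singleton_iff]
      constructor
      · intro hq
        have h2 : hfin.toFinset.card ≤ 1 := by exact_mod_cast hcard
        exact Finset.card_le_one.1 h2 q ((hmem q).2 hq) p ((hmem p).2 hp)
      · rintro rfl
        exact hp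
    refine ⟨p, huniq, fun i hi ρ' hρ' => ?_⟩
    have h2 : chiS s gH hG - chiS s gF hE = ∑ q ∈ hfin.toFinset,
        (Loc2879.ing (gt (s (Function.update c p i q)) q)
          (gt (Function.update ρ p ρ' q) q) : ℤ) := by
      refine h _ _ (fun q => ?_) fun q => ?_
      · by_cases hq : q = p
        · subst hq; simpa using hi
        · simpa [hq] using hcc q
      · by_cases hq : q = p
        · subst hq; simpa using hρ'
        · simpa [hq] using hρ q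
    have h3 : hfin.toFinset = {p} := by
      ext q
      rw [hmem, huniq]
      simp
    rw [h3, Finset.sum_singleton, Function.update_self, Function.update_self] at h2
    rw [h1, h0] at h2
    exact_mod_cast h2.symm

end germs

end

end Crest.Agent.R275.QCons734
end

-- ▼ part R275/QConsC_734
section

/-!
# R275, block N, leaf N8 (helper734): consumer forms of Theorem N over `LB A`, part C

`Link P q L σ` : `χ(Q_σ(L + F)) = q (L + F) - q F` for all `F ∈ P` (with finiteness).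
`CSec h P L σ` : `L ∈ P`, `0 ≠ σ ∈ V_L` with compact divisor.
From these:
* `nOut_link` : `NOut A σ w (b (L, M))` for every class `w` of `H⁰(Q_σ(M))` coprime to `σ`;
* `inter` (D8), `n8i_*` (helper95's N8i), `n8ii` (N8ii), `curveData` (helper595), `genus` (D9).
-/

set_option autoImplicit false
set_option linter.unusedSectionVars false

open Set Filter Topology Complex
open scoped ContDiff ComplexConjugate Manifold

namespace Crest.Agent.R275.QCons734

open Crest.AlgGeometry.Surface Geo Fm96 Core144 Q74 Cnt508 N5238 St3686 GeoP572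
open Dv69 (HolN LEq EffDiv gt gm LocFact)

noncomputable section

variable {Y : Type} [TopologicalSpace Y] {A : Atl 2 Y} {h : Y → ℝ}

/-- **the index link** of the section `σ` of `L` -/
structure Link (P : Subgroup (LB A)) (q : LB A → ℤ) (L : LB A) (σ : A.ι → Y → ℂ) : Prop where
  fin : ∀ F ∈ P, FinS σ F.g (isLC_LB (L * F))
  chi : ∀ F ∈ P, chiS σ F.g (isLC_LB (L * F)) = q (L * F) - q F

/-- bilinearity of the polarisation -/
structure Quad (P : Subgroup (LB A)) (q : LB A → ℤ) : Prop where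
  add : ∀ L ∈ P, ∀ L' ∈ P, ∀ L'' ∈ P, bq q (L * L') L'' = bq q L L'' + bq q L' L''

theorem quad_of_lat {P T : Subgroup (LB A)} {B : Type*} {E : B → LB A} {q : LB A → ℤ}
    (H : Lat P T E q) : Quad P q := ⟨H.b_add⟩

namespace Quad

variable {P : Subgroup (LB A)} {q : LB A → ℤ} (H : Quad P q) {L L' : LB A}
include H

theorem b_one (hL : L ∈ P) : bq q 1 L = 0 := by
  have := H.add 1 P.one_mem 1 P.one_mem L hL
  rw [one_mul] at this
  omega

theorem q_one : q 1 = 0 := by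
  have := H.b_one P.one_mem
  unfold bq at this
  rw [one_mul] at this
  omega

theorem b_inv (hL : L ∈ P) (hL' : L' ∈ P) : bq q L⁻¹ L' = - bq q L L' := by
  have := H.add L hL L⁻¹ (P.inv_mem hL) L' hL'
  rw [mul_inv_cancel, H.b_one hL'] at this
  omega

theorem b_inv_right (hL : L ∈ P) (hL' : L' ∈ P) : bq q L L'⁻¹ = - bq q L L' := by
  rw [bq_comm, H.b_inv hL' hL, bq_comm]

end Quad


theorem finS_cast {σ : A.ι → Y → ℂ} {gF : A.ι → A.ι → Y → ℂ} {L L' : LB A} (e : L = L')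
    (hf : FinS σ gF (isLC_LB L)) : FinS σ gF (isLC_LB L') := by
  subst e; exact hf

theorem chiS_cast {σ : A.ι → Y → ℂ} {gF : A.ι → A.ι → Y → ℂ} {L L' : LB A} (e : L = L') :
    chiS σ gF (isLC_LB L) = chiS σ gF (isLC_LB L') := by
  subst e; rfl

variable [ChartedSpace C2 Y] [IsManifold 𝓘(ℂ, C2) 1 Y] [LocFact Y]

/-- a non-zero section with compact divisor -/
structure CSec (h : Y → ℝ) (P : Subgroup (LB A)) (L : LB A) (σ : A.ι → Y → ℂ) : Prop where
  mem : L ∈ P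
  sec : σ ∈ VL h L
  ne : σ ≠ 0
  cpt : IsCompact (dvs A σ).supp

variable [T2Space Y] [PreconnectedSpace Y] {P : Subgroup (LB A)} {q : LB A → ℤ}
  {L M : LB A} {σ τ w : A.ι → Y → ℂ}

/-- non-zero sections are nowhere locally zero -/
theorem isNZ_sec (hA : Adm A) (hs : IsHS L univ σ) (h0 : σ ≠ 0) : IsNZ A L.g univ σ :=
  isNZ_of_isHS hs fun _ _ hi h1 => h0 (eq_zero_of_ev hA hs hi h1)

theorem dvs_divOf (hA : Adm A) (hs : IsHS L univ σ) (h0 : σ ≠ 0) :
    dvs A σ = EffDiv.divOf (Cnt508.isSec_of hA (isLC_LB L) (isNZ_sec hA hs h0)) :=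
  dvs_eq (Cnt508.isSec_of hA (isLC_LB L) (isNZ_sec hA hs h0))

namespace CSec

variable (c : CSec h P L σ)
include c

theorem nz (hA : Adm A) : IsNZ A L.g univ σ := isNZ_sec hA c.sec.1 c.ne

theorem zIn (hA : Adm A) : ZIn A σ (dvs A σ).supp :=
  ⟨c.cpt, fun _ _ hi h0 => (mem_supp_dvs hA c.sec.1 c.ne hi).2 h0⟩

/-- Theorem N for the section `σ` -/
theorem nOut (hA : Adm A) (Pt : Part A) (k : Link P q L σ) (h1 : q 1 = 0) (hM : M ∈ P)
    (hw : RS A M.g L.g σ w) (hc : AllCop A σ w) : NOut A σ w (bq q L M) := by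
  have h2 := QCons734.nOut (gF := (1 : LB A).g) (gE := (L * 1).g) (gH := (M * 1).g)
    (gG := (L * (M * 1)).g) hA Pt (isLC_LB L) (isLC_LB M) (isLC_LB 1) (isLC_LB (L * 1))
    (isLC_LB (L * (M * 1))) (EqOv.refl _)
    (fun i j x _ => by simp only [g_mul, Pi.mul_apply]; ring) (EqOv.refl _) (c.nz hA) hw hc
    (c.zIn hA) (k.fin 1 P.one_mem) (k.fin (M * 1) (P.mul_mem hM P.one_mem))
  rw [k.chi 1 P.one_mem, k.chi (M * 1) (P.mul_mem hM P.one_mem), h1, mul_one, mul_one] at h2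
  have e : q (L * M) - q M - (q L - 0) = bq q L M := by unfold bq; ring
  rwa [e] at h2

theorem cop_of_inf (hA : Adm A) (ht : IsHS M univ τ) (ht0 : τ ≠ 0)
    (hi : dvs A σ ⊓ dvs A τ = 0) : AllCop A σ τ := by
  rw [dvs_divOf hA c.sec.1 c.ne, dvs_divOf hA ht ht0] at hi
  exact allCop_of_inf hA (isLC_LB M) (isLC_LB L) (c.nz hA) (isNZ_sec hA ht ht0)
    (isHol_of_isHS ht) hi

/-- Theorem N for two sections without common divisor -/
theorem nOut_hol (hA : Adm A) (Pt : Part A) (k : Link P q L σ) (h1 : q 1 = 0) (hM : M ∈ P)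
    (ht : IsHS M univ τ) (ht0 : τ ≠ 0) (hi : dvs A σ ⊓ dvs A τ = 0) :
    NOut A σ τ (bq q L M) :=
  c.nOut hA Pt k h1 hM (rs_of_hol (isZ0_of_isHS ht) (isHol_of_isHS ht)) (c.cop_of_inf hA ht ht0 hi)

theorem cz_eq (hA : Adm A) (ht : IsHS M univ τ) (ht0 : τ ≠ 0) :
    CZ A σ τ = (dvs A σ).supp ∩ (dvs A τ).supp := by
  ext x
  obtain ⟨i, hi⟩ := A.cover x
  rw [mem_CZ_iff (isLC_LB L) (isLC_LB M) (isZ0_of_isHS c.sec.1) (isZ0_of_isHS ht) hi, mem_inter_iff,
    mem_supp_dvs hA c.sec.1 c.ne hi, mem_supp_dvs hA ht ht0 hi]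

/-- **D8** -/
theorem inter (hA : Adm A) (Pt : Part A) (k : Link P q L σ) (h1 : q 1 = 0) (hM : M ∈ P)
    (ht : IsHS M univ τ) (ht0 : τ ≠ 0) (hi : dvs A σ ⊓ dvs A τ = 0) : 0 ≤ bq q L M :=
  (c.nOut_hol hA Pt k h1 hM ht ht0 hi).nonneg

/-- **N8i**, first half -/
theorem disj (hA : Adm A) (Pt : Part A) (k : Link P q L σ) (h1 : q 1 = 0) (hM : M ∈ P)
    (ht : IsHS M univ τ) (ht0 : τ ≠ 0) (hi : dvs A σ ⊓ dvs A τ = 0) (h0 : bq q L M = 0) :
    Disjoint (dvs A σ).supp (dvs A τ).supp := by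
  rw [disjoint_iff_inter_eq_empty, ← c.cz_eq hA ht ht0]
  exact (c.nOut_hol hA Pt k h1 hM ht ht0 hi).zero h0

/-- **N8i**, second half -/
theorem point (hA : Adm A) (Pt : Part A) (k : Link P q L σ) (h1 : q 1 = 0) (hM : M ∈ P)
    (ht : IsHS M univ τ) (ht0 : τ ≠ 0) (hi : dvs A σ ⊓ dvs A τ = 0) (h0 : bq q L M = 1) :
    ∃ p, (dvs A σ).supp ∩ (dvs A τ).supp = {p} ∧ ∀ i, p ∈ (A.e i).source →
      Module.finrank ℂ (Dv69.Og p ⧸ Ideal.span {gt (σ i) p, gt (τ i) p}) = 1 := by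
  obtain ⟨p, hp, h2⟩ := (c.nOut_hol hA Pt k h1 hM ht ht0 hi).one h0
  rw [c.cz_eq hA ht ht0] at hp
  exact ⟨p, hp, fun i hi => h2 i hi _ (QCons734.isRep_self (isZ0_of_isHS ht) (isHol_of_isHS ht) hi)⟩

/-! ### prime divisors -/

/-- **N8i** for a prime divisor, `b = 0` -/
theorem disj_of_prime (hA : Adm A) (Pt : Part A) (k : Link P q L σ) (h1 : q 1 = 0)
    (hC : Dv69.Mon.IsPr (dvs A σ)) (hM : M ∈ P) (ht : IsHS M univ τ) (ht0 : τ ≠ 0)
    (hd : ¬ dvs A σ ≤ dvs A τ) (h0 : bq q L M = 0) :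
    Disjoint (dvs A σ).supp (dvs A τ).supp :=
  c.disj hA Pt k h1 hM ht ht0 (hC.inf_eq_zero hd) h0

/-- **N8i** for a prime divisor, `b = 1` -/
theorem point_of_prime (hA : Adm A) (Pt : Part A) (k : Link P q L σ) (h1 : q 1 = 0)
    (hC : Dv69.Mon.IsPr (dvs A σ)) (hM : M ∈ P) (ht : IsHS M univ τ) (ht0 : τ ≠ 0)
    (hd : ¬ dvs A σ ≤ dvs A τ) (h0 : bq q L M = 1) :
    ∃ p, (dvs A σ).supp ∩ (dvs A τ).supp = {p} ∧ ∀ i, p ∈ (A.e i).source →
      Module.finrank ℂ (Dv69.Og p ⧸ Ideal.span {gt (σ i) p, gt (τ i) p}) = 1 :=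
  c.point hA Pt k h1 hM ht ht0 (hC.inf_eq_zero hd) h0

/-- a class of `H⁰(Q_σ(M))` which is not divisible by `σ` -/
theorem exists_rs (hA : Adm A) (Pt : Part A) (k : Link P q L σ) (hM : M ∈ P)
    (hq : 1 ≤ q M - q (M * L⁻¹)) : ∃ w, RS A M.g L.g σ w ∧ ¬ AllDvd A σ w := by
  have hF : M * L⁻¹ ∈ P := P.mul_mem hM (P.inv_mem c.mem)
  have e : L * (M * L⁻¹) = M := by
    rw [mul_comm, inv_mul_cancel_right]
  have hfin := finS_cast e (k.fin _ hF)
  have hchi : chiS σ (M * L⁻¹).g (isLC_LB M) = q M - q (M * L⁻¹) := by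
    rw [← chiS_cast e, k.chi _ hF, e]
  have he : EqOv A (M * L⁻¹).g (M.g * (L.g)⁻¹) := EqOv.refl _
  have h2 := h2_zero (gF := (M * L⁻¹).g) Pt (isLC_LB L) (isLC_LB _) (isLC_LB M)
    (fun i j x _ => by
      have := L.ne_zero i j x
      simp only [g_mul, g_inv, Pi.mul_apply, Pi.inv_apply]
      field_simp) (c.nz hA) (c.zIn hA)
  have h3 : 1 ≤ Module.finrank ℂ (H0 (D0 (isLC_LB M)) (SA0 σ (M * L⁻¹).g M.g)
      (SA1 σ (M * L⁻¹).g M.g)) := by
    unfold chiS chiQ at hchi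
    omega
  have h4 : Nontrivial (H0 (D0 (isLC_LB M)) (SA0 σ (M * L⁻¹).g M.g)
      (SA1 σ (M * L⁻¹).g M.g)) := Module.nontrivial_of_finrank_pos (R := ℂ) (by omega)
  obtain ⟨v, hv⟩ := exists_ne (0 : H0 (D0 (isLC_LB M)) (SA0 σ (M * L⁻¹).g M.g)
      (SA1 σ (M * L⁻¹).g M.g))
  obtain ⟨⟨⟨w, hw0⟩, hw⟩, rfl⟩ := Submodule.Quotient.mk_surjective _ v
  have hr := (mem_comap_iff (isLC_LB M) he).1 hw
  refine ⟨w, hr, fun hd => hv ?_⟩
  obtain ⟨u, hu, e'⟩ := hd.exists hA (isLC_LB M) (isLC_LB L) (c.nz hA) hr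
  rw [HQ_mk_eq_zero]
  exact ⟨u, (ZZ0_congr he).ge hu, e'⟩

/-- **N8ii** : a section of `O_C(M)` without zeros, if `b (M, L) = 0` -/
theorem exists_unit (hA : Adm A) (Pt : Part A) (k : Link P q L σ) (H : Quad P q)
    (hC : Dv69.Mon.IsPr (dvs A σ)) (hg : q L⁻¹ = -1) (hM : M ∈ P) (h0 : bq q M L = 0) :
    ∃ w, RS A M.g L.g σ w ∧ AllCop A σ w ∧
      ∀ i, ∀ x ∈ (A.e i).source, x ∈ (dvs A σ).supp → w i x ≠ 0 := by
  have hq : 1 ≤ q M - q (M * L⁻¹) := by
    have h1 := q_mul q M L⁻¹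
    rw [H.b_inv_right hM c.mem, h0] at h1
    omega
  obtain ⟨w, hw, hd⟩ := c.exists_rs hA Pt k hM hq
  have hC' := hC
  rw [dvs_divOf hA c.sec.1 c.ne] at hC'
  have hcop := (dich hA (isLC_LB M) (isLC_LB L) (c.nz hA) hC' hw).resolve_left hd
  have hz := (c.nOut hA Pt k H.q_one hM hw hcop).zero (by rw [bq_comm]; exact h0)
  refine ⟨w, hw, hcop, fun i x hi hx h2 => ?_⟩
  have h3 : x ∈ CZ A σ w := (mem_CZ_iff (isLC_LB L) (isLC_LB M) (isZ0_of_isHS c.sec.1) hw.z0 hi).2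
    ⟨(mem_supp_dvs hA c.sec.1 c.ne hi).1 hx, h2⟩
  rw [hz] at h3
  exact h3

/-- **N8ii**, the literal form of helper95 -/
theorem n8ii (hA : Adm A) (Pt : Part A) (k : Link P q L σ) (H : Quad P q)
    (hC : Dv69.Mon.IsPr (dvs A σ)) (hg : q L⁻¹ = -1) (hM : M ∈ P) (h0 : bq q M L = 0) :
    ∃ (u : A.ι → Y → ℂ) (v : A.ι → Y → Fin 2 → ℂ), IsZ0 A M.g univ u ∧
      IsZ1 A (M * L⁻¹).g univ v ∧ d0 A u = sm1 σ v ∧
      ∀ i, ∀ x ∈ (A.e i).source, x ∈ (dvs A σ).supp → u i x ≠ 0 := by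
  obtain ⟨w, hw, -, hz⟩ := c.exists_unit hA Pt k H hC hg hM h0
  obtain ⟨η, h1, h2⟩ := hw.dv
  exact ⟨w, η, hw.z0, h1, h2, hz⟩

/-- **H⁰(Q_C) = ℂ** : classes of `H⁰(Q_σ(1))` are constant on `C` -/
theorem exists_value (hA : Adm A) (k : Link P q L σ) (hC : Dv69.Mon.IsPr (dvs A σ))
    (hw : RS A 1 L.g σ w) :
    ∃ κ : ℂ, ∀ i, ∀ x ∈ (A.e i).source, x ∈ (dvs A σ).supp → w i x = κ := by
  have hC' := hC
  rw [dvs_divOf hA c.sec.1 c.ne] at hC'
  have h1 : IsLC A (1 : A.ι → A.ι → Y → ℂ) := isLC_LB (1 : LB A)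
  have hf : FinS σ (L⁻¹).g (isLC_LB (1 : LB A)) :=
    finS_cast (mul_inv_cancel L) (k.fin _ (P.inv_mem c.mem))
  obtain ⟨κ, hκ⟩ := exists_const hA (isLC_LB L) (c.nz hA) hC' h1 (gF := (L⁻¹).g) (EqOv.refl _)
    hf.1 hw
  obtain ⟨u, hu, e⟩ := hκ.exists hA h1 (isLC_LB L) (c.nz hA) (hw.sub_const κ)
  refine ⟨κ, fun i x hi hx => ?_⟩
  have h2 := congrFun (congrFun e i) x
  have h3 : w i x - κ = σ i x * u i x := by
    rw [← fn_of_mem (A := A) (f := fun _ => κ) hi]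
    exact h2
  rw [(mem_supp_dvs hA c.sec.1 c.ne hi).1 hx, zero_mul, sub_eq_zero] at h3
  exact h3

/-- helper595's `CurveData` -/
theorem curveData (hA : Adm A) (Pt : Part A) (k : Link P q L σ) (H : Quad P q)
    (hC : Dv69.Mon.IsPr (dvs A σ)) (hg : q L⁻¹ = -1) (hM : M ∈ P) (h0 : bq q M L = 0) :
    Root595.CurveData M (dvs A σ).supp := by
  obtain ⟨u, v, h1, h2, h3, h4⟩ := c.n8ii hA Pt k H hC hg hM h0
  refine ⟨L.g, (M * L⁻¹).g, σ, u, v, isLC_LB L, isZ0_of_isHS c.sec.1,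
    fun i x hi => (mem_supp_dvs hA c.sec.1 c.ne hi).symm, fun i j x _ => ?_, h1, h2, h3, h4,
    fun w hw hv => ?_⟩
  · have := L.ne_zero i j x
    simp only [LB.mul_g, LB.inv_g]
    field_simp
  · obtain ⟨v, hv, e⟩ := hv
    exact c.exists_value hA k hC ⟨hw, v, by rwa [one_mul], e⟩

/-- **D9** : `q (-C) = -1` from `H¹(O_C) = 0` -/
theorem genus (hA : Adm A) (Pt : Part A) (k : Link P q L σ) (h1 : q 1 = 0)
    (hC : Dv69.Mon.IsPr (dvs A σ))
    (hH : Module.finrank ℂ (H1 (D0 (isLC_LB (1 : LB A))) (D1 (isLC_LB (1 : LB A)))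
      (SA1 σ (L⁻¹).g (1 : LB A).g) (SA2 σ (L⁻¹).g (1 : LB A).g)) = 0) : q L⁻¹ = -1 := by
  have hC' := hC
  rw [dvs_divOf hA c.sec.1 c.ne] at hC'
  have hf : FinS σ (L⁻¹).g (isLC_LB (1 : LB A)) :=
    finS_cast (mul_inv_cancel L) (k.fin _ (P.inv_mem c.mem))
  have hchi : chiS σ (L⁻¹).g (isLC_LB (1 : LB A)) = q 1 - q L⁻¹ := by
    rw [← chiS_cast (mul_inv_cancel L), k.chi _ (P.inv_mem c.mem), mul_inv_cancel]
  have e0 : Module.finrank ℂ (H0 (D0 (isLC_LB (1 : LB A))) (SA0 σ (L⁻¹).g (1 : LB A).g)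
      (SA1 σ (L⁻¹).g (1 : LB A).g)) = 1 :=
    finrank_H0 hA (isLC_LB L) (c.nz hA) hC' (isLC_LB (1 : LB A)) (gF := (L⁻¹).g)
      (EqOv.refl _) hf.1
  have e2 := h2_zero (gF := (L⁻¹).g) Pt (isLC_LB L) (isLC_LB _) (isLC_LB (1 : LB A))
    (fun i j x _ => by
      have := L.ne_zero i j x
      simp only [g_one, g_inv, Pi.mul_apply, Pi.inv_apply, Pi.one_apply]
      field_simp) (c.nz hA) (c.zIn hA)
  unfold chiS chiQ at hchi
  omega

end CSec

end

end Crest.Agent.R275.QCons734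
end

-- ▼ part R275/QLink_734
section

/-!
# R275, block N (helper734): the index link

`σ` a holomorphic section of `L`, zero set compact, bounded with all derivatives, bounded below near
both ends.  Multiplication by `σ` maps the weighted complex `GD(F)` of helper352 into `GD(L + F)`,
and `GD(L + F) + σ * (all forms) = all forms`, so helper238's weighted link gives
`χ(Q_σ(L + F)) = χ(GD(L + F)) - χ(GD(F)) = q (L + F) - q F`.

* `CT A K h σ` : bounded above, bounded below near both ends;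
* `wlink`, `chi_link`; `link_of_idx : Link P q L σ`.
-/

set_option autoImplicit false
set_option linter.unusedSectionVars false

open Set Filter Topology Complex
open scoped ContDiff ComplexConjugate Manifold

namespace Crest.Agent.R275.QCons734

open Crest.AlgGeometry.Surface Geo Fm96 Core144 Q74 Cnt508 N5238 St3686 Sol352

noncomputable section

variable {M : Type} [TopologicalSpace M] {A : Atl 2 M} {K : A.ι → Set M} {h : M → ℝ}
  {s u v : A.ι → M → ℂ} {g gL gF : A.ι → A.ι → M → ℂ} {a b δ : ℝ}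

/-! ### the estimates -/

/-- `s` is bounded with all derivatives, and bounded below near both ends -/
structure CT (A : Atl 2 M) (K : A.ι → Set M) (h : M → ℝ) (s : A.ι → M → ℂ) : Prop where
  up : BD A K h 0 0 s
  lo : ∃ c : ℝ, 0 < c ∧ ∃ T : ℝ, ∀ i, ∀ x ∈ K i, T < |h x| → c ≤ ‖s i x‖

theorem CT.mul (ct : CT A K h s) (hv : BD A K h a b v) : BD A K h a b (Fm96.sm s v) := by
  have := ct.up.mul hv
  rwa [zero_add, zero_add] at this

/-- division by `s` -/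
theorem CT.div (ct : CT A K h s) (C : Cor A h K) (hs : ∀ i, ∀ x ∈ (A.e i).source, SmP A i (s i) x)
    (hv : ∀ i, ∀ x ∈ (A.e i).source, SmP A i (v i) x) (hu : BD A K h a b (Fm96.sm s v)) :
    BD A K h a b v := by
  obtain ⟨c, hc, T, hT⟩ := ct.lo
  -- the outer part
  have h1 : WB A (fun i => K i ∩ {x | T < |h x|}) (fun _ => 1) s := by
    refine WB.mono (WB.sub_core ct.up fun i x hx => hx.1) zero_le_one fun i x _ => ?_
    rw [wgt_zero]; norm_num
  have h2 : WB A (fun i => K i ∩ {x | T < |h x|}) (fun _ => 1) (fun i x => (s i x)⁻¹) :=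
    WB.inv (fun i x hx => C.sub i hx.1) h1 hc fun i x hx => hT i x hx.1 hx.2
  have h3 : WB A (fun i => K i ∩ {x | T < |h x|}) (fun x => wgt a b (h x)) (Fm96.sm s v) :=
    WB.sub_core hu fun i x hx => hx.1
  have h4 : WB A (fun i => K i ∩ {x | T < |h x|}) (fun x => wgt a b (h x)) v := by
    have h5 := WB.mul h2 h3
    have h6 : WB A (fun i => K i ∩ {x | T < |h x|}) (fun x => wgt a b (h x))
        (Fm96.sm (fun i x => (s i x)⁻¹) (Fm96.sm s v)) :=
      h5.mono zero_le_one fun i x _ => by simp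
    refine h6.congr (fun i x hx => C.sub i hx.1) fun i x hx => ?_
    have h7 : s i x ≠ 0 := fun h0 => by
      have := hT i x hx.1 hx.2
      rw [h0, norm_zero] at this
      linarith
    have h8 : ContinuousAt (s i) x := (hs i x (C.sub i hx.1)).continuousAt (C.sub i hx.1)
    filter_upwards [h8.eventually_ne h7] with y hy
    simp only [Fm96.sm]
    rw [inv_mul_cancel_left₀ hy]
  -- the slab
  have h9 := C.slab (-T) T (u := v) (fun i x hx _ _ => hv i x (C.sub i hx)) a b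
  refine (WB.union (fun x => wgt_pos' _ _ _) h4 h9).sub_core fun i x hx => ?_
  by_cases hx' : T < |h x|
  · exact Or.inl ⟨hx, hx'⟩
  · exact Or.inr ⟨hx, abs_le.1 (not_lt.1 hx')⟩

/-- compactly supported families are in all classes -/
theorem bd_of_csupp (C : Cor A h K) (hv : ∀ i, ∀ x ∈ (A.e i).source, SmP A i (v i) x)
    {K0 : Set M} (hK0 : IsCompact K0) (h0 : ∀ i, ∀ x ∉ K0, v i x = 0) (a b : ℝ) :
    BD A K h a b v := by
  obtain ⟨S, hS⟩ := (hK0.image C.cont).bddBelow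
  obtain ⟨T, hT⟩ := (hK0.image C.cont).bddAbove
  refine C.slab_supp (fun i x hx => hv i x (C.sub i hx)) (S := S) (T := T) (fun i x hx => ?_) a b
  refine h0 i x fun hxK => ?_
  rcases hx with hx | hx
  · exact absurd (hS ⟨x, hxK, rfl⟩) (not_le.2 hx)
  · exact absurd (hT ⟨x, hxK, rfl⟩) (not_le.2 hx)

/-! ### injectivity, ranges -/

theorem range_mS0 (hs : IsZ0 A gL univ s) :
    LinearMap.range (mS0 (g' := gF) hs) = SA0 s gF (gL * gF) := by
  ext u
  constructor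
  · rintro ⟨v, rfl⟩; exact ⟨v, v.2, rfl⟩
  · rintro ⟨v, hv, e⟩; exact ⟨⟨v, hv⟩, Subtype.ext e.symm⟩

theorem range_mS1 (hs : IsZ0 A gL univ s) :
    LinearMap.range (mS1 (g' := gF) hs) = SA1 s gF (gL * gF) := by
  ext u
  constructor
  · rintro ⟨v, rfl⟩; exact ⟨v, v.2, rfl⟩
  · rintro ⟨v, hv, e⟩; exact ⟨⟨v, hv⟩, Subtype.ext e.symm⟩

theorem range_mS2 (hs : IsZ0 A gL univ s) :
    LinearMap.range (mS2 (g' := gF) hs) = SA2 s gF (gL * gF) := by
  ext u
  constructor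
  · rintro ⟨v, rfl⟩; exact ⟨v, v.2, rfl⟩
  · rintro ⟨v, hv, e⟩; exact ⟨⟨v, hv⟩, Subtype.ext e.symm⟩

theorem mS1_injective (hs : IsNZ A gL univ s) :
    Function.Injective (mS1 (g' := gF) hs.z0) := by
  intro u v h
  apply Subtype.ext
  funext i x
  by_cases hx : x ∈ (A.e i).source
  · funext b
    have h1 : ∀ y, s i y * (u : A.ι → M → Fin 2 → ℂ) i y b =
        s i y * (v : A.ι → M → Fin 2 → ℂ) i y b := fun y =>
      congrFun (congrFun (congrFun (congrArg Subtype.val h) i) y) b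
    exact cancel (s := s i) (u := fun y => (u : A.ι → M → Fin 2 → ℂ) i y b)
      (v := fun y => (v : A.ι → M → Fin 2 → ℂ) i y b)
      (((u.2.sm i b x hx trivial).continuousAt hx))
      (((v.2.sm i b x hx trivial).continuousAt hx)) ((hs.nz i).ne x hx trivial)
      (Eventually.of_forall h1)
  · rw [u.2.off i x hx, v.2.off i x hx]

theorem mS2_injective (hs : IsNZ A gL univ s) :
    Function.Injective (mS2 (g' := gF) hs.z0) := by
  intro u v h
  apply Subtype.ext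
  funext i x
  by_cases hx : x ∈ (A.e i).source
  · have h1 : ∀ y, s i y * (u : A.ι → M → ℂ) i y = s i y * (v : A.ι → M → ℂ) i y := fun y =>
      congrFun (congrFun (congrArg Subtype.val h) i) y
    exact cancel (((u.2.sm i x hx trivial).continuousAt hx))
      (((v.2.sm i x hx trivial).continuousAt hx)) ((hs.nz i).ne x hx trivial)
      (Eventually.of_forall h1)
  · rw [u.2.off i x hx, v.2.off i x hx]

/-! ### the weighted link -/

variable [T2Space M]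

/-- helper238's weighted link for multiplication by `s` -/
theorem wlink (C : Cor A h K) (ct : CT A K h s) (hs : IsNZ A gL univ s) {Kc : Set M}
    (hz : ZIn A s Kc) (hL : IsLC A gL) (hF : IsLC A gF) (hE : IsLC A (gL * gF)) (hδ : 0 < δ) :
    WLink (D0 hF) (D1 hF) (D0 hE) (D1 hE) (mS0 (g' := gF) hs.z0) (mS1 (g' := gF) hs.z0)
      (mS2 (g' := gF) hs.z0) (GD0 A K h δ hδ gF) (GD1 A K h δ hδ gF) (GD2 A K h δ hδ gF)
      (GD0 A K h δ hδ (gL * gF)) (GD1 A K h δ hδ (gL * gF)) (GD2 A K h δ hδ (gL * gF)) := by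
  obtain ⟨ρ, hρ, hρc, -⟩ := exists_cut A hz.cpt hz.sub
  have hsm : ∀ i, ∀ x ∈ (A.e i).source, SmP A i (s i) x := fun i x hx => hs.z0.sm i x hx trivial
  have hρ0 : ∀ x ∉ tsupport ρ, ρ x = 0 := fun x hx => image_eq_zero_of_notMem_tsupport hx
  have hh : IsHol A s := isHol_of_isNZ hs
  refine
    { ee := D1_D0 hF
      dd := D1_D0 hE
      c0 := fun x => Subtype.ext (d0_sm_hol hs.z0 hh x.2)
      c1 := fun x => Subtype.ext (d1_sm1_hol hs.z0 hh x.2)
      i0 := mS0_injective hs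
      i1 := mS1_injective hs
      i2 := mS2_injective hs
      sU := isSub_GD C.sub hF
      sV := isSub_GD C.sub hE
      w0 := fun v => ?_, w1 := fun v => ?_, w2 := fun v => ?_
      r0 := fun y => ?_, r1 := fun y => ?_, r2 := fun y => ?_ }
  · constructor
    · rintro ⟨a, b, ha, ha', hb, hv⟩
      exact ⟨a, b, ha, ha', hb, ct.div C hsm (fun i x hx => v.2.sm i x hx trivial) hv⟩
    · rintro ⟨a, b, ha, ha', hb, hv⟩
      exact ⟨a, b, ha, ha', hb, ct.mul hv⟩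
  · constructor
    · rintro ⟨a, b, ha, ha', hb, hv⟩
      exact ⟨a, b, ha, ha', hb, fun k =>
        ct.div C hsm (fun i x hx => v.2.sm i k x hx trivial) (hv k)⟩
    · rintro ⟨a, b, ha, ha', hb, hv⟩
      exact ⟨a, b, ha, ha', hb, fun k => ct.mul (hv k)⟩
  · constructor
    · rintro ⟨a, b, ha, ha', hb, hv⟩
      exact ⟨a, b, ha, ha', hb, ct.div C hsm (fun i x hx => v.2.sm i x hx trivial) hv⟩
    · rintro ⟨a, b, ha, ha', hb, hv⟩
      exact ⟨a, b, ha, ha', hb, ct.mul hv⟩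
  · refine ⟨⟨_, isZ0_cq hL hs.z0 hρ y.2⟩, δ / 2, 1, by linarith, by linarith, one_pos, ?_⟩
    have e : ∀ i x, (y : A.ι → M → ℂ) i x - sm s (cq ρ s y) i x = ρ x * (y : A.ι → M → ℂ) i x :=
      fun i x => by rw [sm_cq hρ y.2.off]; ring
    refine bd_of_csupp C (fun i x hx => ?_) hρc (fun i x hx => ?_) _ _
    · exact (y.2.sm i x hx trivial).sub ((hs.z0.sm' (isZ0_cq hL hs.z0 hρ y.2)).sm i x hx trivial)
    · show (y : A.ι → M → ℂ) i x - sm s (cq ρ s y) i x = 0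
      rw [e, hρ0 x hx, zero_mul]
  · refine ⟨⟨_, isZ1_cq hL hs.z0 hρ y.2⟩, δ / 2, 1, by linarith, by linarith, one_pos, fun k => ?_⟩
    have e : ∀ i x, (y : A.ι → M → Fin 2 → ℂ) i x k - sm1 s (cq1 ρ s y) i x k =
        ρ x * (y : A.ι → M → Fin 2 → ℂ) i x k :=
      fun i x => by rw [sm1_cq hρ y.2.off]; ring
    refine bd_of_csupp C (fun i x hx => ?_) hρc (fun i x hx => ?_) _ _
    · exact (y.2.sm i k x hx trivial).sub
        ((hs.z0.sm1' (isZ1_cq hL hs.z0 hρ y.2)).sm i k x hx trivial)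
    · show (y : A.ι → M → Fin 2 → ℂ) i x k - sm1 s (cq1 ρ s y) i x k = 0
      rw [e, hρ0 x hx, zero_mul]
  · refine ⟨⟨_, isZ2_cq hL hs.z0 hρ y.2⟩, δ / 2, 1, by linarith, by linarith, one_pos, ?_⟩
    have e : ∀ i x, (y : A.ι → M → ℂ) i x - sm s (cq ρ s y) i x = ρ x * (y : A.ι → M → ℂ) i x :=
      fun i x => by rw [sm_cq hρ y.2.off]; ring
    refine bd_of_csupp C (fun i x hx => ?_) hρc (fun i x hx => ?_) _ _
    · exact (y.2.sm i x hx trivial).sub ((hs.z0.sm2' (isZ2_cq hL hs.z0 hρ y.2)).sm i x hx trivial)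
    · show (y : A.ι → M → ℂ) i x - sm s (cq ρ s y) i x = 0
      rw [e, hρ0 x hx, zero_mul]

/-- `χ(Q_s(L + F)) = χ(GD(L + F)) - χ(GD(F))` -/
theorem chi_link (C : Cor A h K) (ct : CT A K h s) (hs : IsNZ A gL univ s) {Kc : Set M}
    (hz : ZIn A s Kc) (hL : IsLC A gL) (hF : IsLC A gF) (hE : IsLC A (gL * gF)) (hδ : 0 < δ)
    (fF : FinW (isSub_GD (h := h) (hδ := hδ) C.sub hF))
    (fE : FinW (isSub_GD (h := h) (hδ := hδ) C.sub hE)) :
    FinS s gF hE ∧ chiS s gF hE = chiW (isSub_GD (h := h) (hδ := hδ) C.sub hE) -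
      chiW (isSub_GD (h := h) (hδ := hδ) C.sub hF) := by
  have h1 := (wlink C ct hs hz hL hF hE hδ).chi fF fE
  rw [range_mS0, range_mS1, range_mS2] at h1
  exact h1

end

noncomputable section

variable {Y : Type} [TopologicalSpace Y] {A : Atl 2 Y} {h : Y → ℝ} {K : A.ι → Set Y}
  {P : Subgroup (LB A)} {q : LB A → ℤ} {L : LB A} {σ : A.ι → Y → ℂ} {cs cl : ℂ}

/-- sections with limits at both ends are bounded on the charts -/
theorem bd_zero_of_lim (hs : σ ∈ VL h L) (h1 : LimS h σ cs) (h2 : LimL h σ cl) :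
    Bd A h (wgt 0 0) σ := by
  obtain ⟨T1, hT1⟩ := h1 1 one_pos
  obtain ⟨T2, hT2⟩ := h2 1 one_pos
  obtain ⟨C, hC0, hC⟩ := (hs.2 1 one_pos).exists_nonneg fun t => (wgt_pos 1 1 t).le
  obtain ⟨D, hD, hw⟩ := wgt_le_slab T1 T2 1 1 0 0
  refine ⟨max (max (‖cs‖ + 1) (‖cl‖ + 1)) (C * D), fun i x hx => ?_⟩
  rw [wgt_zero, mul_one]
  rcases lt_or_ge (h x) T1 with h3 | h3
  · refine le_trans ?_ ((le_max_left _ _).trans (le_max_left _ _))
    have h5 := hT1 i x hx h3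
    have h6 := norm_add_le (σ i x - cs) cs
    rw [sub_add_cancel] at h6
    linarith
  · rcases lt_or_ge T2 (h x) with h4 | h4
    · refine le_trans ?_ ((le_max_right _ _).trans (le_max_left _ _))
      have h5 := hT2 i x hx h4
      have h6 := norm_add_le (σ i x - cl) cl
      rw [sub_add_cancel] at h6
      linarith
    · refine le_trans ?_ (le_max_right _ _)
      have h5 := hw (h x) h3 h4
      rw [wgt_zero, mul_one] at h5
      exact (hC i x hx).trans (mul_le_mul_of_nonneg_left h5 hC0)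

/-- sections with non-zero limits at both ends -/
theorem ct_of_lim (up : BD A K h 0 0 σ) (hK : ∀ i, K i ⊆ (A.e i).source)
    (h1 : LimS h σ cs) (h2 : LimL h σ cl) (hcs : cs ≠ 0) (hcl : cl ≠ 0) : CT A K h σ := by
  obtain ⟨T1, hT1⟩ := h1 (‖cs‖ / 2) (by positivity)
  obtain ⟨T2, hT2⟩ := h2 (‖cl‖ / 2) (by positivity)
  refine ⟨up, min (‖cs‖ / 2) (‖cl‖ / 2), lt_min (by positivity) (by positivity),
    max |T1| |T2|, fun i x hx hT => ?_⟩
  rcases lt_or_ge (h x) 0 with h3 | h3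
  · rw [abs_of_neg h3] at hT
    have h4 : h x < T1 := by
      have := (le_max_left |T1| |T2|).trans_lt hT
      have := neg_abs_le T1
      linarith
    have h5 := hT1 i x (hK i hx) h4
    have h6 := norm_sub_norm_le cs (cs - σ i x)
    rw [sub_sub_cancel, norm_sub_rev cs (σ i x)] at h6
    exact (min_le_left _ _).trans (by linarith)
  · rw [abs_of_nonneg h3] at hT
    have h4 : T2 < h x := by
      have := (le_max_right |T1| |T2|).trans_lt hT
      have := le_abs_self T2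
      linarith
    have h5 := hT2 i x (hK i hx) h4
    have h6 := norm_sub_norm_le cl (cl - σ i x)
    rw [sub_sub_cancel, norm_sub_rev cl (σ i x)] at h6
    exact (min_le_right _ _).trans (by linarith)

/-- the same from helper197's uniform geometry -/
theorem ct_of_VL {Pt : Part A} (U : Wy5197.UG Pt h K) (hs : σ ∈ VL h L) (h1 : LimS h σ cs)
    (h2 : LimL h σ cl) (hcs : cs ≠ 0) (hcl : cl ≠ 0) : CT A K h σ :=
  ct_of_lim (Sec1197.bd_sec U hs.1 (bd_zero_of_lim hs h1 h2)) U.K_sub h1 h2 hcs hcl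

/-- the index theorem on `Y`, for all bundles of the group `P` -/
def Idx (A : Atl 2 Y) (K : A.ι → Set Y) (h : Y → ℝ) (P : Subgroup (LB A)) (q : LB A → ℤ)
    (hK : ∀ i, K i ⊆ (A.e i).source) (δ : ℝ) (hδ : 0 < δ) : Prop :=
  ∀ L ∈ P, FinW (isSub_GD (h := h) (hδ := hδ) hK (isLC_LB L)) ∧
    chiW (isSub_GD (h := h) (hδ := hδ) hK (isLC_LB L)) = q L

variable [ChartedSpace C2 Y] [IsManifold 𝓘(ℂ, C2) 1 Y] [Dv69.LocFact Y] [T2Space Y]
  [PreconnectedSpace Y]

/-- **LINK** -/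
theorem CSec.link (c : CSec h P L σ) (hA : Adm A) (C : Cor A h K) {δ : ℝ} {hδ : 0 < δ}
    (I : Idx A K h P q C.sub δ hδ) (ct : CT A K h σ) : Link P q L σ := by
  have key : ∀ F ∈ P, FinS σ F.g (isLC_LB (L * F)) ∧
      chiS σ F.g (isLC_LB (L * F)) = q (L * F) - q F := fun F hF => by
    have h1 := I F hF
    have h2 := I (L * F) (P.mul_mem c.mem hF)
    have h3 := chi_link (gL := L.g) (gF := F.g) C ct (c.nz hA) (c.zIn hA) (isLC_LB L) (isLC_LB F)
      (isLC_LB (L * F)) hδ h1.1 h2.1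
    exact ⟨h3.1, h3.2.trans (congrArg₂ (· - ·) h2.2 h1.2)⟩
  exact ⟨fun F hF => (key F hF).1, fun F hF => (key F hF).2⟩

end

end Crest.Agent.R275.QCons734
end

-- ▼ part R275/QConsD_734

/-!
# R275, block N (helper734): the final forms for sections 4 and 5

* `h1_zero` : `H¹(O_C) = 0` from `H²(L⁻¹) = 0` and `H¹(O) = 0` (raw classes);
* `TPre` : the fields of `TIn` needed for the link; `TPre.limS_ne`, `TPre.ct`, `TPre.links`;
* `n8i_of_links : Int495.N8i`, `n8ii_of_links : Int495.N8ii`, `inter_of_links`, `genus_of_links`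
  (the fields `inter`, `genus` of `TIn`).
-/

set_option autoImplicit false
set_option linter.unusedSectionVars false

open Set Filter Topology Complex
open scoped ContDiff ComplexConjugate Manifold

namespace Crest.Agent.R275.QCons734

open Crest.AlgGeometry.Surface Geo Fm96 Core144 Q74 Cnt508 N5238 St3686 Sol352 FmExt861

noncomputable section

/-! ### `H¹(O_C) = 0` -/

section raw

variable {M : Type} [TopologicalSpace M] [T2Space M] {A : Atl 2 M} {s : A.ι → M → ℂ}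
  {gL gF : A.ι → A.ι → M → ℂ}

/-- `H¹(Q_s(L + F)) = 0` -/
theorem h1_top (hL : IsLC A gL) (hF : IsLC A gF) (hE : IsLC A (gL * gF))
    (hs : IsNZ A gL univ s) {Kc : Set M} (hz : ZIn A s Kc)
    (G : (A.ι → M → Fin 2 → ℂ) → Prop)
    (S2 : ∀ η, IsZ2 A gF univ η → CSupp η → ∃ b, IsZ1 A gF univ b ∧ G b ∧
      ∀ i x, d1 A b i x = η i x)
    (S1 : ∀ u, IsZ1 A (gL * gF) univ u → CSupp u → ∀ b, IsZ1 A gF univ b → G b →
      (∀ i x, d1 A (u - sm1 s b) i x = 0) →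
      ∃ f, IsZ0 A (gL * gF) univ f ∧ ∀ i x, d0 A f i x = (u - sm1 s b) i x) :
    (SA2 s gF (gL * gF)).comap (D1 hE) ≤ SA1 s gF (gL * gF) ⊔ LinearMap.range (D0 hE) := by
  obtain ⟨ρ, hρ, hρc, -⟩ := exists_cut A hz.cpt hz.sub
  have hh : IsHol A s := isHol_of_isNZ hs
  rintro ⟨y, hy⟩ ⟨η, hη, e⟩
  have e : d1 A y = sm s η := e
  -- the quotient
  have hw : IsZ1 A gF univ (cq1 ρ s y) := isZ1_cq hL hs.z0 hρ hy
  set w := cq1 ρ s y with hwdef
  set u : A.ι → M → Fin 2 → ℂ := y - sm1 s w with hudef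
  have hu : IsZ1 A (gL * gF) univ u := IsZ1.sub hy (hs.z0.sm1' hw)
  have hu0 : ∀ i, ∀ x ∉ tsupport ρ, u i x = 0 := fun i x hx => by
    funext k
    show y i x k - sm1 s (cq1 ρ s y) i x k = 0
    rw [sm1_cq hρ hy.off, image_eq_zero_of_notMem_tsupport hx]; ring
  -- the compactly supported `(0,2)`-form
  set η' : A.ι → M → ℂ := η - d1 A w with hη'def
  have hη' : IsZ2 A gF univ η' := IsZ2.sub hη (d1_mem hF isOpen_univ hw)
  have hud : d1 A u = sm s η' := by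
    funext i x
    have h1 : d1 A (y - sm1 s w) i x = d1 A y i x - d1 A (sm1 s w) i x :=
      d1_sub hy (hs.z0.sm1' hw) i trivial
    rw [hudef, h1, e, d1_sm1_hol hs.z0 hh hw]
    simp only [sm, hη'def, Pi.sub_apply]
    ring
  have hη0 : ∀ i, ∀ x ∉ tsupport ρ, η' i x = 0 := by
    intro i x hx
    by_cases hxs : x ∈ (A.e i).source
    · have h1 : ∀ᶠ y in 𝓝 x, s i y * η' i y = s i y * 0 := by
        have ho : IsOpen (tsupport ρ)ᶜ := (isClosed_tsupport ρ).isOpen_compl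
        filter_upwards [ho.mem_nhds hx] with z hz
        rw [mul_zero]
        have h2 : d1 A u i z = 0 := by
          have h3 : u i =ᶠ[𝓝 z] (0 : A.ι → M → Fin 2 → ℂ) i := by
            filter_upwards [ho.mem_nhds hz] with z' hz'
            rw [hu0 i z' hz']; rfl
          rw [d1_congr h3]
          by_cases hzs : z ∈ (A.e i).source
          · rw [d1_of_mem hzs]
            simp only [Pi.zero_apply]
            rw [show (fun _ : M => (0 : ℂ)) = fun _ => 0 from rfl, db_constP, db_constP, sub_zero]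
          · exact d1_of_not_mem hzs
        rw [hud] at h2
        exact h2
      exact cancel (s := s i) (u := η' i) (v := fun _ => 0)
        ((hη'.sm i x hxs trivial).continuousAt hxs) continuousAt_const
        ((hs.nz i).ne x hxs trivial) h1
    · exact hη'.off i x hxs
  obtain ⟨b, hb, hGb, hbd⟩ := S2 η' hη' ⟨tsupport ρ, hρc, hη0⟩
  obtain ⟨f, hf, hfd⟩ := S1 u hu ⟨tsupport ρ, hρc, hu0⟩ b hb hGb (fun i x => by
    have h1 : d1 A (u - sm1 s b) i x = d1 A u i x - d1 A (sm1 s b) i x :=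
      d1_sub hu (hs.z0.sm1' hb) i trivial
    rw [h1, hud, d1_sm1_hol hs.z0 hh hb]
    simp only [sm]
    rw [hbd, sub_self])
  refine Submodule.mem_sup.2 ⟨⟨sm1 s (w + b), hs.z0.sm1' (hw.add hb)⟩, ⟨_, hw.add hb, rfl⟩,
    D0 hE ⟨f, hf⟩, ⟨_, rfl⟩, ?_⟩
  apply Subtype.ext
  funext i x k
  show s i x * (w i x k + b i x k) + d0 A f i x k = y i x k
  rw [hfd i x]
  simp only [hudef, Pi.sub_apply, sm1]
  ring

theorem h1_finrank (hL : IsLC A gL) (hF : IsLC A gF) (hE : IsLC A (gL * gF))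
    (hs : IsNZ A gL univ s) {Kc : Set M} (hz : ZIn A s Kc)
    (G : (A.ι → M → Fin 2 → ℂ) → Prop)
    (S2 : ∀ η, IsZ2 A gF univ η → CSupp η → ∃ b, IsZ1 A gF univ b ∧ G b ∧
      ∀ i x, d1 A b i x = η i x)
    (S1 : ∀ u, IsZ1 A (gL * gF) univ u → CSupp u → ∀ b, IsZ1 A gF univ b → G b →
      (∀ i x, d1 A (u - sm1 s b) i x = 0) →
      ∃ f, IsZ0 A (gL * gF) univ f ∧ ∀ i x, d0 A f i x = (u - sm1 s b) i x) :
    Module.finrank ℂ (H1 (D0 hE) (D1 hE) (SA1 s gF (gL * gF)) (SA2 s gF (gL * gF))) = 0 := by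
  have h : Subsingleton (H1 (D0 hE) (D1 hE) (SA1 s gF (gL * gF)) (SA2 s gF (gL * gF))) :=
    hq_subsingleton (h1_top hL hF hE hs hz G S2 S1)
  exact Module.finrank_zero_of_subsingleton

end raw

/-! ### over `LB A` -/

open GeoP572
open Dv69 (EffDiv)

variable {Y : Type} [TopologicalSpace Y] {A : Atl 2 Y} {h : Y → ℝ} {K : A.ι → Set Y}
  {P : Subgroup (LB A)} {q : LB A → ℤ} {L : LB A} {σ : A.ι → Y → ℂ}
variable [ChartedSpace C2 Y] [IsManifold 𝓘(ℂ, C2) 1 Y] [Dv69.LocFact Y] [T2Space Y]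
  [PreconnectedSpace Y]

/-- **`H¹(O_C) = 0`** from `H²(L⁻¹) = 0` and `H¹(O) = 0` in weighted classes -/
theorem CSec.h1_zero (c : CSec h P L σ) (hA : Adm A) (C : Cor A h K) (ct : CT A K h σ)
    {a b a' b' a'' b'' : ℝ} (S2 : SolZ2 A K h L⁻¹ a b a' b')
    (S1 : SolZ1 A K h (1 : LB A) a' b' a'' b'') :
    Module.finrank ℂ (H1 (D0 (isLC_LB (1 : LB A))) (D1 (isLC_LB (1 : LB A)))
      (SA1 σ (L⁻¹).g (1 : LB A).g) (SA2 σ (L⁻¹).g (1 : LB A).g)) = 0 := by
  have key : ∀ E : LB A, L * L⁻¹ = E → SolZ1 A K h E a' b' a'' b'' →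
      Module.finrank ℂ (H1 (D0 (isLC_LB E)) (D1 (isLC_LB E))
        (SA1 σ (L⁻¹).g E.g) (SA2 σ (L⁻¹).g E.g)) = 0 := by
    rintro _ rfl S1
    refine h1_finrank (isLC_LB L) (isLC_LB L⁻¹) (isLC_LB (L * L⁻¹)) (c.nz hA) (c.zIn hA)
      (fun b => BD1 A K h a' b' b) (fun η hη hc => ?_) fun u hu huc b hb hGb hd => ?_
    · obtain ⟨K0, hK0, h0⟩ := hc
      obtain ⟨β, h1, h2, h3⟩ := S2 η hη
        (bd_of_csupp C (fun i x hx => hη.sm i x hx trivial) hK0 h0 a b)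
      exact ⟨β, h1, h2, h3⟩
    · obtain ⟨K0, hK0, h0⟩ := huc
      obtain ⟨f, h1, -, h2⟩ := S1 (u - sm1 σ b) (hu.sub ((c.nz hA).z0.sm1' hb)) (fun k => by
        refine BD.sub (bd_of_csupp C (fun i x hx => hu.sm i k x hx trivial) hK0
          (fun i x hx => by rw [h0 i x hx]; rfl) a' b') ?_
        exact ct.mul (hGb k)) hd
      exact ⟨f, h1, h2⟩
  exact key 1 (mul_inv_cancel L) S1

/-- the link for all sections with compact divisor -/
def Links (A : Atl 2 Y) (h : Y → ℝ) (P : Subgroup (LB A)) (q : LB A → ℤ) : Prop :=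
  ∀ L ∈ P, ∀ σ ∈ VL h L, σ ≠ 0 → IsCompact (dvs A σ).supp → Link P q L σ

/-- **the field `inter` of `TIn`** (D8) -/
theorem inter_of_links (hA : Adm A) (Pt : Part A) (H : Quad P q) (k : Links A h P q) :
    ∀ C : EffDiv Y, Dv69.Mon.IsPr C → IsCompact C.supp → ∀ L ∈ P, ∀ σ ∈ VL h L, σ ≠ 0 →
    dvs A σ = C → ∀ C' : EffDiv Y, Dv69.Mon.IsPr C' → IsCompact C'.supp → C ≠ C' → ∀ L' ∈ P,
    ∀ σ' ∈ VL h L', σ' ≠ 0 → dvs A σ' = C' → 0 ≤ bq q L L' := by
  rintro _ hC hCc L hL σ hσ hσ0 rfl _ hC' _ hne L' hL' σ' hσ' hσ0' rfl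
  exact CSec.inter ⟨hL, hσ, hσ0, hCc⟩ hA Pt (k L hL σ hσ hσ0 hCc) H.q_one hL' hσ'.1 hσ0'
    (hC.inf_of_ne hC' hne)

/-- **the field `genus` of `TIn`** (D9) -/
theorem genus_of_links (hA : Adm A) (Pt : Part A) (C : Cor A h K) (H : Quad P q)
    (k : Links A h P q)
    (ct : ∀ L ∈ P, ∀ σ ∈ VL h L, σ ≠ 0 → IsCompact (dvs A σ).supp → CT A K h σ)
    {a b a' b' a'' b'' : ℝ} (S2 : ∀ L ∈ P, SolZ2 A K h L a b a' b')
    (S1 : SolZ1 A K h (1 : LB A) a' b' a'' b'') :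
    ∀ C : EffDiv Y, Dv69.Mon.IsPr C → IsCompact C.supp → ∀ L ∈ P, ∀ σ ∈ VL h L, σ ≠ 0 →
    dvs A σ = C → q L⁻¹ = -1 := by
  rintro _ hC hCc L hL σ hσ hσ0 rfl
  have c : CSec h P L σ := ⟨hL, hσ, hσ0, hCc⟩
  exact c.genus hA Pt (k L hL σ hσ hσ0 hCc) H.q_one hC
    (c.h1_zero hA C (ct L hL σ hσ hσ0 hCc) (S2 _ (P.inv_mem hL)) S1)

/-- **N8i** of helper95 -/
theorem n8i_of_links (hA : Adm A) (Pt : Part A) (H : Quad P q) (k : Links A h P q) :
    Int495.N8i A h P q := by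
  intro C L hL L' hL' σ hσ hσ0 hd σ' hσ' hσ0' hle
  have hC : Dv69.Mon.IsPr (dvs A σ) := hd ▸ C.2.1
  have hCc : IsCompact (dvs A σ).supp := hd ▸ C.2.2
  rw [← hd] at hle ⊢
  have c : CSec h P L σ := ⟨hL, hσ, hσ0, hCc⟩
  exact ⟨fun h0 => c.disj_of_prime hA Pt (k L hL σ hσ hσ0 hCc) H.q_one hC hL' hσ'.1 hσ0' hle h0,
    fun h0 => c.point_of_prime hA Pt (k L hL σ hσ hσ0 hCc) H.q_one hC hL' hσ'.1 hσ0' hle h0⟩

/-- **N8ii** of helper95 -/
theorem n8ii_of_links (hA : Adm A) (Pt : Part A) (H : Quad P q) (k : Links A h P q)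
    (hg : ∀ C : EffDiv Y, Dv69.Mon.IsPr C → IsCompact C.supp → ∀ L ∈ P, ∀ σ ∈ VL h L, σ ≠ 0 →
      dvs A σ = C → q L⁻¹ = -1) : Int495.N8ii A h P q := by
  intro C L hL σ hσ hσ0 hd M hM h0
  have hC : Dv69.Mon.IsPr (dvs A σ) := hd ▸ C.2.1
  have hCc : IsCompact (dvs A σ).supp := hd ▸ C.2.2
  rw [← hd]
  have c : CSec h P L σ := ⟨hL, hσ, hσ0, hCc⟩
  exact c.curveData hA Pt (k L hL σ hσ hσ0 hCc) H hC (hg _ hC hCc L hL σ hσ hσ0 rfl) hM h0

/-! ### the limits of sections with compact divisor -/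

/-- the fields of `TIn` used for the link (no `genus`, `nef`, `inter`) -/
structure TPre (A : Atl 2 Y) (h : Y → ℝ) (γ : Y ≃ₜ Y) (P : Subgroup (LB A)) : Prop where
  adm : Adm A
  deck : HolY631.Deck γ h
  bdg : ∀ L ∈ P, BR4672.BdG L
  /-- limits at the large end are nonzero -/
  lim : ∀ L ∈ P, ∀ σ ∈ VL h L, σ ≠ 0 → ∃ c : ℂ, c ≠ 0 ∧ LimL (A := A) h σ c
  /-- limits at the small end exist -/
  limS : S5In95.HasS (A := A) h P
  /-- sections without zeros -/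
  triv : ∀ L ∈ P, ∀ σ ∈ VL h L, (∀ i, ∀ x ∈ (A.e i).source, σ i x ≠ 0) → L ∈ TG A h
  odiv : ∀ D : EffDiv Y, IsCompact D.supp → ∃ L ∈ P, ∃ σ ∈ VL h L, σ ≠ 0 ∧ dvs A σ = D ∧
    BR4672.LowE A h σ

/-- the field `triv` from `lat` and `loc` -/
theorem triv_of_loc {B : Type*} [DecidableEq B] [Nonempty Y] {E : B → LB A} {lev : B → ℤ}
    (H : Lat P (TG A h) E q)
    (hloc : ∃ W : ℝ, ∀ β, ∀ L ∈ P, ∀ σ ∈ VL h L, σ ≠ 0 → ∀ T : ℝ,
      (∀ i, ∀ x ∈ (A.e i).source, T < h x → σ i x ≠ 0) → T + W ≤ -(lev β : ℝ) →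
      bq q L (E β) = 0) :
    ∀ L ∈ P, ∀ σ ∈ VL h L, (∀ i, ∀ x ∈ (A.e i).source, σ i x ≠ 0) → L ∈ TG A h := by
  intro L hL σ hσ h0
  have hσ0 : σ ≠ 0 := ne_zero_of_nowhere h0
  obtain ⟨W, hW⟩ := hloc
  have hc : cls P (TG A h) E L = cls P (TG A h) E 1 := by
    rw [H.cls_one]
    ext β
    rw [H.cls_apply hL,
      hW β L hL σ hσ hσ0 (-(lev β) - W) (fun i x hx _ => h0 i x hx) (by linarith)]
    simp
  have := H.mem_of_cls_eq P.one_mem hL hc
  rwa [inv_one, mul_one] at this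

namespace TPre

variable {γ : Y ≃ₜ Y} [Nonempty Y] (H : TPre A h γ P)
include H

theorem unbdd (T : ℝ) : ∃ y : Y, T < h y := by
  obtain ⟨y⟩ := ‹Nonempty Y›
  have h1 : ∀ n : ℕ, ∀ z : Y, ∃ w, h w = h z + n := by
    intro n
    induction n with
    | zero => intro z; exact ⟨z, by simp⟩
    | succ n ih =>
      intro z
      obtain ⟨w, hw⟩ := ih z
      refine ⟨γ.symm w, ?_⟩
      rw [H.deck.shift_symm, hw]; push_cast; ring
  obtain ⟨n, hn⟩ := exists_nat_gt (T - h y)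
  obtain ⟨w, hw⟩ := h1 n y
  exact ⟨w, by rw [hw]; linarith⟩

theorem unbdd_below (T : ℝ) : ∃ y : Y, h y < T := by
  obtain ⟨y⟩ := ‹Nonempty Y›
  obtain ⟨n, hn⟩ := exists_nat_gt (h y - T)
  refine ⟨(γ ^ (n : ℤ)) y, ?_⟩
  rw [H.deck.shift_zpow]
  push_cast
  linarith

theorem dim1 : ∀ L ∈ P, ∀ σ ∈ VL h L, ∀ τ ∈ VL h L, τ ≠ 0 → ∃ c : ℂ, σ = c • τ := by
  intro L hL σ hσ τ hτ hτ0
  refine BR4672.exists_smul_eq (L := L) (h := h) ?_ ?_ hτ hτ0 hσ
  · intro t ht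
    by_cases h0 : t = 0
    · refine ⟨0, ?_⟩
      rw [h0]
      exact fun ε hε => ⟨0, fun i x _ _ => by simpa using hε⟩
    · obtain ⟨c, _, hc⟩ := H.lim L hL t ht h0
      exact ⟨c, hc⟩
  · intro t ht h1
    by_contra h0
    obtain ⟨c, hc0, hc⟩ := H.lim L hL t ht h0
    exact hc0 (BR4672.LimL.unique H.unbdd hc h1)

theorem quot_low {L L' : LB A} (hL : L ∈ P) (hL' : L' ∈ P) {σ τ : A.ι → Y → ℂ}
    (hσ : σ ∈ VL h L) (hσ0 : σ ≠ 0) (hlow : BR4672.LowE A h σ) (hτ : τ ∈ VL h L') (hτ0 : τ ≠ 0)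
    (hle : dvs A σ ≤ dvs A τ) : ∃ w ∈ VL h (L' * L⁻¹), τ = σ * w := by
  obtain ⟨k, hk, e, -, -⟩ := BR4672.exists_quot_VL H.deck H.adm (H.bdg L hL) (H.bdg L' hL') hσ.1
    (BR4672.nz_of_ne H.adm hσ.1 hσ0) hlow hτ (BR4672.nz_of_ne H.adm hτ.1 hτ0) hle
  exact ⟨k, hk, e⟩

theorem ne_of_low {σ : A.ι → Y → ℂ} (hl : BR4672.LowE A h σ) {c : ℂ} (hc : LimS h σ c) :
    c ≠ 0 := by
  rintro rfl
  obtain ⟨T, δ, hδ, hT⟩ := hl
  obtain ⟨T', hT'⟩ := hc δ hδ
  obtain ⟨y, hy⟩ := H.unbdd_below (min T' (-|T|))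
  obtain ⟨i, hi⟩ := A.cover y
  have h1 := hT' i y hi (hy.trans_le (min_le_left _ _))
  have h2 : h y < -|T| := hy.trans_le (min_le_right _ _)
  have h3 : T < |h y| := by
    have h5 : -h y ≤ |h y| := neg_le_abs (h y)
    have h6 := le_abs_self T
    linarith
  have h5 := hT i y hi h3
  rw [sub_zero] at h1
  linarith

/-- a section with compact divisor has nonzero limit at the small end -/
theorem limS_ne {L : LB A} (hL : L ∈ P) {σ : A.ι → Y → ℂ} (hσ : σ ∈ VL h L)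
    (h0 : σ ≠ 0) (hc : IsCompact (dvs A σ).supp) {c : ℂ} (hlim : LimS h σ c) : c ≠ 0 := by
  obtain ⟨M, hM, μ, hμ, hμ0, hμd, hlow⟩ := H.odiv _ hc
  obtain ⟨v, hv, e'⟩ := H.quot_low hM hL hμ hμ0 hlow hσ h0 hμd.le
  have hv0 : v ≠ 0 := by rintro rfl; rw [mul_zero] at e'; exact h0 e'
  have h1 : dvs A v = 0 := by
    have := dvs_mul H.adm hμ.1 hμ0 hv.1 hv0
    rw [← e', hμd] at this
    exact (left_eq_add.1 this)
  have h2 := (dvs_eq_zero_iff H.adm hv.1 hv0).1 h1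
  have hP' := P.mul_mem hL (P.inv_mem hM)
  obtain ⟨u, hu, hu0, hu'⟩ := H.triv _ hP' v hv h2
  obtain ⟨a, ha⟩ := H.dim1 _ hP' v hv u hu (ne_zero_of_nowhere hu0)
  have ha0 : a ≠ 0 := by rintro rfl; rw [zero_smul] at ha; exact hv0 ha
  obtain ⟨b, hb⟩ := H.limS _ hP' u hu
  obtain ⟨b', hb'⟩ := H.limS _ (P.inv_mem hP') _ hu'
  obtain ⟨m, hm⟩ := H.limS M hM μ hμ
  have hm0 := H.ne_of_low hlow hm
  have huu : u * u⁻¹ = oneS A := by
    ext i x
    by_cases hx : x ∈ (A.e i).source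
    · simp [oneS, hx, hu0 i x hx]
    · simp [oneS, hx, hu.1.off i x hx]
  have hb0 : b ≠ 0 := by
    rintro rfl
    have h3 := LimS.mul hb hb'
    rw [huu, zero_mul] at h3
    exact zero_ne_one (BR4672.LimS.unique H.unbdd_below h3 BR4672.limS_const_one)
  have h4 : LimS h σ (m * (a * b)) := by
    rw [e', ha]
    exact LimS.mul hm (BR4672.LimS.smul a hb)
  rw [BR4672.LimS.unique H.unbdd_below hlim h4]
  exact mul_ne_zero hm0 (mul_ne_zero ha0 hb0)

/-- sections with compact divisor are of compact type -/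
theorem ct {Pt : Part A} (U : Wy5197.UG Pt h K) :
    ∀ L ∈ P, ∀ σ ∈ VL h L, σ ≠ 0 → IsCompact (dvs A σ).supp → CT A K h σ := by
  intro L hL σ hσ h0 hc
  obtain ⟨c, hc0, hl⟩ := H.lim L hL σ hσ h0
  obtain ⟨c', hs⟩ := H.limS L hL σ hσ
  exact ct_of_VL U hσ hs hl (H.limS_ne hL hσ h0 hc hs) hc0

/-- **LINKS** -/
theorem links {Pt : Part A} (U : Wy5197.UG Pt h K) (C : Cor A h K) {δ : ℝ} {hδ : 0 < δ}
    (I : Idx A K h P q C.sub δ hδ) : Links A h P q := fun L hL σ hσ h0 hc =>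
  CSec.link ⟨hL, hσ, h0, hc⟩ H.adm C I (H.ct U L hL σ hσ h0 hc)

end TPre

end

end Crest.Agent.R275.QCons734
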