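import Mathlib
import Crest.Agent.R080.Cauchy
import Crest.Agent.R266.SCV
import Crest.Prelude.Def_ComplexSurface
import Crest.Agent.R275.TbDefs_78

-- ▼ part R275/Tb1_78
section

/-!
R275 (S0418), F7-XY (helper78): the additive Cousin problem with a parameter, in the sup norm and
without loss of domain.  `S = A ∩ B` bounded, `χ` a smooth function which is `0` near `A \ B` and `1`
near `B \ A`.  Operators `TA f`, `TB f` on bounded holomorphic functions of `S × D`: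
`TB f - TA f = f`, `TA f` holomorphic on `A × D`, `TB f` on `B × D`, bounded by a constant.
-/

set_option autoImplicit false
set_option linter.unusedSectionVars false

open Set Filter Topology Metric MeasureTheory
open scoped ContDiff

noncomputable section

namespace Crest.Agent.R275.Tb1

open Crest.Agent.R080.CauchyP (kc measurable_kc integrableOn_kc cauchyP hasFDerivAt_cauchyP
  Dp_cauchyP)
open Crest.Agent.R080 (Dp)

/-- Cauchy transform in one variable -/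
def ct (g : ℂ → ℂ) (t : ℂ) : ℂ := ∫ z, kc z * g (t - z)

/-- the bound of the kernel -/
def kb (R : ℝ) : ℝ := ∫ z in closedBall (0 : ℂ) (2 * R), ‖kc z‖

lemma kb_nonneg (R : ℝ) : 0 ≤ kb R := integral_nonneg fun _ => norm_nonneg _

lemma integrable_kb (R c : ℝ) :
    Integrable (fun z : ℂ => (closedBall (0 : ℂ) (2 * R)).indicator (fun z => ‖kc z‖) z * c) := by
  apply Integrable.mul_const
  rw [integrable_indicator_iff measurableSet_closedBall]
  exact (integrableOn_kc _).norm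

lemma kernel_le {g : ℂ → ℂ} {R c : ℝ} (hg : ∀ z, ‖g z‖ ≤ c) (hR : ∀ z, R < ‖z‖ → g z = 0)
    {t : ℂ} (ht : ‖t‖ ≤ R) (z : ℂ) :
    ‖kc z * g (t - z)‖ ≤ (closedBall (0 : ℂ) (2 * R)).indicator (fun z => ‖kc z‖) z * c := by
  by_cases hz : z ∈ closedBall (0 : ℂ) (2 * R)
  · rw [indicator_of_mem hz, norm_mul]
    exact mul_le_mul_of_nonneg_left (hg _) (norm_nonneg _)
  · rw [indicator_of_notMem hz, hR (t - z)]
    · simp
    · rw [mem_closedBall_zero_iff, not_le] at hz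
      have := norm_sub_norm_le z t
      rw [norm_sub_rev] at this
      linarith

lemma norm_ct_le {g : ℂ → ℂ} {R c : ℝ} (hg : ∀ z, ‖g z‖ ≤ c) (hR : ∀ z, R < ‖z‖ → g z = 0)
    {t : ℂ} (ht : ‖t‖ ≤ R) : ‖ct g t‖ ≤ kb R * c := by
  unfold ct kb
  rw [← integral_indicator measurableSet_closedBall, ← integral_mul_const]
  exact norm_integral_le_of_norm_le (integrable_kb R c) (.of_forall fun z => kernel_le hg hR ht z)

lemma integrable_ct {g : ℂ → ℂ} {R c : ℝ} (hm : AEStronglyMeasurable g) (hg : ∀ z, ‖g z‖ ≤ c)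
    (hR : ∀ z, R < ‖z‖ → g z = 0) {t : ℂ} (ht : ‖t‖ ≤ R) :
    Integrable (fun z => kc z * g (t - z)) := by
  refine (integrable_kb R c).mono' ?_ (.of_forall fun z => kernel_le hg hR ht z)
  refine measurable_kc.aestronglyMeasurable.mul ?_
  exact hm.comp_quasiMeasurePreserving
    (Measure.measurePreserving_sub_left volume t).quasiMeasurePreserving

lemma ct_sub {g₁ g₂ : ℂ → ℂ} {R c : ℝ} (hm₁ : AEStronglyMeasurable g₁)
    (hm₂ : AEStronglyMeasurable g₂) (hg₁ : ∀ z, ‖g₁ z‖ ≤ c) (hg₂ : ∀ z, ‖g₂ z‖ ≤ c)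
    (hR₁ : ∀ z, R < ‖z‖ → g₁ z = 0) (hR₂ : ∀ z, R < ‖z‖ → g₂ z = 0) {t : ℂ} (ht : ‖t‖ ≤ R) :
    ct (fun z => g₁ z - g₂ z) t = ct g₁ t - ct g₂ t := by
  unfold ct
  rw [← integral_sub (integrable_ct hm₁ hg₁ hR₁ ht) (integrable_ct hm₂ hg₂ hR₂ ht)]
  exact integral_congr_ae (.of_forall fun z => by ring)

lemma ct_add {g₁ g₂ : ℂ → ℂ} {R c : ℝ} (hm₁ : AEStronglyMeasurable g₁)
    (hm₂ : AEStronglyMeasurable g₂) (hg₁ : ∀ z, ‖g₁ z‖ ≤ c) (hg₂ : ∀ z, ‖g₂ z‖ ≤ c)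
    (hR₁ : ∀ z, R < ‖z‖ → g₁ z = 0) (hR₂ : ∀ z, R < ‖z‖ → g₂ z = 0) {t : ℂ} (ht : ‖t‖ ≤ R) :
    ct (fun z => g₁ z + g₂ z) t = ct g₁ t + ct g₂ t := by
  unfold ct
  rw [← integral_add (integrable_ct hm₁ hg₁ hR₁ ht) (integrable_ct hm₂ hg₂ hR₂ ht)]
  exact integral_congr_ae (.of_forall fun z => by ring)

/-- holomorphy of the Cauchy transform away from the support -/
lemma ct_far {g : ℂ → ℂ} {R c ρ : ℝ} (hm : AEStronglyMeasurable g) (hg : ∀ z, ‖g z‖ ≤ c)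
    (hR : ∀ z, R < ‖z‖ → g z = 0) (hρ : 0 < ρ) {t₀ : ℂ} (h0 : ∀ z ∈ ball t₀ ρ, g z = 0) :
    DifferentiableAt ℂ (ct g) t₀ := by
  have hc0 : 0 ≤ c := (norm_nonneg _).trans (hg 0)
  have hπ := Real.pi_pos
  have e : ct g = fun t => ∫ ζ, kc (t - ζ) * g ζ := by
    funext t
    unfold ct
    rw [← integral_sub_left_eq_self (fun ζ => kc (t - ζ) * g ζ) volume t]
    exact integral_congr_ae (.of_forall fun z => by simp)
  rw [e]
  let F' : ℂ → ℂ → ℂ := fun t ζ => -((2 * (Real.pi : ℂ))⁻¹ * ((t - ζ) ^ 2)⁻¹) * g ζ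
  let bound : ℂ → ℝ := fun ζ => (closedBall (0 : ℂ) R).indicator
    (fun _ => (2 * Real.pi)⁻¹ * ((ρ / 2) ^ 2)⁻¹ * c) ζ
  have hdist : ∀ t ∈ ball t₀ (ρ / 2), ∀ ζ, g ζ ≠ 0 → ρ / 2 ≤ ‖t - ζ‖ := by
    intro t ht ζ hζ
    by_contra h
    push Not at h
    apply hζ
    apply h0
    rw [mem_ball_iff_norm] at ht ⊢
    have : ζ - t₀ = (t - t₀) - (t - ζ) := by ring
    rw [this]
    refine (norm_sub_le _ _).trans_lt ?_
    linarith
  have hmk : ∀ t : ℂ, AEStronglyMeasurable (fun ζ => kc (t - ζ) * g ζ) volume := fun t =>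
    (measurable_kc.comp (measurable_const.sub measurable_id)).aestronglyMeasurable.mul hm
  have hkb : ∀ t ∈ ball t₀ (ρ / 2), ∀ ζ, ‖kc (t - ζ) * g ζ‖ ≤
      (closedBall (0 : ℂ) R).indicator (fun _ => (2 * Real.pi)⁻¹ * (ρ / 2)⁻¹ * c) ζ := by
    intro t ht ζ
    by_cases hz : g ζ = 0
    · rw [hz, mul_zero, norm_zero]
      apply indicator_nonneg
      intros; positivity
    · have h1 := hdist t ht ζ hz
      have h2 : ζ ∈ closedBall (0 : ℂ) R := by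
        rw [mem_closedBall_zero_iff]
        by_contra h
        exact hz (hR ζ (not_le.1 h))
      rw [indicator_of_mem h2, norm_mul]
      refine mul_le_mul ?_ (hg ζ) (norm_nonneg _) (by positivity)
      unfold kc
      rw [norm_inv, norm_mul, mul_inv]
      have h3 : ‖(2 * (Real.pi : ℂ))‖ = 2 * Real.pi := by
        rw [norm_mul, Complex.norm_real, Real.norm_of_nonneg hπ.le]; norm_num
      rw [h3]
      gcongr
  have hbd : ∀ t ∈ ball t₀ (ρ / 2), ∀ ζ, ‖F' t ζ‖ ≤ bound ζ := by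
    intro t ht ζ
    by_cases hz : g ζ = 0
    · simp only [F', hz, mul_zero, norm_zero, bound]
      apply indicator_nonneg
      intros; positivity
    · have h1 := hdist t ht ζ hz
      have h2 : ζ ∈ closedBall (0 : ℂ) R := by
        rw [mem_closedBall_zero_iff]
        by_contra h
        exact hz (hR ζ (not_le.1 h))
      simp only [F', bound]
      rw [indicator_of_mem h2, norm_mul, norm_neg, norm_mul]
      refine mul_le_mul ?_ (hg ζ) (norm_nonneg _) (by positivity)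
      have h3 : ‖((2 * (Real.pi : ℂ))⁻¹)‖ = (2 * Real.pi)⁻¹ := by
        rw [norm_inv, norm_mul, Complex.norm_real, Real.norm_of_nonneg hπ.le]; norm_num
      rw [h3, norm_inv, norm_pow]
      gcongr
  have hint : ∀ C : ℝ, Integrable ((closedBall (0 : ℂ) R).indicator (fun _ => C)) := by
    intro C
    rw [integrable_indicator_iff measurableSet_closedBall]
    exact integrableOn_const (measure_closedBall_lt_top.ne)
  have hρ2 : (0 : ℝ) < ρ / 2 := by positivity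
  have key := hasDerivAt_integral_of_dominated_loc_of_deriv_le (μ := volume)
    (F := fun t ζ => kc (t - ζ) * g ζ) (F' := F') (x₀ := t₀) (s := ball t₀ (ρ / 2))
    (bound := bound) (ball_mem_nhds t₀ hρ2) (.of_forall hmk)
    ((hint _).mono' (hmk t₀) (.of_forall (hkb t₀ (mem_ball_self hρ2))))
    (by
      have : Measurable (fun ζ : ℂ => -((2 * (Real.pi : ℂ))⁻¹ * ((t₀ - ζ) ^ 2)⁻¹)) := by fun_prop
      exact this.aestronglyMeasurable.mul hm)
    (.of_forall fun ζ t ht => hbd t ht ζ) (hint _)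
    (.of_forall fun ζ t ht => by
      by_cases hz : g ζ = 0
      · simp only [F', hz, mul_zero]
        exact hasDerivAt_const _ _
      · have h1 := hdist t ht ζ hz
        have h2 : t - ζ ≠ 0 := by
          intro h
          rw [h, norm_zero] at h1
          linarith
        have h3 : HasDerivAt (fun t : ℂ => (2 * (Real.pi : ℂ) * (t - ζ))⁻¹)
            (-((2 * (Real.pi : ℂ))⁻¹ * ((t - ζ) ^ 2)⁻¹)) t := by
          have h4 : HasDerivAt (fun t : ℂ => 2 * (Real.pi : ℂ) * (t - ζ)) (2 * (Real.pi : ℂ)) t := by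
            simpa using ((hasDerivAt_id t).sub_const ζ).const_mul (2 * (Real.pi : ℂ))
          have h5 : 2 * (Real.pi : ℂ) * (t - ζ) ≠ 0 := by
            have : (Real.pi : ℂ) ≠ 0 := by exact_mod_cast hπ.ne'
            simp [h2, this]
          have hp : (Real.pi : ℂ) ≠ 0 := by exact_mod_cast hπ.ne'
          have h6 := h4.fun_inv h5
          have h7 : -(2 * (Real.pi : ℂ)) / (2 * (Real.pi : ℂ) * (t - ζ)) ^ 2 =
              -((2 * (Real.pi : ℂ))⁻¹ * ((t - ζ) ^ 2)⁻¹) := by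
            field_simp
          rwa [h7] at h6
        exact h3.mul_const (g ζ))
  exact key.2.differentiableAt

/-- the Cauchy transform solves the `∂̄`-equation where the datum is smooth -/
lemma ct_local {g : ℂ → ℂ} {R c : ℝ} (hm : AEStronglyMeasurable g) (hg : ∀ z, ‖g z‖ ≤ c)
    (hR : ∀ z, R < ‖z‖ → g z = 0) {O : Set ℂ} (hO : IsOpen O) (hgO : ContDiffOn ℝ 1 g O)
    {t₀ : ℂ} (ht₀ : t₀ ∈ O) (ht₀R : ‖t₀‖ < R) :
    DifferentiableAt ℝ (ct g) t₀ ∧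
      fderiv ℝ (ct g) t₀ 1 + Complex.I * fderiv ℝ (ct g) t₀ Complex.I = g t₀ := by
  obtain ⟨ρ, hρ, hρO⟩ := Metric.isOpen_iff.1 hO t₀ ht₀
  let θ : ContDiffBump t₀ := ⟨ρ / 4, ρ / 2, by positivity, by linarith⟩
  have hθO : closedBall t₀ (ρ / 2) ⊆ O := (closedBall_subset_ball (by linarith)).trans hρO
  have hc0 : 0 ≤ c := (norm_nonneg _).trans (hg 0)
  let g₁ : ℂ → ℂ := fun z => (θ z : ℂ) * g z
  let g₂ : ℂ → ℂ := fun z => ((1 - θ z : ℝ) : ℂ) * g z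
  have hsum : ∀ z, g₁ z + g₂ z = g z := by
    intro z
    simp only [g₁, g₂]
    push_cast
    ring
  have hθm : Measurable fun z => θ z := θ.continuous.measurable
  have hm₁ : AEStronglyMeasurable g₁ :=
    (Complex.measurable_ofReal.comp hθm).aestronglyMeasurable.mul hm
  have hm₂ : AEStronglyMeasurable g₂ :=
    (Complex.measurable_ofReal.comp (measurable_const.sub hθm)).aestronglyMeasurable.mul hm
  have hg₁ : ∀ z, ‖g₁ z‖ ≤ c := by
    intro z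
    simp only [g₁]
    rw [norm_mul, Complex.norm_real, Real.norm_of_nonneg θ.nonneg]
    calc θ z * ‖g z‖ ≤ 1 * c := mul_le_mul θ.le_one (hg z) (norm_nonneg _) zero_le_one
      _ = c := one_mul c
  have hg₂ : ∀ z, ‖g₂ z‖ ≤ c := by
    intro z
    simp only [g₂]
    rw [norm_mul, Complex.norm_real, Real.norm_of_nonneg (by linarith [θ.le_one (x := z)])]
    calc (1 - θ z) * ‖g z‖ ≤ 1 * c :=
          mul_le_mul (by linarith [θ.nonneg (x := z)]) (hg z) (norm_nonneg _) zero_le_one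
      _ = c := one_mul c
  have hR₁ : ∀ z, R < ‖z‖ → g₁ z = 0 := fun z hz => by simp only [g₁]; rw [hR z hz, mul_zero]
  have hR₂ : ∀ z, R < ‖z‖ → g₂ z = 0 := fun z hz => by simp only [g₂]; rw [hR z hz, mul_zero]
  -- the near part
  have hg₁s : ContDiff ℝ 1 g₁ := by
    rw [contDiff_iff_contDiffAt]
    intro x
    by_cases hx : x ∈ O
    · refine ContDiffAt.mul ?_ ((hgO x hx).contDiffAt (hO.mem_nhds hx))
      exact (Complex.ofRealCLM.contDiff.comp (θ.contDiff (n := 1))).contDiffAt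
    · have hx' : x ∉ closedBall t₀ (ρ / 2) := fun h => hx (hθO h)
      have : g₁ =ᶠ[𝓝 x] fun _ => 0 := by
        filter_upwards [isClosed_closedBall.isOpen_compl.mem_nhds hx'] with y hy
        have : θ y = 0 := by
          apply θ.zero_of_le_dist
          have : ρ / 2 < dist y t₀ := by
            rw [mem_compl_iff, mem_closedBall, not_le] at hy
            exact hy
          exact this.le
        simp only [g₁, this]
        simp
      exact contDiffAt_const.congr_of_eventuallyEq this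
  have hnear := hasFDerivAt_cauchyP (c := 1) (R := R + 1) one_pos (ι := ContinuousLinearMap.id ℝ ℂ)
    (fun z => by simp) hg₁s (fun x hx => hR₁ x (by linarith)) t₀
  have hDp := Dp_cauchyP (c := 1) (R := R + 1) one_pos (ι := ContinuousLinearMap.id ℝ ℂ)
    (fun z => by simp) hg₁s (fun x hx => hR₁ x (by linarith)) t₀
  have e1 : cauchyP (ContinuousLinearMap.id ℝ ℂ) g₁ = ct g₁ := rfl
  rw [e1] at hnear hDp
  have hg₁0 : g₁ t₀ = g t₀ := by
    simp only [g₁]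
    rw [θ.one_of_mem_closedBall (mem_closedBall_self (by positivity))]
    simp
  unfold Dp at hDp
  rw [hg₁0] at hDp
  simp only [ContinuousLinearMap.coe_id', id_eq] at hDp
  -- the far part
  have hfar : DifferentiableAt ℂ (ct g₂) t₀ := by
    refine ct_far (ρ := ρ / 4) hm₂ hg₂ hR₂ (by positivity) fun z hz => ?_
    simp only [g₂]
    rw [θ.one_of_mem_closedBall (ball_subset_closedBall hz)]
    simp
  have hct : ct g =ᶠ[𝓝 t₀] fun t => ct g₁ t + ct g₂ t := by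
    have : {t : ℂ | ‖t‖ < R} ∈ 𝓝 t₀ := (isOpen_lt continuous_norm continuous_const).mem_nhds ht₀R
    filter_upwards [this] with t ht
    rw [← ct_add hm₁ hm₂ hg₁ hg₂ hR₁ hR₂ (le_of_lt ht)]
    congr 1
    funext z
    exact (hsum z).symm
  have hfr := hfar.restrictScalars ℝ
  have hd : HasFDerivAt (fun t => ct g₁ t + ct g₂ t) (fderiv ℝ (ct g₁) t₀ + fderiv ℝ (ct g₂) t₀) t₀ :=
    hnear.2.differentiableAt.hasFDerivAt.add hfr.hasFDerivAt
  have hd' := hd.congr_of_eventuallyEq hct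
  refine ⟨hd'.differentiableAt, ?_⟩
  rw [hd'.fderiv]
  have hI : fderiv ℝ (ct g₂) t₀ Complex.I = Complex.I * fderiv ℝ (ct g₂) t₀ 1 := by
    rw [hfar.fderiv_restrictScalars ℝ]
    simp only [ContinuousLinearMap.coe_restrictScalars']
    have := (fderiv ℂ (ct g₂) t₀).map_smul Complex.I 1
    simpa using this
  simp only [add_apply, hI]
  rw [← hDp]
  have hII : Complex.I * (Complex.I * fderiv ℝ (ct g₂) t₀ 1) = - fderiv ℝ (ct g₂) t₀ 1 := by
    rw [← mul_assoc, Complex.I_mul_I]; ring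
  rw [mul_add, hII]
  ring

end Crest.Agent.R275.Tb1
end
end

-- ▼ part R275/Tb1b_78
section

/-!
R275 (S0418), F7-XY (helper78): the additive Cousin splitting operator.
-/

set_option autoImplicit false
set_option linter.unusedSectionVars false

open Set Filter Topology Metric MeasureTheory
open scoped ContDiff

noncomputable section

namespace Crest.Agent.R275.Tb1

open Crest.Agent.R266.SCV (analyticOnNhd_of_separately analyticOnNhd_of_differentiableOn)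
open Crest.Agent.R080.CauchyP (kc measurable_kc)

/-- bounded holomorphic functions on an open set of `ℂ × ℂ` -/
def Hb (Ω : Set (ℂ × ℂ)) (f : ℂ × ℂ → ℂ) : Prop :=
  DifferentiableOn ℂ f Ω ∧ ∃ c, ∀ q ∈ Ω, ‖f q‖ ≤ c

/-- a bounded linear solution of the additive Cousin problem for `A`, `B` with parameter in `D` -/
structure Split (A B D : Set ℂ) (C : ℝ) where
  TA : (ℂ × ℂ → ℂ) → ℂ × ℂ → ℂ
  TB : (ℂ × ℂ → ℂ) → ℂ × ℂ → ℂ
  holA : ∀ f, Hb ((A ∩ B) ×ˢ D) f → DifferentiableOn ℂ (TA f) (A ×ˢ D)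
  holB : ∀ f, Hb ((A ∩ B) ×ˢ D) f → DifferentiableOn ℂ (TB f) (B ×ˢ D)
  bdA : ∀ f, Hb ((A ∩ B) ×ˢ D) f → ∀ c, 0 ≤ c → (∀ q ∈ (A ∩ B) ×ˢ D, ‖f q‖ ≤ c) →
    ∀ q ∈ A ×ˢ D, ‖TA f q‖ ≤ C * c
  bdB : ∀ f, Hb ((A ∩ B) ×ˢ D) f → ∀ c, 0 ≤ c → (∀ q ∈ (A ∩ B) ×ˢ D, ‖f q‖ ≤ c) →
    ∀ q ∈ B ×ˢ D, ‖TB f q‖ ≤ C * c
  lipA : ∀ f g, Hb ((A ∩ B) ×ˢ D) f → Hb ((A ∩ B) ×ˢ D) g → ∀ c, 0 ≤ c →
    (∀ q ∈ (A ∩ B) ×ˢ D, ‖f q - g q‖ ≤ c) → ∀ q ∈ A ×ˢ D, ‖TA f q - TA g q‖ ≤ C * c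
  lipB : ∀ f g, Hb ((A ∩ B) ×ˢ D) f → Hb ((A ∩ B) ×ˢ D) g → ∀ c, 0 ≤ c →
    (∀ q ∈ (A ∩ B) ×ˢ D, ‖f q - g q‖ ≤ c) → ∀ q ∈ B ×ˢ D, ‖TB f q - TB g q‖ ≤ C * c
  split : ∀ f, Hb ((A ∩ B) ×ˢ D) f → ∀ q ∈ (A ∩ B) ×ˢ D, TB f q - TA f q = f q

/-- bounded and separately holomorphic implies analytic -/
theorem analyticOnNhd_of_bdd_sep {h : ℂ × ℂ → ℂ} {U : Set (ℂ × ℂ)} (hU : IsOpen U) {C : ℝ}
    (hb : ∀ q ∈ U, ‖h q‖ ≤ C) (h1 : ∀ p ∈ U, DifferentiableAt ℂ (fun x => h (x, p.2)) p.1)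
    (h2 : ∀ p ∈ U, DifferentiableAt ℂ (fun y => h (p.1, y)) p.2) : AnalyticOnNhd ℂ h U := by
  refine analyticOnNhd_of_separately hU ?_ h1 h2
  intro p hp
  refine ContinuousAt.continuousWithinAt ?_
  obtain ⟨ρ, hρ, hρU⟩ := Metric.isOpen_iff.1 hU p hp
  have hC0 : 0 ≤ C := (norm_nonneg _).trans (hb p hp)
  set r := ρ / 4 with hr
  have hr0 : 0 < r := by positivity
  have hmem : ∀ t w : ℂ, ‖t - p.1‖ ≤ 2 * r → ‖w - p.2‖ ≤ 2 * r → (t, w) ∈ U := by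
    intro t w ht hw
    apply hρU
    rw [mem_ball, Prod.dist_eq, max_lt_iff, dist_eq_norm, dist_eq_norm]
    constructor <;> simp only <;> linarith
  -- Lipschitz in the first variable
  have hL1 : ∀ w, ‖w - p.2‖ ≤ r → ∀ t, ‖t - p.1‖ ≤ r →
      ‖h (t, w) - h (p.1, w)‖ ≤ C / r * ‖t - p.1‖ := by
    intro w hw t ht
    have hd : ∀ s ∈ closedBall p.1 r, DifferentiableAt ℂ (fun x => h (x, w)) s := by
      intro s hs
      rw [mem_closedBall_iff_norm] at hs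
      exact h1 (s, w) (hmem s w (by linarith) (by linarith))
    have hder : ∀ s ∈ closedBall p.1 r, ‖deriv (fun x => h (x, w)) s‖ ≤ C / r := by
      intro s hs
      rw [mem_closedBall_iff_norm] at hs
      refine Complex.norm_deriv_le_of_forall_mem_sphere_norm_le hr0 ?_ ?_
      · refine DifferentiableOn.diffContOnCl (fun x hx => ?_)
        have hx' := closure_ball_subset_closedBall hx
        rw [mem_closedBall_iff_norm] at hx'
        refine (h1 (x, w) (hmem x w ?_ (by linarith))).differentiableWithinAt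
        have := norm_add_le (x - s) (s - p.1)
        rw [sub_add_sub_cancel] at this
        linarith
      · intro x hx
        rw [mem_sphere_iff_norm] at hx
        apply hb
        refine hmem x w ?_ (by linarith)
        have := norm_add_le (x - s) (s - p.1)
        rw [sub_add_sub_cancel] at this
        linarith
    exact (convex_closedBall p.1 r).norm_image_sub_le_of_norm_deriv_le hd hder
      (mem_closedBall_self hr0.le) (by rwa [mem_closedBall_iff_norm])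
  have hc2 : ContinuousAt (fun w => h (p.1, w)) p.2 := (h2 p hp).continuousAt
  rw [Metric.continuousAt_iff] at hc2 ⊢
  intro ε hε
  obtain ⟨δ, hδ, hδ'⟩ := hc2 (ε / 2) (by positivity)
  refine ⟨min (min δ r) (ε / 2 / (C / r + 1)), by positivity, ?_⟩
  rintro ⟨t, w⟩ hq
  rw [Prod.dist_eq, max_lt_iff] at hq
  obtain ⟨hq1, hq2⟩ := hq
  simp only at hq1 hq2
  have ht : ‖t - p.1‖ ≤ r := by
    rw [← dist_eq_norm]; exact (hq1.trans_le ((min_le_left _ _).trans (min_le_right _ _))).le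
  have hw : ‖w - p.2‖ ≤ r := by
    rw [← dist_eq_norm]; exact (hq2.trans_le ((min_le_left _ _).trans (min_le_right _ _))).le
  have e1 := hL1 w hw t ht
  have e2 := hδ' (hq2.trans_le ((min_le_left _ _).trans (min_le_left _ _)))
  rw [dist_eq_norm] at e2 ⊢
  have e3 : ‖t - p.1‖ < ε / 2 / (C / r + 1) := by
    rw [← dist_eq_norm]; exact hq1.trans_le (min_le_right _ _)
  have e4 : C / r * ‖t - p.1‖ ≤ ε / 2 := by
    rw [lt_div_iff₀ (by positivity)] at e3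
    nlinarith [norm_nonneg (t - p.1)]
  calc ‖h (t, w) - h p‖ = ‖(h (t, w) - h (p.1, w)) + (h (p.1, w) - h p)‖ := by
        congr 1; ring
    _ ≤ ‖h (t, w) - h (p.1, w)‖ + ‖h (p.1, w) - h p‖ := norm_add_le _ _
    _ < ε := by
        have : ‖h (p.1, w) - h p‖ < ε / 2 := e2
        linarith

section split

variable {A B D : Set ℂ} {χ : ℂ → ℝ} {R : ℝ}

/-- `2 ∂̄ χ` -/
def dc (χ : ℂ → ℝ) (z : ℂ) : ℂ :=
  fderiv ℝ (fun z => (χ z : ℂ)) z 1 + Complex.I * fderiv ℝ (fun z => (χ z : ℂ)) z Complex.I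

/-- the datum -/
def gf (A B : Set ℂ) (χ : ℂ → ℝ) (f : ℂ × ℂ → ℂ) (w : ℂ) : ℂ → ℂ :=
  (A ∩ B).indicator (fun ζ => dc χ ζ * f (ζ, w))

/-- geometric hypotheses for the splitting -/
structure CutOff (A B : Set ℂ) (χ : ℂ → ℝ) (R M : ℝ) : Prop where
  openA : IsOpen A
  openB : IsOpen B
  bA : ∀ t ∈ A, ‖t‖ < R
  bB : ∀ t ∈ B, ‖t‖ < R
  smooth : ContDiff ℝ ∞ χ
  nonneg : ∀ z, 0 ≤ χ z
  le_one : ∀ z, χ z ≤ 1
  bound : ∀ z ∈ A ∩ B, ‖dc χ z‖ ≤ M
  M0 : 0 ≤ M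
  zero : ∀ t ∈ A, t ∉ B → ∀ᶠ s in 𝓝 t, χ s = 0
  one : ∀ t ∈ B, t ∉ A → ∀ᶠ s in 𝓝 t, χ s = 1

variable {M : ℝ}

lemma CutOff.smoothC (H : CutOff A B χ R M) : ContDiff ℝ ∞ (fun z => (χ z : ℂ)) :=
  Complex.ofRealCLM.contDiff.comp H.smooth

lemma CutOff.dc_smooth (H : CutOff A B χ R M) : ContDiff ℝ ∞ (dc χ) := by
  have h := H.smoothC.fderiv_right (m := ∞) (by simp)
  unfold dc
  exact (h.clm_apply contDiff_const).add (contDiff_const.mul (h.clm_apply contDiff_const))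

lemma CutOff.dc_const (_ : CutOff A B χ R M) {t : ℂ} {a : ℝ} (h : ∀ᶠ s in 𝓝 t, χ s = a) :
    ∀ᶠ s in 𝓝 t, dc χ s = 0 := by
  filter_upwards [h.eventually_nhds] with s hs
  have : (fun z => (χ z : ℂ)) =ᶠ[𝓝 s] fun _ => (a : ℂ) := by
    filter_upwards [hs] with z hz
    rw [hz]
  unfold dc
  rw [this.fderiv_eq]
  simp

lemma CutOff.M_nonneg (H : CutOff A B χ R M) : 0 ≤ M := H.M0

lemma gf_bound (H : CutOff A B χ R M) {f : ℂ × ℂ → ℂ} {w : ℂ} {c : ℝ} (hc0 : 0 ≤ c)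
    (hc : ∀ t ∈ A ∩ B, ‖f (t, w)‖ ≤ c) (z : ℂ) : ‖gf A B χ f w z‖ ≤ M * c := by
  unfold gf
  by_cases h : z ∈ A ∩ B
  · rw [indicator_of_mem h, norm_mul]
    exact mul_le_mul (H.bound z h) (hc z h) (norm_nonneg _) H.M_nonneg
  · rw [indicator_of_notMem h, norm_zero]
    exact mul_nonneg H.M_nonneg hc0

lemma gf_supp (H : CutOff A B χ R M) {f : ℂ × ℂ → ℂ} {w : ℂ} (z : ℂ) (hz : R < ‖z‖) :
    gf A B χ f w z = 0 := by
  unfold gf
  rw [indicator_of_notMem]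
  intro h
  exact absurd (H.bA z h.1) (by linarith)

lemma gf_meas (H : CutOff A B χ R M) {f : ℂ × ℂ → ℂ} {w : ℂ}
    (hf : ContinuousOn (fun t => f (t, w)) (A ∩ B)) : AEStronglyMeasurable (gf A B χ f w) := by
  have hS : MeasurableSet (A ∩ B) := (H.openA.inter H.openB).measurableSet
  unfold gf
  rw [aestronglyMeasurable_indicator_iff hS]
  exact (H.dc_smooth.continuous.continuousOn.mul hf).aestronglyMeasurable hS

/-- the two operators -/
def TA (A B : Set ℂ) (χ : ℂ → ℝ) (f : ℂ × ℂ → ℂ) (q : ℂ × ℂ) : ℂ :=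
  ct (gf A B χ f q.2) q.1 - (A ∩ B).indicator (fun t => (χ t : ℂ) * f (t, q.2)) q.1

def TB (A B : Set ℂ) (χ : ℂ → ℝ) (f : ℂ × ℂ → ℂ) (q : ℂ × ℂ) : ℂ :=
  ct (gf A B χ f q.2) q.1 + (A ∩ B).indicator (fun t => (1 - (χ t : ℂ)) * f (t, q.2)) q.1

lemma slice_diff {f : ℂ × ℂ → ℂ} {A D : Set ℂ} (hA : IsOpen A) (hD : IsOpen D)
    (hf : DifferentiableOn ℂ f (A ×ˢ D)) {w : ℂ} (hw : w ∈ D) {t : ℂ} (ht : t ∈ A) :
    DifferentiableAt ℂ (fun t => f (t, w)) t := by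
  have h1 : DifferentiableAt ℂ f (t, w) :=
    (hf (t, w) ⟨ht, hw⟩).differentiableAt ((hA.prod hD).mem_nhds ⟨ht, hw⟩)
  exact h1.comp t (by fun_prop : DifferentiableAt ℂ (fun t : ℂ => (t, w)) t)

lemma slice_diff' {f : ℂ × ℂ → ℂ} {A D : Set ℂ} (hA : IsOpen A) (hD : IsOpen D)
    (hf : DifferentiableOn ℂ f (A ×ˢ D)) {w : ℂ} (hw : w ∈ D) {t : ℂ} (ht : t ∈ A) :
    DifferentiableAt ℂ (fun w => f (t, w)) w := by
  have h1 : DifferentiableAt ℂ f (t, w) :=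
    (hf (t, w) ⟨ht, hw⟩).differentiableAt ((hA.prod hD).mem_nhds ⟨ht, hw⟩)
  exact h1.comp w (by fun_prop : DifferentiableAt ℂ (fun w : ℂ => (t, w)) w)

/-- holomorphy in `t`, at a point of `S`; `κ` is `-χ` or `1 - χ` -/
lemma hol_t_mem (H : CutOff A B χ R M) {f : ℂ × ℂ → ℂ} (hD : IsOpen D)
    (hf : Hb ((A ∩ B) ×ˢ D) f) {w : ℂ} (hw : w ∈ D) {t : ℂ} (ht : t ∈ A ∩ B) (κ : ℂ → ℂ)
    (hκ' : ContDiff ℝ 1 κ)
    (hκd : fderiv ℝ κ t = - fderiv ℝ (fun z => (χ z : ℂ)) t) :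
    DifferentiableAt ℂ (fun t => ct (gf A B χ f w) t + (A ∩ B).indicator (fun t => κ t * f (t, w)) t)
      t := by
  have hS : IsOpen (A ∩ B) := H.openA.inter H.openB
  obtain ⟨hfd, c, hc⟩ := hf
  have hd : ∀ s ∈ A ∩ B, DifferentiableAt ℂ (fun t => f (t, w)) s := fun s hs =>
    slice_diff hS hD hfd hw hs
  have hdo : DifferentiableOn ℂ (fun t => f (t, w)) (A ∩ B) := fun s hs =>
    (hd s hs).differentiableWithinAt
  have hc0 : 0 ≤ c := (norm_nonneg _).trans (hc (t, w) ⟨ht, hw⟩)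
  have hb := gf_bound H hc0 (fun t ht => hc (t, w) ⟨ht, hw⟩)
  have hm := gf_meas H (w := w) (f := f) hdo.continuousOn
  have hsm : ContDiffOn ℝ 1 (gf A B χ f w) (A ∩ B) := by
    have h1 : ContDiffOn ℝ 1 (fun ζ => dc χ ζ * f (ζ, w)) (A ∩ B) := by
      refine ((H.dc_smooth.of_le (by simp)).contDiffOn).mul ?_
      exact ((hdo.contDiffOn (n := 1) hS).restrict_scalars ℝ)
    refine h1.congr fun ζ hζ => ?_
    unfold gf
    rw [indicator_of_mem hζ]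
  obtain ⟨k1, k2⟩ := ct_local hm hb (gf_supp H) hS hsm ht (H.bA t ht.1)
  have he : (fun t => ct (gf A B χ f w) t + (A ∩ B).indicator (fun t => κ t * f (t, w)) t)
      =ᶠ[𝓝 t] fun t => ct (gf A B χ f w) t + κ t * f (t, w) := by
    filter_upwards [hS.mem_nhds ht] with s hs
    rw [indicator_of_mem hs]
  refine DifferentiableAt.congr_of_eventuallyEq ?_ he
  -- real derivative
  have hF := (hd t ht)
  have hFr : DifferentiableAt ℝ (fun t => f (t, w)) t := hF.restrictScalars ℝ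
  have hκt : DifferentiableAt ℝ κ t := (hκ'.differentiable one_ne_zero) t
  have hder : HasFDerivAt (fun t => ct (gf A B χ f w) t + κ t * f (t, w))
      (fderiv ℝ (ct (gf A B χ f w)) t + (κ t • fderiv ℝ (fun t => f (t, w)) t +
        f (t, w) • fderiv ℝ κ t)) t :=
    k1.hasFDerivAt.add (hκt.hasFDerivAt.mul hFr.hasFDerivAt)
  rw [differentiableAt_complex_iff_differentiableAt_real]
  refine ⟨hder.differentiableAt, ?_⟩
  rw [hder.fderiv]
  have hI : fderiv ℝ (fun t => f (t, w)) t Complex.I =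
      Complex.I * fderiv ℝ (fun t => f (t, w)) t 1 := by
    rw [hF.fderiv_restrictScalars ℝ]
    simp only [ContinuousLinearMap.coe_restrictScalars']
    have := (fderiv ℂ (fun t => f (t, w)) t).map_smul Complex.I 1
    simp
  have hg : gf A B χ f w t = dc χ t * f (t, w) := by
    unfold gf; rw [indicator_of_mem ht]
  rw [hg] at k2
  simp only [add_apply, smul_apply, smul_eq_mul, hκd, neg_apply, hI]
  have k3 : fderiv ℝ (ct (gf A B χ f w)) t Complex.I =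
      Complex.I * (fderiv ℝ (ct (gf A B χ f w)) t 1 - dc χ t * f (t, w)) := by
    have : fderiv ℝ (ct (gf A B χ f w)) t 1 - dc χ t * f (t, w) =
      - (Complex.I * fderiv ℝ (ct (gf A B χ f w)) t Complex.I) := by rw [← k2]; ring
    rw [this]
    have hII := Complex.I_mul_I
    linear_combination (fderiv ℝ (ct (gf A B χ f w)) t Complex.I) * hII
  rw [k3]
  unfold dc
  have hII := Complex.I_mul_I
  linear_combination (-(f (t, w)) * fderiv ℝ (fun z => (χ z : ℂ)) t Complex.I) * hII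

/-- holomorphy in `t` at a point where the cut-off is locally constant and the correction vanishes -/
lemma hol_t_not_mem (H : CutOff A B χ R M) {f : ℂ × ℂ → ℂ} (hD : IsOpen D)
    (hf : Hb ((A ∩ B) ×ˢ D) f) {w : ℂ} (hw : w ∈ D) {t : ℂ} (κ : ℂ → ℂ)
    (hz : ∀ᶠ s in 𝓝 t, dc χ s = 0) (hκ : ∀ᶠ s in 𝓝 t, κ s = 0) :
    DifferentiableAt ℂ (fun t => ct (gf A B χ f w) t + (A ∩ B).indicator (fun t => κ t * f (t, w)) t)
      t := by
  have hS : IsOpen (A ∩ B) := H.openA.inter H.openB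
  obtain ⟨hfd, c, hc⟩ := hf
  have hd : ∀ s ∈ A ∩ B, DifferentiableAt ℂ (fun t => f (t, w)) s := fun s hs =>
    slice_diff hS hD hfd hw hs
  have hdo : DifferentiableOn ℂ (fun t => f (t, w)) (A ∩ B) := fun s hs =>
    (hd s hs).differentiableWithinAt
  have hb := gf_bound H (c := max c 0) (le_max_right _ _) (w := w) (f := f)
    (fun t ht => (hc (t, w) ⟨ht, hw⟩).trans (le_max_left _ _))
  have hm := gf_meas H (w := w) (f := f) hdo.continuousOn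
  obtain ⟨ρ, hρ, hρ'⟩ := Metric.eventually_nhds_iff_ball.1 hz
  have h1 : DifferentiableAt ℂ (ct (gf A B χ f w)) t := by
    refine ct_far hm hb (gf_supp H) hρ fun z hz => ?_
    unfold gf
    by_cases h : z ∈ A ∩ B
    · rw [indicator_of_mem h, hρ' z hz, zero_mul]
    · rw [indicator_of_notMem h]
  refine h1.congr_of_eventuallyEq ?_
  filter_upwards [hκ] with s hs
  by_cases h : s ∈ A ∩ B
  · rw [indicator_of_mem h, hs, zero_mul, add_zero]
  · rw [indicator_of_notMem h, add_zero]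

/-- holomorphy in `w` of the Cauchy transform -/
lemma hol_w (H : CutOff A B χ R M) {f : ℂ × ℂ → ℂ} (hD : IsOpen D)
    (hf : Hb ((A ∩ B) ×ˢ D) f) {w₀ : ℂ} (hw : w₀ ∈ D) {t : ℂ} (ht : ‖t‖ ≤ R) :
    DifferentiableAt ℂ (fun w => ct (gf A B χ f w) t) w₀ := by
  have hS : IsOpen (A ∩ B) := H.openA.inter H.openB
  obtain ⟨hfd, c', hc'⟩ := hf
  set c := max c' 0 with hcd
  have hc0 : 0 ≤ c := le_max_right _ _
  have hc : ∀ q ∈ (A ∩ B) ×ˢ D, ‖f q‖ ≤ c := fun q hq => (hc' q hq).trans (le_max_left _ _)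
  obtain ⟨ρ, hρ, hρD⟩ := Metric.isOpen_iff.1 hD w₀ hw
  set r := ρ / 4 with hr
  have hr0 : 0 < r := by positivity
  let F' : ℂ → ℂ → ℂ := fun w z =>
    kc z * (A ∩ B).indicator (fun ζ => dc χ ζ * deriv (fun w => f (ζ, w)) w) (t - z)
  have hD' : ∀ w ∈ ball w₀ r, closedBall w r ⊆ D := by
    intro w hw x hx
    apply hρD
    rw [mem_ball_iff_norm] at *
    rw [mem_closedBall_iff_norm] at hx
    have := norm_add_le (x - w) (w - w₀)
    rw [sub_add_sub_cancel] at this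
    linarith
  have hwD : ∀ w ∈ ball w₀ r, w ∈ D := fun w hw => hD' w hw (mem_closedBall_self hr0.le)
  have hmS : ∀ w ∈ ball w₀ r, AEStronglyMeasurable (gf A B χ f w) := by
    intro w hw
    refine gf_meas H ?_
    intro s hs
    exact (slice_diff hS hD hfd (hwD w hw) hs).continuousAt.continuousWithinAt
  have hder : ∀ w ∈ ball w₀ r, ∀ ζ ∈ A ∩ B, ‖deriv (fun w => f (ζ, w)) w‖ ≤ c / r := by
    intro w hw ζ hζ
    refine Complex.norm_deriv_le_of_forall_mem_sphere_norm_le hr0 ?_ ?_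
    · refine DifferentiableOn.diffContOnCl (fun x hx => ?_)
      have hx' := hD' w hw (closure_ball_subset_closedBall hx)
      exact (slice_diff' hS hD hfd hx' hζ).differentiableWithinAt
    · intro x hx
      exact hc (ζ, x) ⟨hζ, hD' w hw (sphere_subset_closedBall hx)⟩
  have hkey := hasDerivAt_integral_of_dominated_loc_of_deriv_le (μ := volume)
    (F := fun w z => kc z * gf A B χ f w (t - z)) (F' := F') (x₀ := w₀) (s := ball w₀ r)
    (bound := fun z => (closedBall (0 : ℂ) (2 * R)).indicator (fun z => ‖kc z‖) z * (M * (c / r)))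
    (ball_mem_nhds w₀ hr0)
    (by
      filter_upwards [ball_mem_nhds w₀ hr0] with w hw
      refine measurable_kc.aestronglyMeasurable.mul ?_
      exact (hmS w hw).comp_quasiMeasurePreserving
        (Measure.measurePreserving_sub_left volume t).quasiMeasurePreserving)
    (integrable_ct (hmS w₀ (mem_ball_self hr0))
      (gf_bound H hc0 fun s hs => hc (s, w₀) ⟨hs, hw⟩) (gf_supp H) ht)
    (by
      refine measurable_kc.aestronglyMeasurable.mul ?_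
      refine AEStronglyMeasurable.comp_quasiMeasurePreserving
        (g := (A ∩ B).indicator (fun ζ => dc χ ζ * deriv (fun w => f (ζ, w)) w₀)) ?_
        (Measure.measurePreserving_sub_left volume t).quasiMeasurePreserving
      rw [aestronglyMeasurable_indicator_iff hS.measurableSet]
      refine ContinuousOn.aestronglyMeasurable ?_ hS.measurableSet
      refine H.dc_smooth.continuous.continuousOn.mul ?_
      have hcd : ContinuousOn (fun q => fderiv ℂ f q) ((A ∩ B) ×ˢ D) :=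
        (analyticOnNhd_of_differentiableOn (hS.prod hD) hfd).fderiv.continuousOn
      have h2 : ∀ ζ ∈ A ∩ B, deriv (fun w => f (ζ, w)) w₀ = fderiv ℂ f (ζ, w₀) (0, 1) := by
        intro ζ hζ
        have h3 : DifferentiableAt ℂ f (ζ, w₀) :=
          (hfd (ζ, w₀) ⟨hζ, hw⟩).differentiableAt ((hS.prod hD).mem_nhds ⟨hζ, hw⟩)
        have h4 : HasDerivAt (fun w : ℂ => (ζ, w)) (0, 1) w₀ :=
          (hasDerivAt_const w₀ ζ).prodMk (hasDerivAt_id w₀)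
        exact (h3.hasFDerivAt.comp_hasDerivAt w₀ h4).deriv
      refine ContinuousOn.congr (f := fun ζ => fderiv ℂ f (ζ, w₀) (0, 1)) ?_ h2
      refine ContinuousOn.clm_apply ?_ continuousOn_const
      exact hcd.comp (by fun_prop) fun ζ hζ => ⟨hζ, hw⟩)
    (.of_forall fun z w hw => by
      refine kernel_le (g := (A ∩ B).indicator (fun ζ => dc χ ζ * deriv (fun w => f (ζ, w)) w))
        ?_ ?_ ht z
      · intro ζ
        by_cases h : ζ ∈ A ∩ B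
        · rw [indicator_of_mem h, norm_mul]
          exact mul_le_mul (H.bound ζ h) (hder w hw ζ h) (norm_nonneg _) H.M_nonneg
        · rw [indicator_of_notMem h, norm_zero]
          exact mul_nonneg H.M_nonneg (by positivity)
      · intro ζ hζ
        rw [indicator_of_notMem]
        intro h
        exact absurd (H.bA ζ h.1) (by linarith))
    (integrable_kb R _)
    (.of_forall fun z w hw => by
      show HasDerivAt (fun w => kc z * gf A B χ f w (t - z)) (F' w z) w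
      simp only [F', gf]
      by_cases h : t - z ∈ A ∩ B
      · simp only [indicator_of_mem h]
        refine HasDerivAt.const_mul _ (HasDerivAt.const_mul _ ?_)
        exact (slice_diff' hS hD hfd (hwD w hw) h).hasDerivAt
      · simp only [indicator_of_notMem h, mul_zero]
        exact hasDerivAt_const _ _)
  exact hkey.2.differentiableAt

lemma norm_TA_le (H : CutOff A B χ R M) {f : ℂ × ℂ → ℂ} {w : ℂ} {c : ℝ} (hc0 : 0 ≤ c)
    (hc : ∀ t ∈ A ∩ B, ‖f (t, w)‖ ≤ c) {t : ℂ} (ht : ‖t‖ ≤ R) :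
    ‖TA A B χ f (t, w)‖ ≤ (kb R * M + 1) * c := by
  unfold TA
  have h1 := norm_ct_le (gf_bound H hc0 hc) (gf_supp H) ht
  have h2 : ‖(A ∩ B).indicator (fun t => (χ t : ℂ) * f (t, w)) t‖ ≤ c := by
    by_cases h : t ∈ A ∩ B
    · rw [indicator_of_mem h, norm_mul, Complex.norm_real, Real.norm_of_nonneg (H.nonneg t)]
      calc χ t * ‖f (t, w)‖ ≤ 1 * c :=
            mul_le_mul (H.le_one t) (hc t h) (norm_nonneg _) zero_le_one
        _ = c := one_mul c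
    · rw [indicator_of_notMem h, norm_zero]
      exact hc0
  calc _ ≤ kb R * (M * c) + c := (norm_sub_le _ _).trans (add_le_add h1 h2)
    _ = _ := by ring

lemma norm_TB_le (H : CutOff A B χ R M) {f : ℂ × ℂ → ℂ} {w : ℂ} {c : ℝ} (hc0 : 0 ≤ c)
    (hc : ∀ t ∈ A ∩ B, ‖f (t, w)‖ ≤ c) {t : ℂ} (ht : ‖t‖ ≤ R) :
    ‖TB A B χ f (t, w)‖ ≤ (kb R * M + 1) * c := by
  unfold TB
  have h1 := norm_ct_le (gf_bound H hc0 hc) (gf_supp H) ht
  have h2 : ‖(A ∩ B).indicator (fun t => (1 - (χ t : ℂ)) * f (t, w)) t‖ ≤ c := by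
    by_cases h : t ∈ A ∩ B
    · have e : (1 - (χ t : ℂ)) = ((1 - χ t : ℝ) : ℂ) := by push_cast; ring
      rw [indicator_of_mem h, norm_mul, e, Complex.norm_real,
        Real.norm_of_nonneg (by linarith [H.le_one t])]
      calc (1 - χ t) * ‖f (t, w)‖ ≤ 1 * c :=
            mul_le_mul (by linarith [H.nonneg t]) (hc t h) (norm_nonneg _) zero_le_one
        _ = c := one_mul c
    · rw [indicator_of_notMem h, norm_zero]
      exact hc0
  calc _ ≤ kb R * (M * c) + c := (norm_add_le _ _).trans (add_le_add h1 h2)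
    _ = _ := by ring

lemma Hb.sub {Ω : Set (ℂ × ℂ)} {f g : ℂ × ℂ → ℂ} (hf : Hb Ω f) (hg : Hb Ω g) :
    Hb Ω (fun q => f q - g q) := by
  obtain ⟨hf, c, hc⟩ := hf
  obtain ⟨hg, d, hd⟩ := hg
  exact ⟨hf.sub hg, c + d, fun q hq => (norm_sub_le _ _).trans (add_le_add (hc q hq) (hd q hq))⟩

lemma ct_gf_sub (H : CutOff A B χ R M) (hD : IsOpen D) {f g : ℂ × ℂ → ℂ}
    (hf : Hb ((A ∩ B) ×ˢ D) f) (hg : Hb ((A ∩ B) ×ˢ D) g) {w : ℂ} (hw : w ∈ D) {t : ℂ}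
    (ht : ‖t‖ ≤ R) : ct (gf A B χ (fun q => f q - g q) w) t =
      ct (gf A B χ f w) t - ct (gf A B χ g w) t := by
  have hS : IsOpen (A ∩ B) := H.openA.inter H.openB
  obtain ⟨hf, c, hc⟩ := hf
  obtain ⟨hg, d, hd⟩ := hg
  have hmf := gf_meas H (w := w) (f := f) fun s hs =>
    (slice_diff hS hD hf hw hs).continuousAt.continuousWithinAt
  have hmg := gf_meas H (w := w) (f := g) fun s hs =>
    (slice_diff hS hD hg hw hs).continuousAt.continuousWithinAt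
  set e := max (max c d) 0 with he
  have he0 : 0 ≤ e := le_max_right _ _
  have h1 : ∀ z, ‖gf A B χ f w z‖ ≤ M * e := gf_bound H he0 fun s hs =>
    (hc (s, w) ⟨hs, hw⟩).trans ((le_max_left _ _).trans (le_max_left _ _))
  have h2 : ∀ z, ‖gf A B χ g w z‖ ≤ M * e := gf_bound H he0 fun s hs =>
    (hd (s, w) ⟨hs, hw⟩).trans ((le_max_right _ _).trans (le_max_left _ _))
  rw [← ct_sub hmf hmg h1 h2 (gf_supp H) (gf_supp H) ht]
  congr 1
  funext z
  unfold gf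
  by_cases h : z ∈ A ∩ B
  · simp only [indicator_of_mem h]; ring
  · simp only [indicator_of_notMem h, sub_zero]

lemma TA_sub (H : CutOff A B χ R M) (hD : IsOpen D) {f g : ℂ × ℂ → ℂ}
    (hf : Hb ((A ∩ B) ×ˢ D) f) (hg : Hb ((A ∩ B) ×ˢ D) g) {w : ℂ} (hw : w ∈ D) {t : ℂ}
    (ht : ‖t‖ ≤ R) : TA A B χ (fun q => f q - g q) (t, w) =
      TA A B χ f (t, w) - TA A B χ g (t, w) := by
  unfold TA
  simp only
  rw [ct_gf_sub H hD hf hg hw ht]
  by_cases h : t ∈ A ∩ B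
  · simp only [indicator_of_mem h]; ring
  · simp only [indicator_of_notMem h, sub_zero]

lemma TB_sub (H : CutOff A B χ R M) (hD : IsOpen D) {f g : ℂ × ℂ → ℂ}
    (hf : Hb ((A ∩ B) ×ˢ D) f) (hg : Hb ((A ∩ B) ×ˢ D) g) {w : ℂ} (hw : w ∈ D) {t : ℂ}
    (ht : ‖t‖ ≤ R) : TB A B χ (fun q => f q - g q) (t, w) =
      TB A B χ f (t, w) - TB A B χ g (t, w) := by
  unfold TB
  simp only
  rw [ct_gf_sub H hD hf hg hw ht]
  by_cases h : t ∈ A ∩ B
  · simp only [indicator_of_mem h]; ring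
  · simp only [indicator_of_notMem h, add_zero]

lemma holA_aux (H : CutOff A B χ R M) (hD : IsOpen D) {f : ℂ × ℂ → ℂ}
    (hf : Hb ((A ∩ B) ×ˢ D) f) : DifferentiableOn ℂ (TA A B χ f) (A ×ˢ D) := by
  have hf' := hf
  obtain ⟨hfd, c', hc'⟩ := hf'
  have hc : ∀ q ∈ (A ∩ B) ×ˢ D, ‖f q‖ ≤ max c' 0 := fun q hq =>
    (hc' q hq).trans (le_max_left _ _)
  have hS : IsOpen (A ∩ B) := H.openA.inter H.openB
  refine (analyticOnNhd_of_bdd_sep (H.openA.prod hD) (C := (kb R * M + 1) * max c' 0)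
    ?_ ?_ ?_).differentiableOn
  · rintro ⟨t, w⟩ ⟨ht, hw⟩
    exact norm_TA_le H (le_max_right _ _) (fun s hs => hc (s, w) ⟨hs, hw⟩) (H.bA t ht).le
  · rintro ⟨t, w⟩ ⟨ht, hw⟩
    simp only at ht hw ⊢
    have e : (fun x => TA A B χ f (x, w)) = fun t => ct (gf A B χ f w) t +
        (A ∩ B).indicator (fun t => (fun z => -(χ z : ℂ)) t * f (t, w)) t := by
      funext x
      unfold TA
      by_cases h : x ∈ A ∩ B
      · simp only [indicator_of_mem h]; ring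
      · simp only [indicator_of_notMem h, sub_zero, add_zero]
    rw [e]
    by_cases hB : t ∈ B
    · refine hol_t_mem H hD hf hw ⟨ht, hB⟩ (fun z => -(χ z : ℂ))
        (H.smoothC.neg.of_le (by simp)) ?_
      exact fderiv_fun_neg
    · have h0 := H.zero t ht hB
      refine hol_t_not_mem H hD hf hw _ (H.dc_const h0) ?_
      filter_upwards [h0] with s hs
      simp [hs]
  · rintro ⟨t, w⟩ ⟨ht, hw⟩
    simp only at ht hw ⊢
    unfold TA
    refine (hol_w H hD hf hw (H.bA t ht).le).sub ?_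
    by_cases hB : t ∈ B
    · simp only [indicator_of_mem (show t ∈ A ∩ B from ⟨ht, hB⟩)]
      exact (slice_diff' hS hD hfd hw ⟨ht, hB⟩).const_mul _
    · simp only [indicator_of_notMem (show t ∉ A ∩ B from fun h => hB h.2)]
      exact differentiableAt_const _

lemma holB_aux (H : CutOff A B χ R M) (hD : IsOpen D) {f : ℂ × ℂ → ℂ}
    (hf : Hb ((A ∩ B) ×ˢ D) f) : DifferentiableOn ℂ (TB A B χ f) (B ×ˢ D) := by
  have hf' := hf
  obtain ⟨hfd, c', hc'⟩ := hf'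
  have hc : ∀ q ∈ (A ∩ B) ×ˢ D, ‖f q‖ ≤ max c' 0 := fun q hq =>
    (hc' q hq).trans (le_max_left _ _)
  have hS : IsOpen (A ∩ B) := H.openA.inter H.openB
  refine (analyticOnNhd_of_bdd_sep (H.openB.prod hD) (C := (kb R * M + 1) * max c' 0)
    ?_ ?_ ?_).differentiableOn
  · rintro ⟨t, w⟩ ⟨ht, hw⟩
    exact norm_TB_le H (le_max_right _ _) (fun s hs => hc (s, w) ⟨hs, hw⟩) (H.bB t ht).le
  · rintro ⟨t, w⟩ ⟨ht, hw⟩
    simp only at ht hw ⊢
    have e : (fun x => TB A B χ f (x, w)) = fun t => ct (gf A B χ f w) t +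
        (A ∩ B).indicator (fun t => (fun z => 1 - (χ z : ℂ)) t * f (t, w)) t := by
      funext x
      unfold TB
      rfl
    rw [e]
    by_cases hA : t ∈ A
    · refine hol_t_mem H hD hf hw ⟨hA, ht⟩ (fun z => 1 - (χ z : ℂ))
        ((contDiff_const.sub H.smoothC).of_le (by simp)) ?_
      exact fderiv_const_sub _
    · have h0 := H.one t ht hA
      refine hol_t_not_mem H hD hf hw _ (H.dc_const h0) ?_
      filter_upwards [h0] with s hs
      simp [hs]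
  · rintro ⟨t, w⟩ ⟨ht, hw⟩
    simp only at ht hw ⊢
    unfold TB
    refine (hol_w H hD hf hw (H.bB t ht).le).add ?_
    by_cases hA : t ∈ A
    · simp only [indicator_of_mem (show t ∈ A ∩ B from ⟨hA, ht⟩)]
      exact (slice_diff' hS hD hfd hw ⟨hA, ht⟩).const_mul _
    · simp only [indicator_of_notMem (show t ∉ A ∩ B from fun h => hA h.1)]
      exact differentiableAt_const _

/-- **the bounded additive Cousin splitting with parameter** -/
def CutOff.toSplit (H : CutOff A B χ R M) (hD : IsOpen D) : Split A B D (kb R * M + 1) where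
  TA := TA A B χ
  TB := TB A B χ
  holA f hf := holA_aux H hD hf
  holB f hf := holB_aux H hD hf
  bdA f _ c hc0 hc := by
    rintro ⟨t, w⟩ ⟨ht, hw⟩
    exact norm_TA_le H hc0 (fun s hs => hc (s, w) ⟨hs, hw⟩) (H.bA t ht).le
  bdB f _ c hc0 hc := by
    rintro ⟨t, w⟩ ⟨ht, hw⟩
    exact norm_TB_le H hc0 (fun s hs => hc (s, w) ⟨hs, hw⟩) (H.bB t ht).le
  lipA f g hf hg c hc0 hc := by
    rintro ⟨t, w⟩ ⟨ht, hw⟩
    rw [← TA_sub H hD hf hg hw (H.bA t ht).le]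
    exact norm_TA_le H hc0 (fun s hs => hc (s, w) ⟨hs, hw⟩) (H.bA t ht).le
  lipB f g hf hg c hc0 hc := by
    rintro ⟨t, w⟩ ⟨ht, hw⟩
    rw [← TB_sub H hD hf hg hw (H.bB t ht).le]
    exact norm_TB_le H hc0 (fun s hs => hc (s, w) ⟨hs, hw⟩) (H.bB t ht).le
  split f _ := by
    rintro ⟨t, w⟩ ⟨ht, hw⟩
    have ht' : t ∈ A ∩ B := ht
    unfold TA TB
    simp only [indicator_of_mem ht']
    ring

/-- cut-offs in the direction of a real linear functional -/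
theorem exists_cutOff {A B : Set ℂ} (hA : IsOpen A) (hB : IsOpen B) {R : ℝ}
    (bA : ∀ t ∈ A, ‖t‖ < R) (bB : ∀ t ∈ B, ‖t‖ < R) (ℓ : ℂ →L[ℝ] ℝ) {m η : ℝ} (hη : 0 < η)
    (h0 : ∀ t ∈ A, t ∉ B → ℓ t ≤ m - η) (h1 : ∀ t ∈ B, t ∉ A → m + η ≤ ℓ t) :
    ∃ χ M, CutOff A B χ R M := by
  let χ : ℂ → ℝ := fun z => Real.smoothTransition ((ℓ z - (m - η / 2)) / η)
  have hs : ContDiff ℝ ∞ χ := by
    refine Real.smoothTransition.contDiff.comp ?_
    exact (ℓ.contDiff.sub contDiff_const).div_const η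
  have hdc : Continuous (dc χ) := by
    have hsC : ContDiff ℝ ∞ (fun z => (χ z : ℂ)) := Complex.ofRealCLM.contDiff.comp hs
    have h := hsC.fderiv_right (m := ∞) (by simp)
    unfold dc
    exact ((h.clm_apply contDiff_const).add
      (contDiff_const.mul (h.clm_apply contDiff_const))).continuous
  obtain ⟨M, hM⟩ := (isCompact_closedBall (0 : ℂ) R).exists_bound_of_continuousOn
    (f := dc χ) hdc.continuousOn
  refine ⟨χ, max M 0, hA, hB, bA, bB, hs, fun z => Real.smoothTransition.nonneg _,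
    fun z => Real.smoothTransition.le_one _, ?_, le_max_right _ _, ?_, ?_⟩
  · intro z hz
    exact (hM z (mem_closedBall_zero_iff.2 (bA z hz.1).le)).trans (le_max_left _ _)
  · intro t ht ht'
    have h2 : ∀ᶠ s in 𝓝 t, ℓ s < m - η / 2 :=
      ℓ.continuous.continuousAt.eventually_lt continuousAt_const (by linarith [h0 t ht ht'])
    filter_upwards [h2] with s hs
    apply Real.smoothTransition.zero_of_nonpos
    exact div_nonpos_of_nonpos_of_nonneg (by linarith) hη.le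
  · intro t ht ht'
    have h2 : ∀ᶠ s in 𝓝 t, m + η / 2 < ℓ s :=
      continuousAt_const.eventually_lt ℓ.continuous.continuousAt (by linarith [h1 t ht ht'])
    filter_upwards [h2] with s hs
    apply Real.smoothTransition.one_of_one_le
    rw [le_div_iff₀ hη]
    linarith

end split

/-- **splitting along a real linear functional**, with a constant independent of `D` -/
theorem exists_split {A B : Set ℂ} (hA : IsOpen A) (hB : IsOpen B) {R : ℝ}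
    (bA : ∀ t ∈ A, ‖t‖ < R) (bB : ∀ t ∈ B, ‖t‖ < R) (ℓ : ℂ →L[ℝ] ℝ) {m η : ℝ} (hη : 0 < η)
    (h0 : ∀ t ∈ A, t ∉ B → ℓ t ≤ m - η) (h1 : ∀ t ∈ B, t ∉ A → m + η ≤ ℓ t) :
    ∃ C : ℝ, 1 ≤ C ∧ ∀ D : Set ℂ, IsOpen D → Nonempty (Split A B D C) := by
  obtain ⟨χ, M, H⟩ := exists_cutOff hA hB bA bB ℓ hη h0 h1
  refine ⟨kb R * M + 1, ?_, fun D hD => ⟨H.toSplit hD⟩⟩
  have := mul_nonneg (kb_nonneg R) H.M0
  linarith

end Crest.Agent.R275.Tb1
end
end

-- ▼ part R275/Tb2_78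
section

/-!
R275 (S0418), F7-XY (helper78): gluing equation `G ∘ U_A = U_B` by a sup-norm contraction.
-/

set_option autoImplicit false
set_option linter.unusedSectionVars false

open Set Filter Topology Metric
open scoped ContDiff

noncomputable section

namespace Crest.Agent.R275.Tb2

open Crest.Agent.R275.Tb1
open Crest.Agent.R266.SCV (analyticOnNhd_of_differentiableOn
  analyticOnNhd_of_tendstoLocallyUniformlyOn)

/-- fixed points of sup-norm contractions on a class of functions closed under uniform limits -/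
theorem exists_fixed {Z E : Type*} [NormedAddCommGroup E] [CompleteSpace E] (Ω : Set Z)
    (H : (Z → E) → Prop) (Q : (Z → E) → Z → E) (u₀ : Z → E) (h0 : H u₀)
    (hQ : ∀ u, H u → H (Q u))
    (hlip : ∀ u v, H u → H v → ∀ c : ℝ, 0 ≤ c → (∀ z ∈ Ω, ‖u z - v z‖ ≤ c) →
      ∀ z ∈ Ω, ‖Q u z - Q v z‖ ≤ c / 2)
    {c₀ : ℝ} (hc₀ : 0 ≤ c₀) (hd : ∀ z ∈ Ω, ‖Q u₀ z - u₀ z‖ ≤ c₀)
    (hcl : ∀ (u : ℕ → Z → E) (v : Z → E), (∀ n, H (u n)) → TendstoUniformlyOn u v atTop Ω → H v) :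
    ∃ u, H u ∧ ∀ z ∈ Ω, Q u z = u z := by
  classical
  let u : ℕ → Z → E := fun n => Q^[n] u₀
  have hu0 : u 0 = u₀ := rfl
  have hus : ∀ n, u (n + 1) = Q (u n) := fun n => Function.iterate_succ_apply' Q n u₀
  have hH : ∀ n, H (u n) := by
    intro n
    induction n with
    | zero => exact h0
    | succ n ih => rw [hus]; exact hQ _ ih
  have hdiff : ∀ n, ∀ z ∈ Ω, ‖u n z - u (n + 1) z‖ ≤ c₀ / 2 ^ n := by
    intro n
    induction n with
    | zero =>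
      intro z hz
      rw [hus, hu0, norm_sub_rev]
      simpa using hd z hz
    | succ n ih =>
      intro z hz
      rw [hus (n + 1), hus n]
      refine (hlip (u n) (Q (u n)) (hH n) (by rw [← hus]; exact hH _) (c₀ / 2 ^ n) (by positivity)
        (fun z hz => by rw [← hus]; exact ih z hz) z hz).trans (le_of_eq ?_)
      rw [pow_succ]
      field_simp
  have hdist : ∀ z ∈ Ω, ∀ n, dist (u n z) (u (n + 1) z) ≤ (2 * c₀) / 2 / 2 ^ n := by
    intro z hz n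
    rw [dist_eq_norm]
    refine (hdiff n z hz).trans (le_of_eq ?_)
    field_simp
  have hlim : ∀ z ∈ Ω, ∃ a, Tendsto (fun n => u n z) atTop (𝓝 a) := fun z hz =>
    cauchySeq_tendsto_of_complete (cauchySeq_of_le_geometric_two (hdist z hz))
  choose! v hv using hlim
  have hvd : ∀ n, ∀ z ∈ Ω, ‖u n z - v z‖ ≤ 2 * c₀ / 2 ^ n := by
    intro n z hz
    rw [← dist_eq_norm]
    exact dist_le_of_le_geometric_two_of_tendsto (hdist z hz) (hv z hz) n
  have h2 : Tendsto (fun n : ℕ => 2 * c₀ / 2 ^ n) atTop (𝓝 0) := by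
    have := (tendsto_pow_atTop_nhds_zero_of_lt_one (r := (1 / 2 : ℝ)) (by norm_num)
      (by norm_num)).const_mul (2 * c₀)
    simp only [mul_zero] at this
    refine this.congr fun n => ?_
    rw [one_div, inv_pow]; ring
  have hHv : H v := by
    refine hcl u v hH ?_
    rw [Metric.tendstoUniformlyOn_iff]
    intro ε hε
    filter_upwards [h2.eventually_lt_const hε] with n hn z hz
    rw [dist_comm, dist_eq_norm]
    exact (hvd n z hz).trans_lt hn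
  refine ⟨v, hHv, fun z hz => ?_⟩
  have hb : ∀ n, ‖Q v z - v z‖ ≤ 2 * (2 * c₀ / 2 ^ n) := by
    intro n
    have e1 := hlip v (u n) hHv (hH n) (2 * c₀ / 2 ^ n) (by positivity)
      (fun z hz => by rw [norm_sub_rev]; exact hvd n z hz) z hz
    have e2 := hvd (n + 1) z hz
    rw [hus] at e2
    have e3 : 2 * c₀ / 2 ^ (n + 1) ≤ 2 * c₀ / 2 ^ n := by
      apply div_le_div_of_nonneg_left (by positivity) (by positivity)
      exact pow_le_pow_right₀ (by norm_num) (Nat.le_succ n)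
    have e4 : 0 ≤ 2 * c₀ / 2 ^ n := by positivity
    calc ‖Q v z - v z‖ = ‖(Q v z - Q (u n) z) + (Q (u n) z - v z)‖ := by congr 1; abel
      _ ≤ _ := norm_add_le _ _
      _ ≤ _ := by linarith
  have h3 : ‖Q v z - v z‖ ≤ 0 := by
    refine ge_of_tendsto (x := atTop) (f := fun n : ℕ => 2 * (2 * c₀ / 2 ^ n)) ?_ (.of_forall hb)
    simpa using h2.const_mul 2
  exact sub_eq_zero.1 (norm_le_zero_iff.1 h3)

/-- `(t, w) ↦ (t + w a, w + w² b)` -/
def Up (a b : ℂ × ℂ → ℂ) (q : ℂ × ℂ) : ℂ × ℂ := (q.1 + q.2 * a q, q.2 + q.2 ^ 2 * b q)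

/-- the same with values instead of functions -/
def up (q u : ℂ × ℂ) : ℂ × ℂ := (q.1 + q.2 * u.1, q.2 + q.2 ^ 2 * u.2)

/-- the nonlinearity -/
def rh (f : ℂ × ℂ → ℂ × ℂ) (q u : ℂ × ℂ) : ℂ × ℂ :=
  ((1 + q.2 * u.2) * (f (up q u)).1, (1 + q.2 * u.2) ^ 2 * (f (up q u)).2)


/-- the algebra of the gluing equation -/
lemma up_up (f : ℂ × ℂ → ℂ × ℂ) (q u : ℂ × ℂ) : up (up q u) (f (up q u)) = up q (u + rh f q u) := by
  simp only [up, rh, Prod.fst_add, Prod.snd_add]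
  ext <;> simp only <;> ring


/-- position of `up q u` -/
lemma up_mem {q u : ℂ × ℂ} {δ M η ρ : ℝ} (hq : ‖q.2‖ ≤ δ) (hu : ‖u‖ ≤ M) (_ : δ ≤ 1)
    (h1 : δ * M ≤ η) (h1' : δ * M ≤ 1) (h2 : 2 * δ ≤ ρ) :
    up q u ∈ closedBall q.1 η ×ˢ closedBall (0 : ℂ) ρ := by
  have hδ0 : 0 ≤ δ := (norm_nonneg _).trans hq
  have hM0 : 0 ≤ M := (norm_nonneg _).trans hu
  have e1 : ‖q.2 * u.1‖ ≤ δ * M := by
    rw [norm_mul]
    exact mul_le_mul hq ((norm_fst_le u).trans hu) (norm_nonneg _) hδ0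
  have e2 : ‖q.2 * u.2‖ ≤ δ * M := by
    rw [norm_mul]
    exact mul_le_mul hq ((norm_snd_le u).trans hu) (norm_nonneg _) hδ0
  refine ⟨?_, ?_⟩
  · rw [mem_closedBall_iff_norm]
    simp only [up, add_sub_cancel_left]
    linarith
  · rw [mem_closedBall_zero_iff]
    simp only [up]
    have e3 : ‖q.2 ^ 2 * u.2‖ ≤ δ := by
      have : q.2 ^ 2 * u.2 = q.2 * (q.2 * u.2) := by ring
      rw [this, norm_mul]
      calc ‖q.2‖ * ‖q.2 * u.2‖ ≤ δ * 1 := mul_le_mul hq (e2.trans h1') (norm_nonneg _) hδ0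
        _ = δ := mul_one δ
    have := norm_add_le q.2 (q.2 ^ 2 * u.2)
    linarith

/-- Lipschitz estimate of the nonlinearity -/
lemma rh_lip {f : ℂ × ℂ → ℂ × ℂ} {q u v : ℂ × ℂ} {δ M η ρ K L : ℝ} (hq : ‖q.2‖ ≤ δ)
    (hu : ‖u‖ ≤ M) (hv : ‖v‖ ≤ M) (hδ1 : δ ≤ 1) (h1 : δ * M ≤ η) (h1' : δ * M ≤ 1)
    (h2 : 2 * δ ≤ ρ) (hK0 : 0 ≤ K) (hL0 : 0 ≤ L)
    (hK : ∀ p ∈ closedBall q.1 η ×ˢ closedBall (0 : ℂ) ρ, ‖f p‖ ≤ K)
    (hL : ∀ p ∈ closedBall q.1 η ×ˢ closedBall (0 : ℂ) ρ,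
      ∀ p' ∈ closedBall q.1 η ×ˢ closedBall (0 : ℂ) ρ, ‖f p - f p'‖ ≤ L * ‖p - p'‖) :
    ‖rh f q u - rh f q v‖ ≤ δ * (4 * (K + L)) * ‖u - v‖ := by
  have hδ0 : 0 ≤ δ := (norm_nonneg _).trans hq
  have hM0 : 0 ≤ M := (norm_nonneg _).trans hu
  have mu := up_mem hq hu hδ1 h1 h1' h2
  have mv := up_mem hq hv hδ1 h1 h1' h2
  set d := ‖u - v‖ with hd
  have hd0 : 0 ≤ d := norm_nonneg _
  -- distance of the points
  have e0 : ‖up q u - up q v‖ ≤ δ * d := by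
    rw [Prod.norm_def]
    refine max_le ?_ ?_
    · have : (up q u - up q v).1 = q.2 * (u - v).1 := by
        simp only [up, Prod.fst_sub]; ring
      rw [this, norm_mul]
      exact mul_le_mul hq (norm_fst_le _) (norm_nonneg _) hδ0
    · have : (up q u - up q v).2 = q.2 * (q.2 * (u - v).2) := by
        simp only [up, Prod.snd_sub]; ring
      rw [this, norm_mul, norm_mul]
      refine mul_le_mul hq ?_ (by positivity) hδ0
      calc ‖q.2‖ * ‖(u - v).2‖ ≤ 1 * d :=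
            mul_le_mul (hq.trans hδ1) (norm_snd_le _) (norm_nonneg _) zero_le_one
        _ = d := one_mul d
  have ef := (hL _ mu _ mv).trans (mul_le_mul_of_nonneg_left e0 hL0)
  have fu := hK _ mu
  have fv := hK _ mv
  have u2 : ‖(1 : ℂ) + q.2 * u.2‖ ≤ 2 := by
    have : ‖q.2 * u.2‖ ≤ δ * M := by
      rw [norm_mul]; exact mul_le_mul hq ((norm_snd_le u).trans hu) (norm_nonneg _) hδ0
    have h3 := norm_add_le (1 : ℂ) (q.2 * u.2)
    rw [norm_one] at h3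
    linarith
  have v2 : ‖(1 : ℂ) + q.2 * v.2‖ ≤ 2 := by
    have : ‖q.2 * v.2‖ ≤ δ * M := by
      rw [norm_mul]; exact mul_le_mul hq ((norm_snd_le v).trans hv) (norm_nonneg _) hδ0
    have h3 := norm_add_le (1 : ℂ) (q.2 * v.2)
    rw [norm_one] at h3
    linarith
  have uv : ‖((1 : ℂ) + q.2 * u.2) - (1 + q.2 * v.2)‖ ≤ δ * d := by
    have : ((1 : ℂ) + q.2 * u.2) - (1 + q.2 * v.2) = q.2 * (u - v).2 := by
      simp only [Prod.snd_sub]; ring
    rw [this, norm_mul]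
    exact mul_le_mul hq (norm_snd_le _) (norm_nonneg _) hδ0
  have hδd : 0 ≤ δ * d := by positivity
  rw [Prod.norm_def]
  refine max_le ?_ ?_
  · have : (rh f q u - rh f q v).1 =
        (((1 : ℂ) + q.2 * u.2) - (1 + q.2 * v.2)) * (f (up q u)).1 +
          (1 + q.2 * v.2) * ((f (up q u)) - f (up q v)).1 := by
      simp only [rh, Prod.fst_sub]; ring
    rw [this]
    refine (norm_add_le _ _).trans ?_
    rw [norm_mul, norm_mul]
    have a1 : ‖((1 : ℂ) + q.2 * u.2) - (1 + q.2 * v.2)‖ * ‖(f (up q u)).1‖ ≤ (δ * d) * K :=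
      mul_le_mul uv ((norm_fst_le _).trans fu) (norm_nonneg _) hδd
    have a2 : ‖(1 : ℂ) + q.2 * v.2‖ * ‖((f (up q u)) - f (up q v)).1‖ ≤ 2 * (L * (δ * d)) :=
      mul_le_mul v2 ((norm_fst_le _).trans ef) (norm_nonneg _) (by norm_num)
    nlinarith [mul_nonneg hδd hK0, mul_nonneg hδd hL0]
  · have : (rh f q u - rh f q v).2 =
        (((1 : ℂ) + q.2 * u.2) - (1 + q.2 * v.2)) *
          (((1 : ℂ) + q.2 * u.2) + (1 + q.2 * v.2)) * (f (up q u)).2 +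
          (1 + q.2 * v.2) ^ 2 * ((f (up q u)) - f (up q v)).2 := by
      simp only [rh, Prod.snd_sub]; ring
    rw [this]
    refine (norm_add_le _ _).trans ?_
    rw [norm_mul, norm_mul, norm_mul, norm_pow]
    have a0 : ‖((1 : ℂ) + q.2 * u.2) + (1 + q.2 * v.2)‖ ≤ 4 := by
      have := norm_add_le ((1 : ℂ) + q.2 * u.2) (1 + q.2 * v.2)
      linarith
    have a1 : ‖((1 : ℂ) + q.2 * u.2) - (1 + q.2 * v.2)‖ * ‖((1 : ℂ) + q.2 * u.2) + (1 + q.2 * v.2)‖ *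
        ‖(f (up q u)).2‖ ≤ (δ * d) * 4 * K :=
      mul_le_mul (mul_le_mul uv a0 (norm_nonneg _) hδd) ((norm_snd_le _).trans fu) (norm_nonneg _)
        (by positivity)
    have a2 : ‖(1 : ℂ) + q.2 * v.2‖ ^ 2 * ‖((f (up q u)) - f (up q v)).2‖ ≤ 4 * (L * (δ * d)) := by
      refine mul_le_mul ?_ ((norm_snd_le _).trans ef) (norm_nonneg _) (by norm_num)
      nlinarith [norm_nonneg ((1 : ℂ) + q.2 * v.2)]
    nlinarith

/-- bound of the nonlinearity -/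
lemma rh_bound {f : ℂ × ℂ → ℂ × ℂ} {q u : ℂ × ℂ} {δ M η ρ K : ℝ} (hq : ‖q.2‖ ≤ δ)
    (hu : ‖u‖ ≤ M) (hδ1 : δ ≤ 1) (h1 : δ * M ≤ η) (h1' : δ * M ≤ 1)
    (h2 : 2 * δ ≤ ρ) (hK0 : 0 ≤ K)
    (hK : ∀ p ∈ closedBall q.1 η ×ˢ closedBall (0 : ℂ) ρ, ‖f p‖ ≤ K) :
    ‖rh f q u‖ ≤ 4 * K := by
  have hδ0 : 0 ≤ δ := (norm_nonneg _).trans hq
  have fu := hK _ (up_mem hq hu hδ1 h1 h1' h2)
  have u2 : ‖(1 : ℂ) + q.2 * u.2‖ ≤ 2 := by
    have : ‖q.2 * u.2‖ ≤ δ * M := by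
      rw [norm_mul]; exact mul_le_mul hq ((norm_snd_le u).trans hu) (norm_nonneg _) hδ0
    have h3 := norm_add_le (1 : ℂ) (q.2 * u.2)
    rw [norm_one] at h3
    linarith
  rw [Prod.norm_def]
  refine max_le ?_ ?_
  · simp only [rh, norm_mul]
    have := mul_le_mul u2 ((norm_fst_le _).trans fu) (norm_nonneg _) (by norm_num)
    linarith
  · simp only [rh, norm_mul, norm_pow]
    have h4 : ‖(1 : ℂ) + q.2 * u.2‖ ^ 2 ≤ 4 := by
      nlinarith [norm_nonneg ((1 : ℂ) + q.2 * u.2)]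
    exact mul_le_mul h4 ((norm_snd_le _).trans fu) (norm_nonneg _) (by norm_num)

/-- **the gluing equation**: `G ∘ U_A = U_B` over `A ∩ B`, `G = Up f₁ f₂`, is solvable for small
`δ` as soon as the additive Cousin problem is -/
theorem exists_glue {A B : Set ℂ} (hA : IsOpen A) (hB : IsOpen B) {C : ℝ} (hC : 1 ≤ C)
    (hS : ∀ D : Set ℂ, IsOpen D → Nonempty (Split A B D C)) {W : Set ℂ} (hW : IsOpen W)
    (hK : IsCompact (closure (A ∩ B))) (hKW : closure (A ∩ B) ⊆ W) {ρ : ℝ} (hρ : 0 < ρ)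
    {f₁ f₂ : ℂ × ℂ → ℂ} (hf₁ : AnalyticOnNhd ℂ f₁ (W ×ˢ ball 0 ρ))
    (hf₂ : AnalyticOnNhd ℂ f₂ (W ×ˢ ball 0 ρ)) {η : ℝ} (hη : 0 < η) :
    ∃ δ : ℝ, 0 < δ ∧ δ ≤ η ∧ ∃ aA bA aB bB : ℂ × ℂ → ℂ,
      AnalyticOnNhd ℂ aA (A ×ˢ ball 0 δ) ∧ AnalyticOnNhd ℂ bA (A ×ˢ ball 0 δ) ∧
      AnalyticOnNhd ℂ aB (B ×ˢ ball 0 δ) ∧ AnalyticOnNhd ℂ bB (B ×ˢ ball 0 δ) ∧
      (∀ q ∈ A ×ˢ ball (0 : ℂ) δ, Up aA bA q ∈ closedBall q.1 η ×ˢ closedBall (0 : ℂ) η) ∧
      (∀ q ∈ B ×ˢ ball (0 : ℂ) δ, Up aB bB q ∈ closedBall q.1 η ×ˢ closedBall (0 : ℂ) η) ∧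
      ∀ q ∈ (A ∩ B) ×ˢ ball (0 : ℂ) δ, Up aA bA q ∈ W ×ˢ ball (0 : ℂ) ρ ∧
        Up f₁ f₂ (Up aA bA q) = Up aB bB q := by
  classical
  set S := A ∩ B with hSdef
  have hSo : IsOpen S := hA.inter hB
  set f : ℂ × ℂ → ℂ × ℂ := fun q => (f₁ q, f₂ q) with hfdef
  have hf : AnalyticOnNhd ℂ f (W ×ˢ ball 0 ρ) := fun q hq => (hf₁ q hq).prod (hf₂ q hq)
  obtain ⟨η₀, hη₀, hη₀W⟩ := hK.exists_cthickening_subset_open hW hKW
  set N : Set (ℂ × ℂ) := cthickening η₀ (closure S) ×ˢ closedBall (0 : ℂ) (ρ / 2) with hN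
  have hNc : IsCompact N := hK.cthickening.prod (isCompact_closedBall _ _)
  have hNW : N ⊆ W ×ˢ ball 0 ρ := prod_mono hη₀W (closedBall_subset_ball (by linarith))
  obtain ⟨K, hKb⟩ := hNc.exists_bound_of_continuousOn (hf.continuousOn.mono hNW)
  obtain ⟨L, hLb⟩ := hNc.exists_bound_of_continuousOn (hf.fderiv.continuousOn.mono hNW)
  set K' := max K 0 with hK'
  set L' := max L 0 with hL'
  have hK'0 : 0 ≤ K' := le_max_right _ _
  have hL'0 : 0 ≤ L' := le_max_right _ _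
  have hsub : ∀ t ∈ S, closedBall t η₀ ×ˢ closedBall (0 : ℂ) (ρ / 2) ⊆ N := by
    intro t ht
    refine prod_mono ?_ le_rfl
    intro x hx
    exact mem_cthickening_of_dist_le x t η₀ _ (subset_closure ht) (mem_closedBall.1 hx)
  have hKb' : ∀ t ∈ S, ∀ p ∈ closedBall t η₀ ×ˢ closedBall (0 : ℂ) (ρ / 2), ‖f p‖ ≤ K' :=
    fun t ht p hp => (hKb p (hsub t ht hp)).trans (le_max_left _ _)
  have hLb' : ∀ t ∈ S, ∀ p ∈ closedBall t η₀ ×ˢ closedBall (0 : ℂ) (ρ / 2),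
      ∀ p' ∈ closedBall t η₀ ×ˢ closedBall (0 : ℂ) (ρ / 2), ‖f p - f p'‖ ≤ L' * ‖p - p'‖ := by
    intro t ht p hp p' hp'
    have hconv : Convex ℝ (closedBall t η₀ ×ˢ closedBall (0 : ℂ) (ρ / 2)) :=
      (convex_closedBall _ _).prod (convex_closedBall _ _)
    refine hconv.norm_image_sub_le_of_norm_fderiv_le (𝕜 := ℂ) (f := f) (C := L') ?_ ?_ hp' hp
    · intro x hx
      exact (hf x (hNW (hsub t ht hx))).differentiableAt
    · intro x hx
      exact (hLb x (hsub t ht hx)).trans (le_max_left _ _)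
  -- constants
  set M := C * (4 * K') + 1 with hM
  have hM1 : 1 ≤ M := by
    have : 0 ≤ C * (4 * K') := by positivity
    linarith
  have hM0 : 0 < M := by linarith
  set κ := C * (4 * (K' + L')) * 2 + 1 with hκ
  have hκ0 : 0 < κ := by positivity
  set η₁ := min (min η₀ η) 1 with hη₁
  have hη₁0 : 0 < η₁ := by positivity
  set δ := min (η₁ / (2 * M)) (min (ρ / 4) (1 / κ)) with hδ
  have hδ0 : 0 < δ := by positivity
  have hδM : δ * M ≤ η₁ / 2 := by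
    have : δ ≤ η₁ / (2 * M) := min_le_left _ _
    rw [le_div_iff₀ (by positivity)] at this
    linarith
  have hδη₁ : 2 * δ ≤ η₁ := by nlinarith
  have hδρ : 2 * δ ≤ ρ / 2 := by
    have : δ ≤ ρ / 4 := (min_le_right _ _).trans (min_le_left _ _)
    linarith
  have hη₁1 : η₁ ≤ 1 := min_le_right _ _
  have hη₁η : η₁ ≤ η := (min_le_left _ _).trans (min_le_right _ _)
  have hη₁η₀ : η₁ ≤ η₀ := (min_le_left _ _).trans (min_le_left _ _)
  have hδκ : δ * κ ≤ 1 := by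
    have : δ ≤ 1 / κ := (min_le_right _ _).trans (min_le_right _ _)
    rwa [le_div_iff₀ hκ0] at this
  have hδ1 : δ ≤ 1 := by linarith
  set D := ball (0 : ℂ) δ with hD
  set Ω := S ×ˢ D with hΩ
  have hΩo : IsOpen Ω := hSo.prod isOpen_ball
  obtain ⟨T⟩ := hS D isOpen_ball
  let H : (ℂ × ℂ → ℂ × ℂ) → Prop := fun u => DifferentiableOn ℂ u Ω ∧ ∀ q ∈ Ω, ‖u q‖ ≤ M
  let R : (ℂ × ℂ → ℂ × ℂ) → ℂ × ℂ → ℂ × ℂ := fun u q => rh f q (u q)
  have hRb : ∀ u, H u → ∀ q ∈ Ω, ‖R u q‖ ≤ 4 * K' := by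
    rintro u ⟨-, hu⟩ q hq
    have hq2 : ‖q.2‖ ≤ δ := (mem_ball_zero_iff.1 hq.2).le
    exact rh_bound (η := η₀) (ρ := ρ / 2) hq2 (hu q hq) hδ1 (by linarith) (by linarith) hδρ hK'0
      (hKb' q.1 hq.1)
  have hmem : ∀ u, H u → ∀ q ∈ Ω, up q (u q) ∈ N := by
    rintro u ⟨-, hu⟩ q hq
    have hq2 : ‖q.2‖ ≤ δ := (mem_ball_zero_iff.1 hq.2).le
    exact hsub q.1 hq.1 (up_mem hq2 (hu q hq) hδ1 (by linarith) (by linarith) hδρ)
  have hRd : ∀ u, H u → DifferentiableOn ℂ (R u) Ω := by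
    rintro u ⟨hud, hu⟩ q hq
    have h1 : DifferentiableAt ℂ u q := hud.differentiableAt (hΩo.mem_nhds hq)
    have h2 : DifferentiableAt ℂ (fun q => up q (u q)) q := by
      unfold up
      fun_prop
    have h3 : DifferentiableAt ℂ f (up q (u q)) :=
      (hf _ (hNW (hmem u ⟨hud, hu⟩ q hq))).differentiableAt
    have h4 : DifferentiableAt ℂ (fun q => f (up q (u q))) q := h3.comp q h2
    refine DifferentiableAt.differentiableWithinAt ?_
    show DifferentiableAt ℂ (fun q => rh f q (u q)) q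
    unfold rh
    fun_prop
  have hHb1 : ∀ u, H u → Hb Ω (fun q => (R u q).1) := fun u hu =>
    ⟨(hRd u hu).fst, 4 * K', fun q hq => (norm_fst_le _).trans (hRb u hu q hq)⟩
  have hHb2 : ∀ u, H u → Hb Ω (fun q => (R u q).2) := fun u hu =>
    ⟨(hRd u hu).snd, 4 * K', fun q hq => (norm_snd_le _).trans (hRb u hu q hq)⟩
  let Q : (ℂ × ℂ → ℂ × ℂ) → ℂ × ℂ → ℂ × ℂ := fun u q =>
    (T.TA (fun q => (R u q).1) q, T.TA (fun q => (R u q).2) q)
  have hΩA : Ω ⊆ A ×ˢ D := prod_mono inter_subset_left le_rfl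
  have hΩB : Ω ⊆ B ×ˢ D := prod_mono inter_subset_right le_rfl
  have hQb : ∀ u, H u → ∀ q ∈ A ×ˢ D, ‖Q u q‖ ≤ C * (4 * K') := by
    intro u hu q hq
    rw [Prod.norm_def]
    exact max_le
      (T.bdA _ (hHb1 u hu) _ (by positivity) (fun q hq => (norm_fst_le _).trans (hRb u hu q hq)) q hq)
      (T.bdA _ (hHb2 u hu) _ (by positivity) (fun q hq => (norm_snd_le _).trans (hRb u hu q hq)) q hq)
  have hQH : ∀ u, H u → H (Q u) := by
    intro u hu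
    refine ⟨?_, fun q hq => (hQb u hu q (hΩA hq)).trans (by linarith)⟩
    exact ((T.holA _ (hHb1 u hu)).mono hΩA).prodMk ((T.holA _ (hHb2 u hu)).mono hΩA)
  have hH0 : H (fun _ => 0) := ⟨differentiableOn_const _, fun q _ => by simpa using hM0.le⟩
  obtain ⟨u, hu, hfix⟩ := exists_fixed Ω H Q (fun _ => 0) hH0 hQH (by
      intro u v hu hv c hc0 hc q hq
      have hR : ∀ q ∈ Ω, ‖R u q - R v q‖ ≤ δ * (4 * (K' + L')) * c := by
        intro q hq
        have hq2 : ‖q.2‖ ≤ δ := (mem_ball_zero_iff.1 hq.2).le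
        refine (rh_lip (η := η₀) (ρ := ρ / 2) hq2 (hu.2 q hq) (hv.2 q hq) hδ1 (by linarith)
          (by linarith) hδρ hK'0 hL'0 (hKb' q.1 hq.1) (hLb' q.1 hq.1)).trans ?_
        exact mul_le_mul_of_nonneg_left (hc q hq) (by positivity)
      have hfin : C * (δ * (4 * (K' + L')) * c) ≤ c / 2 := by
        have h1 : C * (δ * (4 * (K' + L'))) ≤ 1 / 2 := by nlinarith
        nlinarith
      rw [Prod.norm_def]
      refine max_le ?_ ?_
      · exact (T.lipA _ _ (hHb1 u hu) (hHb1 v hv) _ (by positivity)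
          (fun q hq => (norm_fst_le (R u q - R v q)).trans (hR q hq)) q (hΩA hq)).trans hfin
      · exact (T.lipA _ _ (hHb2 u hu) (hHb2 v hv) _ (by positivity)
          (fun q hq => (norm_snd_le (R u q - R v q)).trans (hR q hq)) q (hΩA hq)).trans hfin)
    (c₀ := C * (4 * K')) (by positivity)
    (fun q hq => by simpa using hQb _ hH0 q (hΩA hq))
    (by
      intro un v hun hv
      refine ⟨(analyticOnNhd_of_tendstoLocallyUniformlyOn hΩo hv.tendstoLocallyUniformlyOn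
        (.of_forall fun n => (hun n).1)).differentiableOn, fun q hq => ?_⟩
      exact le_of_tendsto ((hv.tendsto_at hq).norm) (.of_forall fun n => (hun n).2 q hq))
  -- the solution
  refine ⟨δ, hδ0, by linarith, T.TA (fun q => (R u q).1), T.TA (fun q => (R u q).2),
    T.TB (fun q => (R u q).1), T.TB (fun q => (R u q).2),
    analyticOnNhd_of_differentiableOn (hA.prod isOpen_ball) (T.holA _ (hHb1 u hu)),
    analyticOnNhd_of_differentiableOn (hA.prod isOpen_ball) (T.holA _ (hHb2 u hu)),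
    analyticOnNhd_of_differentiableOn (hB.prod isOpen_ball) (T.holB _ (hHb1 u hu)),
    analyticOnNhd_of_differentiableOn (hB.prod isOpen_ball) (T.holB _ (hHb2 u hu)), ?_, ?_, ?_⟩
  · intro q hq
    have hq2 : ‖q.2‖ ≤ δ := (mem_ball_zero_iff.1 hq.2).le
    exact up_mem (u := Q u q) hq2 ((hQb u hu q hq).trans (by linarith : _ ≤ M)) hδ1 (by linarith)
      (by linarith) (by linarith)
  · intro q hq
    have hq2 : ‖q.2‖ ≤ δ := (mem_ball_zero_iff.1 hq.2).le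
    refine up_mem (u := (T.TB (fun q => (R u q).1) q, T.TB (fun q => (R u q).2) q)) (M := M)
      hq2 ?_ hδ1 (by linarith) (by linarith) (by linarith)
    rw [Prod.norm_def]
    refine (max_le
      (T.bdB _ (hHb1 u hu) _ (by positivity) (fun q hq => (norm_fst_le _).trans (hRb u hu q hq)) q hq)
      (T.bdB _ (hHb2 u hu) _ (by positivity) (fun q hq => (norm_snd_le _).trans (hRb u hu q hq)) q
        hq)).trans ?_
    linarith
  · intro q hq
    have h1 : Up (T.TA (fun q => (R u q).1)) (T.TA (fun q => (R u q).2)) q = up q (u q) := by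
      have := hfix q hq
      rw [← this]
      rfl
    rw [h1]
    refine ⟨hNW (hmem u hu q hq), ?_⟩
    have h2 : Up f₁ f₂ (up q (u q)) = up (up q (u q)) (f (up q (u q))) := rfl
    rw [h2, up_up]
    have h3 : u q + rh f q (u q) = (T.TB (fun q => (R u q).1) q, T.TB (fun q => (R u q).2) q) := by
      have e1 := T.split _ (hHb1 u hu) q hq
      have e2 := T.split _ (hHb2 u hu) q hq
      have e3 := hfix q hq
      have e4 : T.TA (fun q => (R u q).1) q = (u q).1 := congrArg Prod.fst e3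
      have e5 : T.TA (fun q => (R u q).2) q = (u q).2 := congrArg Prod.snd e3
      ext
      · show (u q).1 + (R u q).1 = T.TB (fun q => (R u q).1) q
        linear_combination -e1 - e4
      · show (u q).2 + (R u q).2 = T.TB (fun q => (R u q).2) q
        linear_combination -e2 - e5
    rw [h3]
    rfl

end Crest.Agent.R275.Tb2
end
end

-- ▼ part R275/TbG_284
section

/-!
R275 (S0418), block R / F7-XY (2) TUBES, helper284: the geometric half.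

(G1) calculus of `Rl` / `Rel`; (G2) normal form of the change of tubes near a compact set;
(G3) a map which is locally a tube near a compact piece of the curve is a tube.
-/

set_option autoImplicit false
set_option linter.unusedSectionVars false

open Set Filter Topology Metric Crest.AlgGeometry.Surface
open scoped Manifold ContDiff

noncomputable section

namespace Crest.Agent.R275.TbG284

open Crest.Agent.R275.Tb78

variable {X : Type} [TopologicalSpace X] [ChartedSpace C2 X]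

/-! ### (G1) calculus of `Rl` -/

section RlCalc

variable {κ m κ' m' : ℂ → ℂ} {Φ Ψ Ξ Φ' Ψ' : ℂ × ℂ → X} {t : ℂ}

lemma tendsto_slice (t : ℂ) : Tendsto (fun s : ℂ => (s, (0 : ℂ))) (𝓝 t) (𝓝 (t, 0)) := by
  have : Continuous (fun s : ℂ => (s, (0 : ℂ))) := by fun_prop
  exact this.tendsto t

theorem Rl.eventually (h : Rl κ m Φ Ψ t) : ∀ᶠ s in 𝓝 t, Rl κ m Φ Ψ s := by
  obtain ⟨F, hF, h1, h2⟩ := h
  filter_upwards [(tendsto_slice t).eventually hF.eventually_analyticAt, h1.eventually_nhds,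
    (tendsto_slice t).eventually h2.eventually_nhds] with s ha hb hd
  exact ⟨F, ha, hb, hd⟩

theorem Rl.congr (h : Rl κ m Φ Ψ t) (hΦ : Φ =ᶠ[𝓝 (t, 0)] Φ') (hΨ : Ψ =ᶠ[𝓝 (κ t, 0)] Ψ') :
    Rl κ m Φ' Ψ' t := by
  obtain ⟨F, hF, h1, h2⟩ := h
  refine ⟨F, hF, h1, ?_⟩
  have h3 : Tendsto F (𝓝 (t, 0)) (𝓝 (κ t, 0)) := by
    have := hF.continuousAt.tendsto
    rwa [h1.self_of_nhds.1] at this
  filter_upwards [h2, hΦ, h3.eventually hΨ] with q h4 h5 h6
  rw [← h5, h4, h6]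

theorem Rl.congr_fun {κ₁ m₁ : ℂ → ℂ} (h : Rl κ m Φ Ψ t) (hκ : κ =ᶠ[𝓝 t] κ₁)
    (hm : m =ᶠ[𝓝 t] m₁) : Rl κ₁ m₁ Φ Ψ t := by
  obtain ⟨F, hF, h1, h2⟩ := h
  refine ⟨F, hF, ?_, h2⟩
  filter_upwards [h1, hκ, hm] with s h3 h4 h5
  rw [← h4, ← h5]
  exact h3

theorem Rel.refl (Φ : ℂ × ℂ → X) (t : ℂ) : Rel Φ Φ t := by
  refine ⟨id, analyticAt_id, Eventually.of_forall (fun s => ⟨rfl, ?_⟩), Eventually.of_forall
    (fun q => rfl)⟩
  exact hasDerivAt_id _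

/-- the differential of a change of tubes along the curve -/
theorem fderiv_slice {F : ℂ × ℂ → ℂ × ℂ} {s μ : ℂ} (hF : DifferentiableAt ℂ F (s, 0))
    (h1 : ∀ᶠ u in 𝓝 s, F (u, 0) = (κ u, 0)) (h2 : HasDerivAt (fun w => (F (s, w)).2) μ 0) :
    HasDerivAt κ (fderiv ℂ F (s, 0) (1, 0)).1 s ∧
      ∀ v : ℂ × ℂ, (fderiv ℂ F (s, 0) v).2 = μ * v.2 := by
  have hL := hF.hasFDerivAt
  have c1 : HasDerivAt (fun u : ℂ => (u, (0 : ℂ))) ((1 : ℂ), (0 : ℂ)) s :=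
    (hasDerivAt_id s).prodMk (hasDerivAt_const s (0 : ℂ))
  have c2 : HasDerivAt (fun w : ℂ => (s, w)) ((0 : ℂ), (1 : ℂ)) 0 :=
    (hasDerivAt_const (0 : ℂ) s).prodMk (hasDerivAt_id (0 : ℂ))
  have d1 : HasDerivAt (fun u => F (u, 0)) (fderiv ℂ F (s, 0) (1, 0)) s :=
    hL.comp_hasDerivAt s c1
  have d2 : HasDerivAt (fun w => F (s, w)) (fderiv ℂ F (s, 0) (0, 1)) 0 :=
    HasFDerivAt.comp_hasDerivAt (f := fun w : ℂ => (s, w)) (0 : ℂ) hL c2
  have d3 : HasDerivAt (fun u => (κ u, (0 : ℂ))) (fderiv ℂ F (s, 0) (1, 0)) s :=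
    d1.congr_of_eventuallyEq (by filter_upwards [h1] with u hu using hu.symm)
  have d4 : HasDerivAt κ (fderiv ℂ F (s, 0) (1, 0)).1 s := by
    have := (hasFDerivAt_fst (𝕜 := ℂ) (E := ℂ) (F := ℂ) (p := (κ s, (0 : ℂ)))).comp_hasDerivAt s d3
    exact this
  have d5 : (fderiv ℂ F (s, 0) (1, 0)).2 = 0 := by
    have := (hasFDerivAt_snd (𝕜 := ℂ) (E := ℂ) (F := ℂ) (p := (κ s, (0 : ℂ)))).comp_hasDerivAt s d3
    exact this.unique (hasDerivAt_const s (0 : ℂ))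
  have d6 : (fderiv ℂ F (s, 0) (0, 1)).2 = μ := by
    have := (hasFDerivAt_snd (𝕜 := ℂ) (E := ℂ) (F := ℂ) (p := F (s, 0))).comp_hasDerivAt
      (0 : ℂ) d2
    exact this.unique h2
  refine ⟨d4, fun v => ?_⟩
  have h3 : v = v.1 • ((1 : ℂ), (0 : ℂ)) + v.2 • ((0 : ℂ), (1 : ℂ)) := by
    ext <;> simp
  rw [h3, map_add, map_smul, map_smul]
  simp [d5, d6]
  ring

theorem Rl.continuousAt (h : Rl κ m Φ Ψ t) : ContinuousAt κ t := by
  obtain ⟨F, hF, h1, -⟩ := h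
  exact (fderiv_slice hF.differentiableAt (h1.mono fun s hs => hs.1)
    h1.self_of_nhds.2).1.continuousAt

theorem Rl.comp (h : Rl κ m Φ Ψ t) (h' : Rl κ' m' Ψ Ξ (κ t)) :
    Rl (fun s => κ' (κ s)) (fun s => m' (κ s) * m s) Φ Ξ t := by
  have hκ := Rl.continuousAt h
  obtain ⟨F, hF, h1, h2⟩ := h
  obtain ⟨G, hG, h1', h2'⟩ := h'
  have hFt : F (t, 0) = (κ t, 0) := h1.self_of_nhds.1
  have hFc : Tendsto F (𝓝 (t, 0)) (𝓝 (κ t, 0)) := by
    have := hF.continuousAt.tendsto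
    rwa [hFt] at this
  refine ⟨fun q => G (F q), ?_, ?_, ?_⟩
  · exact AnalyticAt.comp (g := G) (by rw [hFt]; exact hG) hF
  · have e1 := (tendsto_slice t).eventually hF.eventually_analyticAt
    have e2 := hκ.tendsto.eventually h1'.eventually_nhds
    have e3 := hκ.tendsto.eventually ((tendsto_slice (κ t)).eventually hG.eventually_analyticAt)
    filter_upwards [h1, e1, e2, e3] with s g1 g2 g3 g4
    obtain ⟨g1a, g1b⟩ := g1
    refine ⟨by rw [g1a, g3.self_of_nhds.1], ?_⟩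
    have k1 := (fderiv_slice g4.differentiableAt (g3.mono fun u hu => hu.1)
      g3.self_of_nhds.2).2
    have c2 : HasDerivAt (fun w : ℂ => (s, w)) ((0 : ℂ), (1 : ℂ)) 0 :=
      (hasDerivAt_const (0 : ℂ) s).prodMk (hasDerivAt_id (0 : ℂ))
    have d2 : HasDerivAt (fun w => F (s, w)) (fderiv ℂ F (s, 0) (0, 1)) 0 :=
      HasFDerivAt.comp_hasDerivAt (f := fun w : ℂ => (s, w)) (0 : ℂ)
        g2.differentiableAt.hasFDerivAt c2
    have d3 : HasDerivAt (fun w => G (F (s, w)))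
        (fderiv ℂ G (κ s, 0) (fderiv ℂ F (s, 0) (0, 1))) 0 := by
      have k2 : HasFDerivAt G (fderiv ℂ G (κ s, 0)) (F (s, 0)) := by
        rw [g1a]; exact g4.differentiableAt.hasFDerivAt
      exact HasFDerivAt.comp_hasDerivAt (f := fun w : ℂ => F (s, w)) (0 : ℂ) k2 d2
    have d4 : HasDerivAt (fun w => (G (F (s, w))).2)
        (fderiv ℂ G (κ s, 0) (fderiv ℂ F (s, 0) (0, 1))).2 0 := by
      have k4 := (ContinuousLinearMap.snd ℂ ℂ ℂ).hasFDerivAt.comp_hasDerivAt (0 : ℂ) d3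
      exact k4
    have d5 : (fderiv ℂ F (s, 0) (0, 1)).2 = m s := by
      have := (hasFDerivAt_snd (𝕜 := ℂ) (E := ℂ) (F := ℂ) (p := F (s, 0))).comp_hasDerivAt
        (0 : ℂ) d2
      exact this.unique g1b
    rw [k1, d5] at d4
    exact d4
  · filter_upwards [h2, hFc.eventually h2'] with q h3 h4
    rw [h3, h4]

theorem Rel.trans (h : Rel Φ Ψ t) (h' : Rel Ψ Ξ t) : Rel Φ Ξ t := by
  have := Rl.comp h h'
  exact Rl.congr_fun this (Eventually.of_forall fun s => rfl)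
    (Eventually.of_forall fun s => by simp)

theorem Rl.comp_rel (h : Rl κ m Φ Ψ t) (h' : Rel Ψ Ξ (κ t)) : Rl κ m Φ Ξ t := by
  have := Rl.comp h h'
  exact Rl.congr_fun this (Eventually.of_forall fun s => rfl)
    (Eventually.of_forall fun s => by simp)

theorem Rel.comp_rl (h : Rel Φ Ψ t) (h' : Rl κ m Ψ Ξ t) : Rl κ m Φ Ξ t := by
  have := Rl.comp h h'
  exact Rl.congr_fun this (Eventually.of_forall fun s => rfl)
    (Eventually.of_forall fun s => by simp)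

/-- the local inverse of a change of tubes -/
theorem exists_oph {F : ℂ × ℂ → ℂ × ℂ} (hF : AnalyticAt ℂ F (t, 0))
    (h1 : ∀ᶠ s in 𝓝 t, F (s, 0) = (κ s, 0)) (h2 : HasDerivAt (fun w => (F (t, w)).2) (m t) 0)
    (hκ : deriv κ t ≠ 0) (hm : m t ≠ 0) {U : Set (ℂ × ℂ)} (hU : U ∈ 𝓝 (t, (0 : ℂ))) :
    ∃ e : OpenPartialHomeomorph (ℂ × ℂ) (ℂ × ℂ), (t, 0) ∈ e.source ∧ e.source ⊆ U ∧
      (∀ y, e y = F y) ∧ AnalyticOnNhd ℂ e e.source ∧ AnalyticOnNhd ℂ e.symm e.target := by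
  obtain ⟨k1, k2⟩ := fderiv_slice hF.differentiableAt h1 h2
  set L := fderiv ℂ F (t, 0) with hL
  have hinj : Function.Injective L := by
    rw [injective_iff_map_eq_zero]
    intro v hv
    have h3 : v.2 = 0 := by
      have := k2 v
      rw [hv] at this
      simpa [hm] using this.symm
    have h4 : v = v.1 • ((1 : ℂ), (0 : ℂ)) := by
      ext
      · simp
      · simp [h3]
    rw [h4, map_smul] at hv
    have h5 : v.1 * (L (1, 0)).1 = 0 := by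
      have := congrArg Prod.fst hv
      simpa using this
    rw [← k1.deriv] at h5
    have h6 : v.1 = 0 := (mul_eq_zero.1 h5).resolve_right hκ
    rw [h4, h6, zero_smul]
  let L₁ : (ℂ × ℂ) ≃ₗ[ℂ] ℂ × ℂ := LinearEquiv.ofInjectiveEndo (L : (ℂ × ℂ) →ₗ[ℂ] ℂ × ℂ) hinj
  let L₂ : (ℂ × ℂ) ≃L[ℂ] ℂ × ℂ := L₁.toContinuousLinearEquiv
  have hL₂ : (L₂ : (ℂ × ℂ) →L[ℂ] ℂ × ℂ) = L := by
    ext <;> rfl
  exact Crest.Agent.R266.SCV.exists_analytic_openPartialHomeomorph hF L₂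
    (by rw [hL₂]; exact hF.differentiableAt.hasFDerivAt) hU

theorem Rl.symm (h : Rl κ m Φ Ψ t) (hκ : deriv κ t ≠ 0) (hm : m t ≠ 0)
    (hc : ContinuousAt κ' (κ t)) (hκt : κ' (κ t) = t)
    (hκκ : ∀ᶠ s in 𝓝 (κ t), κ (κ' s) = s)
    (hmm : ∀ᶠ s in 𝓝 (κ t), m' s * m (κ' s) = 1) : Rl κ' m' Ψ Φ (κ t) := by
  obtain ⟨F, hF, h1, h2⟩ := h
  obtain ⟨e, he1, he2, he3, he4, he5⟩ := exists_oph hF (h1.mono fun s hs => hs.1)
    h1.self_of_nhds.2 hκ hm (hF.eventually_analyticAt)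
  have hFt : F (t, 0) = (κ t, 0) := h1.self_of_nhds.1
  have het : e (t, 0) = (κ t, 0) := by rw [he3, hFt]
  have hmem : (κ t, (0 : ℂ)) ∈ e.target := by
    rw [← het]; exact e.map_source he1
  have hsy : e.symm (κ t, 0) = (t, 0) := by
    rw [← het, e.left_inv he1]
  have hcs : Tendsto e.symm (𝓝 (κ t, 0)) (𝓝 (t, 0)) := by
    have := (e.continuousAt_symm hmem).tendsto
    rwa [hsy] at this
  have hκ'c : Tendsto κ' (𝓝 (κ t)) (𝓝 t) := by
    have := hc.tendsto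
    rwa [hκt] at this
  refine ⟨e.symm, he5 _ hmem, ?_, ?_⟩
  · have e1 : ∀ᶠ s in 𝓝 (κ t), (κ' s, (0 : ℂ)) ∈ e.source :=
      hκ'c.eventually ((tendsto_slice t).eventually (e.open_source.mem_nhds he1))
    have e2 := hκ'c.eventually h1.eventually_nhds
    have e3 : ∀ᶠ s in 𝓝 (κ t), (s, (0 : ℂ)) ∈ e.target :=
      (tendsto_slice (κ t)).eventually (e.open_target.mem_nhds hmem)
    filter_upwards [e1, e2, e3, hκκ, hmm] with s g1 g2 g3 g4 g5
    have g6 : F (κ' s, 0) = (s, 0) := by rw [g2.self_of_nhds.1, g4]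
    have g7 : e.symm (s, 0) = (κ' s, 0) := by
      rw [← g6, ← he3, e.left_inv g1]
    refine ⟨g7, ?_⟩
    have hFa : AnalyticAt ℂ F (κ' s, 0) := he2 g1
    obtain ⟨-, k2⟩ := fderiv_slice hFa.differentiableAt (g2.mono fun u hu => hu.1)
      g2.self_of_nhds.2
    have hGa : AnalyticAt ℂ e.symm (s, 0) := he5 _ g3
    have c2 : HasDerivAt (fun w : ℂ => (s, w)) ((0 : ℂ), (1 : ℂ)) 0 :=
      (hasDerivAt_const (0 : ℂ) s).prodMk (hasDerivAt_id (0 : ℂ))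
    have d2 : HasDerivAt (fun w => e.symm (s, w)) (fderiv ℂ e.symm (s, 0) (0, 1)) 0 :=
      HasFDerivAt.comp_hasDerivAt (f := fun w : ℂ => (s, w)) (0 : ℂ)
        hGa.differentiableAt.hasFDerivAt c2
    have d3 : HasDerivAt (fun w => (e.symm (s, w)).2) (fderiv ℂ e.symm (s, 0) (0, 1)).2 0 := by
      have k4 := (ContinuousLinearMap.snd ℂ ℂ ℂ).hasFDerivAt.comp_hasDerivAt (0 : ℂ) d2
      exact k4
    have d4 : HasFDerivAt (fun q => F (e.symm q))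
        ((fderiv ℂ F (κ' s, 0)).comp (fderiv ℂ e.symm (s, 0))) (s, 0) := by
      have k3 : HasFDerivAt F (fderiv ℂ F (κ' s, 0)) (e.symm (s, 0)) := by
        rw [g7]; exact hFa.differentiableAt.hasFDerivAt
      exact k3.comp (s, (0 : ℂ)) hGa.differentiableAt.hasFDerivAt
    have d5 : HasFDerivAt (fun q : ℂ × ℂ => q)
        ((fderiv ℂ F (κ' s, 0)).comp (fderiv ℂ e.symm (s, 0))) (s, 0) := by
      refine d4.congr_of_eventuallyEq ?_
      filter_upwards [e.open_target.mem_nhds g3] with q hq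
      rw [← he3, e.right_inv hq]
    have d6 := d5.unique (hasFDerivAt_id (𝕜 := ℂ) (s, (0 : ℂ)))
    have d7 : (fderiv ℂ F (κ' s, 0)) (fderiv ℂ e.symm (s, 0) (0, 1)) = ((0 : ℂ), (1 : ℂ)) := by
      have := congrArg (fun L : ℂ × ℂ →L[ℂ] ℂ × ℂ => L (0, 1)) d6
      simpa using this
    have d8 := k2 (fderiv ℂ e.symm (s, 0) (0, 1))
    rw [d7] at d8
    have d9 : (fderiv ℂ e.symm (s, 0) (0, 1)).2 = m' s := by
      have hm0 : m (κ' s) ≠ 0 := right_ne_zero_of_mul_eq_one g5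
      apply mul_left_cancel₀ hm0
      rw [← d8, mul_comm, g5]
    rw [d9] at d3
    exact d3
  · filter_upwards [hcs.eventually h2, e.open_target.mem_nhds hmem] with q h3 h4
    rw [h3, ← he3, e.right_inv h4]

theorem Rel.symm (h : Rel Φ Ψ t) : Rel Ψ Φ t := by
  have := Rl.symm (κ := fun s => s) (m := fun _ => 1) (κ' := fun s => s) (m' := fun _ => 1)
    (t := t) h (by simp) one_ne_zero continuousAt_id rfl (Eventually.of_forall fun s => rfl)
    (Eventually.of_forall fun s => by simp)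
  exact this


end RlCalc


/-! ### Division by `w` -/

section Division

theorem exists_div {W : Set ℂ} (hW : IsOpen W) {ρ : ℝ} {g : ℂ × ℂ → ℂ}
    (hg : AnalyticOnNhd ℂ g (W ×ˢ ball 0 ρ)) (h0 : ∀ s ∈ W, g (s, 0) = 0) :
    ∃ h : ℂ × ℂ → ℂ, AnalyticOnNhd ℂ h (W ×ˢ ball 0 ρ) ∧
      ∀ q ∈ W ×ˢ ball (0 : ℂ) ρ, g q = q.2 * h q := by
  have hU : IsOpen (W ×ˢ ball (0 : ℂ) ρ) := hW.prod isOpen_ball
  set D : ℂ × ℂ → ℂ := fun q => fderiv ℂ g q (0, 1) with hD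
  have hDa : AnalyticOnNhd ℂ D (W ×ˢ ball 0 ρ) := by
    intro q hq
    exact (ContinuousLinearMap.apply ℂ ℂ ((0 : ℂ), (1 : ℂ))).analyticAt _ |>.comp (hg q hq).fderiv
  set σ : ((ℂ × ℂ) × ℝ) → ℂ × ℂ := fun p => (p.1.1, (p.2 : ℂ) * p.1.2) with hσ
  have hσc : Continuous σ := by
    simp only [hσ]
    fun_prop
  have hmem : ∀ p ∈ (W ×ˢ ball (0 : ℂ) ρ) ×ˢ uIcc (0 : ℝ) 1, σ p ∈ W ×ˢ ball (0 : ℂ) ρ := by
    rintro ⟨q, τ⟩ ⟨hq, hτ⟩
    rw [uIcc_of_le zero_le_one] at hτ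
    refine ⟨hq.1, ?_⟩
    rw [mem_ball_zero_iff, norm_mul, Complex.norm_real, Real.norm_of_nonneg hτ.1]
    have h1 : ‖q.2‖ < ρ := mem_ball_zero_iff.1 hq.2
    calc τ * ‖q.2‖ ≤ 1 * ‖q.2‖ := mul_le_mul_of_nonneg_right hτ.2 (norm_nonneg _)
      _ < ρ := by rwa [one_mul]
  refine ⟨fun q => ∫ τ in (0 : ℝ)..1, D (σ (q, τ)), ?_, ?_⟩
  · refine Crest.Agent.R266.SCV.analyticOnNhd_intervalIntegral (f := fun p => D (σ p)) hU ?_ ?_
    · exact hDa.continuousOn.comp hσc.continuousOn hmem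
    · intro τ hτ
      refine hDa.differentiableOn.comp (t := W ×ˢ ball (0 : ℂ) ρ) ?_ (fun q hq => hmem (q, τ) ⟨hq, hτ⟩)
      have : Differentiable ℂ (fun q : ℂ × ℂ => (q.1, (τ : ℂ) * q.2)) := by fun_prop
      exact this.differentiableOn
  · intro q hq
    have h1 : ∀ τ ∈ uIcc (0 : ℝ) 1, HasDerivAt (fun τ : ℝ => g (σ (q, τ)))
        (q.2 * D (σ (q, τ))) τ := by
      intro τ hτ
      have h2 : HasFDerivAt g (fderiv ℂ g (σ (q, τ))) (σ (q, τ)) :=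
        (hg _ (hmem (q, τ) ⟨hq, hτ⟩)).differentiableAt.hasFDerivAt
      have h3 : HasDerivAt (fun τ : ℝ => (τ : ℂ) * q.2) (1 * q.2) τ :=
        (Complex.ofRealCLM.hasDerivAt (x := τ)).mul_const q.2
      have h4 : HasDerivAt (fun τ : ℝ => σ (q, τ)) ((0 : ℂ), 1 * q.2) τ :=
        (hasDerivAt_const τ q.1).prodMk h3
      have h5 := (h2.restrictScalars ℝ).comp_hasDerivAt τ h4
      have h6 : ((fderiv ℂ g (σ (q, τ))).restrictScalars ℝ) ((0 : ℂ), 1 * q.2) =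
          q.2 * D (σ (q, τ)) := by
        have h7 : ((0 : ℂ), 1 * q.2) = q.2 • ((0 : ℂ), (1 : ℂ)) := by simp
        rw [h7, ContinuousLinearMap.coe_restrictScalars', map_smul, smul_eq_mul]
      rw [h6] at h5
      exact h5
    have h2 : ContinuousOn (fun τ : ℝ => q.2 * D (σ (q, τ))) (uIcc 0 1) := by
      refine continuousOn_const.mul ?_
      refine hDa.continuousOn.comp (t := W ×ˢ ball (0 : ℂ) ρ) ?_ (fun τ hτ => hmem (q, τ) ⟨hq, hτ⟩)
      exact (hσc.comp (by fun_prop : Continuous (fun τ : ℝ => (q, τ)))).continuousOn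
    have h3 := intervalIntegral.integral_eq_sub_of_hasDerivAt h1 h2.intervalIntegrable
    rw [intervalIntegral.integral_const_mul] at h3
    show g q = q.2 * ∫ τ in (0 : ℝ)..1, D (σ (q, τ))
    rw [h3]
    have h4 : σ (q, 1) = q := by simp [hσ]
    have h5 : σ (q, 0) = (q.1, 0) := by simp [hσ]
    rw [h4, h5, h0 q.1 hq.1, sub_zero]

/-- second order division -/
theorem exists_div_two {W : Set ℂ} (hW : IsOpen W) {ρ : ℝ} (hρ : 0 < ρ) {g : ℂ × ℂ → ℂ}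
    (hg : AnalyticOnNhd ℂ g (W ×ˢ ball 0 ρ)) (h0 : ∀ s ∈ W, g (s, 0) = 0)
    (h1 : ∀ s ∈ W, HasDerivAt (fun w => g (s, w)) 0 0) :
    ∃ h : ℂ × ℂ → ℂ, AnalyticOnNhd ℂ h (W ×ˢ ball 0 ρ) ∧
      ∀ q ∈ W ×ˢ ball (0 : ℂ) ρ, g q = q.2 ^ 2 * h q := by
  obtain ⟨k, hk, hgk⟩ := exists_div hW hg h0
  have hk0 : ∀ s ∈ W, k (s, 0) = 0 := by
    intro s hs
    have hmem : (s, (0 : ℂ)) ∈ W ×ˢ ball (0 : ℂ) ρ := ⟨hs, mem_ball_self hρ⟩
    have hkd : DifferentiableAt ℂ (fun w : ℂ => k (s, w)) 0 :=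
      DifferentiableAt.comp (g := k) (0 : ℂ) (hk _ hmem).differentiableAt (by fun_prop)
    have h2 : HasDerivAt (fun w : ℂ => w * k (s, w)) (1 * k (s, 0) + 0 * deriv (fun w : ℂ => k (s, w)) 0)
        0 := (hasDerivAt_id (0 : ℂ)).mul hkd.hasDerivAt
    have h3 : HasDerivAt (fun w => g (s, w)) (1 * k (s, 0) + 0 * deriv (fun w : ℂ => k (s, w)) 0)
        0 := by
      refine h2.congr_of_eventuallyEq ?_
      filter_upwards [ball_mem_nhds (0 : ℂ) hρ] with w hw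
      exact hgk (s, w) ⟨hs, hw⟩
    have h4 := h3.unique (h1 s hs)
    simpa using h4
  obtain ⟨h, hh, hkh⟩ := exists_div hW hk hk0
  refine ⟨h, hh, fun q hq => ?_⟩
  rw [hgk q hq, hkh q hq]
  ring

end Division

/-! ### Neighbourhoods of `K × {0}` -/

theorem exists_tube_nhd {K : Set ℂ} (hK : IsCompact K) {p : ℂ × ℂ → Prop}
    (h : ∀ t ∈ K, ∀ᶠ q in 𝓝 (t, (0 : ℂ)), p q) :
    ∃ W : Set ℂ, IsOpen W ∧ K ⊆ W ∧ ∃ ρ : ℝ, 0 < ρ ∧ ∀ q ∈ W ×ˢ ball (0 : ℂ) ρ, p q := by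
  have hopen : IsOpen {q : ℂ × ℂ | ∀ᶠ q' in 𝓝 q, p q'} := isOpen_setOfPred_eventually_nhds
  have hsub : K ×ˢ {(0 : ℂ)} ⊆ {q : ℂ × ℂ | ∀ᶠ q' in 𝓝 q, p q'} := by
    rintro ⟨t, w⟩ ⟨ht, hw⟩
    have hw' : w = 0 := hw
    subst hw'
    exact h t ht
  obtain ⟨u, v, hu, hv, hKu, h0v, huv⟩ := generalized_tube_lemma hK isCompact_singleton hopen hsub
  obtain ⟨ρ, hρ, hρv⟩ := Metric.isOpen_iff.1 hv 0 (h0v rfl)
  refine ⟨u, hu, hKu, ρ, hρ, fun q hq => ?_⟩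
  have : q ∈ {q : ℂ × ℂ | ∀ᶠ q' in 𝓝 q, p q'} := huv ⟨hq.1, hρv hq.2⟩
  exact this.self_of_nhds

/-! ### (G2) the change of tubes near a compact set -/

/-- the change of tubes in the general form -/
theorem exists_transition_gen {P P' : ℂ → X} {U V : Set ℂ} {r s : ℝ} {Φ Ψ : ℂ × ℂ → X}
    (hΦ : Tube P U r Φ) (hΨ : Tube P' V s Ψ) {κ m : ℂ → ℂ} {K : Set ℂ} (hK : IsCompact K)
    (hKU : K ⊆ U) (hKV : ∀ t ∈ K, κ t ∈ V) (hrel : ∀ t ∈ K, Rl κ m Φ Ψ t) :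
    ∃ W : Set ℂ, IsOpen W ∧ K ⊆ W ∧ ∃ ρ : ℝ, 0 < ρ ∧
      AnalyticOnNhd ℂ κ W ∧ AnalyticOnNhd ℂ m W ∧
      ∃ f₁ f₂ : ℂ × ℂ → ℂ, AnalyticOnNhd ℂ f₁ (W ×ˢ ball 0 ρ) ∧ AnalyticOnNhd ℂ f₂ (W ×ˢ ball 0 ρ) ∧
        ∀ q ∈ W ×ˢ ball (0 : ℂ) ρ, q ∈ U ×ˢ ball (0 : ℂ) r ∧
          (κ q.1 + q.2 * f₁ q, m q.1 * q.2 + q.2 ^ 2 * f₂ q) ∈ V ×ˢ ball (0 : ℂ) s ∧
          Φ q = Ψ (κ q.1 + q.2 * f₁ q, m q.1 * q.2 + q.2 ^ 2 * f₂ q) := by
  obtain ⟨Θ, hΘ, hΘΨ⟩ := hΨ.inv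
  set N : Set X := Ψ '' (V ×ˢ ball 0 s) with hN
  have hUo : IsOpen (U ×ˢ ball (0 : ℂ) r) := hΦ.openU.prod isOpen_ball
  have hVo : IsOpen (V ×ˢ ball (0 : ℂ) s) := hΨ.openU.prod isOpen_ball
  set Ω : Set (ℂ × ℂ) := (U ×ˢ ball 0 r) ∩ Φ ⁻¹' N with hΩ
  have hΩo : IsOpen Ω := hΦ.hol.continuousOn.isOpen_inter_preimage hUo hΨ.openIm
  set G : ℂ × ℂ → ℂ × ℂ := fun q => Θ (Φ q) with hG
  have hGa : AnalyticOnNhd ℂ G Ω := by
    refine Crest.Agent.R266.SCV.analyticOnNhd_of_differentiableOn hΩo ?_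
    have h1 : ContMDiffOn 𝓘(ℂ, ℂ × ℂ) 𝓘(ℂ, ℂ × ℂ) 1 G Ω :=
      hΘ.comp (hΦ.hol.mono inter_subset_left) (fun q hq => hq.2)
    exact (contMDiffOn_iff_contDiffOn.1 h1).differentiableOn (by norm_num)
  have hloc : ∀ t ∈ K, (∀ᶠ q in 𝓝 (t, (0 : ℂ)), q ∈ Ω) ∧
      (∀ᶠ u in 𝓝 t, G (u, 0) = (κ u, 0) ∧ HasDerivAt (fun w => (G (u, w)).2) (m u) 0) ∧
      (∀ᶠ q in 𝓝 (t, (0 : ℂ)), G q ∈ V ×ˢ ball (0 : ℂ) s ∧ Φ q = Ψ (G q)) := by
    intro t ht
    obtain ⟨F, hF, h1, h2⟩ := hrel t ht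
    have hFt : F (t, 0) = (κ t, 0) := h1.self_of_nhds.1
    have hmem : F (t, 0) ∈ V ×ˢ ball (0 : ℂ) s := by
      rw [hFt]; exact ⟨hKV t ht, mem_ball_self hΨ.pos⟩
    have h3 : ∀ᶠ q in 𝓝 (t, (0 : ℂ)), F q ∈ V ×ˢ ball (0 : ℂ) s :=
      hF.continuousAt.eventually (hVo.mem_nhds hmem)
    have h4 : ∀ᶠ q in 𝓝 (t, (0 : ℂ)), q ∈ U ×ˢ ball (0 : ℂ) r :=
      hUo.mem_nhds ⟨hKU ht, mem_ball_self hΦ.pos⟩
    have h5 : ∀ᶠ q in 𝓝 (t, (0 : ℂ)), G q = F q ∧ q ∈ Ω ∧ G q ∈ V ×ˢ ball (0 : ℂ) s ∧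
        Φ q = Ψ (G q) := by
      filter_upwards [h2, h3, h4] with q g2 g3 g4
      have g5 : G q = F q := by
        simp only [hG]
        rw [g2, hΘΨ _ g3]
      refine ⟨g5, ⟨g4, ?_⟩, ?_, ?_⟩
      · show Φ q ∈ N
        rw [g2]
        exact mem_image_of_mem _ g3
      · rw [g5]; exact g3
      · rw [g5]; exact g2
    refine ⟨h5.mono fun q hq => hq.2.1, ?_, h5.mono fun q hq => hq.2.2⟩
    have h6 := (tendsto_slice t).eventually (h5.eventually_nhds)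
    filter_upwards [h1, h6] with u g1 g6
    refine ⟨by rw [g6.self_of_nhds.1, g1.1], ?_⟩
    refine g1.2.congr_of_eventuallyEq ?_
    have h7 : Tendsto (fun w : ℂ => (u, w)) (𝓝 0) (𝓝 (u, 0)) := by
      have : Continuous (fun w : ℂ => (u, w)) := by fun_prop
      exact this.tendsto 0
    filter_upwards [h7.eventually g6] with w hw
    rw [hw.1]
  obtain ⟨W₁, hW₁, hKW₁, ρ, hρ, hW₁p⟩ := exists_tube_nhd hK
    (p := fun q => q ∈ Ω ∧ G q ∈ V ×ˢ ball (0 : ℂ) s ∧ Φ q = Ψ (G q))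
    (fun t ht => (hloc t ht).1.and (hloc t ht).2.2)
  set W : Set ℂ := W₁ ∩ {u | ∀ᶠ u' in 𝓝 u, G (u', 0) = (κ u', 0) ∧
    HasDerivAt (fun w => (G (u', w)).2) (m u') 0} with hWdef
  have hWo : IsOpen W := hW₁.inter isOpen_setOfPred_eventually_nhds
  have hKW : K ⊆ W := fun t ht => ⟨hKW₁ ht, (hloc t ht).2.1⟩
  have hWp : ∀ q ∈ W ×ˢ ball (0 : ℂ) ρ, q ∈ Ω ∧ G q ∈ V ×ˢ ball (0 : ℂ) s ∧ Φ q = Ψ (G q) :=
    fun q hq => hW₁p q ⟨hq.1.1, hq.2⟩
  have hWs : ∀ u ∈ W, G (u, 0) = (κ u, 0) ∧ HasDerivAt (fun w => (G (u, w)).2) (m u) 0 :=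
    fun u hu => by
      have h1 : ∀ᶠ u' in 𝓝 u, G (u', 0) = (κ u', 0) ∧
        HasDerivAt (fun w => (G (u', w)).2) (m u') 0 := hu.2
      exact h1.self_of_nhds
  have hGW : AnalyticOnNhd ℂ G (W ×ˢ ball 0 ρ) := fun q hq => hGa q (hWp q hq).1
  have hsl : ∀ u ∈ W, (u, (0 : ℂ)) ∈ W ×ˢ ball (0 : ℂ) ρ := fun u hu => ⟨hu, mem_ball_self hρ⟩
  have hκa : AnalyticOnNhd ℂ κ W := by
    intro u hu
    have h1 : AnalyticAt ℂ (fun u : ℂ => (G (u, 0)).1) u := by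
      have h2 : AnalyticAt ℂ (fun u : ℂ => (u, (0 : ℂ))) u := analyticAt_id.prod analyticAt_const
      have h3 : AnalyticAt ℂ (fun u : ℂ => G (u, 0)) u :=
        AnalyticAt.comp (g := G) (hGW _ (hsl u hu)) h2
      exact (ContinuousLinearMap.fst ℂ ℂ ℂ).analyticAt _ |>.comp h3
    refine h1.congr ?_
    filter_upwards [hWo.mem_nhds hu] with u' hu'
    rw [(hWs u' hu').1]
  have hma : AnalyticOnNhd ℂ m W := by
    intro u hu
    have h1 : AnalyticAt ℂ (fun u : ℂ => (fderiv ℂ G (u, 0) (0, 1)).2) u := by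
      have h2 : AnalyticAt ℂ (fun u : ℂ => (u, (0 : ℂ))) u := analyticAt_id.prod analyticAt_const
      have h3 : AnalyticAt ℂ (fun u : ℂ => fderiv ℂ G (u, 0)) u :=
        AnalyticAt.comp (g := fderiv ℂ G) (hGW _ (hsl u hu)).fderiv h2
      have h4 : AnalyticAt ℂ (fun u : ℂ => fderiv ℂ G (u, 0) (0, 1)) u :=
        (ContinuousLinearMap.apply ℂ (ℂ × ℂ) ((0 : ℂ), (1 : ℂ))).analyticAt _ |>.comp h3
      exact (ContinuousLinearMap.snd ℂ ℂ ℂ).analyticAt _ |>.comp h4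
    refine h1.congr ?_
    filter_upwards [hWo.mem_nhds hu] with u' hu'
    have h5 := (fderiv_slice (κ := κ) (hGW _ (hsl u' hu')).differentiableAt
      (by filter_upwards [hWo.mem_nhds hu'] with u'' hu''; exact (hWs u'' hu'').1)
      (hWs u' hu').2).2 (0, 1)
    rw [h5]
    simp
  have hfst : AnalyticOnNhd ℂ (fun q : ℂ × ℂ => q.1) (W ×ˢ ball 0 ρ) := fun q _ => analyticAt_fst
  have hsnd : AnalyticOnNhd ℂ (fun q : ℂ × ℂ => q.2) (W ×ˢ ball 0 ρ) := fun q _ => analyticAt_snd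
  have hκ2 : AnalyticOnNhd ℂ (fun q : ℂ × ℂ => κ q.1) (W ×ˢ ball 0 ρ) :=
    fun q hq => AnalyticAt.comp (g := κ) (hκa q.1 hq.1) analyticAt_fst
  have hm2 : AnalyticOnNhd ℂ (fun q : ℂ × ℂ => m q.1) (W ×ˢ ball 0 ρ) :=
    fun q hq => AnalyticAt.comp (g := m) (hma q.1 hq.1) analyticAt_fst
  have hG1 : AnalyticOnNhd ℂ (fun q : ℂ × ℂ => (G q).1) (W ×ˢ ball 0 ρ) :=
    fun q hq => (ContinuousLinearMap.fst ℂ ℂ ℂ).analyticAt _ |>.comp (hGW q hq)
  have hG2 : AnalyticOnNhd ℂ (fun q : ℂ × ℂ => (G q).2) (W ×ˢ ball 0 ρ) :=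
    fun q hq => (ContinuousLinearMap.snd ℂ ℂ ℂ).analyticAt _ |>.comp (hGW q hq)
  obtain ⟨f₁, hf₁, hf₁e⟩ := exists_div hWo (g := fun q => (G q).1 - κ q.1) (hG1.sub hκ2)
    (fun u hu => by
      show (G (u, 0)).1 - κ u = 0
      rw [(hWs u hu).1]; simp)
  obtain ⟨f₂, hf₂, hf₂e⟩ := exists_div_two hWo hρ (g := fun q => (G q).2 - m q.1 * q.2)
    (hG2.sub (hm2.mul hsnd))
    (fun u hu => by
      show (G (u, 0)).2 - m u * 0 = 0
      rw [(hWs u hu).1]; simp)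
    (fun u hu => by
      have h1 := (hWs u hu).2
      have h2 : HasDerivAt (fun w : ℂ => m u * w) (m u * 1) 0 := (hasDerivAt_id (0 : ℂ)).const_mul _
      have h3 : HasDerivAt (fun w => (G (u, w)).2 - m u * w) (m u - m u * 1) 0 := h1.sub h2
      rw [mul_one, sub_self] at h3
      exact h3)
  refine ⟨W, hWo, hKW, ρ, hρ, hκa, hma, f₁, f₂, hf₁, hf₂, fun q hq => ?_⟩
  have e1 : κ q.1 + q.2 * f₁ q = (G q).1 := by rw [← hf₁e q hq]; ring
  have e2 : m q.1 * q.2 + q.2 ^ 2 * f₂ q = (G q).2 := by rw [← hf₂e q hq]; ring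
  obtain ⟨g1, g2, g3⟩ := hWp q hq
  refine ⟨g1.1, ?_, ?_⟩
  · rw [e1, e2]; exact g2
  · rw [e1, e2]; exact g3

/-- the change of tubes, normalised form -/
theorem exists_transition {P : ℂ → X} {U V : Set ℂ} {r s : ℝ} {Φ Ψ : ℂ × ℂ → X}
    (hΦ : Tube P U r Φ) (hΨ : Tube P V s Ψ) {K : Set ℂ} (hK : IsCompact K)
    (hKU : K ⊆ U) (hKV : K ⊆ V) (hrel : ∀ t ∈ K, Rel Φ Ψ t) :
    ∃ W : Set ℂ, IsOpen W ∧ K ⊆ W ∧ ∃ ρ : ℝ, 0 < ρ ∧
      ∃ f₁ f₂ : ℂ × ℂ → ℂ, AnalyticOnNhd ℂ f₁ (W ×ˢ ball 0 ρ) ∧ AnalyticOnNhd ℂ f₂ (W ×ˢ ball 0 ρ) ∧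
        ∀ q ∈ W ×ˢ ball (0 : ℂ) ρ, q ∈ U ×ˢ ball (0 : ℂ) r ∧
          (q.1 + q.2 * f₁ q, q.2 + q.2 ^ 2 * f₂ q) ∈ V ×ˢ ball (0 : ℂ) s ∧
          Φ q = Ψ (q.1 + q.2 * f₁ q, q.2 + q.2 ^ 2 * f₂ q) := by
  obtain ⟨W, hW, hKW, ρ, hρ, -, -, f₁, f₂, hf₁, hf₂, h⟩ := exists_transition_gen hΦ hΨ
    (κ := fun s => s) (m := fun _ => 1) hK hKU hKV hrel
  refine ⟨W, hW, hKW, ρ, hρ, f₁, f₂, hf₁, hf₂, fun q hq => ?_⟩
  simpa only [one_mul] using h q hq


/-! ### (G3) tubes from germs -/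

/-- `Φ` is a local biholomorphism at `q` -/
def LocB (Φ : ℂ × ℂ → X) (q : ℂ × ℂ) : Prop :=
  ∃ E : OpenPartialHomeomorph (ℂ × ℂ) X, q ∈ E.source ∧ (∀ x ∈ E.source, E x = Φ x) ∧
    ContMDiffOn 𝓘(ℂ, ℂ × ℂ) 𝓘(ℂ, C2) 1 E E.source ∧
    ContMDiffOn 𝓘(ℂ, C2) 𝓘(ℂ, ℂ × ℂ) 1 E.symm E.target

/-- a tube as an open partial homeomorphism -/
theorem Tube.exists_oph {P : ℂ → X} {U : Set ℂ} {r : ℝ} {Φ : ℂ × ℂ → X} (h : Tube P U r Φ) :
    ∃ E : OpenPartialHomeomorph (ℂ × ℂ) X, E.source = U ×ˢ ball 0 r ∧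
      E.target = Φ '' (U ×ˢ ball 0 r) ∧ (∀ x, E x = Φ x) ∧
      ContMDiffOn 𝓘(ℂ, C2) 𝓘(ℂ, ℂ × ℂ) 1 E.symm E.target := by
  obtain ⟨Θ, hΘ, hΘΦ⟩ := h.inv
  refine ⟨{ toFun := Φ, invFun := Θ, source := U ×ˢ ball 0 r, target := Φ '' (U ×ˢ ball 0 r)
            map_source' := fun x hx => mem_image_of_mem _ hx
            map_target' := ?_
            left_inv' := fun x hx => hΘΦ x hx
            right_inv' := ?_
            open_source := h.openU.prod isOpen_ball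
            open_target := h.openIm
            continuousOn_toFun := h.hol.continuousOn
            continuousOn_invFun := hΘ.continuousOn }, rfl, rfl, fun x => rfl, hΘ⟩
  · rintro _ ⟨x, hx, rfl⟩
    rw [hΘΦ x hx]; exact hx
  · rintro _ ⟨x, hx, rfl⟩
    rw [hΘΦ x hx]

theorem Tube.locB {P : ℂ → X} {U : Set ℂ} {r : ℝ} {Φ : ℂ × ℂ → X} (h : Tube P U r Φ)
    {q : ℂ × ℂ} (hq : q ∈ U ×ˢ ball (0 : ℂ) r) : LocB Φ q := by
  obtain ⟨E, h1, h2, h3, h4⟩ := Tube.exists_oph h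
  refine ⟨E, by rw [h1]; exact hq, fun x _ => h3 x, ?_, h4⟩
  rw [h1]
  exact h.hol.congr (fun x _ => h3 x)

/-- a germ related to a tube is a local biholomorphism -/
theorem Rl.locB {P : ℂ → X} {V : Set ℂ} {s : ℝ} {Φ Ψ : ℂ × ℂ → X} {κ m : ℂ → ℂ} {t : ℂ}
    (h : Rl κ m Φ Ψ t) (hΨ : Tube P V s Ψ) (ht : κ t ∈ V) (hκ : deriv κ t ≠ 0) (hm : m t ≠ 0) :
    LocB Φ (t, 0) := by
  obtain ⟨F, hF, h1, h2⟩ := h
  obtain ⟨E, hE1, -, hE3, hE4⟩ := Tube.exists_oph hΨ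
  have hEh : ContMDiffOn 𝓘(ℂ, ℂ × ℂ) 𝓘(ℂ, C2) 1 E E.source := by
    rw [hE1]
    exact hΨ.hol.congr (fun x _ => hE3 x)
  have hFt : F (t, 0) = (κ t, 0) := h1.self_of_nhds.1
  obtain ⟨N, hNs, hNo, htN⟩ := _root_.mem_nhds_iff.1 h2
  obtain ⟨e, he1, he2, he3, he4, he5⟩ := exists_oph hF (h1.mono fun s hs => hs.1)
    h1.self_of_nhds.2 hκ hm (hNo.mem_nhds htN)
  have hmem : e (t, 0) ∈ E.source := by
    rw [he3, hFt, hE1]; exact ⟨ht, mem_ball_self hΨ.pos⟩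
  have hsrc : (e.trans E).source = e.source ∩ e ⁻¹' E.source := e.trans_source E
  have htgt : (e.trans E).target = E.target ∩ E.symm ⁻¹' e.target := e.trans_target E
  refine ⟨e.trans E, ?_, ?_, ?_, ?_⟩
  · rw [hsrc]; exact ⟨he1, hmem⟩
  · intro x hx
    rw [hsrc] at hx
    have h3 : Φ x = Ψ (F x) := hNs (he2 hx.1)
    rw [e.coe_trans, Function.comp_apply, hE3, he3, h3]
  · have h3 : ContMDiffOn 𝓘(ℂ, ℂ × ℂ) 𝓘(ℂ, ℂ × ℂ) 1 e e.source := by
      rw [contMDiffOn_iff_contDiffOn]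
      exact he4.contDiffOn e.open_source.uniqueDiffOn
    rw [hsrc, e.coe_trans]
    exact hEh.comp (h3.mono inter_subset_left) (fun x hx => hx.2)
  · have h3 : ContMDiffOn 𝓘(ℂ, ℂ × ℂ) 𝓘(ℂ, ℂ × ℂ) 1 e.symm e.target := by
      rw [contMDiffOn_iff_contDiffOn]
      exact he5.contDiffOn e.open_target.uniqueDiffOn
    rw [htgt, e.coe_trans_symm]
    exact h3.comp (hE4.mono inter_subset_left) (fun x hx => hx.2)

/-- local biholomorphisms which are injective near `K × {0}` give a tube -/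
theorem tube_of_locB [T2Space X] {P : ℂ → X} {Φ : ℂ × ℂ → X} {K O : Set ℂ} (hK : IsCompact K)
    (hO : IsOpen O) (hKO : K ⊆ O) {ρ : ℝ} (hρ : 0 < ρ) (hP : ∀ t ∈ O, Φ (t, 0) = P t)
    (hinj : InjOn P K) (hloc : ∀ t ∈ K, LocB Φ (t, 0)) :
    ∃ (U : Set ℂ) (r : ℝ), K ⊆ U ∧ U ⊆ O ∧ r ≤ ρ ∧ Tube P U r Φ := by
  -- injectivity near the compact set
  have hKc : IsCompact (K ×ˢ {(0 : ℂ)}) := hK.prod isCompact_singleton
  have hat : ∀ x ∈ K ×ˢ {(0 : ℂ)}, LocB Φ x := by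
    rintro ⟨t, w⟩ ⟨ht, hw⟩
    have hw' : w = 0 := hw
    subst hw'
    exact hloc t ht
  have hi0 : InjOn Φ (K ×ˢ {(0 : ℂ)}) := by
    rintro ⟨t, w⟩ ⟨ht, hw⟩ ⟨t', w'⟩ ⟨ht', hw'⟩ he
    have h1 : w = 0 := hw
    have h2 : w' = 0 := hw'
    subst h1
    subst h2
    rw [hP t (hKO ht), hP t' (hKO ht')] at he
    have h3 : t = t' := hinj ht ht' he
    rw [h3]
  have hcont : ∀ x ∈ K ×ˢ {(0 : ℂ)}, ContinuousAt Φ x := by
    intro x hx
    obtain ⟨E, hE1, hE2, -, -⟩ := hat x hx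
    refine (E.continuousAt hE1).congr ?_
    filter_upwards [E.open_source.mem_nhds hE1] with y hy using hE2 y hy
  have hli : ∀ x ∈ K ×ˢ {(0 : ℂ)}, ∃ u ∈ 𝓝 x, InjOn Φ u := by
    intro x hx
    obtain ⟨E, hE1, hE2, -, -⟩ := hat x hx
    refine ⟨E.source, E.open_source.mem_nhds hE1, ?_⟩
    intro y hy z hz hyz
    rw [← hE2 y hy, ← hE2 z hz] at hyz
    exact E.injOn hy hz hyz
  obtain ⟨T, hT, hTi⟩ := hi0.exists_mem_nhdsSet hKc hcont hli
  have hTat : ∀ t ∈ K, ∀ᶠ q in 𝓝 (t, (0 : ℂ)), q ∈ T := by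
    intro t ht
    exact (mem_nhdsSet_iff_forall.1 hT) (t, 0) ⟨ht, rfl⟩
  have hOat : ∀ t ∈ K, ∀ᶠ q in 𝓝 (t, (0 : ℂ)), q.1 ∈ O := by
    intro t ht
    have : Tendsto (fun q : ℂ × ℂ => q.1) (𝓝 (t, 0)) (𝓝 t) := continuous_fst.tendsto (t, (0 : ℂ))
    exact this.eventually (hO.mem_nhds (hKO ht))
  have hLat : ∀ t ∈ K, ∀ᶠ q in 𝓝 (t, (0 : ℂ)), LocB Φ q := by
    intro t ht
    obtain ⟨E, hE1, hE2, hE3, hE4⟩ := hloc t ht
    filter_upwards [E.open_source.mem_nhds hE1] with q hq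
    exact ⟨E, hq, hE2, hE3, hE4⟩
  obtain ⟨W, hW, hKW, ρ', hρ', hWp⟩ := exists_tube_nhd hK
    (p := fun q => q ∈ T ∧ q.1 ∈ O ∧ LocB Φ q)
    (fun t ht => (hTat t ht).and ((hOat t ht).and (hLat t ht)))
  have hWO : W ⊆ O := fun u hu => (hWp (u, 0) ⟨hu, mem_ball_self hρ'⟩).2.1
  set r : ℝ := min ρ ρ' with hr
  have hr0 : 0 < r := lt_min hρ hρ'
  have hsub : W ×ˢ ball (0 : ℂ) r ⊆ W ×ˢ ball (0 : ℂ) ρ' :=
    prod_mono le_rfl (ball_subset_ball (min_le_right _ _))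
  have hWo : IsOpen (W ×ˢ ball (0 : ℂ) r) := hW.prod isOpen_ball
  have hin : InjOn Φ (W ×ˢ ball (0 : ℂ) r) :=
    hTi.mono (fun q hq => (hWp q (hsub hq)).1)
  have hLB : ∀ q ∈ W ×ˢ ball (0 : ℂ) r, LocB Φ q := fun q hq => (hWp q (hsub hq)).2.2
  have himg : ∀ (E : OpenPartialHomeomorph (ℂ × ℂ) X), (∀ x ∈ E.source, E x = Φ x) →
      IsOpen (Φ '' (E.source ∩ W ×ˢ ball (0 : ℂ) r)) := by
    intro E hE
    have h1 : Φ '' (E.source ∩ W ×ˢ ball (0 : ℂ) r) = E '' (E.source ∩ W ×ˢ ball (0 : ℂ) r) :=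
      image_congr (fun x hx => (hE x hx.1).symm)
    rw [h1]
    exact E.isOpen_image_of_subset_source (E.open_source.inter hWo) inter_subset_left
  refine ⟨W, r, hKW, hWO, min_le_left _ _, hW, hr0, ?_, hin, ?_, ?_, ?_⟩
  · intro q hq
    obtain ⟨E, hE1, hE2, hE3, hE4⟩ := hLB q hq
    have h1 : ContMDiffAt 𝓘(ℂ, ℂ × ℂ) 𝓘(ℂ, C2) 1 E q :=
      hE3.contMDiffAt (E.open_source.mem_nhds hE1)
    have h2 : ContMDiffAt 𝓘(ℂ, ℂ × ℂ) 𝓘(ℂ, C2) 1 Φ q := by
      refine h1.congr_of_eventuallyEq ?_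
      filter_upwards [E.open_source.mem_nhds hE1] with x hx using (hE2 x hx).symm
    exact h2.contMDiffWithinAt
  · rw [isOpen_iff_mem_nhds]
    rintro _ ⟨q, hq, rfl⟩
    obtain ⟨E, hE1, hE2, hE3, hE4⟩ := hLB q hq
    refine mem_of_superset ((himg E hE2).mem_nhds (mem_image_of_mem _ ⟨hE1, hq⟩)) ?_
    exact image_mono inter_subset_right
  · refine ⟨Function.invFunOn Φ (W ×ˢ ball (0 : ℂ) r), ?_, ?_⟩
    · rintro _ ⟨q, hq, rfl⟩
      obtain ⟨E, hE1, hE2, hE3, hE4⟩ := hLB q hq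
      have h1 : ContMDiffAt 𝓘(ℂ, C2) 𝓘(ℂ, ℂ × ℂ) 1 E.symm (Φ q) := by
        rw [← hE2 q hE1]
        exact hE4.contMDiffAt (E.open_target.mem_nhds (E.map_source hE1))
      have h2 : Function.invFunOn Φ (W ×ˢ ball (0 : ℂ) r) =ᶠ[𝓝 (Φ q)] E.symm := by
        filter_upwards [(himg E hE2).mem_nhds (mem_image_of_mem _ ⟨hE1, hq⟩)] with y hy
        obtain ⟨x, hx, rfl⟩ := hy
        have h3 : Function.invFunOn Φ (W ×ˢ ball (0 : ℂ) r) (Φ x) = x :=
          hin.leftInvOn_invFunOn hx.2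
        rw [h3, ← hE2 x hx.1, E.left_inv hx.1]
      exact (h1.congr_of_eventuallyEq h2).contMDiffWithinAt
    · intro q hq
      exact hin.leftInvOn_invFunOn hq
  · intro t ht
    exact hP t (hWO ht)

/-- (G3) a map which is related to tubes along the compact piece `K` of the curve is a tube near
`K` -/
theorem tube_of_germ [T2Space X] {P : ℂ → X} {Φ : ℂ × ℂ → X} {K O : Set ℂ} (hK : IsCompact K)
    (hO : IsOpen O) (hKO : K ⊆ O) {ρ : ℝ} (hρ : 0 < ρ) (hP : ∀ t ∈ O, Φ (t, 0) = P t)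
    (hinj : InjOn P K)
    (hrel : ∀ t ∈ K, ∃ (V : Set ℂ) (s : ℝ) (Ψ : ℂ × ℂ → X), t ∈ V ∧ Tube P V s Ψ ∧ Rel Φ Ψ t) :
    ∃ (U : Set ℂ) (r : ℝ), K ⊆ U ∧ U ⊆ O ∧ 0 < r ∧ r ≤ ρ ∧ Tube P U r Φ := by
  obtain ⟨U, r, h1, h2, h3, h4⟩ := tube_of_locB hK hO hKO hρ hP hinj (fun t ht => by
    obtain ⟨V, s, Ψ, htV, hΨ, hΦΨ⟩ := hrel t ht
    exact Rl.locB hΦΨ hΨ htV (by simp) one_ne_zero)
  exact ⟨U, r, h1, h2, h4.pos, h3, h4⟩

end Crest.Agent.R275.TbG284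
end
end

-- ▼ part R275/Tb3_78
section

/-!
R275 (S0418), F7-XY (helper78): merging two tubes.
-/

set_option autoImplicit false
set_option linter.unusedSectionVars false

open Set Filter Topology Metric Crest.AlgGeometry.Surface
open scoped Manifold ContDiff

noncomputable section

namespace Crest.Agent.R275.Tb3

open Crest.Agent.R275.Tb1 Crest.Agent.R275.Tb2 Crest.Agent.R275.Tb78
open Crest.Agent.R275.TbG284 (exists_transition tube_of_germ)

variable {X : Type} [TopologicalSpace X] [ChartedSpace C2 X]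

/-- `Φ ∘ Up a b` is related to `Φ` -/
lemma rel_comp_up {Φ Ψ : ℂ × ℂ → X} {A : Set ℂ} {δ : ℝ} (hA : IsOpen A) (hδ : 0 < δ)
    {a b : ℂ × ℂ → ℂ} (ha : AnalyticOnNhd ℂ a (A ×ˢ ball 0 δ))
    (hb : AnalyticOnNhd ℂ b (A ×ˢ ball 0 δ))
    (he : ∀ q ∈ A ×ˢ ball (0 : ℂ) δ, Φ q = Ψ (Up a b q)) {t : ℂ} (ht : t ∈ A) : Rel Φ Ψ t := by
  have hmem : ∀ s ∈ A, (s, (0 : ℂ)) ∈ A ×ˢ ball (0 : ℂ) δ := fun s hs => ⟨hs, mem_ball_self hδ⟩
  have hopen : IsOpen (A ×ˢ ball (0 : ℂ) δ) := hA.prod isOpen_ball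
  refine ⟨Up a b, ?_, ?_, ?_⟩
  · have h1 := ha _ (hmem t ht)
    have h2 := hb _ (hmem t ht)
    unfold Up
    exact (analyticAt_fst.add (analyticAt_snd.mul h1)).prod
      (analyticAt_snd.add ((analyticAt_snd.pow 2).mul h2))
  · filter_upwards [hA.mem_nhds ht] with s hs
    refine ⟨by simp [Up], ?_⟩
    have h2 : DifferentiableAt ℂ b (s, 0) := (hb _ (hmem s hs)).differentiableAt
    have h3 : DifferentiableAt ℂ (fun w : ℂ => b (s, w)) 0 :=
      DifferentiableAt.comp (0 : ℂ) (g := b) (f := fun w : ℂ => (s, w)) h2 (by fun_prop)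
    have h4 : HasDerivAt (fun w : ℂ => w + w ^ 2 * b (s, w)) _ 0 :=
      (hasDerivAt_id' (0 : ℂ)).fun_add (((hasDerivAt_id' (0 : ℂ)).fun_pow 2).fun_mul h3.hasDerivAt)
    show HasDerivAt (fun w : ℂ => w + w ^ 2 * b (s, w)) 1 0
    refine h4.congr_deriv ?_
    simp
  · filter_upwards [hopen.mem_nhds (hmem t ht)] with q hq
    exact he q hq

/-- **merging two tubes** -/
theorem merge [T2Space X] {P : ℂ → X} (hP : Function.Injective P) {U₁ U₂ : Set ℂ} {r₁ r₂ : ℝ}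
    {Φ₁ Φ₂ : ℂ × ℂ → X} (T₁ : Tube P U₁ r₁ Φ₁) (T₂ : Tube P U₂ r₂ Φ₂) {A B : Set ℂ}
    (hA : IsOpen A) (hB : IsOpen B) {R : ℝ} (bA : ∀ t ∈ A, ‖t‖ < R) (bB : ∀ t ∈ B, ‖t‖ < R)
    (ℓ : ℂ →L[ℝ] ℝ) {m η : ℝ} (hη : 0 < η) (h0 : ∀ t ∈ A, t ∉ B → ℓ t ≤ m - η)
    (h1 : ∀ t ∈ B, t ∉ A → m + η ≤ ℓ t) {η' : ℝ} (hη' : 0 < η')
    (hAU : ∀ t ∈ A, closedBall t η' ⊆ U₁) (hBU : ∀ t ∈ B, closedBall t η' ⊆ U₂)
    (hcU₁ : closure (A ∩ B) ⊆ U₁) (hcU₂ : closure (A ∩ B) ⊆ U₂)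
    (hrel : ∀ t ∈ closure (A ∩ B), Rel Φ₁ Φ₂ t) {K : Set ℂ} (hK : IsCompact K)
    (hKAB : K ⊆ A ∪ B) :
    ∃ (U : Set ℂ) (r : ℝ) (Φ : ℂ × ℂ → X), K ⊆ U ∧ U ⊆ A ∪ B ∧ Tube P U r Φ ∧
      (∀ t ∈ A, Rel Φ Φ₁ t) ∧ (∀ t ∈ B, Rel Φ Φ₂ t) := by
  classical
  have hKc : IsCompact (closure (A ∩ B)) := by
    refine (isCompact_closedBall (0 : ℂ) R).of_isClosed_subset isClosed_closure ?_
    refine closure_minimal ?_ isClosed_closedBall
    intro t ht
    exact mem_closedBall_zero_iff.2 (bA t ht.1).le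
  obtain ⟨W, hWo, hKW, ρ, hρ, f₁, f₂, hf₁, hf₂, htr⟩ :=
    exists_transition T₁ T₂ hKc hcU₁ hcU₂ hrel
  obtain ⟨C, hC1, hC⟩ := exists_split hA hB bA bB ℓ hη h0 h1
  set η₁ := min η' (min (r₁ / 2) (r₂ / 2)) with hη₁
  have hr₁ := T₁.pos
  have hr₂ := T₂.pos
  have hη₁0 : 0 < η₁ := by positivity
  obtain ⟨δ, hδ, -, aA, bA', aB, bB', haA, hbA, haB, hbB, hUA, hUB, hglue⟩ :=
    exists_glue hA hB hC1 hC hWo hKc hKW hρ hf₁ hf₂ hη₁0
  have hmA : ∀ q ∈ A ×ˢ ball (0 : ℂ) δ, Up aA bA' q ∈ U₁ ×ˢ ball (0 : ℂ) r₁ := by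
    intro q hq
    have h := hUA q hq
    refine ⟨hAU q.1 hq.1 (closedBall_subset_closedBall (min_le_left _ _) h.1), ?_⟩
    refine closedBall_subset_ball ?_ h.2
    have : η₁ ≤ r₁ / 2 := (min_le_right _ _).trans (min_le_left _ _)
    linarith
  have hmB : ∀ q ∈ B ×ˢ ball (0 : ℂ) δ, Up aB bB' q ∈ U₂ ×ˢ ball (0 : ℂ) r₂ := by
    intro q hq
    have h := hUB q hq
    refine ⟨hBU q.1 hq.1 (closedBall_subset_closedBall (min_le_left _ _) h.1), ?_⟩
    refine closedBall_subset_ball ?_ h.2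
    have : η₁ ≤ r₂ / 2 := (min_le_right _ _).trans (min_le_right _ _)
    linarith
  let Φ : ℂ × ℂ → X := fun q => if q.1 ∈ A then Φ₁ (Up aA bA' q) else Φ₂ (Up aB bB' q)
  have eA : ∀ q ∈ A ×ˢ ball (0 : ℂ) δ, Φ q = Φ₁ (Up aA bA' q) := fun q hq => if_pos hq.1
  have eB : ∀ q ∈ B ×ˢ ball (0 : ℂ) δ, Φ q = Φ₂ (Up aB bB' q) := by
    intro q hq
    by_cases hqA : q.1 ∈ A
    · obtain ⟨h2, h3⟩ := hglue q ⟨⟨hqA, hq.1⟩, hq.2⟩
      have h4 := (htr _ h2).2.2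
      rw [eA q ⟨hqA, hq.2⟩, h4]
      congr 1
    · exact if_neg hqA
  have hUp0 : ∀ (a b : ℂ × ℂ → ℂ) (t : ℂ), Up a b (t, 0) = (t, 0) := by
    intro a b t; simp [Up]
  have hrA : ∀ t ∈ A, Rel Φ Φ₁ t := fun t ht => rel_comp_up hA hδ haA hbA eA ht
  have hrB : ∀ t ∈ B, Rel Φ Φ₂ t := fun t ht => rel_comp_up hB hδ haB hbB eB ht
  have hsubA : A ⊆ U₁ := fun t ht => hAU t ht (mem_closedBall_self hη'.le)
  have hsubB : B ⊆ U₂ := fun t ht => hBU t ht (mem_closedBall_self hη'.le)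
  have hz : ∀ t ∈ A ∪ B, Φ (t, 0) = P t := by
    rintro t (ht | ht)
    · rw [eA (t, 0) ⟨ht, mem_ball_self hδ⟩, hUp0]
      exact T₁.zero t (hsubA ht)
    · rw [eB (t, 0) ⟨ht, mem_ball_self hδ⟩, hUp0]
      exact T₂.zero t (hsubB ht)
  obtain ⟨U, r, hKU, hUAB, -, -, hTube⟩ := tube_of_germ hK (hA.union hB) hKAB hδ hz
    (hP.injOn) (by
      intro t ht
      rcases hKAB ht with ht | ht
      · exact ⟨U₁, r₁, Φ₁, hsubA ht, T₁, hrA t ht⟩
      · exact ⟨U₂, r₂, Φ₂, hsubB ht, T₂, hrB t ht⟩)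
  exact ⟨U, r, Φ, hKU, hUAB, hTube, hrA, hrB⟩

end Crest.Agent.R275.Tb3
end
end

-- ▼ part R275/Tb4_78

/-!
R275 (S0418), F7-XY (helper78): bisection; one tube over a neighbourhood of every closed disc.
-/

set_option autoImplicit false
set_option linter.unusedSectionVars false

open Set Filter Topology Metric Crest.AlgGeometry.Surface
open scoped Manifold ContDiff

noncomputable section

namespace Crest.Agent.R275.Tb4

open Crest.Agent.R275.Tb1 Crest.Agent.R275.Tb2 Crest.Agent.R275.Tb3 Crest.Agent.R275.Tb78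

/-- induction on intervals -/
theorem interval_induction {P : ℝ → ℝ → Prop} {a b : ℝ} (hab : a ≤ b)
    (hloc : ∀ x ∈ Icc a b, ∃ ε > 0, ∀ c d, x - ε < c → c ≤ x → x ≤ d → d < x + ε → P c d)
    (hglue : ∀ c m d, c ≤ m → m ≤ d → P c m → P m d → P c d) : P a b := by
  set S : Set ℝ := {x | x ∈ Icc a b ∧ P a x} with hS
  have haS : a ∈ S := by
    obtain ⟨ε, hε, h⟩ := hloc a (left_mem_Icc.2 hab)
    exact ⟨left_mem_Icc.2 hab, h a a (by linarith) le_rfl le_rfl (by linarith)⟩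
  have hbdd : BddAbove S := ⟨b, fun x hx => hx.1.2⟩
  set s := sSup S with hs
  have hsa : a ≤ s := le_csSup hbdd haS
  have hsb : s ≤ b := csSup_le ⟨a, haS⟩ fun x hx => hx.1.2
  obtain ⟨ε, hε, h⟩ := hloc s ⟨hsa, hsb⟩
  obtain ⟨x, hxS, hx⟩ := exists_lt_of_lt_csSup (s := S) ⟨a, haS⟩ (b := s - ε) (by linarith)
  have hxs : x ≤ s := le_csSup hbdd hxS
  set s' := min b (s + ε / 2) with hs'
  have hss' : s ≤ s' := le_min hsb (by linarith)
  have h1 : P x s' := h x s' hx hxs hss' ((min_le_right _ _).trans_lt (by linarith))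
  have h2 : P a s' := hglue a x s' hxS.1.1 (hxs.trans hss') hxS.2 h1
  have h3 : s' ∈ S := ⟨⟨hsa.trans hss', min_le_left _ _⟩, h2⟩
  have h4 : s' ≤ s := le_csSup hbdd h3
  have h5 : s' = b := by
    rcases min_choice b (s + ε / 2) with h6 | h6
    · rw [hs', h6]
    · rw [← hs'] at h6
      linarith
  rwa [h5] at h2

/-- closed rectangles -/
def rect (x₁ x₂ y₁ y₂ : ℝ) : Set ℂ := {z | (x₁ ≤ z.re ∧ z.re ≤ x₂) ∧ (y₁ ≤ z.im ∧ z.im ≤ y₂)}

/-- open rectangles -/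
def orect (x₁ x₂ y₁ y₂ : ℝ) : Set ℂ := {z | (x₁ < z.re ∧ z.re < x₂) ∧ (y₁ < z.im ∧ z.im < y₂)}

lemma isOpen_orect (x₁ x₂ y₁ y₂ : ℝ) : IsOpen (orect x₁ x₂ y₁ y₂) := by
  unfold orect
  refine IsOpen.inter (IsOpen.inter ?_ ?_) (IsOpen.inter ?_ ?_)
  · exact isOpen_lt continuous_const Complex.continuous_re
  · exact isOpen_lt Complex.continuous_re continuous_const
  · exact isOpen_lt continuous_const Complex.continuous_im
  · exact isOpen_lt Complex.continuous_im continuous_const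

lemma isClosed_rect (x₁ x₂ y₁ y₂ : ℝ) : IsClosed (rect x₁ x₂ y₁ y₂) := by
  unfold rect
  refine IsClosed.inter (IsClosed.inter ?_ ?_) (IsClosed.inter ?_ ?_)
  · exact isClosed_le continuous_const Complex.continuous_re
  · exact isClosed_le Complex.continuous_re continuous_const
  · exact isClosed_le continuous_const Complex.continuous_im
  · exact isClosed_le Complex.continuous_im continuous_const

lemma norm_lt_of_rect {x₁ x₂ y₁ y₂ : ℝ} {z : ℂ} (hz : z ∈ rect x₁ x₂ y₁ y₂) :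
    ‖z‖ < |x₁| + |x₂| + |y₁| + |y₂| + 1 := by
  have h1 : |z.re| ≤ |x₁| + |x₂| := by
    rw [abs_le]
    constructor
    · linarith [hz.1.1, neg_abs_le x₁, abs_nonneg x₂]
    · linarith [hz.1.2, le_abs_self x₂, abs_nonneg x₁]
  have h2 : |z.im| ≤ |y₁| + |y₂| := by
    rw [abs_le]
    constructor
    · linarith [hz.2.1, neg_abs_le y₁, abs_nonneg y₂]
    · linarith [hz.2.2, le_abs_self y₂, abs_nonneg y₁]
  have := Complex.norm_le_abs_re_add_abs_im z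
  linarith

lemma isCompact_rect (x₁ x₂ y₁ y₂ : ℝ) : IsCompact (rect x₁ x₂ y₁ y₂) :=
  (isCompact_closedBall (0 : ℂ) (|x₁| + |x₂| + |y₁| + |y₂| + 1)).of_isClosed_subset
    (isClosed_rect _ _ _ _) fun _ hz => mem_closedBall_zero_iff.2 (norm_lt_of_rect hz).le

lemma orect_subset_rect (x₁ x₂ y₁ y₂ : ℝ) : orect x₁ x₂ y₁ y₂ ⊆ rect x₁ x₂ y₁ y₂ :=
  fun _ hz => ⟨⟨hz.1.1.le, hz.1.2.le⟩, hz.2.1.le, hz.2.2.le⟩

/-- a neighbourhood of a closed rectangle contains a larger closed rectangle -/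
lemma exists_rect_subset {x₁ x₂ y₁ y₂ : ℝ} (hx : x₁ ≤ x₂) (hy : y₁ ≤ y₂) {U : Set ℂ}
    (hU : IsOpen U) (h : rect x₁ x₂ y₁ y₂ ⊆ U) :
    ∃ η > 0, rect (x₁ - η) (x₂ + η) (y₁ - η) (y₂ + η) ⊆ U := by
  obtain ⟨δ, hδ, hδU⟩ := (isCompact_rect x₁ x₂ y₁ y₂).exists_cthickening_subset_open hU h
  refine ⟨δ / 2, by positivity, fun z hz => hδU ?_⟩
  set a := max x₁ (min z.re x₂) with ha
  set b := max y₁ (min z.im y₂) with hb
  have ha' : |z.re - a| ≤ δ / 2 := by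
    have := hz.1.1; have := hz.1.2
    rw [abs_le, ha]
    rcases le_total z.re x₂ with h1 | h1
    · rw [min_eq_left h1]
      rcases le_total x₁ z.re with h2 | h2
      · rw [max_eq_right h2]; constructor <;> linarith
      · rw [max_eq_left h2]; constructor <;> linarith
    · rw [min_eq_right h1, max_eq_right hx]; constructor <;> linarith
  have hb' : |z.im - b| ≤ δ / 2 := by
    have := hz.2.1; have := hz.2.2
    rw [abs_le, hb]
    rcases le_total z.im y₂ with h1 | h1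
    · rw [min_eq_left h1]
      rcases le_total y₁ z.im with h2 | h2
      · rw [max_eq_right h2]; constructor <;> linarith
      · rw [max_eq_left h2]; constructor <;> linarith
    · rw [min_eq_right h1, max_eq_right hy]; constructor <;> linarith
  have hmem : (⟨a, b⟩ : ℂ) ∈ rect x₁ x₂ y₁ y₂ :=
    ⟨⟨le_max_left _ _, max_le hx (min_le_right _ _)⟩, le_max_left _ _,
      max_le hy (min_le_right _ _)⟩
  refine mem_cthickening_of_dist_le z _ δ _ hmem ?_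
  rw [dist_eq_norm]
  have h3 := Complex.norm_le_abs_re_add_abs_im (z - (⟨a, b⟩ : ℂ))
  simp only [Complex.sub_re, Complex.sub_im] at h3
  linarith

variable {X : Type} [TopologicalSpace X] [ChartedSpace C2 X]

/-- existence of a tube over `K` related to all reference tubes -/
def Good (P : ℂ → X) (V : ℂ → Set ℂ) (Φr : ℂ → ℂ × ℂ → X) (K : Set ℂ) : Prop :=
  ∃ (U : Set ℂ) (r : ℝ) (Φ : ℂ × ℂ → X), K ⊆ U ∧ Tube P U r Φ ∧
    ∀ a, ∀ t ∈ U, t ∈ V a → Rel Φ (Φr a) t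

lemma Good.mono {P : ℂ → X} {V : ℂ → Set ℂ} {Φr : ℂ → ℂ × ℂ → X} {K K' : Set ℂ}
    (h : Good P V Φr K) (hK : K' ⊆ K) : Good P V Φr K' := by
  obtain ⟨U, r, Φ, h1, h2, h3⟩ := h
  exact ⟨U, r, Φ, hK.trans h1, h2, h3⟩

lemma good_of_mem {P : ℂ → X} {V : ℂ → Set ℂ} {rr : ℂ → ℝ} {Φr : ℂ → ℂ × ℂ → X}
    (h : Ref P V rr Φr) {a : ℂ} {K : Set ℂ} (hK : K ⊆ V a) : Good P V Φr K :=
  ⟨V a, rr a, Φr a, hK, h.tube a, fun b t ht hb => h.rel a b t ht hb⟩

/-- **merging in the direction of a linear functional** -/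
lemma Good.merge [T2Space X] {P : ℂ → X} (hP : Function.Injective P) {V : ℂ → Set ℂ}
    {rr : ℂ → ℝ} {Φr : ℂ → ℂ × ℂ → X} (href : Ref P V rr Φr) {K₁ K₂ K : Set ℂ}
    (hK : IsCompact K)
    (hgeo : ∀ U₁ U₂ : Set ℂ, IsOpen U₁ → IsOpen U₂ → K₁ ⊆ U₁ → K₂ ⊆ U₂ →
      ∃ (A B : Set ℂ) (R : ℝ) (ℓ : ℂ →L[ℝ] ℝ) (m η η' : ℝ), IsOpen A ∧ IsOpen B ∧
        (∀ t ∈ A, ‖t‖ < R) ∧ (∀ t ∈ B, ‖t‖ < R) ∧ 0 < η ∧ (∀ t ∈ A, t ∉ B → ℓ t ≤ m - η) ∧
        (∀ t ∈ B, t ∉ A → m + η ≤ ℓ t) ∧ 0 < η' ∧ (∀ t ∈ A, closedBall t η' ⊆ U₁) ∧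
        (∀ t ∈ B, closedBall t η' ⊆ U₂) ∧ closure (A ∩ B) ⊆ U₁ ∧ closure (A ∩ B) ⊆ U₂ ∧
        K ⊆ A ∪ B)
    (g₁ : Good P V Φr K₁) (g₂ : Good P V Φr K₂) : Good P V Φr K := by
  obtain ⟨U₁, r₁, Φ₁, hK₁, T₁, R₁⟩ := g₁
  obtain ⟨U₂, r₂, Φ₂, hK₂, T₂, R₂⟩ := g₂
  obtain ⟨A, B, R, ℓ, m, η, η', hA, hB, bA, bB, hη, h0, h1, hη', hAU, hBU, hc₁, hc₂, hKAB⟩ :=
    hgeo U₁ U₂ T₁.openU T₂.openU hK₁ hK₂
  have hsubA : A ⊆ U₁ := fun t ht => hAU t ht (mem_closedBall_self hη'.le)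
  have hsubB : B ⊆ U₂ := fun t ht => hBU t ht (mem_closedBall_self hη'.le)
  obtain ⟨U, r, Φ, hKU, hUAB, hT, hrA, hrB⟩ := Tb3.merge hP T₁ T₂ hA hB bA bB ℓ hη h0 h1 hη' hAU
    hBU hc₁ hc₂ (by
      intro t ht
      exact TbG284.Rel.trans (R₁ t t (hc₁ ht) (href.mem t)) (TbG284.Rel.symm (R₂ t t (hc₂ ht) (href.mem t))))
    hK hKAB
  refine ⟨U, r, Φ, hKU, hT, fun a t ht hta => ?_⟩
  rcases hUAB ht with h | h
  · exact TbG284.Rel.trans (hrA t h) (R₁ a t (hsubA h) hta)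
  · exact TbG284.Rel.trans (hrB t h) (R₂ a t (hsubB h) hta)

lemma closedBall_subset_rect {x₁ x₂ y₁ y₂ η : ℝ} {t : ℂ} (ht : t ∈ rect x₁ x₂ y₁ y₂) :
    closedBall t η ⊆ rect (x₁ - η) (x₂ + η) (y₁ - η) (y₂ + η) := by
  intro z hz
  rw [mem_closedBall_iff_norm] at hz
  have h1 := (Complex.abs_re_le_norm (z - t)).trans hz
  have h2 := (Complex.abs_im_le_norm (z - t)).trans hz
  rw [Complex.sub_re, abs_le] at h1
  rw [Complex.sub_im, abs_le] at h2
  exact ⟨⟨by linarith [ht.1.1, h1.1], by linarith [ht.1.2, h1.2]⟩,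
    by linarith [ht.2.1, h2.1], by linarith [ht.2.2, h2.2]⟩

lemma rect_mono {x₁ x₂ y₁ y₂ x₁' x₂' y₁' y₂' : ℝ} (h1 : x₁' ≤ x₁) (h2 : x₂ ≤ x₂') (h3 : y₁' ≤ y₁)
    (h4 : y₂ ≤ y₂') : rect x₁ x₂ y₁ y₂ ⊆ rect x₁' x₂' y₁' y₂' := fun _ hz =>
  ⟨⟨h1.trans hz.1.1, hz.1.2.trans h2⟩, h3.trans hz.2.1, hz.2.2.trans h4⟩

lemma good_glue_re [T2Space X] {P : ℂ → X} (hP : Function.Injective P) {V : ℂ → Set ℂ}
    {rr : ℂ → ℝ} {Φr : ℂ → ℂ × ℂ → X} (href : Ref P V rr Φr) {x₁ m x₂ y₁ y₂ : ℝ} (h1 : x₁ ≤ m)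
    (h2 : m ≤ x₂) (hy : y₁ ≤ y₂) (g₁ : Good P V Φr (rect x₁ m y₁ y₂))
    (g₂ : Good P V Φr (rect m x₂ y₁ y₂)) : Good P V Φr (rect x₁ x₂ y₁ y₂) := by
  refine Good.merge hP href (isCompact_rect _ _ _ _) ?_ g₁ g₂
  intro U₁ U₂ hU₁ hU₂ hK₁ hK₂
  obtain ⟨ε₁, hε₁, hs₁⟩ := exists_rect_subset h1 hy hU₁ hK₁
  obtain ⟨ε₂, hε₂, hs₂⟩ := exists_rect_subset h2 hy hU₂ hK₂
  set η := min ε₁ ε₂ / 2 with hη
  have hη0 : 0 < η := by positivity
  have e1 : 2 * η ≤ ε₁ := by have := min_le_left ε₁ ε₂; linarith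
  have e2 : 2 * η ≤ ε₂ := by have := min_le_right ε₁ ε₂; linarith
  have hcl : closure (orect (x₁ - η) (m + η) (y₁ - η) (y₂ + η) ∩
      orect (m - η) (x₂ + η) (y₁ - η) (y₂ + η)) ⊆ rect (m - η) (m + η) (y₁ - η) (y₂ + η) := by
    refine closure_minimal ?_ (isClosed_rect _ _ _ _)
    intro z hz
    exact ⟨⟨hz.2.1.1.le, hz.1.1.2.le⟩, hz.1.2.1.le, hz.1.2.2.le⟩
  refine ⟨orect (x₁ - η) (m + η) (y₁ - η) (y₂ + η), orect (m - η) (x₂ + η) (y₁ - η) (y₂ + η),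
    (|x₁ - η| + |x₂ + η| + |y₁ - η| + |y₂ + η| + 1), Complex.reCLM, m, η, η,
    isOpen_orect _ _ _ _, isOpen_orect _ _ _ _, ?_, ?_, hη0, ?_, ?_, hη0, ?_, ?_, ?_, ?_, ?_⟩
  · intro t ht
    exact norm_lt_of_rect (rect_mono le_rfl (by linarith) le_rfl le_rfl (orect_subset_rect _ _ _ _ ht))
  · intro t ht
    exact norm_lt_of_rect (rect_mono (by linarith) le_rfl le_rfl le_rfl (orect_subset_rect _ _ _ _ ht))
  · intro t ht ht'
    simp only [Complex.reCLM_apply]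
    by_contra hlt
    rw [not_le] at hlt
    exact ht' ⟨⟨hlt, by linarith [ht.1.2]⟩, ht.2⟩
  · intro t ht ht'
    simp only [Complex.reCLM_apply]
    by_contra hlt
    rw [not_le] at hlt
    exact ht' ⟨⟨by linarith [ht.1.1], hlt⟩, ht.2⟩
  · intro t ht
    refine (closedBall_subset_rect (orect_subset_rect _ _ _ _ ht)).trans ?_
    exact (rect_mono (by linarith) (by linarith) (by linarith) (by linarith)).trans hs₁
  · intro t ht
    refine (closedBall_subset_rect (orect_subset_rect _ _ _ _ ht)).trans ?_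
    exact (rect_mono (by linarith) (by linarith) (by linarith) (by linarith)).trans hs₂
  · exact hcl.trans ((rect_mono (by linarith) (by linarith) (by linarith) (by linarith)).trans hs₁)
  · exact hcl.trans ((rect_mono (by linarith) (by linarith) (by linarith) (by linarith)).trans hs₂)
  · intro t ht
    rcases le_total t.re m with h | h
    · exact Or.inl ⟨⟨by linarith [ht.1.1], by linarith⟩, by linarith [ht.2.1], by linarith [ht.2.2]⟩
    · exact Or.inr ⟨⟨by linarith, by linarith [ht.1.2]⟩, by linarith [ht.2.1], by linarith [ht.2.2]⟩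

lemma good_glue_im [T2Space X] {P : ℂ → X} (hP : Function.Injective P) {V : ℂ → Set ℂ}
    {rr : ℂ → ℝ} {Φr : ℂ → ℂ × ℂ → X} (href : Ref P V rr Φr) {x₁ x₂ y₁ m y₂ : ℝ} (hx : x₁ ≤ x₂)
    (h1 : y₁ ≤ m) (h2 : m ≤ y₂) (g₁ : Good P V Φr (rect x₁ x₂ y₁ m))
    (g₂ : Good P V Φr (rect x₁ x₂ m y₂)) : Good P V Φr (rect x₁ x₂ y₁ y₂) := by
  refine Good.merge hP href (isCompact_rect _ _ _ _) ?_ g₁ g₂
  intro U₁ U₂ hU₁ hU₂ hK₁ hK₂
  obtain ⟨ε₁, hε₁, hs₁⟩ := exists_rect_subset hx h1 hU₁ hK₁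
  obtain ⟨ε₂, hε₂, hs₂⟩ := exists_rect_subset hx h2 hU₂ hK₂
  set η := min ε₁ ε₂ / 2 with hη
  have hη0 : 0 < η := by positivity
  have e1 : 2 * η ≤ ε₁ := by have := min_le_left ε₁ ε₂; linarith
  have e2 : 2 * η ≤ ε₂ := by have := min_le_right ε₁ ε₂; linarith
  have hcl : closure (orect (x₁ - η) (x₂ + η) (y₁ - η) (m + η) ∩
      orect (x₁ - η) (x₂ + η) (m - η) (y₂ + η)) ⊆ rect (x₁ - η) (x₂ + η) (m - η) (m + η) := by
    refine closure_minimal ?_ (isClosed_rect _ _ _ _)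
    intro z hz
    exact ⟨⟨hz.2.1.1.le, hz.1.1.2.le⟩, hz.2.2.1.le, hz.1.2.2.le⟩
  refine ⟨orect (x₁ - η) (x₂ + η) (y₁ - η) (m + η), orect (x₁ - η) (x₂ + η) (m - η) (y₂ + η),
    (|x₁ - η| + |x₂ + η| + |y₁ - η| + |y₂ + η| + 1), Complex.imCLM, m, η, η,
    isOpen_orect _ _ _ _, isOpen_orect _ _ _ _, ?_, ?_, hη0, ?_, ?_, hη0, ?_, ?_, ?_, ?_, ?_⟩
  · intro t ht
    exact norm_lt_of_rect (rect_mono le_rfl le_rfl le_rfl (by linarith) (orect_subset_rect _ _ _ _ ht))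
  · intro t ht
    exact norm_lt_of_rect (rect_mono le_rfl le_rfl (by linarith) le_rfl (orect_subset_rect _ _ _ _ ht))
  · intro t ht ht'
    simp only [Complex.imCLM_apply]
    by_contra hlt
    rw [not_le] at hlt
    exact ht' ⟨ht.1, ⟨hlt, by linarith [ht.2.2]⟩⟩
  · intro t ht ht'
    simp only [Complex.imCLM_apply]
    by_contra hlt
    rw [not_le] at hlt
    exact ht' ⟨ht.1, ⟨by linarith [ht.2.1], hlt⟩⟩
  · intro t ht
    refine (closedBall_subset_rect (orect_subset_rect _ _ _ _ ht)).trans ?_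
    exact (rect_mono (by linarith) (by linarith) (by linarith) (by linarith)).trans hs₁
  · intro t ht
    refine (closedBall_subset_rect (orect_subset_rect _ _ _ _ ht)).trans ?_
    exact (rect_mono (by linarith) (by linarith) (by linarith) (by linarith)).trans hs₂
  · exact hcl.trans ((rect_mono (by linarith) (by linarith) (by linarith) (by linarith)).trans hs₁)
  · exact hcl.trans ((rect_mono (by linarith) (by linarith) (by linarith) (by linarith)).trans hs₂)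
  · intro t ht
    rcases le_total t.im m with h | h
    · exact Or.inl ⟨⟨by linarith [ht.1.1], by linarith [ht.1.2]⟩, by linarith [ht.2.1], by linarith⟩
    · exact Or.inr ⟨⟨by linarith [ht.1.1], by linarith [ht.1.2]⟩, by linarith, by linarith [ht.2.2]⟩

/-- **tubes over rectangles** -/
theorem good_rect [T2Space X] {P : ℂ → X} (hP : Function.Injective P) {V : ℂ → Set ℂ}
    {rr : ℂ → ℝ} {Φr : ℂ → ℂ × ℂ → X} (href : Ref P V rr Φr) {x₁ x₂ y₁ y₂ : ℝ} (hx : x₁ ≤ x₂)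
    (hy : y₁ ≤ y₂) : Good P V Φr (rect x₁ x₂ y₁ y₂) := by
  -- induction in the imaginary direction
  refine interval_induction (P := fun c d => c ≤ d → Good P V Φr (rect x₁ x₂ c d)) hy ?_ ?_ hy
  · intro y _
    -- induction in the real direction
    have key := interval_induction (P := fun a b => a ≤ b → ∃ ε > 0, ∀ c d, y - ε < c → c ≤ y →
      y ≤ d → d < y + ε → Good P V Φr (rect a b c d)) hx (by
        intro x _
        obtain ⟨ε, hε, hb⟩ := Metric.isOpen_iff.1 (href.tube (⟨x, y⟩ : ℂ)).openU _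
          (href.mem (⟨x, y⟩ : ℂ))
        refine ⟨ε / 2, by positivity, fun a b ha hax hxb hb' _ => ⟨ε / 2, by positivity,
          fun c d hc hcy hyd hd => good_of_mem href (a := (⟨x, y⟩ : ℂ)) ?_⟩⟩
        intro z hz
        apply hb
        rw [mem_ball_iff_norm]
        have h3 := Complex.norm_le_abs_re_add_abs_im (z - (⟨x, y⟩ : ℂ))
        simp only [Complex.sub_re, Complex.sub_im] at h3
        have h4 : |z.re - x| < ε / 2 := by
          rw [abs_lt]; constructor <;> linarith [hz.1.1, hz.1.2]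
        have h5 : |z.im - y| < ε / 2 := by
          rw [abs_lt]; constructor <;> linarith [hz.2.1, hz.2.2]
        linarith) (by
        intro a m b ham hmb h1 h2 _
        obtain ⟨ε₁, hε₁, k1⟩ := h1 ham
        obtain ⟨ε₂, hε₂, k2⟩ := h2 hmb
        refine ⟨min ε₁ ε₂, by positivity, fun c d hc hcy hyd hd => ?_⟩
        have e1 := min_le_left ε₁ ε₂
        have e2 := min_le_right ε₁ ε₂
        exact good_glue_re hP href ham hmb (hcy.trans hyd)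
          (k1 c d (by linarith) hcy hyd (by linarith)) (k2 c d (by linarith) hcy hyd (by linarith)))
      hx
    obtain ⟨ε, hε, h⟩ := key
    exact ⟨ε, hε, fun c d h1 h2 h3 h4 _ => h c d h1 h2 h3 h4⟩
  · intro c m d hcm hmd h1 h2 _
    exact good_glue_im hP href hx hcm hmd (h1 hcm) (h2 hmd)

/-- **one tube over a neighbourhood of a closed disc** -/
theorem exists_tube [T2Space X] {P : ℂ → X} (hP : Function.Injective P) {V : ℂ → Set ℂ}
    {rr : ℂ → ℝ} {Φr : ℂ → ℂ × ℂ → X} (href : Ref P V rr Φr) (R : ℝ) :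
    ∃ (U : Set ℂ) (r : ℝ) (Φ : ℂ × ℂ → X), closedBall 0 R ⊆ U ∧ Tube P U r Φ ∧
      ∀ a, ∀ t ∈ U, t ∈ V a → Rel Φ (Φr a) t := by
  refine (good_rect hP href (x₁ := -|R|) (x₂ := |R|) (y₁ := -|R|) (y₂ := |R|)
    (by linarith [abs_nonneg R]) (by linarith [abs_nonneg R])).mono ?_
  intro z hz
  rw [mem_closedBall_zero_iff] at hz
  have h1 := (Complex.abs_re_le_norm z).trans (hz.trans (le_abs_self R))
  have h2 := (Complex.abs_im_le_norm z).trans (hz.trans (le_abs_self R))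
  rw [abs_le] at h1 h2
  exact ⟨h1, h2⟩

end Crest.Agent.R275.Tb4
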