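import Mathlib
import Crest.Agent.R266.SCV
import Crest.Agent.R275.NBb_690_Mg
import Crest.Prelude.Def_ComplexSurface
import Crest.Agent.R275.Shell_468
import Crest.Agent.R275.NBd_690
import Crest.Agent.R275.TbDefs_78
import Crest.Agent.R275.Tb4_78
import Crest.Agent.R275.SmpB_284
import Crest.Agent.R275.CntG_508
import Crest.Agent.R275.QSub_825
import Crest.Agent.R275.BR4_672
import Crest.Agent.R275.ChiM_825
import Crest.Agent.R275.QX_825
import Crest.Agent.R275.XinM_473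
import Crest.Agent.R275.NGeo_151
import Crest.Agent.R275.INX_945_Mg
import Crest.Agent.R275.EOF_627
import Crest.Agent.R275.FlXC_161
import Crest.Agent.R275.SNerveG_865
import Crest.Agent.R275.YCneg_630
import Crest.Agent.R275.GIx_106
import Crest.Agent.R275.XN5_194
import Crest.Agent.R275.PushN_768
import Crest.Agent.R275.TInB_672
import Crest.Agent.R275.YBaseX_144
import Crest.Agent.R275.PushNef_768
import Crest.Agent.R275.KDual_106
import Crest.Agent.R275.SecEnd_884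
import Crest.Agent.R275.WYd_681
import Crest.Agent.R275.WCxY_89
import Crest.Agent.R275.SupG_912
import Crest.Agent.R275.EintY_473
import Crest.Agent.R275.YBG_812
import Crest.Agent.R275.CutZ_89
import Crest.Agent.R275.QHY_617
import Crest.Agent.R275.SolA_352
import Crest.Agent.R275.KInv_967
import Crest.Agent.R275.SkelXB_328

-- ▼ part R275/NBc_690
section

/-!
R275 (S0418), block R / F7-XY, helper690: division by a coordinate, and the normal form of a
transition `(s, w) ↦ (1 / s + O(w), s w + O(w²))` over the annulus, by the Riemann-Hilbert fixed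
point theorem.
-/

set_option autoImplicit false
set_option linter.unusedSectionVars false

open Set Filter Topology Metric Complex
open scoped Real

noncomputable section

namespace Crest.Agent.R275.NB690

/-! ### division by the second coordinate -/

/-- `(f (s, w) - f (s, 0)) / w`, as an integral -/
def dvw (f : ℂ × ℂ → ℂ) (p : ℂ × ℂ) : ℂ :=
  ∫ θ in (0 : ℝ)..1, fderiv ℂ f (p.1, (θ : ℂ) * p.2) (0, 1)

lemma dvw_zero (f : ℂ × ℂ → ℂ) (s : ℂ) : dvw f (s, 0) = fderiv ℂ f (s, 0) (0, 1) := by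
  unfold dvw
  simp

lemma dvw_aux {f : ℂ × ℂ → ℂ} {t : ℂ} (hf : AnalyticAt ℂ f (t, 0)) :
    ∃ r > 0, AnalyticOnNhd ℂ f (ball t r ×ˢ ball 0 r) := by
  obtain ⟨r, hr, h⟩ := Metric.eventually_nhds_iff_ball.1 hf.eventually_analyticAt
  refine ⟨r, hr, fun p hp => h p ?_⟩
  rw [← ball_prod_same]
  exact hp

lemma mul_mem_ball {r : ℝ} {w : ℂ} (hw : w ∈ ball (0 : ℂ) r) {θ : ℝ} (hθ : θ ∈ uIcc (0 : ℝ) 1) :
    (θ : ℂ) * w ∈ ball (0 : ℂ) r := by
  rw [uIcc_of_le zero_le_one] at hθ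
  rw [mem_ball_zero_iff] at hw ⊢
  rw [norm_mul, Complex.norm_real, Real.norm_of_nonneg hθ.1]
  calc θ * ‖w‖ ≤ 1 * ‖w‖ := mul_le_mul_of_nonneg_right hθ.2 (norm_nonneg _)
    _ < r := by rwa [one_mul]

theorem dvw_analyticAt {f : ℂ × ℂ → ℂ} {t : ℂ} (hf : AnalyticAt ℂ f (t, 0)) :
    AnalyticAt ℂ (dvw f) (t, 0) := by
  obtain ⟨r, hr, hfr⟩ := dvw_aux hf
  have hfd : AnalyticOnNhd ℂ (fderiv ℂ f) (ball t r ×ˢ ball 0 r) := hfr.fderiv
  have h1 : AnalyticOnNhd ℂ (dvw f) (ball t r ×ˢ ball 0 r) := by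
    refine R266.SCV.analyticOnNhd_intervalIntegral (E := ℂ × ℂ)
      (f := fun q => fderiv ℂ f (q.1.1, (q.2 : ℂ) * q.1.2) (0, 1))
      (isOpen_ball.prod isOpen_ball) ?_ ?_
    · have hc : ContinuousOn (fun q : (ℂ × ℂ) × ℝ => fderiv ℂ f (q.1.1, (q.2 : ℂ) * q.1.2))
          ((ball t r ×ˢ ball 0 r) ×ˢ uIcc 0 1) := by
        refine hfd.continuousOn.comp (by fun_prop) ?_
        rintro ⟨p, θ⟩ ⟨hp, hθ⟩
        exact ⟨hp.1, mul_mem_ball hp.2 hθ⟩
      exact hc.clm_apply continuousOn_const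
    · intro θ hθ
      have hc : DifferentiableOn ℂ (fun q : ℂ × ℂ => fderiv ℂ f (q.1, (θ : ℂ) * q.2))
          (ball t r ×ˢ ball 0 r) := by
        refine hfd.differentiableOn.comp (by fun_prop) ?_
        rintro p hp
        exact ⟨hp.1, mul_mem_ball hp.2 hθ⟩
      exact hc.clm_apply (differentiableOn_const _)
  exact h1 _ ⟨mem_ball_self hr, mem_ball_self hr⟩

theorem dvw_spec {f : ℂ × ℂ → ℂ} {t : ℂ} (hf : AnalyticAt ℂ f (t, 0)) :
    ∀ᶠ p in 𝓝 (t, (0 : ℂ)), f p = f (p.1, 0) + p.2 * dvw f p := by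
  obtain ⟨r, hr, hfr⟩ := dvw_aux hf
  have hmem : (ball t r ×ˢ ball (0 : ℂ) r) ∈ 𝓝 (t, (0 : ℂ)) :=
    (isOpen_ball.prod isOpen_ball).mem_nhds ⟨mem_ball_self hr, mem_ball_self hr⟩
  filter_upwards [hmem] with p hp
  obtain ⟨s, w⟩ := p
  have hfd : AnalyticOnNhd ℂ (fderiv ℂ f) (ball t r ×ˢ ball 0 r) := hfr.fderiv
  have hder : ∀ θ ∈ uIcc (0 : ℝ) 1, HasDerivAt (fun θ : ℝ => f (s, (θ : ℂ) * w))
      (w * fderiv ℂ f (s, (θ : ℂ) * w) (0, 1)) θ := by
    intro θ hθ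
    have hq : (s, (θ : ℂ) * w) ∈ ball t r ×ˢ ball (0 : ℂ) r := ⟨hp.1, mul_mem_ball hp.2 hθ⟩
    have h1 : HasFDerivAt f (fderiv ℂ f (s, (θ : ℂ) * w)) (s, (θ : ℂ) * w) :=
      (hfr _ hq).differentiableAt.hasFDerivAt
    have h2 : HasDerivAt (fun θ : ℝ => ((s, (θ : ℂ) * w) : ℂ × ℂ)) (0, w) θ := by
      refine (hasDerivAt_const θ s).prodMk ?_
      simpa using (Complex.ofRealCLM.hasDerivAt (x := θ)).mul_const w
    have h3 := (h1.restrictScalars ℝ).comp_hasDerivAt θ h2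
    have h4 : fderiv ℂ f (s, (θ : ℂ) * w) (0, w) = w * fderiv ℂ f (s, (θ : ℂ) * w) (0, 1) := by
      have : ((0, w) : ℂ × ℂ) = w • ((0, 1) : ℂ × ℂ) := by simp
      rw [this, map_smul, smul_eq_mul]
    rw [← h4]
    exact h3
  have hcont : ContinuousOn (fun θ : ℝ => w * fderiv ℂ f (s, (θ : ℂ) * w) (0, 1))
      (uIcc (0 : ℝ) 1) := by
    refine continuousOn_const.mul (ContinuousOn.clm_apply ?_ continuousOn_const)
    refine hfd.continuousOn.comp (by fun_prop) (fun θ hθ => ?_)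
    exact ⟨hp.1, mul_mem_ball hp.2 hθ⟩
  have h5 := intervalIntegral.integral_eq_sub_of_hasDerivAt hder hcont.intervalIntegrable
  simp only [Complex.ofReal_one, one_mul, Complex.ofReal_zero, zero_mul,
    intervalIntegral.integral_const_mul] at h5
  simp only [dvw]
  rw [h5]
  ring

lemma hasDerivAt_snd {f : ℂ × ℂ → ℂ} {s : ℂ} (hf : DifferentiableAt ℂ f (s, 0)) :
    HasDerivAt (fun w => f (s, w)) (fderiv ℂ f (s, 0) (0, 1)) 0 := by
  have h2 : HasDerivAt (fun w : ℂ => ((s, w) : ℂ × ℂ)) (0, 1) 0 :=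
    (hasDerivAt_const _ s).prodMk (hasDerivAt_id _)
  exact hf.hasFDerivAt.comp_hasDerivAt (0 : ℂ) h2

/-! ### the normal form -/

/-- the closed annulus -/
def cann (ρ : ℝ) : Set ℂ := {z | ρ⁻¹ ≤ ‖z‖ ∧ ‖z‖ ≤ ρ}

lemma isCompact_cann (ρ : ℝ) : IsCompact (cann ρ) := by
  refine Metric.isCompact_of_isClosed_isBounded ?_ ?_
  · exact (isClosed_le continuous_const continuous_norm).inter
      (isClosed_le continuous_norm continuous_const)
  · refine (isBounded_closedBall (x := (0 : ℂ)) (r := ρ)).subset (fun z hz => ?_)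
    rw [mem_closedBall_zero_iff]
    exact hz.2

/-- data at a point of the annulus -/
lemma normal_aux {τ : ℂ × ℂ → ℂ × ℂ} {t : ℂ} (ht : t ≠ 0) (h1 : AnalyticAt ℂ τ (t, 0))
    (h2 : ∀ᶠ s in 𝓝 t, τ (s, 0) = (s⁻¹, 0) ∧ HasDerivAt (fun w => (τ (s, w)).2) s 0) :
    AnalyticAt ℂ (dvw (fun p => (τ p).1)) (t, 0) ∧
    AnalyticAt ℂ (dvw (dvw (fun p => (τ p).1 * (τ p).2))) (t, 0) ∧
    ∀ᶠ p in 𝓝 (t, (0 : ℂ)), (τ p).1 = p.1⁻¹ + p.2 * dvw (fun p => (τ p).1) p ∧
      (τ p).1 * (τ p).2 = p.2 + p.2 ^ 2 * dvw (dvw (fun p => (τ p).1 * (τ p).2)) p := by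
  have a1 : AnalyticAt ℂ (fun p => (τ p).1) (t, 0) := analyticAt_fst.comp h1
  have a2 : AnalyticAt ℂ (fun p => (τ p).2) (t, 0) := analyticAt_snd.comp h1
  have a3 : AnalyticAt ℂ (fun p => (τ p).1 * (τ p).2) (t, 0) := a1.mul a2
  have a4 := dvw_analyticAt a3
  refine ⟨dvw_analyticAt a1, dvw_analyticAt a4, ?_⟩
  have e1 := dvw_spec a1
  have e2 := dvw_spec a3
  have e3 := dvw_spec a4
  have hfst : Tendsto (fun p : ℂ × ℂ => p.1) (𝓝 (t, (0 : ℂ))) (𝓝 t) :=
    (continuous_fst.tendsto (t, (0 : ℂ)))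
  have e4 := hfst.eventually h2
  have e5 := hfst.eventually (eventually_ne_nhds ht)
  have hpt : Tendsto (fun p : ℂ × ℂ => (p.1, (0 : ℂ))) (𝓝 (t, (0 : ℂ))) (𝓝 (t, (0 : ℂ))) :=
    (continuous_fst.prodMk continuous_const).tendsto (t, (0 : ℂ))
  have e6 := hpt.eventually a1.eventually_analyticAt
  have e7 := hpt.eventually a2.eventually_analyticAt
  filter_upwards [e1, e2, e3, e4, e5, e6, e7] with p h3 h4 h5 h6 h7 h8 h9
  obtain ⟨s, w⟩ := p
  simp only at h3 h4 h5 h6 h7 h8 h9 ⊢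
  obtain ⟨h6, h6'⟩ := h6
  constructor
  · rw [h3, h6]
  · have h10 : dvw (fun p => (τ p).1 * (τ p).2) (s, 0) = 1 := by
      rw [dvw_zero]
      have h11 := hasDerivAt_snd (h8.mul h9).differentiableAt
      have h12 := (hasDerivAt_snd h8.differentiableAt).mul h6'
      have h13 := h11.unique h12
      rw [show fderiv ℂ ((fun p => (τ p).1) * fun p => (τ p).2) (s, 0) =
        fderiv ℂ (fun p => (τ p).1 * (τ p).2) (s, 0) from rfl] at h13
      rw [h13, h6]
      simp [h7]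
    rw [h4, h5, h10, h6]
    ring

/-- The normal form of a transition with the numerics of a `(-1)`-curve. -/
theorem normal_form {ρ : ℝ} (hρ : 1 < ρ) (τ : ℂ × ℂ → ℂ × ℂ)
    (hτ : ∀ t ∈ cann ρ, AnalyticAt ℂ τ (t, 0) ∧
      ∀ᶠ s in 𝓝 t, τ (s, 0) = (s⁻¹, 0) ∧ HasDerivAt (fun w => (τ (s, w)).2) s 0)
    (R : ℂ × ℂ → Prop) (hR : ∀ t ∈ cann ρ, ∀ᶠ p in 𝓝 (t, (0 : ℂ)), R p) :
    ∃ δ > 0, ∃ a b q k : ℂ × ℂ → ℂ,
      DifferentiableOn ℂ a (ball 0 ρ ×ˢ ball 0 δ) ∧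
      DifferentiableOn ℂ b (ball 0 ρ ×ˢ ball 0 δ) ∧
      DifferentiableOn ℂ q (ball 0 ρ ×ˢ ball 0 δ) ∧
      DifferentiableOn ℂ k (ball 0 ρ ×ˢ ball 0 δ) ∧
      ∀ z c : ℂ, ρ⁻¹ < ‖z‖ → ‖z‖ < ρ → ‖c‖ < δ →
        R (z + c * a (z, c), c * (1 + c * b (z, c))) ∧
        (τ (z + c * a (z, c), c * (1 + c * b (z, c)))).1 = z⁻¹ + c * z⁻¹ ^ 3 * q (z⁻¹, c) ∧
        (τ (z + c * a (z, c), c * (1 + c * b (z, c)))).1 *
          (τ (z + c * a (z, c), c * (1 + c * b (z, c)))).2 = c * (1 + c * k (z⁻¹, c)) := by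
  have hρ0 : 0 < ρ := zero_lt_one.trans hρ
  have hK0 : ∀ t ∈ cann ρ, t ≠ 0 := by
    intro t ht h
    have := ht.1
    rw [h, norm_zero] at this
    exact absurd this (not_le.2 (inv_pos.2 hρ0))
  set g1 := dvw (fun p => (τ p).1) with hg1
  set g3 := dvw (dvw (fun p => (τ p).1 * (τ p).2)) with hg3
  have haux := fun t ht => normal_aux (hK0 t ht) (hτ t ht).1 (hτ t ht).2
  set H : (ℂ × ℂ) × (ℂ × ℂ) → ℂ × ℂ := fun q =>
    (q.1.1 ^ 2 * (1 + q.1.2 * (q.1.1 * q.2.2)) *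
        g1 (q.1.1 + q.1.2 * q.2.1, q.1.2 * (1 + q.1.2 * (q.1.1 * q.2.2))) +
        q.1.2 * q.2.1 ^ 2 * (q.1.1 + q.1.2 * q.2.1)⁻¹,
      -(q.1.1⁻¹ * (1 + q.1.2 * (q.1.1 * q.2.2)) ^ 2 *
        g3 (q.1.1 + q.1.2 * q.2.1, q.1.2 * (1 + q.1.2 * (q.1.1 * q.2.2))))) with hH
  have hHan : ∀ z ∈ cann ρ, ∀ x, AnalyticAt ℂ H ((z, 0), x) := by
    intro z hz x
    have hz0 := hK0 z hz
    obtain ⟨b1, b2, -⟩ := haux z hz
    have c1 : AnalyticAt ℂ (fun q : (ℂ × ℂ) × (ℂ × ℂ) => q.1.1) ((z, 0), x) :=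
      ((ContinuousLinearMap.fst ℂ ℂ ℂ).comp
        (ContinuousLinearMap.fst ℂ (ℂ × ℂ) (ℂ × ℂ))).analyticAt _
    have c1' : AnalyticAt ℂ (fun q : (ℂ × ℂ) × (ℂ × ℂ) => q.1.2) ((z, 0), x) :=
      ((ContinuousLinearMap.snd ℂ ℂ ℂ).comp
        (ContinuousLinearMap.fst ℂ (ℂ × ℂ) (ℂ × ℂ))).analyticAt _
    have x1 : AnalyticAt ℂ (fun q : (ℂ × ℂ) × (ℂ × ℂ) => q.2.1) ((z, 0), x) :=
      ((ContinuousLinearMap.fst ℂ ℂ ℂ).comp
        (ContinuousLinearMap.snd ℂ (ℂ × ℂ) (ℂ × ℂ))).analyticAt _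
    have x2 : AnalyticAt ℂ (fun q : (ℂ × ℂ) × (ℂ × ℂ) => q.2.2) ((z, 0), x) :=
      ((ContinuousLinearMap.snd ℂ ℂ ℂ).comp
        (ContinuousLinearMap.snd ℂ (ℂ × ℂ) (ℂ × ℂ))).analyticAt _
    have y1 : AnalyticAt ℂ (fun q : (ℂ × ℂ) × (ℂ × ℂ) => 1 + q.1.2 * (q.1.1 * q.2.2))
        ((z, 0), x) := analyticAt_const.add (c1'.mul (c1.mul x2))
    have y2 : AnalyticAt ℂ (fun q : (ℂ × ℂ) × (ℂ × ℂ) => q.1.1 + q.1.2 * q.2.1)
        ((z, 0), x) := c1.add (c1'.mul x1)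
    have c2 : AnalyticAt ℂ (fun q : (ℂ × ℂ) × (ℂ × ℂ) =>
        ((q.1.1 + q.1.2 * q.2.1, q.1.2 * (1 + q.1.2 * (q.1.1 * q.2.2))) : ℂ × ℂ))
        ((z, 0), x) := y2.prod (c1'.mul y1)
    have c3 : AnalyticAt ℂ (fun q : (ℂ × ℂ) × (ℂ × ℂ) =>
        g1 (q.1.1 + q.1.2 * q.2.1, q.1.2 * (1 + q.1.2 * (q.1.1 * q.2.2)))) ((z, 0), x) :=
      AnalyticAt.comp_of_eq (g := g1) b1 c2 (by simp)
    have c4 : AnalyticAt ℂ (fun q : (ℂ × ℂ) × (ℂ × ℂ) =>
        g3 (q.1.1 + q.1.2 * q.2.1, q.1.2 * (1 + q.1.2 * (q.1.1 * q.2.2)))) ((z, 0), x) :=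
      AnalyticAt.comp_of_eq (g := g3) b2 c2 (by simp)
    have c5 : AnalyticAt ℂ (fun q : (ℂ × ℂ) × (ℂ × ℂ) => (q.1.1 + q.1.2 * q.2.1)⁻¹)
        ((z, 0), x) := AnalyticAt.inv y2 (by simpa using hz0)
    have c6 : AnalyticAt ℂ (fun q : (ℂ × ℂ) × (ℂ × ℂ) => (q.1.1)⁻¹)
        ((z, 0), x) := AnalyticAt.inv c1 (by simpa using hz0)
    refine AnalyticAt.prod ?_ ?_
    · exact (((c1.pow 2).mul y1).mul c3).add ((c1'.mul (x1.pow 2)).mul c5)
    · exact ((c6.mul (y1.pow 2)).mul c4).neg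
  have hH0 : ∀ z ∈ cann ρ, ∀ x, H ((z, 0), x) = H ((z, 0), 0) := by
    intro z _ x
    simp [hH]
  obtain ⟨δ, hδ, u, M, hu1, hu2, hu3, hu4, hu5⟩ := exists_fixed_split
    (D := ball 0 ρ) (A := ann ρ⁻¹ ρ) (K := cann ρ) isOpen_ball
    (fun z hz => by rw [mem_ball_zero_iff]; exact hz.2) (fun z hz => ⟨hz.1.le, hz.2.le⟩)
    (isCompact_cann ρ) (lcon_pos hρ) (lpos ρ)
    (fun δ _ f hf m hm0 hm => ⟨lpos_differentiableOn hρ isOpen_ball hf, fun p hp =>
      norm_lpos_le hρ hf hm0 hm (by simpa using hp.1) hp.2⟩)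
    (fun δ _ f g hf hg p hp => lpos_sub hρ hf hg hp.2) H hHan hH0
  set v := lneg ρ (fun q => H (q, u q)) with hv
  have hvd : DifferentiableOn ℂ v (ball 0 ρ ×ˢ ball 0 δ) :=
    lneg_differentiableOn hρ isOpen_ball hu3
  have hsplit : ∀ z c : ℂ, ρ⁻¹ < ‖z‖ → ‖z‖ < ρ → ‖c‖ < δ →
      H ((z, c), u (z, c)) = u (z, c) + z⁻¹ • v (z⁻¹, c) := by
    intro z c h1 h2 h3
    have hc : ((z, c) : ℂ × ℂ).2 ∈ ball (0 : ℂ) δ := by simpa using h3
    have h4 := lpos_add_lneg hρ hu3 (p := (z, c)) ⟨h1, h2⟩ hc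
    simp only at h4
    rw [hu5 (z, c) ⟨by simpa using h2, hc⟩] at h4
    exact h4
  -- the region where the relations hold
  have htube : ∀ᶠ c in 𝓝 (0 : ℂ), ∀ y ∈ cann ρ ×ˢ closedBall (0 : ℂ × ℂ) M,
      (R (y.1 + c * y.2.1, c * (1 + c * (y.1 * y.2.2))) ∧ y.1 + c * y.2.1 ≠ 0) ∧
      (τ (y.1 + c * y.2.1, c * (1 + c * (y.1 * y.2.2)))).1 = (y.1 + c * y.2.1)⁻¹ +
        c * (1 + c * (y.1 * y.2.2)) * g1 (y.1 + c * y.2.1, c * (1 + c * (y.1 * y.2.2))) ∧
      (τ (y.1 + c * y.2.1, c * (1 + c * (y.1 * y.2.2)))).1 *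
        (τ (y.1 + c * y.2.1, c * (1 + c * (y.1 * y.2.2)))).2 =
        c * (1 + c * (y.1 * y.2.2)) + (c * (1 + c * (y.1 * y.2.2))) ^ 2 *
          g3 (y.1 + c * y.2.1, c * (1 + c * (y.1 * y.2.2))) := by
    refine ((isCompact_cann ρ).prod (isCompact_closedBall (0 : ℂ × ℂ)
      M)).eventually_forall_of_forall_eventually (fun y hy => ?_)
    have hcont : Tendsto (fun q : ℂ × (ℂ × (ℂ × ℂ)) =>
        ((q.2.1 + q.1 * q.2.2.1, q.1 * (1 + q.1 * (q.2.1 * q.2.2.2))) : ℂ × ℂ))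
        (𝓝 ((0 : ℂ), y)) (𝓝 (y.1, 0)) := by
      have hc : Continuous (fun q : ℂ × (ℂ × (ℂ × ℂ)) =>
        ((q.2.1 + q.1 * q.2.2.1, q.1 * (1 + q.1 * (q.2.1 * q.2.2.2))) : ℂ × ℂ)) := by fun_prop
      have := hc.tendsto ((0 : ℂ), y)
      simpa using this
    have hne : ∀ᶠ p in 𝓝 (y.1, (0 : ℂ)), p.1 ≠ 0 :=
      (continuous_fst.tendsto (y.1, (0 : ℂ))).eventually (eventually_ne_nhds (hK0 _ hy.1))
    have h1 := hcont.eventually ((hR _ hy.1).and hne)
    have h2 := hcont.eventually (haux _ hy.1).2.2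
    filter_upwards [h1, h2] with q h3 h4
    exact ⟨h3, h4.1, h4.2⟩
  obtain ⟨δ', hδ', hδt⟩ := Metric.eventually_nhds_iff_ball.1 htube
  refine ⟨min δ δ', lt_min hδ hδ', fun p => (u p).1, fun p => p.1 * (u p).2,
    fun p => (v p).1, fun p => -(v p).2, ?_, ?_, ?_, ?_, ?_⟩
  · exact hu1.fst.mono (prod_mono le_rfl (ball_subset_ball (min_le_left _ _)))
  · exact (differentiableOn_fst.mul hu1.snd).mono
      (prod_mono le_rfl (ball_subset_ball (min_le_left _ _)))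
  · exact hvd.fst.mono (prod_mono le_rfl (ball_subset_ball (min_le_left _ _)))
  · exact hvd.snd.neg.mono (prod_mono le_rfl (ball_subset_ball (min_le_left _ _)))
  · intro z c h1 h2 h3
    have hcδ : ‖c‖ < δ := h3.trans_le (min_le_left _ _)
    have hcδ' : ‖c‖ < δ' := h3.trans_le (min_le_right _ _)
    have hz0 : z ≠ 0 := hK0 z ⟨h1.le, h2.le⟩
    have h4 := hsplit z c h1 h2 hcδ
    have h5 : u (z, c) ∈ closedBall (0 : ℂ × ℂ) M := by
      rw [mem_closedBall_zero_iff]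
      exact hu2 _ ⟨by simpa using h2, by simpa using hcδ⟩
    obtain ⟨⟨h6, h7⟩, h8, h9⟩ := hδt c (by simpa using hcδ') (z, u (z, c)) ⟨⟨h1.le, h2.le⟩, h5⟩
    simp only at h6 h7 h8 h9
    refine ⟨h6, ?_, ?_⟩
    · rw [h8]
      have h10 := congrArg Prod.fst h4
      simp only [hH, Prod.fst_add, Prod.smul_fst, smul_eq_mul] at h10
      set g := g1 (z + c * (u (z, c)).1, c * (1 + c * (z * (u (z, c)).2)))
      set a := (u (z, c)).1
      set b := (u (z, c)).2
      set q := (v (z⁻¹, c)).1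
      have h11 : (1 + c * (z * b)) * g = (z⁻¹) ^ 2 * (a + z⁻¹ * q - c * a ^ 2 * (z + c * a)⁻¹) := by
        rw [← h10]
        field_simp
        ring
      change (z + c * a)⁻¹ + c * (1 + c * (z * b)) * g = z⁻¹ + c * z⁻¹ ^ 3 * q
      rw [mul_assoc, h11]
      field_simp
      ring
    · rw [h9]
      have h10 := congrArg Prod.snd h4
      simp only [hH, Prod.snd_add, Prod.smul_snd, smul_eq_mul] at h10
      set g := g3 (z + c * (u (z, c)).1, c * (1 + c * (z * (u (z, c)).2)))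
      set b := (u (z, c)).2
      set q := (v (z⁻¹, c)).2
      have h11 : (1 + c * (z * b)) ^ 2 * g = -(z * b + q) := by
        have : z * b + q = z * (b + z⁻¹ * q) := by field_simp
        rw [this, ← h10]
        field_simp
      have h12 : c * (1 + c * (z * b)) + (c * (1 + c * (z * b))) ^ 2 * g =
          c * (1 + c * (z * b)) + c ^ 2 * ((1 + c * (z * b)) ^ 2 * g) := by ring
      rw [h12, h11]
      ring

end Crest.Agent.R275.NB690
end
end

-- ▼ part R275/BD_78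
section

/-!
R275 (S0418), block BD (helper78): blow-down.  If the compact complex surface `X` carries a
`PuncturedChart` whose zero set `Z` has at least two points, then `X / Z` is a compact complex surface
and the projection contradicts the minimality of `X`.
-/

set_option autoImplicit false
set_option linter.unusedSectionVars false
set_option linter.style.haveILetI false
set_option warn.classDefReducibility false

open Set Filter Topology Metric Crest.AlgGeometry.Surface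
open scoped Manifold ContDiff

noncomputable section

namespace Crest.Agent.R275.BD78

open Crest.Agent.R275.Shell468

variable {X : Type} [TopologicalSpace X]

/-- the collapsed space: `X \ Z` and one more point (`none`) -/
def Col (Z : Set X) : Type := Option {x : X // x ∉ Z}

open Classical in
/-- the projection -/
def prj (Z : Set X) (x : X) : Col Z := if h : x ∈ Z then none else some ⟨x, h⟩

/-- the new point -/
def pt (Z : Set X) : Col Z := none

instance (Z : Set X) : TopologicalSpace (Col Z) := TopologicalSpace.coinduced (prj Z) inferInstance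

variable {Z : Set X}

lemma prj_mem {x : X} (h : x ∈ Z) : prj Z x = pt Z := dif_pos h

lemma prj_not_mem {x : X} (h : x ∉ Z) : prj Z x = (some ⟨x, h⟩ : Option {x : X // x ∉ Z}) :=
  dif_neg h

lemma prj_eq_pt {x : X} : prj Z x = pt Z ↔ x ∈ Z := by
  constructor
  · intro h
    by_contra hx
    rw [prj_not_mem hx] at h
    exact Option.some_ne_none _ h
  · exact prj_mem

lemma prj_surj (hZ : Z.Nonempty) : Function.Surjective (prj Z) := by
  rintro (_ | ⟨x, hx⟩)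
  · obtain ⟨z, hz⟩ := hZ
    exact ⟨z, prj_mem hz⟩
  · exact ⟨x, prj_not_mem hx⟩

lemma isQuotientMap_prj (hZ : Z.Nonempty) : IsQuotientMap (prj Z) :=
  ⟨⟨rfl⟩, prj_surj hZ⟩

lemma continuous_prj : Continuous (prj Z) := continuous_coinduced_rng

lemma isOpen_col {U : Set (Col Z)} : IsOpen U ↔ IsOpen (prj Z ⁻¹' U) := isOpen_coinduced

lemma prj_inj {x y : X} (hx : x ∉ Z) (h : prj Z x = prj Z y) : x = y := by
  have hy : y ∉ Z := by
    intro hy
    rw [prj_mem hy, prj_eq_pt] at h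
    exact hx h
  rw [prj_not_mem hx, prj_not_mem hy] at h
  exact congrArg Subtype.val (Option.some.inj h)

/-- the inverse away from the point -/
def sec (Z : Set X) (x₀ : X) : Col Z → X
  | none => x₀
  | some x => x.1

lemma sec_prj {x₀ : X} {x : X} (hx : x ∉ Z) : sec Z x₀ (prj Z x) = x := by
  rw [prj_not_mem hx]; rfl

lemma prj_sec {x₀ : X} {y : Col Z} (hy : y ≠ pt Z) : prj Z (sec Z x₀ y) = y := by
  rcases y with _ | ⟨x, hx⟩
  · exact absurd rfl hy
  · exact prj_not_mem hx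

lemma sec_not_mem {x₀ : X} {y : Col Z} (hy : y ≠ pt Z) : sec Z x₀ y ∉ Z := by
  rcases y with _ | ⟨x, hx⟩
  · exact absurd rfl hy
  · exact hx

lemma preimage_image_of_subset {U : Set X} (hU : Disjoint U Z) : prj Z ⁻¹' (prj Z '' U) = U := by
  ext x
  constructor
  · rintro ⟨y, hy, h⟩
    have : y ∉ Z := fun h' => (Set.disjoint_left.1 hU) hy h'
    exact prj_inj this h ▸ hy
  · exact fun h => ⟨x, h, rfl⟩

/-- the projection as a partial homeomorphism, off `Z` -/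
def eprj (hZ : IsClosed Z) (x₀ : X) : OpenPartialHomeomorph X (Col Z) where
  toFun := prj Z
  invFun := sec Z x₀
  source := Zᶜ
  target := {y | y ≠ pt Z}
  map_source' := fun x hx h => hx (prj_eq_pt.1 h)
  map_target' := fun y hy => sec_not_mem hy
  left_inv' := fun _ hx => sec_prj hx
  right_inv' := fun y hy => prj_sec hy
  open_source := hZ.isOpen_compl
  open_target := by
    rw [isOpen_col]
    have : prj Z ⁻¹' {y | y ≠ pt Z} = Zᶜ := by
      ext x; simp [prj_eq_pt]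
    rw [this]
    exact hZ.isOpen_compl
  continuousOn_toFun := continuous_prj.continuousOn
  continuousOn_invFun := by
    intro y hy
    have hx := sec_not_mem (x₀ := x₀) hy
    refine ContinuousAt.continuousWithinAt ?_
    intro W hW
    obtain ⟨V, hVW, hVo, hV⟩ := mem_nhds_iff.1 hW
    have ho : IsOpen (prj Z '' (V ∩ Zᶜ)) := by
      rw [isOpen_col, preimage_image_of_subset]
      · exact hVo.inter hZ.isOpen_compl
      · exact Set.disjoint_left.2 fun x h h' => h.2 h'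
    have hm : y ∈ prj Z '' (V ∩ Zᶜ) := ⟨sec Z x₀ y, ⟨hV, hx⟩, prj_sec hy⟩
    refine Filter.mem_map.2 (Filter.mem_of_superset (ho.mem_nhds hm) ?_)
    rintro _ ⟨x, ⟨hxV, hxZ⟩, rfl⟩
    rw [Set.mem_preimage, sec_prj hxZ]
    exact hVW hxV

variable [ChartedSpace C2 X] {N : Set X} {Φ : X → C2} {Ψ : C2 → X} {ε : ℝ}

/-- the zero set of a punctured chart -/
def Zs (N : Set X) (Φ : X → C2) : Set X := {y | y ∈ N ∧ Φ y = 0}

lemma isClosed_Zs (C : PuncturedChart N Φ Ψ ε) : IsClosed (Zs N Φ) := by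
  have h := C.closed 0 C.pos
  have e : {y | y ∈ N ∧ ‖Φ y‖ ≤ 0} = Zs N Φ := by
    ext y; simp [Zs]
  rwa [e] at h

/-- coordinate near the point -/
def cf (N : Set X) (Φ : X → C2) : Col (Zs N Φ) → C2
  | none => 0
  | some x => Φ x.1

open Classical in
/-- inverse coordinate near the point -/
def cg (N : Set X) (Φ : X → C2) (Ψ : C2 → X) (q : C2) : Col (Zs N Φ) :=
  if q = 0 then pt (Zs N Φ) else prj (Zs N Φ) (Ψ q)

lemma cf_prj {x : X} (hx : x ∈ N) : cf N Φ (prj (Zs N Φ) x) = Φ x := by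
  by_cases h : x ∈ Zs N Φ
  · rw [prj_mem h]
    exact h.2.symm
  · rw [prj_not_mem h]
    rfl

lemma cg_zero : cg N Φ Ψ 0 = pt (Zs N Φ) := if_pos rfl

lemma cg_ne {q : C2} (h : q ≠ 0) : cg N Φ Ψ q = prj (Zs N Φ) (Ψ q) := if_neg h

/-- the ball neighbourhood of `Z` -/
def Bs (N : Set X) (Φ : X → C2) (ε : ℝ) : Set X := {y | y ∈ N ∧ ‖Φ y‖ < ε}

lemma isOpen_Bs (C : PuncturedChart N Φ Ψ ε) (r : ℝ) : IsOpen (Bs N Φ r) := by
  have h := C.hol.continuousOn.isOpen_inter_preimage C.openN (isOpen_ball (x := (0 : C2)) (ε := r))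
  have e : N ∩ Φ ⁻¹' ball 0 r = Bs N Φ r := by
    ext y; simp [Bs]
  rwa [e] at h

lemma preimage_image_Bs {r : ℝ} (hr : 0 < r) :
    prj (Zs N Φ) ⁻¹' (prj (Zs N Φ) '' Bs N Φ r) = Bs N Φ r := by
  ext x
  constructor
  · rintro ⟨y, hy, h⟩
    by_cases hx : x ∈ Zs N Φ
    · exact ⟨hx.1, by rw [hx.2, norm_zero]; exact hr⟩
    · exact (prj_inj hx h.symm) ▸ hy
  · exact fun h => ⟨x, h, rfl⟩

lemma cg_continuousAt_zero [CompactSpace X] (C : PuncturedChart N Φ Ψ ε) :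
    ContinuousAt (cg N Φ Ψ) 0 := by
  intro W hW
  rw [cg_zero] at hW
  obtain ⟨V, hVW, hVo, hV⟩ := mem_nhds_iff.1 hW
  have hU : IsOpen (prj (Zs N Φ) ⁻¹' V) := isOpen_col.1 hVo
  have hZU : Zs N Φ ⊆ prj (Zs N Φ) ⁻¹' V := fun x hx => by
    rw [Set.mem_preimage, prj_mem hx]; exact hV
  -- compactness
  obtain ⟨r, hr0, hrε, hr⟩ : ∃ r, 0 < r ∧ r < ε ∧ {y | y ∈ N ∧ ‖Φ y‖ ≤ r} ⊆ prj (Zs N Φ) ⁻¹' V := by
    by_contra hcon
    push Not at hcon
    let t : ℕ → Set X := fun n => {y | y ∈ N ∧ ‖Φ y‖ ≤ ε / (n + 2)} ∩ (prj (Zs N Φ) ⁻¹' V)ᶜ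
    have hε := C.pos
    have hlt : ∀ n : ℕ, ε / (n + 2) < ε := by
      intro n
      rw [div_lt_iff₀ (by positivity)]
      nlinarith [(Nat.cast_nonneg n : (0 : ℝ) ≤ n)]
    have hne := IsCompact.nonempty_iInter_of_sequence_nonempty_isCompact_isClosed t
      (by
        intro n x hx
        refine ⟨⟨hx.1.1, hx.1.2.trans ?_⟩, hx.2⟩
        push_cast
        apply div_le_div_of_nonneg_left hε.le (by positivity) (by linarith))
      (by
        intro n
        obtain ⟨y, hy, hy'⟩ := Set.not_subset.1 (hcon (ε / (n + 2)) (by positivity) (hlt n))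
        exact ⟨y, hy, hy'⟩)
      (((C.closed _ (hlt 0)).inter hU.isClosed_compl).isCompact)
      (fun n => (C.closed _ (hlt n)).inter hU.isClosed_compl)
    obtain ⟨y, hy⟩ := hne
    rw [Set.mem_iInter] at hy
    have hy0 : Φ y = 0 := by
      rw [← norm_le_zero_iff]
      refine le_of_forall_pos_le_add fun δ hδ => ?_
      obtain ⟨n, hn⟩ := exists_nat_gt (ε / δ)
      refine (hy n).1.2.trans ?_
      rw [zero_add, div_le_iff₀ (by positivity)]
      rw [div_lt_iff₀ hδ] at hn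
      nlinarith
    exact (hy 0).2 (hZU ⟨(hy 0).1.1, hy0⟩)
  refine Filter.mem_map.2 (Filter.mem_of_superset (ball_mem_nhds 0 hr0) ?_)
  intro q hq
  rw [mem_ball_zero_iff] at hq
  refine hVW ?_
  by_cases h : q = 0
  · rw [h, cg_zero]; exact hV
  · rw [cg_ne h]
    have := C.symm_mem q (norm_pos_iff.2 h) (hq.trans hrε)
    exact hr ⟨this.1, by rw [this.2]; exact hq.le⟩

/-- the chart at the new point -/
def ec [CompactSpace X] (C : PuncturedChart N Φ Ψ ε) (hne : (Zs N Φ).Nonempty) :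
    OpenPartialHomeomorph (Col (Zs N Φ)) C2 where
  toFun := cf N Φ
  invFun := cg N Φ Ψ
  source := prj (Zs N Φ) '' Bs N Φ ε
  target := ball 0 ε
  map_source' := by
    rintro _ ⟨x, hx, rfl⟩
    rw [cf_prj hx.1, mem_ball_zero_iff]
    exact hx.2
  map_target' := by
    intro q hq
    rw [mem_ball_zero_iff] at hq
    by_cases h : q = 0
    · obtain ⟨z, hz⟩ := hne
      rw [h, cg_zero]
      refine ⟨z, ⟨hz.1, by rw [hz.2, norm_zero]; exact C.pos⟩, prj_mem hz⟩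
    · rw [cg_ne h]
      have := C.symm_mem q (norm_pos_iff.2 h) hq
      exact ⟨Ψ q, ⟨this.1, by rw [this.2]; exact hq⟩, rfl⟩
  left_inv' := by
    rintro _ ⟨x, hx, rfl⟩
    rw [cf_prj hx.1]
    by_cases h : Φ x = 0
    · rw [h, cg_zero, prj_mem (show x ∈ Zs N Φ from ⟨hx.1, h⟩)]
    · rw [cg_ne h]
      have := C.symm_mem (Φ x) (norm_pos_iff.2 h) hx.2
      rw [C.inj ⟨this.1, by rw [this.2]; exact h⟩ ⟨hx.1, h⟩ this.2]
  right_inv' := by
    intro q hq
    rw [mem_ball_zero_iff] at hq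
    by_cases h : q = 0
    · rw [h, cg_zero]; rfl
    · rw [cg_ne h]
      have := C.symm_mem q (norm_pos_iff.2 h) hq
      rw [cf_prj this.1, this.2]
  open_source := by
    rw [isOpen_col, preimage_image_Bs C.pos]
    exact isOpen_Bs C ε
  open_target := isOpen_ball
  continuousOn_toFun := by
    have ho : IsOpen (prj (Zs N Φ) '' Bs N Φ ε) := by
      rw [isOpen_col, preimage_image_Bs C.pos]
      exact isOpen_Bs C ε
    rw [(isQuotientMap_prj hne).continuousOn_isOpen_iff ho, preimage_image_Bs C.pos]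
    refine (C.hol.continuousOn.mono fun x hx => hx.1).congr ?_
    intro x hx
    exact cf_prj hx.1
  continuousOn_invFun := by
    intro q hq
    rw [mem_ball_zero_iff] at hq
    by_cases h : q = 0
    · rw [h]
      exact (cg_continuousAt_zero C).continuousWithinAt
    · refine ContinuousAt.continuousWithinAt ?_
      have h1 : ContinuousAt Ψ q := by
        refine C.symm_hol.continuousOn.continuousAt ?_
        refine IsOpen.mem_nhds ?_ ⟨norm_pos_iff.2 h, hq⟩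
        exact (isOpen_lt continuous_const continuous_norm).inter
          (isOpen_lt continuous_norm continuous_const)
      refine (ContinuousAt.comp (continuous_prj (Z := Zs N Φ)).continuousAt h1).congr ?_
      filter_upwards [isOpen_ne.mem_nhds h] with p hp
      rw [cg_ne hp]
      rfl

/-! ### the collapsed surface -/

lemma t2_col [T2Space X] (C : PuncturedChart N Φ Ψ ε) (hne : (Zs N Φ).Nonempty) :
    T2Space (Col (Zs N Φ)) := by
  have hZc := isClosed_Zs C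
  -- separation of a point off `Z` from the new point
  have key : ∀ x, x ∉ Zs N Φ → ∃ U V : Set (Col (Zs N Φ)), IsOpen U ∧ IsOpen V ∧
      pt (Zs N Φ) ∈ U ∧ prj (Zs N Φ) x ∈ V ∧ Disjoint U V := by
    intro x hx
    obtain ⟨r, hr0, hrε, hr⟩ : ∃ r, 0 < r ∧ r < ε ∧ ¬ (x ∈ N ∧ ‖Φ x‖ ≤ r) := by
      have hε := C.pos
      by_cases hxN : x ∈ N
      · have h0 : Φ x ≠ 0 := fun h => hx ⟨hxN, h⟩
        have hp : 0 < ‖Φ x‖ := norm_pos_iff.2 h0
        refine ⟨min (ε / 2) (‖Φ x‖ / 2), by positivity, (min_le_left _ _).trans_lt (by linarith), ?_⟩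
        rintro ⟨_, h⟩
        have := h.trans (min_le_right _ _)
        linarith
      · exact ⟨ε / 2, by positivity, by linarith, fun h => hxN h.1⟩
    refine ⟨prj (Zs N Φ) '' Bs N Φ r, prj (Zs N Φ) '' {y | y ∈ N ∧ ‖Φ y‖ ≤ r}ᶜ, ?_, ?_, ?_, ?_, ?_⟩
    · rw [isOpen_col, preimage_image_Bs hr0]
      exact isOpen_Bs C r
    · rw [isOpen_col, preimage_image_of_subset]
      · exact (C.closed r hrε).isOpen_compl
      · exact Set.disjoint_left.2 fun y h h' => h ⟨h'.1, by rw [h'.2, norm_zero]; exact hr0.le⟩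
    · obtain ⟨z, hz⟩ := hne
      exact ⟨z, ⟨hz.1, by rw [hz.2, norm_zero]; exact hr0⟩, prj_mem hz⟩
    · exact ⟨x, hr, rfl⟩
    · rw [Set.disjoint_left]
      rintro _ ⟨y, hy, rfl⟩ ⟨z, hz, hzy⟩
      have hzZ : z ∉ Zs N Φ := fun h => hz ⟨h.1, by rw [h.2, norm_zero]; exact hr0.le⟩
      have := prj_inj hzZ hzy
      rw [this] at hz
      exact hz ⟨hy.1, hy.2.le⟩
  refine ⟨?_⟩
  intro a b hab
  obtain ⟨x, rfl⟩ := prj_surj hne a
  obtain ⟨y, rfl⟩ := prj_surj hne b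
  by_cases hx : x ∈ Zs N Φ
  · have hy : y ∉ Zs N Φ := fun hy => hab (by rw [prj_mem hx, prj_mem hy])
    obtain ⟨U, V, h1, h2, h3, h4, h5⟩ := key y hy
    rw [prj_mem hx]
    exact ⟨U, V, h1, h2, h3, h4, h5⟩
  · by_cases hy : y ∈ Zs N Φ
    · obtain ⟨U, V, h1, h2, h3, h4, h5⟩ := key x hx
      rw [prj_mem hy]
      exact ⟨V, U, h2, h1, h4, h3, h5.symm⟩
    · have hxy : x ≠ y := fun h => hab (by rw [h])
      obtain ⟨U, V, hU, hV, hxU, hyV, hd⟩ := t2_separation hxy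
      refine ⟨prj (Zs N Φ) '' (U ∩ (Zs N Φ)ᶜ), prj (Zs N Φ) '' (V ∩ (Zs N Φ)ᶜ), ?_, ?_,
        ⟨x, ⟨hxU, hx⟩, rfl⟩, ⟨y, ⟨hyV, hy⟩, rfl⟩, ?_⟩
      · rw [isOpen_col, preimage_image_of_subset]
        · exact hU.inter hZc.isOpen_compl
        · exact Set.disjoint_left.2 fun z h h' => h.2 h'
      · rw [isOpen_col, preimage_image_of_subset]
        · exact hV.inter hZc.isOpen_compl
        · exact Set.disjoint_left.2 fun z h h' => h.2 h'
      · rw [Set.disjoint_left]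
        rintro _ ⟨u, hu, rfl⟩ ⟨v, hv, hvu⟩
        have := prj_inj hv.2 hvu
        rw [this] at hv
        exact (Set.disjoint_left.1 hd) hu.1 hv.1

lemma compact_col [CompactSpace X] (hne : (Zs N Φ).Nonempty) : CompactSpace (Col (Zs N Φ)) := by
  refine ⟨?_⟩
  have h : range (prj (Zs N Φ)) = univ := (prj_surj hne).range_eq
  rw [← h]
  exact isCompact_range continuous_prj

/-- the charted space structure -/
def chs [T2Space X] [CompactSpace X] (C : PuncturedChart N Φ Ψ ε) (hne : (Zs N Φ).Nonempty)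
    (x₀ : X) : ChartedSpace C2 (Col (Zs N Φ)) where
  atlas := {ec C hne} ∪ (fun e => (eprj (isClosed_Zs C) x₀).symm.trans e) '' atlas C2 X
  chartAt := fun y => match y with
    | none => ec C hne
    | some x => (eprj (isClosed_Zs C) x₀).symm.trans (chartAt C2 x.1)
  mem_chart_source := by
    rintro (_ | ⟨x, hx⟩)
    · obtain ⟨z, hz⟩ := hne
      exact ⟨z, ⟨hz.1, by rw [hz.2, norm_zero]; exact C.pos⟩, prj_mem hz⟩
    · show (some ⟨x, hx⟩ : Col (Zs N Φ)) ∈ ((eprj (isClosed_Zs C) x₀).symm.trans (chartAt C2 x)).source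
      rw [OpenPartialHomeomorph.trans_source]
      refine ⟨?_, ?_⟩
      · show (some ⟨x, hx⟩ : Col (Zs N Φ)) ≠ pt (Zs N Φ)
        exact Option.some_ne_none _
      · exact mem_chart_source C2 x
  chart_mem_atlas := by
    rintro (_ | ⟨x, hx⟩)
    · exact Or.inl rfl
    · exact Or.inr ⟨chartAt C2 x, chart_mem_atlas C2 x, rfl⟩

lemma isManifold_col [T2Space X] [CompactSpace X] [IsManifold 𝓘(ℂ, C2) 1 X]
    (C : PuncturedChart N Φ Ψ ε) (hne : (Zs N Φ).Nonempty) (x₀ : X) :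
    letI := chs C hne x₀
    IsManifold 𝓘(ℂ, C2) 1 (Col (Zs N Φ)) := by
  letI := chs C hne x₀
  -- from the ball to the old charts
  have hA : ∀ e ∈ atlas C2 X,
      ContDiffOn ℂ 1 ((ec C hne).symm.trans ((eprj (isClosed_Zs C) x₀).symm.trans e))
        ((ec C hne).symm.trans ((eprj (isClosed_Zs C) x₀).symm.trans e)).source := by
    intro e he
    have hs : ∀ q ∈ ((ec C hne).symm.trans ((eprj (isClosed_Zs C) x₀).symm.trans e)).source,
        0 < ‖q‖ ∧ ‖q‖ < ε ∧ Ψ q ∈ e.source := by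
      intro q hq
      rw [OpenPartialHomeomorph.trans_source, OpenPartialHomeomorph.symm_source] at hq
      obtain ⟨hq1, hq2⟩ := hq
      have hq1' : ‖q‖ < ε := mem_ball_zero_iff.1 hq1
      rw [Set.mem_preimage, OpenPartialHomeomorph.trans_source] at hq2
      obtain ⟨hq3, hq4⟩ := hq2
      have hq3' : cg N Φ Ψ q ≠ pt (Zs N Φ) := hq3
      have h0 : q ≠ 0 := by
        rintro rfl
        exact hq3' cg_zero
      refine ⟨norm_pos_iff.2 h0, hq1', ?_⟩
      have h4 : sec (Zs N Φ) x₀ (cg N Φ Ψ q) ∈ e.source := hq4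
      rw [cg_ne h0] at h4 hq3'
      rwa [sec_prj (fun h => hq3' (prj_mem h))] at h4
    have h1 : ContMDiffOn 𝓘(ℂ, C2) 𝓘(ℂ, C2) 1 (e ∘ Ψ)
        ((ec C hne).symm.trans ((eprj (isClosed_Zs C) x₀).symm.trans e)).source := by
      have he' := contMDiffOn_of_mem_maximalAtlas (I := 𝓘(ℂ, C2)) (n := 1)
        (IsManifold.subset_maximalAtlas he)
      exact he'.comp (C.symm_hol.mono fun q hq => ⟨(hs q hq).1, (hs q hq).2.1⟩)
        fun q hq => (hs q hq).2.2
    refine (contMDiffOn_iff_contDiffOn.1 h1).congr ?_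
    intro q hq
    obtain ⟨h0, hε, -⟩ := hs q hq
    have h2 := C.symm_mem q h0 hε
    have h3 : Ψ q ∉ Zs N Φ := fun h => (norm_pos_iff.1 h0) (by rw [← h2.2]; exact h.2)
    show e (sec (Zs N Φ) x₀ (cg N Φ Ψ q)) = e (Ψ q)
    rw [cg_ne (norm_pos_iff.1 h0), sec_prj h3]
  -- from the old charts to the ball
  have hB : ∀ e ∈ atlas C2 X,
      ContDiffOn ℂ 1 (((eprj (isClosed_Zs C) x₀).symm.trans e).symm.trans (ec C hne))
        (((eprj (isClosed_Zs C) x₀).symm.trans e).symm.trans (ec C hne)).source := by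
    intro e he
    have hs : ∀ q ∈ (((eprj (isClosed_Zs C) x₀).symm.trans e).symm.trans (ec C hne)).source,
        q ∈ e.target ∧ e.symm q ∈ N := by
      intro q hq
      rw [OpenPartialHomeomorph.trans_source, OpenPartialHomeomorph.symm_source,
        OpenPartialHomeomorph.trans_target] at hq
      obtain ⟨⟨hq1, hq2⟩, hq3⟩ := hq
      refine ⟨hq1, ?_⟩
      have hq2' : e.symm q ∉ Zs N Φ := hq2
      have hq3' : prj (Zs N Φ) (e.symm q) ∈ prj (Zs N Φ) '' Bs N Φ ε := hq3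
      have : e.symm q ∈ prj (Zs N Φ) ⁻¹' (prj (Zs N Φ) '' Bs N Φ ε) := hq3'
      rw [preimage_image_Bs C.pos] at this
      exact this.1
    have h1 : ContMDiffOn 𝓘(ℂ, C2) 𝓘(ℂ, C2) 1 (Φ ∘ e.symm)
        (((eprj (isClosed_Zs C) x₀).symm.trans e).symm.trans (ec C hne)).source := by
      have he' := contMDiffOn_symm_of_mem_maximalAtlas (I := 𝓘(ℂ, C2)) (n := 1)
        (IsManifold.subset_maximalAtlas he)
      exact C.hol.comp (he'.mono fun q hq => (hs q hq).1) fun q hq => (hs q hq).2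
    refine (contMDiffOn_iff_contDiffOn.1 h1).congr ?_
    intro q hq
    show cf N Φ (prj (Zs N Φ) (e.symm q)) = Φ (e.symm q)
    exact cf_prj (hs q hq).2
  refine isManifold_of_contDiffOn 𝓘(ℂ, C2) 1 (Col (Zs N Φ)) ?_
  intro e e' he he'
  simp only [modelWithCornersSelf_coe, modelWithCornersSelf_coe_symm, Set.range_id, Set.inter_univ,
    Function.comp_id, Function.id_comp, Set.preimage_id]
  rcases he with he | ⟨e, he, rfl⟩ <;> rcases he' with he' | ⟨e', he', rfl⟩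
  · rw [Set.mem_singleton_iff] at he he'
    subst he he'
    refine contDiffOn_id.congr ?_
    intro q hq
    rw [OpenPartialHomeomorph.trans_source] at hq
    exact (ec C hne).right_inv hq.1
  · rw [Set.mem_singleton_iff] at he
    subst he
    exact hA e' he'
  · rw [Set.mem_singleton_iff] at he'
    subst he'
    exact hB e he
  · have h1 : ContDiffOn ℂ 1 (e' ∘ e.symm) (e.symm.trans e').source := by
      have h2 : ContMDiffOn 𝓘(ℂ, C2) 𝓘(ℂ, C2) 1 (e' ∘ e.symm) (e.symm.trans e').source := by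
        have he1 := contMDiffOn_symm_of_mem_maximalAtlas (I := 𝓘(ℂ, C2)) (n := 1)
          (IsManifold.subset_maximalAtlas he)
        have he2 := contMDiffOn_of_mem_maximalAtlas (I := 𝓘(ℂ, C2)) (n := 1)
          (IsManifold.subset_maximalAtlas he')
        refine he2.comp (he1.mono fun q hq => ?_) fun q hq => ?_
        · exact ((e.symm.trans_source e') ▸ hq).1
        · exact ((e.symm.trans_source e') ▸ hq).2
      exact contMDiffOn_iff_contDiffOn.1 h2
    have hs : ∀ q ∈ (((eprj (isClosed_Zs C) x₀).symm.trans e).symm.trans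
        ((eprj (isClosed_Zs C) x₀).symm.trans e')).source,
        q ∈ (e.symm.trans e').source ∧ e.symm q ∉ Zs N Φ := by
      intro q hq
      rw [OpenPartialHomeomorph.trans_source, OpenPartialHomeomorph.symm_source,
        OpenPartialHomeomorph.trans_target] at hq
      obtain ⟨⟨hq1, hq2⟩, hq3⟩ := hq
      have hq2' : e.symm q ∉ Zs N Φ := hq2
      refine ⟨?_, hq2'⟩
      rw [OpenPartialHomeomorph.trans_source, OpenPartialHomeomorph.symm_source]
      refine ⟨hq1, ?_⟩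
      rw [Set.mem_preimage, OpenPartialHomeomorph.trans_source] at hq3
      have h5 : sec (Zs N Φ) x₀ (prj (Zs N Φ) (e.symm q)) ∈ e'.source := hq3.2
      rwa [sec_prj hq2'] at h5
    refine (h1.mono fun q hq => (hs q hq).1).congr ?_
    intro q hq
    show e' (sec (Zs N Φ) x₀ (prj (Zs N Φ) (e.symm q))) = e' (e.symm q)
    rw [sec_prj (hs q hq).2]

lemma contMDiff_prj [T2Space X] [CompactSpace X] [IsManifold 𝓘(ℂ, C2) 1 X]
    (C : PuncturedChart N Φ Ψ ε) (hne : (Zs N Φ).Nonempty) (x₀ : X) :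
    letI := chs C hne x₀
    ContMDiff 𝓘(ℂ, C2) 𝓘(ℂ, C2) 1 (prj (Zs N Φ)) := by
  letI := chs C hne x₀
  intro x
  rw [contMDiffAt_iff_target]
  refine ⟨continuous_prj.continuousAt, ?_⟩
  by_cases hx : x ∈ Zs N Φ
  · have h1 : (extChartAt 𝓘(ℂ, C2) (prj (Zs N Φ) x) ∘ prj (Zs N Φ)) =ᶠ[𝓝 x] Φ := by
      rw [prj_mem hx]
      filter_upwards [C.openN.mem_nhds hx.1] with y hy
      show cf N Φ (prj (Zs N Φ) y) = Φ y
      exact cf_prj hy
    exact (C.hol.contMDiffAt (C.openN.mem_nhds hx.1)).congr_of_eventuallyEq h1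
  · have h1 : (extChartAt 𝓘(ℂ, C2) (prj (Zs N Φ) x) ∘ prj (Zs N Φ)) =ᶠ[𝓝 x]
        extChartAt 𝓘(ℂ, C2) x := by
      rw [prj_not_mem hx]
      filter_upwards [(isClosed_Zs C).isOpen_compl.mem_nhds hx] with y hy
      show (chartAt C2 x) (sec (Zs N Φ) x₀ (prj (Zs N Φ) y)) = (chartAt C2 x) y
      rw [sec_prj hy]
    exact contMDiffAt_extChartAt.congr_of_eventuallyEq h1

/-- **blow-down**: a punctured chart with at least two zeros contradicts minimality -/
theorem not_isMinimal_of_puncturedChart [T2Space X] [CompactSpace X] [IsManifold 𝓘(ℂ, C2) 1 X]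
    (C : PuncturedChart N Φ Ψ ε) {a b : X} (ha : a ∈ N) (hb : b ∈ N) (ha0 : Φ a = 0)
    (hb0 : Φ b = 0) (hab : a ≠ b) : ¬ IsMinimal X := by
  intro hmin
  have hne : (Zs N Φ).Nonempty := ⟨a, ha, ha0⟩
  letI := chs C hne a
  haveI := t2_col C hne
  haveI : CompactSpace (Col (Zs N Φ)) := compact_col hne
  have hM := isManifold_col C hne a
  have hbij := hmin (Col (Zs N Φ)) hM (prj (Zs N Φ)) (contMDiff_prj C hne a)
    ⟨{pt (Zs N Φ)}, Set.finite_singleton _, by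
      have e : prj (Zs N Φ) ⁻¹' {pt (Zs N Φ)} = Zs N Φ := by
        ext x; simp [prj_eq_pt]
      rw [e]
      refine ⟨fun x hx h => hx (prj_eq_pt.1 h), fun x hx y _ h => prj_inj hx h, ?_⟩
      intro y hy
      exact ⟨sec (Zs N Φ) a y, sec_not_mem hy, prj_sec hy⟩⟩
  exact hab (hbij.1 (by rw [prj_mem (show a ∈ Zs N Φ from ⟨ha, ha0⟩),
    prj_mem (show b ∈ Zs N Φ from ⟨hb, hb0⟩)]))

end Crest.Agent.R275.BD78
end
end

-- ▼ part R275/NBe_690
section

/-!
R275 (S0418), block R / F7-XY, helper690: two tubes along a rational curve of self-intersection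
`-1`, with the mixed relation, give the blow-up model of a neighbourhood and a punctured chart;
hence the surface is not minimal.
-/

set_option autoImplicit false
set_option linter.unusedSectionVars false

open Set Filter Topology Metric Complex Crest.AlgGeometry.Surface
open scoped Manifold ContDiff

noncomputable section

namespace Crest.Agent.R275.NB690

open Crest.Agent.R275.Shell468 Crest.Agent.R275.Tb78

variable {X : Type} [TopologicalSpace X] [ChartedSpace C2 X]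

lemma contMDiffOn_of_analytic {E : ℂ × ℂ → ℂ × ℂ} {W : Set (ℂ × ℂ)} (hW : IsOpen W)
    (h : AnalyticOnNhd ℂ E W) : ContMDiffOn 𝓘(ℂ, ℂ × ℂ) 𝓘(ℂ, ℂ × ℂ) 1 E W :=
  (h.contDiffOn hW.uniqueDiffOn).contMDiffOn

/-- the shear `(ż, ċ) ↦ (ż + a ċ, ċ)` -/
def shear (a : ℂ) : (ℂ × ℂ) ≃L[ℂ] (ℂ × ℂ) :=
  ContinuousLinearEquiv.equivOfInverse
    ((ContinuousLinearMap.fst ℂ ℂ ℂ + a • ContinuousLinearMap.snd ℂ ℂ ℂ).prod
      (ContinuousLinearMap.snd ℂ ℂ ℂ))
    ((ContinuousLinearMap.fst ℂ ℂ ℂ - a • ContinuousLinearMap.snd ℂ ℂ ℂ).prod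
      (ContinuousLinearMap.snd ℂ ℂ ℂ))
    (fun p => by simp) (fun p => by simp)

lemma hasFDerivAt_form {A B : ℂ × ℂ → ℂ} {z : ℂ} (hA : DifferentiableAt ℂ A (z, 0))
    (hB : DifferentiableAt ℂ B (z, 0)) (hB1 : B (z, 0) = 1) :
    HasFDerivAt (fun p : ℂ × ℂ => (p.1 + p.2 * A p, p.2 * B p))
      (shear (A (z, 0)) : (ℂ × ℂ) →L[ℂ] (ℂ × ℂ)) (z, 0) := by
  have h1 : HasFDerivAt (fun p : ℂ × ℂ => p.1) (ContinuousLinearMap.fst ℂ ℂ ℂ) (z, 0) :=
    hasFDerivAt_fst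
  have h2 : HasFDerivAt (fun p : ℂ × ℂ => p.2) (ContinuousLinearMap.snd ℂ ℂ ℂ) (z, 0) :=
    hasFDerivAt_snd
  have h3 := (h1.add (h2.mul hA.hasFDerivAt)).prodMk (h2.mul hB.hasFDerivAt)
  refine h3.congr_fderiv ?_
  ext p <;> simp [shear, hB1]

lemma analyticAt_form {A B : ℂ × ℂ → ℂ} {p : ℂ × ℂ} (hA : AnalyticAt ℂ A p)
    (hB : AnalyticAt ℂ B p) :
    AnalyticAt ℂ (fun p : ℂ × ℂ => (p.1 + p.2 * A p, p.2 * B p)) p :=
  (analyticAt_fst.add (analyticAt_snd.mul hA)).prod (analyticAt_snd.mul hB)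

/-- the image of an open set under a tube is open -/
lemma isOpen_image {P : ℂ → X} {U : Set ℂ} {r : ℝ} {Φ : ℂ × ℂ → X} (T : Tube P U r Φ)
    {W : Set (ℂ × ℂ)} (hW : IsOpen W) (hWU : W ⊆ U ×ˢ ball 0 r) : IsOpen (Φ '' W) := by
  obtain ⟨Θ, hΘ, hΘ'⟩ := T.inv
  have : Φ '' W = Φ '' (U ×ˢ ball 0 r) ∩ Θ ⁻¹' W := by
    ext y
    constructor
    · rintro ⟨q, hq, rfl⟩
      exact ⟨⟨q, hWU hq, rfl⟩, by rw [mem_preimage, hΘ' q (hWU hq)]; exact hq⟩
    · rintro ⟨⟨q, hq, rfl⟩, h5⟩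
      rw [mem_preimage, hΘ' q hq] at h5
      exact ⟨q, h5, rfl⟩
  rw [this]
  exact hΘ.continuousOn.isOpen_inter_preimage T.openIm hW

lemma linv_of_tube {P : ℂ → X} {U : Set ℂ} {r : ℝ} {Φ : ℂ × ℂ → X} (T : Tube P U r Φ)
    {A B : ℂ × ℂ → ℂ} {z : ℂ} (hz : z ∈ U) (hA : AnalyticAt ℂ A (z, 0))
    (hB : AnalyticAt ℂ B (z, 0)) (hB1 : B (z, 0) = 1) :
    LInv (fun p => Φ (p.1 + p.2 * A p, p.2 * B p)) (z, 0) := by
  set E : ℂ × ℂ → ℂ × ℂ := fun p => (p.1 + p.2 * A p, p.2 * B p) with hE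
  have hEan : AnalyticAt ℂ E (z, 0) := analyticAt_form hA hB
  have hE' : HasFDerivAt E (shear (A (z, 0)) : (ℂ × ℂ) →L[ℂ] (ℂ × ℂ)) (z, 0) :=
    hasFDerivAt_form hA.differentiableAt hB.differentiableAt hB1
  have hE0 : E (z, 0) = (z, 0) := by simp [hE]
  have hopen : IsOpen (U ×ˢ ball (0 : ℂ) r) := T.openU.prod isOpen_ball
  have hW : E ⁻¹' (U ×ˢ ball (0 : ℂ) r) ∈ 𝓝 (z, (0 : ℂ)) := by
    refine hEan.continuousAt.preimage_mem_nhds ?_
    rw [hE0]
    exact hopen.mem_nhds ⟨hz, mem_ball_self T.pos⟩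
  obtain ⟨e, he1, he2, he3, he4, he5⟩ :=
    R266.SCV.exists_analytic_openPartialHomeomorph hEan (shear (A (z, 0))) hE' hW
  have hecoe : (e : ℂ × ℂ → ℂ × ℂ) = E := funext he3
  have htarget : e.target ⊆ U ×ˢ ball (0 : ℂ) r := by
    intro y hy
    have h1 := e.map_target hy
    have h2 := he2 h1
    rw [mem_preimage, ← he3, e.right_inv hy] at h2
    exact h2
  obtain ⟨Θ, hΘ, hΘ'⟩ := T.inv
  have himage : (fun p => Φ (E p)) '' e.source = Φ '' e.target := by
    rw [← e.image_source_eq_target, image_image, hecoe]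
  refine ⟨e.source, e.open_source, he1, ?_, ?_, fun y => e.symm (Θ y), ?_, ?_⟩
  · refine ContMDiffOn.comp (I' := 𝓘(ℂ, ℂ × ℂ)) (g := Φ) (f := E) T.hol
      (contMDiffOn_of_analytic e.open_source (by rw [← hecoe]; exact he4)) he2
  · change IsOpen ((fun p => Φ (E p)) '' e.source)
    rw [himage]
    exact isOpen_image T e.open_target htarget
  · change ContMDiffOn _ _ 1 (fun y => e.symm (Θ y)) ((fun p => Φ (E p)) '' e.source)
    rw [himage]
    refine ContMDiffOn.comp (I' := 𝓘(ℂ, ℂ × ℂ)) (g := e.symm) (f := Θ)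
      (contMDiffOn_of_analytic e.open_target he5) (hΘ.mono (image_mono htarget)) ?_
    rintro y ⟨q, hq, rfl⟩
    rw [mem_preimage, hΘ' q (htarget hq)]
    exact hq
  · intro q hq
    have h1 : E q ∈ U ×ˢ ball (0 : ℂ) r := he2 hq
    change e.symm (Θ (Φ (E q))) = q
    rw [hΘ' _ h1, ← he3]
    exact e.left_inv hq

/-- the blow-up model of the neighbourhood of a `(-1)`-curve -/
theorem exists_blow {P₀ P₁ : ℂ → X} {V₀ V₁ : Set ℂ} {s₀ s₁ : ℝ} {A₀ A₁ : ℂ × ℂ → X} {R : ℝ}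
    (hR : 1 < R) (T₀ : Tube P₀ V₀ s₀ A₀) (T₁ : Tube P₁ V₁ s₁ A₁)
    (hV₀ : closedBall (0 : ℂ) R ⊆ V₀) (hV₁ : closedBall (0 : ℂ) R ⊆ V₁)
    (inj₀ : Function.Injective P₀) (inj₁ : Function.Injective P₁)
    (glue : ∀ t, t ≠ 0 → P₁ t⁻¹ = P₀ t) (ne : ∀ t, P₁ 0 ≠ P₀ t)
    (mixed : ∀ t, t ∈ V₀ → t ≠ 0 → t⁻¹ ∈ V₁ → Rl (fun s => s⁻¹) (fun s => s) A₀ A₁ t) :
    ∃ (Ψ₀ Ψ₁ : ℂ × ℂ → X) (ρ δ : ℝ), Blow Ψ₀ Ψ₁ ρ δ ∧ (∀ z, Ψ₀ (z, 0) = A₀ (z, 0)) ∧
      (∀ z, Ψ₁ (z, 0) = A₁ (z, 0)) ∧ ρ < R := by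
  have hR0 : 0 < R := zero_lt_one.trans hR
  obtain ⟨Θ, hΘ, hΘ'⟩ := T₁.inv
  set τ : ℂ × ℂ → ℂ × ℂ := fun p => Θ (A₀ p) with hτ
  have hK0 : ∀ t ∈ cann R, t ≠ 0 ∧ t ∈ V₀ ∧ t⁻¹ ∈ V₁ := by
    intro t ht
    have h1 : 0 < ‖t‖ := (inv_pos.2 hR0).trans_le ht.1
    refine ⟨norm_pos_iff.1 h1, hV₀ (by rw [mem_closedBall_zero_iff]; exact ht.2),
      hV₁ (by rw [mem_closedBall_zero_iff, norm_inv]; exact inv_le_of_inv_le₀ hR0 ht.1)⟩
  -- the transition
  have hkey : ∀ t ∈ cann R, (AnalyticAt ℂ τ (t, 0) ∧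
      ∀ᶠ s in 𝓝 t, τ (s, 0) = (s⁻¹, 0) ∧ HasDerivAt (fun w => (τ (s, w)).2) s 0) ∧
      ∀ᶠ p in 𝓝 (t, (0 : ℂ)), A₀ p = A₁ (τ p) := by
    intro t ht
    obtain ⟨h0, h1, h2⟩ := hK0 t ht
    obtain ⟨F, hF, hF1, hF2⟩ := mixed t h1 h0 h2
    have hFt : F (t, 0) = (t⁻¹, 0) := hF1.self_of_nhds.1
    have hS : ∀ᶠ q in 𝓝 (t, (0 : ℂ)), F q ∈ V₁ ×ˢ ball (0 : ℂ) s₁ := by
      refine hF.continuousAt.eventually ?_
      rw [hFt]
      exact (T₁.openU.prod isOpen_ball).mem_nhds ⟨h2, mem_ball_self T₁.pos⟩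
    have hev : τ =ᶠ[𝓝 (t, (0 : ℂ))] F := by
      filter_upwards [hS, hF2] with q h3 h4
      simp only [hτ]
      rw [h4, hΘ' _ h3]
    refine ⟨⟨hF.congr hev.symm, ?_⟩, ?_⟩
    · have hc : ContinuousAt (fun s : ℂ => (s, (0 : ℂ))) t := by fun_prop
      have hev' := hc.eventually hev.eventually_nhds
      filter_upwards [hF1, hev'] with s h3 h4
      refine ⟨by rw [h4.self_of_nhds, h3.1], ?_⟩
      refine h3.2.congr_of_eventuallyEq ?_
      have hc' : ContinuousAt (fun w : ℂ => (s, w)) 0 := by fun_prop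
      filter_upwards [hc'.eventually h4] with w h5
      rw [h5]
    · filter_upwards [hF2, hev] with q h3 h4
      rw [h4, h3]
  obtain ⟨δ₁, hδ₁, a, b, q, k, ha, hb, hq, hk, hnf⟩ := normal_form hR τ
    (fun t ht => (hkey t ht).1) (fun p => A₀ p = A₁ (τ p)) (fun t ht => (hkey t ht).2)
  set ρ : ℝ := (1 + R) / 2 with hρ
  have h1ρ : 1 < ρ := by rw [hρ]; linarith
  have hρR : ρ < R := by rw [hρ]; linarith
  have hρ0 : 0 < ρ := zero_lt_one.trans h1ρ
  have hU1 : IsOpen (ball (0 : ℂ) R ×ˢ ball (0 : ℂ) δ₁) := isOpen_ball.prod isOpen_ball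
  have haA := R266.SCV.analyticOnNhd_of_differentiableOn hU1 ha
  have hbA := R266.SCV.analyticOnNhd_of_differentiableOn hU1 hb
  have hqA := R266.SCV.analyticOnNhd_of_differentiableOn hU1 hq
  have hkA := R266.SCV.analyticOnNhd_of_differentiableOn hU1 hk
  have hmem0 : ∀ z ∈ closedBall (0 : ℂ) ρ, (z, (0 : ℂ)) ∈ ball (0 : ℂ) R ×ˢ ball (0 : ℂ) δ₁ := by
    intro z hz
    rw [mem_closedBall_zero_iff] at hz
    exact ⟨by rw [mem_ball_zero_iff]; linarith, mem_ball_self hδ₁⟩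
  -- coefficients
  set B0 : ℂ × ℂ → ℂ := fun p => 1 + p.2 * b p with hB0
  set A1 : ℂ × ℂ → ℂ := fun p => p.1 ^ 4 * q (p.1, p.1 * p.2) with hA1
  set D1 : ℂ × ℂ → ℂ := fun p => 1 + p.1 * p.2 * p.1 ^ 2 * q (p.1, p.1 * p.2) with hD1
  set B1 : ℂ × ℂ → ℂ := fun p => (1 + p.1 * p.2 * k (p.1, p.1 * p.2)) / D1 p with hB1
  have hcoef0 : ∀ z ∈ closedBall (0 : ℂ) ρ, AnalyticAt ℂ a (z, 0) ∧ AnalyticAt ℂ B0 (z, 0) ∧
      B0 (z, 0) = 1 := by
    intro z hz
    refine ⟨haA _ (hmem0 z hz), analyticAt_const.add (analyticAt_snd.mul (hbA _ (hmem0 z hz))), ?_⟩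
    simp [hB0]
  have hcoef1 : ∀ z ∈ closedBall (0 : ℂ) ρ, AnalyticAt ℂ A1 (z, 0) ∧ AnalyticAt ℂ B1 (z, 0) ∧
      B1 (z, 0) = 1 ∧ AnalyticAt ℂ D1 (z, 0) ∧ D1 (z, 0) = 1 := by
    intro z hz
    have f1 : AnalyticAt ℂ (fun p : ℂ × ℂ => p.1) (z, (0 : ℂ)) := analyticAt_fst
    have f2 : AnalyticAt ℂ (fun p : ℂ × ℂ => p.2) (z, (0 : ℂ)) := analyticAt_snd
    have hm : AnalyticAt ℂ (fun p : ℂ × ℂ => (p.1, p.1 * p.2)) (z, (0 : ℂ)) :=
      f1.prod (f1.mul f2)
    have hq' : AnalyticAt ℂ (fun p : ℂ × ℂ => q (p.1, p.1 * p.2)) (z, (0 : ℂ)) :=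
      AnalyticAt.comp_of_eq (g := q) (hqA _ (hmem0 z hz)) hm (by simp)
    have hk' : AnalyticAt ℂ (fun p : ℂ × ℂ => k (p.1, p.1 * p.2)) (z, (0 : ℂ)) :=
      AnalyticAt.comp_of_eq (g := k) (hkA _ (hmem0 z hz)) hm (by simp)
    have hD : AnalyticAt ℂ D1 (z, 0) :=
      analyticAt_const.add (((f1.mul f2).mul (f1.pow 2)).mul hq')
    have hD0 : D1 (z, 0) = 1 := by simp [hD1]
    refine ⟨(f1.pow 4).mul hq', ?_, ?_, hD, hD0⟩
    · exact (analyticAt_const.add ((f1.mul f2).mul hk')).div hD (by rw [hD0]; exact one_ne_zero)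
    · simp [hB1, hD0]
  set E0 : ℂ × ℂ → ℂ × ℂ := fun p => (p.1 + p.2 * a p, p.2 * B0 p) with hE0
  set E1 : ℂ × ℂ → ℂ × ℂ := fun p => (p.1 + p.2 * A1 p, p.2 * B1 p) with hE1
  have hdom : ∀ (A B : ℂ × ℂ → ℂ) (P : ℂ → X) (V : Set ℂ) (s : ℝ) (Φ : ℂ × ℂ → X),
      Tube P V s Φ → closedBall (0 : ℂ) R ⊆ V → ∀ z ∈ closedBall (0 : ℂ) ρ,
      AnalyticAt ℂ A (z, 0) → AnalyticAt ℂ B (z, 0) →
      ∀ᶠ p in 𝓝 (z, (0 : ℂ)), AnalyticAt ℂ (fun p : ℂ × ℂ => (p.1 + p.2 * A p, p.2 * B p)) p ∧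
        (p.1 + p.2 * A p, p.2 * B p) ∈ V ×ˢ ball (0 : ℂ) s := by
    intro A B P V s Φ T hV z hz hA hB
    have h1 := analyticAt_form hA hB
    have h2 : ∀ᶠ p in 𝓝 (z, (0 : ℂ)),
        ((p.1 + p.2 * A p, p.2 * B p) : ℂ × ℂ) ∈ V ×ˢ ball (0 : ℂ) s := by
      refine h1.continuousAt.eventually ?_
      simp only [zero_mul, add_zero]
      refine (T.openU.prod isOpen_ball).mem_nhds ⟨hV ?_, mem_ball_self T.pos⟩
      exact closedBall_subset_closedBall hρR.le hz
    filter_upwards [h1.eventually_analyticAt, h2] with p h3 h4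
    exact ⟨h3, h4⟩
  obtain ⟨ε0, hε0, ht0⟩ := exists_tube (isCompact_closedBall (0 : ℂ) ρ) (fun z hz =>
    hdom a B0 P₀ V₀ s₀ A₀ T₀ hV₀ z hz (hcoef0 z hz).1 (hcoef0 z hz).2.1)
  obtain ⟨ε1, hε1, ht1⟩ := exists_tube (isCompact_closedBall (0 : ℂ) ρ) (fun z hz =>
    (hdom A1 B1 P₁ V₁ s₁ A₁ T₁ hV₁ z hz (hcoef1 z hz).1 (hcoef1 z hz).2.1).and
      ((hcoef1 z hz).2.2.2.1.continuousAt.eventually_ne
        (by rw [(hcoef1 z hz).2.2.2.2]; exact one_ne_zero : D1 (z, 0) ≠ 0)))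
  set δ : ℝ := min δ₁ (min ε0 ε1) with hδ
  have hδpos : 0 < δ := lt_min hδ₁ (lt_min hε0 hε1)
  have hδ1 : δ ≤ δ₁ := min_le_left _ _
  have hδε0 : δ ≤ ε0 := (min_le_right _ _).trans (min_le_left _ _)
  have hδε1 : δ ≤ ε1 := (min_le_right _ _).trans (min_le_right _ _)
  refine ⟨fun p => A₀ (E0 p), fun p => A₁ (E1 p), ρ, δ, ?_, ?_, ?_, hρR⟩
  · have hz0 : ∀ z, A₀ (E0 (z, 0)) = A₀ (z, 0) := fun z => by simp [hE0]
    have hz1 : ∀ z, A₁ (E1 (z, 0)) = A₁ (z, 0) := fun z => by simp [hE1]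
    have hcl : ∀ z ∈ ball (0 : ℂ) ρ, z ∈ closedBall (0 : ℂ) ρ := fun z hz =>
      ball_subset_closedBall hz
    have hV0' : ∀ z : ℂ, ‖z‖ < ρ → z ∈ V₀ := fun z hz =>
      hV₀ (by rw [mem_closedBall_zero_iff]; linarith)
    have hV1' : ∀ z : ℂ, ‖z‖ < ρ → z ∈ V₁ := fun z hz =>
      hV₁ (by rw [mem_closedBall_zero_iff]; linarith)
    refine ⟨h1ρ, hδpos, ?_, ?_, ?_, ?_, ?_, ?_, ?_, ?_⟩
    · refine ContMDiffOn.comp (I' := 𝓘(ℂ, ℂ × ℂ)) (g := A₀) (f := E0) T₀.hol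
        (contMDiffOn_of_analytic (isOpen_ball.prod isOpen_ball) (fun p hp => ?_)) (fun p hp => ?_)
      · exact (ht0 p.1 (hcl _ hp.1) p.2 (ball_subset_ball hδε0 hp.2)).1
      · exact (ht0 p.1 (hcl _ hp.1) p.2 (ball_subset_ball hδε0 hp.2)).2
    · refine ContMDiffOn.comp (I' := 𝓘(ℂ, ℂ × ℂ)) (g := A₁) (f := E1) T₁.hol
        (contMDiffOn_of_analytic (isOpen_ball.prod isOpen_ball) (fun p hp => ?_)) (fun p hp => ?_)
      · exact (ht1 p.1 (hcl _ hp.1) p.2 (ball_subset_ball hδε1 hp.2)).1.1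
      · exact (ht1 p.1 (hcl _ hp.1) p.2 (ball_subset_ball hδε1 hp.2)).1.2
    · intro z hz
      exact linv_of_tube T₀ (hV0' z (by simpa using hz)) (hcoef0 z (hcl z hz)).1
        (hcoef0 z (hcl z hz)).2.1 (hcoef0 z (hcl z hz)).2.2
    · intro z hz
      exact linv_of_tube T₁ (hV1' z (by simpa using hz)) (hcoef1 z (hcl z hz)).1
        (hcoef1 z (hcl z hz)).2.1 (hcoef1 z (hcl z hz)).2.2.1
    · intro z c h1 h2 h3 h4
      have hρinv : R⁻¹ < ρ⁻¹ := (inv_lt_inv₀ hR0 hρ0).2 hρR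
      obtain ⟨g1, g2, g3⟩ := hnf z c (hρinv.trans h1) (h2.trans hρR) (h3.trans_le hδ1)
      have hz0 : 0 < ‖z‖ := (inv_pos.2 hρ0).trans h1
      have hzne : z ≠ 0 := norm_pos_iff.1 hz0
      change A₀ (z + c * a (z, c), c * (1 + c * b (z, c))) = A₁ (E1 (z⁻¹, c * z))
      rw [g1]
      congr 1
      have hzi : z⁻¹ ∈ closedBall (0 : ℂ) ρ := by
        rw [mem_closedBall_zero_iff, norm_inv]
        exact inv_le_of_inv_le₀ hρ0 h1.le
      have hDne : D1 (z⁻¹, c * z) ≠ 0 :=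
        (ht1 z⁻¹ hzi (c * z) (by rw [mem_ball_zero_iff]; exact h4.trans_le hδε1)).2
      have hcz : z⁻¹ * (c * z) = c := by field_simp
      have hD' : D1 (z⁻¹, c * z) = 1 + c * z⁻¹ ^ 2 * q (z⁻¹, c) := by
        simp only [hD1, hcz]
      rw [hD'] at hDne
      set T := τ (z + c * a (z, c), c * (1 + c * b (z, c))) with hT
      have hT1 : T.1 = z⁻¹ * (1 + c * z⁻¹ ^ 2 * q (z⁻¹, c)) := by rw [g2]; ring
      have hT1ne : T.1 ≠ 0 := by
        rw [hT1]
        exact mul_ne_zero (inv_ne_zero hzne) hDne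
      have e1 : (E1 (z⁻¹, c * z)).1 = T.1 := by
        simp only [hE1, hA1, hcz]
        rw [g2]
        field_simp
      have e2 : (E1 (z⁻¹, c * z)).2 = T.2 := by
        have h5 : T.1 * (E1 (z⁻¹, c * z)).2 = T.1 * T.2 := by
          rw [g3, hT1]
          simp only [hE1, hB1, hcz, hD']
          generalize 1 + c * z⁻¹ ^ 2 * q (z⁻¹, c) = D at hDne ⊢
          generalize 1 + c * k (z⁻¹, c) = M
          field_simp
        exact mul_left_cancel₀ hT1ne h5
      exact (Prod.ext e1 e2).symm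
    · intro z z' hz hz' he
      rw [hz0, hz0, T₀.zero z (hV0' z hz), T₀.zero z' (hV0' z' hz')] at he
      exact inj₀ he
    · intro z z' hz hz' he
      rw [hz1, hz1, T₁.zero z (hV1' z hz), T₁.zero z' (hV1' z' hz')] at he
      exact inj₁ he
    · intro z z' hz hz' he
      rw [hz0, hz1, T₀.zero z (hV0' z hz), T₁.zero z' (hV1' z' hz')] at he
      have hz'0 : z' ≠ 0 := by
        rintro rfl
        exact ne z he.symm
      have h5 := glue z'⁻¹ (inv_ne_zero hz'0)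
      rw [inv_inv, ← he] at h5
      have h6 := inj₀ h5
      rw [h6, inv_mul_cancel₀ hz'0]
  · intro z
    simp [hE0]
  · intro z
    simp [hE1]

/-- **closing**: the punctured chart -/
theorem exists_puncturedChart_of_tubes [T2Space X] {P₀ P₁ : ℂ → X} {V₀ V₁ : Set ℂ} {s₀ s₁ : ℝ}
    {A₀ A₁ : ℂ × ℂ → X} {R : ℝ}
    (hR : 1 < R) (T₀ : Tube P₀ V₀ s₀ A₀) (T₁ : Tube P₁ V₁ s₁ A₁)
    (hV₀ : closedBall (0 : ℂ) R ⊆ V₀) (hV₁ : closedBall (0 : ℂ) R ⊆ V₁)
    (inj₀ : Function.Injective P₀) (inj₁ : Function.Injective P₁)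
    (glue : ∀ t, t ≠ 0 → P₁ t⁻¹ = P₀ t) (ne : ∀ t, P₁ 0 ≠ P₀ t)
    (mixed : ∀ t, t ∈ V₀ → t ≠ 0 → t⁻¹ ∈ V₁ → Rl (fun s => s⁻¹) (fun s => s) A₀ A₁ t) :
    ∃ (N : Set X) (Φ : X → C2) (Ψ : C2 → X) (ε : ℝ), PuncturedChart N Φ Ψ ε ∧
      {y | y ∈ N ∧ Φ y = 0} = range P₀ ∪ {P₁ 0} := by
  obtain ⟨Ψ₀, Ψ₁, ρ, δ, hB, h0, h1, hρR⟩ :=
    exists_blow hR T₀ T₁ hV₀ hV₁ inj₀ inj₁ glue ne mixed
  obtain ⟨N, Φ, Ψ, ε, hC, hZ⟩ := exists_puncturedChart hB
  refine ⟨N, Φ, Ψ, ε, hC, ?_⟩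
  rw [hZ]
  have hV0' : ∀ z : ℂ, ‖z‖ ≤ 1 → z ∈ V₀ := fun z hz =>
    hV₀ (by rw [mem_closedBall_zero_iff]; linarith)
  have hV1' : ∀ z : ℂ, ‖z‖ ≤ 1 → z ∈ V₁ := fun z hz =>
    hV₁ (by rw [mem_closedBall_zero_iff]; linarith)
  ext y
  constructor
  · rintro ⟨z, hz, h | h⟩
    · left
      rw [h0, T₀.zero z (hV0' z hz)] at h
      exact ⟨z, h⟩
    · rw [h1, T₁.zero z (hV1' z hz)] at h
      by_cases hz0 : z = 0
      · right
        subst hz0
        exact h.symm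
      · left
        refine ⟨z⁻¹, ?_⟩
        rw [← glue z⁻¹ (inv_ne_zero hz0), inv_inv, h]
  · rintro (⟨z, rfl⟩ | hy)
    · by_cases hz : ‖z‖ ≤ 1
      · exact ⟨z, hz, Or.inl (by rw [h0, T₀.zero z (hV0' z hz)])⟩
      · have hz1 : 1 < ‖z‖ := not_le.1 hz
        have hz0 : z ≠ 0 := norm_pos_iff.1 (zero_lt_one.trans hz1)
        have hzi : ‖z⁻¹‖ ≤ 1 := by rw [norm_inv]; exact inv_le_one_of_one_le₀ hz1.le
        exact ⟨z⁻¹, hzi, Or.inr (by rw [h1, T₁.zero _ (hV1' _ hzi), glue z hz0])⟩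
    · rw [mem_singleton_iff] at hy
      subst hy
      exact ⟨0, by simp, Or.inr (by rw [h1, T₁.zero 0 (hV1' 0 (by simp))])⟩

/-- two tubes as above on a compact surface contradict minimality -/
theorem not_isMinimal_of_tubes [T2Space X] [CompactSpace X] [IsManifold 𝓘(ℂ, C2) 1 X]
    {P₀ P₁ : ℂ → X} {V₀ V₁ : Set ℂ} {s₀ s₁ : ℝ}
    {A₀ A₁ : ℂ × ℂ → X} {R : ℝ}
    (hR : 1 < R) (T₀ : Tube P₀ V₀ s₀ A₀) (T₁ : Tube P₁ V₁ s₁ A₁)
    (hV₀ : closedBall (0 : ℂ) R ⊆ V₀) (hV₁ : closedBall (0 : ℂ) R ⊆ V₁)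
    (inj₀ : Function.Injective P₀) (inj₁ : Function.Injective P₁)
    (glue : ∀ t, t ≠ 0 → P₁ t⁻¹ = P₀ t) (ne : ∀ t, P₁ 0 ≠ P₀ t)
    (mixed : ∀ t, t ∈ V₀ → t ≠ 0 → t⁻¹ ∈ V₁ → Rl (fun s => s⁻¹) (fun s => s) A₀ A₁ t) :
    ¬ IsMinimal X := by
  obtain ⟨N, Φ, Ψ, ε, hC, hZ⟩ :=
    exists_puncturedChart_of_tubes hR T₀ T₁ hV₀ hV₁ inj₀ inj₁ glue ne mixed
  have ha : P₀ 0 ∈ {y | y ∈ N ∧ Φ y = 0} := by rw [hZ]; exact Or.inl ⟨0, rfl⟩
  have hb : P₀ 1 ∈ {y | y ∈ N ∧ Φ y = 0} := by rw [hZ]; exact Or.inl ⟨1, rfl⟩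
  exact BD78.not_isMinimal_of_puncturedChart hC ha.1 hb.1 ha.2 hb.2
    (fun h => zero_ne_one (inj₀ h))

end Crest.Agent.R275.NB690
end
end

-- ▼ part R275/TbMain_78
section

/-!
R275 (S0418), F7-XY (helper78): from `RatData` (or `Smp284.Cono`) to a punctured chart and to
"not minimal".
-/

set_option autoImplicit false

open Set Filter Topology Metric Crest.AlgGeometry.Surface
open scoped Manifold ContDiff

noncomputable section

namespace Crest.Agent.R275.TbMain78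

open Crest.Agent.R275.Tb78 Crest.Agent.R275.Shell468

section

variable {X : Type} [TopologicalSpace X] [ChartedSpace C2 X]

/-- two tubes covering a smooth rational curve of self-intersection `-1` -/
theorem exists_two_tubes [T2Space X] {P₀ P₁ : ℂ → X} {U₀ U₁ : ℂ → Set ℂ} {r₀ r₁ : ℂ → ℝ}
    {Φ₀ Φ₁ : ℂ → ℂ × ℂ → X} (h : RatData P₀ P₁ U₀ U₁ r₀ r₁ Φ₀ Φ₁) (R : ℝ) :
    ∃ (V₀ V₁ : Set ℂ) (s₀ s₁ : ℝ) (A₀ A₁ : ℂ × ℂ → X), closedBall 0 R ⊆ V₀ ∧
      closedBall 0 R ⊆ V₁ ∧ Tube P₀ V₀ s₀ A₀ ∧ Tube P₁ V₁ s₁ A₁ ∧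
      ∀ t ∈ V₀, t ≠ 0 → t⁻¹ ∈ V₁ → Rl (fun s => s⁻¹) (fun s => s) A₀ A₁ t := by
  obtain ⟨V₀, s₀, A₀, hV₀, T₀, R₀⟩ := Tb4.exists_tube h.inj₀ h.ref₀ R
  obtain ⟨V₁, s₁, A₁, hV₁, T₁, R₁⟩ := Tb4.exists_tube h.inj₁ h.ref₁ R
  refine ⟨V₀, V₁, s₀, s₁, A₀, A₁, hV₀, hV₁, T₀, T₁, fun t ht ht0 ht' => ?_⟩
  have h1 : Rel A₀ (Φ₀ t) t := R₀ t t ht (h.ref₀.mem t)
  have h2 := h.mixed t t⁻¹ t (h.ref₀.mem t) ht0 (h.ref₁.mem t⁻¹)
  have h3 : Rel (Φ₁ t⁻¹) A₁ t⁻¹ := TbG284.Rel.symm (R₁ t⁻¹ t⁻¹ ht' (h.ref₁.mem t⁻¹))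
  exact TbG284.Rel.comp_rl h1 (TbG284.Rl.comp_rel h2 h3)


/-- **a (-1)-curve obstructs minimality** -/
theorem not_isMinimal_of_ratData [T2Space X] [CompactSpace X] [IsManifold 𝓘(ℂ, C2) 1 X]
    {P₀ P₁ : ℂ → X} {U₀ U₁ : ℂ → Set ℂ} {r₀ r₁ : ℂ → ℝ} {Φ₀ Φ₁ : ℂ → ℂ × ℂ → X}
    (h : RatData P₀ P₁ U₀ U₁ r₀ r₁ Φ₀ Φ₁) : ¬ IsMinimal X := by
  obtain ⟨V₀, V₁, s₀, s₁, A₀, A₁, hV₀, hV₁, T₀, T₁, hm⟩ := exists_two_tubes h 2
  exact NB690.not_isMinimal_of_tubes one_lt_two T₀ T₁ hV₀ hV₁ h.inj₀ h.inj₁ h.glue h.ne hm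

end

variable {M : Type} [TopologicalSpace M] [ChartedSpace C2 M] [IsManifold 𝓘(ℂ, C2) 1 M]
variable {ι : Type} {C : Set M} {U : ι → Set M} {s : ι → M → ℂ} {g : ι → ι → M → ℂ}
  {α β : ι → M → ℂ}


/-- **conormal data of a (-1)-curve on a compact surface: the surface is not minimal** -/
theorem not_isMinimal_of_cono [T2Space M] [CompactSpace M] (h : Smp284.Cono C U s g α β) :
    ¬ IsMinimal M := by
  obtain ⟨P₀, P₁, U₀, U₁, r₀, r₁, Φ₀, Φ₁, hR, -⟩ := Smp284.exists_ratData h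
  exact not_isMinimal_of_ratData hR

end Crest.Agent.R275.TbMain78
end
end

-- ▼ part R275/F7_690
section

/-!
R275 (S0418), F7 final glue (helper690): there is no exceptional curve on a minimal surface.

`P = div s` prime, `s` a section of the holomorphic line bundle `L` on the compact surface `M`,
`χ(O) - χ(-L) = 1`, `χ(-L) - χ(-2L) = 2` (that is `P · P = -1`, `K · P = -1`): then `M` is not
minimal. This is the hypothesis `hF7` of block Q.
-/

set_option autoImplicit false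
set_option linter.unusedSectionVars false

open Set Filter Topology Complex
open scoped ContDiff ComplexConjugate Manifold

namespace Crest.Agent.R275.F7690

open Crest.AlgGeometry.Surface Geo Fm96 Dv69 Core144 EffDiv Q74 Cnt508

noncomputable section

variable {M : Type} [TopologicalSpace M] {A : Atl 2 M}
variable {gL gF gE : A.ι → A.ι → M → ℂ} {s : A.ι → M → ℂ}

variable [ChartedSpace C2 M] [IsManifold 𝓘(ℂ, C2) 1 M]

/-- the conormal data of an exceptional curve from Euler characteristics -/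
theorem exists_cono_of_chi [T2Space M] [CompactSpace M] (hA : Adm A) (Pt : Part A)
    (hgL : IsLC A gL) (hs : IsNZ A gL univ s) (hP : Mon.IsPr (divOf (isSec_of hA hgL hs)))
    {g0 g1 g2 : A.ι → A.ι → M → ℂ} (h0 : IsLC A g0) (h1 : IsLC A g1) (h2 : IsLC A g2)
    (e0 : EqOv A g0 1) (e1 : EqOv A g1 gL⁻¹) (e2 : EqOv A g2 (gL⁻¹ * gL⁻¹))
    (f0 : FinE h0) (f1 : FinE h1) (f2 : FinE h2)
    (hχ1 : chiE h0 - chiE h1 = 1) (hχ2 : chiE h1 - chiE h2 = 2) :
    ∃ (U : M → Set M) (S : M → M → ℂ) (g : M → M → M → ℂ) (α β : M → M → ℂ),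
      Smp284.Cono (Cs A s) U S g α β := by
  have k1 : IsLC A (gL * gL⁻¹) := hgL.prod hgL.inv
  have k2 : IsLC A (gL⁻¹ * (gL * gL⁻¹)) := hgL.inv.prod k1
  have kF : IsLC A (gL⁻¹ * gL⁻¹) := hgL.inv.prod hgL.inv
  have q1 : EqOv A (gL * gL⁻¹) g0 := (EqOv.mul_inv hgL).trans e0.symm
  have q2 : EqOv A (gL⁻¹ * (gL * gL⁻¹)) g1 := by
    refine EqOv.trans (fun i j x hx => ?_) e1.symm
    have := hgL.ne i j x hx
    simp only [Pi.mul_apply, Pi.inv_apply]
    field_simp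
  have q3 : EqOv A (gL⁻¹ * (gL * gL⁻¹)) (gL * (gL⁻¹ * gL⁻¹)) := fun i j x _ => by
    simp only [Pi.mul_apply, Pi.inv_apply]; ring
  have a1 := QSub825.chiS_eq hgL.inv k1 (EqOv.refl _) hs ((FinE_congr h1 hgL.inv e1).1 f1)
    ((FinE_congr k1 h0 q1).2 f0)
  have a2 := QSub825.chiS_eq kF k2 q3 hs ((FinE_congr h2 kF e2).1 f2) ((FinE_congr k2 h1 q2).2 f1)
  refine exists_cono hA Pt hgL hs hP k1 k2 a1.1 a2.1 ?_ ?_
  · rw [a1.2, chiE_congr k1 h0 q1, ← chiE_congr h1 hgL.inv e1, hχ1]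
  · rw [a2.2, chiE_congr k2 h1 q2, ← chiE_congr h2 kF e2, hχ2]

/-- a holomorphic section which is not locally zero, in the raw form -/
theorem isNZ_of_isHS {L : LB A} (hs : IsHS L univ s) (h0 : BR4672.NZ A s) :
    IsNZ A L.g univ s where
  z0 := ChiM825.isZ0_of_isHS hs
  nz i := ⟨fun x hx _ => ChiM825.holP_of_holAt (hs.hol i) isOpen_univ hx trivial,
    fun x hx _ => h0 i x hx⟩

/-- **F7**: a prime divisor with the numerical characters of an exceptional curve contradicts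
minimality. -/
theorem not_isMinimal [T2Space M] [CompactSpace M] (hA : Adm A) (Pt : Part A) {L : LB A}
    (hs : IsHS L univ s) (h0 : BR4672.NZ A s) (hP : Mon.IsPr (BR4672.dv A s))
    (f0 : FinE (ChiM825.isLC (1 : LB A))) (f1 : FinE (ChiM825.isLC L⁻¹))
    (f2 : FinE (ChiM825.isLC (L⁻¹ * L⁻¹)))
    (hχ1 : chiE (ChiM825.isLC (1 : LB A)) - chiE (ChiM825.isLC L⁻¹) = 1)
    (hχ2 : chiE (ChiM825.isLC L⁻¹) - chiE (ChiM825.isLC (L⁻¹ * L⁻¹)) = 2) :
    ¬ IsMinimal M := by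
  have hsec := BR4672.isSec hA hs h0
  have hdv : BR4672.dv A s = divOf hsec := dif_pos hsec
  rw [hdv] at hP
  obtain ⟨U, S, g, α, β, hC⟩ := exists_cono_of_chi hA Pt (ChiM825.isLC L) (isNZ_of_isHS hs h0) hP
    (ChiM825.isLC (1 : LB A)) (ChiM825.isLC L⁻¹) (ChiM825.isLC (L⁻¹ * L⁻¹))
    (fun i j x _ => rfl) (fun i j x _ => rfl) (fun i j x _ => rfl) f0 f1 f2 hχ1 hχ2
  exact TbMain78.not_isMinimal_of_cono hC

/-- the hypothesis `hF7` of block Q (helper825) -/
theorem hF7 [T2Space M] [CompactSpace M] (hA : Adm A) (Pt : Part A) (hmin : IsMinimal M)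
    (fin : ∀ L : LB A, FinE (ChiM825.isLC L)) :
    ∀ (L : LB A) (s : A.ι → M → ℂ), IsHS L univ s → BR4672.NZ A s →
      Mon.IsPr (BR4672.dv A s) →
      chiE (ChiM825.isLC (1 : LB A)) - chiE (ChiM825.isLC L⁻¹) = 1 →
      chiE (ChiM825.isLC L⁻¹) - chiE (ChiM825.isLC (L⁻¹ * L⁻¹)) = 2 → False :=
  fun L _ hs h0 hP h1 h2 => not_isMinimal hA Pt hs h0 hP (fin 1) (fin L⁻¹) (fin (L⁻¹ * L⁻¹)) h1 h2
    hmin

end

end Crest.Agent.R275.F7690
end

-- ▼ part R275/QXin_825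
section

/-!
R275 (S0418), block Q (helper825): the data of Q7 (`XinData`) from `CMData`, `LatX`, `F7`.
-/

set_option autoImplicit false
set_option linter.unusedSectionVars false

open Set Filter Topology Complex
open scoped ContDiff Manifold

noncomputable section

namespace Crest.Agent.R275.QX825

open Crest.AlgGeometry.Surface Geo Fm96 Q74 Smf798 KR798 GC293 Core144 ChiM825 Lt893 ZC352

variable {X : Type} [TopologicalSpace X] [CompactSpace X] [T2Space X] [ChartedSpace C2 X]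
  [IsManifold 𝓘(ℂ, C2) 1 X] [ConnectedSpace X] {A : Atl 2 X} {P : Part A} {I : KIndex (smf A)}
  {e : ℤ}

/-- the inputs of Q7 -/
theorem xinData {u : C(X, Circ)} {Z : ZD A} (B : Big A) (hA : Adm A) (H : CMData P I e)
    (hX : LatX P I e) (hF7 : F7 A) (he : 0 < e) (hZ : Z.Lift u) :
    XinM473.XinData P I Z u where
  hA := Lt893.HolA.of_max hA
  lift := hZ
  fin := H.fin
  euler := H.euler
  serre0 := H.serre0
  serre1 := H.serre1
  chi0 := chi_one H hX
  nosec _ ht _ hv :=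
    nosec B hA H hX hF7 he (bb_of_iso_triv (XinM473.slb_Lt_iso ht)) hv

end Crest.Agent.R275.QX825
end
end

-- ▼ part R275/Hb2N_825
section

/-!
R275 (S0418), block Q (helper825): transfer in degree two. A rational Čech 2-cocycle of `X` which
is not a coboundary stays so on a finite covering.
-/

set_option autoImplicit false
set_option linter.unusedSectionVars false

open Set Filter Topology

noncomputable section

namespace Crest.Agent.R275.Hb2N825

open Geo XN194 NGeo151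

variable {n : ℕ} {M Z K : Type} [TopologicalSpace M] [TopologicalSpace Z] [AddCommGroup K]
  {A : Atl n M}

/-- a rational 2-cocycle which is not a coboundary -/
def HB2 {M' : Type} [TopologicalSpace M'] (A : Atl n M') : Prop :=
  ∃ c : A.ι → A.ι → A.ι → ℚ,
    (∀ i j l m, ((A.e i).source ∩ (A.e j).source ∩ (A.e l).source ∩ (A.e m).source).Nonempty →
      c j l m - c i l m + c i j m - c i j l = 0) ∧
    ¬ ∃ b : A.ι → A.ι → ℚ, ∀ i j l,
      ((A.e i).source ∩ (A.e j).source ∩ (A.e l).source).Nonempty →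
      c i j l = b j l - b i l + b i j

/-- **transfer** -/
theorem hb2_lift [Finite K] (C : KCov A Z K) (hpc : PreC A) (h : HB2 A) : HB2 C.lift := by
  classical
  have := Fintype.ofFinite K
  obtain ⟨c, hc, hnc⟩ := h
  refine ⟨fun p q r => c p.1 q.1 r.1, ?_, ?_⟩
  · rintro p q r t ⟨z, ⟨⟨hp, hq⟩, hr⟩, ht⟩
    exact hc _ _ _ _ ⟨C.p z, ⟨⟨hp.1, hq.1⟩, hr.1⟩, ht.1⟩
  · rintro ⟨b', hb'⟩
    apply hnc
    let w : A.ι → A.ι → K := wind C hpc
    refine ⟨fun i j => (Fintype.card K : ℚ)⁻¹ * ∑ k : K, b' (i, k) (j, k + w i j), ?_⟩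
    rintro i j l ⟨x, ⟨hi, hj⟩, hl⟩
    have hw : w i l = w i j + w j l := by
      have h1 := wind_spec C hpc hi hj
      have h2 := wind_spec C hpc hj hl
      have h3 := wind_spec C hpc hi hl
      have h4 : C.act (w i j + w j l) (C.s l x) = C.act (w i l) (C.s l x) := by
        rw [C.act_add, h2, h1, h3]
      exact (C.act_inj h4).symm
    have key : ∀ k : K, c i j l = b' (j, k + w i j) (l, k + w i j + w j l)
        - b' (i, k) (l, k + w i l) + b' (i, k) (j, k + w i j) := by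
      intro k
      have h1 := C.act_s_mem hi k
      have h0 : C.p (C.act k (C.s i x)) = x := C.p_act_s hi k
      have h2 : C.act k (C.s i x) ∈ C.sheet j (k + w i j) :=
        (mem_sheet_iff_wind C hpc h1).2 ⟨by rw [h0]; exact hj, rfl⟩
      have h3 : C.act k (C.s i x) ∈ C.sheet l (k + w i l) :=
        (mem_sheet_iff_wind C hpc h1).2 ⟨by rw [h0]; exact hl, rfl⟩
      have h4 := hb' (i, k) (j, k + w i j) (l, k + w i l) ⟨_, ⟨h1, h2⟩, h3⟩
      rw [add_assoc, ← hw]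
      exact h4
    have hcard : (Fintype.card K : ℚ) ≠ 0 := by
      have : Nonempty K := ⟨0⟩
      exact_mod_cast Fintype.card_ne_zero
    have hsum : ∑ k : K, b' (j, k + w i j) (l, k + w i j + w j l) =
        ∑ k : K, b' (j, k) (l, k + w j l) :=
      Equiv.sum_comp (Equiv.addRight (w i j)) (fun k => b' (j, k) (l, k + w j l))
    have h5 : (Fintype.card K : ℚ) * c i j l = ∑ k : K, b' (j, k) (l, k + w j l)
        - ∑ k : K, b' (i, k) (l, k + w i l) + ∑ k : K, b' (i, k) (j, k + w i j) := by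
      rw [← hsum, ← Finset.sum_sub_distrib, ← Finset.sum_add_distrib,
        ← Finset.sum_congr rfl (fun k _ => key k)]
      simp
    rw [← mul_sub, ← mul_add, ← h5]
    field_simp

end Crest.Agent.R275.Hb2N825
end
end

-- ▼ part R275/XIn_825
section

/-!
R275 (S0418), block Q (helper825): the X side on `X` itself: `LatX`, `XinData`, `K · L ≥ 0`,
`e > 0`, `b₁(X_N) = 1`, from `CMData` on `X`, LINK, the orientation functional and the topological
hypotheses of S0418.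
-/

set_option autoImplicit false
set_option linter.unusedSectionVars false

open Set Filter Topology Complex
open scoped ContDiff Manifold

noncomputable section

namespace Crest.Agent.R275.XIn825

open Crest.AlgGeometry.Surface Geo Fm96 Q74 Smf798 KR798 GC293 Core144 ChiM825 QX825 Lt893 ZC352
open Zig470 PDB412 ASConv293 KAsm106 NEul865 KX106 Fl161 YCneg630

/-! ### compact surfaces with a good atlas -/

section Top

variable {M : Type} [TopologicalSpace M] [CompactSpace M] [T2Space M] {A : Atl 2 M}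
  {P : Part A} {I : KIndex (smf A)} {e : ℤ}

/-- the rank bound of `CMData.eb` -/
theorem he_of_rk (he : Rk A e) (n : ℕ) (v : Fin n → GC293.Z2 A ℤ)
    (hv : ∀ a : Fin n → ℤ, ∑ i, a i • v i ∈ BZ A → a = 0) : (n : ℤ) ≤ e := by
  refine he n (fun i => (v i).1) (fun i => mem_Z2_iff.1 (v i).2) fun a ha => hv a ?_
  rw [mem_BZ, mem_B2_iff]
  have e1 : ((∑ i, a i • v i : GC293.Z2 A ℤ) : A.ι → A.ι → A.ι → ℤ) = ∑ i, a i • (v i).1 := by
    rw [AddSubgroup.val_finsetSum]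
    rfl
  rw [e1]
  exact ha

/-- LINK for every orientation functional (helper894) -/
def LinkAll (P : Part A) (I : KIndex (smf A)) : Prop :=
  ∀ E : (List M → ℤ) → ℝ, Ev 3 E → Nrm A E → ∀ lab : M → A.ι, Lab (UA A) lab → Link P I E lab

/-- LINK holds for the geometric index (helper106) -/
theorem linkAll_geo [Finite A.ι] (P : Part A) :
    LinkAll P (MI683.geoI P (LnkP5476.nabL_sq A)) := fun _ D hN _ hlab =>
  XNI106.link_gix P D hN hlab


theorem hdual [Finite A.ι] (H : CMData P I e) (hlink : LinkAll P I)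
    (φ : GC293.Z2 A ℤ →+ ℤ) (hφ : ∀ b ∈ BZ A, φ b = 0) : ∃ c, ∀ x, bZ P I x c = φ x := by
  obtain ⟨E, D, hN, -⟩ := EOF627.exists_functional_compact P
  obtain ⟨lab, hlab, -⟩ := exists_lab P
  exact bZ_dual H.good D hN hlab (hlink E D hN lab hlab) φ hφ

theorem latX [Finite A.ι] (H : CMData P I e) (hlink : LinkAll P I) (he : Rk A e) : LatX P I e :=
  QX825.latX H (hdual H hlink) (he_of_rk he)

/-- a rational 2-cocycle which is not a coboundary -/
theorem hb2Q [Finite A.ι] (hA : GoodA A)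
    (hb₂ : Nontrivial (Crest.Topology.RationalHomology.rationalHomology M 2)) :
    Hb2N825.HB2 A := by
  obtain ⟨c, h1, -, h2, -⟩ := SNerve865.hb2_good A hA hb₂
  refine ⟨fun i j l => c i j l, fun i j l m hn => ?_, h2⟩
  have := h1 i j l m hn
  have h3 : ((c j l m - c i l m + c i j m - c i j l : ℤ) : ℚ) = 0 := by rw [this]; simp
  push_cast at h3
  exact h3

theorem betti [Finite A.ι] (hA : GoodA A) (P : Part A) {c₀ : A.ι → A.ι → ℚ}
    (hb1 : Gen1 (fun i => (A.e i).source) c₀)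
    (hb2 : Hb2N825.HB2 A) : BettiQ (fun i => (A.e i).source) := by
  obtain ⟨E, D, hN, -⟩ := EOF627.exists_functional_compact P
  exact Bet470.bettiQ_goodA hA P D hN ⟨c₀, hb1.1, hb1.2.1, hb1.2.2⟩ hb2

/-- `e > 0` -/
theorem pos_of_rk [Finite A.ι] (hA : GoodA A)
    (hb₂ : Nontrivial (Crest.Topology.RationalHomology.rationalHomology M 2)) (he : Rk A e) :
    0 < e := by
  obtain ⟨c, h1, -, -, h2⟩ := SNerve865.hb2_good A hA hb₂
  have h3 : ((1 : ℕ) : ℤ) ≤ e := he 1 (fun _ => c) (fun _ => h1) fun a ha => by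
    have h4 : a 0 = 0 := by
      by_contra h5
      refine h2 (a 0) h5 ?_
      obtain ⟨b, hb⟩ := ha
      refine ⟨b, fun i j l hn => ?_⟩
      have := hb i j l hn
      rw [← this]
      simp
    funext i
    rw [Fin.fin_one_eq_zero i, h4]
    rfl
  have : ((1 : ℕ) : ℤ) = 1 := rfl
  omega

end Top

/-! ### the surface `X` -/

section X

variable {X : Type} [TopologicalSpace X] [CompactSpace X] [T2Space X] [ConnectedSpace X]
  [ChartedSpace C2 X] [IsManifold 𝓘(ℂ, C2) 1 X] {u : C(X, Circ)} {A : Atl 2 X} {Z : ZD A}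
  {P : Part A} {I : KIndex (smf A)} {e : ℤ}

theorem preconn2 (hA : GoodA A) (i j : A.ι) :
    IsPreconnected ((A.e i).source ∩ (A.e j).source) := by
  have := hA.isPreconnected3 i j j
  rwa [inter_assoc, inter_self] at this

/-- `b₁(X) = 1` -/
theorem gen1_X [ConnectedSpace (YC u)] (hA : GoodA A) (hZ : Z.Lift u) (hU : Univ u) :
    Gen1 (fun i => (A.e i).source) (fun i j => (nI Z i j : ℚ)) :=
  gen1_base hZ (preconn2 hA) (hU ℝ)

/-- the rank bound on `X` -/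
theorem rk_X [Fintype A.ι] [ConnectedSpace (YC u)] (hA : GoodA A) (P : Part A) (hZ : Z.Lift u)
    (hU : Univ u) (hb₂ : Nontrivial (Crest.Topology.RationalHomology.rationalHomology X 2)) :
    Rk A (EDR890.nerveChi (UA A) Finset.univ) :=
  rk_of_betti (betti hA P (gen1_X hA hZ hU) (hb2Q hA hb₂))

/-- all the consequences on `X` -/
structure XOut (B : Big A) (P : Part A) (I : KIndex (smf A)) (Z : ZD A) (u : C(X, Circ)) (e : ℤ) :
    Prop where
  lat : LatX P I e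
  pos : 0 < e
  f7 : F7 A
  xin : XinM473.XinData P I Z u
  /-- `K · L ≥ 0` for bundles with a nonzero section -/
  nonneg : ∀ (L : LB A) (s : A.ι → X → ℂ), IsHS L univ s → s ≠ 0 → 0 ≤ bb P I (KB A) L

theorem xOut [Fintype A.ι] [ConnectedSpace (YC u)] (B : Big A) (hAd : Adm A)
    (H : CMData P I (EDR890.nerveChi (UA A) Finset.univ)) (hlink : LinkAll P I)
    (hmin : IsMinimal X) (hZ : Z.Lift u) (hU : Univ u)
    (hb₂ : Nontrivial (Crest.Topology.RationalHomology.rationalHomology X 2)) :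
    XOut B P I Z u (EDR890.nerveChi (UA A) Finset.univ) := by
  have he := rk_X H.good P hZ hU hb₂
  have hX := latX H hlink he
  have hpos := pos_of_rk H.good hb₂ he
  have hf : F7 A := F7690.hF7 hAd P hmin H.fin
  exact ⟨hX, hpos, hf, xinData B hAd H hX hf hpos hZ, fun L s hs h0 =>
    K_nonneg B hAd H hX hf hs h0⟩

/-- **`b₁(X_N) = 1`** for every `N ≥ 1` -/
theorem gen1_XN [ConnectedSpace (YC u)] (hA : GoodA A) (P : Part A) (hZ : Z.Lift u) (hU : Univ u)
    (hx : XinM473.XinData P I Z u) (N : ℕ) [NeZero N] :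
    Gen1 (fun q => ((XN194.xcov N u (liftsOf hZ)).lift.e q).source)
      (fun p q : (XN194.xcov N u (liftsOf hZ)).lift.ι => (nI Z p.1 q.1 : ℚ)) :=
  gen1_xcov_raw P hZ (preconn2 hA) (hU ℝ) N fun t h1 h2 a ha h0 =>
    XinM473.h1_root hx N t h1 h2 a ha h0

theorem preC (hA : GoodA A) : NGeo151.PreC A := fun i j => preconn2 hA i j

/-- rational Betti numbers of `X_N` -/
theorem betti_XN [Finite A.ι] [ConnectedSpace (YC u)] (hA : GoodA A) (P : Part A) (hZ : Z.Lift u)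
    (hU : Univ u) (hx : XinM473.XinData P I Z u)
    (hb₂ : Nontrivial (Crest.Topology.RationalHomology.rationalHomology X 2))
    (N : ℕ) [NeZero N] (P' : Part (XN194.xcov N u (liftsOf hZ)).lift) :
    BettiQ (fun q => ((XN194.xcov N u (liftsOf hZ)).lift.e q).source) := by
  have : Finite (XN194.xcov N u (liftsOf hZ)).lift.ι := inferInstanceAs (Finite (A.ι × ZMod N))
  exact betti (KY293.goodA_lift _ hA) P' (gen1_XN hA P hZ hU hx N)
    (Hb2N825.hb2_lift _ (preC hA) (hb2Q hA hb₂))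

/-- the rank bound on `X_N` -/
theorem rk_XN [Finite A.ι] [ConnectedSpace (YC u)] (hA : GoodA A) (P : Part A) (hZ : Z.Lift u)
    (hU : Univ u) (hx : XinM473.XinData P I Z u)
    (hb₂ : Nontrivial (Crest.Topology.RationalHomology.rationalHomology X 2))
    (N : ℕ) [NeZero N] (P' : Part (XN194.xcov N u (liftsOf hZ)).lift)
    [Fintype (XN194.xcov N u (liftsOf hZ)).lift.ι] :
    Rk (XN194.xcov N u (liftsOf hZ)).lift
      (EDR890.nerveChi (UA (XN194.xcov N u (liftsOf hZ)).lift) Finset.univ) :=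
  rk_of_betti (betti_XN hA P hZ hU hx hb₂ N P')

end X

end Crest.Agent.R275.XIn825
end
end

-- ▼ part R275/Br1_78
section

/-!
R275 (S0418), helper78: BRIDGE1 = the compactly supported form of `Y` against the canonical class is
the index form of `X` itself (`N = 1`, no `XC 1 u`):
`I_Y(kap_Y, c) = b_X(K_X, pc c)`.
-/

set_option autoImplicit false
set_option linter.unusedSectionVars false

open Set Filter Topology

namespace Crest.Agent.R275.Br178

open ASZ627 ASN627 ASConv293 Geo XN194 QPb635 NForm945 Loc647 NGeo151 NTr151 PDY945 WtY945 TopK106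
  PushS768 Smf798 KR798 SB798 GC293 Core144 NAtl938 ChiM825

noncomputable section

/-! ### the trivial covering -/

section one

variable {n : ℕ} {M Z : Type} [TopologicalSpace M] [TopologicalSpace Z]

/-- the trivial covering, with trivial group `ZMod 1` -/
def kone (A : Atl n M) : KCov A M (ZMod 1) where
  p := id
  cont := continuous_id
  act _ z := z
  act_cont _ := continuous_id
  act_zero _ := rfl
  act_add _ _ _ := rfl
  p_act _ _ := rfl
  s _ x := x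
  p_s _ _ _ := rfl
  s_cont _ := continuousOn_id
  s_open i := by
    have : (fun x : M => x) '' (A.e i).source = (A.e i).source := image_id _
    rw [this]
    exact (A.e i).open_source
  trans _ _ _ := ⟨0, rfl⟩
  free _ _ _ := Subsingleton.elim _ _

/-- every covering maps to the trivial one -/
def toOne {A : Atl n M} (C : KCov A Z ℤ) : KHom C (kone A) where
  f := C.p
  cont := C.cont
  φ := 0
  f_act k z := C.p_act k z
  p_f _ := rfl
  f_s i x hx := C.p_s i x hx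

theorem toOne_φ {A : Atl n M} (C : KCov A Z ℤ) (k : ℤ) :
    (toOne C).φ k = ((k : ZMod 1) : ZMod 1) := Subsingleton.elim _ _

theorem mem_sheet_kone {A : Atl n M} {i : A.ι} {k : ZMod 1} {x : M} :
    x ∈ (kone A).sheet i k ↔ x ∈ (A.e i).source := by
  constructor
  · exact fun h => h.1
  · intro h
    refine ⟨h, ?_⟩
    rfl

end one

/-! ### the form of `X` -/

section form

variable {X Y : Type} [TopologicalSpace X] [TopologicalSpace Y] [T2Space X]
  [LocallyCompactSpace X] [T2Space Y] [LocallyCompactSpace Y] {A : Atl 2 X} [Finite A.ι]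
  (C : KCov A Y ℤ) (hpc : PreC A) (P : Part A)

/-- tuples with values in `ι × ZMod 1` -/
def tupE (ι : Type) : (Fin 5 → ι) ≃ (Fin 5 → ι × ZMod 1) where
  toFun s i := (s i, 0)
  invFun t := fun i => (t i).1
  left_inv _ := rfl
  right_inv _ := funext fun _ => Prod.ext rfl (Subsingleton.elim _ _)

/-- the form `INR 1` of `Y` is the form of `X` -/
theorem INR_one {c c' : C2 (A.ι × ℤ)} (hc : c ∈ (nerve C hpc).Z2p 1)
    (hc' : c' ∈ (nerve C hpc).Z2p 1) :
    (wtY C hpc P).INR 1 c c' = ∑ᶠ s : Fin 5 → A.ι,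
      ((quot1 C hpc).down c (s 0) (s 1) (s 2) : ℝ) *
        ((quot1 C hpc).down c' (s 2) (s 3) (s 4) : ℝ) * jw P s := by
  rw [INR_wtY hpc P (toOne C) (toOne_φ C) le_rfl hc hc', ← finsum_comp_equiv (tupE A.ι)]
  refine finsum_congr fun s => ?_
  show ((quot (toOne C) (toOne_φ C) hpc).down c (s 0, 0) (s 1, 0) (s 2, 0) : ℝ) *
    ((quot (toOne C) (toOne_φ C) hpc).down c' (s 2, 0) (s 3, 0) (s 4, 0) : ℝ) *
      jw (liftP (kone A) P) (fun i => (s i, 0)) = _
  by_cases hs : (⋂ i, (A.e (s i)).source).Nonempty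
  · obtain ⟨x, hx⟩ := hs
    rw [mem_iInter] at hx
    have hf : (fun i => (s i, (0 : ZMod 1))) ∈ faces (kone A) (Fin 5) :=
      ⟨x, mem_iInter.2 fun i => mem_sheet_kone.2 (hx i)⟩
    rw [jw_lift (kone A) hpc P hf]
    -- lift the face to `Y`
    have hz := C.act_s_mem (hx 0) 0
    set z := C.act 0 (C.s (s 0) x) with hzd
    have hpz : C.p z = x := C.p_act_s (hx 0) 0
    have hzi : ∀ i, z ∈ C.sheet (s i) (0 + wind C hpc (s 0) (s i)) := fun i =>
      (mem_sheet_iff_wind C hpc hz).2 ⟨by rw [hpz]; exact hx i, rfl⟩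
    set u : Fin 5 → A.ι × ℤ := fun i => (s i, 0 + wind C hpc (s 0) (s i)) with hu
    have h3 : ∀ i j k, (nerve C hpc).N3 (u i) (u j) (u k) := fun i j k =>
      ⟨z, ⟨hzi i, hzi j⟩, hzi k⟩
    have e1 : ∀ (d : C2 (A.ι × ℤ)) (_ : d ∈ (nerve C hpc).Z2p 1) (i j k : Fin 5),
        (quot (toOne C) (toOne_φ C) hpc).down d (s i, 0) (s j, 0) (s k, 0) =
          (quot1 C hpc).down d (s i) (s j) (s k) := by
      intro d hd i j k
      have k1 := (quot (toOne C) (toOne_φ C) hpc).down_apply hd (h3 i j k)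
      have k2 := (quot1 C hpc).down_apply hd (h3 i j k)
      exact k1.trans k2.symm
    rw [e1 c hc, e1 c' hc']
  · have h1 : jw P s = 0 := by
      by_contra h
      obtain ⟨x, hx⟩ := jw_ne h
      exact hs ⟨x, mem_iInter.2 fun i => psi_src P (s i) (hx i)⟩
    have h2 : jw (liftP (kone A) P) (fun i => (s i, 0)) = 0 := by
      by_contra h
      obtain ⟨x, hx⟩ := faces_of_jw h
      rw [mem_iInter] at hx
      exact hs ⟨x, mem_iInter.2 fun i => mem_sheet_kone.1 (hx i)⟩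
    rw [h1, h2, mul_zero, mul_zero]

theorem lp_eq_of2 {ι : Type*} (lab : X → ι) (c : ι → ι → ι → ℤ) :
    LnkCup692.lp lab c = fun l => of2 c (l.map lab) := by
  funext l
  unfold LnkCup692.lp
  match l.map lab with
  | [] => rfl
  | [_] => rfl
  | [_, _] => rfl
  | [_, _, _] => rfl
  | _ :: _ :: _ :: _ :: _ => rfl

/-- the form `INR 1` of `Y` is the cup product form of `X` -/
theorem INR_one_eq_E {lab : X → A.ι} (G : EFn X (fun i => (A.e i).source) lab (jw P))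
    {c c' : C2 (A.ι × ℤ)} (hc : c ∈ (nerve C hpc).Z2p 1) (hc' : c' ∈ (nerve C hpc).Z2p 1) :
    (wtY C hpc P).INR 1 c c' =
      G.E (cup 2 (LnkCup692.lp lab ((quot1 C hpc).down c))
        (LnkCup692.lp lab ((quot1 C hpc).down c'))) := by
  rw [INR_one C hpc P hc hc', lp_eq_of2, lp_eq_of2]
  exact (INX945.label_cup G ((quot1 C hpc).down_mem hc) ((quot1 C hpc).down_mem hc')).symm

end form

/-! ### the two atlases -/

section main

variable {X Y : Type} [TopologicalSpace X] [TopologicalSpace Y] [T2Space X] [CompactSpace X]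
  [T2Space Y] [LocallyCompactSpace Y] {N : NAtl 2 X} [Finite N.big.ι] {C : KCov N.big Y ℤ}

theorem src_sub (i : N.ι) : (N.sm.e i).source ⊆ (N.big.e i).source := by
  have h1 : (N.sm.e i).source = N.B N.r i := N.at'_source le_rfl i
  rw [h1, N.big_source]
  exact N.B_sub _ _

/-- cocycles of the large balls are cocycles of the small balls -/
theorem mem_Z2_sm {c : N.ι → N.ι → N.ι → ℤ} (hc : c ∈ GC293.Z2 N.big ℤ) :
    c ∈ GC293.Z2 N.sm ℤ := by
  rintro i j k l ⟨x, ⟨⟨h1, h2⟩, h3⟩, h4⟩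
  exact hc i j k l ⟨x, ⟨⟨src_sub i h1, src_sub j h2⟩, src_sub k h3⟩, src_sub l h4⟩

/-- a Chern cocycle may be changed off the nerve -/
theorem isC1_congr {M : Type} [TopologicalSpace M] {A : Atl 2 M} {L : SLB A}
    {c c' : A.ι → A.ι → A.ι → ℤ} (h : IsC1 L c)
    (hcc : ∀ i j k, ((A.e i).source ∩ (A.e j).source ∩ (A.e k).source).Nonempty →
      c i j k = c' i j k) : IsC1 L c' := by
  obtain ⟨φ, h1, h2, h3⟩ := h
  refine ⟨φ, h1, h2, fun i j k x hx => ?_⟩
  rw [h3 i j k x hx, hcc i j k ⟨x, hx⟩]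

/-- the push-forward of a compactly supported cocycle -/
theorem pc_mem' (hpc : PreC N.big) {c : C2 (N.big.ι × ℤ)} (hc : c ∈ (nerve C hpc).Z2c) :
    pc C hpc c ∈ GC293.Z2 N.big ℤ := by
  have hp : (nerve C hpc).per 1 c ∈ (nerve C hpc).Z2p 1 := Weight.per_mem one_pos hc
  have h1 := (quot1 C hpc).down_mem hp
  intro i j k l hne
  obtain ⟨x, ⟨⟨hi, hj⟩, hk⟩, hl⟩ := hne
  have h2 := h1 i j k l ⟨x, ⟨⟨hi, hj⟩, hk⟩, hl⟩
  rw [down_per C hpc c hp ⟨x, ⟨hj, hk⟩, hl⟩, down_per C hpc c hp ⟨x, ⟨hi, hk⟩, hl⟩,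
    down_per C hpc c hp ⟨x, ⟨hi, hj⟩, hl⟩, down_per C hpc c hp ⟨x, ⟨hi, hj⟩, hk⟩] at h2
  exact h2

/-- **BRIDGE1**: `I_Y(kap_Y, c) = b_X(K_X, pc c)` -/
theorem bridge1 (hpc : PreC N.big) (Pb : Part N.big) (P : Part N.sm) (I : KIndex (smf N.sm))
    {lab : X → N.ι} (G : EFn X (fun i : N.ι => (N.big.e i).source) lab (jw Pb))
    (hlink : KX106.Link (A := N.sm) P I G.E lab) (F : Forms (nerve C hpc))
    (hIN : ∀ c ∈ (nerve C hpc).Z2p 1, ∀ c' ∈ (nerve C hpc).Z2p 1,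
      ((F.IN 1 c c' : ℤ) : ℝ) = (wtY C hpc Pb).INR 1 c c')
    (hk : IsC1 (A := N.sm) (slb (KB N.sm)) ((quot1 C hpc).down F.kap))
    {kapX : GC293.Z2 N.sm ℤ} (hkX : IsC1 (slb (KB N.sm)) kapX.1)
    {c : C2 (N.big.ι × ℤ)} (hc : c ∈ (nerve C hpc).Z2c) :
    F.IY F.kap c = ((bZ P I kapX ⟨pc (A := N.big) C hpc c, mem_Z2_sm (pc_mem' hpc hc)⟩ : ℤ) : ℝ) := by
  have hp : (nerve C hpc).per 1 c ∈ (nerve C hpc).Z2p 1 := Weight.per_mem one_pos hc
  have h1 := F.IN_per 1 le_rfl F.kap F.kap_mem c hc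
  rw [← h1, hIN _ F.kap_mem _ hp, INR_one_eq_E C hpc Pb G F.kap_mem hp]
  set d : GC293.Z2 N.sm ℤ := ⟨pc (A := N.big) C hpc c, mem_Z2_sm (pc_mem' hpc hc)⟩ with hd
  have h2 : IsC1 (A := N.sm) (LofC P d) ((quot1 C hpc).down ((nerve C hpc).per 1 c)) := by
    refine isC1_congr (isC1_LofC P d) fun i j k hne => ?_
    obtain ⟨x, ⟨hi, hj⟩, hk⟩ := hne
    exact (down_per C hpc c hp ⟨x, ⟨src_sub i hi, src_sub j hj⟩, src_sub k hk⟩).symm
  have h3 := hlink _ _ _ _ hk h2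
  rw [bZ_eq' (c := kapX) (d := d) hkX (isC1_LofC P d)]
  exact h3

end main

end

end Crest.Agent.R275.Br178
end

-- ▼ part R275/Br1b_78
section

/-!
R275 (S0418), helper78: Chern cocycles of the canonical bundle on the big and on the small balls.
-/

set_option autoImplicit false
set_option linter.unusedSectionVars false

open Set Filter Topology
open scoped ContDiff

namespace Crest.Agent.R275.Br178

open Geo XN194 Loc647 NGeo151 NTr151 PushS768 GC293 Core144 NAtl938 ChiM825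

noncomputable section

variable {X : Type} [TopologicalSpace X] {N : NAtl 2 X}

theorem sm_src (i : N.ι) : (N.sm.e i).source ⊆ (N.big.e i).source := by
  have h1 : (N.sm.e i).source = N.B N.r i := N.at'_source le_rfl i
  rw [h1, N.big_source]
  exact N.B_sub _ _

/-- smoothness on the big balls implies smoothness on the small balls -/
theorem smOn_sm {W : Type*} [NormedAddCommGroup W] [NormedSpace ℝ W] {U : Set X} {f : X → W}
    (h : SmOn N.big U f) : SmOn N.sm U f := fun x hx i hi => h x hx i (sm_src i hi)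

/-- logarithms on the big balls restrict to the small balls -/
theorem isC1_sm {L : SLB N.big} {L' : SLB N.sm} {c : N.ι → N.ι → N.ι → ℤ}
    (h : IsC1 (A := N.big) L c)
    (he : ∀ i j : N.ι, ∀ x ∈ (N.sm.e i).source ∩ (N.sm.e j).source, L'.g i j x = L.g i j x) :
    IsC1 (A := N.sm) L' c := by
  obtain ⟨φ, h1, h2, h3⟩ := h
  refine ⟨φ, fun i j => ?_, fun i j x hx => ?_, fun i j k x hx => ?_⟩
  · exact smOn_sm ((h1 i j).mono fun x hx => ⟨sm_src i hx.1, sm_src j hx.2⟩)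
  · exact (h2 i j x ⟨sm_src i hx.1, sm_src j hx.2⟩).trans (he i j x hx).symm
  · exact h3 i j k x ⟨⟨sm_src i hx.1.1, sm_src j hx.1.2⟩, sm_src k hx.2⟩

/-- the canonical class may be computed on the big balls -/
theorem isC1_KB_sm {c : N.ι → N.ι → N.ι → ℤ} (h : IsC1 (A := N.big) (slb (KB N.big)) c) :
    IsC1 (A := N.sm) (slb (KB N.sm)) c := by
  refine isC1_sm h fun i j x hx => ?_
  show (KB N.sm).g i j x = (KB N.big).g i j x
  have hx' : x ∈ (N.big.e i).source ∩ (N.big.e j).source := ⟨sm_src i hx.1, sm_src j hx.2⟩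
  rw [KB_g (A := N.sm) hx, KB_g (A := N.big) hx']
  rfl

end

end Crest.Agent.R275.Br178
end

-- ▼ part R275/NefG_672
section

/-!
# R275 (helper672): the field `nef` of `TIn` on the geometric base of helper144

`G : XGeo X`, `B := G.yBase`, `F : Forms G.Pn`.

* `nefG`   : from helper768's `Link` and the nonnegativity `K · L ≥ 0` on `X`;
* `linkG`  : helper768's `Link` from helper78's `bridge1`;
* `exists_tinG` : `TIn` on `YC G.u`.
-/

set_option autoImplicit false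
set_option linter.unusedSectionVars false

open Set Filter Topology Complex Metric
open scoped Manifold ContDiff

namespace Crest.Agent.R275.NefG672

open Crest.AlgGeometry.Surface
open Crest.Agent.R275.Geo Crest.Agent.R275.Core144 Crest.Agent.R275.NAtl938
open Crest.Agent.R275.Fm96 Crest.Agent.R275.WB658 Crest.Agent.R275.Base144
open Crest.Agent.R275.Cls938 Crest.Agent.R275.EB938 Crest.Agent.R275.Loc647
open Crest.Agent.R275.LocT474 Crest.Agent.R275.Sol352 Crest.Agent.R275.Sec1197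
open Crest.Agent.R275.GeoP572 (TG Lat bq dvs TIn)
open Crest.Agent.R275.BR4672 (gB BdG LowE)
open Crest.Agent.R275.Dv69 (EffDiv LocFact)
open Crest.Agent.R275.XN194 Crest.Agent.R275.ZC352
open Crest.Agent.R275.TInA672

noncomputable section

variable {X : Type} [TopologicalSpace X] [ChartedSpace C2 X] [IsManifold 𝓘(ℂ, C2) 1 X]
  [CompactSpace X] [T2Space X] (G : XGeo X) [LocFact (YC G.u)] [ConnectedSpace (YC G.u)]


variable {F : Forms G.Pn} {d : ℝ} {b : ℕ} {E : Fin b × ℤ → LB G.yBase.N.sm}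
  {s : Fin b × ℤ → G.yBase.N.ι → YC G.u → ℂ} {I : KR798.KIndex (Smf798.smf G.N.sm)}




/-! ### the link between `Y` and `X` -/

section link

variable {N : NAtl 2 X} [Finite N.big.ι] {Y : Type} [TopologicalSpace Y] [T2Space Y]
  [LocallyCompactSpace Y] {C : KCov N.big Y ℤ}

omit [ChartedSpace C2 X] [IsManifold 𝓘(ℂ, C2) 1 X] in
/-- **helper768's `Link`** for the forms of helper106/151 -/
theorem link_of {hA : GC293.GoodA N.big} {hpc : NGeo151.PreC N.big} {Pb : Part N.big}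
    {κ : N.big.ι → N.big.ι → N.big.ι → ℤ} {hκ : GC293.IsC1 (ChiM825.slb (KB N.big)) κ}
    {D : ∀ M : ℕ, 1 ≤ M → ∃ e : ℤ, Nonempty (EBF151.XNIn (WtY945.wtY C hpc Pb) M e)}
    {hb₂ : ∃ c : GC293.Z2 N.big ℤ, ∀ m : ℤ, m • c.1 ∈ GC293.B2 N.big ℤ → m = 0}
    (P : Part N.sm) (I : KR798.KIndex (Smf798.smf N.sm)) {lab : X → N.ι}
    (GE : PDY945.EFn X (fun i : N.ι => (N.big.e i).source) lab (WtY945.jw Pb))
    (hlink : KX106.Link (A := N.sm) P I GE.E lab) :
    PushS768.Link hpc (XNI106.formsK hA hpc Pb hκ D hb₂) P I := by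
  have hk : GC293.IsC1 (A := N.sm) (ChiM825.slb (KB N.sm)) κ := Br178.isC1_KB_sm hκ
  have hκ2 : κ ∈ GC293.Z2 N.big ℤ := hκ.mem_Z2
  have hκs : κ ∈ GC293.Z2 N.sm ℤ := Br178.mem_Z2_sm hκ2
  have hmem := EBF151.kapY_mem (C := C) (hpc := hpc) hκ2
  refine PushS768.link_of_bZ (kapX := ⟨κ, hκs⟩) hk fun c hc hc' => ?_
  refine Br178.bridge1 hpc Pb P I GE hlink (XNI106.formsK hA hpc Pb hκ D hb₂) ?_ ?_
    (kapX := ⟨κ, hκs⟩) hk hc
  · intro c hc c' hc'
    obtain ⟨e, ⟨X1⟩⟩ := D 1 le_rfl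
    exact NForm945.Weight.INZ_cast (W := WtY945.wtY C hpc Pb) ⟨_, X1.hW c hc c' hc'⟩
  · refine Br178.isC1_congr hk fun i j k hne => ?_
    obtain ⟨x, ⟨hi, hj⟩, hk'⟩ := hne
    have hM : ((N.big.e i).source ∩ (N.big.e j).source ∩ (N.big.e k).source).Nonempty :=
      ⟨x, ⟨Br178.src_sub i hi, Br178.src_sub j hj⟩, Br178.src_sub k hk'⟩
    obtain ⟨u, v, w, hu, hv, hw, h3⟩ := (PushS768.quot1 C hpc).M3_iff.1 hM
    have h1 := (PushS768.quot1 C hpc).down_apply hmem h3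
    have h2 := EBF151.kapY_apply (C := C) (hpc := hpc) (κ := κ) h3
    rw [← hu, ← hv, ← hw]
    exact (h1.trans h2).symm

end link

end

end Crest.Agent.R275.NefG672
end

-- ▼ part R275/LinkG_672
section

/-!
# R275 (helper672): the link between `Y` and `X` on helper144's nested atlas

* `nrm_sm`      : a functional normalised on the big balls is normalised on the small balls;
* `exists_link` : labels, orientation functional on the big balls and `KX106.Link` on the small balls;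
* `linkG`       : helper768's `Link` for the forms of helper106 and the geometric index on the small
                  balls, without further hypothesis.
-/

set_option autoImplicit false
set_option linter.unusedSectionVars false

open Set Filter Topology

namespace Crest.Agent.R275.LinkG672

open Crest.Agent.R275.Geo Crest.Agent.R275.Core144 Crest.Agent.R275.NAtl938
open Crest.Agent.R275.ASConv293 (Lab)
open Crest.Agent.R275.PD412 Crest.Agent.R275.PDA412 Crest.Agent.R275.PDB412 Crest.Agent.R275.Zig470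
open Crest.Agent.R275.KAsm106 (UA)

noncomputable section

variable {X : Type} [TopologicalSpace X]

/-- the class of a point does not depend on the cut off -/
theorem eqn_tauP {e : OpenPartialHomeomorph X PD412.C2} {p : X} {V V' : Set X} (hV : V ∈ 𝓝 p)
    (hVe : closure V ⊆ e.source) (hV' : V' ∈ 𝓝 p) (hVe' : closure V' ⊆ e.source) :
    Eqn 5 (tauP e p V) (tauP e p V') := by
  have h1 := rel_tauP hV hVe
  have h2 := rel_tauP hV' hVe'
  intro x
  by_cases hx : x ∈ e.source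
  · filter_upwards [h1.h1 x hx, h2.h1 x hx] with l k1 k2 hl
    rw [k1 hl, k2 hl]
  · filter_upwards [h1.h2 x hx, h2.h2 x hx] with l k1 k2 hl
    rw [k1 hl, k2 hl]

variable {N : NAtl 2 X}

theorem sm_sub (i : N.ι) : (N.sm.e i).source ⊆ (N.big.e i).source := by
  have h1 : (N.sm.e i).source = N.B N.r i := N.at'_source le_rfl i
  rw [h1, N.big_source]
  exact N.B_sub _ _

/-- normalisation on the small balls -/
theorem nrm_sm [T2Space X] [CompactSpace X] {E : (List X → ℤ) → ℝ} (D : Ev 3 E)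
    (hN : Nrm N.big E) : Nrm N.sm E := by
  intro i p hp
  have hpb : p ∈ (N.big.e i).source := sm_sub i hp
  obtain ⟨V, hV, hVe, h1⟩ := hN i p hpb
  obtain ⟨W, hW, hWc, hWs⟩ := exists_mem_nhds_isClosed_subset ((N.sm.e i).open_source.mem_nhds hp)
  have hcl : closure W ⊆ (N.sm.e i).source := hWc.closure_eq.subset.trans hWs
  refine ⟨W, hW, hcl, ?_⟩
  have h2 := D.congr _ _ (eqN_iff.2 (eqn_tauP (e := N.big.e i) hV hVe hW
    (hcl.trans (sm_sub i))))
  rw [← h1, h2]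
  rfl

/-- labels of the small balls are labels of the big balls -/
theorem lab_big {lab : X → N.ι} (h : Lab (UA N.sm) lab) : Lab (UA N.big) lab := by
  intro p
  obtain ⟨F, h1, h2⟩ := h p
  exact ⟨F, fun v hv => sm_sub v (h1 v hv), h2⟩

/-- **LINK on the small balls with the orientation functional of the big balls** -/
theorem exists_link [T2Space X] [CompactSpace X] [Finite N.big.ι] [Finite N.sm.ι]
    (Pb : Part N.big) (P : Part N.sm) :
    ∃ (lab : X → N.ι) (GE : PDY945.EFn X (fun i : N.ι => (N.big.e i).source) lab (WtY945.jw Pb)),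
      Lab (UA N.sm) lab ∧ Nrm N.big GE.E ∧
      KX106.Link (A := N.sm) P (MI683.geoI P (LnkP5476.nabL_sq N.sm)) GE.E lab := by
  obtain ⟨lab, hlab, -⟩ := ASConv293.exists_lab P
  obtain ⟨E, D, hN, hl⟩ := EOF627.exists_functional_compact (B := N.big) Pb
  refine ⟨lab, INX945.efn D (hl lab (lab_big hlab)), hlab, hN, ?_⟩
  exact XNI106.link_gix P D (nrm_sm D hN) hlab

/-- **helper768's `Link`** for the forms of helper106 and the geometric index on the small balls -/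
theorem linkG [T2Space X] [CompactSpace X] [Finite N.big.ι] [Finite N.sm.ι] {Y : Type}
    [TopologicalSpace Y] [T2Space Y] [LocallyCompactSpace Y] {C : XN194.KCov N.big Y ℤ}
    {hA : GC293.GoodA N.big} {hpc : NGeo151.PreC N.big} {Pb : Part N.big}
    {κ : N.big.ι → N.big.ι → N.big.ι → ℤ} {hκ : GC293.IsC1 (ChiM825.slb (KB N.big)) κ}
    {D : ∀ M : ℕ, 1 ≤ M → ∃ e : ℤ, Nonempty (EBF151.XNIn (WtY945.wtY C hpc Pb) M e)}
    {hb₂ : ∃ c : GC293.Z2 N.big ℤ, ∀ m : ℤ, m • c.1 ∈ GC293.B2 N.big ℤ → m = 0}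
    (P : Part N.sm) : PushS768.Link hpc (XNI106.formsK hA hpc Pb hκ D hb₂) P
      (MI683.geoI P (LnkP5476.nabL_sq N.sm)) := by
  obtain ⟨lab, GE, -, -, h⟩ := exists_link Pb P
  exact NefG672.link_of P _ GE h

/-! ### on `XGeo` -/

section geo

open Crest.AlgGeometry.Surface
open scoped Manifold ContDiff

variable [ChartedSpace Crest.AlgGeometry.Surface.C2 X]
  [IsManifold 𝓘(ℂ, Crest.AlgGeometry.Surface.C2) 1 X] [CompactSpace X] [T2Space X]
  [ConnectedSpace X] (G : Base144.XGeo X)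



end geo

end

end Crest.Agent.R275.LinkG672
end

-- ▼ part R275/NoY_884
section

/-!
R275 / S0418 (helper884): the fields `no` of helper352's `LData`, `DData` for the weighted complexes
`WCxY` of helper89 on the spaces `WSm` of helper681.

* `mem_WSm_iff_inW` : helper681's `WSm B (H.wt a b)` and helper912's `InW P (wj H a b)`;
* `LargeEnd.isH_eq_zero` : raw cocycles `G = K' * L` on overlaps, `K'` invariant, `L` bounded;
* `LargeEnd.no_raw`, `LargeEnd.no_inP` : one sided vanishing in `WCxY`;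
* `LargeEnd.no_wf`, `LargeEnd.no_wf_L`, `LargeEnd.no_wf_D` : the same for `wf h H` of helper681, for
  `L` of class `P` and for `KB A * L⁻¹`.
-/

set_option autoImplicit false
set_option linter.unusedSectionVars false

open MeasureTheory Set Filter Topology Metric Crest.AlgGeometry.Surface
open Crest.Agent.R275.FL606 Crest.Agent.R275.HolY631 Crest.Agent.R275.HolL631
open scoped Real Manifold ContDiff

namespace Crest.Agent.R275.FL884

open Geo Fm96 Core144 Lam2130 Sup912 KerV631 WY681 WCxY89 LauB681 Q74 GG89 C1d194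

noncomputable section

section wsm

variable {n : ℕ} {M : Type} [TopologicalSpace M] {A : Atl n M} {P : Part A} {B : FBun A}

/-- membership in helper681's weighted space is helper912's `InW` -/
theorem mem_WSm_iff_inW {h : M → ℝ} (H : Sup912.HD P h)
    (hc : ∃ D, ∀ i, (RetC666.nb P i).card ≤ D) (a b : ℝ) (u : Sec B) :
    u ∈ WSm B ((Hts.of_HD H hc).wt a b) ↔ InW P (wj H a b) u.1 :=
  (inW_iff_TS (P := P) (B := B) (u := u.1) (fun j => wj_pos H a b j) (WY681.sh B)).symm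

end wsm

section raw

variable {Y : Type} [TopologicalSpace Y] [ChartedSpace C2 Y] [IsManifold 𝓘(ℂ, C2) 1 Y]
  [T2Space Y] [MeasurableSpace Y] [BorelSpace Y] {g : Y ≃ₜ Y} {h : Y → ℝ} {A : Atl 2 Y}



end raw

/-! ### the weighted complexes -/

section WCx

variable {Y : Type} [TopologicalSpace Y] [ChartedSpace C2 Y] [IsManifold 𝓘(ℂ, C2) 1 Y]
  [T2Space Y] [MeasurableSpace Y] [BorelSpace Y] {g : Y ≃ₜ Y} {h : Y → ℝ} {A : Atl 2 Y}
  {P : Part A}


/-- growth of the elements of `W₀ a b` -/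
theorem bd_of_mem_W₀ {G : A.ι → A.ι → Y → ℂ} {hg : IsLC A G}
    (U : UB P (tw (lam2 A) (LV hg))) (H : Sup912.HD P h)
    {F : WF ℂ (SecL (LV hg))} {C : Cx F} (HF : DolF hg C) (c : Cut C)
    (hV : ∀ a b, ∀ v ∈ F.V a b, InW P (B := tw (lam2 A) (LV hg)) (wj H (-a) b) v.1) {a b : ℝ} {s : ZZ0 A G}
    (hs : s ∈ (WCxY HF c).W₀ a b) : Core144.Bd A h (wgt (-a) b) s.1 :=
  bd_emb.1 (Bd_of_inW U H (Subtype.prop ((eqv hg).symm (s, 0, 0)))
    (hV a b _ ((mem_W₀ HF c).1 hs)))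



/-- the hypothesis `hV` for helper681's family `wf` -/
theorem inW_of_mem_wf {B : FBun A} (H : Sup912.HD P h)
    (hc : ∃ D, ∀ i, (RetC666.nb P i).card ≤ D) (hB : BGeo P B) :
    ∀ a b, ∀ v ∈ (wf hB (Hts.of_HD H hc)).V a b, InW P (wj H (-a) b) v.1 :=
  fun a b v hv => (mem_WSm_iff_inW H hc (-a) b v).1 hv



end WCx

end

end Crest.Agent.R275.FL884
end

-- ▼ part R275/ODY_473
section

/-!
# R275, block D (helper473): (D4) `OData` for the weighted complex of the trivial bundle on `Y`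

* `const_of_fin` : a finite-dimensional deck-invariant space of holomorphic functions with growth
  rates in `[a,b]`, all rates in `[a,b]` except `0` nonspectral, consists of constants;
* `toF`, `toF_eq`, `hol_toF` : sections of the trivial bundle as functions on `Y`;
* `oneZ B`, `one_mem_W`, `pull_mem_W`, `const_W`;
* `odata` : `OData (wO B s) (oneZ B) d₀`;
* `odataX` : the same for `G.yBase`, from `XinData` (`EInt` from `EintY_473`).
-/

set_option autoImplicit false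
set_option linter.unusedSectionVars false

open Set Filter Topology Complex
open scoped ContDiff Manifold

noncomputable section

namespace Crest.Agent.R275.ODY473

open Geo Tor812 C1d194 LauB681 WY681 Core144 Lam2130 Q74 NAtl938 Fm96 Base144 YBG812 GG89
open Xin473 Sup912 HolY631 Lau473 Sol352
open KerV631 (BL emb emb_sec emb_isDeg)
open Crest.AlgGeometry.Surface

/-! ### functions -/

section fn

variable {Y : Type} [TopologicalSpace Y] [ChartedSpace C2 Y] [IsManifold 𝓘(ℂ, C2) 1 Y]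
  [ConnectedSpace Y] {g : Y ≃ₜ Y} {h : Y → ℝ}

/-- an eigenfunction with rates in `[a,b]` -/
theorem eig_const (D : Deck g h) {a b : ℝ}
    (hsp : ∀ r, a ≤ r → r ≤ b → r ≠ 0 → NonSp g (-r)) {μ : ℂ} {f : Y → ℂ} (hf : Hol f)
    (hrec : ∀ y, f (g y) = μ * f y) (hne : ∃ y, f y ≠ 0)
    (hgr : ∃ C : ℝ, ∀ y, ‖f y‖ ≤ C * wgt (-a) b (h y)) : μ = 1 ∧ ∃ c, ∀ y, f y = c := by
  have hμ0 : μ ≠ 0 := by
    intro h0
    obtain ⟨y, hy⟩ := hne
    have h1 := hrec (g.symm y)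
    rw [g.apply_symm_apply, h0, zero_mul] at h1
    exact hy h1
  obtain ⟨C, hC⟩ := hgr
  have h1 : Real.exp (-b) ≤ ‖μ‖ := by
    refine le_norm_of_growth D hμ0 hrec hne (C := C) (ρ := b) fun y hy => ?_
    have h2 := hC y
    unfold wgt at h2
    rw [max_eq_left hy, max_eq_right (by linarith : -h y ≤ 0), mul_zero, zero_add] at h2
    exact h2
  have h2 : ‖μ‖ ≤ Real.exp (-a) := by
    refine norm_le_of_growth D hμ0 hrec hne (C := C) (ρ := -a) fun y hy => ?_
    have h2 := hC y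
    unfold wgt at h2
    rw [max_eq_right hy, max_eq_left (by linarith : 0 ≤ -h y), mul_zero, add_zero] at h2
    rw [neg_neg]
    rw [neg_mul_neg] at h2
    exact h2
  have hμ : 0 < ‖μ‖ := norm_pos_iff.2 hμ0
  have h3 : Real.exp (-(-Real.log ‖μ‖)) = ‖μ‖ := by rw [neg_neg, Real.exp_log hμ]
  have h4 : -Real.log ‖μ‖ = 0 := by
    by_contra h5
    refine hsp (-Real.log ‖μ‖) ?_ ?_ h5 μ ⟨f, hf, hrec, hne⟩ h3.symm
    · have := Real.log_le_log hμ h2
      rw [Real.log_exp] at this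
      linarith
    · have := Real.log_le_log (Real.exp_pos _) h1
      rw [Real.log_exp] at this
      linarith
  have h5 : ‖μ‖ = 1 := by rw [← h3, h4, neg_zero, Real.exp_zero]
  obtain ⟨c, hc⟩ := const_of_norm_invariant D hf fun y => by rw [hrec, norm_mul, h5, one_mul]
  refine ⟨?_, c, hc⟩
  obtain ⟨y, hy⟩ := hne
  have h6 := hrec y
  rw [hc, hc] at h6
  rw [hc] at hy
  exact (mul_right_cancel₀ hy (h6.symm.trans (one_mul c).symm))

/-- **finite-dimensional deck-invariant spaces consist of constants** -/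
theorem const_of_fin (D : Deck g h) {a b : ℝ}
    (hsp : ∀ r, a ≤ r → r ≤ b → r ≠ 0 → NonSp g (-r)) (V : Submodule ℂ (Y → ℂ))
    [FiniteDimensional ℂ V] (hhol : ∀ f ∈ V, Hol f) (hst : ∀ f ∈ V, (fun y => f (g y)) ∈ V)
    (hgr : ∀ f ∈ V, ∃ C : ℝ, ∀ y, ‖f y‖ ≤ C * wgt (-a) b (h y)) :
    ∀ f ∈ V, ∃ c, ∀ y, f y = c := by
  intro f hf
  let T : Module.End ℂ V :=
    { toFun := fun v => ⟨fun y => v.1 (g y), hst v.1 v.2⟩
      map_add' := fun v w => rfl
      map_smul' := fun c v => rfl }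
  have hT : ∀ (v : V) (y : Y), (T v).1 y = v.1 (g y) := fun v y => rfl
  have heig : ∀ (μ : ℂ) (v : V), v ≠ 0 → T v = μ • v → μ = 1 ∧ ∃ c, ∀ y, v.1 y = c := by
    intro μ v hv hμ
    refine eig_const D hsp (hhol _ v.2) (fun y => ?_) ?_ (hgr _ v.2)
    · rw [← hT, hμ]
      rfl
    · by_contra hcon
      push Not at hcon
      exact hv (Subtype.ext (funext hcon))
  have hT1 := eq_one_of_eigenvalues T (fun μ v hv hμ => (heig μ v hv hμ).1) (by
    intro v w hvw hw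
    by_contra hw0
    obtain ⟨-, c, hc⟩ := heig 1 w hw0 (by rw [hw, one_smul])
    have h1 : ∀ y, v.1 (g y) = v.1 y + c := by
      intro y
      rw [← hT, hvw, ← hc y]
      rfl
    obtain ⟨hc0, -⟩ := additive D (hhol _ v.2) h1
    refine hw0 (Subtype.ext (funext (fun y => ?_)))
    rw [hc y, hc0]
    rfl) ⟨f, hf⟩
  refine const_of_norm_invariant D (hhol f hf) (fun y => ?_)
  have h1 : f y = f (g y) := by
    have h2 := hT ⟨f, hf⟩ y
    rw [hT1] at h2
    exact h2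
  rw [← h1]

end fn

/-! ### sections of the trivial bundle and functions -/

section toF

variable {n : ℕ} {M : Type} [TopologicalSpace M]

/-- a section of the trivial bundle as a function -/
def toF (A : Atl n M) : (A.ι → M → ℂ) →ₗ[ℂ] (M → ℂ) where
  toFun s x := s (A.cover x).choose x
  map_add' _ _ := rfl
  map_smul' _ _ := rfl

theorem toF_eq {A : Atl n M} {s : A.ι → M → ℂ} (hs : IsHS (1 : LB A) univ s) {i : A.ι} {x : M}
    (hx : x ∈ (A.e i).source) : s i x = toF A s x := by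
  have h1 := hs.tr i (A.cover x).choose x ⟨hx, (A.cover x).choose_spec⟩ (mem_univ x)
  rw [h1]
  show 1 * s _ x = s _ x
  rw [one_mul]


theorem toF_funS (A : Atl n M) (f : M → ℂ) : toF A (funS A f) = f := by
  funext x
  exact if_pos (A.cover x).choose_spec

variable {Y : Type} [TopologicalSpace Y] [ChartedSpace C2 Y] [IsManifold 𝓘(ℂ, C2) 1 Y]
  {A : Atl 2 Y}

theorem hol_toF (hA : Adm A) {s : A.ι → Y → ℂ} (hs : IsHS (1 : LB A) univ s) :
    Hol (toF A s) := by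
  intro x
  obtain ⟨i, hi⟩ := A.cover x
  have h1 : HolAt A i (A.e i).source (toF A s) :=
    ((hs.hol i).mono (subset_univ _)).congr fun y hy _ => toF_eq hs hy
  have h2 := (holOn_iff_holAt hA i (A.e i).open_source Subset.rfl (toF A s)).2 h1
  exact (h2 x hi).contMDiffAt ((A.e i).open_source.mem_nhds hi)

theorem isHS_of_hol (hA : Adm A) {f : Y → ℂ} (hf : Hol f) : IsHS (1 : LB A) univ (funS A f) := by
  refine isHS_funS fun i => ?_
  have h1 := (holOn_iff_holAt hA i (A.e i).open_source Subset.rfl f).1 hf.contMDiffOn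
  unfold HolAt at h1 ⊢
  refine h1.mono ?_
  intro z hz
  exact ⟨hz.1, (A.e i).map_target hz.1⟩

end toF

/-! ### the weighted complex of the trivial bundle -/

section Y

variable {Y : Type} [TopologicalSpace Y] [ChartedSpace C2 Y] [IsManifold 𝓘(ℂ, C2) 1 Y]
  [T2Space Y] (B : YBase Y)

/-- the weighted complex of the trivial bundle -/
abbrev wO (s : ℝ) : WCx ℂ (ZZ0 B.N.sm (1 : LB B.N.sm).g) (ZZ1 B.N.sm (1 : LB B.N.sm).g)
    (ZZ2 B.N.sm (1 : LB B.N.sm).g) :=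
  CutZ89.wL (hg := KerV631.isLC (1 : LB B.N.sm)) (bgeo_one (B := B)) (hd B) (card_nb B)
    B.smooth_sm s

/-- the differential of the trivial bundle on the weighted spaces -/
abbrev cO : Cx (wf (bgeo_one (B := B)) (hts B)) :=
  cx (bgeo_one (B := B)) (hts B) (CutZ89.dd_LV (KerV631.isLC (1 : LB B.N.sm)))

/-- the constant section `1` -/
def oneZ : ZZ0 B.N.sm (1 : LB B.N.sm).g :=
  ⟨oneS B.N.sm, ChiM825.isZ0_of_isHS (isHS_oneS univ)⟩

theorem oneZ_apply (i : B.N.sm.ι) {x : Y} (hx : x ∈ (B.N.sm.e i).source) :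
    (oneZ B).1 i x = 1 := if_pos hx

variable {B}

theorem D0_of_hs {s : ZZ0 B.N.sm (1 : LB B.N.sm).g} (hs : IsHS (1 : LB B.N.sm) univ s.1) :
    D0 (KerV631.isLC (1 : LB B.N.sm)) s = 0 := Subtype.ext (ChiM825.d0_of_isHS hs)

theorem hs_of_D0 {s : ZZ0 B.N.sm (1 : LB B.N.sm).g}
    (hs : D0 (KerV631.isLC (1 : LB B.N.sm)) s = 0) : IsHS (1 : LB B.N.sm) univ s.1 :=
  ChiM825.isHS_of_d0 s.2 (congrArg Subtype.val hs)

theorem oneZ_ne [Nonempty Y] : oneZ B ≠ 0 := by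
  intro h
  obtain ⟨x⟩ := (inferInstance : Nonempty Y)
  obtain ⟨i, hi⟩ := B.N.sm.cover x
  have h1 := oneZ_apply B i hi
  rw [h] at h1
  exact zero_ne_one h1

theorem one_mem_W {t a b : ℝ} (ha : a < 0) (hb : 0 < b) : oneZ B ∈ (wO B t).W₀ a b := by
  obtain ⟨U, hU⟩ := exists_UB_near (B := B) one_mem_BG
  refine (CutZ89.mem_wL₀ _ (hd B) (card_nb B) B.smooth_sm t).2 ?_
  refine (FL884.mem_WSm_iff_inW (hd B) (card_nb B) (-a) b _).2 ?_
  refine KerV631.inW_of_bd U (hd B) hU (a := 0) (b := 0) (by linarith) hb (isHS_oneS univ) ?_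
  refine ⟨1, fun i x hx => ?_⟩
  have h1 : oneS B.N.sm i x = 1 := if_pos hx
  show ‖oneS B.N.sm i x‖ ≤ 1 * wgt 0 0 (B.h x)
  rw [h1, norm_one, one_mul]
  unfold wgt
  simp

theorem bd_of_W {t a b : ℝ} {s : ZZ0 B.N.sm (1 : LB B.N.sm).g} (hs : s ∈ (wO B t).W₀ a b) :
    Core144.Bd B.N.sm B.h (wgt (-a) b) s.1 := by
  obtain ⟨U, hU⟩ := exists_UB_near (B := B) one_mem_BG
  let _ : MeasurableSpace Y := borel Y
  have : BorelSpace Y := ⟨rfl⟩
  exact FL884.bd_of_mem_W₀ U (hd B) _ _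
    (FL884.inW_of_mem_wf (hd B) (card_nb B) (bgeo_one (B := B))) hs

/-- the weighted spaces are invariant under the deck transformation -/
theorem pull_mem_W {t a b : ℝ} {s s' : ZZ0 B.N.sm (1 : LB B.N.sm).g}
    (hs : s ∈ (wO B t).W₀ a b) (he : ∀ i, ∀ x ∈ (B.N.sm.e i).source,
      s'.1 i x = s.1 (B.Q.s i) (B.g x)) : s' ∈ (wO B t).W₀ a b := by
  refine KEx967.mem_WSm_auto (φ := phi B) (invP B) (C := Real.exp ((|(-a)| + |b|) * 1)) ?_ ?_
    (show _ ∈ WSm (BL (1 : LB B.N.sm)) ((hts B).wt (-a) b) from hs)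
  · intro i x hx
    funext k
    obtain ⟨k, r⟩ := k
    fin_cases k
    · exact he i x hx
    · rfl
    · rfl
    · rfl
  · intro i
    show (wgt (-a) b (hc B.N B.h i))⁻¹ ≤ Real.exp ((|(-a)| + |b|) * 1) *
      (wgt (-a) b (hc B.N B.h (B.Q.s i)))⁻¹
    rw [Sup912.wgt_inv, Sup912.wgt_inv]
    refine (Sup912.wgt_le_mul _ _ _ (hc B.N B.h (B.Q.s i))).trans ?_
    have h5 : hc B.N B.h (B.Q.s i) = hc B.N B.h i - 1 := hc_shift B.Q i
    have h6 : |hc B.N B.h i - hc B.N B.h (B.Q.s i)| = 1 := by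
      rw [h5, sub_sub_cancel, abs_one]
    rw [abs_neg (-a), abs_neg b]
    exact le_of_eq (by rw [← h6])

variable [ConnectedSpace Y]

/-- **functions with small rates are constant** -/
theorem const_W {t a b : ℝ} (hsp : ∀ r, a ≤ r → r ≤ b → r ≠ 0 → NonSp B.g (-r))
    (ha : EH (cO B) a a) (hb : EH (cO B) b b) : (wO B t).Const (oneZ B) a b := by
  obtain ⟨K, hK, hKd⟩ := QHY617.qhtp_root (hd B) B.smooth_sm (card_nb B) (bgeo_one (B := B))
    (CutZ89.dd_LV (KerV631.isLC (1 : LB B.N.sm))) ha hb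
  have hfin := (CutZ89.dolF (hg := KerV631.isLC (1 : LB B.N.sm)) (bgeo_one (B := B)) (hts B)
    (CutZ89.dd_LV _)).split.finiteDimensional_ker_of_QHtp
    (CutZ89.thC (hd B) (card_nb B) B.smooth_sm (bgeo_one (B := B)) (CutZ89.dd_LV _) t) hK hKd
  set W : Submodule ℂ (ZZ0 B.N.sm (1 : LB B.N.sm).g) :=
    (wO B t).W₀ a b ⊓ LinearMap.ker (D0 (KerV631.isLC (1 : LB B.N.sm))) with hW
  have hfin' : FiniteDimensional ℂ W := hfin
  set V : Submodule ℂ (Y → ℂ) :=
    W.map ((toF B.N.sm) ∘ₗ (ZZ0 B.N.sm (1 : LB B.N.sm).g).subtype) with hV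
  have hfin2 : FiniteDimensional ℂ V := inferInstance
  have key := const_of_fin (a := a) (b := b) B.deck hsp V
    (by
      rintro _ ⟨s, ⟨-, hs⟩, rfl⟩
      exact hol_toF B.admA (hs_of_D0 hs))
    (by
      rintro _ ⟨s, ⟨hs1, hs2⟩, rfl⟩
      have h1 := hs_of_D0 hs2
      have h2 : Hol (fun y => toF B.N.sm s.1 (B.g y)) := (hol_toF B.admA h1).comp B.deck.hol
      have h3 := isHS_of_hol B.admA h2
      refine ⟨⟨funS B.N.sm fun y => toF B.N.sm s.1 (B.g y), ChiM825.isZ0_of_isHS h3⟩,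
        ⟨pull_mem_W hs1 fun i x hx => ?_, D0_of_hs h3⟩, toF_funS _ _⟩
      have h4 : B.g x ∈ (B.N.sm.e (B.Q.s i)).source := ((phi B).src i x).2 hx
      rw [toF_eq h1 h4]
      exact if_pos hx)
    (by
      rintro _ ⟨s, ⟨hs1, hs2⟩, rfl⟩
      obtain ⟨C, hC⟩ := bd_of_W hs1
      refine ⟨C, fun y => ?_⟩
      exact hC _ y (B.N.sm.cover y).choose_spec)
  intro s hs hd0
  obtain ⟨c, hc⟩ := key _ ⟨s, ⟨hs, hd0⟩, rfl⟩
  refine ⟨c, Subtype.ext (funext fun i => funext fun x => ?_)⟩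
  have h1 := hs_of_D0 (B := B) (s := s) hd0
  by_cases hx : x ∈ (B.N.sm.e i).source
  · rw [toF_eq h1 hx]
    refine (hc x).trans ?_
    show c = c * oneS B.N.sm i x
    have h2 : oneS B.N.sm i x = 1 := if_pos hx
    rw [h2, mul_one]
  · rw [h1.off i x hx]
    show 0 = c * oneS B.N.sm i x
    have h2 : oneS B.N.sm i x = 0 := if_neg hx
    rw [h2, mul_zero]

/-- **(D4)** -/
theorem odata {t d₀ : ℝ} (hd₀ : 0 < d₀)
    (hE : ∀ a b, a ≤ b → (∀ r ∈ Set.Icc a b, NonSp B.g (-r)) → EInt (cO B) a b)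
    (hneg : ∀ r < 0, NonSp B.g (-r)) (hpos : ∀ r, 0 < r → r < d₀ → NonSp B.g (-r))
    (hdd : ∀ a b, 0 < a → a < d₀ → b < 0 → (wO B t).Ex₂ a b) :
    OData (wO B t) (oneZ B) d₀ := by
  have hEH : ∀ a b, (∀ r ∈ Set.Icc (min a b) (max a b), NonSp B.g (-r)) → EH (cO B) a b := by
    intro a b h
    exact hE _ _ min_le_max h a ⟨min_le_left _ _, le_max_left _ _⟩ b
      ⟨min_le_right _ _, le_max_right _ _⟩
  have hac : ∀ a b, EH (cO B) a b → (wO B t).Acyc a b := fun a b h =>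
    (CutZ89.dolF (hg := KerV631.isLC (1 : LB B.N.sm)) (bgeo_one (B := B)) (hts B)
      (CutZ89.dd_LV _)).split.acyc_of_EH
      (CutZ89.thC (hd B) (card_nb B) B.smooth_sm (bgeo_one (B := B)) (CutZ89.dd_LV _) t) h
  have hp : ∀ a b, 0 < a → a < d₀ → 0 < b → b < d₀ → EH (cO B) a b := fun a b h1 h2 h3 h4 =>
    hEH a b fun r hr => hpos r ((lt_min h1 h3).trans_le hr.1) (hr.2.trans_lt (max_lt h2 h4))
  have hn : ∀ a b, a < 0 → b < 0 → EH (cO B) a b := fun a b h1 h2 =>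
    hEH a b fun r hr => hneg r (hr.2.trans_lt (max_lt h1 h2))
  exact {
    pos := hd₀
    dg := fun a b h1 h2 h3 h4 => hac a b (hp a b h1 h2 h3 h4)
    gd := fun a b h1 h2 => hac a b (hn a b h1 h2)
    one_ne := oneZ_ne
    one_mem := fun a b h1 h2 => one_mem_W h1 h2
    d_one := D0_of_hs (isHS_oneS univ)
    const := fun a b _ h2 h3 h4 => const_W (fun r hr1 hr2 hr0 => by
      rcases lt_or_gt_of_ne hr0 with h5 | h5
      · exact hneg r h5
      · exact hpos r h5 (hr2.trans_lt h4)) (hn a a h2 h2) (hp b b h3 h4 h3 h4)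
    dd₂ := hdd }

end Y

end Crest.Agent.R275.ODY473
end
end

-- ▼ part R275/ODX_473
section

/-!
# R275, block D (helper473): (D3), (D4), `denseK` over `G : XGeo X`

* `smL G`, `zd G : ZD G.N.sm`, `zd_lift`, `zd_comp`;
* `eintO`, `eintK` : exactness of the weighted complexes of `O`, `K` on `G.yBase`;
* `odataX` : `OData (wO G.yBase t) (oneZ G.yBase) d₀`;
* `denseK` : `Ex₁ r r` for `K`, for a dense set of `r`;
* `NS G`, `dense_NS`, `exists_gap` : 352's set of nonspectral rates.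
-/

set_option autoImplicit false
set_option linter.unusedSectionVars false

open Set Filter Topology Complex Metric
open scoped ContDiff Manifold

noncomputable section

namespace Crest.Agent.R275.ODX473

open Geo Tor812 C1d194 LauB681 WY681 Core144 Lam2130 Q74 NAtl938 Fm96 Base144 YBG812 GG89
open Xin473 XinM473 Sup912 HolY631 Lau473 Sol352 ODY473 EintY473 Lt893 ZC352 XN194 PartN194
open Smf798 KR798 NLift374
open KerV631 (BL)
open Crest.AlgGeometry.Surface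

variable {X : Type} [TopologicalSpace X] [ChartedSpace C2 X] (G : XGeo X)

/-- the lifts of `u` are smooth on the big balls -/
theorem smL (i : G.N.big.ι) : G.N.big.SmAt i (G.L.f i) := by
  have h0 : (G.N.big.e i).target ⊆ (G.N₀.big.e i).target := by
    intro z hz
    have h1 : z ∈ ball G.N₀.z₀ (9 * G.N₀.r) := (G.N.big_target i).subset hz
    exact (G.N₀.big_target i).symm.subset (ball_subset_ball G.h2 h1)
  have h2 : ContDiffOn ℝ ∞ (fun z => G.f i ((G.N₀.big.e i).symm z)) (G.N₀.big.e i).target := G.sm i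
  exact h2.mono h0

/-- the lifts of `u` on the small atlas -/
def zd : ZD G.N.sm := zdL G.L (smL G) le_rfl

theorem zd_lift : (zd G).Lift G.u := zdL_lift G.L (smL G) le_rfl


variable [IsManifold 𝓘(ℂ, C2) 1 X] [CompactSpace X] [T2Space X]

variable {G} {Px : Part G.N.sm} {I : KIndex (smf G.N.sm)}

/-- **(D3) for `O`** -/
theorem eintO (X' : XinData Px I (zd G) G.u) {a b : ℝ} (hab : a ≤ b)
    (hr : ∀ r ∈ Set.Icc a b, NonSp (YC.dk G.u) (-r)) : EInt (cO G.yBase) a b :=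
  eint_one (P := G.P) X' rfl (bgeo_one (B := G.yBase)) (ht_ok G.L)
    (CutZ89.thC (hd G.yBase) (card_nb G.yBase) G.yBase.smooth_sm (bgeo_one (B := G.yBase))
      (CutZ89.dd_LV _) 0) hab hr

/-- the differential of `K` on the weighted spaces -/
abbrev cK {Y : Type} [TopologicalSpace Y] [ChartedSpace C2 Y] [T2Space Y] (B : YBase Y) :
    Cx (wf (bgeo_KB (B := B)) (hts B)) :=
  cx (bgeo_KB (B := B)) (hts B) (CutZ89.dd_LV (KerV631.isLC (KB B.N.sm)))

/-- the weighted complex of `K` -/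
abbrev wK {Y : Type} [TopologicalSpace Y] [ChartedSpace C2 Y] [T2Space Y] (B : YBase Y) (t : ℝ) :
    WCx ℂ (ZZ0 B.N.sm (KB B.N.sm).g) (ZZ1 B.N.sm (KB B.N.sm).g) (ZZ2 B.N.sm (KB B.N.sm).g) :=
  CutZ89.wL (hg := KerV631.isLC (KB B.N.sm)) (bgeo_KB (B := B)) (hd B) (card_nb B) B.smooth_sm t

/-- **(D3) for `K`** -/
theorem eintK (X' : XinData Px I (zd G) G.u) {a b : ℝ} (hab : a ≤ b)
    (hr : ∀ r ∈ Set.Icc a b, NonSp (YC.dk G.u) r) : EInt (cK G.yBase) a b :=
  eint_KB (P := G.P) X' rfl (bgeo_KB (B := G.yBase)) (ht_ok G.L)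
    (CutZ89.thC (hd G.yBase) (card_nb G.yBase) G.yBase.smooth_sm (bgeo_KB (B := G.yBase))
      (CutZ89.dd_LV _) 0) hab hr

variable [ConnectedSpace (YC G.u)]

/-- **(D4)** over `G.yBase` -/
theorem odataX (X' : XinData Px I (zd G) G.u) {t d₀ : ℝ} (hd₀ : 0 < d₀)
    (hneg : ∀ r < 0, NonSp (YC.dk G.u) (-r))
    (hpos : ∀ r, 0 < r → r < d₀ → NonSp (YC.dk G.u) (-r))
    (hdd : ∀ a b, 0 < a → a < d₀ → b < 0 → (wO G.yBase t).Ex₂ a b) :
    OData (wO G.yBase t) (oneZ G.yBase) d₀ :=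
  odata hd₀ (fun _ _ hab hr => eintO X' hab hr) hneg hpos hdd

omit [ConnectedSpace (YC G.u)] in
/-- all the cohomology of `K` vanishes at the weights `(r,r)`, `r` nonspectral -/
theorem acycK (X' : XinData Px I (zd G) G.u) {t r : ℝ} (hr : NonSp (YC.dk G.u) r) :
    (wK G.yBase t).Acyc r r :=
  (CutZ89.dolF (hg := KerV631.isLC (KB G.yBase.N.sm)) (bgeo_KB (B := G.yBase)) (hts G.yBase)
    (CutZ89.dd_LV _)).split.acyc_of_EH
    (CutZ89.thC (hd G.yBase) (card_nb G.yBase) G.yBase.smooth_sm (bgeo_KB (B := G.yBase))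
      (CutZ89.dd_LV _) t)
    (eintK X' le_rfl (fun s hs => by rwa [le_antisymm hs.2 hs.1]) r ⟨le_rfl, le_rfl⟩ r
      ⟨le_rfl, le_rfl⟩)

/-- **`denseK`** -/
theorem denseK (X' : XinData Px I (zd G) G.u) (t : ℝ) (x y : ℝ) (hxy : x < y) :
    ∃ r, x < r ∧ r < y ∧ NonSp (YC.dk G.u) r ∧ (wK G.yBase t).Ex₁ r r := by
  obtain ⟨r, h1, h2, -, h3, -⟩ := exists_nonSp (YC.deck G.u) hxy (E := ∅) Set.countable_empty
  exact ⟨r, h1, h2, h3, (acycK X' h3).ex₁⟩

/-- the nonspectral rates of the trivial bundle (352's `NS`) -/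
def NS (G : XGeo X) : Set ℝ := {r | NonSp (YC.dk G.u) (-r)}


/-- `YAn.dense` -/
theorem dense_NS (x y : ℝ) (hxy : x < y) : ∃ r, x < r ∧ r < y ∧ r ∈ NS G := by
  obtain ⟨r, h1, h2, -, -, h3⟩ := exists_nonSp (YC.deck G.u) hxy (E := ∅) Set.countable_empty
  exact ⟨r, h1, h2, h3⟩


/-- there is a gap `d₀ > 0` (`YAn.ns_pos`) -/
theorem exists_gap : ∃ d₀ > 0, ∀ r, 0 < r → r < d₀ → r ∈ NS G := by
  obtain ⟨d, hd, h⟩ := exists_d0 (YC.deck G.u)
  exact ⟨d, hd, fun r h1 h2 => h (-r) (by linarith) (by rw [abs_neg, abs_of_pos h1]; exact h2.le)⟩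

end Crest.Agent.R275.ODX473
end
end

-- ▼ part R275/SkelXC_328

/-!
R275 (S0418), X-SIDE (helper328), part 3: **the X side**.

* `IxAll`      : Noether's formula for the geometric index on good atlases (615, 890), the only input;
* `xBase`      : helper615's `XBase` for all radii;
* `cm_sm`, `cm_big`, `cm_xc` : `CMData`;
* `xnD`        : the inputs on all `X_n`;
* `XData G F`  : the output of the X side, `exists_xData`, `exists_top`.
-/

set_option autoImplicit false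

open Set Filter Topology Metric
open scoped Manifold ContDiff

noncomputable section

namespace Crest.Agent.R275.SkelX328

open Crest.AlgGeometry.Surface
open Geo GC293 NAtl938 Core144 Lt893 ZC352 XN194 YCneg630 FL884 Base144 PartN194
open ChiM825 Loc647 NTr151 NGeo151 EBF151 Smf798 KR798 XNI106 QPb635 WtY945 KX106 Q74
open XIn825 KAsm106 CM615 LnkP5476

/-- the Euler characteristic of the nerve of a finite atlas -/
def eA {n : ℕ} {M : Type} [TopologicalSpace M] (A : Atl n M) [Finite A.ι] : ℤ :=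
  letI : Fintype A.ι := Fintype.ofFinite A.ι
  EDR890.nerveChi (fun i => (A.e i).source) Finset.univ

theorem eA_eq {n : ℕ} {M : Type} [TopologicalSpace M] (A : Atl n M) [Finite A.ι]
    [i : Fintype A.ι] : EDR890.nerveChi (fun i => (A.e i).source) Finset.univ = eA A := by
  unfold eA
  rw [Subsingleton.elim i (Fintype.ofFinite A.ι)]

/-- **the index theoretic input**: Riemann-Roch and Noether's formula for the geometric index of
every good finite atlas of a compact Hausdorff space -/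
def IxAll : Prop :=
  ∀ (M : Type) [TopologicalSpace M] [T2Space M] [CompactSpace M] (A : Atl 2 M) [Finite A.ι]
    (P : Part A), GoodA A → Ix P (MI683.geoI P (nabL_sq A)) (eA A)

variable {X : Type} [TopologicalSpace X] [ChartedSpace C2 X] (G : XGeo X)

section base

variable [CompactSpace X] [T2Space X] [IsManifold 𝓘(ℂ, C2) 1 X]

instance finAt {ρ : ℝ} (hρ : G.N.r ≤ ρ) : Finite (G.N.at' ρ hρ).ι := G.fin

omit [CompactSpace X] [T2Space X] in
/-- helper615's base, all radii -/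
theorem xBase (hu : CovData G.u) (hplu : PlurigeneraVanish X) {ρ : ℝ} (hρ : G.N.r ≤ ρ)
    (h : ρ ≤ G.N.R) : XBase G.u (G.N.at' ρ hρ) where
  conn := hu.conn
  ht := hu.smooth
  per Q := hu.univ ℝ Q
  fin := G.fin
  hol := hol_at G hρ
  max := adm_at G hρ
  good := good_at G hρ h
  h1 := h1z_at G hρ h
  plu := hplu

variable {G}

/-- `CMData` on `X`, all radii -/
theorem cm_at (hu : CovData G.u) (hplu : PlurigeneraVanish X) (HI : IxAll) {ρ : ℝ}
    (hρ : G.N.r ≤ ρ) (h : ρ ≤ G.N.R) (P : Part (G.N.at' ρ hρ)) :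
    CMData P (MI683.geoI P (nabL_sq (G.N.at' ρ hρ))) (eA (G.N.at' ρ hρ)) :=
  cmX (xBase G hu hplu hρ h) (Zat_lift G hρ h) (HI X (G.N.at' ρ hρ) P (good_at G hρ h))

instance finXc (n : ℕ) [NeZero n] : Finite (xc G n).lift.ι := finite_lift (NeZero.one_le)

instance finXcAt (n : ℕ) [NeZero n] {ρ : ℝ} (hρ : G.N.r ≤ ρ) :
    Finite ((nlift G.N (xc G n)).at' ρ hρ).ι := finXc (G := G) n

/-- `CMData` on `X_n`, lifts of the big balls -/
theorem cm_xc (hu : CovData G.u) (hplu : PlurigeneraVanish X) (HI : IxAll) (n : ℕ) [NeZero n]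
    (P : Part (xc G n).lift) :
    CMData P (MI683.geoI P (nabL_sq (xc G n).lift)) (eA (xc G n).lift) :=
  cmXC n (xBase G hu hplu G.N.r_le_R le_rfl) (Zat_lift G G.N.r_le_R le_rfl) G.L
    (HI (XC n G.u) (xc G n).lift P (KY293.goodA_lift (xc G n) (good_at G G.N.r_le_R le_rfl)))

end base

section out

variable [CompactSpace X] [T2Space X] [ConnectedSpace X] [IsManifold 𝓘(ℂ, C2) 1 X] {G}

/-- bigger charts -/
def bigAt {ρ : ℝ} (hρ : G.N.r ≤ ρ) (h : ρ ≤ G.N.R) : Big (G.N.at' ρ hρ) :=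
  bigShrink G.h1 G.h2 G.max G.h3 hρ h

/-- helper825's output, all radii -/
theorem xOut_at (hu : CovData G.u) (hplu : PlurigeneraVanish X) (hmin : IsMinimal X)
    (hb₂ : Nontrivial (Crest.Topology.RationalHomology.rationalHomology X 2)) (HI : IxAll) {ρ : ℝ}
    (hρ : G.N.r ≤ ρ) (h : ρ ≤ G.N.R) (P : Part (G.N.at' ρ hρ)) {Z : ZD (G.N.at' ρ hρ)}
    (hZ : Z.Lift G.u) :
    XOut (bigAt hρ h) P (MI683.geoI P (nabL_sq (G.N.at' ρ hρ))) Z G.u (eA (G.N.at' ρ hρ)) := by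
  have := hu.conn
  let _ : Fintype (G.N.at' ρ hρ).ι := Fintype.ofFinite _
  have h1 := cm_at hu hplu HI hρ h P
  rw [← eA_eq] at h1 ⊢
  exact XIn825.xOut (bigAt hρ h) (adm_at G hρ) h1 (linkAll_geo P) hmin hZ hu.univ hb₂

/-- **the inputs on `X_n`** -/
theorem xnD (hu : CovData G.u) (hplu : PlurigeneraVanish X) (hmin : IsMinimal X)
    (hb₂ : Nontrivial (Crest.Topology.RationalHomology.rationalHomology X 2)) (HI : IxAll)
    (Pb : Part G.N.big) (n : ℕ) [NeZero n] :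
    XnD G Pb n (XNI106.gix (liftP (xc G n) Pb)) (eA (xc G n).lift) where
  cm := cm_xc hu hplu HI n _
  rk := by
    have := hu.conn
    have hx := (xOut_at hu hplu hmin hb₂ HI G.N.r_le_R le_rfl Pb
      (Zat_lift G G.N.r_le_R le_rfl)).xin
    let _ : Fintype (xc G n).lift.ι := Fintype.ofFinite _
    have h1 := rk_XN (good_at G G.N.r_le_R le_rfl) Pb (Zat_lift G G.N.r_le_R le_rfl) hu.univ hx hb₂
      n (liftP (xc G n) Pb)
    have h2 : EDR890.nerveChi (fun i => ((xc G n).lift.e i).source) Finset.univ =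
      eA (xc G n).lift := eA_eq _
    rw [← h2]
    exact h1

variable (G) in
/-- the index functional on `X` (small balls) -/
abbrev gI : KIndex (smf G.N.sm) := MI683.geoI G.P (nabL_sq G.N.sm)

/-- **the output of the X side** -/
structure XData (G : XGeo X) (F : Forms G.Pn) : Prop where
  cov : CovData G.u
  plu : PlurigeneraVanish X
  min : IsMinimal X
  /-- Riemann-Roch, Serre duality, Noether, on the small balls -/
  cm : CMData G.P (gI G) (eA G.N.sm)
  lat : QX825.LatX G.P (gI G) (eA G.N.sm)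
  pos : 0 < eA G.N.sm
  f7 : QX825.F7 G.N.sm
  xin : XinM473.XinData G.P (gI G) (ODX473.zd G) G.u
  nonneg : ∀ (L : LB G.N.sm) (s : G.N.ι → X → ℂ), IsHS L univ s → s ≠ 0 →
    0 ≤ QX825.bb G.P (gI G) (KB G.N.sm) L
  link : PushS768.Link G.preC F G.P (gI G)
  /-- how `F` was built and the data on `X_n` -/
  forms : ∃ (Pb : Part G.N.big) (κ : G.N.ι → G.N.ι → G.N.ι → ℤ), FData G F Pb κ ∧
    ∀ (n : ℕ) [NeZero n], ∃ g e, XnD G Pb n g e

/-- **the X side** -/
theorem exists_xData (hu : CovData G.u) (hplu : PlurigeneraVanish X) (hmin : IsMinimal X)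
    (hb₂ : Nontrivial (Crest.Topology.RationalHomology.rationalHomology X 2)) (HI : IxAll) :
    ∃ F : Forms G.Pn, XData G F := by
  obtain ⟨Pb, -⟩ := exists_part_of G.N.big (hol_at G G.N.r_le_R) (finAt G G.N.r_le_R)
  obtain ⟨κ, hκ⟩ := exists_kap G
  have hX : ∀ (n : ℕ) [NeZero n], XnD G Pb n (XNI106.gix (liftP (xc G n) Pb)) (eA (xc G n).lift) :=
    fun n _ => xnD hu hplu hmin hb₂ HI Pb n
  have hD : ∀ n : ℕ, 1 ≤ n → ∃ e : ℤ, Nonempty (XNIn (wtY G.C G.preC Pb) n e) := fun n hn => by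
    have : NeZero n := ⟨by omega⟩
    exact ⟨_, nonempty_xnIn G.preC Pb (yx G n) (yx_φ G n) hn _ (hX n).cm (hX n).rk⟩
  have hO := xOut_at hu hplu hmin hb₂ HI le_rfl G.N.r_le_R G.P (ODX473.zd_lift G)
  refine ⟨formsK (C := G.C) (good_at G G.N.r_le_R le_rfl) G.preC Pb hκ hD (hb2_big G hb₂), ?_⟩
  exact {
    cov := hu
    plu := hplu
    min := hmin
    cm := cm_at hu hplu HI le_rfl G.N.r_le_R G.P
    lat := hO.lat
    pos := hO.pos
    f7 := hO.f7
    xin := hO.xin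
    nonneg := hO.nonneg
    link := LinkG672.linkG G.P
    forms := ⟨Pb, κ, ⟨hκ, rfl, rfl, rfl⟩, fun n _ => ⟨_, _, hX n⟩⟩ }

end out

/-- **everything from the hypotheses of the theorem** -/
theorem exists_top (X : Type) [TopologicalSpace X] [T2Space X] [CompactSpace X]
    [ConnectedSpace X] [ChartedSpace C2 X] [IsManifold 𝓘(ℂ, C2) 1 X]
    (hb₁ : Crest.Topology.RationalHomology.rationalBettiNumber X 1 = 1)
    (hb₂ : Nontrivial (Crest.Topology.RationalHomology.rationalHomology X 2))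
    (hplu : PlurigeneraVanish X) (hmin : IsMinimal X) (HI : IxAll) :
    ∃ (G : XGeo X) (F : Forms G.Pn), XData G F ∧
      (letI : MeasurableSpace (YC G.u) := borel (YC G.u); LargeEnd (YC.dk G.u) (YC.ht G.u)) := by
  obtain ⟨G, hu, hL⟩ := exists_geo X hb₁
  obtain ⟨F, hF⟩ := exists_xData hu hplu hmin hb₂ HI
  exact ⟨G, F, hF, hL⟩

end Crest.Agent.R275.SkelX328
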