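import Crest.Agent.R275.NAtl_938

/-!
# R275, block P: well-definedness of the class (helper938)

`c : ι → ι → ι → ℤ` an integral cochain on the nerve of the BIG balls, `φ` smooth functions on the
big overlaps with `δ φ = c` and `φ = 0` near the ends.  If the smooth line bundle `exp (2 π i φ)`
has, on the SMALL balls and over an open set `D`, a nowhere zero section tending to non-zero
constants at the ends, then `c` is, over the big balls contained in `D`, the coboundary of an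
integral cochain of finite support.
-/

set_option autoImplicit false
set_option linter.unusedSectionVars false

open Set Filter Topology Complex Metric
open scoped ContDiff

namespace Crest.Agent.R275.WD938

open Crest.Agent.R275.Geo Crest.Agent.R275.NAtl938 Crest.Agent.R275.GC293

noncomputable section

variable {Y : Type} [TopologicalSpace Y] {N : NAtl 2 Y}

/-! ### comparing the atlases -/


theorem ov_at' {n : ℕ} (N : NAtl n Y) {ρ : ℝ} (hρ : N.r ≤ ρ) (hR : ρ ≤ N.R) (i j : N.ι) :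
    (N.at' ρ hρ).ov i j = ball N.z₀ ρ ∩ N.E i '' ((N.E i).source ∩ N.B ρ j) := by
  have ht := N.at'_target hρ hR i
  have hs := N.at'_source hρ j
  ext z
  constructor
  · rintro ⟨h1, h2⟩
    rw [ht] at h1
    rw [hs] at h2
    have h3 := N.symm_mem_B hR (i := i) h1
    exact ⟨h1, _, ⟨h3.1.1, h2⟩, h3.2⟩
  · rintro ⟨h1, x, ⟨hx1, hx2⟩, rfl⟩
    refine ⟨by rw [ht]; exact h1, ?_⟩
    rw [hs]
    change (N.E i).symm (N.E i x) ∈ N.B ρ j
    rw [(N.E i).left_inv hx1]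
    exact hx2

theorem goodA_at' {n : ℕ} {N : NAtl n Y} (G : N.Good) {ρ : ℝ} (hρ : N.r ≤ ρ) (hR : ρ ≤ N.R) :
    GoodA (N.at' ρ hρ) := by
  have aux : ∀ i j : N.ι, Convex ℝ ((N.at' ρ hρ).ov i j) := fun i j => by
    rw [ov_at' N hρ hR]
    exact (convex_ball _ _).inter (G.conv i j ρ hR)
  exact aux

/-! ### the theorem -/

section Main

variable {g : Y ≃ₜ Y} {h : Y → ℝ}

/-- the data: `φ` on the big overlaps, `σ` on the small balls over `D` -/
structure Data (N : NAtl 2 Y) (h : Y → ℝ) (c : N.ι → N.ι → N.ι → ℤ)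
    (φ : N.ι → N.ι → Y → ℂ) (D : Set Y) (σ : N.ι → Y → ℂ) (cs cl : ℂ) : Prop where
  φ_sm : ∀ i j, SmOn N.big (U2 N.big i j) (φ i j)
  φ_coc : ∀ i j k, ∀ x ∈ U3 N.big i j k, φ j k x - φ i k x + φ i j x = c i j k
  φ_far : ∃ T : ℝ, ∀ i j, ∀ x ∈ U2 N.big i j, T < |h x| → φ i j x = 0
  D_open : IsOpen D
  sm : ∀ j, SmOn N.sm ((N.sm.e j).source ∩ D) (σ j)
  ne : ∀ j, ∀ x ∈ (N.sm.e j).source, x ∈ D → σ j x ≠ 0
  tr : ∀ i j, ∀ x ∈ U2 N.sm i j, x ∈ D → σ i x = exp (2 * Real.pi * I * φ i j x) * σ j x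
  cs_ne : cs ≠ 0
  cl_ne : cl ≠ 0
  lims : ∀ ε > 0, ∃ T : ℝ, ∀ j, ∀ x ∈ (N.sm.e j).source, x ∈ D → h x < -T → ‖σ j x - cs‖ < ε
  liml : ∀ ε > 0, ∃ T : ℝ, ∀ j, ∀ x ∈ (N.sm.e j).source, x ∈ D → T < h x → ‖σ j x - cl‖ < ε

variable {c : N.ι → N.ι → N.ι → ℤ} {φ : N.ι → N.ι → Y → ℂ} {D : Set Y} {σ : N.ι → Y → ℂ}
  {cs cl : ℂ}


/-- an index of a small ball containing `x` -/
def ix (N : NAtl 2 Y) (x : Y) : N.ι := (N.cover x).choose




/-- extension of `σ` to the big balls -/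
def ext (N : NAtl 2 Y) (φ : N.ι → N.ι → Y → ℂ) (σ : N.ι → Y → ℂ) (i : N.ι) (x : Y) : ℂ :=
  exp (2 * Real.pi * I * φ i (ix N x) x) * σ (ix N x) x







end Main

end

end Crest.Agent.R275.WD938
namespace Crest.Agent.R275.WD938.Data
end Crest.Agent.R275.WD938.Data
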