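import Crest.Agent.R275.IterHypY_572_Mg
import Crest.Agent.R275.SkelXC_328
import Crest.Agent.R275.IndY_130
import Crest.Agent.R275.YBG_812
import Crest.Agent.R275.CutZ_89
import Crest.Agent.R275.WYe_681
import Crest.Agent.R275.DDat_967
import Crest.Agent.R275.EintY_473
import Crest.Agent.R275.YBaseX_144
import Crest.Agent.R275.CutB_89
import Crest.Agent.R275.MulW_193
import Crest.Agent.R275.GauD_511
import Crest.Agent.R275.CutY_89
import Crest.Agent.R275.QHY_617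
import Crest.Agent.R275.Cls_938
import Crest.Agent.R275.SecEnd_884
import Crest.Agent.R275.Sol_352
import Crest.Agent.R275.Base_144
import Crest.Agent.R275.Brg_96
import Crest.Agent.R275.SerYi_940_Mg
import Crest.Agent.R275.SkelXB_328
import Crest.Agent.R275.KXN_865
import Crest.Agent.R275.NoeFin_890
import Crest.Agent.R275.EulC_130
import Crest.Agent.R275.WD_938
import Crest.Agent.R275.YCneg_630
import Crest.Agent.R275.NA4sw_686
import Crest.Agent.R275.NA4m_783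
import Crest.Agent.R275.IndR_151
import Crest.Agent.R275.IndW_938
import Crest.Agent.R275.ExcF_861
import Crest.Agent.R275.ExcC_685
import Crest.Agent.R275.ScaleF_685
import Crest.Agent.R275.WY4A_193
import Crest.Agent.R275.C1g_509
import Crest.Agent.R275.RetE_666
import Crest.Agent.R275.ExcE_861
import Crest.Agent.R275.GauE_511
import Crest.Agent.R275.UpL_473
import Crest.Agent.R275.CIdx_509

-- ▼ part R275/TopC_144
section

/-!
# R275, helper144: the composition of all the halves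

`shell_of_rest` : the theorem of S0418 from three inputs, each in the literal form of its producer
* `IxAll` (328; = 130 euler + 890 Noether);
* `ExcOK` for every `G`, `F` with `XData G F` (328 / 130);
* `YAn` on `G.yBase` with 160's weighted complexes (352).
-/

set_option autoImplicit false
set_option linter.unusedSectionVars false

open Set Filter Topology Metric
open scoped Manifold ContDiff

namespace Crest.Agent.R275.TopC144

open Crest.AlgGeometry.Surface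
open Geo NAtl938 Core144 ZC352 Base144 FL884 Loc647 Smf798 KR798 ODX473 SkelY144 TInA672
open SkelEnd69 Sol352 Cls938 EB938 SkelX328 Xin473
open Crest.Agent.R275.EReg572 (iterHyp_yan)

noncomputable section

variable {X : Type} [TopologicalSpace X] [T2Space X] [CompactSpace X] [ConnectedSpace X]
    [ChartedSpace C2 X] [IsManifold 𝓘(ℂ, C2) 1 X]

/-- block D on `G.yBase` (352's `YInst`) -/
def YInst (G : XGeo X) (F : Forms G.Pn) : Prop :=
  ∀ d : ℝ, 0 < d → (∀ r, 0 < r → r < d → NonSp (YC.dk G.u) (-r)) →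
    ∃ S : YAn G.yBase.N.sm G.yBase.K G.yBase.h (PP G.yBase.N G.yBase.h) (qL F G.yBase.h) d,
      ∀ L (hL : L ∈ PP G.yBase.N G.yBase.h) (hB : L ∈ YBG812.BG G.yBase),
        (S.F L (S.bgP L hL)).W = FamY160.wY G.yBase L hB

/-- **the Y side and the END half** -/
theorem shell_of_xData {G : XGeo X} {F : Forms G.Pn} (D : XData G F)
    (hLE : letI : MeasurableSpace (YC G.u) := borel (YC G.u); LargeEnd (YC.dk G.u) (YC.ht G.u))
    (hY : YInst G F) : HasGlobalSphericalShell X := by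
  have := D.cov.conn
  let _ : MeasurableSpace (YC G.u) := borel (YC G.u)
  have : BorelSpace (YC G.u) := ⟨rfl⟩
  obtain ⟨d₀, hd₀, hns₀⟩ := exists_gap (G := G)
  obtain ⟨S, hSF⟩ := hY d₀ hd₀ hns₀
  have J := idx_of_yan S G.yBase.K_sub one_pos
  obtain ⟨b, E, s, yo⟩ := exists_yOut G F S.sol (fun b E s H =>
    ⟨H.genus J, H.inter J, H.n8i J, H.n8ii J⟩) D.link D.nonneg
  refine shell_of_yOut G F yo (spec_le hLE) (fun d hd hns => ?_) ?_
  · obtain ⟨S', -⟩ := hY d hd hns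
    exact S'.sol
  · intro O m N h1 h2 h3 h4 _ _
    exact iterHyp_yan yo.tin O yo.pre.hasS (yo.pre.links J)
      (fun L hL => YBG812.mem_BG_of_PG (PP_le hL)) S hSF m N h1 h2 h3 h4

/-- **the theorem**, from the three remaining inputs -/
theorem shell_of_rest (hb₁ : Crest.Topology.RationalHomology.rationalBettiNumber X 1 = 1)
    (hb₂ : Nontrivial (Crest.Topology.RationalHomology.rationalHomology X 2))
    (hκ : PlurigeneraVanish X) (hmin : IsMinimal X) (HI : IxAll)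
    (hE : ∀ (G : XGeo X) (F : Forms G.Pn), XData G F → IndY130.ExcOK G.yBase F)
    (hY : ∀ (G : XGeo X) (F : Forms G.Pn), XData G F →
      (letI : MeasurableSpace (YC G.u) := borel (YC G.u);
        LargeEnd (YC.dk G.u) (YC.ht G.u)) →
      IndY130.ExcOK G.yBase F → YInst G F) : HasGlobalSphericalShell X := by
  obtain ⟨G, F, D, hLE⟩ := exists_top X hb₁ hb₂ hκ hmin HI
  exact shell_of_xData D hLE (hY G F D hLE (hE G F D))

end

end Crest.Agent.R275.TopC144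
end

-- ▼ part R275/ExK_967
section

/-!
# R275, block D, row `ex₀K` of `YAn` (helper967)

* `qhtp_of_EH` : parametrix on `V a b` from exactness at `(a,a)` and `(b,b)` (helper681's
  `fred_of_cuts` with helper89's standard cut-offs);
* `AK.ofBase` : the data `AK` of a `YBase (YC u)` over an atlas of `X`;
* `ex₀_Y`, `ex₀K_Y`, `denseK_Y`, `ddataK_Y` : the rows of `YAn` for `wL`.
-/

set_option autoImplicit false
set_option linter.unusedSectionVars false

open Set Filter Topology Complex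
open scoped ContDiff ComplexConjugate Manifold

namespace Crest.Agent.R275.KEx967

open Geo Tor812 C1d194 C10195 WY681 Fm96 Q74 GG89 WCxY89 LauB681 Lam2130 Lt893 HolL631 ZC352
open Core144 NAtl938 WB658 Sup912 CutY89 CutZ89 Base144 YBG812
open Crest.AlgGeometry.Surface
open XN194 (Cov)

noncomputable section

/-! ### parametrix from exactness at both ends -/

section qhtp

variable {n : ℕ} {M : Type} [TopologicalSpace M] {A : Atl n M} {P : Part A} {B : FBun A}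
  {hgt : M → ℝ} (H : HD P hgt) (hc : ∃ D, ∀ i, (RetC666.nb P i).card ≤ D) (hh : A.Sm hgt)
  (h : BGeo P B) (hdd : ∀ u, nabL B (nabL B u) = 0)

/-- the difference of two standard cut-offs is of finite size -/
theorem le_theta_sub (s t : ℝ) : ∃ c : A.ι → ℝ, {i | c i ≠ 0}.Finite ∧
    LE (PNb.of_card P hc) 0 c ((thC H hc hh h hdd s).p - (thC H hc hh h hdd t).p) := by
  classical
  set K₁ := CutF.ofHD H hh s with hK₁
  set K₂ := CutF.ofHD H hh t with hK₂
  have hT₁ := CutF.ofHD_T H hh s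
  have hT₂ := CutF.ofHD_T H hh t
  have hf : A.Sm fun x => theta hgt s x - theta hgt t x := fun i => (K₁.sm i).sub (K₂.sm i)
  have h1 := LE.fmul (P := P) (Q := PNb.of_card P hc) (B := B) hf (K₁.S ∪ K₂.S) (fun _ => 0) ?_
  · refine ⟨_, ?_, h1.congr ?_⟩
    · refine (K₁.S ∪ K₂.S).finite_toSet.subset fun i hi => ?_
      by_contra h2
      apply hi
      rw [if_neg (fun h3 => h2 (Finset.mem_coe.2 h3)), norm_zero]
    · refine LinearMap.ext fun u => Subtype.ext (funext fun i => funext fun x => ?_)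
      show (theta hgt s x - theta hgt t x) • u.1 i x =
        theta hgt s x • u.1 i x - theta hgt t x • u.1 i x
      rw [sub_smul]
  · intro i hi x hx
    rw [Finset.mem_union, not_or, K₁.mem_S, K₂.mem_S, not_and_or, not_and_or, not_le, not_le,
      not_le, not_le] at hi
    obtain ⟨h1, h2⟩ := hi
    have e1 := K₁.hv hT₁ i (by
      rw [K₁.mem_S, not_and_or, not_le, not_le]; exact h1) x hx
    have e2 := K₂.hv hT₂ i (by
      rw [K₂.mem_S, not_and_or, not_le, not_le]; exact h2) x hx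
    filter_upwards [e1, e2] with y h3 h4
    rw [h3, h4]
    exact sub_self _

include hh in
/-- **parametrix on `V a b`** from exactness at `(a,a)` and `(b,b)` -/
theorem qhtp_of_EH {a b : ℝ} (ha : EH (cx h (Hts.of_HD H hc) hdd) a a)
    (hb : EH (cx h (Hts.of_HD H hc) hdd) b b) :
    ∃ K : (wf h (Hts.of_HD H hc)).V a b →ₗ[ℂ] (wf h (Hts.of_HD H hc)).V a b,
      QHtp ((wf h (Hts.of_HD H hc)).S a b) ((cx h (Hts.of_HD H hc) hdd).R a b) K ∧
        Hg (-1) K := by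
  obtain ⟨c, hc0, hc1⟩ := le_theta_sub H hc hh h hdd 0 4
  refine fred_of_cuts h (Hts.of_HD H hc) a b hdd (thC H hc hh h hdd 4) (thC H hc hh h hdd 2)
    (thC H hc hh h hdd 0) (thC H hc hh h hdd 2) ?_ ?_ hc0 hc1 hb ha
  · intro v
    exact thC_thC' H hc hh h hdd (by norm_num) v
  · intro v
    rw [map_sub, thC_thC H hc hh h hdd (by norm_num) v, sub_self]

end qhtp

/-! ### the rows of `YAn` -/

section Y

variable {X : Type} [TopologicalSpace X] [ChartedSpace C2 X] [IsManifold 𝓘(ℂ, C2) 1 X]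
  {u : C(X, Circ)} {A' : Atl 2 X}

/-- the data `AK` of a base on `YC u` -/
def AK.ofBase (B : YBase (YC u)) (hdk : ∀ y, B.g y = YC.dk u y) (C : Cov B.N.sm A')
    (hp : ∀ y, C.p y = YC.pr u y) (hr : ∀ i, C.r (B.Q.s i) = C.r i) : AK u B.N.sm A' :=
  akPer B.Q hdk le_rfl C hp hr

theorem AK.ofBase_inv (B : YBase (YC u)) (hdk : ∀ y, B.g y = YC.dk u y) (C : Cov B.N.sm A')
    (hp : ∀ y, C.p y = YC.pr u y) (hr : ∀ i, C.r (B.Q.s i) = C.r i) :
    (AK.ofBase B hdk C hp hr).Inv (hts B) :=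
  akPer_inv B.Q hdk C hp hr B.Pt zero_le_one (psi_le B) (card_nb B)

variable (B : YBase (YC u)) (hdk : ∀ y, B.g y = YC.dk u y) (C : Cov B.N.sm A')
    (hp : ∀ y, C.p y = YC.pr u y) (hr : ∀ i, C.r (B.Q.s i) = C.r i)

include hdk hp hr in
/-- `H⁰_{a,b}(Y, G) = 0` for all `a b`, for every line bundle `G` on `X` with
`H⁰(X, G ⊗ L_t) = 0` for all `t ≠ 0` -/
theorem ex₀_YB (hA : HolA A') {G : A'.ι → A'.ι → X → ℂ} (hG : IsLC A' G) {Z : ZD A'}
    (hZ : Z.Lift u) (hX : ∀ t : ℂ, t ≠ 0 → ∀ w, IsH0 A' (ltc Z t * G) w → w = 0)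
    {g : B.N.sm.ι → B.N.sm.ι → YC u → ℂ} (hg : IsLC B.N.sm g)
    (hgG : ∀ i j, ∀ y ∈ (B.N.sm.e i).source ∩ (B.N.sm.e j).source,
      g i j y = G (C.r i) (C.r j) (C.p y))
    (hB : BGeo B.P (tw (lam2 B.N.sm) (LV hg))) {NS : Set ℝ} (hNS : Dense NS)
    (hE : ∀ r ∈ NS, EH (cx hB (hts B) (dd_LV hg)) r r) (s a b : ℝ) :
    (wL hB (hd B) (card_nb B) B.smooth_sm s).Ex₀ a b :=
  AK.ex₀ (K := AK.ofBase B hdk C hp hr) (AK.ofBase_inv B hdk C hp hr) hA hG hgG hZ hX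
    (dolF hB (hts B) (dd_LV hg)) (thC (hd B) (card_nb B) B.smooth_sm hB (dd_LV hg) s) hNS
    (fun _ ha _ hb => qhtp_of_EH (hd B) (card_nb B) B.smooth_sm hB (dd_LV hg) (hE _ ha) (hE _ hb))
    a b

include hdk hp hr in
/-- **row `ex₀K`** -/
theorem ex₀K_Y (hA : HolA A') {Z : ZD A'} (hZ : Z.Lift u)
    (nosec : ∀ (t : ℂ) (ht : t ≠ 0) (v : A'.ι → X → ℂ),
      IsHS (KB A' * XinM473.Lt Z ht) univ v → v = 0)
    (hB : BGeo B.P (KerV631.BL (KB B.N.sm))) {NS : Set ℝ} (hNS : Dense NS)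
    (hE : ∀ r ∈ NS, EH (cxY B (KB B.N.sm) hB) r r) (s a b : ℝ) :
    (wL (hg := KerV631.isLC (KB B.N.sm)) hB (hd B) (card_nb B) B.smooth_sm s).Ex₀ a b :=
  ex₀_YB B hdk C hp hr hA (KerV631.isLC (KB A')) hZ (hX_of_nosec nosec)
    (KerV631.isLC (KB B.N.sm)) (pb_KB (AK.ofBase B hdk C hp hr)) hB hNS hE s a b


end Y

end

end Crest.Agent.R275.KEx967
end

-- ▼ part R275/ExG_967
section

/-!
# R275, block D (helper967): rows of `YAn` for `XGeo X`

* `smL G`, `Zx G`, `covG G`, `AKG G` : the smooth lifts of `u`, the class `Z`, `Cov` over `YC.pr u`,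
  the data `AK` of helper967;
* `eh_one`, `eh_KB` : exactness at one nonspectral rate;
* `ex₀K_G`, `denseK_G`, `ex₀_G` : the rows `ex₀K`, `denseK` of `YAn`.
-/

set_option autoImplicit false
set_option linter.unusedSectionVars false

open Set Filter Topology Complex
open scoped ContDiff ComplexConjugate Manifold

namespace Crest.Agent.R275.KEx967

open Geo Tor812 C1d194 C10195 WY681 Fm96 Q74 GG89 WCxY89 LauB681 Lam2130 Lt893 HolL631 ZC352
open Core144 NAtl938 WB658 Sup912 CutY89 CutZ89 Base144 YBG812 CutB89 Smf798 KR798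
open Xin473 XinM473 NLift374 PartN194 EintY473
open Crest.AlgGeometry.Surface
open XN194 (Cov KCov nlift KCov.cov KCov.lift)
open KerV631 (BL)

noncomputable section

/-- the covering of nested atlases -/
def covN {n : ℕ} {M Z K : Type} [TopologicalSpace M] [TopologicalSpace Z] [AddCommGroup K]
    (N : NAtl n M) (C : KCov N.big Z K) {ρ : ℝ} (hρ : N.r ≤ ρ) :
    Cov ((nlift N C).at' ρ hρ) (N.at' ρ hρ) where
  p := C.p
  r q := q.1
  cont := C.cont
  target q := by rw [← rest_e N C hρ q]; exact (rest N C hρ).cov.target q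
  src q := by rw [← rest_e N C hρ q]; exact (rest N C hρ).cov.src q
  comp q := by rw [← rest_e N C hρ q]; exact (rest N C hρ).cov.comp q
  lift x i' h := by
    obtain ⟨q, h1, h2⟩ := (rest N C hρ).cov.lift x i' h
    exact ⟨q, h1, by rw [← rest_e N C hρ q]; exact h2⟩
  uniq q q' := by
    rw [← rest_e N C hρ q, ← rest_e N C hρ q']
    exact (rest N C hρ).cov.uniq q q'

variable {X : Type} [TopologicalSpace X] [ChartedSpace C2 X] [IsManifold 𝓘(ℂ, C2) 1 X]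
  [CompactSpace X] (G : XGeo X)

/-- the lifts are smooth on the big balls of `G.N` -/
theorem smL (i : G.N.ι) : G.N.big.SmAt i (G.L.f i) := by
  have h0 : (G.N.big.e i).target ⊆ (G.N₀.big.e i).target := by
    have e1 : (G.N.big.e i).target = Metric.ball G.N₀.z₀ (9 * G.N₀.r) := G.N.big_target i
    rw [e1]
    exact (Metric.ball_subset_ball G.h2).trans (G.N₀.big_target i).symm.subset
  exact ContDiffOn.mono (G.sm i) h0

/-- the smooth lifts of `u` on the small balls -/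
def Zx : ZD G.N.sm := zdL G.L (smL G) le_rfl


/-- the covering over `X` -/
def covG : Cov G.yBase.N.sm G.N.sm := covN G.N G.C le_rfl

theorem covG_p (y : YC G.u) : (covG G).p y = YC.pr G.u y := rfl

theorem covG_r (i : G.yBase.N.ι) : (covG G).r (G.yBase.Q.s i) = (covG G).r i := rfl




/-! ### exactness at one rate -/

section exact

variable {Px : Part G.N.sm} {I : KIndex (smf G.N.sm)} (X' : XinData Px I (Zx G) G.u)

include X' in
/-- `O` at the nonspectral rate `r` -/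
theorem eh_one (h : BGeo G.yBase.P (BL (1 : LB G.yBase.N.sm))) {a b : ℝ} (hab : a ≤ b)
    (hr : ∀ r ∈ Set.Icc a b, NonSp (YC.dk G.u) (-r)) :
    EInt (cxY G.yBase (1 : LB G.yBase.N.sm) h) a b :=
  eint_one X' (P := G.P) (P' := G.yBase.P) rfl h (ht_ok G.L)
    (cutY G.yBase _ h) hab hr

include X' in
/-- `K` at the nonspectral rate `r` -/
theorem eh_KB (h : BGeo G.yBase.P (BL (KB G.yBase.N.sm))) {a b : ℝ} (hab : a ≤ b)
    (hr : ∀ r ∈ Set.Icc a b, NonSp (YC.dk G.u) r) :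
    EInt (cxY G.yBase (KB G.yBase.N.sm) h) a b :=
  eint_KB X' (P := G.P) (P' := G.yBase.P) rfl h (ht_ok G.L)
    (cutY G.yBase _ h) hab hr

/-- the nonspectral rates of `O` and `K` -/
def NSK : Set ℝ := {r | NonSp (YC.dk G.u) r ∧ NonSp (YC.dk G.u) (-r)}

theorem dense_NSK [ConnectedSpace (YC G.u)] : Dense (NSK G) := by
  rw [dense_iff_exists_between]
  intro a b hab
  obtain ⟨r, h1, h2, -, h3, h4⟩ := exists_nonSp (YC.deck G.u) hab (countable_empty (α := ℝ))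
  exact ⟨r, ⟨h3, h4⟩, h1, h2⟩

include X' in
theorem eh_KB_of_mem (h : BGeo G.yBase.P (BL (KB G.yBase.N.sm))) {r : ℝ} (hr : r ∈ NSK G) :
    EH (cxY G.yBase (KB G.yBase.N.sm) h) r r := by
  refine eh_KB G X' h le_rfl (fun s hs => ?_) r ⟨le_rfl, le_rfl⟩ r ⟨le_rfl, le_rfl⟩
  rw [← le_antisymm hs.1 hs.2]
  exact hr.1


include X' in
/-- row `ex₀K` of `YAn` for the cut-off at any height (`FamY160.wY` : `s = 0`) -/
theorem ex₀K_L [ConnectedSpace (YC G.u)] (h : BGeo G.yBase.P (BL (KB G.yBase.N.sm)))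
    (s a b : ℝ) : (wL (hg := KerV631.isLC (KB G.yBase.N.sm)) h (hd G.yBase) (card_nb G.yBase)
      G.yBase.smooth_sm s).Ex₀ a b :=
  ex₀K_Y G.yBase (fun _ => rfl) (covG G) (covG_p G) (covG_r G) X'.hA X'.lift X'.nosec h
    (dense_NSK G) (fun _ hr => eh_KB_of_mem G X' h hr) s a b



end exact

end

end Crest.Agent.R275.KEx967
end

-- ▼ part R275/FrE_681
section

/-!
# R275, block D (helper681): transport of QHtp between line bundles

`fred_hom` : bundle maps `X : E → E'`, `X' : E' → E` (861's `VHom`) bounded, with decaying covariant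
derivatives and `1 - X' X` decaying: QHtp for `tw B E'` at `(a,b)` gives QHtp for `tw B E` at `(a,b)`.
`fred_mul` : the same for raw cocycles `f`, `k` over `Atl 2 M` and sections `s` of `k / f`, `s'` of
`f / k`.
`FrF_681` : for a bundle with finite class these sections exist.
-/

set_option autoImplicit false
set_option linter.unusedSectionVars false
set_option linter.unusedVariables false

open Set Filter Topology Complex
open scoped ContDiff Matrix ComplexConjugate Kronecker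

namespace Crest.Agent.R275.FrE681

open Geo Tor812 FHom556 JB658 WY681 Fred685 WY4193 ExcE861 Exc685 MulW193 LauB681 Core144

noncomputable section

/-! ### bundle maps of degree `0` commute with the degree projections -/

section deg

variable {n : ℕ} {M : Type} [TopologicalSpace M] {A : Atl n M} {B B' : FBun A}

theorem actL_pqL (H : FHom 0 B B') (q : ℕ) (u : Sec B) :
    H.actL (pqL B q u) = pqL B' q (H.actL u) := by
  apply Subtype.ext
  funext i x
  funext k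
  have h1 : (H.actL (pqL B q u)).1 i x k = ∑ l, H.h i x k l * pq B q u.1 i x l := rfl
  have h2 : (pqL B' q (H.actL u)).1 i x k = pq B' q (H.act u.1) i x k := rfl
  rw [h1, h2, pq_apply]
  have h3 : ∀ l, H.h i x k l * pq B q u.1 i x l =
      if B'.deg k = q then H.h i x k l * u.1 i x l else 0 := by
    intro l
    rw [pq_apply]
    by_cases hz : H.h i x k l = 0
    · rw [hz]; simp
    · have h4 := H.degr i x k l hz
      rw [add_zero] at h4
      rw [h4]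
      split_ifs
      · rfl
      · rw [mul_zero]
  rw [Finset.sum_congr rfl fun l _ => h3 l]
  split_ifs
  · rfl
  · simp

theorem actL_piZ (H : FHom 0 B B') (q : ℤ) (u : Sec B) :
    H.actL (piZ B q u) = piZ B' q (H.actL u) := by
  rcases lt_or_ge q 0 with hq | hq
  · rw [piZ_neg hq, piZ_neg hq]
    exact map_zero _
  · obtain ⟨k, rfl⟩ := Int.eq_ofNat_of_zero_le hq
    rw [piZ_natCast, piZ_natCast]
    exact actL_pqL H k u

end deg

/-! ### general bundles -/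

section general

variable {n : ℕ} {M : Type} [TopologicalSpace M] {A : Atl n M} {P : Part A} {Q : PNb P}
  {B : FBun A} {E E' : VBun A} {c : A.ι → ℝ}

theorem le_comm_tw (X : VHom E E') (hc : ∀ i, 0 ≤ c i)
    (h : ∀ a k l, FB P c fun i x => X.dv i a x k l) (hB : ∀ k, B.deg k ≤ n) :
    WY681.LE Q 1 c (nabL (tw B E') ∘ₗ (X.tw B).actL - (X.tw B).actL ∘ₗ nabL (tw B E)) := by
  refine (le_dh Q X hc h hB).congr (LinearMap.ext fun u => ?_)
  exact (sub_eq_of_eq_add' (nabL_tw (B := B) X u)).symm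

theorem tw_comp (X : VHom E E') (X' : VHom E' E) (u : Sec (tw B E)) (i : A.ι) (x : M) :
    ((X'.tw B).actL ((X.tw B).actL u)).1 i x =
      ((1 : Matrix B.κ B.κ ℂ) ⊗ₖ (X'.m i x * X.m i x)) *ᵥ (u.1 i x : B.κ × E.ρ → ℂ) := by
  have key : ∀ v : B.κ × E.ρ → ℂ, ((1 : Matrix B.κ B.κ ℂ) ⊗ₖ X'.m i x) *ᵥ
      (((1 : Matrix B.κ B.κ ℂ) ⊗ₖ X.m i x) *ᵥ v) =
      ((1 : Matrix B.κ B.κ ℂ) ⊗ₖ (X'.m i x * X.m i x)) *ᵥ v := by
    intro v
    rw [Matrix.mulVec_mulVec, ← Matrix.mul_kronecker_mul, Matrix.one_mul]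
  exact key (u.1 i x)

theorem le_one_sub_tw (X : VHom E E') (X' : VHom E' E) (hc : ∀ i, 0 ≤ c i)
    (h : ∀ k l, FB P c fun i x => ((1 : Matrix E.ρ E.ρ ℂ) - X'.m i x * X.m i x) k l) :
    WY681.LE Q 0 c (LinearMap.id - (X'.tw B).actL ∘ₗ (X.tw B).actL) := by
  have hsm : ∀ i k l, A.SmAt i (fun x => ((1 : Matrix E.ρ E.ρ ℂ) - X'.m i x * X.m i x) k l) := by
    intro i k l
    have h1 : A.SmAt i (fun x => (1 : Matrix E.ρ E.ρ ℂ) k l - ∑ m, X'.m i x k m * X.m i x m l) := by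
      refine ContDiffOn.sub contDiffOn_const ?_
      exact ContDiffOn.sum fun m _ => (X'.smooth i k m).mul (X.smooth i m l)
    exact h1
  have key : MB P (fun i x => (1 : Matrix B.κ B.κ ℂ) ⊗ₖ
      ((1 : Matrix E.ρ E.ρ ℂ) - X'.m i x * X.m i x)) c := by
    refine MB.of_fb (κ₁ := B.κ × E.ρ) (κ₂ := B.κ × E.ρ) ?_ hc ?_
    · rintro i ⟨k, r⟩ ⟨l, t⟩
      exact contDiffOn_const.mul (hsm i r t)
    · rintro ⟨k, r⟩ ⟨l, t⟩
      exact FB.const_mul ((1 : Matrix B.κ B.κ ℂ) k l) (h r t)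
  refine CutY89.LE.of_MB (B := tw B E) (B' := tw B E) key hc ?_ fun u i x hx => ?_
  · rintro i x ⟨k, r⟩ ⟨l, t⟩ h
    have h1 : (1 : Matrix B.κ B.κ ℂ) k l ≠ 0 := left_ne_zero_of_mul h
    have hkl : k = l := by
      by_contra hne
      exact h1 (Matrix.one_apply_ne hne)
    subst hkl
    rw [add_zero]
    exact _root_.le_rfl
  · have h1 := tw_comp (B := B) X X' u i x
    have h2 : ((LinearMap.id - (X'.tw B).actL ∘ₗ (X.tw B).actL :
        Sec (tw B E) →ₗ[ℂ] Sec (tw B E)) u).1 i x =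
        u.1 i x - ((X'.tw B).actL ((X.tw B).actL u)).1 i x := rfl
    rw [h2, h1]
    have h3 : (1 : Matrix B.κ B.κ ℂ) ⊗ₖ ((1 : Matrix E.ρ E.ρ ℂ) - X'.m i x * X.m i x) =
        (1 : Matrix (B.κ × E.ρ) (B.κ × E.ρ) ℂ) -
          (1 : Matrix B.κ B.κ ℂ) ⊗ₖ (X'.m i x * X.m i x) := by
      rw [← Matrix.one_kronecker_one]
      ext ⟨k, r⟩ ⟨l, t⟩
      simp only [Matrix.kroneckerMap_apply, Matrix.sub_apply]
      ring
    have h4 : ∀ v : B.κ × E.ρ → ℂ,
        ((1 : Matrix B.κ B.κ ℂ) ⊗ₖ ((1 : Matrix E.ρ E.ρ ℂ) - X'.m i x * X.m i x)) *ᵥ v =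
        v - ((1 : Matrix B.κ B.κ ℂ) ⊗ₖ (X'.m i x * X.m i x)) *ᵥ v := by
      intro v
      rw [h3, Matrix.sub_mulVec, Matrix.one_mulVec]
    exact (h4 (u.1 i x)).symm

/-- **transport of QHtp** from `E'` to `E` -/
theorem fred_hom (H : Hts Q) (a b : ℝ) (X : VHom E E') (X' : VHom E' E)
    (bX : ∀ k l, FB P (fun _ => 1) fun i x => X.m i x k l)
    (bX' : ∀ k l, FB P (fun _ => 1) fun i x => X'.m i x k l) (hc : Dcy c)
    (dX : ∀ a k l, FB P c fun i x => X.dv i a x k l)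
    (dX' : ∀ a k l, FB P c fun i x => X'.dv i a x k l)
    (dd : ∀ k l, FB P c fun i x => ((1 : Matrix E.ρ E.ρ ℂ) - X'.m i x * X.m i x) k l)
    (hB : ∀ k, B.deg k ≤ n) (h : BGeo P (tw B E)) (h' : BGeo P (tw B E'))
    (hdd : ∀ u, nabL (tw B E) (nabL (tw B E) u) = 0)
    (hdd' : ∀ u, nabL (tw B E') (nabL (tw B E') u) = 0)
    (hK' : ∃ K' : (wf h' H).V a b →ₗ[ℂ] (wf h' H).V a b,
      QHtp ((wf h' H).S a b) ((cx h' H hdd').R a b) K' ∧ Hg (-1) K') :
    ∃ K : (wf h H).V a b →ₗ[ℂ] (wf h H).V a b,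
      QHtp ((wf h H).S a b) ((cx h H hdd).R a b) K ∧ Hg (-1) K :=
  fred_of_compare h H a b h' hdd hdd' (T := (X.tw B).actL) (T' := (X'.tw B).actL)
    (le_tw Q X (fun _ => zero_le_one) bX hB) (le_tw Q X' (fun _ => zero_le_one) bX' hB) hc
    (le_comm_tw X hc.nonneg dX hB) (le_comm_tw X' hc.nonneg dX' hB)
    (le_one_sub_tw X X' hc.nonneg dd)
    (fun q u => actL_piZ _ q u) (fun q u => actL_piZ _ q u) hK'

end general

/-! ### raw cocycles -/

section raw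

open Fm96 Q74 Lam2130

variable {M : Type} [TopologicalSpace M] {A : Atl 2 M} {P : Part A} {Q : PNb P}
  {f k q q' : A.ι → A.ι → M → ℂ}

theorem dv_mulV (hf : IsLC A f) (hk : IsLC A k)
    (hq : ∀ i j, ∀ x ∈ (A.e i).source ∩ (A.e j).source, q i j x * f i j x = k i j x)
    {s : A.ι → M → ℂ} (hs : IsZ0 A q univ s) (i : A.ι) (a : Fin 2) (x : M)
    (r : (LV hk).ρ) (t : (LV hf).ρ) :
    (mulV hf hk hq hs).dv i a x r t = A.db i a (s i) x := by
  have h1 : ∀ X Y : Matrix Unit Unit ℂ, X + (0 : Matrix Unit Unit ℂ) * Y -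
      Y * (0 : Matrix Unit Unit ℂ) = X := by
    intro X Y
    rw [Matrix.zero_mul, Matrix.mul_zero, add_zero, sub_zero]
  exact congrFun (congrFun (h1 (FHom.dbM i a ((mulV hf hk hq hs).m i) x)
    ((mulV hf hk hq hs).m i x)) r) t

theorem deg_lam2 : ∀ k, (lam2 A).deg k ≤ 2 := by
  intro k
  show dg k ≤ 2
  fin_cases k <;> simp [dg]

/-- **transport of QHtp** from the cocycle `k` to the cocycle `f` -/
theorem fred_mul (hf : IsLC A f) (hk : IsLC A k)
    (hq : ∀ i j, ∀ x ∈ (A.e i).source ∩ (A.e j).source, q i j x * f i j x = k i j x)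
    (hq' : ∀ i j, ∀ x ∈ (A.e i).source ∩ (A.e j).source, q' i j x * k i j x = f i j x)
    (H : Hts Q) (a b : ℝ) {s s' : A.ι → M → ℂ} (hs : IsZ0 A q univ s)
    (hs' : IsZ0 A q' univ s') (bs : FB P (fun _ => 1) s) (bs' : FB P (fun _ => 1) s')
    {c : A.ι → ℝ} (hc : Dcy c) (ds : ∀ a, FB P c fun i x => A.db i a (s i) x)
    (ds' : ∀ a, FB P c fun i x => A.db i a (s' i) x) (dd : FB P c fun i x => 1 - s' i x * s i x)
    (h : BGeo P (tw (lam2 A) (LV hf))) (h' : BGeo P (tw (lam2 A) (LV hk)))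
    (hdd : ∀ u, nabL (tw (lam2 A) (LV hf)) (nabL (tw (lam2 A) (LV hf)) u) = 0)
    (hdd' : ∀ u, nabL (tw (lam2 A) (LV hk)) (nabL (tw (lam2 A) (LV hk)) u) = 0)
    (hK' : ∃ K' : (wf h' H).V a b →ₗ[ℂ] (wf h' H).V a b,
      QHtp ((wf h' H).S a b) ((cx h' H hdd').R a b) K' ∧ Hg (-1) K') :
    ∃ K : (wf h H).V a b →ₗ[ℂ] (wf h H).V a b,
      QHtp ((wf h H).S a b) ((cx h H hdd).R a b) K ∧ Hg (-1) K := by
  refine fred_hom (B := lam2 A) H a b (mulV hf hk hq hs) (mulV hk hf hq' hs')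
    (fun _ _ => bs) (fun _ _ => bs') hc
    (fun a r t => (ds a).congr fun i x _ => dv_mulV hf hk hq hs i a x r t)
    (fun a r t => (ds' a).congr fun i x _ => dv_mulV hk hf hq' hs' i a x r t)
    (fun r t => dd.congr fun i x _ => ?_) deg_lam2 h h' hdd hdd' hK'
  have h1 : ((1 : Matrix Unit Unit ℂ) - (Matrix.of (fun (_ : Unit) (_ : Unit) => s' i x) *
      Matrix.of (fun (_ : Unit) (_ : Unit) => s i x) : Matrix Unit Unit ℂ)) () () =
      1 - s' i x * s i x := by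
    rw [unit_mul]
    rfl
  exact h1

end raw

end

end Crest.Agent.R275.FrE681
end

-- ▼ part R275/QHYb_617
section

/-!
# R275, block D (helper617): the root of the Fredholm property on `YBase`

`cutY`   : the cut-off `θ_s ∘ h` on `cxY B L hL`.
`qhtp_Y` : QHtp and `Hg (-1)` at `(a, b)` from exact homotopies at `(a, a)` and `(b, b)`.
-/

set_option autoImplicit false
set_option linter.unusedSectionVars false

open Set Filter Topology Complex
open scoped ContDiff Matrix ComplexConjugate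

namespace Crest.Agent.R275.QHY617

open Geo Tor812 C1d194 Fred685 LauB681 WY681 Core144 CutY89 Sup912 Base144 YBG812 KerV631
open Crest.AlgGeometry.Surface

noncomputable section

variable {Y : Type} [TopologicalSpace Y] [ChartedSpace C2 Y] (B : YBase Y)
  (L : LB B.N.sm) (hL : BGeo B.P (BL L))





/-- **root of the Fredholm property**, on the cover -/
theorem qhtp_Y {a b : ℝ} (ha : EH (cxY B L hL) a a) (hb : EH (cxY B L hL) b b) :
    ∃ K : (wfY B L hL).V a b →ₗ[ℂ] (wfY B L hL).V a b,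
      QHtp ((wfY B L hL).S a b) ((cxY B L hL).R a b) K ∧ Hg (-1) K :=
  qhtp_root (hd B) B.smooth_sm (card_nb B) hL (nabL_nabL B L) ha hb


end

end Crest.Agent.R275.QHY617
end

-- ▼ part R275/FrF_681
section

/-!
# R275, block D (helper681): transport of QHtp, the bundles with a finite class

`kap J = ∑_{j ∈ J} ψ_j`; for a line bundle `G` with logarithms `θ` of finite class `c` the families
`(1 - κ) exp (± 2πi F)` are sections of `G⁻¹`, `G` (`exists_trans`).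
`fred_L` : on `B : YBase Y`, `L ∈ PP`: QHtp for `k` at `(a,b)` gives QHtp for `k * L`.
-/

set_option autoImplicit false
set_option linter.unusedSectionVars false
set_option linter.unusedVariables false

open Set Filter Topology Complex Metric
open scoped ContDiff Matrix ComplexConjugate

namespace Crest.Agent.R275.FrE681

open Geo Fm96 NAtl938 EcV938 Gau511 WB658 JB658 WY681 WY4193 Core144

noncomputable section

section trans

variable {Y : Type} [TopologicalSpace Y] {N : NAtl 2 Y} {g : Y ≃ₜ Y} {h : Y → ℝ}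
variable {Pr : N.Per g h} (Qp : EPart N Pr) {G θ : N.ι → N.ι → Y → ℂ} {c : N.ι → N.ι → N.ι → ℤ}

/-- `∑_{j ∈ J} ψ_j` -/
def kap (J : Finset N.ι) (x : Y) : ℂ := ∑ j ∈ J, (Qp.ψ j x : ℂ)

theorem smP_kap (J : Finset N.ι) {i : N.ι} {x : Y} (hx : x ∈ (N.sm.e i).source) :
    SmP N.sm i (kap Qp J) x := by
  refine SmP.sum fun j _ => ?_
  filter_upwards [(N.sm.e i).open_target.mem_nhds ((N.sm.e i).map_source hx)] with z hz
  have h1 : ContDiffAt ℝ ∞ (fun z => Qp.ψ j ((N.sm.e i).symm z)) z :=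
    (Qp.ψ_sm j i).contDiffAt ((N.sm.e i).open_target.mem_nhds hz)
  exact (Complex.ofRealCLM.contDiff.contDiffAt).comp z h1

theorem kap_one {J : Finset N.ι} {l : N.ι} (hJ : nb Pr l ⊆ J) {x : Y}
    (hx : x ∈ (N.sm.e l).source) : kap Qp J x = 1 := by
  have hx' : x ∈ (N.E l).source := by
    rw [N.at'_source] at hx; exact hx.1
  have h4 : ∀ j : N.sm.ι, Qp.ψ j x ≠ 0 → j ∈ (J : Finset N.sm.ι) := by
    intro j hj
    exact hJ ((mem_nb Pr).2 ⟨x, hx', (Qp.core_sub _ (Qp.tsupport_psi_sub _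
      (subset_tsupport _ hj))).1⟩)
  have h5 := GC293.glue_eq_sum (A := N.sm) Qp.toPart (F := fun _ _ => (1 : ℂ)) (x := x) (S := J) h4
  have h6 : GC293.glue (A := N.sm) Qp.toPart (fun _ _ => (1 : ℂ)) x = 1 :=
    GC293.glue_const Qp.toPart fun _ _ => rfl
  rw [h6] at h5
  unfold kap
  rw [h5]
  exact Finset.sum_congr rfl fun j _ => by simp

open Classical in
theorem kap_zero {J : Finset N.ι} {i : N.ι} (hi : i ∉ J.biUnion (nb Pr)) {y : Y}
    (hy : y ∈ (N.E i).source) : kap Qp J y = 0 := by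
  refine Finset.sum_eq_zero fun j hj => ?_
  have h1 : Qp.ψ j y = 0 := by
    by_contra hne
    refine hi (Finset.mem_biUnion.2 ⟨j, hj, (mem_nb Pr).2 ⟨y, ?_, hy⟩⟩)
    exact (Qp.core_sub _ (Qp.tsupport_psi_sub _ (subset_tsupport _ hne))).1
  rw [h1, Complex.ofReal_zero]

variable [T2Space Y]

theorem O_sub (i : N.ι) : N.B Qp.ρ i ⊆ (N.big.e i).source := fun x hx => by
  rw [N.big_source]; exact hx.1

theorem wb_kap (J : Finset N.ι) (ρ : ℝ) :
    WB N.big (σ := N.ι) (fun i => i) (fun i => N.B Qp.ρ i) (we h ρ) (fun _ => kap Qp J) := by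
  classical
  refine Gau511.wb_of_finite Pr Qp.ρ_lt_R (fun i => le_rfl) (J.biUnion (nb Pr))
    (fun i hi x hx => ?_) (fun i x hx => ?_) (slow_exp_abs ρ) (fun t => Real.exp_pos _)
  · filter_upwards [(N.E i).open_source.mem_nhds hx.1] with y hy
    exact kap_zero Qp hi hy
  · have hx' : x ∈ (N.sm.e i).source := by
      rw [N.at'_source]
      exact cB_sub_B Qp.ρ_lt hx
    exact (smP_kap Qp J hx').self

/-- `(1 - κ) E` for `E - 1` decaying -/
theorem wb_cut {E : N.ι → Y → ℂ} {ρ : ℝ} (hρ : 0 ≤ ρ) (J : Finset N.ι)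
    (hE : WB N.big (σ := N.ι) (fun i => i) (fun i => N.B Qp.ρ i) (fun _ => 1) E)
    (hE1 : WB N.big (σ := N.ι) (fun i => i) (fun i => N.B Qp.ρ i) (we h ρ)
      (fun i x => E i x - 1)) :
    WB N.big (σ := N.ι) (fun i => i) (fun i => N.B Qp.ρ i) (we h ρ)
      (fun i x => (1 - kap Qp J x) * E i x - 1) := by
  have h1 := hE1.sub ((wb_kap Qp J ρ).mul_right hE)
  refine h1.congr (O_sub Qp) fun i x _ => Eventually.of_forall fun y => ?_
  show (1 - kap Qp J y) * E i y - 1 = E i y - 1 - kap Qp J y * E i y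
  ring

theorem fb_of_wb {w : Y → ℝ} {cc : N.ι → ℝ} (hw : ∀ i, ∀ x ∈ N.B Qp.ρ i, w x ≤ cc i)
    {f : N.ι → Y → ℂ}
    (hf : WB N.big (σ := N.ι) (fun i => i) (fun i => N.B Qp.ρ i) w f) : FB Qp.toPart cc f := by
  have hsub : ∀ i : N.ι, ∀ x ∈ tsupport (Qp.ψ i), x ∈ N.B Qp.ρ i := fun i x hx =>
    Qp.core_sub i (Qp.tsupport_psi_sub i hx)
  refine FB.of_bd (P := Qp.toPart) (w := w) (L := 1) (fun i x hx => hf.sm (hsub i x hx))
    (fun k => ?_) zero_le_one fun i x hx => ?_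
  · obtain ⟨C, hC, hb⟩ := hf.bd k
    exact ⟨C, hC, fun i x hx => hb i x (hsub i x hx)⟩
  · rw [one_mul]
    exact hw i x (hsub i x hx)

theorem dcy_ce (Pr : N.Per g h) {ρ : ℝ} (hρ : 0 < ρ) : Dcy (A := N.sm) (ce Pr ρ) := by
  classical
  refine ⟨fun i => (ce_pos ρ i).le, ?_, fun ε hε => finite_ce hρ hε⟩
  have hfin := finite_ce (Pr := Pr) hρ one_pos
  refine ⟨1 + ∑ i ∈ hfin.toFinset, ce Pr ρ i, add_nonneg zero_le_one
    (Finset.sum_nonneg fun i _ => (ce_pos ρ i).le), fun i => ?_⟩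
  by_cases hi : 1 < ce Pr ρ i
  · have := Finset.single_le_sum (f := ce Pr ρ) (fun i _ => (ce_pos ρ i).le)
      (hfin.mem_toFinset.2 hi)
    linarith
  · have : 0 ≤ ∑ i ∈ hfin.toFinset, ce Pr ρ i := Finset.sum_nonneg fun i _ => (ce_pos ρ i).le
    push Not at hi
    linarith

open Classical in
/-- `(1 - κ) E`, extended by `0` -/
def cutE (J : Finset N.ι) (E : N.ι → Y → ℂ) (i : N.ι) (x : Y) : ℂ :=
  if x ∈ (N.sm.e i).source then (1 - kap Qp J x) * E i x else 0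

omit [T2Space Y] in
theorem cutE_eq (J : Finset N.ι) (E : N.ι → Y → ℂ) {i : N.ι} {x : Y}
    (hx : x ∈ (N.sm.e i).source) : cutE Qp J E i x = (1 - kap Qp J x) * E i x := if_pos hx

omit [T2Space Y] in
theorem cutE_ev (J : Finset N.ι) (E : N.ι → Y → ℂ) {i : N.ι} {x : Y}
    (hx : x ∈ (N.sm.e i).source) :
    cutE Qp J E i =ᶠ[𝓝 x] fun y => (1 - kap Qp J y) * E i y := by
  filter_upwards [(N.sm.e i).open_source.mem_nhds hx] with y hy
  exact cutE_eq Qp J E hy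

omit [T2Space Y] in
theorem smP_cutE {J : Finset N.ι} {E : N.ι → Y → ℂ} {i : N.ι} {x : Y}
    (hx : x ∈ (N.sm.e i).source) (hE : SmP N.sm i (E i) x) : SmP N.sm i (cutE Qp J E i) x :=
  (((SmP.const 1).sub (smP_kap Qp J hx)).mul hE).congr hx (cutE_ev Qp J E hx)

omit [T2Space Y] in
/-- `cutE` is a section of `q` -/
theorem isZ0_cutE {J : Finset N.ι} {E : N.ι → Y → ℂ} {q : N.ι → N.ι → Y → ℂ}
    (hE : ∀ i, ∀ x ∈ (N.sm.e i).source, SmP N.sm i (E i) x)
    (htr : ∀ i j, ∀ x ∈ (N.sm.e i).source ∩ (N.sm.e j).source, kap Qp J x ≠ 1 →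
      E i x = q i j x * E j x) : IsZ0 N.sm q univ (cutE Qp J E) where
  sm i x hx _ := smP_cutE Qp hx (hE i x hx)
  off i x hx := if_neg hx
  tr i j x hx _ := by
    rw [cutE_eq Qp J E hx.1, cutE_eq Qp J E hx.2]
    by_cases h1 : kap Qp J x = 1
    · rw [h1, sub_self, zero_mul, zero_mul, mul_zero]
    · rw [htr i j x hx h1]
      ring

/-- bounds of `cutE` -/
theorem fb_cutE {E : N.ι → Y → ℂ} {ρ : ℝ} (hρ : 0 < ρ) (J : Finset N.ι)
    (hE : WB N.big (σ := N.ι) (fun i => i) (fun i => N.B Qp.ρ i) (fun _ => 1) E)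
    (hE1 : WB N.big (σ := N.ι) (fun i => i) (fun i => N.B Qp.ρ i) (we h ρ)
      (fun i x => E i x - 1)) :
    FB Qp.toPart (ce Pr ρ) (fun i x => cutE Qp J E i x - 1) := by
  have h1 : FB Qp.toPart (ce Pr ρ) (fun i x => (1 - kap Qp J x) * E i x - 1) :=
    fb_of_wb Qp (fun i x hx => we_le_ce hρ.le i hx.1) (wb_cut Qp hρ.le J hE hE1)
  refine h1.congr fun i x hx => ?_
  rw [cutE_eq Qp J E hx]

/-- the derivative -/
theorem fb_db_cutE {E : N.ι → Y → ℂ} {cc : N.ι → ℝ} {J : Finset N.ι}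
    (hE : ∀ i, ∀ x ∈ (N.sm.e i).source, SmP N.sm i (E i) x)
    (h1 : FB Qp.toPart cc (fun i x => cutE Qp J E i x - 1)) (a : Fin 2) :
    FB Qp.toPart cc (fun i x => N.sm.db i a (cutE Qp J E i) x) := by
  refine (h1.db a).congr fun i x hx => ?_
  have h2 := db_subP (A := N.sm) (i := i) (x := x) a (smP_cutE (J := J) Qp hx (hE i x hx))
    (SmP.const 1)
  rw [db_constP, sub_zero] at h2
  exact h2.symm

/-- **the sections `(1 - κ) exp (± 2πi F)`** -/
theorem exists_trans (hc : c ∈ GC293.Z2 N.sm ℤ) (hf : Fin3 c) (hL : HasCls N.sm h G c) :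
    ∃ (s s' : N.ι → Y → ℂ) (cc : N.ι → ℝ), Dcy (A := N.sm) cc ∧
      IsZ0 N.sm (fun i j x => (G i j x)⁻¹) univ s ∧ IsZ0 N.sm G univ s' ∧
      FB Qp.toPart (fun _ => 1) s ∧ FB Qp.toPart (fun _ => 1) s' ∧
      (∀ a, FB Qp.toPart cc fun i x => N.sm.db i a (s i) x) ∧
      (∀ a, FB Qp.toPart cc fun i x => N.sm.db i a (s' i) x) ∧
      FB Qp.toPart cc fun i x => 1 - s' i x * s i x := by
  classical
  obtain ⟨θ, hθ, C, ρ, hρ, hd⟩ := hL
  set T : Finset N.ι := (hf.image fun p => p.1).toFinset with hT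
  set J : Finset N.ι := T.biUnion (nb Pr) with hJ
  have hcz : ∀ l i j, l ∉ T → c l i j = 0 := by
    intro l i j hl
    by_contra h0
    apply hl
    rw [hT, Set.Finite.mem_toFinset]
    exact ⟨(l, i, j), h0, rfl⟩
  -- the cocycle is trivial where `κ ≠ 1`
  have hphi : ∀ i j x, kap Qp J x ≠ 1 → phi Qp.toPart c i j x = 0 := by
    intro i j x hx
    refine phi_zero fun l hl => ?_
    refine hcz l i j fun hlT => hx ?_
    exact kap_one Qp (fun m hm => Finset.mem_biUnion.2 ⟨l, hlT, hm⟩) hl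
  set E : N.ι → Y → ℂ := fun i x => Complex.exp (2 * Real.pi * I * gF Qp.toPart c θ i x) with hEdef
  set E' : N.ι → Y → ℂ := fun i x => Complex.exp (-(2 * Real.pi * I * gF Qp.toPart c θ i x))
    with hEdef'
  have hsm0 : ∀ i, ∀ x ∈ (N.sm.e i).source,
      SmP N.sm i (fun y => 2 * Real.pi * I * gF Qp.toPart c θ i y) x := fun i x hx =>
    (SmP.const _).mul (smP_gF hθ hx)
  have hsm : ∀ i, ∀ x ∈ (N.sm.e i).source, SmP N.sm i (E i) x := fun i x hx => (hsm0 i x hx).exp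
  have hsm' : ∀ i, ∀ x ∈ (N.sm.e i).source, SmP N.sm i (E' i) x := fun i x hx =>
    (hsm0 i x hx).neg.exp
  have hg0 := (wb_gF Qp hθ hf hd).cmul (2 * Real.pi * I)
  have hw0 : ∀ x, 0 ≤ we h ρ x := fun x => (we_pos h ρ x).le
  have hE : WB N.big (σ := N.ι) (fun i => i) (fun i => N.B Qp.ρ i) (fun _ => 1) E :=
    wb_exp hg0 (O_sub Qp) hw0 (we_le_one h hρ.le)
  have hE1 : WB N.big (σ := N.ι) (fun i => i) (fun i => N.B Qp.ρ i) (we h ρ)
      (fun i x => E i x - 1) := wb_exp_sub_one hg0 (O_sub Qp) hw0 (we_le_one h hρ.le)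
  have hE' : WB N.big (σ := N.ι) (fun i => i) (fun i => N.B Qp.ρ i) (fun _ => 1) E' :=
    wb_exp hg0.neg (O_sub Qp) hw0 (we_le_one h hρ.le)
  have hE1' : WB N.big (σ := N.ι) (fun i => i) (fun i => N.B Qp.ρ i) (we h ρ)
      (fun i x => E' i x - 1) := wb_exp_sub_one hg0.neg (O_sub Qp) hw0 (we_le_one h hρ.le)
  have f1 := fb_cutE Qp hρ J hE hE1
  have f1' := fb_cutE Qp hρ J hE' hE1'
  have hcc := dcy_ce Pr hρ
  have one : ∀ {f : N.ι → Y → ℂ}, FB Qp.toPart (ce Pr ρ) (fun i x => f i x - 1) →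
      FB Qp.toPart (fun _ => 1) f := by
    intro f hf
    obtain ⟨C, hC, hb⟩ := hcc.bdd
    have h1 := hf.mono (c' := fun _ => 1) hC fun i => by rw [mul_one]; exact hb i
    have h2 : FB Qp.toPart (fun _ => 1) (fun (_ : N.sm.ι) (_ : Y) => (1 : ℂ)) :=
      fb_const (fun _ => zero_le_one) zero_le_one fun _ => by simp
    exact (h1.add h2).congr fun i x _ => by ring
  have hG : ∀ i j, ∀ x ∈ (N.sm.e i).source ∩ (N.sm.e j).source, G i j x ≠ 0 := fun i j x hx => by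
    rw [← hθ.exp i j x hx]
    exact Complex.exp_ne_zero _
  have htr : ∀ i j, ∀ x ∈ (N.sm.e i).source ∩ (N.sm.e j).source, kap Qp J x ≠ 1 →
      E i x * G i j x = E j x := by
    intro i j x hx hne
    have h1 := gF_tr (P := Qp.toPart) hθ hc hx
    rw [hphi i j x hne, mul_zero, Complex.exp_zero, one_mul] at h1
    exact h1
  refine ⟨cutE Qp J E, cutE Qp J E', ce Pr ρ, hcc, isZ0_cutE Qp hsm fun i j x hx hne => ?_,
    isZ0_cutE Qp hsm' fun i j x hx hne => ?_, one f1, one f1', fb_db_cutE Qp hsm f1,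
    fb_db_cutE Qp hsm' f1', ?_⟩
  · rw [← htr i j x hx hne]
    have := hG i j x hx
    field_simp
  · have h1 := htr i j x hx hne
    have h2 : ∀ k, E' k x = (E k x)⁻¹ := fun k => Complex.exp_neg _
    have key : ∀ a b r : ℂ, r ≠ 0 → a * r = b → a⁻¹ = r * b⁻¹ := by
      rintro a b r hr rfl
      rw [mul_inv]
      field_simp
    exact (h2 i).trans ((key _ _ _ (hG i j x hx) h1).trans
      (congrArg (fun z => G i j x * z) (h2 j).symm))
  · have h1 := (one f1').mul f1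
    have h2 : FB Qp.toPart (ce Pr ρ) (fun i x => cutE Qp J E' i x * (cutE Qp J E i x - 1)) :=
      h1.mono zero_le_one fun i => by simp
    exact (h2.add f1').neg.congr fun i x _ => by ring

end trans

/-! ### the cover -/

section cover

open Base144 YBG812 KerV631 Lam2130 Tor812 C1d194 Fred685 LauB681 Cls938
open Crest.AlgGeometry.Surface

variable {Y : Type} [TopologicalSpace Y] [ChartedSpace C2 Y] [T2Space Y] {B : YBase Y}

/-- **transport of QHtp** from `k` to `k * L`, `L ∈ PP` -/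
theorem fred_L {k L m : LB B.N.sm} (hL : L ∈ PP B.N B.h) (hm : m = k * L)
    (h1 : BGeo B.P (BL m)) (h2 : BGeo B.P (BL k)) {a b : ℝ}
    (hK' : ∃ K' : (wfY B k h2).V a b →ₗ[ℂ] (wfY B k h2).V a b,
      QHtp ((wfY B k h2).S a b) ((cxY B k h2).R a b) K' ∧ Hg (-1) K') :
    ∃ K : (wfY B m h1).V a b →ₗ[ℂ] (wfY B m h1).V a b,
      QHtp ((wfY B m h1).S a b) ((cxY B m h1).R a b) K ∧ Hg (-1) K := by
  subst hm
  obtain ⟨c, hc, hcls⟩ := hL
  have hc1 : c ∈ GC293.Z2 B.N.sm ℤ := by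
    rintro i j k l ⟨x, ⟨⟨hi, hj⟩, hk⟩, hl⟩
    have hs : ∀ i : B.N.ι, x ∈ (B.N.sm.e i).source → x ∈ (B.N.big.e i).source := by
      intro i hi
      rw [B.N.at'_source] at hi
      rw [B.N.big_source]
      exact hi.1
    exact hc.1 i j k l ⟨x, ⟨⟨hs i hi, hs j hj⟩, hs k hk⟩, hs l hl⟩
  obtain ⟨s, s', cc, hcc, hs, hs', b1, b2, d1, d2, dd⟩ := exists_trans B.Pt hc1 hc.2 hcls
  refine fred_mul (q := fun i j x => (L.g i j x)⁻¹) (q' := L.g) (KerV631.isLC (k * L))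
    (KerV631.isLC k)
    (fun i j x hx => ?_) (fun i j x hx => ?_) (hts B) a b hs hs' b1 b2 hcc d1 d2 dd h1 h2
    (nabL_nabL B (k * L)) (nabL_nabL B k) hK'
  · rw [LB.mul_g]
    have := L.ne_zero i j x
    field_simp
  · rw [LB.mul_g, mul_comm]




/-- **QHtp for `k * L` from exact homotopies for `k` at `(a,a)` and `(b,b)`** -/
theorem fred_of_EH {k L m : LB B.N.sm} (hL : L ∈ PP B.N B.h) (hm : m = k * L)
    (h1 : BGeo B.P (BL m)) (h2 : BGeo B.P (BL k)) {a b : ℝ} (ha : EH (cxY B k h2) a a)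
    (hb : EH (cxY B k h2) b b) :
    ∃ K : (wfY B m h1).V a b →ₗ[ℂ] (wfY B m h1).V a b,
      QHtp ((wfY B m h1).S a b) ((cxY B m h1).R a b) K ∧ Hg (-1) K :=
  fred_L hL hm h1 h2 (QHY617.qhtp_Y B k h2 ha hb)

end cover

end

end Crest.Agent.R275.FrE681
end

-- ▼ part R275/NoY_606
section

/-!
# R275 (S0418), helper606: the fields `no`, `noK` of `Sol352.YAn`

A closed element of all the spaces `W₀ a b'` (superexponential decay at the large end) vanishes, for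
the bundles `L` and `KB * L⁻¹`, `L` of class `P`.
-/

set_option autoImplicit false
set_option linter.unusedSectionVars false

open MeasureTheory Set Filter Topology Metric Crest.AlgGeometry.Surface
open scoped Real Manifold ContDiff

namespace Crest.Agent.R275.NoY606

open Crest.Agent.R275.Geo Crest.Agent.R275.Core144 Crest.Agent.R275.Fm96 Crest.Agent.R275.Q74
  Crest.Agent.R275.GG89 Crest.Agent.R275.Sol352 Crest.Agent.R275.Base144 Crest.Agent.R275.FL884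
  Crest.Agent.R275.NAtl938 Crest.Agent.R275.WB658
open Crest.Agent.R275.HolY631 (Deck)

variable {Y : Type} [TopologicalSpace Y] [ChartedSpace C2 Y] [MeasurableSpace Y] [BorelSpace Y]
  {g : Y ≃ₜ Y} {h : Y → ℝ}

/-- raw form on cores containing an invariant open cover -/
theorem eq_zero_of_BD [IsManifold 𝓘(ℂ, C2) 1 Y] [T2Space Y] (hLE : LargeEnd g h) (D : Deck g h)
    {A : Atl 2 Y} (hA : Adm A) (Q : Equi A g) {K W : A.ι → Set Y}
    (hK : ∀ i, K i ⊆ (A.e i).source) (hWK : ∀ i, W i ⊆ K i) (hW : InvU g W Q.sh)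
    {K' L : LB A} (hK' : pullL Q K' = K') (hL : InP h L) {s : A.ι → Y → ℂ}
    (hs : IsHS (K' * L) univ s) {c : ℝ} (hd : ∀ R : ℝ, BD A K h c (-R) s) : s = 0 := by
  obtain ⟨r, -, C₁, -, -, hb⟩ := hL.bound
  have hWs : ∀ i, W i ⊆ (A.e i).source := fun i => (hWK i).trans (hK i)
  have hUU : ∀ i, HolL631.HolOn (s i) (W i) := fun i =>
    (holOn_iff_holAt hA i (hW.isOpen i) (hWs i) (s i)).2 ((hs.hol i).mono (subset_univ _))
  have hKc : ∀ i j, ContinuousOn (K'.g i j) (W i ∩ W j) := by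
    intro i j
    have h1 : HolAt A i ((A.e i).source ∩ (A.e j).source) (K'.g i j) :=
      (K'.hol i j).mono inter_subset_right
    exact (((holOn_iff_holAt hA i ((A.e i).open_source.inter (A.e j).open_source)
      inter_subset_left (K'.g i j)).2 h1).continuousOn).mono
      (inter_subset_inter (hWs i) (hWs j))
  have hKinv : ∀ i j y, y ∈ W i → y ∈ W j → K'.g (Q.sh i) (Q.sh j) (g y) = K'.g i j y := by
    intro i j y _ _
    rw [← pullL_g, hK']
  obtain ⟨C₀, hC₀0, hC₀⟩ := (hd 0).sup hK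
  have hgr : ∀ i, ∀ y ∈ W i, ‖s i y‖ ≤ Real.exp (max c (-0) * |h y| + Real.log (C₀ + 1)) := by
    intro i y hy
    rw [Real.exp_add, Real.exp_log (by positivity)]
    refine (hC₀ i y (hWK i hy)).trans ?_
    rw [mul_comm]
    gcongr
    · exact wgt_le_exp
    · linarith
  have hz := hLE.sec_eq_zero (U := W) D hW (K := K'.g) (L := L.g) hKc hKinv (M := 1 + C₁)
    (fun i j y _ _ => hb i j y) (s := s) hUU (fun i j y hi hj => by
      rw [hs.tr i j y ⟨hWs i hi, hWs j hj⟩ (mem_univ _), LB.mul_g]) hgr fun R => by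
    obtain ⟨C, -, hC⟩ := (hd R).sup hK
    refine ⟨C, fun i y hy h0 => (hC i y (hWK i hy)).trans (le_of_eq ?_)⟩
    unfold wgt
    rw [max_eq_left h0, max_eq_right (by linarith : -h y ≤ 0)]
    congr 2
    ring
  funext i x
  by_cases hx : x ∈ (A.e i).source
  · obtain ⟨j, hj⟩ := hW.cover x
    rw [hs.tr i j x ⟨hx, hWs j hj⟩ (mem_univ _), hz j x hj, mul_zero]
    rfl
  · exact hs.off i x hx

theorem continuous_of_sm {M : Type} [TopologicalSpace M] {A : Atl 2 M} {f : M → ℝ}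
    (hf : A.Sm f) : Continuous f := by
  rw [continuous_iff_continuousAt]
  intro x
  obtain ⟨i, hi⟩ := A.cover x
  have h1 : ContinuousAt (fun z => f ((A.e i).symm z)) (A.e i x) :=
    ((hf i).continuousOn).continuousAt ((A.e i).open_target.mem_nhds ((A.e i).map_source hi))
  have h2 : ContinuousAt (fun y => (fun z => f ((A.e i).symm z)) (A.e i y)) x :=
    ContinuousAt.comp (f := A.e i) (g := fun z => f ((A.e i).symm z)) h1 ((A.e i).continuousAt hi)
  refine h2.congr ?_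
  filter_upwards [(A.e i).open_source.mem_nhds hi] with y hy
  show f ((A.e i).symm (A.e i y)) = f y
  rw [(A.e i).left_inv hy]

/-- the invariant open cover inside the cores -/
theorem invU_support (B : YBase Y) :
    InvU B.g (fun i => Function.support (B.Pt.ψ i)) B.equi.sh where
  isOpen i := by
    exact (continuous_of_sm (A := B.N.sm) (B.Pt.ψ_sm i)).isOpen_support
  cover x := by
    by_contra hcon
    push Not at hcon
    have h1 : ∀ i, B.Pt.ψ i x = 0 := fun i => by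
      have := hcon i
      rwa [Function.mem_support, not_not] at this
    have h2 : ∑ᶠ i : B.N.sm.ι, B.Pt.ψ i x = 1 := B.Pt.sum_one x
    rw [finsum_congr h1, finsum_zero] at h2
    exact zero_ne_one h2
  mem i y := by
    have h1 := B.Pt.ψ_eq i y
    rw [Function.mem_support, Function.mem_support, B.equi_sh, h1]

theorem isHS_of_D0 {A : Atl 2 Y} {L : LB A} {hg : IsLC A L.g} {s : ZZ0 A L.g}
    (hs : D0 hg s = 0) : IsHS L univ s.1 :=
  (isHS_iff isOpen_univ).2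
    ⟨s.2, fun i x _ => congrFun (congrFun (congrArg Subtype.val hs) i) x⟩

variable [IsManifold 𝓘(ℂ, C2) 1 Y] [T2Space Y] (B : YBase Y)

/-- raw form on the base -/
theorem raw_zero (hLE : LargeEnd B.g B.h) {K' L : LB B.N.sm} (hK' : pullL B.equi K' = K')
    (hL : InP B.h L) {s : B.N.sm.ι → Y → ℂ} (hs : IsHS (K' * L) univ s) {c : ℝ}
    (hd : ∀ R : ℝ, BD B.N.sm B.K B.h c (-R) s) : s = 0 :=
  eq_zero_of_BD hLE B.deck B.admA B.equi B.K_sub
    (fun i => subset_tsupport (B.Pt.ψ i)) (invU_support B) hK' hL hs hd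

/-- **field `no`**, any bundle `K' * L`, `K'` invariant, `L` of class `P` -/
theorem no_gen (hLE : LargeEnd B.g B.h) {K' L : LB B.N.sm} (hK' : pullL B.equi K' = K')
    (hL : InP B.h L) (F : WFam B.N.sm B.K B.h (K' * L)) (a b : ℝ) (s : ZZ0 B.N.sm (K' * L).g)
    (_ : s ∈ F.W.W₀ a b) (h0 : F.W.d₀ s = 0) (hd : ∀ b', s ∈ F.W.W₀ a b') : s = 0 := by
  rw [F.d₀_eq] at h0
  refine Subtype.ext (raw_zero B hLE hK' hL (isHS_of_D0 h0) (c := -a) fun R => F.s10 ?_)
  rw [neg_neg]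
  exact hd (-R)

/-- **field `no`** of `Sol352.YAn` -/
theorem no (hLE : LargeEnd B.g B.h) {L : LB B.N.sm} (hL : InP B.h L)
    (F : WFam B.N.sm B.K B.h L) (a b : ℝ) (s : ZZ0 B.N.sm L.g)
    (_ : s ∈ F.W.W₀ a b) (h0 : F.W.d₀ s = 0) (hd : ∀ b', s ∈ F.W.W₀ a b') : s = 0 := by
  rw [F.d₀_eq] at h0
  have h1 : IsHS ((1 : LB B.N.sm) * L) univ s.1 := by
    rw [one_mul]; exact isHS_of_D0 h0
  refine Subtype.ext (raw_zero B hLE (map_one (pullHom B.equi)) hL h1 (c := -a)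
    fun R => F.s10 ?_)
  rw [neg_neg]
  exact hd (-R)

/-- **field `noK`** of `Sol352.YAn` -/
theorem noK (hLE : LargeEnd B.g B.h) {L : LB B.N.sm} (hL : InP B.h L)
    (F : WFam B.N.sm B.K B.h (KB B.N.sm * L⁻¹)) (a b : ℝ) (s : ZZ0 B.N.sm (KB B.N.sm * L⁻¹).g)
    (hs : s ∈ F.W.W₀ a b) (h0 : F.W.d₀ s = 0) (hd : ∀ b', s ∈ F.W.W₀ a b') : s = 0 :=
  no_gen B hLE (pullL_KB B.equi) ((PG B.N.sm B.h).inv_mem hL) F a b s hs h0 hd

/-- **field `no`** for the subgroup `PP` -/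
theorem no_PP (hLE : LargeEnd B.g B.h) {L : LB B.N.sm} (hL : L ∈ Cls938.PP B.N B.h)
    (F : WFam B.N.sm B.K B.h L) : ∀ a b : ℝ, ∀ s ∈ F.W.W₀ a b, F.W.d₀ s = 0 →
    (∀ b', s ∈ F.W.W₀ a b') → s = 0 :=
  fun a b s hs h0 hd => no B hLE (Cls938.PP_le hL) F a b s hs h0 hd

/-- **field `noK`** for the subgroup `PP` -/
theorem noK_PP (hLE : LargeEnd B.g B.h) {L : LB B.N.sm} (hL : L ∈ Cls938.PP B.N B.h)
    (F : WFam B.N.sm B.K B.h (KB B.N.sm * L⁻¹)) : ∀ a b : ℝ, ∀ s ∈ F.W.W₀ a b,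
    F.W.d₀ s = 0 → (∀ b', s ∈ F.W.W₀ a b') → s = 0 :=
  fun a b s hs h0 hd => noK B hLE (Cls938.PP_le hL) F a b s hs h0 hd

end Crest.Agent.R275.NoY606
end

-- ▼ part R275/YInst_144
section

/-!
# R275, helper144: block D on `G.yBase` (the `YAn` instance)
-/

set_option autoImplicit false
set_option linter.unusedSectionVars false

open Set Filter Topology Metric
open scoped Manifold ContDiff

namespace Crest.Agent.R275.YInst144

open Crest.AlgGeometry.Surface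
open Geo NAtl938 Core144 ZC352 Base144 FL884 Loc647 Smf798 KR798 ODX473 ODY473 TInA672
open Sol352 Cls938 EB938 Xin473 YBG812 FamY160 LauB681 Tor812 WY681 GG89 Q74
open KerV631 (BL)

noncomputable section

variable {X : Type} [TopologicalSpace X] [T2Space X] [CompactSpace X]
    [ChartedSpace C2 X] [IsManifold 𝓘(ℂ, C2) 1 X] (G : XGeo X) [ConnectedSpace (YC G.u)]
    {Px : Part G.N.sm} {I : KIndex (smf G.N.sm)} (X' : XinM473.XinData Px I (zd G) G.u)

theorem hBG : ∀ L ∈ PP G.yBase.N G.yBase.h, L ∈ BG G.yBase := fun _ hL =>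
  mem_BG_of_PG (PP_le hL)

theorem hBD : ∀ L ∈ PP G.yBase.N G.yBase.h, KB G.yBase.N.sm * L⁻¹ ∈ BG G.yBase := fun _ hL =>
  KB_mul_inv_mem_BG (PP_le hL)

include X' in
/-- exact homotopies of the trivial bundle -/
theorem eh_one {r : ℝ} (hr : r ∈ NS G) (h : BGeo G.yBase.P (BL (1 : LB G.yBase.N.sm))) :
    EH (cxY G.yBase (1 : LB G.yBase.N.sm) h) r r := by
  refine KEx967.eh_one G X' h le_rfl (fun s hs => ?_) r ⟨le_rfl, le_rfl⟩ r ⟨le_rfl, le_rfl⟩
  rw [← le_antisymm hs.1 hs.2]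
  exact hr

include X' in
theorem qh {L : LB G.yBase.N.sm} (hL : L ∈ PP G.yBase.N G.yBase.h) {a b : ℝ} (ha : a ∈ NS G)
    (hb : b ∈ NS G) (h1 : BGeo G.yBase.P (BL L)) :
    ∃ K : (wfY G.yBase L h1).V a b →ₗ[ℂ] (wfY G.yBase L h1).V a b,
      QHtp ((wfY G.yBase L h1).S a b) ((cxY G.yBase L h1).R a b) K ∧ Hg (-1) K :=
  FrE681.fred_of_EH (k := 1) hL (one_mul L).symm h1 bgeo_one (eh_one G X' ha _) (eh_one G X' hb _)

/-- row `trK` -/
theorem trK_ex {L : LB G.yBase.N.sm} (hL : L ∈ PP G.yBase.N G.yBase.h) :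
    ∃ (ρ : ℝ) (t : ZZ0 G.yBase.N.sm (KB G.yBase.N.sm * L⁻¹).g →ₗ[ℂ]
      ZZ0 G.yBase.N.sm (KB G.yBase.N.sm).g),
      TrL (famY G.yBase _ (hBD G L hL)).W (famY G.yBase _ KB_mem_BG).W ρ t :=
  Tri474.exists_trK (FD := famY G.yBase _ (hBD G L hL)) (FM := famY G.yBase _ KB_mem_BG) hL
    (hBD G L hL) KB_mem_BG (s := 0) (s₁ := 0) rfl rfl

/-- rows `tr`, `V` -/
theorem tr_ex {L : LB G.yBase.N.sm} (hL : L ∈ PP G.yBase.N G.yBase.h) :
    ∃ T : Tran (famY G.yBase L (hBG G L hL)) (famY G.yBase 1 (hBG G 1 (one_mem _)))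
      (oneZ G.yBase), VCmp (famY G.yBase L (hBG G L hL))
        (famY G.yBase 1 (hBG G 1 (one_mem _))).W (oneZ G.yBase) T.tL := by
  obtain ⟨T, h1, -⟩ := Tri474.exists_tran (F := famY G.yBase L (hBG G L hL))
    (F1 := famY G.yBase 1 (hBG G 1 (one_mem _))) hL
    (hBG G L hL) (hBG G 1 (one_mem _)) (s := 0) (s₁ := 0) rfl rfl
    (one := oneZ G.yBase) (fun i x hx => oneZ_apply G.yBase i hx)
  exact ⟨T, h1⟩

variable [MeasurableSpace (YC G.u)] [BorelSpace (YC G.u)]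

include X' in
/-- row `ser` -/
theorem ser_ex {L : LB G.yBase.N.sm} (hL : L ∈ PP G.yBase.N G.yBase.h)
    (h0 : ∀ a b, (famY G.yBase _ (hBD G L hL)).W.Ex₀ a b) :
      ∀ a ∈ NS G, ∀ b ∈ NS G, (famY G.yBase L (hBG G L hL)).W.Ex₂ a b := fun a ha b hb => by
  obtain ⟨K, hK, -⟩ := qh G X' hL ha hb (bgeo (hBG G L hL))
  exact SerY940.ser_Y (hBG G L hL) (hBD G L hL) ⟨K, hK⟩ h0

include X' in
/-- row `ex₀D` -/
theorem ex₀D (hLE : LargeEnd (YC.dk G.u) (YC.ht G.u)) {L : LB G.yBase.N.sm}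
    (hL : L ∈ PP G.yBase.N G.yBase.h) (a b : ℝ) :
    (famY G.yBase _ (hBD G L hL)).W.Ex₀ a b := by
  obtain ⟨ρ, t, T⟩ := trK_ex G hL
  exact DData.ex₀ (Kc := (famY G.yBase _ KB_mem_BG).W) (t := t) (ρ := ρ)
    ⟨fun a b => KEx967.ex₀K_L G X' _ 0 a b, fun x y hxy => by
      obtain ⟨r, h1, h2, -, h4⟩ := denseK X' 0 x y hxy
      exact ⟨r, h1, h2, h4⟩, T, fun a b s hs => NoY606.noK_PP G.yBase hLE hL _ a b s hs⟩ a b

/-- **block D on `G.yBase`** -/
def yan (hLE : LargeEnd (YC.dk G.u) (YC.ht G.u)) {F : Forms G.Pn}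
    (hX : IndY130.ExcOK G.yBase F) {d : ℝ} (hd : 0 < d)
    (hns : ∀ r, 0 < r → r < d → NonSp (YC.dk G.u) (-r)) :
    YAn G.yBase.N.sm G.yBase.K G.yBase.h (PP G.yBase.N G.yBase.h) (qL F G.yBase.h) d where
  hne T := Fm96.large_of_deck G.yBase.deck T
  hK := G.yBase.K_sub
  BG := BG G.yBase
  bgP := hBG G
  bgK := KB_mem_BG
  bgD := hBD G
  F := famY G.yBase
  NS := NS G
  dense := dense_NS
  ns_neg r hr := hLE.nonSp_neg hr
  ns_pos := hns
  one := oneZ G.yBase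
  hone i x hx := oneZ_apply G.yBase i hx
  od := odataX X' (t := 0) hd (fun r hr => hLE.nonSp_neg hr) hns (fun a b ha ha' hb =>
    ser_ex G X' (one_mem _) (ex₀D G X' hLE (one_mem _)) a (hns a ha ha') b (hLE.nonSp_neg hb))
  ex₀K a b := KEx967.ex₀K_L G X' _ 0 a b
  denseK x y hxy := by
    obtain ⟨r, h1, h2, -, h4⟩ := denseK X' 0 x y hxy
    exact ⟨r, h1, h2, h4⟩
  trK L hL := trK_ex G hL
  noK L hL a b s hs := NoY606.noK_PP G.yBase hLE hL _ a b s hs
  no L hL a b s hs := NoY606.no_PP G.yBase hLE hL _ a b s hs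
  ser L hL h0 := ser_ex G X' hL h0
  tr L hL := (tr_ex G hL).choose
  V L hL := (tr_ex G hL).choose_spec
  ind L hL a ha b hb := IndY130.ind G.nl hX hL (bgeo (hBG G L hL)) bgeo_one
    (qh G X' hL ha hb _) (qh G X' (one_mem _) ha hb _)

include X' in
/-- the hypothesis `hY` of `TopC144.shell_of_rest` -/
theorem yInst (hLE : LargeEnd (YC.dk G.u) (YC.ht G.u)) {F : Forms G.Pn}
    (hX : IndY130.ExcOK G.yBase F) : TopC144.YInst G F := fun _ hd hns =>
  ⟨yan G X' hLE hX hd hns, fun _ _ _ => rfl⟩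

end

end Crest.Agent.R275.YInst144
end

-- ▼ part R275/IxG_615
section

/-!
# R275 (S0418), integration (helper615): `Ix` for the geometric index, `XBase` from `XGeo`

* `gix_euler`  : index = Euler characteristic for helper106's `gix P`, `(gix P).I = geoI P _`;
* `NoeH A`     : the two open inputs of Noether's formula (783's acyclicity, 585's swap rule);
* `ix_geo`     : `Ix P (gix P').I e`, `e` = Euler number of the nerve, for every finite good atlas of a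
                 compact surface;
* `xBase_at`   : `XBase G.u (G.N.at' ρ hρ)` from `XGeo`, `CovData`, `PlurigeneraVanish`;
* `cm_at`, `cm_sm`, `cm_big` : `CMData` on `X`;
* `cm_cyc`     : `CMData` on `X_N` for the lifted atlas.
-/

set_option autoImplicit false
set_option linter.unusedSectionVars false

open Set Filter Topology Complex Crest.AlgGeometry.Surface
open scoped Manifold ContDiff

noncomputable section

namespace Crest.Agent.R275.CM615

open Geo Core144 ChiM825 GC293 Q74 SerG398 Smf798 KR798 Lt893 XN194 ZC352 HS328 Plu825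
  NoeFin890 EDR890 XNI106 KAsm106 KXN865 MI683 LnkP5476 NAtl938 Base144 YCneg630 EintY473

/-! ### the geometric index -/

section ix

variable {M : Type} [TopologicalSpace M] [CompactSpace M] [T2Space M] {A : Atl 2 M}

/-- index = Euler characteristic -/
theorem gix_euler (g : GIx A) (P : Part A) (L : LB A) :
    chiL P g.I (slb L) = chiE (isLC L) := EulC130.euler g.hσ g.coh P L

variable (A) in
/-- the open inputs of Noether's formula -/
structure NoeH : Prop where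
  hac : Hac A
  hsw : Hsw A

/-- **the index theoretic inputs of `CMData`** -/
theorem ix_geo [Fintype A.ι] (hA : GoodA A) (P P' : Part A) (h : NoeH A) :
    Ix P (gix P').I (nerveChi (UA A) Finset.univ) where
  euler L := gix_euler (gix P') P L
  noether := noether_geo' hA P P' h.hac h.hsw (fun L => gix_euler (gix P') P L)
    (fun L => (serre_LB P L).2.2) (fun L => (serre_LB P L).2.1)

end ix

/-! ### the geometric base -/

section base

variable {X : Type} [TopologicalSpace X] [CompactSpace X] [T2Space X] [ChartedSpace C2 X]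
  [IsManifold 𝓘(ℂ, C2) 1 X]


variable (G : XGeo X) (H : CovData G.u) (hp : PlurigeneraVanish X)





end base

/-! ### the geometric index on the surfaces `X_N` -/

section cyc

variable {X : Type} [TopologicalSpace X] [CompactSpace X] [T2Space X] [ChartedSpace C2 X]
  [IsManifold 𝓘(ℂ, C2) 1 X] {u : C(X, Circ)} {A : Atl 2 X} [Finite A.ι] (N : ℕ) [NeZero N]





end cyc

/-! ### at the level of `XGeo` -/

section xgeo

variable {X : Type} [TopologicalSpace X] [CompactSpace X] [T2Space X] [ChartedSpace C2 X]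
  [IsManifold 𝓘(ℂ, C2) 1 X] (G : XGeo X) (H : CovData G.u) (hp : PlurigeneraVanish X)

include H hp






end xgeo

end Crest.Agent.R275.CM615
end
end

-- ▼ part R275/SkelXD_328
section

/-!
R275 (S0418), X-SIDE (helper328), part 4: `IxAll` from the acyclicity of the graded pieces
(helper783); the swap rule is helper686's `rho_swap`.
-/

set_option autoImplicit false

noncomputable section

namespace Crest.Agent.R275.SkelX328

open Geo GC293 CM615 NoeFin890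

/-- 783's acyclicity on all good atlases -/
def HacAll : Prop :=
  ∀ (M : Type) [TopologicalSpace M] [T2Space M] [CompactSpace M] (A : Atl 2 M) [Finite A.ι]
    (_ : Part A), GoodA A → Hac A

theorem hsw_all {M : Type} [TopologicalSpace M] [T2Space M] (A : Atl 2 M) : Hsw A :=
  fun m w hw => NA4sw686.rho_swap m w hw

/-- **the index theoretic input from the acyclicity** -/
theorem ixAll_of_hac (h : HacAll) : IxAll := by
  intro M _ _ _ A _ P hA
  let _ : Fintype A.ι := Fintype.ofFinite A.ι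
  have h1 := ix_geo hA P P ⟨h M A P hA, hsw_all A⟩
  have h2 : EDR890.nerveChi (fun i => (A.e i).source) Finset.univ = eA A := eA_eq A
  rw [← h2]
  exact h1

end Crest.Agent.R275.SkelX328
end
end

-- ▼ part R275/SkelXE_328
section

/-!
R275 (S0418), X-SIDE (helper328), part 5: `IxAll` holds (acyclicity: helper783), hence the X side
without hypotheses.
-/

set_option autoImplicit false

open Set Filter Topology
open scoped Manifold ContDiff

noncomputable section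

namespace Crest.Agent.R275.SkelX328

open Crest.AlgGeometry.Surface
open Geo GC293 CM615 NoeFin890 ZC352 YCneg630 FL884 Base144 Loc647

theorem hac_all {M : Type} [TopologicalSpace M] [T2Space M] [CompactSpace M] (A : Atl 2 M) :
    Hac A := fun m q w hd h0 hn => by
  obtain ⟨v, -, -, h3, h4⟩ := NA4783.acyc (q := q) (m := m) (fun u => NoeAsm890.flat_prod u) w hd h0 hn
  exact ⟨v, h3, h4⟩

/-- **the index theoretic input** -/
theorem ixAll : IxAll := ixAll_of_hac fun _ _ _ _ A _ _ _ => hac_all A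


end Crest.Agent.R275.SkelX328
end
end

-- ▼ part R275/ExcOK_130
section

/-!
# R275, block D, leaf D7 (helper130): EXC for the base `G.yBase`, `G : XGeo X`

`ExcAt G K hφ hc hN` : the excision identity for the class `c` and the compact quotient `X_N` :
`D.ind + ind (EcV 0 on X_N) = D0.ind + ind (EcV c_N on X_N)`.
`excOK` : `ExcOK G.yBase F` from `ExcAt` for all large `N`, the data `XNIn` and 151's
`q0_eq_chi_res`.
-/

set_option autoImplicit false
set_option linter.unusedSectionVars false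

open Set Filter Topology Complex
open scoped Manifold ContDiff Matrix ComplexConjugate

noncomputable section

namespace Crest.Agent.R275.ExcOK130

open Geo NAtl938 Core144 Base144 WY681 YBG812 Tor812 Q74 Lam2130 LauB681
open Fred685 EulW130 IndZ130 IndY130 Gau511 EcV938 EB938 Loc647 LocT474 IndW938 PartN194
open XN194 NTr151 NGeo151 EBF151 RAD151 ChiM825 CIdx509 NForm945
open Crest.Agent.R275.GC293 (Z2 IsC1)
open Crest.AlgGeometry.Surface

variable {X : Type} [TopologicalSpace X] [ChartedSpace C2 X] [IsManifold 𝓘(ℂ, C2) 1 X]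
  [CompactSpace X] [T2Space X] (G : XGeo X)

/-- the atlas of the small balls of `X_N` -/
abbrev AN {N : ℕ} {Z' : Type} [TopologicalSpace Z'] (C' : KCov G.N.big Z' (ZMod N)) : Atl 2 Z' :=
  (nlift G.N C').sm

/-- the partition of unity of `X_N` -/
abbrev PN {N : ℕ} {Z' : Type} [TopologicalSpace Z'] (C' : KCov G.N.big Z' (ZMod N)) :
    Part (AN G C') := liftPN C' le_rfl G.P

/-- **the excision identity** for the class `c` and the compact quotient `X_N` -/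
def ExcAt {N : ℕ} {Z' : Type} [TopologicalSpace Z'] {C' : KCov G.N.big Z' (ZMod N)}
    (K : KHom G.C C') (hφ : ∀ k : ℤ, K.φ k = (k : ZMod N)) {c : C2 (G.N.ι × ℤ)}
    (hc : c ∈ G.Pn.Z2c) (hN : 1 ≤ N) : Prop :=
  ∀ (hcs : c ∈ Z2 G.yBase.N.sm ℤ) (hf : Fin3 c) (a b : ℝ)
    (D : QC (gdW (Gau511.grF (bgeo_EcV G.yBase hcs hf) (hts G.yBase)) a b))
    (D0 : QC (gdW (Gau511.grF (bgeo_EcV G.yBase (zero_mem (Z2 G.yBase.N.sm ℤ)) fin3_zero)
      (hts G.yBase)) a b)),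
    IsDQ (hB := bgeo_EcV G.yBase hcs hf) (w := (hts G.yBase).wt (-a) b) D →
    IsDQ (hB := bgeo_EcV G.yBase (zero_mem (Z2 G.yBase.N.sm ℤ)) fin3_zero)
      (w := (hts G.yBase).wt (-a) b) D0 →
    D.ind + indB (PN G C') (tw (lam2 (AN G C')) (EcV (PN G C') (zero_mem (Z2 (AN G C') ℤ)))) =
      D0.ind + indB (PN G C') (tw (lam2 (AN G C')) (EN le_rfl K hφ G.preC hc hN G.P))

variable {G}

/-- **`ExcOK`** for the geometric base on `Y` -/
theorem excOK {W : Weight G.Pn} {F : Forms G.Pn} (hIN : ∀ N c d, F.IN N c d = W.INZ N c d)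
    {κ : G.N.big.ι → G.N.big.ι → G.N.big.ι → ℤ} (hκ : IsC1 (slb (KB G.N.big)) κ)
    (hkap : F.kap = kapY G.C G.preC κ)
    (hX : ∀ N₀ : ℕ, ∃ N > N₀, ∃ e : ℤ, Nonempty (XNIn W N e))
    (hE : ∀ (c : C2 (G.N.ι × ℤ)) (hc : c ∈ G.Pn.Z2c), ∃ N₁ : ℕ, ∀ N : ℕ, N₁ < N →
      ∀ (hN : 1 ≤ N) {Z' : Type} [TopologicalSpace Z'] [CompactSpace Z']
        {C' : KCov G.N.big Z' (ZMod N)} (K : KHom G.C C') (hφ : ∀ k : ℤ, K.φ k = (k : ZMod N)),
        ExcAt G K hφ hc hN) : ExcOK G.yBase F := by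
  intro c hc hcs hf a b D D0 hD hD0
  obtain ⟨N₀, h0⟩ := IndR151.q0_eq_chi_res hIN hκ hkap hc
  obtain ⟨N₁, h1⟩ := hE c hc
  obtain ⟨N, hN, e, ⟨E⟩⟩ := hX (max N₀ N₁)
  have hN0 : N₀ < N := lt_of_le_of_lt (le_max_left _ _) hN
  have hN1 : N₁ < N := lt_of_le_of_lt (le_max_right _ _) hN
  have hN' : 1 ≤ N := by omega
  have : NeZero N := ⟨by omega⟩
  have hfin : Finite (AN G E.C').ι := inferInstanceAs (Finite (G.N.ι × ZMod N))
  have h2 := h1 N hN1 hN' E.F E.hφ hcs hf a b D D0 hD hD0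
  have h3 := h0 N hN0 hN' e E (Refine.liftR G.N E.C' le_rfl) (PN G E.C') (geo2 (PN G E.C'))
    (fun L => euler_geo (PN G E.C') L)
  have h4 := indB_sub (PN G E.C') (PN G E.C') (PN G E.C')
    (memN le_rfl E.F E.hφ G.preC hc hN') (zero_mem (Z2 (AN G E.C') ℤ))
  have h5 : q0 F c = _ := h3.trans h4.symm
  have h6 : D.ind = D0.ind + (indB (PN G E.C') (tw (lam2 (AN G E.C'))
        (EcV (PN G E.C') (memN le_rfl E.F E.hφ G.preC hc hN'))) -
      indB (PN G E.C') (tw (lam2 (AN G E.C')) (EcV (PN G E.C')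
        (zero_mem (Z2 (AN G E.C') ℤ))))) := by
    linarith
  exact h6.trans (congrArg (fun t => D0.ind + t) h5.symm)

end Crest.Agent.R275.ExcOK130
end
end

-- ▼ part R275/SkelXF_328
section

/-!
R275 (S0418), X-SIDE (helper328), part 6: helper130's `ExcOK` on `G.yBase` from the excision
identities on `X_n = XC n G.u` and the data of the X side.
-/

set_option autoImplicit false

open Set Filter Topology
open scoped Manifold ContDiff

noncomputable section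

namespace Crest.Agent.R275.SkelX328

open Crest.AlgGeometry.Surface
open Geo NAtl938 Core144 Base144 XN194 Loc647 NTr151 NGeo151 ChiM825 KR798 Smf798 ZC352
open Lam2130 LauB681 PartN194 QPb635 KX106 XNI106 EBF151 YBG812 WY681 Gau511 Fred685 EulW130
open IndZ130 IndY130 EcV938 IndW938 CIdx509 ExcOK130 RAD151
open Crest.Agent.R275.GC293 (Z2 IsC1)

variable {X : Type} [TopologicalSpace X] [ChartedSpace C2 X] [IsManifold 𝓘(ℂ, C2) 1 X]
  [CompactSpace X] [T2Space X] {G : XGeo X}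

/-- **`ExcOK`** from the excision identities on the coverings `xc G n` -/
theorem excOK_of {F : Forms G.Pn} {Pb : Part G.N.big} {κ : G.N.ι → G.N.ι → G.N.ι → ℤ}
    (H : FData G F Pb κ) (hX : ∀ (n : ℕ) [NeZero n], ∃ g e, XnD G Pb n g e)
    (hE : ∀ (c : C2 (G.N.ι × ℤ)) (hc : c ∈ G.Pn.Z2c), ∃ N₁ : ℕ, ∀ n : ℕ, N₁ < n →
      ∀ (hn : 1 ≤ n) [NeZero n], ExcAt G (yx G n) (yx_φ G n) hc hn) : ExcOK G.yBase F := by
  intro c hc hcs hf a b D D0 hD hD0
  obtain ⟨N₀, h0⟩ := q0_xc G H hX hc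
  obtain ⟨N₁, h1⟩ := hE c hc
  obtain ⟨n, hn⟩ : ∃ n, max N₀ N₁ < n := ⟨_, Nat.lt_succ_self _⟩
  have hN0 : N₀ < n := lt_of_le_of_lt (le_max_left _ _) hn
  have hN1 : N₁ < n := lt_of_le_of_lt (le_max_right _ _) hn
  have hN' : 1 ≤ n := by omega
  have : NeZero n := ⟨by omega⟩
  have hfin : Finite (AN G (xc G n)).ι := inferInstanceAs (Finite (G.N.ι × ZMod n))
  have h2 := h1 n hN1 hN' hcs hf a b D D0 hD hD0
  have h3 := h0 n hN0 hN' le_rfl (PN G (xc G n)) (geo2 (PN G (xc G n)))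
    (fun L => euler_geo (PN G (xc G n)) L)
  have h4 := indB_sub (PN G (xc G n)) (PN G (xc G n)) (PN G (xc G n))
    (memN le_rfl (yx G n) (yx_φ G n) G.preC hc hN') (zero_mem (Z2 (AN G (xc G n)) ℤ))
  have h5 : EB938.q0 F c = _ := h3.trans h4.symm
  have h6 : D.ind = D0.ind + (indB (PN G (xc G n)) (tw (lam2 (AN G (xc G n)))
        (EcV (PN G (xc G n)) (memN le_rfl (yx G n) (yx_φ G n) G.preC hc hN'))) -
      indB (PN G (xc G n)) (tw (lam2 (AN G (xc G n))) (EcV (PN G (xc G n))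
        (zero_mem (Z2 (AN G (xc G n)) ℤ))))) := by
    linarith
  exact h6.trans (congrArg (fun t => D0.ind + t) h5.symm)

/-- the same from `XData` -/
theorem excOK_xData [ConnectedSpace X] {F : Forms G.Pn} (H : XData G F)
    (hE : ∀ (c : C2 (G.N.ι × ℤ)) (hc : c ∈ G.Pn.Z2c), ∃ N₁ : ℕ, ∀ n : ℕ, N₁ < n →
      ∀ (hn : 1 ≤ n) [NeZero n], ExcAt G (yx G n) (yx_φ G n) hc hn) : ExcOK G.yBase F := by
  obtain ⟨Pb, κ, hF, hX⟩ := H.forms
  exact excOK_of hF hX hE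

end Crest.Agent.R275.SkelX328
end
end

-- ▼ part R275/ExcW_938
section

/-!
# R275, block D, EXC (helper938): the window of a compactly supported class

* `stp T` : smooth step in the height, `0` for `|t| ≤ T`, `1` for `|t| ≥ T + 1`;
* `win` : `Win S` (861) for a slab with `T + 1 ≤ |h|` off `S.K`: `φ = cos (π/2 σ(h))`,
  `ψ = sin (π/2 σ(h))`, `ψN` = descent of `ψ`; `win_psi : |h x| ≤ T → ψ x = 0`;
* `cc` : `CC` (861) for `c` and its push-down `cN` to `X_N`;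
* `exists_cc` : slab, window and `CC` exist for `N` large.
-/

set_option autoImplicit false
set_option linter.unusedSectionVars false

open Set Filter Topology
open scoped ContDiff

namespace Crest.Agent.R275.ExcW938

open Geo GC293 XN194 Loc647 NTr151 NGeo151 EcV938 EBF151 NAtl938 PartN194 ExcE861 ExcF861 Exc685
  SlabY194 IndW938

noncomputable section

/-! ### the step function -/

/-- `0` for `|t| ≤ T`, `1` for `|t| ≥ T + 1` -/
def stp (T t : ℝ) : ℝ := Real.smoothTransition ((t ^ 2 - T ^ 2) / ((T + 1) ^ 2 - T ^ 2))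

theorem stp_den {T : ℝ} (hT : 0 ≤ T) : 0 < (T + 1) ^ 2 - T ^ 2 := by nlinarith

theorem stp_zero {T t : ℝ} (hT : 0 ≤ T) (ht : |t| ≤ T) : stp T t = 0 := by
  refine Real.smoothTransition.zero_of_nonpos ?_
  have h1 : t ^ 2 ≤ T ^ 2 := by
    rw [← sq_abs t]
    exact pow_le_pow_left₀ (abs_nonneg t) ht 2
  exact div_nonpos_of_nonpos_of_nonneg (by linarith) (stp_den hT).le

theorem stp_one {T t : ℝ} (hT : 0 ≤ T) (ht : T + 1 ≤ |t|) : stp T t = 1 := by
  refine Real.smoothTransition.one_of_one_le ?_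
  rw [one_le_div (stp_den hT)]
  have h1 : (T + 1) ^ 2 ≤ t ^ 2 := by
    rw [← sq_abs t]
    exact pow_le_pow_left₀ (by linarith) ht 2
  linarith

theorem stp_contDiff (T : ℝ) : ContDiff ℝ ∞ (stp T) :=
  Real.smoothTransition.contDiff.comp
    (((contDiff_id.pow 2).sub contDiff_const).div_const _)

/-- `cos (π/2 σ)` -/
def cs (T t : ℝ) : ℝ := Real.cos (Real.pi / 2 * stp T t)
/-- `sin (π/2 σ)` -/
def sn (T t : ℝ) : ℝ := Real.sin (Real.pi / 2 * stp T t)

theorem cs_contDiff (T : ℝ) : ContDiff ℝ ∞ (cs T) :=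
  Real.contDiff_cos.comp (contDiff_const.mul (stp_contDiff T))

theorem sn_contDiff (T : ℝ) : ContDiff ℝ ∞ (sn T) :=
  Real.contDiff_sin.comp (contDiff_const.mul (stp_contDiff T))

theorem sn_zero {T t : ℝ} (hT : 0 ≤ T) (ht : |t| ≤ T) : sn T t = 0 := by
  rw [sn, stp_zero hT ht, mul_zero, Real.sin_zero]

theorem sn_one {T t : ℝ} (hT : 0 ≤ T) (ht : T + 1 ≤ |t|) : sn T t = 1 := by
  rw [sn, stp_one hT ht, mul_one, Real.sin_pi_div_two]

theorem cs_zero {T t : ℝ} (hT : 0 ≤ T) (ht : T + 1 ≤ |t|) : cs T t = 0 := by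
  rw [cs, stp_one hT ht, mul_one, Real.cos_pi_div_two]

theorem sn_sq_add (T t : ℝ) : sn T t * sn T t + cs T t * cs T t = 1 := by
  have := Real.sin_sq_add_cos_sq (Real.pi / 2 * stp T t)
  unfold sn cs
  nlinarith

section win

variable {n : ℕ} {M M' : Type} [TopologicalSpace M] [TopologicalSpace M']
  {A : Atl n M} {A' : Atl n M'} {C : Cov A A'}

theorem sm_ofReal {f : M → ℝ} (hf : A.Sm f) : A.Sm (fun x => (f x : ℂ)) := fun i =>
  Complex.ofRealCLM.contDiff.comp_contDiffOn (hf i)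

theorem sm_comp {g : ℝ → ℝ} (hg : ContDiff ℝ ∞ g) {f : M → ℝ} (hf : A.Sm f) :
    A.Sm (fun x => g (f x)) := fun i => hg.comp_contDiffOn (hf i)

/-- **the window functions** -/
def win (S : Slab C) {h : M → ℝ} (hs : A.Sm h) {T : ℝ} (hT : 0 ≤ T)
    (hK : ∀ x ∉ S.K, T + 1 ≤ |h x|) : Win S where
  φ x := (cs T (h x) : ℂ)
  ψ x := (sn T (h x) : ℂ)
  ψN x' := (dscOne S (fun x => sn T (h x)) x' : ℂ)
  smφ := sm_ofReal (sm_comp (cs_contDiff T) hs)
  smψ := sm_ofReal (sm_comp (sn_contDiff T) hs)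
  smψN := sm_ofReal (dscOne_sm S (sm_comp (sn_contDiff T) hs) fun x hx => sn_one hT (hK x hx))
  off x hx := by rw [cs_zero hT (hK x hx), Complex.ofReal_zero]
  offψ x hx := by rw [sn_one hT (hK x hx), Complex.ofReal_one]
  sq x := by
    rw [← Complex.ofReal_mul, ← Complex.ofReal_mul, ← Complex.ofReal_add, sn_sq_add,
      Complex.ofReal_one]
  eqΩ x hx := by rw [dscOne_apply S hx]
  offN x' hx := by rw [dscOne_off S (fun x hx => sn_one hT (hK x hx)) hx, Complex.ofReal_one]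

theorem win_psi (S : Slab C) {h : M → ℝ} (hs : A.Sm h) {T : ℝ} (hT : 0 ≤ T)
    (hK : ∀ x ∉ S.K, T + 1 ≤ |h x|) {x : M} (hx : |h x| ≤ T) : (win S hs hT hK).ψ x = 0 := by
  show (sn T (h x) : ℂ) = 0
  rw [sn_zero hT hx, Complex.ofReal_zero]

end win

section cc

variable {n : ℕ} {M Z Z' : Type} [TopologicalSpace M] [TopologicalSpace Z]
  [TopologicalSpace Z'] {NA : NAtl n M} [Finite NA.big.ι]
  {N : ℕ} {C : KCov NA.big Z ℤ} {C' : KCov NA.big Z' (ZMod N)} {ρ : ℝ} (hρ : NA.r ≤ ρ)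
  (F : KHom C C')
  (hφ : ∀ k : ℤ, F.φ k = (k : ZMod N)) (hpc : PreC NA.big)
  {h : Z → ℝ} {W : ℝ} (hW : ∀ (q : NA.ι × ℤ), ∀ z ∈ C.sheet q.1 q.2, |h z + q.2| ≤ W)
  {c : C2 (NA.ι × ℤ)} {R : ℤ} (hc : c ∈ (nerve C hpc).Z2c)
  (hR : ∀ i j k, c i j k ≠ 0 → |(nerve C hpc).p i| ≤ R) (hN : 1 ≤ N)

include hW hR in
/-- **`CC` for a compactly supported class** -/
theorem cc {S : Slab (nhom NA C hρ F)} (Wn : Win S)
    (hK : ∀ x ∈ S.K, |h x| + W + R < N) (hK' : ∀ x, |h x| ≤ R + W → x ∈ S.K)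
    (hmid : ∀ x, |h x| ≤ R + W → Wn.ψ x = 0) :
    CC Wn (show ((nlift NA C).at' ρ hρ).ι → ((nlift NA C).at' ρ hρ).ι →
      ((nlift NA C).at' ρ hρ).ι → ℤ from c) (cN F hφ hpc hc hN).1 where
  eq i j k x hi hj hk hx := (cN_window F hφ hpc hW hc hR hN (sheet_of_at hρ hi)
    (sheet_of_at hρ hj) (sheet_of_at hρ hk) (hK x hx)).symm
  mid i j k x hi hj hk h0 := by
    refine hmid x ?_
    by_contra hx
    exact h0 (c_far hpc hR hW (sheet_of_at hρ hi) (not_le.1 hx))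
  offN i j k x hi hj hk hx := by
    refine cN_far F hφ hpc hW hc hR hN (sheet_of_at hρ hi) (sheet_of_at hρ hj)
      (sheet_of_at hρ hk) fun z hz => ?_
    by_contra hz'
    exact hx ⟨z, hK' z (not_lt.1 hz'), hz⟩

end cc

section main

variable {n : ℕ} {M Z : Type} [TopologicalSpace M] [TopologicalSpace Z]
  {NA : NAtl n M} [Finite NA.big.ι]
  {C : KCov NA.big Z ℤ} {ρ : ℝ} (hρ : NA.r ≤ ρ) (hpc : PreC NA.big)
  {h : Z → ℝ} {W : ℝ} {c : C2 (NA.ι × ℤ)}

/-- **slab, window and `CC` for `N` large** -/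
theorem exists_cc (H : Ht C h) (hs : ((nlift NA C).at' ρ hρ).Sm h)
    (hcpt : ∀ α β : ℝ, IsCompact {z | α ≤ h z ∧ h z ≤ β})
    (hW : ∀ (q : NA.ι × ℤ), ∀ z ∈ C.sheet q.1 q.2, |h z + q.2| ≤ W)
    (hc : c ∈ (nerve C hpc).Z2c) :
    ∃ N₀ : ℕ, ∀ N : ℕ, N₀ < N → ∀ (hN : 1 ≤ N) {Z' : Type} [TopologicalSpace Z'] [T2Space Z']
      {C' : KCov NA.big Z' (ZMod N)} (F : KHom C C') (hφ : ∀ k : ℤ, F.φ k = (k : ZMod N)),
      ∃ (S : Slab (nhom NA C hρ F)) (Wn : Win S), IsCompact S.K ∧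
        CC Wn (show ((nlift NA C).at' ρ hρ).ι → ((nlift NA C).at' ρ hρ).ι →
          ((nlift NA C).at' ρ hρ).ι → ℤ from c) (cN F hφ hpc hc hN).1 := by
  obtain ⟨R, hR⟩ := hc.2
  set T : ℝ := max (R + W) 0 with hT
  have hT0 : 0 ≤ T := le_max_right _ _
  have hT1 : R + W ≤ T := le_max_left _ _
  obtain ⟨N₀, hN₀⟩ := exists_nat_gt (2 * T + 4 + |T| + |W| + |(R : ℝ)|)
  refine ⟨N₀, fun N hNN hN Z' _ _ C' F hφ => ?_⟩
  have hNR : (N₀ : ℝ) < N := by exact_mod_cast hNN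
  have h1 : F.φ 1 = 1 := by
    rw [hφ]
    exact Int.cast_one
  have hab : (T + 2) - (-(T + 2)) ≤ (N : ℝ) := by
    linarith [abs_nonneg T, abs_nonneg W, abs_nonneg (R : ℝ)]
  have hkk : IsCompact {z | -(T + 1) ≤ h z ∧ h z ≤ T + 1} := hcpt _ _
  let S : Slab (nhom NA C hρ F) := Ht.slabN H F h1 hρ (a := -(T + 2)) (α := -(T + 1))
    (β := T + 1) (b := T + 2) (by linarith) (by linarith) hab hkk
  have hSK : S.K = {z | -(T + 1) ≤ h z ∧ h z ≤ T + 1} := rfl
  have hSK' : ∀ x, x ∈ S.K ↔ |h x| ≤ T + 1 := fun x => by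
    rw [hSK, mem_ofPred_eq, abs_le]
  refine ⟨S, win S hs hT0 (fun x hx => ?_), hkk, ?_⟩
  · rw [hSK', not_le] at hx
    exact hx.le
  · refine cc hρ F hφ hpc hW hc hR hN _ (fun x hx => ?_) (fun x hx => ?_) fun x hx => ?_
    · rw [hSK'] at hx
      linarith [le_abs_self T, le_abs_self W, le_abs_self (R : ℝ)]
    · rw [hSK']
      linarith
    · exact win_psi S hs hT0 _ (hx.trans hT1)

end main

end

end Crest.Agent.R275.ExcW938
end

-- ▼ part R275/ExcP_130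
section

/-!
# R275, block D, leaf D7 (helper130): the window for the base `G.yBase`, `G : XGeo X`

`exists_hW` : the heights on the sheets; `exists_ccG` : 938's slab and window for all large `N`;
`isLiftG` : the partition of `Y` is the lift of the one of `X_N`.
-/

set_option autoImplicit false
set_option linter.unusedSectionVars false

open Set Filter Topology Complex
open scoped Manifold ContDiff Matrix ComplexConjugate

noncomputable section

namespace Crest.Agent.R275.ExcOK130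

open Geo NAtl938 Core144 Base144 XN194 NTr151 NGeo151 EBF151 Loc647 IndW938 ExcW938 ExcF861
open PartN194 SlabY194 ZC352 Exc685
open Crest.Agent.R275.GC293 (Z2)
open Crest.AlgGeometry.Surface

variable {X : Type} [TopologicalSpace X] [ChartedSpace C2 X] [IsManifold 𝓘(ℂ, C2) 1 X]
  [CompactSpace X] [T2Space X] (G : XGeo X)

theorem exists_hW : ∃ W : ℝ, ∀ (q : G.N.ι × ℤ), ∀ z ∈ G.C.sheet q.1 q.2,
    |YC.ht G.u z + q.2| ≤ W := by
  obtain ⟨W, hW⟩ := LocT474.lifts_bdd (ε := 1 / 4) G.L fun i x hx y hy =>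
    G.osc' i x (big_sub G.N hx) y (big_sub G.N hy)
  refine ⟨W, fun q z hz => ?_⟩
  obtain ⟨h1, h2⟩ := (mem_ysheet G.u G.L).1 hz
  have h3 : YC.ht G.u z + (q.2 : ℝ) = G.L.f q.1 (YC.pr G.u z) := by rw [h2]; ring
  rw [h3]
  exact hW q.1 _ h1

/-- **slab, window and `CC`** for the geometric base -/
theorem exists_ccG {c : C2 (G.N.ι × ℤ)} (hc : c ∈ G.Pn.Z2c) :
    ∃ N₀ : ℕ, ∀ N : ℕ, N₀ < N → ∀ (hN : 1 ≤ N) {Z' : Type} [TopologicalSpace Z'] [T2Space Z']
      {C' : KCov G.N.big Z' (ZMod N)} (K : KHom G.C C') (hφ : ∀ k : ℤ, K.φ k = (k : ZMod N)),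
      ∃ (S : Slab (nhom G.N G.C le_rfl K)) (Wn : Win S), IsCompact S.K ∧
        CC Wn (show G.yBase.N.sm.ι → G.yBase.N.sm.ι → G.yBase.N.sm.ι → ℤ from c)
          (cN K hφ G.preC hc hN).1 := by
  obtain ⟨W, hW⟩ := exists_hW G
  exact exists_cc (NA := G.N) (C := G.C) le_rfl G.preC (ht_ht G.u G.L) G.yBase.smooth_sm
    (fun α β => YC.isCompact_slab G.u α β) hW hc

/-- the partition of `Y` is the lift of the partition of `X_N` -/
theorem isLiftG {N : ℕ} {Z' : Type} [TopologicalSpace Z'] {C' : KCov G.N.big Z' (ZMod N)}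
    (K : KHom G.C C') :
    Exc685.IsLift (nhom G.N G.C le_rfl K) G.yBase.P (PN G C') :=
  isLiftN_hom le_rfl G.P K

theorem isLiftG' {N : ℕ} {Z' : Type} [TopologicalSpace Z'] {C' : KCov G.N.big Z' (ZMod N)}
    (K : KHom G.C C') :
    EcV938.IsLift (nhom G.N G.C le_rfl K) G.yBase.P (PN G C') :=
  isLiftN_hom' le_rfl G.P K

end Crest.Agent.R275.ExcOK130
end
end

-- ▼ part R275/ExcD_685
section

/-!
# R275, block D, EXC (helper685), file D: the excision isomorphism between weighted spaces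

`RS P B N om V` : `V` is a space of smooth sections with the chart norms.
`FRow`, `SRow` : row conditions; lifts, `Op0`, `Neg`.
-/

set_option autoImplicit false
set_option linter.unusedSectionVars false

open Set Filter Topology Complex
open scoped ContDiff Matrix ComplexConjugate

namespace Crest.Agent.R275.Exc685

open Geo XN194 FHom556 Tor812 TorS666 Ret666 Fred685 WY4193 RetC666

noncomputable section

variable {n : ℕ} {M M' : Type} [TopologicalSpace M] [TopologicalSpace M']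
  {A : Atl n M} {A' : Atl n M'}

/-- a space of smooth sections with the chart norms (weights `om`, shifts `N - deg`) -/
structure RS (P : Part A) (B : FBun A) (N : ℕ) (om : A.ι → ℝ) (V : Type*) [AddCommGroup V]
    [Module ℂ V] where
  R : Ret (RI n) V
  e : R.J ≃ A.ι × B.κ
  om_eq : ∀ j, R.W.om j = om (e j).1
  sh_eq : ∀ j, R.W.sh j = N - B.deg (e j).2
  inc : V →ₗ[ℂ] Sec B
  inj : Function.Injective inc
  loc_eq : ∀ v j, (R.Loc v).fn j = LocV P (inc v) (e j)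
  surj : ∀ u : Sec B, (fun j => LocV P u (e j)) ∈ TS R.W → ∃ v, inc v = u


/-- finitely many rows, order `-r` -/
def FRow (r : ℕ) (P : Part A) (P' : Part A') (N : ℕ) (B : FBun A) (B' : FBun A')
    (T : Sec B →ₗ[ℂ] Sec B') : Prop :=
  ∃ (F : Finset A'.ι) (G : Finset A.ι),
    (∀ u i, i ∉ F → ∀ k, LocV P' (T u) (i, k) = 0) ∧
    ∀ s, ∃ C : ℝ, 0 ≤ C ∧ ∀ u, ∀ i ∈ F, ∀ k,
      nrm (s + r + (N - B'.deg k)) (LocV P' (T u) (i, k)) ≤
        C * ∑ j ∈ G, ∑ l, nrm (s + (N - B.deg l)) (LocV P u (j, l))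

/-- rows with the same chart, order `0` -/
def SRow (P : Part A) (N : ℕ) (B B' : FBun A) (T : Sec B →ₗ[ℂ] Sec B') : Prop :=
  ∀ s, ∃ C : ℝ, 0 ≤ C ∧ ∀ u i k,
    nrm (s + (N - B'.deg k)) (LocV P (T u) (i, k)) ≤
      C * ∑ l, nrm (s + (N - B.deg l)) (LocV P u (i, l))

theorem FRow.mono {r : ℕ} {P : Part A} {P' : Part A'} {N : ℕ} {B : FBun A} {B' : FBun A'}
    {T : Sec B →ₗ[ℂ] Sec B'} (h : FRow r P P' N B B' T) : FRow 0 P P' N B B' T := by
  obtain ⟨F, G, h0, h1⟩ := h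
  refine ⟨F, G, h0, fun s => ?_⟩
  obtain ⟨C, hC, h2⟩ := h1 s
  exact ⟨C, hC, fun u i hi k => (nrm_mono (by omega) _).trans (h2 u i hi k)⟩

namespace RS

variable {P : Part A} {P' : Part A'} {B B₁ : FBun A} {B' : FBun A'} {N : ℕ} {om : A.ι → ℝ}
  {om' : A'.ι → ℝ} {V V₁ V' U : Type*} [AddCommGroup V] [Module ℂ V] [AddCommGroup V₁]
  [Module ℂ V₁] [AddCommGroup V'] [Module ℂ V'] [AddCommGroup U] [Module ℂ U]

section

variable (X : RS P B N om V)

/-- the scale -/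
def sc : Scale ℂ V := X.R.sc

theorem mem (v : V) : (fun j => LocV P (X.inc v) (X.e j)) ∈ TS X.R.W := by
  have h := (X.R.Loc v).mem
  have h1 : (X.R.Loc v).fn = fun j => LocV P (X.inc v) (X.e j) := funext fun j => X.loc_eq v j
  rwa [h1] at h

/-- lift of a map with values in finite norm sections -/
def lift (T : U →ₗ[ℂ] Sec B) (h : ∀ u, (fun j => LocV P (T u) (X.e j)) ∈ TS X.R.W) :
    U →ₗ[ℂ] V :=
  (LinearEquiv.ofInjective X.inc X.inj).symm.toLinearMap ∘ₗ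
    T.codRestrict (LinearMap.range X.inc) fun u => X.surj (T u) (h u)

@[simp] theorem inc_lift (T : U →ₗ[ℂ] Sec B)
    (h : ∀ u, (fun j => LocV P (T u) (X.e j)) ∈ TS X.R.W) (u : U) :
    X.inc (X.lift T h u) = T u := by
  have h1 := (LinearEquiv.ofInjective X.inc X.inj).apply_symm_apply
    ⟨T u, X.surj (T u) (h u)⟩
  exact congrArg Subtype.val h1

/-- sums over the rows with indices in `G` -/
theorem sum_rows (G : Finset A.ι) (f : X.R.J → ℝ) :
    ∑ j ∈ (G ×ˢ (Finset.univ : Finset B.κ)).map X.e.symm.toEmbedding, f j =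
      ∑ j ∈ G, ∑ l, f (X.e.symm (j, l)) := by
  rw [Finset.sum_map, Finset.sum_product]
  rfl

end

variable (X : RS P B N om V) (X₁ : RS P B₁ N om V₁) (X' : RS P' B' N om' V')

/-- neighbour relation "same chart" -/
def nbE : Nb X₁.R.J X.R.J where
  N i := ((nbFst A.ι B.κ B₁.κ).N (X₁.e i)).map X.e.symm.toEmbedding
  N' j := ((nbFst A.ι B.κ B₁.κ).N' (X.e j)).map X₁.e.symm.toEmbedding
  D := (nbFst A.ι B.κ B₁.κ).D
  D' := (nbFst A.ι B.κ B₁.κ).D'
  card_le i := by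
    rw [Finset.card_map]
    exact (nbFst A.ι B.κ B₁.κ).card_le _
  card_le' j := by
    rw [Finset.card_map]
    exact (nbFst A.ι B.κ B₁.κ).card_le' _
  mem' i j h := by
    rw [Finset.mem_map] at h ⊢
    obtain ⟨q, hq, rfl⟩ := h
    refine ⟨X₁.e i, (nbFst A.ι B.κ B₁.κ).mem' _ _ ?_, ?_⟩
    · simpa using hq
    · simp

theorem sum_nbE (i : X₁.R.J) (f : X.R.J → ℝ) :
    ∑ j ∈ (nbE X X₁).N i, f j = ∑ l, f (X.e.symm ((X₁.e i).1, l)) := by
  show ∑ j ∈ ((nbFst A.ι B.κ B₁.κ).N (X₁.e i)).map X.e.symm.toEmbedding, f j = _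
  rw [Finset.sum_map, sum_nbFst]
  rfl

theorem row_eq (v : V) (p : A.ι × B.κ) : (X.R.Loc v).fn (X.e.symm p) = LocV P (X.inc v) p := by
  rw [X.loc_eq, Equiv.apply_symm_apply]

theorem sh_symm (p : A.ι × B.κ) : X.R.W.sh (X.e.symm p) = N - B.deg p.2 := by
  rw [X.sh_eq, Equiv.apply_symm_apply]

theorem om_symm (p : A.ι × B.κ) : X.R.W.om (X.e.symm p) = om p.1 := by
  rw [X.om_eq, Equiv.apply_symm_apply]

variable {X X₁ X'}

theorem om_pos (X : RS P B N om V) (i : A.ι) (k : B.κ) : 0 < om i := by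
  rw [← X.om_symm (i, k)]
  exact X.R.W.pos _

/-- rows of a map satisfying `SRow`, weighted -/
theorem srow_w {T : Sec B →ₗ[ℂ] Sec B₁} (h : SRow P N B B₁ T) (s : ℕ) : ∃ C : ℝ, 0 ≤ C ∧
    ∀ v i, X₁.R.W.om i * nrm (s + X₁.R.W.sh i) (LocV P (T (X.inc v)) (X₁.e i)) ≤
      C * ∑ j ∈ (nbE X X₁).N i, X.R.W.om j * nrm (s + X.R.W.sh j) ((X.R.Loc v).fn j) := by
  obtain ⟨C, hC, h1⟩ := h s
  refine ⟨C, hC, fun v i => ?_⟩
  rw [sum_nbE, X₁.om_eq, X₁.sh_eq]
  have h2 := h1 (X.inc v) (X₁.e i).1 (X₁.e i).2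
  have hpos : 0 < om (X₁.e i).1 := om_pos X₁ _ (X₁.e i).2
  refine (mul_le_mul_of_nonneg_left h2 hpos.le).trans (le_of_eq ?_)
  rw [Finset.mul_sum, Finset.mul_sum, Finset.mul_sum]
  refine Finset.sum_congr rfl fun l _ => ?_
  rw [X.om_symm, X.sh_symm, X.row_eq]
  ring

theorem srow_mem (X₁ : RS P B₁ N om V₁) {T : Sec B →ₗ[ℂ] Sec B₁} (h : SRow P N B B₁ T) (v : V) :
    (fun j => LocV P (T (X.inc v)) (X₁.e j)) ∈ TS X₁.R.W := by
  refine schur_mem (nbE X X₁) (X.R.Loc v).mem fun s => ?_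
  obtain ⟨C, hC, h1⟩ := srow_w (X := X) (X₁ := X₁) h s
  exact ⟨s, C, hC, fun i => h1 v i⟩

theorem srow_op0 {T : Sec B →ₗ[ℂ] Sec B₁} (h : SRow P N B B₁ T) {T' : V →ₗ[ℂ] V₁}
    (hT : ∀ v, X₁.inc (T' v) = T (X.inc v)) : Op0 X.sc X₁.sc T' := by
  refine op0_of_rows X.R X₁.R (nbE X X₁) fun s => ?_
  obtain ⟨C, hC, h1⟩ := srow_w (X := X) (X₁ := X₁) h s
  refine ⟨C, hC, fun v i => ?_⟩
  rw [X₁.loc_eq, hT]
  exact h1 v i

theorem frow_mem (X' : RS P' B' N om' V') {r : ℕ} {T : Sec B →ₗ[ℂ] Sec B'}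
    (h : FRow r P P' N B B' T) (u : Sec B) :
    (fun j => LocV P' (T u) (X'.e j)) ∈ TS X'.R.W := by
  obtain ⟨F, G, h0, -⟩ := h
  rw [mem_TS]
  intro s
  refine summable_of_ne_finset_zero
    (s := (F ×ˢ (Finset.univ : Finset B'.κ)).map X'.e.symm.toEmbedding) fun j hj => ?_
  have h1 : (X'.e j).1 ∉ F := by
    intro h2
    apply hj
    rw [Finset.mem_map]
    exact ⟨X'.e j, Finset.mem_product.2 ⟨h2, Finset.mem_univ _⟩, by simp⟩
  have h2 : LocV P' (T u) (X'.e j) = 0 := h0 u (X'.e j).1 h1 (X'.e j).2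
  rw [h2, nrm_zero_fun, mul_zero]
  norm_num

theorem frow_aux {r : ℕ} {T : Sec B →ₗ[ℂ] Sec B'} (h : FRow r P P' N B B' T) {T' : V →ₗ[ℂ] V'}
    (hT : ∀ v, X'.inc (T' v) = T (X.inc v)) :
    ∃ (F : Finset X'.R.J) (G : Finset X.R.J), (∀ v, ∀ i ∉ F, (X'.R.Loc (T' v)).fn i = 0) ∧
      ∀ s, ∃ C : ℝ, 0 ≤ C ∧ ∀ v, ∀ i ∈ F,
        nrm (s + r + X'.R.W.sh i) ((X'.R.Loc (T' v)).fn i)
          ≤ C * ∑ j ∈ G, nrm (s + X.R.W.sh j) ((X.R.Loc v).fn j) := by
  obtain ⟨F, G, h0, h1⟩ := h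
  refine ⟨(F ×ˢ (Finset.univ : Finset B'.κ)).map X'.e.symm.toEmbedding,
    (G ×ˢ (Finset.univ : Finset B.κ)).map X.e.symm.toEmbedding, fun v i hi => ?_, fun s => ?_⟩
  · have h2 : (X'.e i).1 ∉ F := by
      intro h2
      apply hi
      rw [Finset.mem_map]
      exact ⟨X'.e i, Finset.mem_product.2 ⟨h2, Finset.mem_univ _⟩, by simp⟩
    rw [X'.loc_eq, hT]
    exact h0 _ (X'.e i).1 h2 (X'.e i).2
  · obtain ⟨C, hC, h2⟩ := h1 s
    refine ⟨C, hC, fun v i hi => ?_⟩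
    rw [Finset.mem_map] at hi
    obtain ⟨q, hq, rfl⟩ := hi
    rw [sum_rows]
    have h3 := h2 (X.inc v) q.1 (Finset.mem_product.1 hq).1 q.2
    have h4 : X'.e.symm.toEmbedding q = X'.e.symm q := rfl
    rw [h4, X'.row_eq, X'.sh_symm, hT]
    refine h3.trans (le_of_eq ?_)
    congr 1
    refine Finset.sum_congr rfl fun j _ => Finset.sum_congr rfl fun l _ => ?_
    rw [X.sh_symm, X.row_eq]

theorem frow_op0 {r : ℕ} {T : Sec B →ₗ[ℂ] Sec B'} (h : FRow r P P' N B B' T) {T' : V →ₗ[ℂ] V'}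
    (hT : ∀ v, X'.inc (T' v) = T (X.inc v)) : Op0 X.sc X'.sc T' := by
  obtain ⟨F, G, h0, h1⟩ := frow_aux (X := X) (X' := X') h.mono hT
  exact op0_of_finite_rows X.R X'.R F G h0 h1

theorem frow_neg {T : Sec B →ₗ[ℂ] Sec B'} (h : FRow 1 P P' N B B' T) {T' : V →ₗ[ℂ] V'}
    (hT : ∀ v, X'.inc (T' v) = T (X.inc v)) : Neg X.sc X'.sc T' := by
  obtain ⟨F, G, h0, h1⟩ := frow_aux (X := X) (X' := X') h hT
  exact neg_of_finite_rows X.R X'.R F G h0 h1

end RS

/-! ### rows of the components -/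

section rows

variable {P : Part A} {P' : Part A'} {B B₁ : FBun A} {B' : FBun A'} {N : ℕ}

/-- the bundle map is the identity (after a bijection of the components) off the charts `F` -/
def OffId (P : Part A) (H : FHom 0 B B₁) (F : Finset A.ι) : Prop :=
  ∃ e : B₁.κ → B.κ, (∀ k, B₁.deg k = B.deg (e k)) ∧
    ∀ i ∉ F, ∀ x ∈ (A.e i).source, P.ψ i x ≠ 0 → ∀ v : B.κ → ℂ, ∀ k, (H.h i x *ᵥ v) k = v (e k)

theorem srow_offId {H : FHom 0 B B₁} {F : Finset A.ι} (h : OffId P H F)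
    (hN : ∀ k, B₁.deg k ≤ N) : SRow P N B B₁ H.actL := by
  classical
  intro s
  obtain ⟨e, he, h1⟩ := h
  choose C hC0 hC using fun i => mul_row P H hN i s
  refine ⟨1 + ∑ i ∈ F, C i, add_nonneg zero_le_one (Finset.sum_nonneg fun i _ => hC0 i),
    fun u i k => ?_⟩
  have hS : 0 ≤ ∑ l, nrm (s + (N - B.deg l)) (LocV P u (i, l)) :=
    Finset.sum_nonneg fun l _ => nrm_nonneg _ _
  by_cases hi : i ∈ F
  · refine (hC i u.1 u.2 k).trans (mul_le_mul_of_nonneg_right ?_ hS)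
    refine (Finset.single_le_sum (f := fun i => C i) (fun i _ => hC0 i) hi).trans ?_
    linarith
  · have hv : ∀ k, A.SmAt i (fun x => H.act u.1 i x k) := fun k => H.act_smAt (u.2.1 i) k
    have ha : IsAmp A i (P.psi B₁.κ i) := (P.amp_psi B₁.κ).amp i
    have ha' : IsAmp A i (P.psi B.κ i) := (P.amp_psi B.κ).amp i
    have h2 : LocV P (H.actL u) (i, k) = LocV P u (i, e k) := by
      show loc A i (P.psi B₁.κ i) (H.act u.1 i) k = loc A i (P.psi B.κ i) (u.1 i) (e k)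
      refine C1c193.eq_of_values (A := A) (i := i) (fun x hx => ?_) (fun x hx hx' => ?_)
        (fun x hx hx' => ?_)
      · have hxs : (A.e i).symm (cc x) ∈ (A.e i).source := (A.e i).map_target hx
        have hxx : x = rc (A.e i ((A.e i).symm (cc x))) := by
          rw [(A.e i).right_inv hx, rc_cc]
        rw [hxx, C1c193.loc_rc ha hv k hxs, C1c193.loc_rc ha' (u.2.1 i) (e k) hxs, psi_mulVec,
          psi_mulVec]
        by_cases hψ : P.ψ i ((A.e i).symm (cc x)) = 0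
        · rw [hψ]; simp
        · rw [FHom.act_apply, h1 i hi _ hxs hψ]
      · rw [C1c193.loc_off ha hv k hx hx']
      · rw [C1c193.loc_off ha' (u.2.1 i) (e k) hx hx']
    rw [h2, he k]
    refine (Finset.single_le_sum (f := fun l => nrm (s + (N - B.deg l)) (LocV P u (i, l)))
      (fun l _ => nrm_nonneg _ _) (Finset.mem_univ (e k))).trans ?_
    have h3 : 0 ≤ ∑ i ∈ F, C i := Finset.sum_nonneg fun i _ => hC0 i
    nlinarith

/-- bundle maps vanishing off finitely many charts -/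
theorem frow_act {r : ℕ} (H : FHom r B B₁) (F : Finset A.ι)
    (h0 : ∀ i ∉ F, ∀ x ∈ (A.e i).source, P.ψ i x ≠ 0 → H.h i x = 0)
    (hN : ∀ k, B₁.deg k ≤ N) : FRow r P P N B B₁ H.actL := by
  classical
  refine ⟨F, F, fun u i hi k => ?_, fun s => ?_⟩
  · show loc A i (P.psi B₁.κ i) (H.act u.1 i) k = 0
    rw [mul_row_zero P H (h0 i hi) u.2]
    rfl
  · choose C hC0 hC using fun i => mul_row P H hN i s
    refine ⟨∑ i ∈ F, C i, Finset.sum_nonneg fun i _ => hC0 i, fun u i hi k => ?_⟩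
    refine (hC i u.1 u.2 k).trans ?_
    refine mul_le_mul (Finset.single_le_sum (f := fun i => C i) (fun i _ => hC0 i) hi) ?_
      (Finset.sum_nonneg fun l _ => nrm_nonneg _ _) (Finset.sum_nonneg fun i _ => hC0 i)
    exact Finset.single_le_sum
      (f := fun j => ∑ l, nrm (s + (N - B.deg l)) (LocV P u (j, l)))
      (fun j _ => Finset.sum_nonneg fun l _ => nrm_nonneg _ _) hi

theorem frow_act_fin [Finite A.ι] {r : ℕ} (H : FHom r B B₁) (hN : ∀ k, B₁.deg k ≤ N) :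
    FRow r P P N B B₁ H.actL := by
  have := Fintype.ofFinite A.ι
  exact frow_act H Finset.univ (fun i hi => absurd (Finset.mem_univ i) hi) hN

variable {C : Cov A A'}

theorem frow_pull (hP : IsLift C P P') (S : Slab C) (hK : IsCompact S.K) {r : ℕ}
    (H : FHom r (C.pullB B') B) (hH : ∀ i, ∀ x ∉ S.K, H.h i x = 0) (hN : ∀ k, B.deg k ≤ N) :
    FRow r P' P N B' B (pullH H) := by
  classical
  refine ⟨slabF S hK P, (slabF S hK P).image C.r, fun u i hi k => ?_, fun s => ?_⟩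
  · show loc A i (P.psi B.κ i) (H.act (C.pullS B' u).1 i) k = 0
    rw [mul_row_zero P H (fun x _ hψ => hH i x (notMem_slabF hi hψ)) (C.pullS B' u).2]
    rfl
  · choose D hD0 hD using fun i => mul_row P H hN i s
    refine ⟨∑ i ∈ slabF S hK P, D i, Finset.sum_nonneg fun i _ => hD0 i, fun u i hi k => ?_⟩
    refine (hD i (C.pullS B' u).1 (C.pullS B' u).2 k).trans ?_
    have h1 : ∀ l, loc A i (P.psi (C.pullB B').κ i) ((C.pullS B' u).1 i) l
        = LocV P' u (C.r i, l) := fun l => congrFun (loc_pull_row hP (κ := B'.κ) i u.1) l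
    have h2 : ∑ l, nrm (s + (N - (C.pullB B').deg l))
        (loc A i (P.psi (C.pullB B').κ i) ((C.pullS B' u).1 i) l)
        = ∑ l, nrm (s + (N - B'.deg l)) (LocV P' u (C.r i, l)) :=
      Finset.sum_congr rfl fun l _ => by rw [h1 l]
    rw [h2]
    refine mul_le_mul (Finset.single_le_sum (f := fun i => D i) (fun i _ => hD0 i) hi) ?_
      (Finset.sum_nonneg fun l _ => nrm_nonneg _ _) (Finset.sum_nonneg fun i _ => hD0 i)
    exact Finset.single_le_sum
      (f := fun j => ∑ l, nrm (s + (N - B'.deg l)) (LocV P' u (j, l)))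
      (fun j _ => Finset.sum_nonneg fun l _ => nrm_nonneg _ _)
      (Finset.mem_image_of_mem C.r hi)

theorem frow_push (hP : IsLift C P P') (S : Slab C) (hK : IsCompact S.K) {r : ℕ}
    (H : FHom r B (C.pullB B')) (hH : ∀ i, ∀ x ∉ S.K, H.h i x = 0) (hN : ∀ k, B'.deg k ≤ N) :
    FRow r P P' N B B' (pushH S H hH) := by
  classical
  have hrow : ∀ (u : Sec B) (i' : A'.ι) (k : B'.κ), LocV P' (pushH S H hH u) (i', k) =
      ∑ i ∈ (slabF S hK P).filter (fun i => C.r i = i'),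
        loc A i (P.psi B'.κ i) (H.act u.1 i) k := by
    intro u i' k
    have h1 := loc_push_row hP S hK B' (w := H.act u.1) (H.act_mem u.2)
      (fun i x hx => act_off H (hH i x hx)) i'
    have h2 := congrFun h1 k
    rw [Finset.sum_apply] at h2
    exact h2
  refine ⟨(slabF S hK P).image C.r, slabF S hK P, fun u i' hi k => ?_, fun s => ?_⟩
  · rw [hrow]
    refine Finset.sum_eq_zero fun i hi' => ?_
    obtain ⟨h1, h2⟩ := Finset.mem_filter.1 hi'
    exact absurd (h2 ▸ Finset.mem_image_of_mem C.r h1) hi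
  · choose D hD0 hD using fun i => mul_row P H hN i s
    refine ⟨∑ i ∈ slabF S hK P, D i, Finset.sum_nonneg fun i _ => hD0 i, fun u i' hi k => ?_⟩
    rw [hrow]
    refine (nrm_sum_le' _ _ _).trans ?_
    refine (Finset.sum_le_sum_of_subset_of_nonneg (Finset.filter_subset _ _)
      fun i _ _ => nrm_nonneg _ _).trans ?_
    rw [Finset.mul_sum]
    refine Finset.sum_le_sum fun i hi => (hD i u.1 u.2 k).trans ?_
    refine mul_le_mul_of_nonneg_right ?_ (Finset.sum_nonneg fun l _ => nrm_nonneg _ _)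
    exact Finset.single_le_sum (f := fun i => D i) (fun i _ => hD0 i) hi

end rows

end

end Crest.Agent.R275.Exc685
end

-- ▼ part R275/ExcF_685
section

/-!
# R275, block D, EXC (helper685), file F: the excision theorem

`EData` : geometric data of an excision; `EData.ΦV` the isomorphism of the weighted spaces;
`EData.index` : `ind Q₁ + ind Q₂ = ind Q₃ + ind Q₄`.
-/

set_option autoImplicit false
set_option linter.unusedSectionVars false

open Set Filter Topology Complex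
open scoped ContDiff Matrix ComplexConjugate

namespace Crest.Agent.R275.Exc685

open Geo XN194 FHom556 Tor812 TorS666 Ret666 Fred685 WY4193 RetC666

noncomputable section

variable {n : ℕ} {M M' : Type} [TopologicalSpace M] [TopologicalSpace M']
  {A : Atl n M} {A' : Atl n M'}

/-! ### degree projections -/

section deg

variable {B B₁ : FBun A} {B' : FBun A'} {C : Cov A A'}

theorem mulVec_ite {κ κ' : Type} [Fintype κ] {m : Matrix κ' κ ℂ} {p : κ' → Prop} {p' : κ → Prop}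
    [DecidablePred p] [DecidablePred p'] (h : ∀ k l, m k l ≠ 0 → (p k ↔ p' l)) (v : κ → ℂ)
    (k : κ') : (m *ᵥ fun l => if p' l then v l else 0) k = if p k then (m *ᵥ v) k else 0 := by
  show ∑ l, m k l * (if p' l then v l else 0) = if p k then ∑ l, m k l * v l else 0
  by_cases hk : p k
  · rw [if_pos hk]
    refine Finset.sum_congr rfl fun l _ => ?_
    by_cases hm : m k l = 0
    · rw [hm, zero_mul, zero_mul]
    · rw [if_pos ((h k l hm).1 hk)]
  · rw [if_neg hk]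
    refine Finset.sum_eq_zero fun l _ => ?_
    by_cases hm : m k l = 0
    · rw [hm, zero_mul]
    · rw [if_neg fun hl => hk ((h k l hm).2 hl), mul_zero]

theorem act_pqL (H : FHom 0 B B₁) (q : ℕ) (u : Sec B) :
    H.actL (pqL B q u) = pqL B₁ q (H.actL u) := by
  apply Subtype.ext
  funext i x k
  show (H.h i x *ᵥ pq B q u.1 i x) k = pq B₁ q (H.act u.1) i x k
  have h1 : pq B q u.1 i x = fun l => if B.deg l = q then u.1 i x l else 0 :=
    funext fun l => pq_apply q u.1 i x l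
  rw [h1, pq_apply]
  exact mulVec_ite (p := fun k => B₁.deg k = q) (p' := fun l => B.deg l = q)
    (fun k l h => by
      have := H.degr i x k l h
      rw [this, Nat.add_zero]) (u.1 i x) k

theorem pull_pqL (q : ℕ) (u : Sec B') :
    C.pullS B' (pqL B' q u) = pqL (C.pullB B') q (C.pullS B' u) := by
  apply Subtype.ext
  funext i x k
  show C.pull (pq B' q u.1) i x k = pq (C.pullB B') q (C.pull u.1) i x k
  rw [pq_apply]
  by_cases hx : x ∈ (A.e i).source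
  · rw [C.pull_of_mem hx, C.pull_of_mem hx, pq_apply]
  · rw [C.pull_off hx, C.pull_off hx]
    simp

theorem push_pqL (S : Slab C) (H : FHom 0 B (C.pullB B')) (hH : ∀ i, ∀ x ∉ S.K, H.h i x = 0)
    (q : ℕ) (u : Sec B) : pushH S H hH (pqL B q u) = pqL B' q (pushH S H hH u) := by
  apply Subtype.ext
  funext i' x' k
  show S.push (H.act (pq B q u.1)) i' x' k = pq B' q (S.push (H.act u.1)) i' x' k
  rw [pq_apply]
  have h1 : H.act (pq B q u.1) = pq (C.pullB B') q (H.act u.1) :=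
    congrArg Subtype.val (act_pqL H q u)
  rw [h1]
  by_cases h : ∃ i x, C.r i = i' ∧ x ∈ (A.e i).source ∧ x ∈ S.Ω ∧ C.p x = x'
  · obtain ⟨i, x, rfl, h2, h3, rfl⟩ := h
    rw [S.push_apply h2 h3, S.push_apply h2 h3, pq_apply]
  · have h2 : ∀ w : A.ι → M → B'.κ → ℂ, S.push w i' x' = 0 := fun w => by
      unfold Slab.push
      rw [dif_neg h]
    have h3 : S.push (pq (C.pullB B') q (H.act u.1)) i' x' = 0 := h2 _
    have h4 : S.push (H.act u.1) i' x' = 0 := h2 _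
    rw [h3, h4]
    simp

end deg

/-! ### the data -/

/-- geometric data of an excision -/
structure EData {C : Cov A A'} (S : Slab C) (P : Part A) (P' : Part A') (N : ℕ)
    {B₁ : FBun A} {B₂ : FBun A'} {B₃ : FBun A} {B₄ : FBun A'} (m : Maps S B₁ B₂ B₃ B₄) : Prop where
  lift : IsLift C P P'
  cpt : IsCompact S.K
  inv : m.Inv
  inv' : m.swap.Inv
  n1 : ∀ k, B₁.deg k ≤ N
  n2 : ∀ k, B₂.deg k ≤ N
  n3 : ∀ k, B₃.deg k ≤ N
  n4 : ∀ k, B₄.deg k ≤ N
  off : ∃ F : Finset A.ι, OffId P m.a13 F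
  off' : ∃ F : Finset A.ι, OffId P m.a31 F
  offd : ∃ F : Finset A.ι, ∀ i ∉ F, ∀ x ∈ (A.e i).source, P.ψ i x ≠ 0 →
    (m.a13.dh 1 m.p13).h i x = 0
  offd' : ∃ F : Finset A.ι, ∀ i ∉ F, ∀ x ∈ (A.e i).source, P.ψ i x ≠ 0 →
    (m.a31.dh 1 m.p31).h i x = 0

namespace EData

variable {C : Cov A A'} {S : Slab C} {P : Part A} {P' : Part A'} {N : ℕ}
    {B₁ : FBun A} {B₂ : FBun A'} {B₃ : FBun A} {B₄ : FBun A'} {m : Maps S B₁ B₂ B₃ B₄}

theorem swap (E : EData S P P' N m) : EData S P P' N m.swap where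
  lift := E.lift
  cpt := E.cpt
  inv := E.inv'
  inv' := E.inv
  n1 := E.n3
  n2 := E.n4
  n3 := E.n1
  n4 := E.n2
  off := E.off'
  off' := E.off
  offd := E.offd'
  offd' := E.offd

variable (E : EData S P P' N m) [Finite A'.ι]

section

include E

theorem row13 : SRow P N B₁ B₃ m.a13.actL := by
  obtain ⟨F, hF⟩ := E.off
  exact srow_offId hF E.n3

theorem row23 : FRow 0 P' P N B₂ B₃ (pullH m.s23) :=
  frow_pull E.lift S E.cpt m.s23 m.o23 E.n3

theorem row14 : FRow 0 P P' N B₁ B₄ (pushH S m.s14 m.o14) :=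
  frow_push E.lift S E.cpt m.s14 m.o14 E.n4

theorem row24 : FRow 0 P' P' N B₂ B₄ m.b24.actL := frow_act_fin m.b24 E.n4

theorem drow13 : FRow 1 P P N B₁ B₃ (m.a13.dh 1 m.p13).actL := by
  obtain ⟨F, hF⟩ := E.offd
  exact frow_act _ F hF E.n3

theorem drow23 : FRow 1 P' P N B₂ B₃ (pullH (m.s23.dh 1 m.p23)) :=
  frow_pull E.lift S E.cpt _ (dh_off m.s23 m.p23 S.closed m.o23) E.n3

theorem drow14 : FRow 1 P P' N B₁ B₄
    (pushH S (m.s14.dh 1 m.p14) (dh_off m.s14 m.p14 S.closed m.o14)) :=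
  frow_push E.lift S E.cpt _ (dh_off m.s14 m.p14 S.closed m.o14) E.n4

theorem drow24 : FRow 1 P' P' N B₂ B₄ (m.b24.dh 1 m.p24).actL := frow_act_fin _ E.n4

end

variable {om : A.ι → ℝ} {om' : A'.ι → ℝ} {V₁ V₂ V₃ V₄ : Type*} [AddCommGroup V₁] [Module ℂ V₁]
  [AddCommGroup V₂] [Module ℂ V₂] [AddCommGroup V₃] [Module ℂ V₃] [AddCommGroup V₄] [Module ℂ V₄]
  (X₁ : RS P B₁ N om V₁) (X₂ : RS P' B₂ N om' V₂) (X₃ : RS P B₃ N om V₃) (X₄ : RS P' B₄ N om' V₄)

/-- component `1 → 3` -/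
def T13 : V₁ →ₗ[ℂ] V₃ := X₃.lift (m.a13.actL ∘ₗ X₁.inc) fun v =>
  RS.srow_mem (X := X₁) X₃ E.row13 v

/-- component `2 → 3` -/
def T23 : V₂ →ₗ[ℂ] V₃ := X₃.lift (pullH m.s23 ∘ₗ X₂.inc) fun v =>
  RS.frow_mem X₃ E.row23 (X₂.inc v)

/-- component `1 → 4` -/
def T14 : V₁ →ₗ[ℂ] V₄ := X₄.lift (pushH S m.s14 m.o14 ∘ₗ X₁.inc) fun v =>
  RS.frow_mem X₄ E.row14 (X₁.inc v)

/-- component `2 → 4` -/
def T24 : V₂ →ₗ[ℂ] V₄ := X₄.lift (m.b24.actL ∘ₗ X₂.inc) fun v =>
  RS.frow_mem X₄ E.row24 (X₂.inc v)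

/-- the excision map of the weighted spaces -/
def ΦV : (V₁ × V₂) →ₗ[ℂ] (V₃ × V₄) :=
  LinearMap.prod
    (E.T13 X₁ X₃ ∘ₗ LinearMap.fst ℂ _ _ + E.T23 X₂ X₃ ∘ₗ LinearMap.snd ℂ _ _)
    (E.T14 X₁ X₄ ∘ₗ LinearMap.fst ℂ _ _ - E.T24 X₂ X₄ ∘ₗ LinearMap.snd ℂ _ _)

theorem inc_ΦV (v : V₁ × V₂) : (X₃.inc (E.ΦV X₁ X₂ X₃ X₄ v).1, X₄.inc (E.ΦV X₁ X₂ X₃ X₄ v).2) =
    m.Φ (X₁.inc v.1, X₂.inc v.2) := by
  apply Prod.ext
  · show X₃.inc (E.T13 X₁ X₃ v.1 + E.T23 X₂ X₃ v.2) = m.a13.actL (X₁.inc v.1) +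
      pullH m.s23 (X₂.inc v.2)
    rw [map_add]
    unfold T13 T23
    rw [RS.inc_lift, RS.inc_lift]
    rfl
  · show X₄.inc (E.T14 X₁ X₄ v.1 - E.T24 X₂ X₄ v.2) = pushH S m.s14 m.o14 (X₁.inc v.1) -
      m.b24.actL (X₂.inc v.2)
    rw [map_sub]
    unfold T14 T24
    rw [RS.inc_lift, RS.inc_lift]
    rfl

theorem ΦV_ΦV (v : V₁ × V₂) :
    E.swap.ΦV X₃ X₄ X₁ X₂ (E.ΦV X₁ X₂ X₃ X₄ v) = v := by
  have h1 := E.swap.inc_ΦV X₃ X₄ X₁ X₂ (E.ΦV X₁ X₂ X₃ X₄ v)
  rw [E.inc_ΦV X₁ X₂ X₃ X₄ v, m.swap_Φ_Φ E.inv] at h1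
  obtain ⟨h2, h3⟩ := Prod.mk.inj h1
  exact Prod.ext (X₁.inj h2) (X₂.inj h3)

/-- the excision isomorphism of the weighted spaces -/
def eqV : (V₁ × V₂) ≃ₗ[ℂ] (V₃ × V₄) :=
  LinearEquiv.ofLinearMap (E.ΦV X₁ X₂ X₃ X₄) (E.swap.ΦV X₃ X₄ X₁ X₂)
    (LinearMap.ext fun v => E.swap.ΦV_ΦV X₃ X₄ X₁ X₂ v)
    (LinearMap.ext fun v => E.ΦV_ΦV X₁ X₂ X₃ X₄ v)

theorem op0_ΦV : Op0 (X₁.sc.prod X₂.sc) (X₃.sc.prod X₄.sc) (E.ΦV X₁ X₂ X₃ X₄) := by
  have h13 : Op0 X₁.sc X₃.sc (E.T13 X₁ X₃) :=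
    RS.srow_op0 (X := X₁) (X₁ := X₃) E.row13 fun v => X₃.inc_lift _ _ v
  have h23 : Op0 X₂.sc X₃.sc (E.T23 X₂ X₃) :=
    RS.frow_op0 (X := X₂) (X' := X₃) E.row23 fun v => X₃.inc_lift _ _ v
  have h14 : Op0 X₁.sc X₄.sc (E.T14 X₁ X₄) :=
    RS.frow_op0 (X := X₁) (X' := X₄) E.row14 fun v => X₄.inc_lift _ _ v
  have h24 : Op0 X₂.sc X₄.sc (E.T24 X₂ X₄) :=
    RS.frow_op0 (X := X₂) (X' := X₄) E.row24 fun v => X₄.inc_lift _ _ v
  have h1 : E.ΦV X₁ X₂ X₃ X₄ =
      LinearMap.inl ℂ _ _ ∘ₗ (E.T13 X₁ X₃ ∘ₗ LinearMap.fst ℂ _ _ +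
        E.T23 X₂ X₃ ∘ₗ LinearMap.snd ℂ _ _) +
      LinearMap.inr ℂ _ _ ∘ₗ (E.T14 X₁ X₄ ∘ₗ LinearMap.fst ℂ _ _ -
        E.T24 X₂ X₄ ∘ₗ LinearMap.snd ℂ _ _) := by
    apply LinearMap.ext
    intro v
    apply Prod.ext
    · show _ = _ + (0 : V₃)
      rw [add_zero]; rfl
    · show _ = (0 : V₄) + _
      rw [zero_add]; rfl
  rw [h1]
  exact (op0_inl.comp ((h13.comp op0_fst).add (h23.comp op0_snd))).add
    (op0_inr.comp ((h14.comp op0_fst).sub (h24.comp op0_snd)))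

/-- standard gradings -/
structure Std {P : Part A} {B : FBun A} {om : A.ι → ℝ} {V : Type*} [AddCommGroup V] [Module ℂ V]
    (X : RS P B N om V) (G : Gd X.sc) : Prop where
  pi : ∀ q v, X.inc (G.π q v) = pqL B q (X.inc v)
  T : ∀ v, G.T v = G.sgn v

variable {X₁ X₂ X₃ X₄} {G₁ : Gd X₁.sc} {G₂ : Gd X₂.sc} {G₃ : Gd X₃.sc} {G₄ : Gd X₄.sc}

theorem pi_ΦV (h1 : Std X₁ G₁) (h2 : Std X₂ G₂) (h3 : Std X₃ G₃) (h4 : Std X₄ G₄) (q : ℕ)
    (v : V₁ × V₂) : E.ΦV X₁ X₂ X₃ X₄ ((G₁.prod G₂).π q v) =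
      (G₃.prod G₄).π q (E.ΦV X₁ X₂ X₃ X₄ v) := by
  have k1 := E.inc_ΦV X₁ X₂ X₃ X₄ ((G₁.prod G₂).π q v)
  have k2 := E.inc_ΦV X₁ X₂ X₃ X₄ v
  obtain ⟨k3, k4⟩ := Prod.mk.inj k1
  obtain ⟨k5, k6⟩ := Prod.mk.inj k2
  apply Prod.ext
  · apply X₃.inj
    show X₃.inc (E.ΦV X₁ X₂ X₃ X₄ ((G₁.prod G₂).π q v)).1 =
      X₃.inc (G₃.π q (E.ΦV X₁ X₂ X₃ X₄ v).1)
    rw [h3.pi, k5, k3]
    show m.a13.actL (X₁.inc (G₁.π q v.1)) + pullH m.s23 (X₂.inc (G₂.π q v.2)) =
      pqL B₃ q (m.a13.actL (X₁.inc v.1) + pullH m.s23 (X₂.inc v.2))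
    rw [h1.pi, h2.pi, map_add, act_pqL]
    congr 1
    show m.s23.actL (C.pullS B₂ (pqL B₂ q (X₂.inc v.2))) = _
    rw [pull_pqL, act_pqL]
    rfl
  · apply X₄.inj
    show X₄.inc (E.ΦV X₁ X₂ X₃ X₄ ((G₁.prod G₂).π q v)).2 =
      X₄.inc (G₄.π q (E.ΦV X₁ X₂ X₃ X₄ v).2)
    rw [h4.pi, k6, k4]
    show pushH S m.s14 m.o14 (X₁.inc (G₁.π q v.1)) - m.b24.actL (X₂.inc (G₂.π q v.2)) =
      pqL B₄ q (pushH S m.s14 m.o14 (X₁.inc v.1) - m.b24.actL (X₂.inc v.2))
    rw [h1.pi, h2.pi, map_sub, act_pqL, push_pqL]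

theorem sgn_of_le {V : Type*} [AddCommGroup V] [Module ℂ V] (G : Gr ℂ V) {k : ℕ} (h : G.m ≤ k) :
    G.sgn = ∑ q ∈ Finset.range (k + 1), (-1 : ℂ) ^ q • G.π q := by
  unfold Gr.sgn
  refine Finset.sum_subset (Finset.range_mono (Nat.succ_le_succ h)) fun q _ hq => ?_
  rw [Finset.mem_range, not_lt] at hq
  apply LinearMap.ext
  intro v
  rw [LinearMap.smul_apply, G.top q v (by simpa using hq), smul_zero]
  rfl

theorem prod_sgn {V W : Type*} [AddCommGroup V] [Module ℂ V] [AddCommGroup W] [Module ℂ W]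
    (G : Gr ℂ V) (G' : Gr ℂ W) (v : V × W) : (G.prod G').sgn v = (G.sgn v.1, G'.sgn v.2) := by
  rw [sgn_of_le G (le_max_left G.m G'.m), sgn_of_le G' (le_max_right G.m G'.m)]
  show (∑ q ∈ Finset.range (max G.m G'.m + 1), (-1 : ℂ) ^ q • (G.π q).prodMap (G'.π q)) v = _
  simp only [LinearMap.sum_apply, LinearMap.smul_apply]
  apply Prod.ext
  · rw [Prod.fst_sum]; rfl
  · rw [Prod.snd_sum]; rfl

theorem isoG (h1 : Std X₁ G₁) (h2 : Std X₂ G₂) (h3 : Std X₃ G₃) (h4 : Std X₄ G₄) :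
    IsoG (G₁.prod G₂) (G₃.prod G₄) (E.eqV X₁ X₂ X₃ X₄) where
  op := E.op0_ΦV X₁ X₂ X₃ X₄
  op_symm := E.swap.op0_ΦV X₃ X₄ X₁ X₂
  pi q v := E.pi_ΦV h1 h2 h3 h4 q v
  T v := by
    have key : Deg (G₁.prod G₂).toGr (G₃.prod G₄).toGr 0 (E.ΦV X₁ X₂ X₃ X₄) := by
      intro q r hr v
      rw [E.pi_ΦV h1 h2 h3 h4, (G₃.prod G₄).orth r q _ (by omega)]
    have e1 : (G₁.prod G₂).T v = (G₁.prod G₂).sgn v := by
      show (G₁.T v.1, G₂.T v.2) = (G₁.toGr.prod G₂.toGr).sgn v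
      rw [prod_sgn, h1.T, h2.T]
    have e2 : (G₃.prod G₄).T (E.ΦV X₁ X₂ X₃ X₄ v) = (G₃.prod G₄).sgn (E.ΦV X₁ X₂ X₃ X₄ v) := by
      show (G₃.T _, G₄.T _) = (G₃.toGr.prod G₄.toGr).sgn _
      rw [prod_sgn, h3.T, h4.T]
      rfl
    show E.ΦV X₁ X₂ X₃ X₄ ((G₁.prod G₂).T v) = (G₃.prod G₄).T (E.ΦV X₁ X₂ X₃ X₄ v)
    rw [e1, e2]
    exact key.sgn_even (by simp) v

include E in
/-- **excision** -/
theorem index (h1 : Std X₁ G₁) (h2 : Std X₂ G₂) (h3 : Std X₃ G₃) (h4 : Std X₄ G₄)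
    (Q₁ : QC G₁) (Q₂ : QC G₂) (Q₃ : QC G₃) (Q₄ : QC G₄)
    (d1 : ∀ v, X₁.inc (Q₁.d v) = nabL B₁ (X₁.inc v))
    (d2 : ∀ v, X₂.inc (Q₂.d v) = nabL B₂ (X₂.inc v))
    (d3 : ∀ v, X₃.inc (Q₃.d v) = nabL B₃ (X₃.inc v))
    (d4 : ∀ v, X₄.inc (Q₄.d v) = nabL B₄ (X₄.inc v)) :
    Q₁.ind + Q₂.ind = Q₃.ind + Q₄.ind := by
  refine QC.bunke Q₁ Q₂ Q₃ Q₄ (E.isoG h1 h2 h3 h4) ?_
  -- the components of the commutator
  let D13 : V₁ →ₗ[ℂ] V₃ := X₃.lift ((m.a13.dh 1 m.p13).actL ∘ₗ X₁.inc) fun v =>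
    RS.frow_mem X₃ E.drow13 (X₁.inc v)
  let D23 : V₂ →ₗ[ℂ] V₃ := X₃.lift (pullH (m.s23.dh 1 m.p23) ∘ₗ X₂.inc) fun v =>
    RS.frow_mem X₃ E.drow23 (X₂.inc v)
  let D14 : V₁ →ₗ[ℂ] V₄ := X₄.lift
    (pushH S (m.s14.dh 1 m.p14) (dh_off m.s14 m.p14 S.closed m.o14) ∘ₗ X₁.inc) fun v =>
    RS.frow_mem X₄ E.drow14 (X₁.inc v)
  let D24 : V₂ →ₗ[ℂ] V₄ := X₄.lift ((m.b24.dh 1 m.p24).actL ∘ₗ X₂.inc) fun v =>
    RS.frow_mem X₄ E.drow24 (X₂.inc v)
  have n13 : Neg X₁.sc X₃.sc D13 :=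
    RS.frow_neg (X := X₁) (X' := X₃) E.drow13 fun v => X₃.inc_lift _ _ v
  have n23 : Neg X₂.sc X₃.sc D23 :=
    RS.frow_neg (X := X₂) (X' := X₃) E.drow23 fun v => X₃.inc_lift _ _ v
  have n14 : Neg X₁.sc X₄.sc D14 :=
    RS.frow_neg (X := X₁) (X' := X₄) E.drow14 fun v => X₄.inc_lift _ _ v
  have n24 : Neg X₂.sc X₄.sc D24 :=
    RS.frow_neg (X := X₂) (X' := X₄) E.drow24 fun v => X₄.inc_lift _ _ v
  have key : (E.eqV X₁ X₂ X₃ X₄ : (V₁ × V₂) →ₗ[ℂ] (V₃ × V₄)) ∘ₗ Q₁.d.prodMap Q₂.d -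
      Q₃.d.prodMap Q₄.d ∘ₗ (E.eqV X₁ X₂ X₃ X₄ : (V₁ × V₂) →ₗ[ℂ] (V₃ × V₄)) =
      -(LinearMap.inl ℂ _ _ ∘ₗ (D13 ∘ₗ LinearMap.fst ℂ _ _ + D23 ∘ₗ LinearMap.snd ℂ _ _) +
        LinearMap.inr ℂ _ _ ∘ₗ (D14 ∘ₗ LinearMap.fst ℂ _ _ - D24 ∘ₗ LinearMap.snd ℂ _ _)) := by
    apply LinearMap.ext
    intro v
    have k0 := LinearMap.congr_fun m.nab_Φ (X₁.inc v.1, X₂.inc v.2)
    have k1 := E.inc_ΦV X₁ X₂ X₃ X₄ (Q₁.d v.1, Q₂.d v.2)
    have k2 := E.inc_ΦV X₁ X₂ X₃ X₄ v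
    have k3 : m.Φ ((nabL B₁).prodMap (nabL B₂) (X₁.inc v.1, X₂.inc v.2)) =
        m.Φ (X₁.inc (Q₁.d v.1), X₂.inc (Q₂.d v.2)) := by
      rw [d1, d2]; rfl
    rw [LinearMap.comp_apply, ← k2, LinearMap.add_apply, LinearMap.comp_apply, k3, ← k1] at k0
    obtain ⟨k4, k5⟩ := Prod.mk.inj k0
    apply Prod.ext
    · apply X₃.inj
      show X₃.inc ((E.ΦV X₁ X₂ X₃ X₄ (Q₁.d v.1, Q₂.d v.2)).1 - Q₃.d (E.ΦV X₁ X₂ X₃ X₄ v).1) =
        X₃.inc (-((D13 v.1 + D23 v.2) + 0))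
      rw [add_zero, map_neg, map_sub, d3, map_add]
      have k6 : X₃.inc (D13 v.1) = (m.a13.dh 1 m.p13).actL (X₁.inc v.1) := X₃.inc_lift _ _ v.1
      have k7 : X₃.inc (D23 v.2) = pullH (m.s23.dh 1 m.p23) (X₂.inc v.2) := X₃.inc_lift _ _ v.2
      rw [k6, k7]
      have k8 : nabL B₃ (X₃.inc (E.ΦV X₁ X₂ X₃ X₄ v).1) =
          X₃.inc (E.ΦV X₁ X₂ X₃ X₄ (Q₁.d v.1, Q₂.d v.2)).1 +
            ((m.a13.dh 1 m.p13).actL (X₁.inc v.1) + pullH (m.s23.dh 1 m.p23) (X₂.inc v.2)) := k4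
      rw [k8]
      abel
    · apply X₄.inj
      show X₄.inc ((E.ΦV X₁ X₂ X₃ X₄ (Q₁.d v.1, Q₂.d v.2)).2 - Q₄.d (E.ΦV X₁ X₂ X₃ X₄ v).2) =
        X₄.inc (-(0 + (D14 v.1 - D24 v.2)))
      rw [zero_add, map_neg, map_sub, d4, map_sub]
      have k6 : X₄.inc (D14 v.1) =
          pushH S (m.s14.dh 1 m.p14) (dh_off m.s14 m.p14 S.closed m.o14) (X₁.inc v.1) :=
        X₄.inc_lift _ _ v.1
      have k7 : X₄.inc (D24 v.2) = (m.b24.dh 1 m.p24).actL (X₂.inc v.2) := X₄.inc_lift _ _ v.2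
      rw [k6, k7]
      have k8 : nabL B₄ (X₄.inc (E.ΦV X₁ X₂ X₃ X₄ v).2) =
          X₄.inc (E.ΦV X₁ X₂ X₃ X₄ (Q₁.d v.1, Q₂.d v.2)).2 +
            (pushH S (m.s14.dh 1 m.p14) (dh_off m.s14 m.p14 S.closed m.o14) (X₁.inc v.1) -
              (m.b24.dh 1 m.p24).actL (X₂.inc v.2)) := k5
      rw [k8]
      abel
  rw [key]
  exact (((((n13.comp_right op0_fst).add (n23.comp_right op0_snd)).comp_left op0_inl).add
    (((n14.comp_right op0_fst).sub (n24.comp_right op0_snd)).comp_left op0_inr))).neg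

end EData

end

end Crest.Agent.R275.Exc685
end

-- ▼ part R275/ExcG_685
section

/-!
# R275, block D, EXC (helper685), file G: excision for line bundles

`RS.ofWS`, `RS.ofS` : the weighted spaces of 681 and the sections over a finite atlas;
`ExcIn.OK` : the remaining conditions on 861's data; `exc_ind` : excision of the indices.
-/

set_option autoImplicit false
set_option linter.unusedSectionVars false

open Set Filter Topology Complex
open scoped ContDiff Matrix ComplexConjugate Kronecker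

namespace Crest.Agent.R275.Exc685

open Geo XN194 FHom556 Tor812 TorS666 Ret666 Fred685 WY4193 WY681 ExcE861
open RetC666 (LocV scS retS)
open Gau511 (IsDG IsDQ)
open CIdx509 (indB gd qc)
open UpL473 (chg sec_chg)

noncomputable section

variable {n : ℕ} {M M' : Type} [TopologicalSpace M] [TopologicalSpace M']
  {A : Atl n M} {A' : Atl n M'}

/-! ### the two sorts of spaces -/

section spaces

variable {P : Part A} {B : FBun A} {Q : PNb P}

/-- 681's weighted spaces -/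
def RS.ofWS (h : BGeo P B) (w : WY681.Wt Q) : RS P B n w.w (WSm B w) where
  R := WY681.ret h w
  e := Equiv.refl _
  om_eq _ := rfl
  sh_eq _ := rfl
  inc := (WSm B w).subtype
  inj := Subtype.val_injective
  loc_eq _ _ := rfl
  surj u hu := ⟨⟨u, hu⟩, rfl⟩

theorem std_of_dg {h : BGeo P B} {w : WY681.Wt Q} {G : Gd (WY681.sc h w)} (hG : IsDG h w G) :
    EData.Std (RS.ofWS h w) G where
  pi q v := hG.pi q v
  T v := by rw [hG.T]

/-- all sections over a finite atlas -/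
def RS.ofS [Finite A.ι] (P : Part A) (B : FBun A) (N : ℕ) :
    RS P B N (fun _ => 1) (Sec B) where
  R := retS P B N
  e := Equiv.refl _
  om_eq _ := rfl
  sh_eq _ := rfl
  inc := LinearMap.id
  inj := Function.injective_id
  loc_eq _ _ := rfl
  surj u _ := ⟨u, rfl⟩

theorem std_gd [Finite A.ι] (P : Part A) (B : FBun A) (m : ℕ) (hm : topDeg B ≤ m) :
    EData.Std (RS.ofS P B m) (gd P B m hm) where
  pi _ _ := rfl
  T _ := rfl

end spaces

/-! ### change of the transition matrices off the overlaps -/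

section chgS

variable {P : Part A} {B : FBun A} {τ' : A.ι → A.ι → M → Matrix B.κ B.κ ℂ}
  {h : ∀ i j, ∀ x ∈ (A.e i).source ∩ (A.e j).source, τ' i j x = B.τ i j x}
  {hd : ∀ i j x k l, τ' i j x k l ≠ 0 → B.deg k = B.deg l}
  {N : ℕ} {om : A.ι → ℝ} {V : Type*} [AddCommGroup V] [Module ℂ V]

/-- sections of `chg B` as sections of `B` -/
def chgL : Sec (chg B τ' h hd) →ₗ[ℂ] Sec B := (LinearEquiv.ofEq _ _ sec_chg).toLinearMap


theorem chgL_nab (u : Sec (chg B τ' h hd)) :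
    chgL (nabL (chg B τ' h hd) u) = nabL B (chgL u) := Subtype.ext rfl

theorem chgL_pq (q : ℕ) (u : Sec (chg B τ' h hd)) :
    chgL (pqL (chg B τ' h hd) q u) = pqL B q (chgL u) := Subtype.ext rfl

/-- the same space of sections -/
def RS.chg (X : RS P (chg B τ' h hd) N om V) : RS P B N om V where
  R := X.R
  e := X.e
  om_eq := X.om_eq
  sh_eq := X.sh_eq
  inc := chgL ∘ₗ X.inc
  inj := (LinearEquiv.ofEq _ _ sec_chg).injective.comp X.inj
  loc_eq := X.loc_eq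
  surj u hu := by
    have hu' : u.1 ∈ Sec (UpL473.chg B τ' h hd) := by rw [sec_chg]; exact u.2
    obtain ⟨v, hv⟩ := X.surj ⟨u.1, hu'⟩ hu
    refine ⟨v, Subtype.ext ?_⟩
    show (X.inc v).1 = u.1
    rw [hv]

theorem std_chg {X : RS P (chg B τ' h hd) N om V} {G : Gd X.sc} (hG : EData.Std X G) :
    EData.Std (G := G) X.chg where
  pi q v := by
    show chgL (X.inc (G.π q v)) = pqL B q (chgL (X.inc v))
    rw [hG.pi, chgL_pq]
  T := hG.T

/-- the excision theorem, with other values of the transition matrices off the overlaps -/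
theorem index_chg {M' : Type} [TopologicalSpace M'] {A' : Atl n M'} {C : Cov A A'} {S : Slab C}
    {P' : Part A'} {B₁ : FBun A} {B₂ : FBun A'} {B₃ : FBun A} {B₄ : FBun A'}
    {m : Maps S B₁ B₂ B₃ B₄} (E : EData S P P' N m) [Finite A'.ι] {om' : A'.ι → ℝ}
    {V₁ V₂ V₃ V₄ : Type*} [AddCommGroup V₁] [Module ℂ V₁]
    [AddCommGroup V₂] [Module ℂ V₂] [AddCommGroup V₃] [Module ℂ V₃] [AddCommGroup V₄]
    [Module ℂ V₄]
    {τ₁ : A.ι → A.ι → M → Matrix B₁.κ B₁.κ ℂ}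
    {h₁ : ∀ i j, ∀ x ∈ (A.e i).source ∩ (A.e j).source, τ₁ i j x = B₁.τ i j x}
    {hd₁ : ∀ i j x k l, τ₁ i j x k l ≠ 0 → B₁.deg k = B₁.deg l}
    {τ₃ : A.ι → A.ι → M → Matrix B₃.κ B₃.κ ℂ}
    {h₃ : ∀ i j, ∀ x ∈ (A.e i).source ∩ (A.e j).source, τ₃ i j x = B₃.τ i j x}
    {hd₃ : ∀ i j x k l, τ₃ i j x k l ≠ 0 → B₃.deg k = B₃.deg l}
    {D₁ D₃ : FBun A} (e₁ : D₁ = UpL473.chg B₁ τ₁ h₁ hd₁) (e₃ : D₃ = UpL473.chg B₃ τ₃ h₃ hd₃)
    {X₁ : RS P D₁ N om V₁} {X₂ : RS P' B₂ N om' V₂} {X₃ : RS P D₃ N om V₃}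
    {X₄ : RS P' B₄ N om' V₄} {G₁ : Gd X₁.sc} {G₂ : Gd X₂.sc} {G₃ : Gd X₃.sc} {G₄ : Gd X₄.sc}
    (s1 : EData.Std X₁ G₁) (s2 : EData.Std X₂ G₂) (s3 : EData.Std X₃ G₃) (s4 : EData.Std X₄ G₄)
    (Q₁ : QC G₁) (Q₂ : QC G₂) (Q₃ : QC G₃) (Q₄ : QC G₄)
    (d1 : ∀ v, X₁.inc (Q₁.d v) = nabL D₁ (X₁.inc v))
    (d2 : ∀ v, X₂.inc (Q₂.d v) = nabL B₂ (X₂.inc v))
    (d3 : ∀ v, X₃.inc (Q₃.d v) = nabL D₃ (X₃.inc v))
    (d4 : ∀ v, X₄.inc (Q₄.d v) = nabL B₄ (X₄.inc v)) :
    Q₁.ind + Q₂.ind = Q₃.ind + Q₄.ind := by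
  subst e₁
  subst e₃
  refine E.index (X₁ := X₁.chg) (X₃ := X₃.chg) (std_chg s1) s2 (std_chg s3) s4 Q₁ Q₂ Q₃ Q₄
    (fun v => ?_) d2 (fun v => ?_) d4
  · show chgL (X₁.inc (Q₁.d v)) = nabL B₁ (chgL (X₁.inc v))
    rw [d1, chgL_nab]
  · show chgL (X₃.inc (Q₃.d v)) = nabL B₃ (chgL (X₃.inc v))
    rw [d3, chgL_nab]

end chgS

/-! ### the data of 861 -/

section excin

variable {C : Cov A A'} {S : Slab C} {E₁ : VBun A} {E₂ : VBun A'} {E₃ : VBun A} {E₄ : VBun A'}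
  [Unique E₁.ρ] [Unique E₂.ρ] [Unique E₃.ρ] [Unique E₄.ρ]

/-- the remaining conditions: the cut-off `ψ` is `1` and the connections agree off the slab -/
structure OK (X : ExcIn S E₁ E₂ E₃ E₄) : Prop where
  one : ∀ x ∉ S.K, X.ψ x = 1
  al : ∀ i, ∀ x ∈ (A.e i).source, x ∉ S.K → ∀ b, al E₁ i b x = al E₃ i b x

variable {X : ExcIn S E₁ E₂ E₃ E₄}

theorem OK.flip (h : OK X) : OK X.flip where
  one := h.one
  al i x hx hK b := (h.al i x hx hK b).symm

theorem offId_sc {P : Part A} (hK : IsCompact S.K) (B : FBun A) {f : M → ℂ} {hf : A.Sm f}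
    {hg : ∀ i j, ∀ x ∈ (A.e i).source ∩ (A.e j).source, f x ≠ 0 → gl E₁ i j x = gl E₃ i j x}
    (h1 : ∀ x ∉ S.K, f x = 1) : OffId P ((ExcE861.sc E₁ E₃ f hf hg).tw B) (slabF S hK P) := by
  refine ⟨fun p => (p.1, default), fun p => rfl, fun i hi x hx hψ v p => ?_⟩
  obtain ⟨k, r⟩ := p
  have hx1 : f x = 1 := h1 x (notMem_slabF hi hψ)
  show ∑ q : B.κ × E₁.ρ, ((1 : Matrix B.κ B.κ ℂ) ⊗ₖ
    (Matrix.of fun (_ : E₃.ρ) (_ : E₁.ρ) => f x)) (k, r) q * v q = v (k, default)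
  rw [Fintype.sum_eq_single (k, (default : E₁.ρ))]
  · show (1 : Matrix B.κ B.κ ℂ) k k * f x * _ = _
    rw [Matrix.one_apply_eq, hx1, one_mul, one_mul]
  · rintro ⟨l, t⟩ hne
    show (1 : Matrix B.κ B.κ ℂ) k l * f x * _ = 0
    have hkl : k ≠ l := by
      rintro rfl
      exact hne (Prod.ext rfl (Subsingleton.elim _ _))
    rw [Matrix.one_apply_ne hkl, zero_mul, zero_mul]

theorem offd_sc {P : Part A} (hK : IsCompact S.K) (B : FBun A) {f : M → ℂ} {hf : A.Sm f}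
    {hg : ∀ i j, ∀ x ∈ (A.e i).source ∩ (A.e j).source, f x ≠ 0 → gl E₁ i j x = gl E₃ i j x}
    (h1 : ∀ x ∉ S.K, f x = 1)
    (h2 : ∀ i, ∀ x ∈ (A.e i).source, x ∉ S.K → ∀ b, al E₁ i b x = al E₃ i b x) :
    ∀ i ∉ slabF S hK P, ∀ x ∈ (A.e i).source, P.ψ i x ≠ 0 →
      (((ExcE861.sc E₁ E₃ f hf hg).tw B).dh 1 (VHom.tw_sup B _)).h i x = 0 := by
  intro i hi x hx hψ
  have hxK := notMem_slabF hi hψ
  refine VHom.dh_tw_zero B _ fun _ b => ?_
  refine sc_dv_zero hx (c := 1) ?_ (fun _ => h2 i x hx hxK) b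
  filter_upwards [S.closed.isOpen_compl.mem_nhds hxK] with y hy
  exact h1 y hy

/-- **the data of an excision from those of 861** -/
theorem OK.edata (h : OK X) {P : Part A} {P' : Part A'} (hL : IsLift C P P')
    (hK : IsCompact S.K) (B : FBun A') {N : ℕ} (hN : ∀ k, B.deg k ≤ N) :
    EData S P P' N (X.maps B) where
  lift := hL
  cpt := hK
  inv := X.inv B
  inv' := X.inv' B
  n1 p := hN p.1
  n2 p := hN p.1
  n3 p := hN p.1
  n4 p := hN p.1
  off := ⟨slabF S hK P, offId_sc hK (C.pullB B) h.one⟩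
  off' := ⟨slabF S hK P, offId_sc hK (C.pullB B) h.one⟩
  offd := ⟨slabF S hK P, offd_sc hK (C.pullB B) h.one h.al⟩
  offd' := ⟨slabF S hK P, offd_sc hK (C.pullB B) h.one fun i x hx hK b => (h.al i x hx hK b).symm⟩

end excin

/-! ### forms of type `(0,q)` with values in line bundles -/

section lam

variable {M M' : Type} [TopologicalSpace M] [TopologicalSpace M'] {A : Atl 2 M} {A' : Atl 2 M'}
  {C : Cov A A'}

theorem jm_cov {i j : A.ι} {x : M} (hx : x ∈ (A.e i).source ∩ (A.e j).source) :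
    Lam2130.Jm A i j x = Lam2130.Jm A' (C.r i) (C.r j) (C.p x) := by
  ext b a
  exact C.J_eq hx b a

/-- the transition matrices of `tw (lam2 A) E` -/
def tauT (E : VBun A) : A.ι → A.ι → M → Matrix (Fin 4 × E.ρ) (Fin 4 × E.ρ) ℂ :=
  (tw (Lam2130.lam2 A) E).τ

theorem tau_cov (C : Cov A A') (E : VBun A) (i j : A.ι) (x : M)
    (hx : x ∈ (A.e i).source ∩ (A.e j).source) :
    @Eq (Matrix (Fin 4 × E.ρ) (Fin 4 × E.ρ) ℂ) (tauT E i j x)
      ((tw (C.pullB (Lam2130.lam2 A')) E).τ i j x) := by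
  apply Matrix.ext
  intro k l
  show Lam2130.tauM (Lam2130.Jm A i j x) k.1 l.1 * E.g i j x k.2 l.2
    = Lam2130.tauM (Lam2130.Jm A' (C.r i) (C.r j) (C.p x)) k.1 l.1 * E.g i j x k.2 l.2
  rw [jm_cov (C := C) hx]

theorem eq_covB (C : Cov A A') (E : VBun A) : tw (Lam2130.lam2 A) E =
    chg (tw (C.pullB (Lam2130.lam2 A')) E) (tauT E) (tau_cov C E)
      (tw (Lam2130.lam2 A) E).τ_deg := rfl

theorem topDeg_lam2 (E : VBun A') : topDeg (tw (Lam2130.lam2 A') E) ≤ 2 := by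
  refine Finset.sup_le fun p _ => ?_
  show Lam2130.dg p.1 ≤ 2
  obtain ⟨k, -⟩ := p
  fin_cases k <;> simp [Lam2130.dg]

variable {S : Slab C} {E₁ : VBun A} {E₂ : VBun A'} {E₃ : VBun A} {E₄ : VBun A'}
  [Unique E₁.ρ] [Unique E₂.ρ] [Unique E₃.ρ] [Unique E₄.ρ]

/-- **excision**: `ind (Y, E₁) + ind (X_N, E₂) = ind (Y, E₃) + ind (X_N, E₄)`, for every pair of
weights on `Y` -/
theorem exc_ind [Finite A'.ι] {X : ExcIn S E₁ E₂ E₃ E₄} (h : OK X) {P : Part A} {P' : Part A'}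
    (hL : IsLift C P P') (hK : IsCompact S.K) {Q : PNb P} {w : WY681.Wt Q}
    {h₁ : BGeo P (tw (Lam2130.lam2 A) E₁)} {h₃ : BGeo P (tw (Lam2130.lam2 A) E₃)}
    {G₁ : Gd (WY681.sc h₁ w)} {G₃ : Gd (WY681.sc h₃ w)} {D₁ : QC G₁} {D₃ : QC G₃}
    (hD₁ : IsDQ D₁) (hD₃ : IsDQ D₃) :
    D₁.ind + indB P' (tw (Lam2130.lam2 A') E₂) = D₃.ind + indB P' (tw (Lam2130.lam2 A') E₄) := by
  have hN : ∀ k, (Lam2130.lam2 A').deg k ≤ 2 := by
    intro k
    show Lam2130.dg k ≤ 2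
    fin_cases k <;> simp [Lam2130.dg]
  have E := h.edata (P := P) hL hK (Lam2130.lam2 A') hN
  have k2 := CIdx509.qc_ind P' (tw (Lam2130.lam2 A') E₂) 2 (topDeg_lam2 E₂)
  have k4 := CIdx509.qc_ind P' (tw (Lam2130.lam2 A') E₄) 2 (topDeg_lam2 E₄)
  rw [← k2, ← k4]
  exact index_chg E (eq_covB C E₁) (eq_covB C E₃) (X₁ := RS.ofWS h₁ w)
    (X₂ := RS.ofS P' (tw (Lam2130.lam2 A') E₂) 2)
    (X₃ := RS.ofWS h₃ w) (X₄ := RS.ofS P' (tw (Lam2130.lam2 A') E₄) 2)
    (std_of_dg hD₁.dg) (std_gd _ _ _ _) (std_of_dg hD₃.dg) (std_gd _ _ _ _)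
    D₁ (qc P' (tw (Lam2130.lam2 A') E₂) 2 (topDeg_lam2 E₂)) D₃
    (qc P' (tw (Lam2130.lam2 A') E₄) 2 (topDeg_lam2 E₄))
    (fun v => hD₁.d v) (fun _ => rfl) (fun v => hD₃.d v) (fun _ => rfl)

end lam

end

end Crest.Agent.R275.Exc685
end

-- ▼ part R275/ExcH_685
section

/-!
# R275, block D, EXC (helper685), file H: excision for the bundle of an integral 2-cocycle
-/

set_option autoImplicit false
set_option linter.unusedSectionVars false

open Set Filter Topology Complex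
open scoped ContDiff Matrix ComplexConjugate Kronecker

namespace Crest.Agent.R275.Exc685

open Geo XN194 FHom556 Fred685 WY681 ExcE861 ExcF861 GC293 EcV938
open Gau511 (IsDG IsDQ)
open CIdx509 (indB)

noncomputable section

variable {M M' : Type} [TopologicalSpace M] [TopologicalSpace M'] {A : Atl 2 M} {A' : Atl 2 M'}
  {C : Cov A A'} {S : Slab C} {P : Part A} {P' : Part A'} {c : A.ι → A.ι → A.ι → ℤ}
  {cN : A'.ι → A'.ι → A'.ι → ℤ}

theorem ok_exc {E₂ : VBun A'} {E₃ : VBun A} [Unique E₂.ρ] [Unique E₃.ρ] (W : Win S)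
    (h : CC W c cN) (hP : EcV938.IsLift C P P') (hc : c ∈ Z2 A ℤ) (hcN : cN ∈ Z2 A' ℤ)
    (t₂ : Triv1 E₂) (t₃ : Triv1 E₃) : OK (exc W h hP hc hcN t₂ t₃) where
  one := W.offψ
  al i x hx hK b := by
    rw [t₃.a i x hx b]
    refine al_EcV_zero hc hx (fun l m hl hm => h.zero hm hl hx ?_) b
    rw [W.offψ x hK]
    exact one_ne_zero

/-- **excision for the bundle of an integral 2-cocycle** -/
theorem index_exc [Finite A'.ι] (W : Win S) (h : CC W c cN) (hP : EcV938.IsLift C P P')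
    (hPP : Exc685.IsLift C P P') (hK : IsCompact S.K) (hc : c ∈ Z2 A ℤ) (hcN : cN ∈ Z2 A' ℤ)
    {Q : PNb P} {w : WY681.Wt Q} {hB : BGeo P (tw (Lam2130.lam2 A) (EcV P hc))}
    {hB0 : BGeo P (tw (Lam2130.lam2 A) (EcV P (zero_mem (Z2 A ℤ))))}
    {G : Gd (WY681.sc hB w)} {G0 : Gd (WY681.sc hB0 w)} {D : QC G} {D0 : QC G0}
    (hD : IsDQ D) (hD0 : IsDQ D0) :
    D.ind + indB P' (tw (Lam2130.lam2 A') (EcV P' (zero_mem (Z2 A' ℤ)))) =
      D0.ind + indB P' (tw (Lam2130.lam2 A') (EcV P' hcN)) :=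
  exc_ind (ok_exc W h hP hc hcN triv1_EcV triv1_EcV) hPP hK hD hD0

end

end Crest.Agent.R275.Exc685
end

-- ▼ part R275/SkelXG_328
section

/-!
R275 (S0418), X-SIDE (helper328), part 7: `ExcOK` on `G.yBase` holds: helper130's slabs and windows
and helper685's excision theorem.
-/

set_option autoImplicit false

open Set Filter Topology
open scoped Manifold ContDiff

noncomputable section

namespace Crest.Agent.R275.SkelX328

open Crest.AlgGeometry.Surface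
open Geo NAtl938 Core144 Base144 XN194 Loc647 NTr151 NGeo151 ChiM825 KR798 Smf798 ZC352
open Lam2130 LauB681 PartN194 QPb635 KX106 XNI106 EBF151 YBG812 WY681 Gau511 Fred685 EulW130
open IndZ130 IndY130 EcV938 IndW938 CIdx509 ExcOK130 RAD151
open Crest.Agent.R275.GC293 (Z2 IsC1)

variable {X : Type} [TopologicalSpace X] [ChartedSpace C2 X] [IsManifold 𝓘(ℂ, C2) 1 X]
  [CompactSpace X] [T2Space X] (G : XGeo X)

/-- **the excision identity** on `X_n` for all large `n` -/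
theorem excAt_xc {c : C2 (G.N.ι × ℤ)} (hc : c ∈ G.Pn.Z2c) : ∃ N₁ : ℕ, ∀ n : ℕ, N₁ < n →
    ∀ (hn : 1 ≤ n) [NeZero n], ExcAt G (yx G n) (yx_φ G n) hc hn := by
  obtain ⟨N₁, h1⟩ := exists_ccG G hc
  refine ⟨N₁, fun n hn1 hn _ => ?_⟩
  obtain ⟨S, Wn, hK, hcc⟩ := h1 n hn1 hn (yx G n) (yx_φ G n)
  have hfin : Finite (AN G (xc G n)).ι := inferInstanceAs (Finite (G.N.ι × ZMod n))
  intro hcs hf a b D D0 hD hD0
  exact Exc685.index_exc Wn hcc (isLiftG' G (yx G n)) (isLiftG G (yx G n)) hK hcs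
    (memN le_rfl (yx G n) (yx_φ G n) G.preC hc hn) hD hD0

variable {G}

/-- **`ExcOK`** -/
theorem excOK [ConnectedSpace X] {F : Forms G.Pn} (H : XData G F) : ExcOK G.yBase F :=
  excOK_xData H fun _ hc => excAt_xc G hc

end Crest.Agent.R275.SkelX328
end
end

-- ▼ part R275/Final_630

/-!
# R275 (S0418), helper630: top level

A minimal compact connected complex surface with `b₁ = 1`, `H₂(X; ℚ) ≠ 0` and vanishing plurigenera
has a global spherical shell.
-/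

set_option autoImplicit false

open Set Filter Topology
open scoped Manifold ContDiff

namespace Crest.Agent.R275.Final630

open Crest.AlgGeometry.Surface Crest.Agent.R275.Base144 Crest.Agent.R275.Loc647
open Crest.Agent.R275.ZC352 Crest.Agent.R275.SkelX328 Crest.Agent.R275.TopC144

/-- **the theorem** -/
theorem main (X : Type) [TopologicalSpace X] [T2Space X] [CompactSpace X] [ConnectedSpace X]
    [ChartedSpace C2 X] [IsManifold 𝓘(ℂ, C2) 1 X]
    (hb₁ : Crest.Topology.RationalHomology.rationalBettiNumber X 1 = 1)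
    (hb₂ : Nontrivial (Crest.Topology.RationalHomology.rationalHomology X 2))
    (hκ : PlurigeneraVanish X) (hmin : IsMinimal X) : HasGlobalSphericalShell X :=
  shell_of_rest hb₁ hb₂ hκ hmin ixAll (fun _ _ D => excOK D) fun G F D hLE hX => by
    have := D.cov.conn
    let _ : MeasurableSpace (YC G.u) := borel (YC G.u)
    have _ : BorelSpace (YC G.u) := ⟨rfl⟩
    exact YInst144.yInst G D.xin hLE hX

end Crest.Agent.R275.Final630
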