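import Crest.Agent.R275.ItE_160
import Crest.Agent.R275.EAdd_539
import Crest.Agent.R275.CntC_508
import Crest.Agent.R275.EndCoord_69
import Crest.Agent.R275.SecD_572
import Crest.Agent.R275.ItC_160
import Crest.Agent.R275.BdcB_96
import Crest.Agent.R275.KerV_631

-- ▼ part R275/ItF_160
section

/-!
# R275, block SEC5-ITER (helper160): `ZDat` over the enlarged atlas

* `exists_quot` : a section divided by a local equation of its divisor is a frame.
* `quot_of_leq` : the same from `LEq (dvs A s) F`.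
* `div_z0` : quotient of two sections.
* `zdat_add` : `ZDat` over `add A P h`.
-/

set_option autoImplicit false
set_option linter.unusedSectionVars false

open Set Filter Topology Complex
open scoped ContDiff ComplexConjugate Manifold

namespace Crest.Agent.R275.It160

open Geo Fm96 Dol967 AtlAdd539

noncomputable section

section raw

variable {M : Type} [TopologicalSpace M] [T2Space M] {A : Atl 2 M}

/-- a section divided by a local equation of its divisor -/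
theorem exists_quot {g : A.ι → A.ι → M → ℂ} (hg : IsLC A g) {s : A.ι → M → ℂ} {O : Set M}
    (hO : IsOpen O) (hs : IsZ0 A g O s) {F : M → ℂ}
    (hloc : ∀ i, ∀ q ∈ (A.e i).source, q ∈ O → ∃ w : M → ℂ, HolP A i w q ∧ w q ≠ 0 ∧
      ∀ᶠ y in 𝓝 q, s i y = F y * w y)
    (hd : ∀ q ∈ O, ∃ᶠ y in 𝓝 q, F y ≠ 0) :
    ∃ t : A.ι → M → ℂ, IsFr A g O t ∧ (∀ i, ∀ q ∉ (A.e i).source, t i q = 0) ∧
      ∀ i, ∀ q ∈ O, s i q = F q * t i q := by
  classical
  choose! w hw using hloc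
  refine ⟨fun i q => if q ∈ (A.e i).source then w i q q else 0, ⟨?_, ?_, ?_⟩,
    fun i q hq => if_neg hq, ?_⟩
  · -- holomorphic: near `q` the function agrees with `w i q`
    intro i q hq hqO
    obtain ⟨h1, h2, h3⟩ := hw i q hq hqO
    refine h1.congr hq ?_
    filter_upwards [(A.e i).open_source.mem_nhds hq, hO.mem_nhds hqO, h3.eventually_nhds,
      h1.eventually hq] with y hy hyO h4 h5
    rw [if_pos hy]
    obtain ⟨k1, k2, k3⟩ := hw i y hy hyO
    have h6 : ∃ᶠ z in 𝓝 y, w i y z = w i q z := by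
      refine ((hd y hyO).and_eventually (k3.and h4)).mono fun z hz => ?_
      obtain ⟨z1, z2, z3⟩ := hz
      rw [z2] at z3
      exact mul_left_cancel₀ z1 z3
    have c1 : ContinuousAt (w i y) y := k1.smP.continuousAt hy
    have c2 : ContinuousAt (w i q) y := h5.smP.continuousAt hy
    by_contra hne
    have h7 : ∀ᶠ z in 𝓝 y, w i y z ≠ w i q z := by
      have h8 : ContinuousAt (fun z => w i y z - w i q z) y := c1.sub c2
      filter_upwards [h8.eventually_ne (sub_ne_zero.2 hne)] with z hz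
      exact sub_ne_zero.1 hz
    exact h6 (h7.mono fun z hz h => hz h)
  · intro i q hq hqO
    rw [if_pos hq]
    exact (hw i q hq hqO).2.1
  · intro i j q hq hqO
    rw [if_pos hq.1, if_pos hq.2]
    obtain ⟨h1, h2, h3⟩ := hw i q hq.1 hqO
    obtain ⟨k1, k2, k3⟩ := hw j q hq.2 hqO
    have h6 : ∃ᶠ z in 𝓝 q, w i q z = g i j z * w j q z := by
      refine ((hd q hqO).and_eventually (((h3.and k3).and (hO.mem_nhds hqO)).and
        (ov_nhds hq))).mono fun z hz => ?_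
      obtain ⟨z1, ⟨⟨z2, z3⟩, z4⟩, z5⟩ := hz
      rw [hs.tr i j z z5 z4, z3] at z2
      refine mul_left_cancel₀ z1 ?_
      rw [← z2]; ring
    have c1 : ContinuousAt (w i q) q := h1.smP.continuousAt hq.1
    have c2 : ContinuousAt (w j q) q := k1.smP.continuousAt hq.2
    have c3 : ContinuousAt (g i j) q := (hg.hol i j q hq).smP.continuousAt hq.1
    by_contra hne
    have h8 : ContinuousAt (fun z => w i q z - g i j z * w j q z) q := c1.sub (c3.mul c2)
    have h7 : ∀ᶠ z in 𝓝 q, w i q z ≠ g i j z * w j q z := by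
      filter_upwards [h8.eventually_ne (sub_ne_zero.2 hne)] with z hz
      exact sub_ne_zero.1 hz
    exact h6 (h7.mono fun z hz h => hz h)
  · intro i q hqO
    by_cases hq : q ∈ (A.e i).source
    · show s i q = F q * (if q ∈ (A.e i).source then w i q q else 0)
      rw [if_pos hq]
      exact (hw i q hq hqO).2.2.self_of_nhds
    · show s i q = F q * (if q ∈ (A.e i).source then w i q q else 0)
      rw [if_neg hq, hs.off i q hq, mul_zero]

/-- the frame as a `Z0` section -/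
theorem fr_z0 {g : A.ι → A.ι → M → ℂ} {O : Set M} {t : A.ι → M → ℂ} (ht : IsFr A g O t)
    (hoff : ∀ i, ∀ q ∉ (A.e i).source, t i q = 0) : IsZ0 A g O t :=
  ⟨fun i q hq hO => (ht.hol i q hq hO).smP, hoff, ht.tr⟩

/-- quotient of two sections, the denominator does not vanish on `G` -/
theorem div_z0 {g gT gC : A.ι → A.ι → M → ℂ} {G : Set M} {T s : A.ι → M → ℂ}
    (hT : IsZ0 A gT G T) (hs : IsZ0 A gC G s) (hg : IsLC A gC)
    (hne : ∀ i, ∀ q ∈ (A.e i).source, q ∈ G → s i q ≠ 0)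
    (hmul : ∀ i j, ∀ q ∈ (A.e i).source ∩ (A.e j).source, gT i j q = gC i j q * g i j q) :
    IsZ0 A g G (fun i q => T i q * (s i q)⁻¹) where
  sm i q hq hG := (hT.sm i q hq hG).mul ((hs.sm i q hq hG).inv (hne i q hq hG) hq)
  off i q hq := by simp [hT.off i q hq]
  tr i j q hq hG := by
    have h1 := hne i q hq.1 hG
    have h2 := hne j q hq.2 hG
    have h3 := hg.ne i j q hq
    rw [hT.tr i j q hq hG, hmul i j q hq, hs.tr i j q hq hG]
    field_simp

/-- **`ZDat` over the enlarged atlas** -/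
theorem zdat_add {P : OpenPartialHomeomorph M (Cn 2)} (h : Cmp A P) (S : Cfg (add A P h))
    (hi : S.i = none) {g : A.ι → A.ι → M → ℂ} (hg : IsLC A g) {s tq t2 : A.ι → M → ℂ}
    (ht2 : IsFr A g P.source t2) (ht2off : ∀ i, ∀ q ∉ (A.e i).source, t2 i q = 0)
    (htq : IsZ0 A g S.GN tq) (heq : ∀ i, ∀ q ∈ S.VZ ∩ S.GN, s i q = S.x q * tq i q)
    (heq2 : ∀ i, ∀ q ∈ P.source, s i q = (P q 0 - S.p 0) ^ S.r * t2 i q) :
    ∃ Z : ZDat S, Z.g = gE g t2 ∧ Z.s = uE0 P t2 s ∧ Z.t = uE0 P t2 tq ∧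
      Z.t2 = uE0 P t2 t2 := by
  classical
  refine ⟨⟨gE g t2, gE_lc h hg ht2, uE0 P t2 s, uE0 P t2 tq,
    uE0_mem h S.GN_open hg ht2 htq, ?_, uE0 P t2 t2, ?_, ?_⟩, rfl, rfl, rfl, rfl⟩
  · rintro (_ | i) q hq
    · show (if q ∈ P.source then (t2 (kk A q) q)⁻¹ * s (kk A q) q else 0) =
        S.x q * (if q ∈ P.source then (t2 (kk A q) q)⁻¹ * tq (kk A q) q else 0)
      by_cases hqP : q ∈ P.source
      · rw [if_pos hqP, if_pos hqP, heq _ q hq]; ring
      · rw [if_neg hqP, if_neg hqP, mul_zero]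
    · exact heq i q hq
  · have h1 : S.VZ ∩ ((add A P h).e S.i).source ⊆ P.source := by
      rw [hi]; exact inter_subset_right
    exact (uE0_mem h P.open_source hg ht2 (fr_z0 ht2 ht2off)).mono h1
  · rintro (_ | i) q hq
    · have hqP : q ∈ P.source := by rw [hi] at hq; exact hq.2
      have hU : S.U q = P q 0 - S.p 0 := by
        simp only [Cfg.U]; rw [hi]; rfl
      show (if q ∈ P.source then (t2 (kk A q) q)⁻¹ * s (kk A q) q else 0) =
        S.U q ^ S.r * (if q ∈ P.source then (t2 (kk A q) q)⁻¹ * t2 (kk A q) q else 0)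
      rw [if_pos hqP, if_pos hqP, heq2 _ q hqP, hU]; ring
    · have hqP : q ∈ P.source := by rw [hi] at hq; exact hq.2
      have hU : S.U q = P q 0 - S.p 0 := by
        simp only [Cfg.U]; rw [hi]; rfl
      rw [hU]
      exact heq2 i q hqP

end raw

section germs

open Crest.AlgGeometry.Surface GeoP572 Core144 Cnt508
open Crest.Agent.R275.Dv69 (HolN LEq EffDiv gt mk_eq_mk_iff)

variable {Y : Type} [TopologicalSpace Y] [T2Space Y] [ChartedSpace C2 Y]
  [IsManifold 𝓘(ℂ, C2) 1 Y] {A : Atl 2 Y}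

/-- division of a section by a local equation of its divisor -/
theorem quot_of_leq [PreconnectedSpace Y] (hA : Adm A) {L : LB A} {s : A.ι → Y → ℂ}
    (hs : IsHS L univ s) (h0 : s ≠ 0) {O : Set Y} (hO : IsOpen O) {F : Y → ℂ}
    (hF : ∀ q ∈ O, LEq (dvs A s) F q) :
    ∃ t : A.ι → Y → ℂ, IsFr A L.g O t ∧ (∀ i, ∀ q ∉ (A.e i).source, t i q = 0) ∧
      ∀ i, ∀ q ∈ O, s i q = F q * t i q := by
  have hsH : IsH A L.g univ s := (isHS_iff isOpen_univ).1 hs
  refine exists_quot (isLC L) hO (hsH.z0.mono (subset_univ _)) ?_ ?_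
  · intro i q hq hqO
    have h1 := leq_dvs hA hs h0 hq
    have h2 := hF q hqO
    obtain ⟨u, hu, hu0, he⟩ := (mk_eq_mk_iff h2.1 h1.1).1 (h2.2.2.symm.trans h1.2.2)
    exact ⟨u, (holN_iff_holP hA hq u).1 hu, hu0, he⟩
  · intro q hq h
    refine (hF q hq).2.1 ?_
    filter_upwards [h] with y hy using not_not.1 hy

/-- **`ZDat` at the end of the proof**: `L = LC * LZ`, `T` a frame of `L` over `N0`, `x T = sC sZ`,
`sC ≠ 0` outside `C`, and `(P 0 - p 0) ^ r` is a local equation of `dvs sZ` in the chart `P` -/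
theorem zdat_end [PreconnectedSpace Y] (hA : Adm A) {L LC LZ : LB A} (hL : L = LC * LZ)
    {sC sZ T : A.ι → Y → ℂ} (hsC : IsHS LC univ sC) (hsZ : IsHS LZ univ sZ) (hZ0 : sZ ≠ 0)
    {N0 C : Set Y} (hN0 : IsOpen N0) (hT : IsHS L N0 T)
    (hC : ∀ i, ∀ q ∈ (A.e i).source, q ∈ N0 → q ∉ C → sC i q ≠ 0)
    {x : Y → ℂ} (hx : ∀ i, ∀ q ∈ (A.e i).source, q ∈ N0 → x q * T i q = sC i q * sZ i q)
    {P : OpenPartialHomeomorph Y C2} (h : Cmp A P) {p : Cn 2} {r : ℕ}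
    (hP : ∀ q ∈ P.source, LEq (dvs A sZ) (fun y => (P y 0 - p 0) ^ r) q)
    (S : Cfg (add A P h)) (hi : S.i = none) (hp : S.p = p) (hr : S.r = r) (hSx : S.x = x)
    (hGN : ∀ q ∈ S.GN, q ∈ N0 ∧ q ∉ C) :
    ∃ t2 : A.ι → Y → ℂ, IsFr A LZ.g P.source t2 ∧ (∀ i, ∀ q ∉ (A.e i).source, t2 i q = 0) ∧
      (∀ i, ∀ q ∈ P.source, sZ i q = (P q 0 - p 0) ^ r * t2 i q) ∧
      ∃ Z : ZDat S, Z.g = gE LZ.g t2 ∧ Z.s = uE0 P t2 sZ ∧
        Z.t = uE0 P t2 (fun i q => T i q * (sC i q)⁻¹) ∧ Z.t2 = uE0 P t2 t2 := by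
  obtain ⟨t2, h1, h2, h3⟩ := quot_of_leq hA hsZ hZ0 P.open_source hP
  have hTH : IsH A L.g N0 T := (isHS_iff hN0).1 hT
  have hCH : IsH A LC.g univ sC := (isHS_iff isOpen_univ).1 hsC
  refine ⟨t2, h1, h2, h3, ?_⟩
  refine zdat_add h S hi (isLC LZ) h1 h2 (div_z0 (hTH.z0.mono fun q hq => (hGN q hq).1)
    (hCH.z0.mono (subset_univ _)) (isLC LC) (fun i q hq hG => hC i q hq (hGN q hG).1 (hGN q hG).2)
    fun i j q hq => ?_) (fun i q hq => ?_) (fun i q hq => ?_)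
  · rw [hL]; rfl
  · by_cases hqs : q ∈ (A.e i).source
    · have h4 := hC i q hqs (hGN q hq.2).1 (hGN q hq.2).2
      have h5 := hx i q hqs (hGN q hq.2).1
      rw [hSx]
      field_simp
      rw [h5]; ring
    · rw [hsZ.off i q hqs, hTH.z0.off i q hqs]; simp
  · rw [hp, hr]; exact h3 i q hq

end germs

end

end Crest.Agent.R275.It160
end

-- ▼ part R275/Start_595
section

/-!
# R275, block SEC5-ITER (helper595): the START data

From the solution statements `H²(L⁻¹) = 0`, `H¹_dg(O) = 0` and a section `s` of `L` with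
`s = x τ` over `N` and `s ≠ 0` on the chart off `{u v = 0}` we produce `It160.Start S ut F b0 R'`:
`ut` is the cut-off coordinate `u`, `F` decays at the small end and is constant on the curve `C`.
-/

set_option autoImplicit false
set_option linter.unusedSectionVars false

open Set Filter Topology Complex
open scoped ContDiff ComplexConjugate

namespace Crest.Agent.R275.StartP595

open Geo Core144 Fm96 Dol967 It160

noncomputable section

/-! ### cut-off functions on polydiscs -/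

/-- smooth function of `|z a - p a|`, `1` for `|z a - p a| ≤ r`, `0` for `|z a - p a| ≥ R` -/
def ctz (p : Cn 2) (r R : ℝ) (a : Fin 2) (z : Cn 2) : ℂ :=
  (ct (r ^ 2) (R ^ 2) (‖z a - p a‖ ^ 2) : ℂ)

theorem ctz_contDiff (p : Cn 2) (r R : ℝ) (a : Fin 2) : ContDiff ℝ ∞ (ctz p r R a) := by
  unfold ctz
  have h1 : ContDiff ℝ ∞ fun z : Cn 2 => ‖z a - p a‖ ^ 2 := by
    have h2 : ContDiff ℝ ∞ fun z : Cn 2 => z a - p a := by fun_prop
    exact h2.norm_sq ℝ
  exact ofRealCLM.contDiff.comp ((ct_smooth _ _).comp h1)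

theorem ctz_one {p : Cn 2} {r R : ℝ} (h0 : 0 ≤ r) (h : r < R) {a : Fin 2} {z : Cn 2}
    (hz : ‖z a - p a‖ ≤ r) : ctz p r R a z = 1 := by
  unfold ctz
  rw [ct_one (by nlinarith) (by nlinarith [norm_nonneg (z a - p a)])]
  simp

theorem ctz_zero {p : Cn 2} {r R : ℝ} (h0 : 0 ≤ r) (h : r < R) {a : Fin 2} {z : Cn 2}
    (hz : R ≤ ‖z a - p a‖) : ctz p r R a z = 0 := by
  unfold ctz
  rw [ct_zero (by nlinarith) (by nlinarith)]
  simp

/-- cut-off function of a polydisc -/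
def ctp (p : Cn 2) (r R : ℝ) (z : Cn 2) : ℂ := ctz p r R 0 z * ctz p r R 1 z

theorem ctp_contDiff (p : Cn 2) (r R : ℝ) : ContDiff ℝ ∞ (ctp p r R) :=
  (ctz_contDiff p r R 0).mul (ctz_contDiff p r R 1)

theorem ctp_one {p : Cn 2} {r R : ℝ} (h0 : 0 ≤ r) (h : r < R) {z : Cn 2}
    (hz : ∀ a, ‖z a - p a‖ ≤ r) : ctp p r R z = 1 := by
  unfold ctp
  rw [ctz_one h0 h (hz 0), ctz_one h0 h (hz 1), one_mul]

theorem ctp_zero {p : Cn 2} {r R : ℝ} (h0 : 0 ≤ r) (h : r < R) {z : Cn 2}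
    {a : Fin 2} (hz : R ≤ ‖z a - p a‖) : ctp p r R z = 0 := by
  unfold ctp
  fin_cases a
  · rw [ctz_zero (a := 0) h0 h hz, zero_mul]
  · rw [ctz_zero (a := 1) h0 h hz, mul_zero]

theorem ctp_tsupport {p : Cn 2} {r R : ℝ} (h0 : 0 ≤ r) (h : r < R) :
    tsupport (ctp p r R) ⊆ {z | ∀ a, ‖z a - p a‖ ≤ R} := by
  have hcl : IsClosed {z : Cn 2 | ∀ a, ‖z a - p a‖ ≤ R} := by
    rw [ofPred_forall]
    exact isClosed_iInter fun a => isClosed_le (cont_nrm p a) continuous_const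
  refine closure_minimal (fun z hz a => ?_) hcl
  by_contra hcon
  exact hz (ctp_zero h0 h (a := a) (not_le.1 hcon).le)

theorem isBounded_closedPD (p : Cn 2) (R : ℝ) :
    Bornology.IsBounded {z : Cn 2 | ∀ a, ‖z a - p a‖ ≤ R} := by
  rw [Metric.isBounded_iff_subset_closedBall p]
  refine ⟨Real.sqrt (R ^ 2 + R ^ 2), fun z hz => ?_⟩
  rw [Metric.mem_closedBall, dist_eq_norm, EuclideanSpace.norm_eq, Fin.sum_univ_two]
  apply Real.sqrt_le_sqrt
  have h0 := hz 0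
  have h1 := hz 1
  have e0 : ‖(z - p) 0‖ = ‖z 0 - p 0‖ := rfl
  have e1 : ‖(z - p) 1‖ = ‖z 1 - p 1‖ := rfl
  rw [e0, e1]
  have n0 := norm_nonneg (z 0 - p 0)
  have n1 := norm_nonneg (z 1 - p 1)
  nlinarith

theorem ctp_compact {p : Cn 2} {r R : ℝ} (h0 : 0 ≤ r) (h : r < R) :
    HasCompactSupport (ctp p r R) :=
  (Metric.isCompact_of_isClosed_isBounded (isClosed_tsupport _)
    ((isBounded_closedPD p R).subset (ctp_tsupport h0 h)))

theorem ctp_supp_PD {p : Cn 2} {r R R3 : ℝ} (h0 : 0 ≤ r) (h : r < R) (h3 : R < R3) :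
    tsupport (ctp p r R) ⊆ PD p R3 := fun z hz a => ((ctp_tsupport h0 h hz) a).trans_lt h3

variable {M : Type} [TopologicalSpace M] [T2Space M] {A : Atl 2 M}

/-! ### the data -/

/-- geometric input for the start -/
structure StIn (S : Cfg A) (L : LB A) (s τ : A.ι → M → ℂ) (R' : ℝ) : Prop where
  R'_R : R' < S.R
  R'_a : 16 * S.a3 ≤ R'
  R'_ρ : 16 * S.ρ ≤ R'
  Q_N : S.Q R' ⊆ S.N
  hs : IsHS L univ s
  τ_z : IsZ0 A L.g S.N τ
  s_eq : ∀ i, ∀ q ∈ (A.e i).source, q ∈ S.N → s i q = S.x q * τ i q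
  s_ne : ∀ q ∈ (A.e S.i).source, S.U q ≠ 0 → S.V q ≠ 0 → ∀ i, q ∈ (A.e i).source → s i q ≠ 0

namespace StIn

variable {S : Cfg A} {L : LB A} {s τ : A.ι → M → ℂ} {R' : ℝ}

theorem R'_pos (H : StIn S L s τ R') : 0 < R' := by
  have := S.ρ_pos
  linarith [H.R'_ρ]

theorem a0_lt (H : StIn S L s τ R') : S.a0 < R' := by
  have h1 := S.a01
  have h2 := S.a12
  have h3 := S.a23
  have h4 := S.a0_pos
  linarith [H.R'_a]

end StIn

/-- radii `R1 < R2 < R3` between `R'` and `R` -/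
def r1 (S : Cfg A) (R' : ℝ) : ℝ := R' + (S.R - R') / 4
def r2 (S : Cfg A) (R' : ℝ) : ℝ := R' + (S.R - R') / 2
def r3 (S : Cfg A) (R' : ℝ) : ℝ := R' + 3 * (S.R - R') / 4

/-- the cut-off coordinate `u` -/
def utφ (S : Cfg A) (R' : ℝ) (z : Cn 2) : ℂ := ctp S.p (r1 S R') (r2 S R') z * (z 0 - S.p 0)

def ut (S : Cfg A) (R' : ℝ) : M → ℂ := pl A S.i (utφ S R')

/-- the cut-off function `ψ(u)`, with compact support -/
def ψφ (S : Cfg A) (R' : ℝ) (z : Cn 2) : ℂ :=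
  ctz S.p S.a0 (r1 S R') 0 z * ctp S.p (r2 S R') (r3 S R') z

def ψm (S : Cfg A) (R' : ℝ) : M → ℂ := pl A S.i (ψφ S R')

/-- the form `ψ ∂̄ ut` -/
def φf (S : Cfg A) (R' : ℝ) : A.ι → M → Fin 2 → ℂ := fm (ψm S R') (d0 A (fn A (ut S R')))

section lemmas

variable {S : Cfg A} {L : LB A} {s τ : A.ι → M → ℂ} {R' : ℝ} (H : StIn S L s τ R')

include H

theorem r1_gt : R' < r1 S R' := by have := H.R'_R; unfold r1; linarith
theorem r12 : r1 S R' < r2 S R' := by have := H.R'_R; unfold r1 r2; linarith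
theorem r23 : r2 S R' < r3 S R' := by have := H.R'_R; unfold r2 r3; linarith
theorem r3_lt : r3 S R' < S.R := by have := H.R'_R; unfold r3; linarith
theorem r1_pos : 0 < r1 S R' := H.R'_pos.trans (r1_gt H)
theorem r2_pos : 0 < r2 S R' := (r1_pos H).trans (r12 H)

theorem utφ_sm : ContDiff ℝ ∞ (utφ S R') := by
  unfold utφ
  exact (ctp_contDiff _ _ _).mul (by fun_prop)

theorem utφ_cs : HasCompactSupport (utφ S R') :=
  (ctp_compact (r1_pos H).le (r12 H)).mul_right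

theorem utφ_tg : tsupport (utφ S R') ⊆ (A.e S.i).target := by
  rw [S.tgt]
  exact tsupport_mul_subset_left.trans (ctp_supp_PD (r1_pos H).le (r12 H) ((r23 H).trans (r3_lt H)))

theorem ut_sm : SmOn A univ (ut S R') := smOn_pl (utφ_sm H) (utφ_cs H) (utφ_tg H)

theorem ψφ_sm : ContDiff ℝ ∞ (ψφ S R') := (ctz_contDiff _ _ _ _).mul (ctp_contDiff _ _ _)

theorem ψφ_cs : HasCompactSupport (ψφ S R') :=
  (ctp_compact (r2_pos H).le (r23 H)).mul_left

theorem ψφ_tg : tsupport (ψφ S R') ⊆ (A.e S.i).target := by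
  rw [S.tgt]
  exact tsupport_mul_subset_right.trans (ctp_supp_PD (r2_pos H).le (r23 H) (r3_lt H))

theorem ψm_sm : SmOn A univ (ψm S R') := smOn_pl (ψφ_sm H) (ψφ_cs H) (ψφ_tg H)

theorem dut_z1 : IsZ1 A 1 univ (d0 A (fn A (ut S R'))) :=
  d0_mem IsLC.one isOpen_univ (isZ0_fn (ut_sm H))

theorem φf_z1 : IsZ1 A 1 univ (φf S R') := isZ1_fm (dut_z1 H) (ψm_sm H)

/-- near the points of the small polydisc `ut` is the coordinate -/
theorem ut_eq {q : M} (hq : q ∈ (A.e S.i).source) (h : ∀ a, ‖A.e S.i q a - S.p a‖ ≤ r1 S R') :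
    ut S R' q = S.U q := by
  rw [ut, pl_of_mem hq, utφ, ctp_one (r1_pos H).le (r12 H) h, one_mul, Cfg.U]


/-- the coordinate `u` is holomorphic -/
theorem holP_U {q : M} (hq : q ∈ (A.e S.i).source) : HolP A S.i S.U q := by
  have h0 : ∀ᶠ z in 𝓝 (A.e S.i q), z ∈ (A.e S.i).target :=
    (A.e S.i).open_target.mem_nhds ((A.e S.i).map_source hq)
  filter_upwards [h0.eventually_nhds] with z hz
  have h1 : DifferentiableAt ℂ (fun z : Cn 2 => z 0 - S.p 0) z := by fun_prop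
  refine h1.congr_of_eventuallyEq ?_
  filter_upwards [hz] with y hy
  simp only [Cfg.U, (A.e S.i).right_inv hy]

/-- `∂̄ ut = 0` on the small polydisc -/
theorem dut_zero {q : M} (hq : q ∈ S.Q (r1 S R')) (j : A.ι) : d0 A (fn A (ut S R')) j q = 0 := by
  by_cases hj : q ∈ (A.e j).source
  · funext e
    have h1 : fn A (ut S R') j =ᶠ[𝓝 q] S.U := by
      filter_upwards [src_nhds hj, (S.isOpen_Q (r1 S R')).mem_nhds hq] with y hy hyQ
      rw [fn_of_mem hy, ut_eq H hyQ.1 fun a => (hyQ.2 a).le]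
    rw [d0_of_mem hj, db_congr hj h1, ((holP_U H hq.1).change ⟨hj, hq.1⟩).db_eq e]
    rfl
  · exact d0_of_not_mem hj

/-- `∂̄ ut = 0` near the points outside the chart -/
theorem dut_off {q : M} (hq : q ∉ (A.e S.i).source) :
    ∀ᶠ y in 𝓝 q, ∀ j, d0 A (fn A (ut S R')) j y = 0 :=
  ev_d0_zero (pl_eventually_zero (utφ_cs H) (utφ_tg H) hq)

/-- `∂̄ ut = 0` outside the big polydisc -/
theorem dut_far {q : M} (hq : q ∈ (A.e S.i).source) {a : Fin 2}
    (ha : r2 S R' < ‖A.e S.i q a - S.p a‖) (j : A.ι) : d0 A (fn A (ut S R')) j q = 0 := by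
  refine d0_fn_eq_zero (c := 0) ?_
  have h1 : ∀ᶠ z in 𝓝 (A.e S.i q), r2 S R' < ‖z a - S.p a‖ :=
    (isOpen_lt continuous_const (cont_nrm S.p a)).mem_nhds ha
  filter_upwards [S.ev_chart hq h1, src_nhds hq] with y hy hys
  rw [ut, pl_of_mem hys, utφ, ctp_zero (r1_pos H).le (r12 H) hy.le, zero_mul]

/-- `∂̄ ut = 0` wherever the chart cut-off is not one -/
theorem cut_dut {q : M} (hq : q ∈ (A.e S.i).source) (j : A.ι) (e : Fin 2) :
    ctp S.p (r2 S R') (r3 S R') (A.e S.i q) * d0 A (fn A (ut S R')) j q e =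
      d0 A (fn A (ut S R')) j q e := by
  by_cases h : ∀ a, ‖A.e S.i q a - S.p a‖ ≤ r2 S R'
  · rw [ctp_one (r2_pos H).le (r23 H) h, one_mul]
  · push Not at h
    obtain ⟨a, ha⟩ := h
    rw [dut_far H hq ha]; simp

/-- where `|u| ≤ a0` the form `φ` is `∂̄ ut` -/
theorem φf_eq {q : M} (hq : q ∈ (A.e S.i).source → ‖A.e S.i q 0 - S.p 0‖ ≤ S.a0) (j : A.ι)
    (e : Fin 2) : φf S R' j q e = d0 A (fn A (ut S R')) j q e := by
  by_cases hs : q ∈ (A.e S.i).source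
  · rw [φf, fm, ψm, pl_of_mem hs, ψφ, ctz_one S.a0_pos.le (H.a0_lt.trans (r1_gt H)) (hq hs),
      one_mul, cut_dut H hs]
  · rw [φf, fm, (dut_off H hs).self_of_nhds j]; simp

/-- `φ = 0` where `|u| ≥ R1` or `|u|, |v| < R1` -/
theorem φf_zero {q : M} (h : q ∉ (A.e S.i).source ∨ r1 S R' ≤ ‖A.e S.i q 0 - S.p 0‖ ∨
    ‖A.e S.i q 1 - S.p 1‖ < r1 S R') (j : A.ι) : φf S R' j q = 0 := by
  by_cases hs : q ∈ (A.e S.i).source
  · funext e
    rcases h with h | h | h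
    · exact absurd hs h
    · rw [φf, fm, ψm, pl_of_mem hs, ψφ, ctz_zero S.a0_pos.le (H.a0_lt.trans (r1_gt H)) h]; simp
    · by_cases h0 : r1 S R' ≤ ‖A.e S.i q 0 - S.p 0‖
      · rw [φf, fm, ψm, pl_of_mem hs, ψφ, ctz_zero S.a0_pos.le (H.a0_lt.trans (r1_gt H)) h0]; simp
      · have hQ : q ∈ S.Q (r1 S R') := by
          refine ⟨hs, fun a => ?_⟩
          fin_cases a
          · exact not_le.1 h0
          · exact h
        rw [φf, fm, dut_zero H hQ]; simp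
  · funext e
    rw [φf, fm, (dut_off H hs).self_of_nhds j]; simp

/-- `φ = ∂̄ ut` on `K0 ∪ Q R'` -/
theorem φf_eq_K0 {q : M} (hq : q ∈ S.K0 ∪ S.Q R') (j : A.ι) (e : Fin 2) :
    φf S R' j q e = d0 A (fn A (ut S R')) j q e := by
  have hQQ : ∀ y ∈ S.Q R', y ∈ S.Q (r1 S R') := fun y hy =>
    ⟨hy.1, fun a => (hy.2 a).trans (r1_gt H)⟩
  have hQ : ∀ y ∈ S.Q R', φf S R' j y e = d0 A (fn A (ut S R')) j y e := by
    intro y hy
    rw [φf_zero H (Or.inr (Or.inr ((hQQ y hy).2 1))), dut_zero H (hQQ y hy)]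
  rcases hq with (hq | hq) | hq
  · exact φf_eq H (fun hs => (S.VZ_W q hq hs).le) j e
  · refine hQ q ⟨hq.1, fun a => ?_⟩
    have h1 := H.R'_pos
    have h2 := H.R'_a
    have h3 := H.R'_ρ
    have h4 := S.ρ_pos
    have h5 : 0 < S.a3 := S.a0_pos.trans (S.a01.trans (S.a12.trans S.a23))
    fin_cases a
    · exact hq.2.1.trans (by linarith)
    · exact hq.2.2.trans (by linarith)
  · exact hQ q hq

/-- `φ = ∂̄ ut` or `φ = 0` near the zeros of `s` -/
theorem near_zero {i : A.ι} {x : M} (hx : x ∈ (A.e i).source) (h0 : s i x = 0) :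
    (∀ᶠ y in 𝓝 x, ∀ j e, φf S R' j y e = d0 A (fn A (ut S R')) j y e) ∨
      (∀ᶠ y in 𝓝 x, ∀ j, φf S R' j y = 0) := by
  by_cases hs : x ∈ (A.e S.i).source
  · by_cases hU : S.U x = 0
    · left
      have h1 : ∀ᶠ z in 𝓝 (A.e S.i x), ‖z 0 - S.p 0‖ < S.a0 := by
        refine (isOpen_lt (cont_nrm S.p 0) continuous_const).mem_nhds ?_
        have : A.e S.i x 0 - S.p 0 = 0 := hU
        simp only [mem_ofPred_eq, this, norm_zero]
        exact S.a0_pos
      filter_upwards [S.ev_chart hs h1] with y hy j e using φf_eq H (fun _ => hy.le) j e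
    · have hV : S.V x = 0 := by
        by_contra hV
        exact H.s_ne x hs hU hV i hx h0
      right
      have h1 : ∀ᶠ z in 𝓝 (A.e S.i x), ‖z 1 - S.p 1‖ < r1 S R' := by
        refine (isOpen_lt (cont_nrm S.p 1) continuous_const).mem_nhds ?_
        have : A.e S.i x 1 - S.p 1 = 0 := hV
        simp only [mem_ofPred_eq, this, norm_zero]
        exact r1_pos H
      filter_upwards [S.ev_chart hs h1] with y hy j using φf_zero H (Or.inr (Or.inr hy)) j
  · right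
    filter_upwards [dut_off H hs] with y hy j
    funext e
    rw [φf, fm, hy j]; simp

theorem d1φ_zero {i : A.ι} {x : M} (hx : x ∈ (A.e i).source) (h0 : s i x = 0) :
    ∀ᶠ y in 𝓝 x, ∀ j, d1 A (φf S R') j y = 0 := by
  rcases near_zero H hx h0 with h | h
  · filter_upwards [h.eventually_nhds] with y hy j
    have h1 : d1 A (φf S R') j y = d1 A (d0 A (fn A (ut S R'))) j y := by
      refine d1_congr ?_
      filter_upwards [hy] with w hw
      funext e
      exact hw j e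
    rw [h1, d1_d0 (isZ0_fn (ut_sm H)) j trivial]
  · filter_upwards [h.eventually_nhds] with y hy j
    have h1 : d1 A (φf S R') j y = d1 A (0 : A.ι → M → Fin 2 → ℂ) j y := by
      refine d1_congr ?_
      filter_upwards [hy] with w hw using hw j
    rw [h1, KerV631.d1_zero]; rfl

/-- `ut` has compact support -/
theorem exists_compact : ∃ Kc : Set M, IsCompact Kc ∧ ∀ q ∉ Kc, ∀ᶠ y in 𝓝 q, ut S R' y = 0 := by
  have hK : IsCompact ((A.e S.i).symm '' tsupport (utφ S R')) :=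
    (utφ_cs H).isCompact.image_of_continuousOn
      ((A.e S.i).continuousOn_symm.mono (utφ_tg H))
  refine ⟨_, hK, fun q hq => ?_⟩
  filter_upwards [hK.isClosed.isOpen_compl.mem_nhds hq] with y hy
  by_cases hys : y ∈ (A.e S.i).source
  · rw [ut, pl_of_mem hys]
    by_contra hne
    exact hy ⟨A.e S.i y, subset_tsupport _ hne, (A.e S.i).left_inv hys⟩
  · exact pl_of_not_mem hys

theorem exists_slab {h : M → ℝ} (hh : Continuous h) : ∃ T0 T1 : ℝ, ∀ q, h q < T0 ∨ T1 < h q →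
    ∀ᶠ y in 𝓝 q, ut S R' y = 0 := by
  obtain ⟨Kc, hK, h0⟩ := exists_compact H
  obtain ⟨T0, hT0⟩ := (hK.image hh).bddBelow
  obtain ⟨T1, hT1⟩ := (hK.image hh).bddAbove
  refine ⟨T0, T1, fun q hq => h0 q fun hqK => ?_⟩
  have h1 := hT0 ⟨q, hqK, rfl⟩
  have h2 := hT1 ⟨q, hqK, rfl⟩
  rcases hq with hq | hq <;> linarith

/-- the form `η = ∂̄ φ / s` -/
theorem η_z2 : IsZ2 A (L⁻¹).g univ (sdv s (d1 A (φf S R'))) := by
  have h1 := (KerV631.isHS_iff isOpen_univ).1 H.hs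
  have h2 : IsZ2 A 1 univ (d1 A (φf S R')) := d1_mem IsLC.one isOpen_univ (φf_z1 H)
  have h3 := h1.z0.sdv2' h2 fun i x hx _ h0 => (d1φ_zero H hx h0).mono fun y hy => hy i
  have h4 : (L.g⁻¹ * 1 : A.ι → A.ι → M → ℂ) = (L⁻¹).g := by
    funext i j x
    simp
  rwa [h4] at h3

theorem s_mul_η (i : A.ι) (x : M) :
    sm s (sdv s (d1 A (φf S R'))) i x = d1 A (φf S R') i x := by
  refine sm_sdv fun h0 => ?_
  by_cases hx : x ∈ (A.e i).source
  · exact (d1φ_zero H hx h0).self_of_nhds i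
  · exact d1_of_not_mem hx

theorem φf_off {h : M → ℝ} {T0 T1 : ℝ}
    (hT : ∀ q, h q < T0 ∨ T1 < h q → ∀ᶠ y in 𝓝 q, ut S R' y = 0) (q : M)
    (hq : h q < T0 ∨ T1 < h q) : ∀ᶠ y in 𝓝 q, ∀ j, φf S R' j y = 0 := by
  filter_upwards [ev_d0_zero (A := A) (hT q hq)] with y hy j
  funext e
  rw [φf, fm, hy j]; simp

theorem η_off {h : M → ℝ} {T0 T1 : ℝ}
    (hT : ∀ q, h q < T0 ∨ T1 < h q → ∀ᶠ y in 𝓝 q, ut S R' y = 0) (i : A.ι) (q : M)
    (hq : h q < T0 ∨ T1 < h q) : sdv s (d1 A (φf S R')) i q = 0 := by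
  have h1 : d1 A (φf S R') i q = d1 A (0 : A.ι → M → Fin 2 → ℂ) i q := by
    refine d1_congr ?_
    filter_upwards [φf_off H hT q hq] with w hw using hw i
  rw [sdv, h1, KerV631.d1_zero]; simp

variable {K : A.ι → Set M} {h : M → ℝ}

theorem φf_bd (C : Cor A h K) (a b : ℝ) : BD1 A K h a b (φf S R') := by
  obtain ⟨T0, T1, hT⟩ := exists_slab H C.cont
  intro c
  refine C.slab_supp (fun i x hx => (φf_z1 H).sm i c x (C.sub i hx) trivial)
    (S := T0) (T := T1) (fun i x hx => ?_) a b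
  rw [(φf_off H hT x hx).self_of_nhds i]; rfl

theorem η_bd (C : Cor A h K) (a b : ℝ) : BD A K h a b (sdv s (d1 A (φf S R'))) := by
  obtain ⟨T0, T1, hT⟩ := exists_slab H C.cont
  exact C.slab_supp (fun i x hx => (η_z2 H).sm i x (C.sub i hx) trivial)
    (S := T0) (T := T1) (fun i x hx => η_off H hT i x hx) a b

end lemmas

/-- decay at the small end -/
theorem bd_value {K : A.ι → Set M} {h : M → ℝ} (C : Cor A h K) {a b : ℝ} {F : M → ℂ}
    (hF : BD A K h a b (fn A F)) (ha : a < 0) :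
    ∀ ε > 0, ∃ T : ℝ, ∀ q, h q < T → ‖F q‖ < ε := by
  obtain ⟨D, hD, h1⟩ := hF.sup C.sub
  intro ε hε
  have h2 : Tendsto (fun t : ℝ => D * Real.exp (-a * t)) atBot (𝓝 (D * 0)) := by
    refine Tendsto.const_mul _ ?_
    exact Real.tendsto_exp_atBot.comp (tendsto_id.const_mul_atBot (neg_pos.2 ha))
  rw [mul_zero] at h2
  obtain ⟨T, hT⟩ := ((h2.eventually (gt_mem_nhds hε)).and (eventually_le_atBot 0)).exists
  refine ⟨T, fun q hq => ?_⟩
  obtain ⟨i, hi⟩ := C.cov q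
  have h3 := h1 i q hi
  rw [fn_of_mem (C.sub i hi)] at h3
  have hq0 : h q < 0 := hq.trans_le hT.2
  have h4 : wgt a b (h q) = Real.exp (-a * h q) := by
    unfold wgt
    rw [max_eq_left (by linarith), max_eq_right (by linarith)]
    congr 1
    ring
  rw [h4] at h3
  have h5 : Real.exp (-a * h q) ≤ Real.exp (-a * T) :=
    Real.exp_le_exp.2 (mul_le_mul_of_nonneg_left hq.le (by linarith))
  exact (h3.trans (mul_le_mul_of_nonneg_left h5 hD)).trans_lt hT.1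

section main

variable {S : Cfg A} {L : LB A} {s τ : A.ι → M → ℂ} {R' : ℝ} {K : A.ι → Set M} {h : M → ℝ}

/-- output of the start (rates: `β` in `(a0, b0)`, `F` in `(a1, b1)`) -/
structure StOut (S : Cfg A) (L : LB A) (s τ : A.ι → M → ℂ) (R' : ℝ) (K : A.ι → Set M)
    (h : M → ℝ) (a0 b0 a1 b1 : ℝ) (F : M → ℂ) (β : A.ι → M → Fin 2 → ℂ) : Prop where
  F_sm : SmOn A univ F
  F_bd : BD A K h a1 b1 (fn A F)
  β_z1 : IsZ1 A (L⁻¹).g univ β
  β_bd : BD1 A K h a0 b0 β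
  eq : ∀ j q e, d0 A (fn A F) j q e = φf S R' j q e - s j q * β j q e
  start : Start S (ut S R') F (sm1 τ β) R'

/-- **START**: `∂̄ ut - ∂̄ F = x b0` on `K0 ∪ Q R'`, with prescribed rates -/
theorem StIn.exists_start_r (H : StIn S L s τ R') (C : Cor A h K) {e a0 b0 a1 b1 : ℝ}
    (hsb : BD A K h e e s)
    (h2 : ∃ a b, SolZ2 A K h L⁻¹ a b a0 b0) (h1 : SolZ1 A K h 1 (e + a0) (e + b0) a1 b1) :
    ∃ (F : M → ℂ) (β : A.ι → M → Fin 2 → ℂ), StOut S L s τ R' K h a0 b0 a1 b1 F β := by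
  have hsH := (KerV631.isHS_iff isOpen_univ).1 H.hs
  -- degree two
  obtain ⟨a2, b2, h2⟩ := h2
  obtain ⟨β, hβ, hβb, hβd⟩ := h2 _ (η_z2 H) (η_bd H C _ _)
  have hone : (L.g * (L⁻¹).g : A.ι → A.ι → M → ℂ) = 1 := by
    funext i j x
    simp [L.ne_zero i j x]
  have hsβ : IsZ1 A 1 univ (sm1 s β) := by
    have := hsH.z0.sm1' hβ
    rwa [hone] at this
  -- degree one
  set α : A.ι → M → Fin 2 → ℂ := φf S R' - sm1 s β with hα
  have hα1 : IsZ1 A 1 univ α := (φf_z1 H).sub hsβ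
  have hαd : ∀ i x, d1 A α i x = 0 := by
    intro i x
    rw [hα, d1_sub (φf_z1 H) hsβ i trivial, hsH.d1_sm1 hβ i trivial]
    have h3 : sm s (d1 A β) i x = sm s (sdv s (d1 A (φf S R'))) i x := by
      simp only [sm, hβd i x]
    rw [h3, s_mul_η H, sub_self]
  have hαb : BD1 A K h (e + a0) (e + b0) α := (φf_bd H C _ _).sub (BD.mul1 hsb hβb)
  obtain ⟨f, hf, hfb, hfd⟩ := h1 α hα1 hαb hαd
  obtain ⟨F, hF, hfF, -⟩ := exists_fn isOpen_univ hf
  have hfF' : f = fn A F := by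
    funext i x
    exact hfF i x trivial
  subst hfF'
  have heq : ∀ j q e, d0 A (fn A F) j q e = φf S R' j q e - s j q * β j q e := by
    intro j q e
    rw [hfd]
    rfl
  refine ⟨F, β, hF, hfb, hβ, hβb, heq, H.R'_R.le, H.R'_a, H.R'_ρ, ut_sm H, hF, ?_, H.Q_N, ?_⟩
  · have := H.τ_z.sm1' (hβ.mono (subset_univ S.N))
    rwa [hone] at this
  · intro j q hq e
    rw [heq, φf_eq_K0 H hq]
    have hN : q ∈ S.N := by
      rcases hq with hq | hq
      · exact S.K0_N hq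
      · exact H.Q_N hq
    by_cases hj : q ∈ (A.e j).source
    · rw [H.s_eq j q hj hN]
      simp only [sm1]
      ring
    · have hb : β j q e = 0 := by rw [hβ.off j q hj]; rfl
      simp only [sm1, hb]
      ring

/-- **START**: `∂̄ ut - ∂̄ F = x b0` on `K0 ∪ Q R'`, `F` decays at the small end -/
theorem StIn.exists_start (H : StIn S L s τ R') (C : Cor A h K) {d : ℝ} (hd : 0 < d)
    (hsb : ∀ e > 0, BD A K h e e s)
    (h2 : ∀ {a b a' b' : ℝ}, a < a' → b < b' → SolZ2 A K h L⁻¹ a b a' b')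
    (h1 : ∀ {a b a' b' : ℝ}, -d < a' → a' < 0 → 0 < b' → b' < d → a < a' → b < b' →
      SolZ1 A K h 1 a b a' b') :
    ∃ (F : M → ℂ) (β : A.ι → M → Fin 2 → ℂ),
      StOut S L s τ R' K h (-(d / 2)) (d / 4) (-(d / 4)) (d / 2) F β :=
  H.exists_start_r C (hsb (d / 8) (by linarith)) ⟨-d, 0, h2 (by linarith) (by linarith)⟩
    (h1 (by linarith) (by linarith) (by linarith) (by linarith) (by linarith) (by linarith))

variable {a0 b0 a1 b1 : ℝ} {F : M → ℂ} {β : A.ι → M → Fin 2 → ℂ}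

/-- `F → 0` at the small end -/
theorem StOut.lim (O : StOut S L s τ R' K h a0 b0 a1 b1 F β) (C : Cor A h K) (h1 : a1 < 0) :
    ∀ ε > 0, ∃ T : ℝ, ∀ q, h q < T → ‖F q‖ < ε := bd_value C O.F_bd h1

/-- the statement `H⁰(Q_C) = ℂ` -/
def R2 (A : Atl 2 M) (gs : A.ι → A.ι → M → ℂ) (s : A.ι → M → ℂ) (Z : Set M) : Prop :=
  ∀ u, IsZ0 A 1 univ u → (∃ v, IsZ1 A gs⁻¹ univ v ∧ d0 A u = sm1 s v) →
    ∃ κ : ℂ, ∀ i, ∀ x ∈ (A.e i).source, x ∈ Z → u i x = κ

/-- **`F` is constant on the curve** -/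
theorem StOut.const (O : StOut S L s τ R' K h a0 b0 a1 b1 F β) (H : StIn S L s τ R')
    {LC LZ : LB A} (hL : L = LC * LZ) {sC sZ : A.ι → M → ℂ} (hsC : IsHS LC univ sC)
    (hsZ : IsHS LZ univ sZ) (hss : ∀ i, ∀ x ∈ (A.e i).source, s i x = sC i x * sZ i x)
    (hC : ∀ i, ∀ x ∈ (A.e i).source, sC i x = 0 → x ∈ (A.e S.i).source → S.V x = 0)
    {Z : Set M} (hR2 : R2 A LC.g sC Z) : ∃ κ : ℂ, ∀ q ∈ Z, F q = κ := by
  have hC0 := ((KerV631.isHS_iff isOpen_univ).1 hsC).z0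
  have hZ0 := ((KerV631.isHS_iff isOpen_univ).1 hsZ).z0
  have hφ0 : ∀ i, ∀ x ∈ (A.e i).source, x ∈ (univ : Set M) → sC i x = 0 →
      ∀ᶠ y in 𝓝 x, φf S R' i y = 0 := by
    intro i x hx _ h0
    by_cases hs : x ∈ (A.e S.i).source
    · have h1 : ∀ᶠ z in 𝓝 (A.e S.i x), ‖z 1 - S.p 1‖ < r1 S R' := by
        refine (isOpen_lt (cont_nrm S.p 1) continuous_const).mem_nhds ?_
        have : A.e S.i x 1 - S.p 1 = 0 := hC i x hx h0 hs
        simp only [mem_ofPred_eq, this, norm_zero]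
        exact r1_pos H
      filter_upwards [S.ev_chart hs h1] with y hy using φf_zero H (Or.inr (Or.inr hy)) i
    · filter_upwards [dut_off H hs] with y hy
      funext e
      rw [φf, fm, hy i]; simp
  have h1 : IsZ1 A LC.g⁻¹ univ (sdv1 sC (φf S R')) := by
    have := hC0.sdv1' (φf_z1 H) hφ0
    rwa [mul_one] at this
  have h2 : IsZ1 A LC.g⁻¹ univ (sm1 sZ β) := by
    have h3 := hZ0.sm1' O.β_z1
    have h4 : (LZ.g * (L⁻¹).g : A.ι → A.ι → M → ℂ) = LC.g⁻¹ := by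
      funext i j x
      rw [hL]
      simp only [Pi.mul_apply, LB.inv_g, LB.mul_g, Pi.inv_apply, mul_inv]
      have := LZ.ne_zero i j x
      field_simp
    rwa [h4] at h3
  obtain ⟨κ, hκ⟩ := hR2 (fn A F) (isZ0_fn O.F_sm) ⟨_, h1.sub h2, by
    funext i x e
    rw [O.eq]
    have h3 : sm1 sC (sdv1 sC (φf S R')) i x = φf S R' i x := by
      refine sm1_sdv1 fun h0 => ?_
      by_cases hx : x ∈ (A.e i).source
      · exact (hφ0 i x hx trivial h0).self_of_nhds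
      · exact (φf_z1 H).off i x hx
    have h4 := congrFun h3 e
    simp only [sm1, Pi.sub_apply, mul_sub] at h4 ⊢
    rw [h4]
    by_cases hx : x ∈ (A.e i).source
    · rw [hss i x hx]; ring
    · have hb : β i x e = 0 := by rw [O.β_z1.off i x hx]; rfl
      rw [hb]; ring⟩
  refine ⟨κ, fun q hq => ?_⟩
  obtain ⟨i, hi⟩ := A.cover q
  have := hκ i q hi hq
  rwa [fn_of_mem hi] at this

/-- `ut` is the coordinate on the polydisc of radius `R'` -/
theorem ut_eq_U (H : StIn S L s τ R') {q : M} (hq : q ∈ S.Q R') : ut S R' q = S.U q :=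
  ut_eq H hq.1 fun a => ((hq.2 a).trans (r1_gt H)).le

/-- `ut` vanishes at the small end -/
theorem ut_low (H : StIn S L s τ R') (hh : Continuous h) :
    ∃ T : ℝ, ∀ q, h q < T → ut S R' q = 0 := by
  obtain ⟨T0, T1, hT⟩ := exists_slab H hh
  exact ⟨T0, fun q hq => (hT q (Or.inl hq)).self_of_nhds⟩

end main

end

end Crest.Agent.R275.StartP595
end

-- ▼ part R275/Start2_595

/-!
# R275, block SEC5-ITER (helper595): START for the enlarged atlas `add A P`

All hypotheses on the small atlas `A`; the configuration `S` lives on `add A P hc`.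
-/

set_option autoImplicit false
set_option linter.unusedSectionVars false

open Set Filter Topology Complex
open scoped ContDiff ComplexConjugate

namespace Crest.Agent.R275.StartP595

open Geo Core144 Fm96 Dol967 It160 AtlAdd539

noncomputable section

variable {M : Type} [TopologicalSpace M] [T2Space M] {A : Atl 2 M}
  {P : OpenPartialHomeomorph M (Cn 2)} (hc : Cmp A P)

/-- the frame of `L` over the chart `i0` -/
theorem isFr_chart (L : LB A) {i0 : A.ι} (hP : P.source ⊆ (A.e i0).source) :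
    IsFr A L.g P.source (fun i x => L.g i i0 x) where
  hol i x hx hS := (KerV631.isLC L).hol i i0 x ⟨hx, hP hS⟩
  ne i x _ _ := L.ne_zero i i0 x
  tr i j x hx hS := (L.mul i j i0 x ⟨hx, hP hS⟩).symm

/-- the line bundle `L` on the enlarged atlas -/
def aL (L : LB A) {i0 : A.ι} (hP : P.source ⊆ (A.e i0).source) : LB (add A P hc) :=
  addL hc L _ (isFr_chart L hP)

/-- a section of `L` on the enlarged atlas -/
def aS (L : LB A) {i0 : A.ι} (hP : P.source ⊆ (A.e i0).source) (s : A.ι → M → ℂ) :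
    (add A P hc).ι → M → ℂ := uE0 P (frE hc (aL hc L hP).g) s

variable {i0 : A.ι} (hP : P.source ⊆ (A.e i0).source)

@[simp] theorem res_aL (L : LB A) : resL hc (aL hc L hP) = L := resL_addL hc L _ _

theorem aS_some (L : LB A) (s : A.ι → M → ℂ) (i : A.ι) : aS hc L hP s (some i) = s i := rfl

theorem isHS_aS {L : LB A} {U : Set M} (hU : IsOpen U) {s : A.ι → M → ℂ} (hs : IsHS L U s) :
    IsHS (aL hc L hP) U (aS hc L hP s) :=
  isHS_add hc hU (by rw [res_aL]; exact hs)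

theorem isZ0_aS {L : LB A} {U : Set M} (hU : IsOpen U) {s : A.ι → M → ℂ}
    (hs : IsZ0 A L.g U s) : IsZ0 (add A P hc) (aL hc L hP).g U (aS hc L hP s) := by
  refine xE0_mem hc hU (KerV631.isLC _) ?_
  have h1 : gR hc (aL hc L hP).g = L.g := by rw [← resL_g, res_aL]
  rw [h1]
  exact hs

/-- the value of a section in the new chart -/
theorem aS_none {L : LB A} {U : Set M} (hU : IsOpen U) {s : A.ι → M → ℂ}
    (hs : IsZ0 A L.g U s) {q : M} (hq : q ∈ P.source) (hqU : q ∈ U) (i : A.ι)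
    (hi : q ∈ (A.e i).source) :
    aS hc L hP s none q = (L.g i i0 q)⁻¹ * s i q := by
  have h1 := (isZ0_aS hc hP hU hs).tr none (some i) q ⟨hq, hi⟩ hqU
  rw [h1, aS_some]
  congr 1
  have h2 := addL_g hc L _ (isFr_chart L hP) none (some i) (x := q) ⟨hq, hi⟩
  exact h2

/-- a relation between sections in all charts of `A` extends to `add A P` -/
theorem aS_rel {LC LZ : LB A} {U : Set M} (hU : IsOpen U) {s sC sZ : A.ι → M → ℂ}
    (hs : IsZ0 A (LC * LZ).g U s) (hC : IsZ0 A LC.g U sC) (hZ : IsZ0 A LZ.g U sZ)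
    (h : ∀ i, ∀ x ∈ (A.e i).source, x ∈ U → s i x = sC i x * sZ i x) :
    ∀ o, ∀ x ∈ ((add A P hc).e o).source, x ∈ U →
      aS hc (LC * LZ) hP s o x = aS hc LC hP sC o x * aS hc LZ hP sZ o x := by
  rintro (_ | i) x hx hxU
  · obtain ⟨i, hi⟩ := A.cover x
    rw [aS_none hc hP hU hs hx hxU i hi, aS_none hc hP hU hC hx hxU i hi,
      aS_none hc hP hU hZ hx hxU i hi, h i x hi hxU, LB.mul_g, mul_inv]
    ring
  · exact h i x hx hxU

theorem aS_fun {L : LB A} {U : Set M} (hU : IsOpen U) {s τ : A.ι → M → ℂ} {f : M → ℂ}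
    (hs : IsZ0 A L.g U s) (hτ : IsZ0 A L.g U τ)
    (h : ∀ i, ∀ x ∈ (A.e i).source, x ∈ U → s i x = f x * τ i x) :
    ∀ o, ∀ x ∈ ((add A P hc).e o).source, x ∈ U →
      aS hc L hP s o x = f x * aS hc L hP τ o x := by
  rintro (_ | i) x hx hxU
  · obtain ⟨i, hi⟩ := A.cover x
    rw [aS_none hc hP hU hs hx hxU i hi, aS_none hc hP hU hτ hx hxU i hi, h i x hi hxU]
    ring
  · exact h i x hx hxU

theorem aS_eq_zero {L : LB A} {U : Set M} (hU : IsOpen U) {s : A.ι → M → ℂ}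
    (hs : IsZ0 A L.g U s) {o : (add A P hc).ι} {x : M} (hx : x ∈ ((add A P hc).e o).source)
    (hxU : x ∈ U) (i : A.ι) (hi : x ∈ (A.e i).source) (h0 : aS hc L hP s o x = 0) :
    s i x = 0 := by
  have h1 := (isZ0_aS hc hP hU hs).tr (some i) o x ⟨hi, hx⟩ hxU
  rw [h0, mul_zero] at h1
  exact h1

/-- `R2` on the enlarged atlas -/
theorem r2_add {LC : LB A} {sC : A.ι → M → ℂ} {Z : Set M} (H : R2 A LC.g sC Z) :
    R2 (add A P hc) (aL hc LC hP).g (aS hc LC hP sC) Z := by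
  rintro u hu ⟨v, hv, hd⟩
  have h1 : gR hc ((aL hc LC hP).g⁻¹) = LC.g⁻¹ := by
    have h2 : gR hc (aL hc LC hP).g = LC.g := by rw [← resL_g, res_aL]
    rw [← h2]
    rfl
  obtain ⟨κ, hκ⟩ := H (fun i => u (some i)) (res0 hc hu)
    ⟨fun i => v (some i), by have := res1 hc hv; rwa [h1] at this,
      by funext i x; exact congrFun (congrFun hd (some i)) x⟩
  refine ⟨κ, ?_⟩
  rintro (_ | i) x hx hxZ
  · obtain ⟨i, hi⟩ := A.cover x
    rw [hu.tr none (some i) x ⟨hx, hi⟩ trivial, hκ i x hi hxZ]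
    exact one_mul κ
  · exact hκ i x hx hxZ

/-- hypotheses on the small atlas -/
structure StA (A : Atl 2 M) (P : OpenPartialHomeomorph M (Cn 2)) (hc : Cmp A P) (i0 : A.ι)
    (S : Cfg (add A P hc)) (LC LZ : LB A) (sC sZ τ : A.ι → M → ℂ) (R' : ℝ) : Prop where
  P_i0 : P.source ⊆ (A.e i0).source
  S_i : S.i = none
  R'_R : R' < S.R
  R'_a : 16 * S.a3 ≤ R'
  R'_ρ : 16 * S.ρ ≤ R'
  Q_N : S.Q R' ⊆ S.N
  hsC : IsHS LC univ sC
  hsZ : IsHS LZ univ sZ
  hτ : IsZ0 A (LC * LZ).g S.N τ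
  s_eq : ∀ i, ∀ q ∈ (A.e i).source, q ∈ S.N → sC i q * sZ i q = S.x q * τ i q
  sC_ne : ∀ q ∈ P.source, ∀ i, q ∈ (A.e i).source → sC i q = 0 → S.V q = 0
  sZ_ne : ∀ q ∈ P.source, ∀ i, q ∈ (A.e i).source → sZ i q = 0 → S.U q = 0

namespace StA

variable {hc} {S : Cfg (add A P hc)} {LC LZ : LB A} {sC sZ τ : A.ι → M → ℂ} {R' : ℝ}
  {K : A.ι → Set M} {h : M → ℝ}

theorem stIn (H : StA A P hc i0 S LC LZ sC sZ τ R') :
    StIn S (aL hc (LC * LZ) H.P_i0) (aS hc (LC * LZ) H.P_i0 (sC * sZ))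
      (aS hc (LC * LZ) H.P_i0 τ) R' where
  R'_R := H.R'_R
  R'_a := H.R'_a
  R'_ρ := H.R'_ρ
  Q_N := H.Q_N
  hs := isHS_aS hc H.P_i0 isOpen_univ (H.hsC.mul H.hsZ)
  τ_z := isZ0_aS hc H.P_i0 S.N_open H.hτ
  s_eq := by
    have h1 := ((KerV631.isHS_iff isOpen_univ).1 (H.hsC.mul H.hsZ)).z0
    exact aS_fun hc H.P_i0 S.N_open (h1.mono (subset_univ _)) H.hτ H.s_eq
  s_ne := by
    intro q hq hU hV o ho h0
    rw [H.S_i] at hq
    have h1 := ((KerV631.isHS_iff isOpen_univ).1 (H.hsC.mul H.hsZ)).z0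
    obtain ⟨i, hi⟩ := A.cover q
    have h2 := aS_eq_zero hc H.P_i0 isOpen_univ h1 ho trivial i hi h0
    rcases mul_eq_zero.1 h2 with h3 | h3
    · exact hV (H.sC_ne q hq i hi h3)
    · exact hU (H.sZ_ne q hq i hi h3)

/-- output of the start on the enlarged atlas; rates: `β` in `(a0, b0)`, `F` in `(a1, b1)` -/
structure Out (H : StA A P hc i0 S LC LZ sC sZ τ R') (K : A.ι → Set M) (h : M → ℝ)
    (Z : Set M) (a0 b0 a1 b1 : ℝ) (F : M → ℂ) (β : (add A P hc).ι → M → Fin 2 → ℂ) (κ : ℂ) :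
    Prop where
  start : Start S (ut S R') F (sm1 (aS hc (LC * LZ) H.P_i0 τ) β) R'
  F_C : ∀ q ∈ Z, F q = κ
  F_lim : ∀ ε > 0, ∃ T : ℝ, ∀ q, h q < T → ‖F q‖ < ε
  ut_U : ∀ q ∈ S.Q R', ut S R' q = S.U q
  ut_low : ∃ T : ℝ, ∀ q, h q < T → ut S R' q = 0
  F_sm : SmOn A univ F
  F_bd : BD A K h a1 b1 (fn A F)
  β_z1 : IsZ1 (add A P hc) ((aL hc (LC * LZ) H.P_i0)⁻¹).g univ β
  β_z1' : IsZ1 A ((LC * LZ)⁻¹).g univ fun i => β (some i)
  β_bd : BD1 A K h a0 b0 fun i => β (some i)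

/-- **START on the enlarged atlas**, with prescribed rates -/
theorem exists_start_r (H : StA A P hc i0 S LC LZ sC sZ τ R') (C : Cor A h K)
    {e a0 b0 a1 b1 : ℝ} (ha1 : a1 < 0) (hsb : BD A K h e e (sC * sZ))
    (h2 : ∃ a b, SolZ2 A K h (LC * LZ)⁻¹ a b a0 b0)
    (h1 : SolZ1 A K h 1 (e + a0) (e + b0) a1 b1)
    {Z : Set M} (hR2 : R2 A LC.g sC Z) :
    ∃ (F : M → ℂ) (β : (add A P hc).ι → M → Fin 2 → ℂ) (κ : ℂ),
      Out H K h Z a0 b0 a1 b1 F β κ := by
  have C' := cor_add hc C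
  have hI := H.stIn
  obtain ⟨F, β, O⟩ := hI.exists_start_r (a0 := a0) (b0 := b0) (a1 := a1) (b1 := b1) C'
    ((bd_add hc).2 hsb)
    (by
      obtain ⟨a, b, h3⟩ := h2
      exact ⟨a, b, solZ2_add hc (by rw [resL_inv, res_aL]; exact h3)⟩)
    (solZ1_add hc (by rw [resL_one]; exact h1))
  have hsC0 := ((KerV631.isHS_iff isOpen_univ).1 H.hsC).z0
  have hsZ0 := ((KerV631.isHS_iff isOpen_univ).1 H.hsZ).z0
  have hss0 := ((KerV631.isHS_iff isOpen_univ).1 (H.hsC.mul H.hsZ)).z0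
  have hLL : aL hc (LC * LZ) H.P_i0 = aL hc LC H.P_i0 * aL hc LZ H.P_i0 := by
    ext o o' x
    by_cases hx : x ∈ ((add A P hc).e o).source ∩ ((add A P hc).e o').source
    · rw [LB.mul_g]
      simp only [aL]
      rw [addL_g hc _ _ _ o o' hx, addL_g hc _ _ _ o o' hx, addL_g hc _ _ _ o o' hx]
      rcases o with _ | i <;> rcases o' with _ | j <;> simp [gE]; ring
    · rw [LB.mul_g, LB.off _ _ _ _ hx, LB.off _ _ _ _ hx, LB.off _ _ _ _ hx, one_mul]
  obtain ⟨κ, hκ⟩ := O.const hI hLL (isHS_aS hc H.P_i0 isOpen_univ H.hsC)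
    (isHS_aS hc H.P_i0 isOpen_univ H.hsZ)
    (fun o x hx => aS_rel hc H.P_i0 isOpen_univ hss0 hsC0 hsZ0 (fun i x _ _ => rfl) o x hx
      trivial)
    (fun o x hx h0 hxs => by
      rw [H.S_i] at hxs
      obtain ⟨i, hi⟩ := A.cover x
      exact H.sC_ne x hxs i hi (aS_eq_zero hc H.P_i0 isOpen_univ hsC0 hx trivial i hi h0))
    (r2_add hc H.P_i0 hR2)
  have h1 : gR hc ((aL hc (LC * LZ) H.P_i0)⁻¹).g = ((LC * LZ)⁻¹).g := by
    rw [← resL_g, resL_inv, res_aL]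
  exact ⟨F, β, κ, O.start, hκ, O.lim C' ha1, fun q hq => ut_eq_U hI hq, StartP595.ut_low hI C.cont,
    fun i => O.F_sm (some i), (bd_add hc).1 O.F_bd, O.β_z1,
    by have := res1 hc O.β_z1; rwa [h1] at this, (bd1_add hc).1 O.β_bd⟩

/-- **START on the enlarged atlas** -/
theorem exists_start (H : StA A P hc i0 S LC LZ sC sZ τ R') (C : Cor A h K) {d : ℝ}
    (hd : 0 < d) (hsb : ∀ e > 0, BD A K h e e (sC * sZ))
    (h2 : ∀ {a b a' b' : ℝ}, a < a' → b < b' → SolZ2 A K h (LC * LZ)⁻¹ a b a' b')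
    (h1 : ∀ {a b a' b' : ℝ}, -d < a' → a' < 0 → 0 < b' → b' < d → a < a' → b < b' →
      SolZ1 A K h 1 a b a' b')
    {Z : Set M} (hR2 : R2 A LC.g sC Z) :
    ∃ (F : M → ℂ) (b0 : (add A P hc).ι → M → Fin 2 → ℂ) (κ : ℂ),
      Start S (ut S R') F b0 R' ∧ (∀ q ∈ Z, F q = κ) ∧
      (∀ ε > 0, ∃ T : ℝ, ∀ q, h q < T → ‖F q‖ < ε) ∧
      (∀ q ∈ S.Q R', ut S R' q = S.U q) ∧ (∃ T : ℝ, ∀ q, h q < T → ut S R' q = 0) ∧
      BD A K h (-(d / 4)) (d / 2) (fn A F) := by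
  obtain ⟨F, β, κ, O⟩ := H.exists_start_r (a0 := -(d / 2)) (b0 := d / 4) (a1 := -(d / 4))
    (b1 := d / 2) C (by linarith) (hsb (d / 8) (by linarith))
    ⟨-d, 0, h2 (by linarith) (by linarith)⟩
    (h1 (by linarith) (by linarith) (by linarith) (by linarith) (by linarith) (by linarith)) hR2
  exact ⟨F, _, κ, O.start, O.F_C, O.F_lim, O.ut_U, O.ut_low, O.F_bd⟩

end StA

end

end Crest.Agent.R275.StartP595
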