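import Crest.Agent.R275.NPadd_539
import Crest.Agent.R275.DolB_511
import Crest.Agent.R275.Fm2_96
import Crest.Agent.R275.ItD_160
import Crest.Agent.R275.QN2b_734
import Crest.Agent.R275.Brg_96
import Crest.Agent.R275.Start2_595_Mg
import Crest.Agent.R275.MulZ_658

-- ▼ part R275/IterS_539
section

/-!
# R275, block SEC5-ITER (helper539): interface between the region and the analysis

`RegOut` : the facts on the configuration `S : Cfg (add A P hP)` used by the iteration.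
-/

set_option autoImplicit false
set_option linter.unusedSectionVars false

open Set Filter Topology Complex
open scoped ContDiff ComplexConjugate

namespace Crest.Agent.R275.IterAll539

open Geo Fm96 It160 AtlAdd539

/-- output of the region: `h` the height, `C` the curve, `D` the divisor (closed sets),
`x` the function on `N0`, `p` the centre of the chart `P` -/
structure RegOut {M : Type} [TopologicalSpace M] [T2Space M] (A : Atl 2 M) (h : M → ℝ)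
    (C D N0 : Set M) (x : M → ℂ) (r : ℕ) (p : Cn 2) {P : OpenPartialHomeomorph M (Cn 2)}
    (hP : Cmp A P) (S : Cfg (add A P hP)) (R' : ℝ) : Prop where
  Si : S.i = none
  Sp : S.p = p
  Sx : S.x = x
  Sr : S.r = r
  SN : S.N = N0
  KC : S.KC
  GN : ∀ q ∈ S.GN, q ∈ N0 ∧ q ∉ C
  D_K0 : D ⊆ S.K0
  low : ∃ T : ℝ, ∀ q, h q < T → q ∈ S.VZ ∧ S.Ψ q = 1 ∧ S.X q = 0 ∧ S.Θ q = 1
  top : ∃ H : ℝ, ∀ q, H < h q → S.Ψ q = 0
  R'_R : R' < S.R
  R'_a : 16 * S.a3 ≤ R'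
  R'_ρ : 16 * S.ρ ≤ R'
  Q_N : S.Q R' ⊆ S.N
  src : ∃ i0, P.source ⊆ (A.e i0).source
  small : ∃ c ρ, TorT2539.Small (add A P hP) none c ρ

end Crest.Agent.R275.IterAll539
end

-- ▼ part R275/Lim_539
section

/-!
# R275, block SEC5-ITER, leaf LIMIT (helper539)

* `hol_of_limit` : smooth functions on a ball of `ℂ²` converging uniformly with `∂̄` tending
  uniformly to zero have a holomorphic limit.
* `limit` : the `x`-adic iteration: from a step `b = ∂̄ h + x b⁺` with `n b⁺ ≤ C₀ n b` and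
  `∂̄ Y₁ = x b₁` to a holomorphic function `y` near `{x = 0}` with `y = Y₁` on `{x = 0}`.
-/

set_option autoImplicit false
set_option linter.unusedSectionVars false

open Set Filter Topology Complex
open scoped ContDiff ComplexConjugate

namespace Crest.Agent.R275.Lim539

open Geo Fm96

noncomputable section

/-- **(L1)** -/
theorem hol_of_limit {p : Cn 2} {r : ℝ} (hr : 0 < r) {F : ℕ → Cn 2 → ℂ} {f : Cn 2 → ℂ}
    {δ : ℕ → ℝ} (hδ : Tendsto δ atTop (𝓝 0))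
    (hF : ∀ k, ContDiffOn ℝ ∞ (F k) (Metric.ball p (8 * r)))
    (h1 : ∀ k, ∀ y ∈ Metric.ball p (8 * r), ‖F k y - f y‖ ≤ δ k)
    (h2 : ∀ k a, ∀ y ∈ Metric.ball p (8 * r), ‖dbj a (F k) y‖ ≤ δ k) :
    DifferentiableOn ℂ f (Metric.ball p r) := by
  obtain ⟨C, hC0, hC⟩ := DolB511.solve_ball_bdd p hr
  have hsub : Metric.ball p r ⊆ Metric.ball p (8 * r) := Metric.ball_subset_ball (by linarith)
  have key : ∀ k, ∃ h : Cn 2 → ℂ, ContDiff ℝ ∞ h ∧
      (∀ a, ∀ y ∈ Metric.ball p r, dbj a h y = dbj a (F k) y) ∧ ∀ y, ‖h y‖ ≤ C * δ k := by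
    intro k
    refine hC (fun a => dbj a (F k)) (δ k) (fun a => ?_) (fun y hy => ?_) (h2 k)
    · exact Dol967.contDiffOn_dbj Metric.isOpen_ball (hF k)
    · exact Dol967.dbj_comm Metric.isOpen_ball (hF k) hy
  choose H hH hHd hHb using key
  have hG : ∀ k, DifferentiableOn ℂ (fun z => F k z - H k z) (Metric.ball p r) := by
    intro k
    refine Dol967.holo_of_dbj Metric.isOpen_ball (((hF k).mono hsub).sub (hH k).contDiffOn)
      fun a y hy => ?_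
    rw [Dol967.dbj_sub, hHd k a y hy, sub_self]
    · exact ((hF k).contDiffAt (Metric.isOpen_ball.mem_nhds (hsub hy))).differentiableAt (by simp)
    · exact (hH k).contDiffAt.differentiableAt (by simp)
  have hlim : TendstoUniformlyOn (fun k z => F k z - H k z) f atTop (Metric.ball p r) := by
    rw [Metric.tendstoUniformlyOn_iff]
    intro ε hε
    have h3 : Tendsto (fun k => (1 + C) * δ k) atTop (𝓝 0) := by
      simpa using hδ.const_mul (1 + C)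
    filter_upwards [h3.eventually_lt_const hε] with k hk y hy
    rw [dist_comm, dist_eq_norm]
    have h4 := h1 k y (hsub hy)
    have h5 := hHb k y
    calc ‖F k y - H k y - f y‖ = ‖(F k y - f y) - H k y‖ := by ring_nf
      _ ≤ ‖F k y - f y‖ + ‖H k y‖ := norm_sub_le _ _
      _ ≤ (1 + C) * δ k := by linarith
      _ < ε := hk
  exact (R266.SCV.analyticOnNhd_of_tendstoLocallyUniformlyOn Metric.isOpen_ball
    hlim.tendstoLocallyUniformlyOn (Eventually.of_forall hG)).differentiableOn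

variable {M : Type} [TopologicalSpace M] {A : Atl 2 M}

theorem d0_fn {f : M → ℂ} {j : A.ι} {q : M} (hq : q ∈ (A.e j).source) (e : Fin 2) :
    d0 A (fn A f) j q e = A.db j e f q := by
  rw [d0_of_mem hq]
  refine db_congr hq ?_
  filter_upwards [src_nhds hq] with y hy using fn_of_mem hy

/-- **(L2)** the limit of the `x`-adic iteration, with the pointwise bound
`‖y - Y₁‖ ≤ 2 n b₁ ‖x‖ Λ` -/
theorem limit_wt {K0 : Set M} (hK0 : IsOpen K0) {x : M → ℂ} (hx : IsH A 1 K0 (fn A x))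
    {B : (A.ι → M → Fin 2 → ℂ) → Prop} {n : (A.ι → M → Fin 2 → ℂ) → ℝ} (hn : ∀ b, 0 ≤ n b)
    {C₀ : ℝ} (hC₀ : 0 < C₀) {Λ : M → ℝ} (hΛ : ∀ q ∈ K0, ∃ C, ∀ᶠ y in 𝓝 q, Λ y ≤ C)
    (step : ∀ b, B b → ∃ (h : M → ℂ) (b' : A.ι → M → Fin 2 → ℂ), SmOn A K0 h ∧ B b' ∧
      n b' ≤ C₀ * n b ∧ (∀ y ∈ K0, ‖h y‖ ≤ Λ y * n b) ∧
      ∀ j, ∀ q ∈ K0, ∀ e, b j q e - d0 A (fn A h) j q e = x q * b' j q e)
    (hb : ∀ q ∈ K0, ∃ j, q ∈ (A.e j).source ∧ ∃ C, ∀ᶠ y in 𝓝 q, ∀ b, B b → ∀ e,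
      ‖b j y e‖ ≤ C * n b)
    {Y₁ : M → ℂ} (hY : SmOn A K0 Y₁) {b₁ : A.ι → M → Fin 2 → ℂ} (hb₁ : B b₁)
    (hY₁ : ∀ j, ∀ q ∈ K0, ∀ e, d0 A (fn A Y₁) j q e = x q * b₁ j q e) :
    ∃ y : M → ℂ, (∀ j, ∀ q ∈ (A.e j).source, q ∈ K0 → ‖x q‖ < 1 / (2 * C₀) → HolP A j y q) ∧
      (∀ q, x q = 0 → y q = Y₁ q) ∧
      ∀ q ∈ K0, ‖x q‖ < 1 / (2 * C₀) → ‖y q - Y₁ q‖ ≤ 2 * n b₁ * (‖x q‖ * Λ q) := by
  choose! hf bf h1 h2 h3 h4 h5 using step
  set bs : ℕ → A.ι → M → Fin 2 → ℂ := fun k => bf^[k] b₁ with hbs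
  have hbs0 : bs 0 = b₁ := rfl
  have hbsS : ∀ k, bs (k + 1) = bf (bs k) := fun k => Function.iterate_succ_apply' _ _ _
  have hB : ∀ k, B (bs k) := by
    intro k
    induction k with
    | zero => exact hb₁
    | succ k ih => rw [hbsS]; exact h2 _ ih
  have hnb : ∀ k, n (bs k) ≤ C₀ ^ k * n b₁ := by
    intro k
    induction k with
    | zero => rw [hbs0, pow_zero, one_mul]
    | succ k ih =>
      rw [hbsS]
      calc n (bf (bs k)) ≤ C₀ * n (bs k) := h3 _ (hB k)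
        _ ≤ C₀ * (C₀ ^ k * n b₁) := mul_le_mul_of_nonneg_left ih hC₀.le
        _ = _ := by ring
  set hs : ℕ → M → ℂ := fun k => hf (bs k) with hhs
  set ys : ℕ → M → ℂ := fun K q => Y₁ q - x q * ∑ k ∈ Finset.range K, x q ^ k * hs k q with hys
  have hysS : ∀ K q, ys (K + 1) q = ys K q - x q ^ (K + 1) * hs K q := by
    intro K q
    simp only [hys, Finset.sum_range_succ]
    ring
  have hxs : ∀ j, ∀ q ∈ (A.e j).source, q ∈ K0 → SmP A j x q := fun j q hj hq =>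
    (smP_fn hj).1 (hx.z0.sm j q hj hq)
  have hxd : ∀ j, ∀ q ∈ (A.e j).source, q ∈ K0 → ∀ e, A.db j e x q = 0 := fun j q hj hq e => by
    rw [← d0_fn hj e, hx.db j q hq]; rfl
  have hpow : ∀ (m : ℕ) (j : A.ι), ∀ q ∈ (A.e j).source, q ∈ K0 →
      SmP A j (fun y => x y ^ m) q ∧ ∀ e, A.db j e (fun y => x y ^ m) q = 0 := by
    intro m j q hj hq
    induction m with
    | zero =>
      have h6 : (fun y : M => x y ^ 0) = fun _ => (1 : ℂ) := by funext y; simp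
      rw [h6]
      exact ⟨SmP.const 1, fun e => db_constP e 1⟩
    | succ m ih =>
      have h6 : (fun y : M => x y ^ (m + 1)) = fun y => x y ^ m * x y := by
        funext y; rw [pow_succ]
      rw [h6]
      refine ⟨ih.1.mul (hxs j q hj hq), fun e => ?_⟩
      rw [db_mulP e ih.1 (hxs j q hj hq) hj, ih.2 e, hxd j q hj hq e]
      ring
  have hyss : ∀ K j, ∀ q ∈ (A.e j).source, q ∈ K0 → SmP A j (ys K) q ∧
      ∀ e, A.db j e (ys K) q = x q ^ (K + 1) * bs K j q e := by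
    intro K
    induction K with
    | zero =>
      intro j q hj hq
      have h6 : ys 0 = Y₁ := by
        funext q; simp [hys]
      rw [h6]
      refine ⟨hY j q hj hq, fun e => ?_⟩
      rw [← d0_fn hj e, hY₁ j q hq e, hbs0]
      ring
    | succ K ih =>
      intro j q hj hq
      obtain ⟨i1, i2⟩ := ih j q hj hq
      obtain ⟨p1, p2⟩ := hpow (K + 1) j q hj hq
      have s1 : SmP A j (hs K) q := h1 _ (hB K) j q hj hq
      have h6 : ys (K + 1) = fun q => ys K q - x q ^ (K + 1) * hs K q := by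
        funext q; exact hysS K q
      rw [h6]
      refine ⟨i1.sub (p1.mul s1), fun e => ?_⟩
      rw [db_subP e i1 (p1.mul s1), db_mulP e p1 s1 hj, p2 e, i2 e]
      have h7 := h5 _ (hB K) j q hq e
      rw [d0_fn hj e] at h7
      have h8 : hf (bs K) = hs K := rfl
      rw [h8] at h7
      rw [hbsS]
      linear_combination x q ^ (K + 1) * h7
  -- bounds
  have hterm : ∀ q ∈ K0, ‖x q‖ < 1 / (2 * C₀) → ∀ k, ‖x q ^ k * hs k q‖ ≤
      (Λ q * n b₁) * (1 / 2 : ℝ) ^ k := by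
    intro q hq hxq k
    have h6 : ‖hs k q‖ ≤ Λ q * n (bs k) := h4 _ (hB k) q hq
    have hΛ0 : 0 ≤ Λ q ∨ n (bs k) = 0 := by
      by_contra hc
      rw [not_or] at hc
      have h7 : 0 < n (bs k) := lt_of_le_of_ne (hn _) (Ne.symm hc.2)
      have h8 := (norm_nonneg (hs k q)).trans h6
      exact hc.1 (le_of_mul_le_mul_right (by simpa using h8) h7)
    have h7 : ‖x q‖ ^ k * C₀ ^ k ≤ (1 / 2 : ℝ) ^ k := by
      rw [← mul_pow]
      refine pow_le_pow_left₀ (by positivity) ?_ k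
      calc ‖x q‖ * C₀ ≤ 1 / (2 * C₀) * C₀ := mul_le_mul_of_nonneg_right hxq.le hC₀.le
        _ = 1 / 2 := by field_simp
    rw [norm_mul, norm_pow]
    rcases hΛ0 with hL | h0
    · calc ‖x q‖ ^ k * ‖hs k q‖ ≤ ‖x q‖ ^ k * (Λ q * (C₀ ^ k * n b₁)) := by
            refine mul_le_mul_of_nonneg_left (h6.trans ?_) (by positivity)
            exact mul_le_mul_of_nonneg_left (hnb k) hL
        _ = (Λ q * n b₁) * (‖x q‖ ^ k * C₀ ^ k) := by ring
        _ ≤ _ := mul_le_mul_of_nonneg_left h7 (mul_nonneg hL (hn _))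
    · have h8 : ‖hs k q‖ = 0 := le_antisymm (by simpa [h0] using h6) (norm_nonneg _)
      rw [h8, mul_zero]
      -- `Λ q * n b₁ ≥ 0` from the zeroth term
      have h9 : 0 ≤ Λ q * n b₁ := (norm_nonneg (hs 0 q)).trans (h4 _ (hB 0) q hq)
      positivity
  have hsum : ∀ q ∈ K0, ‖x q‖ < 1 / (2 * C₀) → HasSum (fun k => x q ^ k * hs k q)
      (∑' k, x q ^ k * hs k q) := fun q hq hxq =>
    (Summable.of_norm_bounded
      ((summable_geometric_of_lt_one (by norm_num) (by norm_num)).mul_left _)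
      (hterm q hq hxq)).hasSum
  set y : M → ℂ := fun q => Y₁ q - x q * ∑' k, x q ^ k * hs k q with hy
  have hyK : ∀ K, ∀ q ∈ K0, ‖x q‖ < 1 / (2 * C₀) →
      ‖ys K q - y q‖ ≤ ‖x q‖ * ((Λ q * n b₁) * (1 / 2 : ℝ) ^ K * 2) := by
    intro K q hq hxq
    have h6 := norm_sub_le_of_geometric_bound_of_hasSum (by norm_num : (1 / 2 : ℝ) < 1)
      (hterm q hq hxq) (hsum q hq hxq) K
    have h7 : ys K q - y q =
        -(x q * (∑ k ∈ Finset.range K, x q ^ k * hs k q - ∑' k, x q ^ k * hs k q)) := by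
      simp only [hys, hy]; ring
    rw [h7, norm_neg, norm_mul]
    refine mul_le_mul_of_nonneg_left (h6.trans (le_of_eq ?_)) (norm_nonneg _)
    ring
  refine ⟨y, ?_, ?_, ?_⟩
  · intro i q hi hq hxq
    obtain ⟨j, hj, Cb, hCb⟩ := hb q hq
    obtain ⟨CΛ, hCΛ⟩ := hΛ q hq
    suffices h : HolP A j y q from h.change ⟨hi, hj⟩
    have hxc : ContinuousAt x q := (hxs j q hj hq).continuousAt hj
    have hev : ∀ᶠ w in 𝓝 q, w ∈ K0 ∧ ‖x w‖ < 1 / (2 * C₀) ∧ Λ w ≤ CΛ ∧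
        ∀ b, B b → ∀ e, ‖b j w e‖ ≤ Cb * n b := by
      filter_upwards [hK0.mem_nhds hq, hxc.norm.eventually_lt_const hxq, hCΛ, hCb]
        with w h6 h7 h8 h9 using ⟨h6, h7, h8, h9⟩
    have hsymm : Tendsto (A.e j).symm (𝓝 (A.e j q)) (𝓝 q) := by
      have := (A.e j).continuousAt_symm ((A.e j).map_source hj)
      rw [ContinuousAt, (A.e j).left_inv hj] at this
      exact this
    have hev' : {z | z ∈ (A.e j).target ∧ ((A.e j).symm z ∈ K0 ∧
        ‖x ((A.e j).symm z)‖ < 1 / (2 * C₀) ∧ Λ ((A.e j).symm z) ≤ CΛ ∧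
        ∀ b, B b → ∀ e, ‖b j ((A.e j).symm z) e‖ ≤ Cb * n b)} ∈ 𝓝 (A.e j q) :=
      inter_mem ((A.e j).open_target.mem_nhds ((A.e j).map_source hj)) (hsymm.eventually hev)
    obtain ⟨ε, hε, hball⟩ := Metric.mem_nhds_iff.1 hev'
    have hr : 0 < ε / 8 := by positivity
    have h8r : 8 * (ε / 8) = ε := by ring
    set D : ℝ := max ((1 / (2 * C₀)) * (CΛ * n b₁ * 2)) ((1 / (2 * C₀)) * (Cb * n b₁)) with hD
    have hdiff : DifferentiableOn ℂ (fun z => y ((A.e j).symm z))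
        (Metric.ball (A.e j q) (ε / 8)) := by
      refine hol_of_limit hr (F := fun K z => ys K ((A.e j).symm z))
        (δ := fun K => D * (1 / 2 : ℝ) ^ K) ?_ ?_ ?_ ?_
      · simpa using (tendsto_pow_atTop_nhds_zero_of_lt_one (by norm_num : (0 : ℝ) ≤ 1 / 2)
          (by norm_num)).const_mul D
      · intro K z hz
        rw [h8r] at hz
        obtain ⟨hzt, hzK, -⟩ := hball hz
        have h6 := (hyss K j _ ((A.e j).map_target hzt) hzK).1.self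
        rw [(A.e j).right_inv hzt] at h6
        exact h6.contDiffWithinAt
      · intro K z hz
        rw [h8r] at hz
        obtain ⟨hzt, hzK, hzx, hzΛ, -⟩ := hball hz
        refine (hyK K _ hzK hzx).trans ?_
        have hL0 : 0 ≤ Λ ((A.e j).symm z) * n b₁ :=
          (norm_nonneg (hs 0 ((A.e j).symm z))).trans (h4 _ (hB 0) _ hzK)
        have hL1 : Λ ((A.e j).symm z) * n b₁ ≤ CΛ * n b₁ :=
          mul_le_mul_of_nonneg_right hzΛ (hn _)
        calc ‖x ((A.e j).symm z)‖ * (Λ ((A.e j).symm z) * n b₁ * (1 / 2 : ℝ) ^ K * 2)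
            ≤ (1 / (2 * C₀)) * (CΛ * n b₁ * (1 / 2 : ℝ) ^ K * 2) := by
              refine mul_le_mul hzx.le ?_ (by positivity) (by positivity)
              gcongr
          _ = (1 / (2 * C₀)) * (CΛ * n b₁ * 2) * (1 / 2 : ℝ) ^ K := by ring
          _ ≤ _ := mul_le_mul_of_nonneg_right (le_max_left _ _) (by positivity)
      · intro K a z hz
        rw [h8r] at hz
        obtain ⟨hzt, hzK, hzx, -, hzb⟩ := hball hz
        have hzs := (A.e j).map_target hzt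
        have h6 := (hyss K j _ hzs hzK).2 a
        rw [Atl.db, (A.e j).right_inv hzt] at h6
        rw [h6, norm_mul, norm_pow]
        have h7 : ‖bs K j ((A.e j).symm z) a‖ ≤ Cb * n (bs K) := hzb _ (hB K) a
        have hCb0 : Cb * n (bs K) ≤ max (Cb * (C₀ ^ K * n b₁)) 0 := by
          by_cases hc : 0 ≤ Cb
          · exact (mul_le_mul_of_nonneg_left (hnb K) hc).trans (le_max_left _ _)
          · exact (mul_nonpos_of_nonpos_of_nonneg (not_le.1 hc).le (hn _)).trans (le_max_right _ _)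
        have h0 : 0 ≤ Cb * n b₁ := (norm_nonneg _).trans (hzb _ hb₁ a)
        have h8 : ‖bs K j ((A.e j).symm z) a‖ ≤ C₀ ^ K * (Cb * n b₁) := by
          refine (h7.trans hCb0).trans (max_le (le_of_eq (by ring)) (by positivity))
        calc ‖x ((A.e j).symm z)‖ ^ (K + 1) * ‖bs K j ((A.e j).symm z) a‖
            ≤ (1 / (2 * C₀)) ^ (K + 1) * (C₀ ^ K * (Cb * n b₁)) := by
              refine mul_le_mul (pow_le_pow_left₀ (norm_nonneg _) hzx.le _) h8 (norm_nonneg _)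
                (by positivity)
          _ = (1 / (2 * C₀)) * (Cb * n b₁) * (1 / 2 : ℝ) ^ K := by
              rw [pow_succ, div_pow, mul_pow, div_pow]
              field_simp
              try ring
          _ ≤ _ := mul_le_mul_of_nonneg_right (le_max_right _ _) (by positivity)
    filter_upwards [Metric.ball_mem_nhds _ hr] with z hz
    exact hdiff.differentiableAt (Metric.isOpen_ball.mem_nhds hz)
  · intro q hq
    simp [hy, hq]
  · intro q hqK hxq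
    have h6 := hyK 0 q hqK hxq
    have h7 : ys 0 q = Y₁ q := by simp [hys]
    rw [h7, pow_zero, mul_one, norm_sub_rev] at h6
    exact h6.trans (le_of_eq (by ring))

/-- **(L2)**, version with a uniform bound on a set `E` -/
theorem limit {K0 : Set M} (hK0 : IsOpen K0) {x : M → ℂ} (hx : IsH A 1 K0 (fn A x)) {E : Set M}
    {B : (A.ι → M → Fin 2 → ℂ) → Prop} {n : (A.ι → M → Fin 2 → ℂ) → ℝ} (hn : ∀ b, 0 ≤ n b)
    {C₀ : ℝ} (hC₀ : 0 < C₀) {Λ : M → ℝ} (hΛ : ∀ q ∈ K0, ∃ C, ∀ᶠ y in 𝓝 q, Λ y ≤ C)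
    {CE : ℝ} (hΛE : ∀ y ∈ E, Λ y ≤ CE)
    (step : ∀ b, B b → ∃ (h : M → ℂ) (b' : A.ι → M → Fin 2 → ℂ), SmOn A K0 h ∧ B b' ∧
      n b' ≤ C₀ * n b ∧ (∀ y ∈ K0, ‖h y‖ ≤ Λ y * n b) ∧
      ∀ j, ∀ q ∈ K0, ∀ e, b j q e - d0 A (fn A h) j q e = x q * b' j q e)
    (hb : ∀ q ∈ K0, ∃ j, q ∈ (A.e j).source ∧ ∃ C, ∀ᶠ y in 𝓝 q, ∀ b, B b → ∀ e,
      ‖b j y e‖ ≤ C * n b)
    {Y₁ : M → ℂ} (hY : SmOn A K0 Y₁) {b₁ : A.ι → M → Fin 2 → ℂ} (hb₁ : B b₁)
    (hY₁ : ∀ j, ∀ q ∈ K0, ∀ e, d0 A (fn A Y₁) j q e = x q * b₁ j q e) :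
    ∃ y : M → ℂ, (∀ j, ∀ q ∈ (A.e j).source, q ∈ K0 → ‖x q‖ < 1 / (2 * C₀) → HolP A j y q) ∧
      (∀ q, x q = 0 → y q = Y₁ q) ∧
      ∃ C, ∀ q ∈ E, q ∈ K0 → ‖x q‖ < 1 / (2 * C₀) → ‖y q - Y₁ q‖ ≤ C * ‖x q‖ := by
  obtain ⟨y, h1, h2, h3⟩ := limit_wt hK0 hx hn hC₀ hΛ step hb hY hb₁ hY₁
  refine ⟨y, h1, h2, 2 * n b₁ * CE, fun q hqE hqK hxq => (h3 q hqK hxq).trans ?_⟩
  rw [mul_comm ‖x q‖, ← mul_assoc]
  refine mul_le_mul_of_nonneg_right ?_ (norm_nonneg _)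
  exact mul_le_mul_of_nonneg_left (hΛE q hqE) (mul_nonneg zero_le_two (hn _))

end

end Crest.Agent.R275.Lim539
end

-- ▼ part R275/IterEnd_539
section

/-!
# R275, block SEC5-ITER (helper539): end of the iteration

`limit2` : `Lim539.limit` in the form of `step_bound`.
`iter_end` : norm package + configuration + start data ⟹ the function `y` near
`D ∪ {h ≤ T} ∪ (C ∩ chart)`, holomorphic, `y = u` on `C ∩ chart`, with a limit at the small end.
-/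

set_option autoImplicit false
set_option linter.unusedSectionVars false

open Set Filter Topology Complex
open scoped ContDiff ComplexConjugate

namespace Crest.Agent.R275.IterEnd539

open Geo Fm96 Dol967 It160

noncomputable section

variable {M : Type} [TopologicalSpace M] {A : Atl 2 M}

/-- the limit theorem with the step given by functions `H`, `Bp` -/
theorem limit2 {K0 : Set M} (hK0 : IsOpen K0) {x : M → ℂ} (hx : IsH A 1 K0 (fn A x))
    {B : (A.ι → M → Fin 2 → ℂ) → Prop} {n : (A.ι → M → Fin 2 → ℂ) → ℝ} (hn : ∀ b, 0 ≤ n b)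
    {C₀ : ℝ} (hC₀ : 0 < C₀) {H : (A.ι → M → Fin 2 → ℂ) → M → ℂ}
    {Bp : (A.ι → M → Fin 2 → ℂ) → A.ι → M → Fin 2 → ℂ}
    (step : ∀ b, B b → SmOn A K0 (H b) ∧ B (Bp b) ∧ n (Bp b) ≤ C₀ * n b ∧
      ∀ j, ∀ q ∈ K0, ∀ e, b j q e - d0 A (fn A (H b)) j q e = x q * Bp b j q e)
    (hH : ∀ q ∈ K0, ∃ C, ∀ᶠ y in 𝓝 q, ∀ b, B b → ‖H b y‖ ≤ C * n b)
    {E : Set M} {CE : ℝ} (hE : ∀ y ∈ E, ∀ b, B b → ‖H b y‖ ≤ CE * n b)
    (hb : ∀ q ∈ K0, ∃ j, q ∈ (A.e j).source ∧ ∃ C, ∀ᶠ y in 𝓝 q, ∀ b, B b → ∀ e,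
      ‖b j y e‖ ≤ C * n b)
    {Y₁ : M → ℂ} (hY : SmOn A K0 Y₁) {b₁ : A.ι → M → Fin 2 → ℂ} (hb₁ : B b₁)
    (hY₁ : ∀ j, ∀ q ∈ K0, ∀ e, d0 A (fn A Y₁) j q e = x q * b₁ j q e) :
    ∃ y : M → ℂ, (∀ j, ∀ q ∈ (A.e j).source, q ∈ K0 → ‖x q‖ < 1 / (2 * C₀) → HolP A j y q) ∧
      (∀ q, x q = 0 → y q = Y₁ q) ∧
      ∃ C, ∀ q ∈ E, q ∈ K0 → ‖x q‖ < 1 / (2 * C₀) → ‖y q - Y₁ q‖ ≤ C * ‖x q‖ := by
  -- the best constant at each point
  set S : M → Set ℝ := fun y => {C : ℝ | 0 ≤ C ∧ ∀ b, B b → ‖H b y‖ ≤ C * n b} with hS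
  set Λ : M → ℝ := fun y => sInf (S y) with hΛ
  have hbdd : ∀ y, BddBelow (S y) := fun y => ⟨0, fun C hC => hC.1⟩
  have hmem : ∀ y C, (∀ b, B b → ‖H b y‖ ≤ C * n b) → max C 0 ∈ S y := fun y C h =>
    ⟨le_max_right _ _, fun b hb => (h b hb).trans
      (mul_le_mul_of_nonneg_right (le_max_left _ _) (hn b))⟩
  have hle : ∀ y C, (∀ b, B b → ‖H b y‖ ≤ C * n b) → Λ y ≤ max C 0 := fun y C h =>
    csInf_le (hbdd y) (hmem y C h)
  have hatt : ∀ y ∈ K0, ∀ b, B b → ‖H b y‖ ≤ Λ y * n b := by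
    intro y hy b hb'
    obtain ⟨C, hC⟩ := hH y hy
    have hne : (S y).Nonempty := ⟨_, hmem y C hC.self_of_nhds⟩
    rcases (hn b).eq_or_lt with h0 | h0
    · have h1 := (hmem y C hC.self_of_nhds).2 b hb'
      rw [← h0, mul_zero] at h1
      rw [← h0, mul_zero]
      exact h1
    · rw [← div_le_iff₀ h0]
      refine le_csInf hne fun C' hC' => ?_
      rw [div_le_iff₀ h0]
      exact hC'.2 b hb'
  refine Lim539.limit (Λ := Λ) (CE := max CE 0) hK0 hx hn hC₀ ?_ ?_ ?_ hb hY hb₁ hY₁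
  · intro q hq
    obtain ⟨C, hC⟩ := hH q hq
    exact ⟨max C 0, hC.mono fun y hy => hle y C hy⟩
  · exact fun y hy => hle y CE (hE y hy)
  · intro b hb'
    obtain ⟨s1, s2, s3, s4⟩ := step b hb'
    exact ⟨H b, Bp b, s1, s2, s3, fun y hy => hatt y hy b hb', s4⟩

variable [T2Space M]

theorem fm_sub (φ : M → ℂ) (b b' : A.ι → M → Fin 2 → ℂ) :
    fm φ (b - b') = fm φ b - fm φ b' := by
  funext j q e
  simp only [fm, Pi.sub_apply]
  ring

/-- **End of the iteration.** -/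
theorem iter_end (N : NP A) (S : Cfg A) (hK : S.KC) (hT : TorB N S.i) (hS : SolB N S)
    {h : M → ℝ} (hh : Continuous h)
    -- the small end
    (hxe : ∀ ε > 0, ∃ T : ℝ, ∀ q, h q < T → ‖S.x q‖ < ε)
    (hVZe : ∃ T : ℝ, ∀ q, h q < T → q ∈ S.VZ)
    (hΘe : ∃ T C : ℝ, ∀ q, h q < T → ‖S.Θ q‖ ≤ C)
    (hsup : ∃ T C : ℝ, ∀ f, N.c0 f → ∀ q, h q < T → ‖f q‖ ≤ C * N.n0 f)
    (hcs : ∀ m, IsZ1 A 1 univ m → CSupp m → N.c1 m)
    -- the start
    {ut F : M → ℂ} {b0 : A.ι → M → Fin 2 → ℂ} {R' : ℝ} (hst : Start S ut F b0 R')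
    (hb0 : N.c1 (fm S.Ψ b0)) (hut : ∃ T : ℝ, ∀ q, h q < T → ut q = 0)
    {κF : ℂ} (hFe : ∀ ε > 0, ∃ T : ℝ, ∀ q, h q < T → ‖F q - κF‖ < ε)
    {κC : ℂ} (hFC : ∀ q ∈ (A.e S.i).source, S.V q = 0 → ‖S.U q‖ < S.a3 → F q = κC)
    (hutC : ∀ q ∈ (A.e S.i).source, S.V q = 0 → ‖S.U q‖ < S.a3 → ut q = S.U q) :
    ∃ (Ny : Set M) (y : M → ℂ) (κ : ℂ), IsOpen Ny ∧ Ny ⊆ S.K0 ∧
      (∀ q ∈ S.K0, S.x q = 0 → q ∈ Ny) ∧ (∃ T : ℝ, ∀ q, h q ≤ T → q ∈ Ny) ∧
      (∀ j, ∀ q ∈ (A.e j).source, q ∈ Ny → HolP A j y q) ∧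
      (∀ q ∈ Ny, q ∈ (A.e S.i).source → S.V q = 0 → y q = S.U q) ∧
      ∀ ε > 0, ∃ T : ℝ, ∀ q, h q < T → ‖y q - κ‖ < ε := by
  have := QN2b734.locallyCompact A
  obtain ⟨C0, hC0, H, Bp, hstep, hEb⟩ := step_bound N S hK hT hS
  obtain ⟨φ, hφs, hφc, hφt, hB1, hY1s, hY1⟩ := hst.start
  set b₁ : A.ι → M → Fin 2 → ℂ := fm S.Ψ (b0 - d0 A (fn A (pl A S.i φ))) with hb₁
  set Y₁ : M → ℂ := fun q => ut q - F q - S.x q * pl A S.i φ q with hY₁
  have hgs : SmOn A univ (pl A S.i φ) := smOn_pl hφs hφc hφt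
  have hdg : IsZ1 A 1 univ (d0 A (fn A (pl A S.i φ))) :=
    d0_mem IsLC.one isOpen_univ (isZ0_fn hgs)
  -- `b₁` is in the class
  have hpz : ∀ q ∉ (A.e S.i).symm '' tsupport φ, ∀ᶠ y in 𝓝 q, pl A S.i φ y = 0 := by
    intro q hq
    have hc : IsCompact ((A.e S.i).symm '' tsupport φ) :=
      hφc.isCompact.image_of_continuousOn ((A.e S.i).continuousOn_symm.mono hφt)
    filter_upwards [hc.isClosed.isOpen_compl.mem_nhds hq] with y hy
    by_cases hys : y ∈ (A.e S.i).source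
    · rw [pl_of_mem hys]
      by_contra h
      exact hy ⟨A.e S.i y, subset_tsupport _ h, (A.e S.i).left_inv hys⟩
    · exact pl_of_not_mem hys
  have hKφ : IsCompact ((A.e S.i).symm '' tsupport φ) :=
    hφc.isCompact.image_of_continuousOn ((A.e S.i).continuousOn_symm.mono hφt)
  have hc1 : N.c1 b₁ := by
    rw [hb₁, fm_sub]
    refine (N.sub1 _ _ hb0 (hcs _ (isZ1_fm hdg S.Ψ_sm) ⟨_, hKφ, fun j q hq => ?_⟩)).1
    have h4 : d0 A (fn A (pl A S.i φ)) j q = 0 := d0_fn_eq_zero (hpz q hq)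
    funext e; simp [fm, h4]
  -- sup bounds
  have hcpt : ∀ K : Set M, IsCompact K → ∃ C : ℝ, 0 ≤ C ∧ ∀ f, N.c0 f → ∀ q ∈ K,
      ‖S.Θ q * f q‖ ≤ C * N.n0 f := by
    intro K hKc
    obtain ⟨C1, hC1, hs0⟩ := N.sup0 K hKc
    have hΘc : ContinuousOn S.Θ K := by
      intro q _
      obtain ⟨j, hj⟩ := A.cover q
      exact (SmP.continuousAt (S.Θ_sm j q hj trivial) hj).continuousWithinAt
    obtain ⟨C2, hC2⟩ := hKc.exists_bound_of_continuousOn hΘc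
    refine ⟨max C2 0 * C1, by positivity, fun f hf q hq => ?_⟩
    rw [norm_mul, mul_assoc]
    exact mul_le_mul ((hC2 q hq).trans (le_max_left _ _)) (hs0 f hf q hq) (norm_nonneg _)
      (le_max_right _ _)
  obtain ⟨TV, hTV⟩ := hVZe
  obtain ⟨TΘ, CΘ, hTΘ⟩ := hΘe
  obtain ⟨Ts, Cs, hTs⟩ := hsup
  set E : Set M := {q | h q < min TΘ Ts} with hEdef
  have hEE : ∃ C : ℝ, 0 ≤ C ∧ ∀ f, N.c0 f → ∀ q ∈ E, ‖S.Θ q * f q‖ ≤ C * N.n0 f := by
    refine ⟨max CΘ 0 * max Cs 0, by positivity, fun f hf q hq => ?_⟩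
    have hq' : h q < min TΘ Ts := hq
    rw [norm_mul, mul_assoc]
    refine mul_le_mul ((hTΘ q (hq'.trans_le (min_le_left _ _))).trans (le_max_left _ _)) ?_
      (norm_nonneg _) (le_max_right _ _)
    exact (hTs f hf q (hq'.trans_le (min_le_right _ _))).trans
      (mul_le_mul_of_nonneg_right (le_max_left _ _) (N.n0_nn f))
  obtain ⟨CE, hCE, hCE'⟩ := hEb E hEE
  -- apply the limit theorem
  have hC1 : 0 < C0 + 1 := by linarith
  obtain ⟨y, hy1, hy2, Cy, hy3⟩ := limit2 (K0 := S.K0) (x := S.x) S.isOpen_K0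
    ⟨S.x_hol.z0.mono S.K0_N, fun j q hq => S.x_hol.db j q (S.K0_N hq)⟩
    (B := fun b => InB S b ∧ N.c1 b) (n := N.n1) N.n1_nn hC1 (H := H) (Bp := Bp)
    (fun b hb => by
      obtain ⟨s1, s2, s3, s4, s5⟩ := hstep b hb.1 hb.2
      refine ⟨fun j q hq _ => s1 j q hq trivial, ⟨s2, s3⟩, s4.trans ?_, s5⟩
      exact mul_le_mul_of_nonneg_right (by linarith) (N.n1_nn b))
    (fun q _ => by
      obtain ⟨K, hKc, hKq⟩ := exists_compact_mem_nhds q
      obtain ⟨C, hC, hb⟩ := hEb K (hcpt K hKc)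
      exact ⟨C, by filter_upwards [hKq] with y hy b hbb using hb b hbb.1 hbb.2 y hy⟩)
    (E := E) (CE := CE) (fun q hq b hb => hCE' b hb.1 hb.2 q hq)
    (fun q _ => by
      obtain ⟨j, hj⟩ := A.cover q
      obtain ⟨K, hKq, hKj, hKc⟩ := local_compact_nhds ((A.e j).open_source.mem_nhds hj)
      obtain ⟨C, hC, hb⟩ := N.sup1 K hKc j hKj
      exact ⟨j, hj, C, by filter_upwards [hKq] with y hy b hbb using hb b hbb.2 y hy⟩)
    hY1s ⟨hB1, hc1⟩ hY1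
  set c : ℝ := 1 / (2 * (C0 + 1)) with hc
  have hcpos : 0 < c := by positivity
  have hxc : ContinuousOn S.x S.K0 := by
    intro q hq
    obtain ⟨j, hj⟩ := A.cover q
    exact (SmP.continuousAt (S.smP_x hj (S.K0_N hq)) hj).continuousWithinAt
  set Ny : Set M := {q | q ∈ S.K0 ∧ ‖S.x q‖ < c} with hNy
  have hNyo : IsOpen Ny := by
    have h1 : Ny = S.K0 ∩ (fun q => ‖S.x q‖) ⁻¹' Iio c := rfl
    rw [h1]
    exact hxc.norm.isOpen_inter_preimage S.isOpen_K0 isOpen_Iio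
  -- `x = 0` on `C`
  have hxV : ∀ q ∈ (A.e S.i).source, S.V q = 0 → S.x q = 0 := by
    intro q hq hV
    rw [S.x_W q hq]
    have : A.e S.i q 1 - S.p 1 = 0 := hV
    rw [this, zero_mul]
  have hUa : ∀ q ∈ S.K0, q ∈ (A.e S.i).source → ‖S.U q‖ < S.a3 := by
    rintro q (hq | hq) hqs
    · exact (S.VZ_W q hq hqs).trans (S.a01.trans (S.a12.trans S.a23))
    · exact hq.2.1
  refine ⟨Ny, fun q => y q + κC, κC - κF, hNyo, fun q hq => hq.1,
    fun q hq hx0 => ⟨hq, by rw [hx0, norm_zero]; exact hcpos⟩, ?_, ?_, ?_, ?_⟩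
  · obtain ⟨T1, hT1⟩ := hxe c hcpos
    refine ⟨min TV T1 - 1, fun q hq => ⟨Or.inl (hTV q ?_), hT1 q ?_⟩⟩
    · have := min_le_left TV T1; linarith
    · have := min_le_right TV T1; linarith
  · intro j q hj hq
    exact (hy1 j q hj hq.1 hq.2).add (HolP.const κC)
  · intro q hq hqs hV
    have hU := hUa q hq.1 hqs
    have hx0 := hxV q hqs hV
    show y q + κC = S.U q
    rw [hy2 q hx0]
    simp only [hY₁, hx0, zero_mul, sub_zero, hFC q hqs hV hU, hutC q hqs hV hU]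
    ring
  · intro ε hε
    -- `φ` vanishes near the small end
    obtain ⟨Tφ, hTφ⟩ : ∃ T : ℝ, ∀ q, h q < T → pl A S.i φ q = 0 := by
      obtain ⟨T, hT⟩ := (hKφ.image hh).bddBelow
      refine ⟨T, fun q hq => ?_⟩
      by_contra hne
      have hmem : q ∈ (A.e S.i).symm '' tsupport φ := by
        by_contra hn
        exact hne (hpz q hn).self_of_nhds
      exact absurd hq (not_lt.2 (hT ⟨q, hmem, rfl⟩))
    obtain ⟨Tu, hTu⟩ := hut
    obtain ⟨TF, hTF⟩ := hFe (ε / 2) (by positivity)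
    have hCy : 0 < |Cy| + 1 := by positivity
    obtain ⟨Tx, hTx⟩ := hxe (min c (ε / 2 / (|Cy| + 1))) (lt_min hcpos (by positivity))
    refine ⟨min (min (min Tφ Tu) (min TF Tx)) (min TV (min TΘ Ts)), fun q hq => ?_⟩
    simp only [lt_min_iff] at hq
    obtain ⟨⟨⟨q1, q2⟩, q3, q4⟩, q5, q6, q7⟩ := hq
    have hxq := hTx q q4
    rw [lt_min_iff] at hxq
    have hEq : q ∈ E := by
      show h q < min TΘ Ts
      exact lt_min q6 q7
    have hK0q : q ∈ S.K0 := Or.inl (hTV q q5)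
    have h1 := hy3 q hEq hK0q hxq.1
    have h2 : Y₁ q = - F q := by
      simp only [hY₁, hTu q q2, hTφ q q1, mul_zero]; ring
    have h3 := hTF q q3
    have h4 : Cy * ‖S.x q‖ < ε / 2 := by
      calc Cy * ‖S.x q‖ ≤ (|Cy| + 1) * ‖S.x q‖ :=
            mul_le_mul_of_nonneg_right (by linarith [le_abs_self Cy]) (norm_nonneg _)
        _ < (|Cy| + 1) * (ε / 2 / (|Cy| + 1)) := mul_lt_mul_of_pos_left hxq.2 hCy
        _ = ε / 2 := by field_simp
    calc ‖y q + κC - (κC - κF)‖ = ‖(y q - Y₁ q) - (F q - κF)‖ := by rw [h2]; ring_nf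
      _ ≤ ‖y q - Y₁ q‖ + ‖F q - κF‖ := norm_sub_le _ _
      _ < ε := by linarith

end

end Crest.Agent.R275.IterEnd539
end

-- ▼ part R275/IterEnd2_539
section

/-!
# R275, block SEC5-ITER (helper539): end of the iteration on a complex surface `Y`

`iter_end_mfd` : `iter_end` with `Dv69.HolN` (the literal form of the consumer Fin2_468 (d)).
-/

set_option autoImplicit false
set_option linter.unusedSectionVars false

open Set Filter Topology Complex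
open scoped ContDiff ComplexConjugate Manifold

namespace Crest.Agent.R275.IterEnd539

open Crest.AlgGeometry.Surface Geo Fm96 Dol967 It160 Core144

noncomputable section

variable {Y : Type} [TopologicalSpace Y] [ChartedSpace C2 Y] [IsManifold 𝓘(ℂ, C2) 1 Y]
  [T2Space Y] {A : Atl 2 Y}

theorem holN_of_holP (hA : Adm A) {U : Set Y} (hU : IsOpen U) {f : Y → ℂ}
    (hf : ∀ j, ∀ q ∈ (A.e j).source, q ∈ U → HolP A j f q) : ∀ q ∈ U, Dv69.HolN f q :=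
  (holOn_iff_holN hU f).1 (holOn_of_holAt hA hU fun i => (holAt_iff hU).2 fun x hx hxU =>
    hf i x hx hxU)

/-- **End of the iteration**, manifold form. -/
theorem iter_end_mfd (hA : Adm A) (N : NP A) (S : Cfg A) (hK : S.KC) (hT : TorB N S.i)
    (hS : SolB N S) {h : Y → ℝ} (hh : Continuous h)
    (hxe : ∀ ε > 0, ∃ T : ℝ, ∀ q, h q < T → ‖S.x q‖ < ε)
    (hVZe : ∃ T : ℝ, ∀ q, h q < T → q ∈ S.VZ)
    (hΘe : ∃ T C : ℝ, ∀ q, h q < T → ‖S.Θ q‖ ≤ C)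
    (hsup : ∃ T C : ℝ, ∀ f, N.c0 f → ∀ q, h q < T → ‖f q‖ ≤ C * N.n0 f)
    (hcs : ∀ m, IsZ1 A 1 univ m → CSupp m → N.c1 m)
    {ut F : Y → ℂ} {b0 : A.ι → Y → Fin 2 → ℂ} {R' : ℝ} (hst : Start S ut F b0 R')
    (hb0 : N.c1 (fm S.Ψ b0)) (hut : ∃ T : ℝ, ∀ q, h q < T → ut q = 0)
    {κF : ℂ} (hFe : ∀ ε > 0, ∃ T : ℝ, ∀ q, h q < T → ‖F q - κF‖ < ε)
    {κC : ℂ} (hFC : ∀ q ∈ (A.e S.i).source, S.V q = 0 → ‖S.U q‖ < S.a3 → F q = κC)
    (hutC : ∀ q ∈ (A.e S.i).source, S.V q = 0 → ‖S.U q‖ < S.a3 → ut q = S.U q) :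
    ∃ (Ny : Set Y) (y : Y → ℂ) (κ : ℂ), IsOpen Ny ∧ Ny ⊆ S.K0 ∧
      (∀ q ∈ S.K0, S.x q = 0 → q ∈ Ny) ∧ (∃ T : ℝ, ∀ q, h q ≤ T → q ∈ Ny) ∧
      (∀ q ∈ Ny, Dv69.HolN y q) ∧
      (∀ q ∈ Ny, q ∈ (A.e S.i).source → A.e S.i q 1 = S.p 1 → y q = A.e S.i q 0 - S.p 0) ∧
      ∀ ε > 0, ∃ T : ℝ, ∀ q, h q < T → ‖y q - κ‖ < ε := by
  obtain ⟨Ny, y, κ, h1, h2, h3, h4, h5, h6, h7⟩ := iter_end N S hK hT hS hh hxe hVZe hΘe hsup hcs
    hst hb0 hut hFe hFC hutC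
  exact ⟨Ny, y, κ, h1, h2, h3, h4, holN_of_holP hA h1 h5,
    fun q hq hqs hV => h6 q hq hqs (sub_eq_zero.2 hV), h7⟩

end

end Crest.Agent.R275.IterEnd539
end

-- ▼ part R275/IterAll_539

/-!
# R275, block SEC5-ITER (helper539): the whole iteration

`AnIn`     : analytic input on the atlas `A` (norm package, bounded division, multipliers);
`DatIn`    : the sections `sC`, `sZ`, the frame `τ`, the function `x`, the chart `P`;
`iter_all` : `RegOut`, `DatIn`, `AnIn` and the solution statements give the function `y`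
             (the literal form of (d) of the consumer Fin2_468).
-/

set_option autoImplicit false
set_option linter.unusedSectionVars false

open Set Filter Topology Complex
open scoped ContDiff ComplexConjugate Manifold

namespace Crest.Agent.R275.IterAll539

open Geo Fm96 Dol967 It160 AtlAdd539 Core144 MulZ658 StartP595

noncomputable section

/-! ### raw statements -/

section raw

variable {M : Type} [TopologicalSpace M] [T2Space M] {A : Atl 2 M}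

/-- analytic input on the atlas `A`, for the section `σ` of `L` -/
structure AnIn (F : Part A) (K : A.ι → Set M) (h : M → ℝ) (d : ℝ) (N : NP A) (NB : NZ A) (s : ℕ)
    (L : LB A) (σ : A.ι → M → ℂ) : Prop where
  loc : LocN F N s
  hsup : ∃ T C : ℝ, ∀ f, N.c0 f → ∀ q, h q < T → ‖f q‖ ≤ C * N.n0 f
  hcs : ∀ m, IsZ1 A 1 univ m → CSupp m → N.c1 m
  hbd : ∀ b, IsZ1 A 1 univ b → BD1 A K h (-(d / 2)) 0 b → N.c1 b
  mul : ∀ θ, IsZ0 A L.g univ θ → BD A K h 0 0 θ → MulB N NB θ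
  bnd : ∀ Kc : Set M, IsCompact Kc → (∀ i, ∀ q ∈ Kc, q ∈ (A.e i).source → σ i q ≠ 0) →
    BndA N L.g σ Kc NB

variable {P : OpenPartialHomeomorph M (Cn 2)} {hP : Cmp A P}

/-- START on the enlarged atlas, with the bound of the form (proof of helper595) -/
theorem exists_start_bd {i0 : A.ι} {S : Cfg (add A P hP)} {LC LZ : LB A}
    {sC sZ τ : A.ι → M → ℂ} {R' : ℝ} {K : A.ι → Set M} {h : M → ℝ}
    (H : StA A P hP i0 S LC LZ sC sZ τ R') (C : Cor A h K) {d : ℝ}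
    (hd : 0 < d) (hsb : ∀ e > 0, BD A K h e e (sC * sZ))
    (h2 : ∀ {a b a' b' : ℝ}, a < a' → b < b' → SolZ2 A K h (LC * LZ)⁻¹ a b a' b')
    (h1 : ∀ {a b a' b' : ℝ}, -d < a' → a' < 0 → 0 < b' → b' < d → a < a' → b < b' →
      SolZ1 A K h 1 a b a' b')
    {Z : Set M} (hR2 : R2 A LC.g sC Z) :
    ∃ (F : M → ℂ) (β : (add A P hP).ι → M → Fin 2 → ℂ) (κ : ℂ),
      Start S (ut S R') F (sm1 (aS hP (LC * LZ) H.P_i0 τ) β) R' ∧ (∀ q ∈ Z, F q = κ) ∧
      (∀ ε > 0, ∃ T : ℝ, ∀ q, h q < T → ‖F q‖ < ε) ∧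
      (∀ q ∈ S.Q R', ut S R' q = S.U q) ∧ (∃ T : ℝ, ∀ q, h q < T → ut S R' q = 0) ∧
      (∀ i : A.ι, ∀ q ∉ (A.e i).source, β (some i) q = 0) ∧
      BD1 A K h (-(d / 2)) (d / 4) (fun i => β (some i)) := by
  have C' := cor_add hP C
  have hI := H.stIn
  obtain ⟨F, β, O⟩ := hI.exists_start C' hd
    (fun e he => (bd_add hP).2 (hsb e he))
    (fun {a b a' b'} ha hb => solZ2_add hP (by
      rw [resL_inv, res_aL]; exact h2 ha hb))
    (fun {a b a' b'} k1 k2 k3 k4 k5 k6 => solZ1_add hP (by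
      rw [resL_one]; exact h1 k1 k2 k3 k4 k5 k6))
  have hsC0 := ((KerV631.isHS_iff isOpen_univ).1 H.hsC).z0
  have hsZ0 := ((KerV631.isHS_iff isOpen_univ).1 H.hsZ).z0
  have hss0 := ((KerV631.isHS_iff isOpen_univ).1 (H.hsC.mul H.hsZ)).z0
  have hLL : aL hP (LC * LZ) H.P_i0 = aL hP LC H.P_i0 * aL hP LZ H.P_i0 := by
    ext o o' x
    by_cases hx : x ∈ ((add A P hP).e o).source ∩ ((add A P hP).e o').source
    · rw [LB.mul_g]
      simp only [aL]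
      rw [addL_g hP _ _ _ o o' hx, addL_g hP _ _ _ o o' hx, addL_g hP _ _ _ o o' hx]
      rcases o with _ | i <;> rcases o' with _ | j <;> simp [gE]; ring
    · rw [LB.mul_g, LB.off _ _ _ _ hx, LB.off _ _ _ _ hx, LB.off _ _ _ _ hx, one_mul]
  obtain ⟨κ, hκ⟩ := O.const hI hLL (isHS_aS hP H.P_i0 isOpen_univ H.hsC)
    (isHS_aS hP H.P_i0 isOpen_univ H.hsZ)
    (fun o x hx => aS_rel hP H.P_i0 isOpen_univ hss0 hsC0 hsZ0 (fun i x _ _ => rfl) o x hx
      trivial)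
    (fun o x hx h0 hxs => by
      rw [H.S_i] at hxs
      obtain ⟨i, hi⟩ := A.cover x
      exact H.sC_ne x hxs i hi (aS_eq_zero hP H.P_i0 isOpen_univ hsC0 hx trivial i hi h0))
    (r2_add hP H.P_i0 hR2)
  exact ⟨F, β, κ, O.start, hκ, O.lim C' (by linarith), fun q hq => ut_eq_U hI hq,
    ut_low hI C.cont, fun i q hq => O.β_z1.off (some i) q hq, (bd1_add hP).1 O.β_bd⟩

/-- a form on `N` cut off by `Ψ` -/
theorem isZ1_fmΨ {B : Atl 2 M} (S : Cfg B) {b : B.ι → M → Fin 2 → ℂ} (hz : IsZ1 B 1 S.N b) :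
    IsZ1 B 1 univ (fm S.Ψ b) := by
  refine ⟨fun j e q hq _ => ?_, fun j q hq => ?_, fun j k q hq _ e => ?_⟩
  · by_cases hΨ : q ∈ tsupport S.Ψ
    · exact (S.Ψ_sm j q hq trivial).mul (hz.sm j e q hq (S.Ψ_N hΨ))
    · refine smP_of_ev hq (c := 0) ?_
      filter_upwards [Cfg.Ψ_ev hΨ] with y hy
      simp [fm, hy]
  · funext e; simp [fm, hz.off j q hq]
  · by_cases hΨ : q ∈ tsupport S.Ψ
    · simp only [fm, hz.tr j k q hq (S.Ψ_N hΨ), Fin.sum_univ_two]; ring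
    · simp [fm, (Cfg.Ψ_ev hΨ).self_of_nhds]

/-- a family on `N` (holomorphic and bounded near the small end) cut off by a function which is
supported in `N` and vanishes above some level -/
theorem bd_cut {K : A.ι → Set M} {h : M → ℝ} (C : Cor A h K) (R : Rm A h K) {φ : M → ℂ}
    {u : A.ι → M → ℂ} (hsm : ∀ i, ∀ x ∈ (A.e i).source, SmP A i (fun y => φ y * u i y) x)
    {T H D : ℝ} (hφ : ∀ q, h q < T → φ q = 1) (htop : ∀ q, H < h q → φ q = 0)
    (hol : ∀ i, ∀ q ∈ (A.e i).source, h q < T → HolP A i (u i) q)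
    (hb : ∀ i, ∀ q ∈ (A.e i).source, h q < T → ‖u i q‖ ≤ D) (b : ℝ) :
    BD A K h 0 b (fun i y => φ y * u i y) := by
  obtain ⟨T', hT', h1⟩ := R.low_hol C.sub hol hb b
  refine bd_of_ends (T := T') (b := b) C (fun i x hx => hsm i x (C.sub i hx)) ?_ (S := H)
    (fun i x hx => ?_) b
  · refine WB.congr h1 (Kl.sub C.sub T') fun i x hx => ?_
    filter_upwards [(isOpen_lt C.cont continuous_const).mem_nhds (lt_of_lt_of_le hx.2 hT')]
      with y hy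
    rw [hφ y hy, one_mul]
  · simp [htop x hx]

end raw

/-! ### the manifold -/

section mfd

open Crest.AlgGeometry.Surface

variable {Y : Type} [TopologicalSpace Y] [T2Space Y] [PreconnectedSpace Y] [ChartedSpace C2 Y]
  [IsManifold 𝓘(ℂ, C2) 1 Y] {A : Atl 2 Y}

/-- the sections `sC` (of the curve), `sZ`, the frame `τ`, the function `x = sC sZ / τ` and the
chart `P` (centre `p`) -/
structure DatIn (A : Atl 2 Y) (h : Y → ℝ) (Cs D N0 : Set Y) (x : Y → ℂ) (r : ℕ) (p : Cn 2)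
    (P : OpenPartialHomeomorph Y C2) (LC LZ : LB A) (sC sZ τ : A.ι → Y → ℂ) : Prop where
  hsC : IsHS LC univ sC
  hsZ : IsHS LZ univ sZ
  sZ0 : sZ ≠ 0
  N0_open : IsOpen N0
  low : ∃ T : ℝ, {q | h q < T} ⊆ N0
  fr : Tr5.Frame h N0 (LC * LZ) τ
  rel : ∀ i, ∀ q ∈ (A.e i).source, q ∈ N0 → x q * τ i q = sC i q * sZ i q
  sC_ne : ∀ i, ∀ q ∈ (A.e i).source, q ∈ N0 → q ∉ Cs → sC i q ≠ 0
  sC_lim : ∃ c : ℂ, c ≠ 0 ∧ LimS h sC c
  x_lim : ∀ ε > 0, ∃ T : ℝ, ∀ q, h q < T → ‖x q‖ < ε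
  x_D : ∀ q ∈ D, x q = 0
  P_N0 : P.source ⊆ N0
  P_Z : ∀ q ∈ P.source, Dv69.LEq (GeoP572.dvs A sZ) (fun y => (P y 0 - p 0) ^ r) q
  P_C : ∀ q ∈ P.source, (q ∈ Cs ↔ P q 1 = p 1)

variable {h : Y → ℝ} {Cs D N0 : Set Y} {x : Y → ℂ} {r : ℕ} {p : Cn 2}
  {P : OpenPartialHomeomorph Y C2} {LC LZ : LB A} {sC sZ τ : A.ι → Y → ℂ}

/-- **The iteration.** -/
theorem iter_all (hA : Adm A) (F : Part A) {K : A.ι → Set Y} (C : Cor A h K) (R : Rm A h K)
    (I : DatIn A h Cs D N0 x r p P LC LZ sC sZ τ) (hPm : P ∈ IsManifold.maximalAtlas 𝓘(ℂ, C2) 1 Y)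
    {hP : Cmp A P} {S : Cfg (add A P hP)} {R' : ℝ} (O : RegOut A h Cs D N0 x r p hP S R')
    {d : ℝ} (hd : 0 < d) {N : NP A} {NB : NZ A} {s : ℕ} (hN : AnIn F K h d N NB s LZ sZ)
    (hsb : ∀ e > 0, BD A K h e e (sC * sZ))
    (h2 : ∀ {a b a' b' : ℝ}, a < a' → b < b' → SolZ2 A K h (LC * LZ)⁻¹ a b a' b')
    (h1 : ∀ {a b a' b' : ℝ}, -d < a' → a' < 0 → 0 < b' → b' < d → a < a' → b < b' →
      SolZ1 A K h 1 a b a' b')
    (hR2 : R2 A LC.g sC Cs) :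
    ∃ (Ny : Set Y) (y : Y → ℂ) (κ : ℂ), IsOpen Ny ∧ D ⊆ Ny ∧
      (∃ T : ℝ, ∀ q, h q ≤ T → q ∈ Ny) ∧ (∀ q ∈ Ny, Dv69.HolN y q) ∧
      (∀ q ∈ Ny, q ∈ P.source → P q 1 = p 1 → y q = P q 0 - p 0) ∧
      ∀ ε > 0, ∃ T : ℝ, ∀ q, h q < T → ‖y q - κ‖ < ε := by
  classical
  obtain ⟨i0, hi0⟩ := O.src
  obtain ⟨cc0, ρ0, hsmall⟩ := O.small
  obtain ⟨T1, hT1⟩ := O.low
  obtain ⟨H1, hH1⟩ := O.top
  obtain ⟨T2, hT2⟩ := I.low
  obtain ⟨c1, hc1, hl1⟩ := I.sC_lim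
  have hτH : IsH A (LC * LZ).g N0 τ := (KerV631.isHS_iff I.N0_open).1 I.fr.hs
  -- the line bundle data on the enlarged atlas
  obtain ⟨t2, ht2, ht2off, ht2eq, Z, hZg, hZs, hZt, hZt2⟩ := zdat_end hA (L := LC * LZ) rfl
    I.hsC I.hsZ I.sZ0 I.N0_open I.fr.hs I.sC_ne I.rel hP I.P_Z S O.Si O.Sp O.Sr O.Sx O.GN
  have hsZH : IsH A LZ.g univ sZ := (KerV631.isHS_iff isOpen_univ).1 I.hsZ
  have hZs0 : IsZ0 (add A P hP) Z.g univ Z.s := by
    rw [hZg, hZs]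
    exact uE0_mem hP isOpen_univ (KerV631.isLC LZ) ht2 hsZH.z0
  -- no zero of `sZ` on the compact set
  have hKc : ∀ i, ∀ q ∈ S.Kc, q ∈ (A.e i).source → sZ i q ≠ 0 := by
    intro i q hq hqi h0
    have hqN : q ∈ N0 := by rw [← O.SN]; exact S.Ψ_N hq.1
    have h3 := Cfg.x_ne_Kc hq
    rw [O.Sx] at h3
    have h4 := I.rel i q hqi hqN
    rw [h0, mul_zero] at h4
    exact (mul_ne_zero h3 (I.fr.ne i q hqi hqN)) h4
  have hbnd : BndA N (gR hP Z.g) (fun i => Z.s (some i)) S.Kc NB := by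
    rw [hZg, hZs]
    exact hN.bnd S.Kc (Cfg.isCompact_Kc O.KC) hKc
  -- the first multiplier
  obtain ⟨T3, D3, hT3, hq3⟩ := low_quot I.N0_open I.fr I.hsC hc1 hl1 (T₀ := T2) hT2
  have hgR : gR hP Z.g = LZ.g := by rw [hZg]; rfl
  have hZtu : ∀ (i : A.ι) (q : Y), Z.t (some i) q = τ i q * (sC i q)⁻¹ := by
    intro i q; rw [hZt]; rfl
  have hm1 : MulB N NB (fun i => fs (fun q => S.Ψ q * ((1 - S.X q) * S.Θ q)) Z.t (some i)) := by
    have hz1 := res0 hP (mul1_z0 Z)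
    rw [hgR] at hz1
    refine hN.mul _ hz1 ?_
    have e0 : (fun i : A.ι => fs (fun q => S.Ψ q * ((1 - S.X q) * S.Θ q)) Z.t (some i)) =
        fun i y => (S.Ψ y * ((1 - S.X y) * S.Θ y)) * (τ i y * (sC i y)⁻¹) := by
      funext i y
      show (S.Ψ y * ((1 - S.X y) * S.Θ y)) * Z.t (some i) y = _
      rw [hZtu]
    rw [e0] at hz1 ⊢
    refine bd_cut C R (T := min T1 T3) (H := H1) (D := D3)
      (φ := fun y => S.Ψ y * ((1 - S.X y) * S.Θ y)) (fun i x hx => hz1.sm i x hx trivial)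
      (fun q hq => ?_) (fun q hq => ?_) (fun i q hqi hq => ?_) (fun i q hqi hq => ?_) 0
    · obtain ⟨-, k1, k2, k3⟩ := hT1 q (hq.trans_le (min_le_left _ _))
      simp [k1, k2, k3]
    · simp [hH1 q hq]
    · have := (hq3 i q hqi (hq.trans_le (min_le_right _ _))).2.1
      simpa only [div_eq_mul_inv] using this
    · have := (hq3 i q hqi (hq.trans_le (min_le_right _ _))).2.2
      simpa only [div_eq_mul_inv] using this
  -- the second multiplier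
  have hm2 : MulB N NB
      (fun i => fs (fun q => pl (add A P hP) S.i S.k3 q * S.Θ q) Z.t2 (some i)) := by
    have hz1 := res0 hP (mul2_z0 Z)
    rw [hgR] at hz1
    obtain ⟨K2, hK2, -, hK0⟩ := mul2_cs Z
    obtain ⟨a1, ha1⟩ := (hK2.image C.cont).bddBelow
    obtain ⟨a2, ha2⟩ := (hK2.image C.cont).bddAbove
    refine hN.mul _ hz1 (C.slab_supp (S := a1) (T := a2)
      (fun i x hx => hz1.sm i x (C.sub i hx) trivial) (fun i q hq => ?_) 0 0)
    refine hK0 (some i) q fun hqK => ?_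
    have k1 := ha1 ⟨q, hqK, rfl⟩
    have k2 := ha2 ⟨q, hqK, rfl⟩
    rcases hq with hq | hq <;> linarith
  have hSol : SolB (npAdd hP F N) S := solB_add hP F Z hZs0 hbnd hm1 hm2
  have hTor : TorB (npAdd hP F N) S.i := by
    rw [O.Si]
    exact torB_add hP hN.loc hsmall
  -- the start
  have hU : ∀ q, S.U q = P q 0 - p 0 := by
    intro q; simp only [Cfg.U]; rw [O.Si, O.Sp]; rfl
  have hV : ∀ q, S.V q = P q 1 - p 1 := by
    intro q; simp only [Cfg.V]; rw [O.Si, O.Sp]; rfl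
  have hSt : StA A P hP i0 S LC LZ sC sZ τ R' := by
    refine ⟨hi0, O.Si, O.R'_R, O.R'_a, O.R'_ρ, O.Q_N, I.hsC, I.hsZ, ?_, ?_, ?_, ?_⟩
    · rw [O.SN]; exact hτH.z0
    · intro i q hq hqN
      rw [O.SN] at hqN
      rw [O.Sx]
      exact (I.rel i q hq hqN).symm
    · intro q hq i hqi h0
      rw [hV, sub_eq_zero]
      refine (I.P_C q hq).1 ?_
      by_contra hn
      exact I.sC_ne i q hqi (I.P_N0 hq) hn h0
    · intro q hq i hqi h0
      rw [hU]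
      have h3 := ht2eq i q hq
      rw [h0] at h3
      exact eq_zero_of_pow_eq_zero ((mul_eq_zero.1 h3.symm).resolve_right (ht2.ne i q hqi hq))
  obtain ⟨Fs, β, κF, hst, hFC, hF0, hutU, hutl, hβoff, hβbd⟩ :=
    exists_start_bd hSt C hd hsb h2 h1 hR2
  have hb0 : (npAdd hP F N).c1 (fm S.Ψ (sm1 (aS hP (LC * LZ) hSt.P_i0 τ) β)) := by
    have hz := isZ1_fmΨ S hst.b0_z1
    refine ⟨hz, hN.hbd _ (res1 hP hz) ?_⟩
    have hθ : BD A K h 0 (-(d / 4)) (fun i y => S.Ψ y * τ i y) := by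
      obtain ⟨Cτ, hCτ⟩ := I.fr.bdd
      refine bd_cut C R (T := min T1 T2) (H := H1) (D := Cτ) (fun i x hx => ?_)
        (fun q hq => (hT1 q (hq.trans_le (min_le_left _ _))).2.1) hH1 (fun i q hqi hq => ?_)
        (fun i q hqi hq => (hCτ i q hqi (hT2 (hq.trans_le (min_le_right _ _)))).1) _
      · by_cases hΨ : x ∈ tsupport S.Ψ
        · have hxN : x ∈ N0 := by rw [← O.SN]; exact S.Ψ_N hΨ
          exact SmP.mul (S.Ψ_sm (some i) x hx trivial) (hτH.z0.sm i x hx hxN)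
        · refine smP_of_ev hx (c := 0) ?_
          filter_upwards [Cfg.Ψ_ev hΨ] with y hy
          simp [hy]
      · exact (holAt_iff I.N0_open).1 (I.fr.hs.hol i) q hqi (hT2 (hq.trans_le (min_le_right _ _)))
    have h3 := BD.mul1 hθ hβbd
    have e1 : (fun i : A.ι => fm S.Ψ (sm1 (aS hP (LC * LZ) hSt.P_i0 τ) β) (some i)) =
        sm1 (fun i y => S.Ψ y * τ i y) (fun i => β (some i)) := by
      funext i y e
      show S.Ψ y * (τ i y * β (some i) y e) = (S.Ψ y * τ i y) * β (some i) y e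
      ring
    rw [e1]
    exact h3.mono (by linarith) (by linarith)
  have hPs : ((add A P hP).e S.i).source = P.source := by rw [O.Si]; rfl
  obtain ⟨Ny, y, κ, g1, g2, g3, g4, g5, g6, g7⟩ := IterEnd539.iter_end_mfd (AtlAdd539.adm_add hA hPm hP)
    (npAdd hP F N) S O.KC hTor hSol C.cont (by rw [O.Sx]; exact I.x_lim)
    ⟨T1, fun q hq => (hT1 q hq).1⟩ ⟨T1, 1, fun q hq => by rw [(hT1 q hq).2.2.2]; simp⟩
    hN.hsup (hcs_add hP F N hN.hcs) hst hb0 hutl (κF := 0)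
    (fun ε hε => by
      obtain ⟨T, hT⟩ := hF0 ε hε
      exact ⟨T, fun q hq => by rw [sub_zero]; exact hT q hq⟩)
    (κC := κF) (fun q hq hq1 _ => hFC q ((I.P_C q (by rwa [hPs] at hq)).2
      (sub_eq_zero.1 (by rw [← hV]; exact hq1))))
    (fun q hq hq1 hq0 => hutU q ⟨hq, fun a => by
      have k1 := S.ρ_pos
      have k2 := O.R'_ρ
      have k3 := O.R'_a
      have k4 : 0 ≤ ‖S.U q‖ := norm_nonneg _
      fin_cases a
      · show ‖S.U q‖ < R'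
        linarith
      · show ‖S.V q‖ < R'
        rw [hq1, norm_zero]
        linarith⟩)
  refine ⟨Ny, y, κ, g1, fun q hq => g3 q (O.D_K0 hq) (by rw [O.Sx]; exact I.x_D q hq), g4, g5,
    fun q hq hqP hq1 => ?_, g7⟩
  have k1 := g6 q hq (by rw [hPs]; exact hqP)
  rw [O.Si, O.Sp] at k1
  exact k1 hq1

end mfd

end

end Crest.Agent.R275.IterAll539
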