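import Crest.Agent.R275.WYc_681
import Crest.Agent.R275.WY4B_193

/-!
# R275, block D, WY4 (helper193), part C: multiplication and commutators as local estimates

In the language of `WY1_681` (`LE Q e c T`) and `WYc_681` (`WSm B w`, `sc h w`).

* `FB P c f` : all derivatives of `f i`, read in the chart `i`, are `≤ C c_i` on `tsupport (ψ i)`.
* `MB.le` : a bundle map `H : FHom r B B'` of local size `c` satisfies `LE Q r c H.actL`.
* `fmH`, `comH` : multiplication by a smooth function, the commutator with `∇`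
  (`nabL_fmH`); `le_fmH`, `le_comH`.
* indicator sizes (`ind S`, finitely many charts): `dom_ind`, `fin_ind`; `mem_ind`, `op0_ind`,
  `neg_ind` : operators of finite local size act between arbitrary weights, and are negligible
  if they are of order `-1`.
-/

set_option autoImplicit false
set_option linter.unusedSectionVars false
set_option linter.unusedVariables false

open Filter Topology Set Complex
open scoped ContDiff Matrix ComplexConjugate Real

namespace Crest.Agent.R275.WY4193

open Geo Tor812 TorS666 CnD812 FHom556 JB658 WY681 Fred685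

noncomputable section

variable {n : ℕ} {M : Type} [TopologicalSpace M] {A : Atl n M} {P : Part A}

/-! ### families of functions with bounded derivatives on the cores `tsupport (ψ i)` -/

/-- points of the cores -/
def Tp (P : Part A) : Type := {t : A.ι × M // t.2 ∈ tsupport (P.ψ t.1)}

def Tp.i (t : Tp P) : A.ι := t.1.1
def Tp.x (t : Tp P) : M := t.1.2
theorem Tp.mem (t : Tp P) : t.x ∈ tsupport (P.ψ t.i) := t.2
theorem Tp.src (t : Tp P) : t.x ∈ (A.e t.i).source := psi_src P t.mem

/-- all derivatives of `f i`, read in the chart `i`, are bounded by `C * c i` on the core -/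
def FB {W : Type*} [NormedAddCommGroup W] [NormedSpace ℝ W] (P : Part A) (c : A.ι → ℝ)
    (f : A.ι → M → W) : Prop :=
  JB (fun t : Tp P => A.e t.i t.x) (fun t => c t.i) fun t z => f t.i ((A.e t.i).symm z)

section FB

variable {W : Type*} [NormedAddCommGroup W] [NormedSpace ℝ W] {c c' : A.ι → ℝ}

theorem FB.congr {f g : A.ι → M → W} (h : FB P c f)
    (e : ∀ i, ∀ x ∈ (A.e i).source, g i x = f i x) : FB P c g := by
  refine JB.congr h fun t => ?_
  filter_upwards [(A.e t.i).open_target.mem_nhds ((A.e t.i).map_source t.src)] with z hz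
  exact e t.i _ ((A.e t.i).map_target hz)

theorem FB.mono {f : A.ι → M → W} (h : FB P c f) {C : ℝ} (hC : 0 ≤ C)
    (hw : ∀ i, c i ≤ C * c' i) : FB P c' f := JB.mono h hC fun t => hw _

theorem FB.add {f g : A.ι → M → W} (h : FB P c f) (h' : FB P c g) :
    FB P c fun i x => f i x + g i x := JB.add h h'

theorem FB.neg {f : A.ι → M → W} (h : FB P c f) : FB P c fun i x => -f i x := JB.neg h

theorem FB.sub {f g : A.ι → M → W} (h : FB P c f) (h' : FB P c g) :
    FB P c fun i x => f i x - g i x := JB.sub h h'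

theorem FB.sum {κ : Type*} (s : Finset κ) {f : κ → A.ι → M → W} (hw : ∀ i, 0 ≤ c i)
    (h : ∀ k ∈ s, FB P c (f k)) : FB P c fun i x => ∑ k ∈ s, f k i x :=
  JB.sum s (fun t => hw _) h

theorem FB.clm {W' : Type*} [NormedAddCommGroup W'] [NormedSpace ℝ W'] (L : W →L[ℝ] W')
    {f : A.ι → M → W} (h : FB P c f) : FB P c fun i x => L (f i x) := JB.clm L h

theorem FB.mul {f g : A.ι → M → ℂ} (h : FB P c f) (h' : FB P c' g) :
    FB P (fun i => c i * c' i) fun i x => f i x * g i x := JB.mul' h h'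


/-- families constant on the charts -/
theorem fb_const (hw : ∀ i, 0 ≤ c i) {v : A.ι → W} {C : ℝ} (hC : 0 ≤ C)
    (hv : ∀ i, ‖v i‖ ≤ C * c i) : FB P c fun i _ => v i :=
  jb_const _ ⟨C, hC, fun t => hv _⟩ fun _ => hw _

theorem FB.const_mul {f : A.ι → M → ℂ} (a : ℂ) (h : FB P c f) : FB P c fun i x => a * f i x :=
  FB.clm ((ContinuousLinearMap.mul ℝ ℂ) a) h

theorem FB.conj {f : A.ι → M → ℂ} (h : FB P c f) :
    FB P c fun i x => (starRingEnd ℂ) (f i x) := FB.clm (conjCLE : ℂ →L[ℝ] ℂ) h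

theorem FB.ofReal {f : A.ι → M → ℝ} (h : FB P c f) : FB P c fun i x => (f i x : ℂ) :=
  FB.clm (ofRealCLM : ℝ →L[ℝ] ℂ) h

/-- `∂/∂z̄_a` -/
theorem FB.db {f : A.ι → M → ℂ} (h : FB P c f) (a : Fin n) :
    FB P c fun i x => A.db i a (f i) x := by
  have h1 := (JB.fderiv_apply h (EuclideanSpace.single a (1 : ℂ)))
  have h2 := (JB.fderiv_apply h (EuclideanSpace.single a I))
  have h3 := (h1.add (h2.clm ((ContinuousLinearMap.mul ℝ ℂ) I))).clm
    ((ContinuousLinearMap.mul ℝ ℂ) (1 / 2))
  refine JB.congr h3 fun t => ?_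
  filter_upwards [(A.e t.i).open_target.mem_nhds ((A.e t.i).map_source t.src)] with z hz
  show dbj a _ (A.e t.i ((A.e t.i).symm z)) = _
  rw [(A.e t.i).right_inv hz]
  rfl


/-- from bounds at points with a weight function which is bounded on the cores -/
theorem FB.of_bd {w : M → ℝ} {f : A.ι → M → W}
    (hs : ∀ i, ∀ x ∈ tsupport (P.ψ i), ContDiffAt ℝ ∞ (fun z => f i ((A.e i).symm z)) (A.e i x))
    (h : ∀ k : ℕ, ∃ C : ℝ, 0 ≤ C ∧ ∀ i, ∀ x ∈ tsupport (P.ψ i),
      ‖iteratedFDeriv ℝ k (fun z => f i ((A.e i).symm z)) (A.e i x)‖ ≤ C * w x)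
    {L : ℝ} (hL : 0 ≤ L) (hw : ∀ i, ∀ x ∈ tsupport (P.ψ i), w x ≤ L * c i) : FB P c f :=
  ⟨fun t => hs _ _ t.mem, fun k => by
    obtain ⟨C, hC, h1⟩ := h k
    refine ⟨C * L, mul_nonneg hC hL, fun t => (h1 _ _ t.mem).trans ?_⟩
    rw [mul_assoc]
    exact mul_le_mul_of_nonneg_left (hw _ _ t.mem) hC⟩


end FB

/-! ### `FB` and `MB` -/

section MB

variable {κ₁ κ₂ κ₃ : Type} {F : A.ι → M → Matrix κ₁ κ₂ ℂ} {c c' : A.ι → ℝ}


theorem MB.of_fb [Finite κ₁] [Finite κ₂] (hF : ∀ i k l, A.SmAt i (fun x => F i x k l))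
    (hc : ∀ i, 0 ≤ c i) (h : ∀ k l, FB P c fun i x => F i x k l) : MB P F c := by
  classical
  have := Fintype.ofFinite κ₁
  have := Fintype.ofFinite κ₂
  refine ⟨hF, fun s => ?_⟩
  choose C hC0 hC using fun k l => JB.bd (h k l) s
  refine ⟨∑ k, ∑ l, C k l, Finset.sum_nonneg fun k _ => Finset.sum_nonneg fun l _ => hC0 _ _,
    fun i k l x hx => ?_⟩
  refine (hC k l ⟨(i, x), hx⟩).trans ?_
  refine mul_le_mul_of_nonneg_right ?_ (hc i)
  refine le_trans ?_ (Finset.single_le_sum (f := fun k => ∑ l, C k l)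
    (fun k _ => Finset.sum_nonneg fun l _ => hC0 _ _) (Finset.mem_univ k))
  exact Finset.single_le_sum (f := fun l => C k l) (fun l _ => hC0 _ _) (Finset.mem_univ l)



end MB

/-! ### local estimates -/

section LE

variable {B B' : FBun A} {Q : PNb P} {c c' : A.ι → ℝ} {r : ℕ}

/-- **a bundle map raising the degree by `r`, of local size `c`** -/
theorem MB.le (Q : PNb P) (H : FHom r B B') (h : MB P H.h c) (hc : ∀ i, 0 ≤ c i)
    (hB : ∀ k, B'.deg k ≤ n) : LE Q r c H.actL := by
  refine LE.mk' 0 fun s => ?_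
  obtain ⟨C, hC, h1⟩ := h.rows hc (sh₁ := sh B') (sh₂ := sh B) (r := r) (fun i x k l hkl => by
    have h2 := H.degr i x k l hkl
    have h3 := hB k
    unfold sh
    omega) s
  refine ⟨C, hC, fun u i k => ?_⟩
  have h2 : Q.Nr 0 i = {i} := by
    ext j
    rw [Q.mem_Nr_zero, Finset.mem_singleton]
  rw [h2, Finset.sum_singleton, mul_assoc]
  exact h1 i (u.1 i) (u.2.1 i) k


















end LE

/-! ### operators with finitely many rows, weights -/

section weights

variable {B B' : FBun A} {Q : PNb P} {c c' : A.ι → ℝ}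









end weights

end

end Crest.Agent.R275.WY4193
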