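import Crest.Agent.R275.ItReg_572
import Crest.Agent.R275.Int4_95
import Crest.Agent.R275.Tr5B_468
import Crest.Agent.R275.EndAll_468
import Crest.Agent.R275.IterAll_539
import Crest.Agent.R275.QConsD_734
import Crest.Agent.R275.Sec1B_197
import Crest.Agent.R275.Bnd_323
import Crest.Agent.R275.ScaleC_685
import Crest.Agent.R275.Lam2B_130
import Crest.Agent.R275.FHom_556
import Crest.Agent.R275.Fm2_96
import Crest.Agent.R275.C1g_509
import Crest.Agent.R275.WYc_681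
import Crest.Agent.R275.WY4B_193
import Crest.Agent.R275.QN2b_734
import Crest.Agent.R275.TorT2_539
import Crest.Agent.R275.ItE_160
import Crest.Agent.R275.WCxY_89
import Crest.Agent.R275.WYd_681
import Crest.Agent.R275.BdcB_96
import Crest.Agent.R275.Brg_96
import Crest.Agent.R275.NPadd_539
import Crest.Agent.R275.MulZ_658
import Crest.Agent.R275.WY4C_193

-- ▼ part R275/ItRegT_572
section

/-!
# R275, END half (helper572): `RegIn` from `TIn`, the order and a frame of `E_(m-1)`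
-/

set_option autoImplicit false
set_option linter.unusedSectionVars false

open Set Filter Topology
open scoped Manifold ContDiff

namespace Crest.Agent.R275.EReg572

open Crest.AlgGeometry.Surface Crest.Agent.R275.Geo Crest.Agent.R275.Core144
open Crest.Agent.R275.Dv69 (HolN LEq EffDiv gt gm Og LocFact DivFin)
open Crest.Agent.R275.Dv69.EffDiv (CPr)
open Crest.Agent.R275.GeoP572 Crest.Agent.R275.Sec495 Crest.Agent.R275.S5In95
open Crest.Agent.R275.Int495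

noncomputable section

variable {Y : Type} [TopologicalSpace Y] [T2Space Y] [ChartedSpace C2 Y] [IsManifold 𝓘(ℂ, C2) 1 Y]


variable [LocFact Y] [DivFin Y] [PreconnectedSpace Y] [Nonempty Y]
variable {A : Atl 2 Y} {h : Y → ℝ} {γ : Y ≃ₜ Y} {Q : Equi A γ} {P : Subgroup (LB A)}
  {B : Type} [DecidableEq B] {g : Equiv.Perm B} {lev : B → ℤ} {E : B → LB A} {q : LB A → ℤ}
  {s : B → A.ι → Y → ℂ} (H : TIn A h γ Q P g lev E q s)
  (O : Ord495 H.toDivData.toData)

/-- the finite set `J_k` -/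
abbrev Jk (k : ℤ) : Finset ℤ := Finset.Ioc k (k + O.r k)

/-- the bundle of `D_(k+1) + ... + D_(k + r k)` -/
def LZk (k : ℤ) : LB A := ∏ l ∈ Jk H O k, E (O.φ l)

/-- the section `s_(k+1) ... s_(k + r k)` -/
def sZk (k : ℤ) : A.ι → Y → ℂ := prodS A (Jk H O k) fun l => s (O.φ l)

theorem LCk_mul_LZk (k : ℤ) : LCk H O k * LZk H O k = E (O.φ k) := by
  unfold LCk LZk
  rw [inv_mul_cancel_right]


end

end Crest.Agent.R275.EReg572
end

-- ▼ part R275/IterHyp_572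
section

/-!
# R275, END half (helper572): the hypothesis `IterHyp` of `Fin468.shell_end`

* `RegIn.out539`, `RegIn.datIn` : helper539's `RegOut`, `DatIn` from the region;
* `r2_of_links` : `R2` (functions on `C` are constant) from the index links;
* `iterHyp_of`  : `IterHyp H O m N` for every `m` and every `N` (analysis as raw hypotheses);
* `iterHyp_sol` : the same from `Sol`.
-/

set_option autoImplicit false
set_option linter.unusedSectionVars false

open Set Filter Topology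
open scoped Manifold ContDiff

namespace Crest.Agent.R275.EReg572

open Crest.AlgGeometry.Surface Crest.Agent.R275.Geo Crest.Agent.R275.Core144
open Crest.Agent.R275.Fm96 Crest.Agent.R275.It160 Crest.Agent.R275.AtlAdd539
open Crest.Agent.R275.Dv69 (HolN LEq EffDiv gt gm Og LocFact DivFin)
open Crest.Agent.R275.Dv69.EffDiv (CPr)
open Crest.Agent.R275.GeoP572 Crest.Agent.R275.Sec495 Crest.Agent.R275.S5In95
open Crest.Agent.R275.Int495 Crest.Agent.R275.QCons734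

noncomputable section

section conv

variable {Y : Type} [TopologicalSpace Y] [T2Space Y] [ChartedSpace C2 Y]
  [IsManifold 𝓘(ℂ, C2) 1 Y] [PreconnectedSpace Y] {A : Atl 2 Y}
  {h : Y → ℝ} {LC LZ : LB A} {sC sZ τ : A.ι → Y → ℂ} {D : EffDiv Y} {ι : Type}
  {J : Finset ι} {E : ι → EffDiv Y} {N1 : Set Y} {x : Y → ℂ} {p0 : Y}

/-- **helper539's `RegOut`** -/
theorem RegIn.out539 (H : RegIn A h LC LZ sC sZ τ D J E N1 x p0)
    {P : OpenPartialHomeomorph Y C2} {hP : Cmp A P} {i0 : A.ι} {S : Cfg (add A P hP)} {R' : ℝ}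
    (O : RegOut A h LC LZ sC sZ τ D N1 x p0 P hP i0 S R') :
    IterAll539.RegOut A h (dvs A sC).supp D.supp N1 x S.r ctr hP S R' where
  Si := O.S_i
  Sp := O.S_p
  Sx := O.S_x
  Sr := rfl
  SN := O.S_N
  KC := O.KC
  GN := O.GN
  D_K0 := fun q hq => Or.inl (O.D_VZ hq)
  low := by
    obtain ⟨T, hT⟩ := O.VZ_end
    obtain ⟨T', hT'⟩ := O.one_end
    refine ⟨min T T', fun q hq => ?_⟩
    obtain ⟨h1, h2, h3⟩ := hT' q (hq.le.trans (min_le_right _ _))
    exact ⟨hT q (hq.trans_le (min_le_left _ _)), h2.self_of_nhds, h3.self_of_nhds,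
      h1.self_of_nhds⟩
  top := by
    obtain ⟨H0, hH0⟩ := H.N1_le
    refine ⟨H0, fun q hq => ?_⟩
    by_contra hne
    have h1 : q ∈ S.N := S.Ψ_N (subset_tsupport _ hne)
    rw [O.S_N] at h1
    exact absurd (hH0 q h1) (not_le.2 hq)
  R'_R := O.stA.R'_R
  R'_a := O.stA.R'_a
  R'_ρ := O.stA.R'_ρ
  Q_N := O.stA.Q_N
  src := ⟨i0, O.P_i0⟩
  small := ⟨_, _, O.small⟩

/-- **helper539's `DatIn`** -/
theorem RegIn.datIn (H : RegIn A h LC LZ sC sZ τ D J E N1 x p0)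
    {P : OpenPartialHomeomorph Y C2} {hP : Cmp A P} {i0 : A.ι} {S : Cfg (add A P hP)} {R' : ℝ}
    (O : RegOut A h LC LZ sC sZ τ D N1 x p0 P hP i0 S R')
    (fr : Tr5.Frame h N1 (LC * LZ) τ)
    (hlim : ∃ c : ℂ, c ≠ 0 ∧ LimS h sC c)
    (hx : ∀ ε > 0, ∃ T : ℝ, ∀ q ∈ N1, h q < T → ‖x q‖ < ε)
    (hD0 : ∀ q ∈ D.supp, x q = 0) :
    IterAll539.DatIn A h (dvs A sC).supp D.supp N1 x S.r ctr P LC LZ sC sZ τ where
  hsC := H.hsC
  hsZ := H.hsZ
  sZ0 := H.sZ0
  N0_open := H.N1_open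
  low := by
    obtain ⟨T, hT⟩ := H.end_N1
    exact ⟨-T, fun q (hq : h q < -T) => hT hq.le⟩
  fr := fr
  rel := H.x_eq
  sC_ne := fun i q hi _ hqC h0 => hqC ((mem_supp_dvs H.adm H.hsC H.sC0 hi).2 h0)
  sC_lim := hlim
  x_lim := fun ε hε => by
    obtain ⟨T, hT⟩ := hx ε hε
    obtain ⟨T', hT'⟩ := H.end_N1
    exact ⟨min T (-T'), fun q hq => hT q (hT' (hq.le.trans (min_le_right _ _)))
      (hq.trans_le (min_le_left _ _))⟩
  x_D := hD0
  P_N0 := O.P_N1
  P_Z := O.leqZ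
  P_C := fun q hq => End69.supp_chart O.leqC hq

end conv

variable {Y : Type} [TopologicalSpace Y] [T2Space Y] [ChartedSpace C2 Y] [IsManifold 𝓘(ℂ, C2) 1 Y]
variable [LocFact Y] [DivFin Y] [PreconnectedSpace Y] [Nonempty Y]
variable {A : Atl 2 Y} {h : Y → ℝ} {γ : Y ≃ₜ Y} {Q : Equi A γ} {P : Subgroup (LB A)}
  {B : Type} [DecidableEq B] {g : Equiv.Perm B} {lev : B → ℤ} {E : B → LB A} {q : LB A → ℤ}
  {s : B → A.ι → Y → ℂ} (H : TIn A h γ Q P g lev E q s)
  (O : Ord495 H.toDivData.toData)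

theorem sZk_mem (k : ℤ) : sZk H O k ∈ VL h (LZk H O k) := prodS_mem_VL fun _ _ => H.s_mem _

theorem LZk_mem (k : ℤ) : LZk H O k ∈ P := P.prod_mem fun _ _ => H.lat.E_mem _

/-- `RegIn` for the curves `C_(m-1)`, `D_m`, point given -/
theorem regIn_of_tin' (m : ℤ) {N1 : Set Y} (hN1 : IsOpen N1)
    (hle : ∃ H0 : ℝ, ∀ y ∈ N1, h y ≤ H0) (hD : (Dk H O m).supp ⊆ N1)
    (hend : ∃ T0 : ℝ, {y | h y ≤ -T0} ⊆ N1) {τ : A.ι → Y → ℂ}
    (hτ : IsHS (E (O.φ (m - 1))) N1 τ)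
    (hne : ∀ i, ∀ y ∈ (A.e i).source, y ∈ N1 → τ i y ≠ 0) {x : Y → ℂ}
    (hx : ∀ i, ∀ y ∈ (A.e i).source, y ∈ N1 → x y * τ i y = s (O.φ (m - 1)) i y) {p : Y}
    (hp : (Ck H O (m - 1)).1.supp ∩ (Dk H O m).supp = {p})
    (hg : ∀ u f : Y → ℂ, LEq (Dk H O m) u p → LEq (Ck H O (m - 1)).1 f p → End69.Gen u f p) :
    RegIn A h (LCk H O (m - 1)) (LZk H O (m - 1)) (Sk H O (m - 1)) (sZk H O (m - 1)) τ
      (Dk H O m) (Jk H O (m - 1)) (Dk H O) N1 x p := by
  have hpt : p ∈ (Ck H O (m - 1)).1.supp ∩ (Dk H O m).supp := by rw [hp]; rfl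
  exact
    { adm := H.adm
      cont := H.deck.cont
      slab := H.deck.slab
      hsC := (Sk_mem H O (m - 1)).1
      sC0 := Sk_ne H O (m - 1)
      hsZ := (sZk_mem H O (m - 1)).1
      sZ0 := prodS_ne H.adm (fun l _ => H.s_mem _) fun l _ => H.s_ne _
      C_cpt := by rw [dvs_Sk]; exact isCompact_supp_Ck H O (m - 1)
      Z_eq := dvs_prodS H.adm (fun l _ => H.s_mem _) fun l _ => H.s_ne _
      Z_le := fun j hj => Dk_anti H O (by
        have := (Finset.mem_Ioc.1 hj).1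
        omega)
      N1_open := hN1
      N1_le := hle
      D_N1 := hD
      end_N1 := hend
      τ_hs := by rw [LCk_mul_LZk]; exact hτ
      τ_ne := hne
      x_eq := fun i y hi hy => by
        rw [hx i y hi hy, s_eq H O (m - 1)]
        rfl
      p0_D := hpt.2
      p0_C := by rw [dvs_Sk]; exact hpt.1
      inter := fun y hyC hyD => by
        rw [dvs_Sk] at hyC
        have h1 : y ∈ (Ck H O (m - 1)).1.supp ∩ (Dk H O m).supp := ⟨hyC, hyD⟩
        rwa [hp] at h1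
      gen := fun u f hu hf => by
        rw [dvs_Sk] at hf
        exact hg u f hu hf }

/-- `H⁰(Q_C) = ℂ` for the curves `C_k` -/
theorem r2_of_links (Lk : Links A h P q) (k : ℤ) :
    StartP595.R2 A (LCk H O k).g (Sk H O k) (Ck H O k).1.supp := by
  rintro w hw ⟨v, hv, e⟩
  have c : CSec h P (LCk H O k) (Sk H O k) :=
    ⟨LCk_mem H O k, Sk_mem H O k, Sk_ne H O k, by rw [dvs_Sk]; exact isCompact_supp_Ck H O k⟩
  have hC : Dv69.Mon.IsPr (dvs A (Sk H O k)) := by rw [dvs_Sk]; exact (Ck H O k).2.1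
  obtain ⟨κ, hκ⟩ := c.exists_value (w := w) H.adm (Lk _ c.mem _ c.sec c.ne c.cpt) hC
    ⟨hw, v, by rwa [one_mul], e⟩
  exact ⟨κ, fun i x hi hx => hκ i x hi (by rw [dvs_Sk]; exact hx)⟩

/-- **the iteration**, raw hypotheses -/
theorem iterHyp_of (hS : HasS h P) (F : Part A) {K : A.ι → Set Y} (C : Cor A h K)
    (R : MulZ658.Rm A h K) (Lk : Links A h P q) {d : ℝ} (hd : 0 < d)
    (hsb : ∀ L ∈ P, ∀ σ ∈ VL h L, ∀ e > 0, BD A K h e e σ)
    (h2 : ∀ L ∈ P, ∀ {a b a' b' : ℝ}, a < a' → b < b' → SolZ2 A K h L a b a' b')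
    (h1 : ∀ {a b a' b' : ℝ}, -d < a' → a' < 0 → 0 < b' → b' < d → a < a' → b < b' →
      SolZ1 A K h 1 a b a' b') (m : ℤ)
    (hAn : ∃ (N : NP A) (NB : NZ A) (n : ℕ), IterAll539.AnIn F K h d N NB n
      (LZk H O (m - 1)) (sZk H O (m - 1)))
    (N : Set Y) (hN : IsOpen N) (hDN : (Dk H O m).supp ⊆ N) (hT : ∃ T : ℝ, {z | h z ≤ T} ⊆ N)
    (hN' : ∃ H0 : ℝ, ∀ z ∈ N, h z ≤ H0) : Fin468.IterHyp H O m N := by
  intro τ x p fr hxτ hxD hx0 hp hgen
  obtain ⟨np, nb, n, hA⟩ := hAn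
  have hT' : ∃ T0 : ℝ, {y | h y ≤ -T0} ⊆ N := by
    obtain ⟨T, hT⟩ := hT
    exact ⟨-T, by rwa [neg_neg]⟩
  have RI := regIn_of_tin' H O m hN hN' hDN hT' fr.hs fr.ne hxτ hp hgen
  obtain ⟨Pc, hPc, i0, S, R', RO⟩ := RI.exists_out F
  have hD0 : ∀ z ∈ (Dk H O m).supp, x z = 0 := fun z hz =>
    (hxD z (hDN hz)).mem_supp.1 (EffDiv.supp_mono (Dk_anti H O (by omega)) hz)
  have fr' : Tr5.Frame h N (LCk H O (m - 1) * LZk H O (m - 1)) τ := by
    rw [LCk_mul_LZk]; exact fr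
  have DI := RI.datIn RO fr'
    ⟨ck H O hS (m - 1), ck_ne H O hS (m - 1), limS_Sk H O hS (m - 1)⟩ hx0 hD0
  have RO' := RI.out539 RO
  have hC := dvs_Sk H O (m - 1)
  have hmul : LCk H O (m - 1) * LZk H O (m - 1) ∈ P :=
    P.mul_mem (LCk_mem H O _) (LZk_mem H O _)
  have hsec : Sk H O (m - 1) * sZk H O (m - 1) ∈ VL h (LCk H O (m - 1) * LZk H O (m - 1)) :=
    mul_mem_VL (Sk_mem H O (m - 1)) (sZk_mem H O (m - 1))
  obtain ⟨Ny, y, κ, g1, g2, ⟨Ty, g3⟩, g4, g5, g6⟩ :=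
    IterAll539.iter_all H.adm F C R DI RO.P_max RO' hd hA (hsb _ hmul _ hsec)
      (fun ha hb => h2 _ (P.inv_mem hmul) ha hb) h1
      (by rw [hC]; exact r2_of_links H O Lk (m - 1))
  refine ⟨Pc, ctr, S.r, Ny, Ty, y, κ, RO.P_max, RO.p0_src, RO.P_p0, RO.x_W, ?_, g1, g2,
    fun z hz => g3 z hz, g4, g5, fun ε hε => g6 ε hε⟩
  intro z hz
  rw [← hC]
  exact End69.supp_chart RO.leqC hz

/-- **the iteration** from the solution theorems -/
theorem iterHyp_sol (hS : HasS h P) {K : A.ι → Set Y} (C : Cor A h K) {Pt : Part A}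
    (U : Wy5197.UG Pt h K) (F : Part A) (Lk : Links A h P q) {d : ℝ}
    (So : Sol352.Sol A K h P q d) (m : ℤ)
    (hAn : ∃ (N : NP A) (NB : NZ A) (n : ℕ), IterAll539.AnIn F K h d N NB n
      (LZk H O (m - 1)) (sZk H O (m - 1)))
    (N : Set Y) (hN : IsOpen N) (hDN : (Dk H O m).supp ⊆ N) (hT : ∃ T : ℝ, {z | h z ≤ T} ⊆ N)
    (hN' : ∃ H0 : ℝ, ∀ z ∈ N, h z ≤ H0) : Fin468.IterHyp H O m N :=
  iterHyp_of H O hS F C (MulZ658.rm_of_ug U) Lk So.pos
    (fun _ _ _ hσ e he => Sec1197.bd_sec U hσ.1 (hσ.2 e he))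
    (fun L hL => fun ha hb => So.ex₂ L hL ha hb) (fun h1 h2 h3 h4 h5 h6 => So.dg h1 h2 h3 h4 h5 h6)
    m hAn N hN hDN hT hN'

end

end Crest.Agent.R275.EReg572
end

-- ▼ part R275/BndS_323
section

/-!
# R275: bounded solution operators in helper685's scales (helper323)

* `solve_gen` : as `Bnd323.solve_level`, with a parametrix gaining `k` derivatives (`k = 0` is the
  case of the shifted scales).
* `solve_deg` : total space `V` (all degrees together, shifted norms), `d`, `K` of order `0`,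
  remainder of order `-1`: if every closed element of degree `q + 1` is exact, it is `d u` with
  `nrm s u ≤ C * nrm s z` (one `C` for each `s`).
* `solve_deg_zero` : in degree `0` : if `d z = 0 → z = 0`, then `nrm s z ≤ C * nrm s (d z)`.
* `adaptor` : helper160's two-step division lemma.
-/

set_option autoImplicit false

namespace Crest.Agent.R275.Bnd323

open Fred685

section gen

variable {U V : Type*} [AddCommGroup U] [Module ℂ U] [AddCommGroup V] [Module ℂ V]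

theorem solve_gen (S : Scl U) (T : Scl V) (d : U →ₗ[ℂ] V) (K : V →ₗ[ℂ] U) (R : V →ₗ[ℂ] V)
    (Z : Submodule ℂ V) (hZ : T.Closed Z) (hd : Bdd S T d) (k : ℕ)
    (hK : ∀ s, ∃ C, ∀ v, S.n (s + k) (K v) ≤ C * T.n s v) (hR : OrdM T T R)
    (hdZ : ∀ u, d u ∈ Z) (hpar : ∀ z ∈ Z, d (K z) + R z = z)
    (hex : ∀ z ∈ Z, ∃ u, d u = z) (s : ℕ) :
    ∃ C, 0 < C ∧ ∀ z ∈ Z, ∃ u, d u = z ∧ S.n (s + k) u ≤ C * T.n s z := by
  have hRZ : ∀ z ∈ Z, R z ∈ Z := by
    intro z hz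
    have h := hpar z hz
    have : R z = z - d (K z) := eq_sub_of_add_eq' h
    rw [this]
    exact Z.sub_mem hz (hdZ _)
  have hRm : ∀ m, ∀ z ∈ Z, (R ^ m) z ∈ Z := by
    intro m
    induction m with
    | zero => intro z hz; simpa using hz
    | succ m ih => intro z hz; rw [pow_succ', Module.End.mul_apply]; exact hRZ _ (ih z hz)
  obtain ⟨t, C₀, hC₀, hsol⟩ := open_mapping S T d hd Z hZ hdZ hex (s + k)
  have hiter : ∀ m, ∀ z ∈ Z, d (K (∑ i ∈ Finset.range m, (R ^ i) z)) + (R ^ m) z = z := by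
    intro m z hz
    induction m with
    | zero => simp
    | succ m ih =>
      rw [Finset.sum_range_succ, map_add, map_add, pow_succ', Module.End.mul_apply]
      have h := hpar _ (hRm m z hz)
      have h2 : d (K (∑ i ∈ Finset.range m, (R ^ i) z)) + d (K ((R ^ m) z)) + R ((R ^ m) z)
          = d (K (∑ i ∈ Finset.range m, (R ^ i) z)) + (d (K ((R ^ m) z)) + R ((R ^ m) z)) := by abel
      rw [h2, h, ih]
  obtain ⟨Cm, hCm0, hCm⟩ := hR.pow t s
  obtain ⟨CK, hCK⟩ := hK s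
  have hR0 : ∀ i, ∃ D, 0 ≤ D ∧ ∀ v, T.n s ((R ^ i) v) ≤ D * T.n s v := by
    intro i
    obtain ⟨D, hD0, hD⟩ := hR.pow i s
    exact ⟨D, hD0, fun v => (T.mono_le (Nat.le_add_right s i) _).trans (hD v)⟩
  choose D hD0 hD using hR0
  have hsum : ∀ v, T.n s (∑ i ∈ Finset.range t, (R ^ i) v) ≤
      (∑ i ∈ Finset.range t, D i) * T.n s v := by
    intro v
    rw [Finset.sum_mul]
    exact (sn_sum_le (T.n s) _ _).trans (Finset.sum_le_sum fun i _ => hD i v)
  have hDs : 0 ≤ ∑ i ∈ Finset.range t, D i := Finset.sum_nonneg fun i _ => hD0 i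
  refine ⟨|CK| * (∑ i ∈ Finset.range t, D i) + C₀ * Cm + 1, by positivity, fun z hz => ?_⟩
  obtain ⟨u, hu, hu'⟩ := hsol _ (hRm t z hz)
  refine ⟨K (∑ i ∈ Finset.range t, (R ^ i) z) + u, ?_, ?_⟩
  · rw [map_add, hu]; exact hiter t z hz
  · have h1 : S.n (s + k) (K (∑ i ∈ Finset.range t, (R ^ i) z)) ≤
        |CK| * ((∑ i ∈ Finset.range t, D i) * T.n s z) :=
      (hCK _).trans (mul_le_mul (le_abs_self _) (hsum z) (apply_nonneg _ _) (abs_nonneg _))
    have h2 : S.n (s + k) u ≤ C₀ * (Cm * T.n s z) := by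
      refine hu'.trans ?_
      gcongr
      exact (T.mono_le (Nat.le_add_left t s) _).trans (hCm z)
    have h3 : 0 ≤ T.n s z := apply_nonneg _ _
    calc S.n (s + k) (K (∑ i ∈ Finset.range t, (R ^ i) z) + u) ≤ _ := map_add_le_add _ _ _
      _ ≤ |CK| * ((∑ i ∈ Finset.range t, D i) * T.n s z) + C₀ * (Cm * T.n s z) := by linarith
      _ ≤ (|CK| * (∑ i ∈ Finset.range t, D i) + C₀ * Cm + 1) * T.n s z := by nlinarith

end gen

section scale

variable {V : Type*} [AddCommGroup V] [Module ℂ V]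

/-- helper685's scale as a `Scl` -/
def toScl (S : Scale ℂ V) : Scl V where
  n := S.nrm
  mono := S.mono
  sep := S.eq_zero
  complete := S.complete

@[simp] theorem toScl_n (S : Scale ℂ V) : (toScl S).n = S.nrm := rfl

theorem closed_of_Closed {S : Scale ℂ V} {p : Submodule ℂ V} (h : S.Closed p) :
    (toScl S).Closed p := by
  intro u v hu hlim
  refine h v fun s ε hε => ?_
  obtain ⟨N, hN⟩ := hlim s ε hε
  exact ⟨u N, hu N, hN N le_rfl⟩

/-- **Bounds in every degree.**  Total space, shifted norms. -/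
theorem solve_deg {S : Scale ℂ V} {d K : V →ₗ[ℂ] V} (hd : Op0 S S d) (hK : Op0 S S K)
    (hR : Opm S S (LinearMap.id - d ∘ₗ K - K ∘ₗ d)) (hdd : d ∘ₗ d = 0)
    {p p' : V →ₗ[ℂ] V} (hp0 : Op0 S S p) (hp : p ∘ₗ p = p) (hp0' : Op0 S S p')
    (hdp : d ∘ₗ p = p' ∘ₗ d) (hKp : K ∘ₗ p' = p ∘ₗ K)
    (hex : ∀ z, d z = 0 → p' z = z → ∃ u, p u = u ∧ d u = z) (s : ℕ) :
    ∃ C, 0 < C ∧ ∀ z, d z = 0 → p' z = z →
      ∃ u, p u = u ∧ d u = z ∧ S.nrm s u ≤ C * S.nrm s z := by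
  -- source: range of `p`; target: closed elements of degree `p'`
  set Z : Submodule ℂ V := LinearMap.ker d ⊓ LinearMap.eqLocus p' LinearMap.id with hZdef
  have hmem : ∀ z, z ∈ Z ↔ d z = 0 ∧ p' z = z := fun z => by
    rw [hZdef, Submodule.mem_inf, LinearMap.mem_ker, LinearMap.mem_eqLocus, LinearMap.id_apply]
  have hZc : (toScl S).Closed Z := by
    apply closed_of_Closed
    intro v hv
    rw [hmem]
    constructor
    · exact (closed_eqLocus (S := S) (T := S) hd Op0.zero (p := LinearMap.ker d)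
        fun v => by simp [LinearMap.mem_ker]) v fun s ε hε => by
          obtain ⟨u, hu, h⟩ := hv s ε hε
          exact ⟨u, ((hmem u).1 hu).1, h⟩
    · exact (closed_eqLocus (S := S) (T := S) hp0' Op0.id
        (p := LinearMap.eqLocus p' LinearMap.id) fun v => LinearMap.mem_eqLocus) v
        fun s ε hε => by
          obtain ⟨u, hu, h⟩ := hv s ε hε
          exact ⟨u, by rw [LinearMap.mem_eqLocus]; exact ((hmem u).1 hu).2, h⟩
  have hdd' : ∀ v, d (d v) = 0 := fun v => LinearMap.congr_fun hdd v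
  have hdp' : ∀ v, d (p v) = p' (d v) := fun v => LinearMap.congr_fun hdp v
  have hKp' : ∀ v, K (p' v) = p (K v) := fun v => LinearMap.congr_fun hKp v
  have hpr : ∀ u : LinearMap.range p, p (u : V) = u := fun u =>
    (mem_range_iff_of_idem hp _).1 u.2
  obtain ⟨C, hC, h⟩ := solve_gen (toScl (S.ran hp0 hp)) (toScl S)
    (d ∘ₗ (LinearMap.range p).subtype) (p.rangeRestrict ∘ₗ K)
    (LinearMap.id - d ∘ₗ K - K ∘ₗ d) Z hZc
    (by
      intro s
      obtain ⟨C, hC⟩ := hd s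
      exact ⟨s, C, fun v => hC v⟩) 0
    (by
      intro s
      obtain ⟨C, hC⟩ := (hp0.comp hK) s
      exact ⟨C, fun v => hC v⟩)
    (by
      intro s
      obtain ⟨C, hC⟩ := hR s
      exact ⟨C, fun v => hC v⟩)
    (by
      intro u
      rw [hmem]
      exact ⟨hdd' _, by
        show p' (d (u : V)) = d (u : V)
        rw [← hdp', hpr]⟩)
    (by
      intro z hz
      obtain ⟨h1, h2⟩ := (hmem z).1 hz
      show d (p (K z)) + (z - d (K z) - K (d z)) = z
      rw [h1, map_zero, sub_zero, ← hKp', h2]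
      abel)
    (by
      intro z hz
      obtain ⟨h1, h2⟩ := (hmem z).1 hz
      obtain ⟨u, hu, hu'⟩ := hex z h1 h2
      exact ⟨⟨u, (mem_range_iff_of_idem hp _).2 hu⟩, hu'⟩) s
  refine ⟨C, hC, fun z h1 h2 => ?_⟩
  obtain ⟨u, hu, hu'⟩ := h z ((hmem z).2 ⟨h1, h2⟩)
  exact ⟨u, hpr u, hu, hu'⟩

end scale

section adaptor

variable {F0 F1 F2 E1 E2 : Type*} [AddCommGroup F0] [Module ℂ F0] [AddCommGroup F1] [Module ℂ F1]
  [AddCommGroup F2] [Module ℂ F2] [AddCommGroup E1] [Module ℂ E1] [AddCommGroup E2] [Module ℂ E2]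

/-- **helper160's adaptor**, abstract form with plain norms at one fixed level.
`n0, n1, n2` norms on functions, `(0,1)`-forms (`O`-valued), `(0,2)`-forms; `m1, m2` norms on
`E`-valued forms; `μ1, μ2` multiplication by the section.  If `d₁ b = μ2 η` then
`b = d₀ f + μ1 b'` with bounds. -/
theorem adaptor (n0 : Seminorm ℂ F0) (n1 : Seminorm ℂ F1) (m1 : Seminorm ℂ E1)
    (m2 : Seminorm ℂ E2) (d0 : F0 →ₗ[ℂ] F1) (d1 : F1 →ₗ[ℂ] F2) (e1 : E1 →ₗ[ℂ] E2)
    (μ1 : E1 →ₗ[ℂ] F1) (μ2 : E2 →ₗ[ℂ] F2) (hcomm : ∀ b, d1 (μ1 b) = μ2 (e1 b))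
    (C1 C2 Cμ : ℝ) (hC1 : 0 ≤ C1) (hC2 : 0 ≤ C2) (hCμ : 0 ≤ Cμ)
    (h2 : ∀ η, ∃ b, e1 b = η ∧ m1 b ≤ C2 * m2 η)
    (h1 : ∀ a, d1 a = 0 → ∃ f, d0 f = a ∧ n0 f ≤ C1 * n1 a)
    (hμ : ∀ b, n1 (μ1 b) ≤ Cμ * m1 b)
    (b : F1) (η : E2) (hb : d1 b = μ2 η) (Cη : ℝ) (_hCη : 0 ≤ Cη) (hη : m2 η ≤ Cη * n1 b) :
    ∃ f b', b = d0 f + μ1 b' ∧ e1 b' = η ∧
      n0 f ≤ C1 * (1 + Cμ * (C2 * Cη)) * n1 b ∧ m1 b' ≤ C2 * Cη * n1 b := by
  obtain ⟨b', hb1, hb2⟩ := h2 η
  have hb3 : m1 b' ≤ C2 * Cη * n1 b := by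
    calc m1 b' ≤ C2 * m2 η := hb2
      _ ≤ C2 * (Cη * n1 b) := by gcongr
      _ = _ := by ring
  obtain ⟨f, hf1, hf2⟩ := h1 (b - μ1 b') (by rw [map_sub, hcomm, hb1, hb, sub_self])
  refine ⟨f, b', by rw [hf1]; abel, hb1, ?_, hb3⟩
  have h4 : n1 (b - μ1 b') ≤ (1 + Cμ * (C2 * Cη)) * n1 b := by
    calc n1 (b - μ1 b') ≤ n1 b + n1 (μ1 b') := map_sub_le_add _ _ _
      _ ≤ n1 b + Cμ * (C2 * Cη * n1 b) := by
          gcongr
          exact (hμ b').trans (by gcongr)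
      _ = _ := by ring
  calc n0 f ≤ C1 * n1 (b - μ1 b') := hf2
    _ ≤ C1 * ((1 + Cμ * (C2 * Cη)) * n1 b) := by gcongr
    _ = _ := by ring

end adaptor

end Crest.Agent.R275.Bnd323
end

-- ▼ part R275/BndT_323
section

/-!
# R275: the bounded division step, scale form (helper323)

Two complexes `(V, d)` (functions, values in `O`) and `(W, e)` (values in `O(-Z)`) on helper685's
scales (total spaces, shifted norms), `μ : W → V` multiplication by the section `s_Z`,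
`m : V → W` multiplication by `ζ / s_Z` with a compactly supported cut-off `ζ`.
If `H^1(V) = 0`, `H^2(W) = 0`, then every `b` of degree one with `μ (m (d b)) = d b`
is `d f + μ b'`, `e b' = m (d b)`, with bounds at every level.
-/

set_option autoImplicit false

namespace Crest.Agent.R275.Bnd323

open Fred685

variable {V W : Type*} [AddCommGroup V] [Module ℂ V] [AddCommGroup W] [Module ℂ W]

/-- input data for one complex in one degree: `p` = source degree, `p'` = target degree -/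
structure DegEx (S : Scale ℂ V) (d p p' : V →ₗ[ℂ] V) : Prop where
  dd : d ∘ₗ d = 0
  d0 : Op0 S S d
  par : ∃ K : V →ₗ[ℂ] V, Op0 S S K ∧ Opm S S (LinearMap.id - d ∘ₗ K - K ∘ₗ d) ∧
    K ∘ₗ p' = p ∘ₗ K
  p0 : Op0 S S p
  pp : p ∘ₗ p = p
  p'0 : Op0 S S p'
  dp : d ∘ₗ p = p' ∘ₗ d
  ex : ∀ z, d z = 0 → p' z = z → ∃ u, p u = u ∧ d u = z

theorem DegEx.bound {S : Scale ℂ V} {d p p' : V →ₗ[ℂ] V} (h : DegEx S d p p') (s : ℕ) :
    ∃ C, 0 < C ∧ ∀ z, d z = 0 → p' z = z →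
      ∃ u, p u = u ∧ d u = z ∧ S.nrm s u ≤ C * S.nrm s z := by
  obtain ⟨K, hK, hR, hKp⟩ := h.par
  exact solve_deg h.d0 hK hR h.dd h.p0 h.pp h.p'0 h.dp hKp h.ex s

/-- **the bounded division step** -/
theorem bndT {S : Scale ℂ V} {T : Scale ℂ W} {d p0 p1 : V →ₗ[ℂ] V} {e q1 q2 : W →ₗ[ℂ] W}
    (hV : DegEx S d p0 p1) (hW : DegEx T e q1 q2)
    {μ : W →ₗ[ℂ] V} {m : V →ₗ[ℂ] W} (hμ : Op0 T S μ) (hm : Op0 S T m)
    (hcomm : d ∘ₗ μ = μ ∘ₗ e) (hμq : ∀ w, q1 w = w → p1 (μ w) = μ w) (s : ℕ) :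
    ∃ C, 0 < C ∧ ∀ b, p1 b = b → μ (m (d b)) = d b → e (m (d b)) = 0 → q2 (m (d b)) = m (d b) →
      ∃ f b', p0 f = f ∧ q1 b' = b' ∧ b = d f + μ b' ∧ e b' = m (d b) ∧
        S.nrm s f ≤ C * S.nrm s b ∧ T.nrm s b' ≤ C * S.nrm s b := by
  obtain ⟨C1, hC1, h1⟩ := hV.bound s
  obtain ⟨C2, hC2, h2⟩ := hW.bound s
  obtain ⟨Cμ, hCμ⟩ := hμ s
  obtain ⟨Cm, hCm⟩ := (hm.comp hV.d0) s
  have hη : ∀ b, T.nrm s (m (d b)) ≤ |Cm| * S.nrm s b := fun b =>
    (hCm b).trans (mul_le_mul_of_nonneg_right (le_abs_self _) (apply_nonneg _ _))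
  have hμ' : ∀ b, S.nrm s (μ b) ≤ |Cμ| * T.nrm s b := fun b =>
    (hCμ b).trans (mul_le_mul_of_nonneg_right (le_abs_self _) (apply_nonneg _ _))
  refine ⟨C1 * (1 + |Cμ| * (C2 * |Cm|)) + C2 * |Cm| + 1, by positivity, fun b hb h3 h4 h5 => ?_⟩
  obtain ⟨b', hb1, hb2, hb3⟩ := h2 _ h4 h5
  have hb4 : T.nrm s b' ≤ C2 * |Cm| * S.nrm s b := by
    calc T.nrm s b' ≤ C2 * T.nrm s (m (d b)) := hb3
      _ ≤ C2 * (|Cm| * S.nrm s b) := by gcongr; exact hη b
      _ = _ := by ring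
  have hc : ∀ w, d (μ w) = μ (e w) := fun w => LinearMap.congr_fun hcomm w
  have h6 : d (b - μ b') = 0 := by rw [map_sub, hc, hb2, h3, sub_self]
  have h7 : p1 (b - μ b') = b - μ b' := by rw [map_sub, hb, hμq b' hb1]
  obtain ⟨f, hf1, hf2, hf3⟩ := h1 _ h6 h7
  have h8 : S.nrm s (b - μ b') ≤ (1 + |Cμ| * (C2 * |Cm|)) * S.nrm s b := by
    calc S.nrm s (b - μ b') ≤ S.nrm s b + S.nrm s (μ b') := map_sub_le_add _ _ _
      _ ≤ S.nrm s b + |Cμ| * (C2 * |Cm| * S.nrm s b) := by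
          gcongr
          exact (hμ' b').trans (by gcongr)
      _ = _ := by ring
  have h9 : (0 : ℝ) ≤ S.nrm s b := apply_nonneg _ _
  have h10 : 0 ≤ C2 * |Cm| := by positivity
  have h11 : 0 ≤ C1 * (1 + |Cμ| * (C2 * |Cm|)) := by positivity
  refine ⟨f, b', hf1, hb1, by rw [hf2]; abel, hb2, ?_, ?_⟩
  · calc S.nrm s f ≤ C1 * S.nrm s (b - μ b') := hf3
      _ ≤ C1 * ((1 + |Cμ| * (C2 * |Cm|)) * S.nrm s b) := by gcongr
      _ = C1 * (1 + |Cμ| * (C2 * |Cm|)) * S.nrm s b := by ring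
      _ ≤ _ := by nlinarith
  · exact hb4.trans (by nlinarith)

end Crest.Agent.R275.Bnd323
end

-- ▼ part R275/MulZ_323
section

/-!
# R275: multiplication by a section as a bundle morphism `tw (lam2 A) (LV hg) → tw (lam2 A) (LV hg')`
(helper323)

* `mulH hg hg' hs he` : multiplication by a smooth section `σ` of `gs`, `gs * g = g'` on overlaps,
  as an `FHom 0`; `mulH_act`, `mulH_mk3`.
* `mulH_nab` : it commutes with `nab` if `σ` is holomorphic.
* `invZ`, `isZ0_invZ` : `ζ / σ` as a smooth section of `gs⁻¹`, `ζ` a cut-off supported in `{σ ≠ 0}`.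
* `mulH_invZ` : `σ (ζ/σ) u = u` where `ζ = 1`, `σ ≠ 0` on the support of `u`.
* degree projections of triples.
-/

set_option autoImplicit false
set_option linter.unusedSectionVars false

open Set Filter Topology Complex
open scoped ContDiff Matrix ComplexConjugate Kronecker

namespace Crest.Agent.R275.MulZ323

open Geo Fm96 Q74 Lam2130 FHom556

noncomputable section

variable {M : Type} [TopologicalSpace M] {A : Atl 2 M}
variable {g g' gs : A.ι → A.ι → M → ℂ} {σ : A.ι → M → ℂ}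

/-- multiplication by a smooth section of `gs` -/
def mulH (hg : IsLC A g) (hg' : IsLC A g') (hs : IsZ0 A gs univ σ) (he : EqOv A (gs * g) g') :
    FHom 0 (tw (lam2 A) (LV hg)) (tw (lam2 A) (LV hg')) where
  h i x := (σ i x • (1 : Matrix (Fin 4 × Unit) (Fin 4 × Unit) ℂ))
  smooth i k l := by
    have h1 : ContDiffOn ℝ ∞ (fun z => σ i ((A.e i).symm z)) (A.e i).target :=
      smAt_iff.2 fun x hx => hs.sm i x hx trivial
    exact h1.mul contDiffOn_const
  degr i x k l hk := by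
    have key : ∀ k l : Fin 4 × Unit,
        (σ i x • (1 : Matrix (Fin 4 × Unit) (Fin 4 × Unit) ℂ)) k l ≠ 0 → k = l := by
      intro k l h
      by_contra hne
      exact h (by rw [Matrix.smul_apply, Matrix.one_apply_ne hne, smul_zero])
    have : k = l := key k l hk
    rw [this]
    rfl
  tr i j x hx := by
    show (σ i x • (1 : Matrix (Fin 4 × Unit) (Fin 4 × Unit) ℂ)) *
        (tauM (Jm A i j x) ⊗ₖ (LV hg).g i j x : Matrix (Fin 4 × Unit) (Fin 4 × Unit) ℂ) =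
      (tauM (Jm A i j x) ⊗ₖ (LV hg').g i j x : Matrix (Fin 4 × Unit) (Fin 4 × Unit) ℂ) *
        (σ j x • (1 : Matrix (Fin 4 × Unit) (Fin 4 × Unit) ℂ))
    rw [smul_mul_assoc, one_mul, mul_smul_comm, mul_one]
    ext p q
    have e1 := he i j x hx
    have e2 := hs.tr i j x hx trivial
    simp only [Pi.mul_apply] at e1
    show σ i x * (tauM (Jm A i j x) p.1 q.1 * g i j x) = σ j x * (tauM (Jm A i j x) p.1 q.1 * g' i j x)
    rw [e2, ← e1]
    ring

variable {hg : IsLC A g} {hg' : IsLC A g'} {hs : IsZ0 A gs univ σ} {he : EqOv A (gs * g) g'}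

theorem mulH_act (u : A.ι → M → (Fin 4 × Unit) → ℂ) :
    (mulH hg hg' hs he).act u = fun i x p => σ i x * u i x p := by
  funext i x
  show (σ i x • (1 : Matrix (Fin 4 × Unit) (Fin 4 × Unit) ℂ)) *ᵥ u i x = _
  rw [Matrix.smul_mulVec, Matrix.one_mulVec]
  rfl

theorem mulH_mk3 (u0 : A.ι → M → ℂ) (u1 : A.ι → M → Fin 2 → ℂ) (u2 : A.ι → M → ℂ) :
    (mulH hg hg' hs he).act (mk3 u0 u1 u2) = mk3 (sm σ u0) (sm1 σ u1) (sm σ u2) := by
  rw [mulH_act]
  funext i x ⟨k, r⟩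
  fin_cases k <;> rfl

/-- multiplication by a holomorphic section commutes with `nab` -/
theorem mulH_nab (hh : IsHol A σ) {u : A.ι → M → (Fin 4 × Unit) → ℂ} (hu : u ∈ SecL (LV hg)) :
    nabE (LV hg') ((mulH hg hg' hs he).act u) = (mulH hg hg' hs he).act (nabE (LV hg) u) := by
  obtain ⟨h0, h1, h2⟩ := (mem_iff hg u).1 hu
  have hu' : (mulH hg hg' hs he).act u ∈ SecL (LV hg') := (mulH hg hg' hs he).act_mem hu
  rw [nab_eq hg hu, nab_eq hg' hu', mulH_mk3]
  have e : (mulH hg hg' hs he).act u = mk3 (sm σ (p0 u)) (sm1 σ (p1 u)) (sm σ (p2 u)) := by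
    rw [← mulH_mk3 (hg := hg) (hg' := hg') (hs := hs) (he := he), mk3_p]
  rw [e, p0_mk3, p1_mk3]
  congr 1
  · funext i x
    simp [sm]
  · exact d0_sm_hol hs hh h0
  · exact d1_sm1_hol hs hh h1

theorem mulH_nabL (hh : IsHol A σ) :
    nabL (tw (lam2 A) (LV hg')) ∘ₗ (mulH hg hg' hs he).actL =
      (mulH hg hg' hs he).actL ∘ₗ nabL (tw (lam2 A) (LV hg)) := by
  refine LinearMap.ext fun u => Subtype.ext ?_
  exact mulH_nab hh u.2

/-- degree projections in components -/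
theorem pq_val (hg : IsLC A g) (q : ℕ) (u : A.ι → M → (Fin 4 × Unit) → ℂ) (i : A.ι) (x : M)
    (p : Fin 4 × Unit) :
    pq (tw (lam2 A) (LV hg)) q u i x p = if dg p.1 = q then u i x p else 0 :=
  pq_apply (B := tw (lam2 A) (LV hg)) q u i x p

theorem pq_zero (hg : IsLC A g) (u : A.ι → M → (Fin 4 × Unit) → ℂ) :
    pq (tw (lam2 A) (LV hg)) 0 u = mk3 (p0 u) 0 0 := by
  have key : ∀ (i : A.ι) (x : M) (k : Fin 4) (r : Unit),
      (if dg k = 0 then u i x (k, r) else 0) = mk3 (p0 u) 0 0 i x (k, r) := by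
    intro i x k r
    fin_cases k <;> simp [dg, mk3, p0]
  exact funext fun i => funext fun x => funext fun p => (pq_val hg 0 u i x p).trans
    (key i x p.1 p.2)

theorem pq_one (hg : IsLC A g) (u : A.ι → M → (Fin 4 × Unit) → ℂ) :
    pq (tw (lam2 A) (LV hg)) 1 u = mk3 0 (p1 u) 0 := by
  have key : ∀ (i : A.ι) (x : M) (k : Fin 4) (r : Unit),
      (if dg k = 1 then u i x (k, r) else 0) = mk3 0 (p1 u) 0 i x (k, r) := by
    intro i x k r
    fin_cases k <;> simp [dg, mk3, p1, ix1]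
  exact funext fun i => funext fun x => funext fun p => (pq_val hg 1 u i x p).trans
    (key i x p.1 p.2)

theorem pq_two (hg : IsLC A g) (u : A.ι → M → (Fin 4 × Unit) → ℂ) :
    pq (tw (lam2 A) (LV hg)) 2 u = mk3 0 0 (p2 u) := by
  have key : ∀ (i : A.ι) (x : M) (k : Fin 4) (r : Unit),
      (if dg k = 2 then u i x (k, r) else 0) = mk3 0 0 (p2 u) i x (k, r) := by
    intro i x k r
    fin_cases k <;> simp [dg, mk3, p2]
  exact funext fun i => funext fun x => funext fun p => (pq_val hg 2 u i x p).trans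
    (key i x p.1 p.2)

/-- multiplication commutes with the degree projections -/
theorem mulH_pqL (q : ℕ) :
    pqL (tw (lam2 A) (LV hg')) q ∘ₗ (mulH hg hg' hs he).actL =
      (mulH hg hg' hs he).actL ∘ₗ pqL (tw (lam2 A) (LV hg)) q := by
  refine LinearMap.ext fun u => Subtype.ext ?_
  have key : ∀ (i : A.ι) (x : M) (p : Fin 4 × Unit),
      pq (tw (lam2 A) (LV hg')) q ((mulH hg hg' hs he).act u.1) i x p =
        (mulH hg hg' hs he).act (pq (tw (lam2 A) (LV hg)) q u.1) i x p := by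
    intro i x p
    have e1 := pq_val hg' q ((mulH hg hg' hs he).act u.1) i x p
    have e2 := pq_val hg q u.1 i x p
    have e3 : (mulH hg hg' hs he).act u.1 i x p = σ i x * u.1 i x p :=
      congrFun (congrFun (congrFun (mulH_act (hg := hg) (hg' := hg') (hs := hs) (he := he) u.1) i) x) p
    have e4 : (mulH hg hg' hs he).act (pq (tw (lam2 A) (LV hg)) q u.1) i x p =
        σ i x * pq (tw (lam2 A) (LV hg)) q u.1 i x p :=
      congrFun (congrFun (congrFun (mulH_act (hg := hg) (hg' := hg') (hs := hs) (he := he)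
        (pq (tw (lam2 A) (LV hg)) q u.1)) i) x) p
    rw [e1, e3, e4, e2]
    split_ifs <;> simp
  exact funext fun i => funext fun x => funext fun p => key i x p

/-! ### division by a section away from its zeros -/

/-- `ζ / σ` -/
def invZ (A : Atl 2 M) (ζ : M → ℂ) (σ : A.ι → M → ℂ) : A.ι → M → ℂ :=
  fun i x => ζ x * (σ i x)⁻¹

theorem isZ0_invZ {ζ : M → ℂ} (hs : IsZ0 A gs univ σ) (hζ : SmOn A univ ζ)
    (h0 : ∀ i x, x ∈ (A.e i).source → x ∈ tsupport ζ → σ i x ≠ 0) :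
    IsZ0 A gs⁻¹ univ (invZ A ζ σ) where
  sm i x hx _ := by
    by_cases h : x ∈ tsupport ζ
    · exact (hζ i x hx trivial).mul ((hs.sm i x hx trivial).inv (h0 i x hx h) hx)
    · have h1 : ∀ᶠ y in 𝓝 x, ζ y = 0 := notMem_tsupport_iff_eventuallyEq.1 h
      refine (SmP.const (0 : ℂ)).congr hx ?_
      filter_upwards [h1] with y hy
      simp [invZ, hy]
  off i x hx := by simp [invZ, hs.off i x hx]
  tr i j x hx _ := by
    simp only [invZ, hs.tr i j x hx trivial, Pi.inv_apply, mul_inv]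
    ring

/-- `σ * (ζ / σ) = 1` where `ζ = 1` and `σ ≠ 0` -/
theorem mul_invZ {ζ : M → ℂ} {i : A.ι} {x : M} (h1 : ζ x = 1) (h2 : σ i x ≠ 0) :
    σ i x * invZ A ζ σ i x = 1 := by
  rw [invZ, h1, one_mul, mul_inv_cancel₀ h2]

end

end Crest.Agent.R275.MulZ323
end

-- ▼ part R275/BndZ_323
section

/-!
# R275: the bounded division step on the weighted spaces, raw form (helper323)

* `le_actL` : an `FHom r` of local size `c` (`MB P H.h c`) is a local operator `LE Q r c`.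
* `InW w hg u` : the raw family `u` is a section of `tw (lam2 A) (LV hg)` in the weighted space
  `WSm _ w`; `nW h w s u` its norm of level `s` (helper681's scale `sc h w`).
* `degEx` : the complex `(WSm _ w, nab)` satisfies `DegEx` (helper509's parametrix `KML`).
* `bndZ` : **the bounded division step**: `σ` a holomorphic section of `gs`, `ζ` a compactly
  supported cut-off with `σ ≠ 0` on `tsupport ζ`; `H¹(V') = 0` (degree one, values in `g'`),
  `H²(V) = 0` (degree two, values in `g = gs⁻¹ g'`).  Then every `b` of degree one with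
  `d1 b = 0` off `{ζ = 1}` is `d0 f + σ b'` with bounds at every level.
* `bndZ_compact` : the same with a compact set `K ⊆ {σ ≠ 0}` instead of `ζ`.
-/

set_option autoImplicit false
set_option linter.unusedSectionVars false
set_option linter.unusedVariables false

open Set Filter Topology Complex
open scoped ContDiff Matrix ComplexConjugate Kronecker

namespace Crest.Agent.R275.BndZ323

open Geo Fm96 Q74 Lam2130 FHom556 MulZ323 WY681 Fred685 Bnd323

noncomputable section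

/-! ### bundle morphisms are local operators -/

section actL

variable {n : ℕ} {M : Type} [TopologicalSpace M] {A : Atl n M} {P : Part A} {B B' : FBun A}

/-- a bundle morphism of degree `r` and local size `c` is a local operator of order `-r` -/
theorem le_actL {r : ℕ} (Q : PNb P) (H : FHom r B B') (hB : ∀ k, B'.deg k ≤ n) {c : A.ι → ℝ}
    (hc : ∀ i, 0 ≤ c i) (h : WY4193.MB P H.h c) : LE Q r c H.actL := by
  refine LE.mk' 0 fun s => ?_
  obtain ⟨C, hC, h1⟩ := h.rows hc (sh₁ := sh B') (sh₂ := sh B) (r := r) (fun i x k l hkl => by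
    have h2 := H.degr i x k l hkl
    have h3 := hB k
    unfold sh
    omega) s
  refine ⟨C, hC, fun u i k => ?_⟩
  have h2 : Q.Nr 0 i = {i} := by
    ext j
    rw [Q.mem_Nr_zero, Finset.mem_singleton]
  rw [h2, Finset.sum_singleton, mul_assoc]
  exact h1 i (u.1 i) (fun l => u.2.1 i l) k

theorem dom_one {Q : PNb P} (w : Wt Q) : Dom (fun _ => 1) w w :=
  ⟨1, zero_le_one, fun i => le_of_eq (mul_comm _ _)⟩

/-- a local size of finite support is dominated -/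
theorem dom_of_finite {Q : PNb P} (S : Finset A.ι) (w w' : Wt Q) :
    Dom (Set.indicator (S : Set A.ι) 1) w w' := by
  classical
  refine ⟨∑ i ∈ S, w'.w i / w.w i, Finset.sum_nonneg fun i _ => (div_pos (w'.pos i) (w.pos i)).le,
    fun i => ?_⟩
  by_cases hi : i ∈ S
  · rw [Set.indicator_of_mem (Finset.mem_coe.2 hi), Pi.one_apply, mul_one]
    have h1 : w'.w i / w.w i ≤ ∑ i ∈ S, w'.w i / w.w i :=
      Finset.single_le_sum (f := fun i => w'.w i / w.w i)
        (fun i _ => (div_pos (w'.pos i) (w.pos i)).le) hi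
    calc w'.w i = w'.w i / w.w i * w.w i := (div_mul_cancel₀ _ (w.pos i).ne').symm
      _ ≤ _ := mul_le_mul_of_nonneg_right h1 (w.pos i).le
  · rw [Set.indicator_of_notMem (fun h => hi (Finset.mem_coe.1 h)), mul_zero]
    exact mul_nonneg (Finset.sum_nonneg fun i _ => (div_pos (w'.pos i) (w.pos i)).le) (w.pos i).le

end actL

/-! ### raw families in the weighted spaces -/

variable {M : Type} [TopologicalSpace M] {A : Atl 2 M} {P : Part A} {Q : PNb P}
variable {g g' gs : A.ι → A.ι → M → ℂ} {σ : A.ι → M → ℂ}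

/-- the graded bundle of a raw cocycle -/
abbrev BL (hg : IsLC A g) : FBun A := tw (lam2 A) (LV hg)

/-- the raw family `u` is in the weighted space -/
def InW (w : Wt Q) (hg : IsLC A g) (u : A.ι → M → (Fin 4 × Unit) → ℂ) : Prop :=
  ∃ h : u ∈ SecL (LV hg), (⟨u, h⟩ : Sec (BL hg)) ∈ WSm (BL hg) w

open Classical in
/-- the norm of level `s` of a raw family (zero if it is not in the weighted space) -/
def nW {hg : IsLC A g} (h : BGeo P (BL hg)) (w : Wt Q) (s : ℕ)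
    (u : A.ι → M → (Fin 4 × Unit) → ℂ) : ℝ :=
  if hu : InW w hg u then (sc h w).nrm s ⟨⟨u, hu.choose⟩, hu.choose_spec⟩ else 0

section basic

variable {hg : IsLC A g} {w : Wt Q}

theorem InW.mem {u : A.ι → M → (Fin 4 × Unit) → ℂ} (h : InW w hg u) : u ∈ SecL (LV hg) := h.choose

/-- the element of the weighted space -/
def InW.el {u : A.ι → M → (Fin 4 × Unit) → ℂ} (h : InW w hg u) : WSm (BL hg) w :=
  ⟨⟨u, h.choose⟩, h.choose_spec⟩

@[simp] theorem InW.el_val {u : A.ι → M → (Fin 4 × Unit) → ℂ} (h : InW w hg u) :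
    h.el.1.1 = u := rfl

theorem inW_el (v : WSm (BL hg) w) : InW w hg v.1.1 := ⟨v.1.2, v.2⟩

theorem nW_eq (h : BGeo P (BL hg)) {s : ℕ} {u : A.ι → M → (Fin 4 × Unit) → ℂ} (hu : InW w hg u) :
    nW h w s u = (sc h w).nrm s hu.el := dif_pos hu

theorem nW_el (h : BGeo P (BL hg)) (s : ℕ) (v : WSm (BL hg) w) :
    nW h w s v.1.1 = (sc h w).nrm s v := nW_eq h (inW_el v)

theorem nW_nonneg (h : BGeo P (BL hg)) (w : Wt Q) (s : ℕ) (u : A.ι → M → (Fin 4 × Unit) → ℂ) :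
    0 ≤ nW h w s u := by
  unfold nW
  split_ifs
  · exact apply_nonneg _ _
  · exact le_rfl

theorem InW.add {u v : A.ι → M → (Fin 4 × Unit) → ℂ} (hu : InW w hg u) (hv : InW w hg v) :
    InW w hg (u + v) := inW_el (hu.el + hv.el)

theorem InW.sub {u v : A.ι → M → (Fin 4 × Unit) → ℂ} (hu : InW w hg u) (hv : InW w hg v) :
    InW w hg (u - v) := inW_el (hu.el - hv.el)

theorem InW.smul (c : ℂ) {u : A.ι → M → (Fin 4 × Unit) → ℂ} (hu : InW w hg u) :
    InW w hg (c • u) := inW_el (c • hu.el)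

theorem InW.zero : InW w hg (0 : A.ι → M → (Fin 4 × Unit) → ℂ) :=
  inW_el (0 : WSm (BL hg) w)

theorem nW_add_le (h : BGeo P (BL hg)) {s : ℕ} {u v : A.ι → M → (Fin 4 × Unit) → ℂ}
    (hu : InW w hg u) (hv : InW w hg v) : nW h w s (u + v) ≤ nW h w s u + nW h w s v := by
  rw [nW_eq h hu, nW_eq h hv]
  exact (nW_el h s (hu.el + hv.el)).le.trans (map_add_le_add _ _ _)

theorem nW_sub_le (h : BGeo P (BL hg)) {s : ℕ} {u v : A.ι → M → (Fin 4 × Unit) → ℂ}
    (hu : InW w hg u) (hv : InW w hg v) : nW h w s (u - v) ≤ nW h w s u + nW h w s v := by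
  rw [nW_eq h hu, nW_eq h hv]
  refine (nW_el h s (hu.el - hv.el)).le.trans ?_
  exact map_sub_le_add ((sc h w).nrm s) hu.el hv.el


/-- an operator of order zero, raw form -/
theorem op0_raw {g₁ : A.ι → A.ι → M → ℂ} {hg₁ : IsLC A g₁} {w₁ : Wt Q} (h : BGeo P (BL hg))
    (h₁ : BGeo P (BL hg₁)) {c : A.ι → ℝ} {T : Sec (BL hg) →ₗ[ℂ] Sec (BL hg₁)}
    (hT : LE Q 0 c T) (hD : Dom c w w₁) (s : ℕ) :
    ∃ C : ℝ, 0 ≤ C ∧ ∀ u (hu : InW w hg u), InW w₁ hg₁ (T ⟨u, hu.mem⟩).1 ∧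
      nW h₁ w₁ s (T ⟨u, hu.mem⟩).1 ≤ C * nW h w s u := by
  obtain ⟨C, hC⟩ := hT.op0 h h₁ hD (hT.mem hD) s
  refine ⟨|C|, abs_nonneg C, fun u hu => ?_⟩
  have h1 : T ⟨u, hu.mem⟩ ∈ WSm (BL hg₁) w₁ := hT.mem hD _ hu.el.2
  refine ⟨⟨(T ⟨u, hu.mem⟩).2, h1⟩, ?_⟩
  rw [nW_eq h hu]
  have h2 := nW_el h₁ s (⟨T ⟨u, hu.mem⟩, h1⟩ : WSm (BL hg₁) w₁)
  refine h2.le.trans ((hC hu.el).trans ?_)
  exact mul_le_mul_of_nonneg_right (le_abs_self C) (apply_nonneg _ _)

end basic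

/-! ### the complex -/

section complex

variable {hg : IsLC A g}

theorem nabL_nabL (hg : IsLC A g) (u : Sec (BL hg)) : nabL (BL hg) (nabL (BL hg) u) = 0 := by
  refine Subtype.ext ?_
  show nabE (LV hg) (nabE (LV hg) u.1) = 0
  have h1 : nabE (LV hg) u.1 ∈ SecL (LV hg) := nabE_mem (LV hg) u.2
  rw [nab_eq hg h1, nab_eq hg u.2, p0_mk3, p1_mk3]
  have h0 : IsZ0 A g univ (p0 u.1) := ((mem_iff hg u.1).1 u.2).1
  have h2 : d0 A (0 : A.ι → M → ℂ) = 0 := by
    have := (D0 hg).map_zero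
    exact congrArg Subtype.val this
  have h3 : d1 A (d0 A (p0 u.1)) = 0 := by
    funext i x
    exact d1_d0 h0 i (mem_univ x)
  rw [h2, h3]
  funext i x ⟨k, r⟩
  fin_cases k <;> rfl

/-- `nab` on the weighted space -/
def nabW (h : BGeo P (BL hg)) (w : Wt Q) : WSm (BL hg) w →ₗ[ℂ] WSm (BL hg) w :=
  (nabL (BL hg)).restrict ((LE.nabL Q h).mem (dom_one w))

/-- degree projections on the weighted space -/
def pqW (hg : IsLC A g) (w : Wt Q) (q : ℕ) : WSm (BL hg) w →ₗ[ℂ] WSm (BL hg) w :=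
  (pqL (BL hg) q).restrict ((LE.pqL Q q).mem (dom_one w))

/-- the parametrix on the weighted space -/
def parW (h : BGeo P (BL hg)) (w : Wt Q) : WSm (BL hg) w →ₗ[ℂ] WSm (BL hg) w :=
  (KML (BL hg) P).restrict ((LE.KML Q h).mem (dom_one w))

theorem degEx (h : BGeo P (BL hg)) (w : Wt Q) (q : ℕ)
    (ex : ∀ z : WSm (BL hg) w, nabW h w z = 0 → pqW hg w (q + 1) z = z →
      ∃ u, pqW hg w q u = u ∧ nabW h w u = z) :
    DegEx (sc h w) (nabW h w) (pqW hg w q) (pqW hg w (q + 1)) where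
  dd := LinearMap.ext fun u => Subtype.ext (nabL_nabL hg u.1)
  d0 := (LE.nabL Q h).op0 h h (dom_one w) _
  par := by
    refine ⟨parW h w, (LE.KML Q h).op0 h h (dom_one w) _, ?_, ?_⟩
    · have h3 := (LE.RML Q h).opm h h (dom_one w) ((LE.RML Q h).mem (dom_one w))
      refine Eq.subst (motive := fun T => Opm (sc h w) (sc h w) T) ?_ h3
      refine LinearMap.ext fun u => Subtype.ext ?_
      have h2 := LinearMap.congr_fun (nabL_KML (BL hg) P) u.1
      simp only [LinearMap.add_apply, LinearMap.comp_apply, LinearMap.sub_apply,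
        LinearMap.id_apply] at h2
      show RML (BL hg) P u.1 = u.1 - nabL (BL hg) (KML (BL hg) P u.1) -
        KML (BL hg) P (nabL (BL hg) u.1)
      rw [sub_sub, h2]
      abel
    · refine LinearMap.ext fun u => Subtype.ext ?_
      exact LinearMap.congr_fun (KML_pqL (B := BL hg) P q) u.1
  p0 := (LE.pqL Q q).op0 h h (dom_one w) _
  pp := LinearMap.ext fun u => Subtype.ext (LinearMap.congr_fun (pqL_idem (B := BL hg) q) u.1)
  p'0 := (LE.pqL Q (q + 1)).op0 h h (dom_one w) _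
  dp := LinearMap.ext fun u => Subtype.ext (LinearMap.congr_fun (nabL_pqL (B := BL hg) q) u.1)
  ex := ex

/-! ### degrees -/

theorem pq_zero_mk3 (hg : IsLC A g) (f : A.ι → M → ℂ) :
    pq (BL hg) 0 (mk3 f 0 0) = mk3 f 0 0 := pq_zero hg _

theorem pq_one_mk3 (hg : IsLC A g) (b : A.ι → M → Fin 2 → ℂ) :
    pq (BL hg) 1 (mk3 0 b 0) = mk3 0 b 0 := by
  have h := pq_one hg (mk3 0 b 0)
  rwa [p1_mk3] at h

theorem pq_two_mk3 (hg : IsLC A g) (z : A.ι → M → ℂ) :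
    pq (BL hg) 2 (mk3 0 0 z) = mk3 0 0 z := pq_two hg _

theorem nabE_deg0 (hg : IsLC A g) {f : A.ι → M → ℂ} (hf : mk3 f 0 0 ∈ SecL (LV hg)) :
    nabE (LV hg) (mk3 f 0 0) = mk3 0 (d0 A f) 0 := by
  rw [nab_eq hg hf, p0_mk3, p1_mk3]
  have h2 : d1 A (0 : A.ι → M → Fin 2 → ℂ) = 0 := congrArg Subtype.val (D1 hg).map_zero
  rw [h2]

theorem nabE_deg1 (hg : IsLC A g) {b : A.ι → M → Fin 2 → ℂ} (hb : mk3 0 b 0 ∈ SecL (LV hg)) :
    nabE (LV hg) (mk3 0 b 0) = mk3 0 0 (d1 A b) := by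
  rw [nab_eq hg hb, p0_mk3, p1_mk3]
  have h2 : d0 A (0 : A.ι → M → ℂ) = 0 := congrArg Subtype.val (D0 hg).map_zero
  rw [h2]

theorem nabE_deg2 (hg : IsLC A g) {z : A.ι → M → ℂ} (hz : mk3 0 0 z ∈ SecL (LV hg)) :
    nabE (LV hg) (mk3 0 0 z) = mk3 0 0 0 := by
  rw [nab_eq hg hz, p0_mk3, p1_mk3]
  have h2 : d0 A (0 : A.ι → M → ℂ) = 0 := congrArg Subtype.val (D0 hg).map_zero
  have h3 : d1 A (0 : A.ι → M → Fin 2 → ℂ) = 0 := congrArg Subtype.val (D1 hg).map_zero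
  rw [h2, h3]

theorem mk3_zero : (mk3 0 0 0 : A.ι → M → (Fin 4 × Unit) → ℂ) = 0 := by
  funext i x ⟨k, r⟩
  fin_cases k <;> rfl

theorem eq_mk3_zero {hg : IsLC A g} {w : Wt Q} {u : WSm (BL hg) w} (h : pqW hg w 0 u = u) :
    u.1.1 = mk3 (p0 u.1.1) 0 0 := by
  have h1 : pq (BL hg) 0 u.1.1 = u.1.1 := congrArg (fun v : WSm (BL hg) w => v.1.1) h
  exact h1.symm.trans (pq_zero hg u.1.1)

theorem eq_mk3_one {hg : IsLC A g} {w : Wt Q} {u : WSm (BL hg) w} (h : pqW hg w 1 u = u) :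
    u.1.1 = mk3 0 (p1 u.1.1) 0 := by
  have h1 : pq (BL hg) 1 u.1.1 = u.1.1 := congrArg (fun v : WSm (BL hg) w => v.1.1) h
  exact h1.symm.trans (pq_one hg u.1.1)

theorem eq_mk3_two {hg : IsLC A g} {w : Wt Q} {u : WSm (BL hg) w} (h : pqW hg w 2 u = u) :
    u.1.1 = mk3 0 0 (p2 u.1.1) := by
  have h1 : pq (BL hg) 2 u.1.1 = u.1.1 := congrArg (fun v : WSm (BL hg) w => v.1.1) h
  exact h1.symm.trans (pq_two hg u.1.1)

theorem isZ0_of_mem {hg : IsLC A g} {f : A.ι → M → ℂ} (h : mk3 f 0 0 ∈ SecL (LV hg)) :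
    IsZ0 A g univ f := ((mem_iff hg _).1 h).1

theorem isZ1_of_mem {hg : IsLC A g} {b : A.ι → M → Fin 2 → ℂ} (h : mk3 0 b 0 ∈ SecL (LV hg)) :
    IsZ1 A g univ b := by
  have := ((mem_iff hg _).1 h).2.1
  rwa [p1_mk3] at this

theorem isZ2_of_mem {hg : IsLC A g} {z : A.ι → M → ℂ} (h : mk3 0 0 z ∈ SecL (LV hg)) :
    IsZ2 A g univ z := ((mem_iff hg _).1 h).2.2

/-- **raw exactness in degree one** gives `DegEx` -/
theorem degEx_one (h : BGeo P (BL hg)) (w : Wt Q)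
    (ex : ∀ z, IsZ1 A g univ z → InW w hg (mk3 0 z 0) → (∀ i x, d1 A z i x = 0) →
      ∃ u, IsZ0 A g univ u ∧ InW w hg (mk3 u 0 0) ∧ ∀ i x, d0 A u i x = z i x) :
    DegEx (sc h w) (nabW h w) (pqW hg w 0) (pqW hg w 1) := by
  refine degEx h w 0 fun z hz hz1 => ?_
  have e1 := eq_mk3_one hz1
  have m1 : mk3 0 (p1 z.1.1) 0 ∈ SecL (LV hg) := e1 ▸ z.1.2
  have e2 : nabE (LV hg) (mk3 0 (p1 z.1.1) 0) = 0 := by
    rw [← e1]
    exact congrArg (fun v : WSm (BL hg) w => v.1.1) hz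
  rw [nabE_deg1 hg m1] at e2
  have e3 : ∀ i x, d1 A (p1 z.1.1) i x = 0 := fun i x =>
    congrFun (congrFun (congrFun e2 i) x) (3, ())
  obtain ⟨u, hu, hu1, hu2⟩ := ex _ (isZ1_of_mem m1) (e1 ▸ inW_el z) e3
  refine ⟨hu1.el, Subtype.ext (Subtype.ext (pq_zero_mk3 hg u)), Subtype.ext (Subtype.ext ?_)⟩
  refine (nabE_deg0 hg hu1.mem).trans ?_
  refine Eq.trans ?_ e1.symm
  congr 1
  exact funext fun i => funext fun x => hu2 i x

/-- **raw exactness in degree two** gives `DegEx` -/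
theorem degEx_two (h : BGeo P (BL hg)) (w : Wt Q)
    (ex : ∀ z, IsZ2 A g univ z → InW w hg (mk3 0 0 z) →
      ∃ u, IsZ1 A g univ u ∧ InW w hg (mk3 0 u 0) ∧ ∀ i x, d1 A u i x = z i x) :
    DegEx (sc h w) (nabW h w) (pqW hg w 1) (pqW hg w 2) := by
  refine degEx h w 1 fun z hz hz1 => ?_
  have e1 := eq_mk3_two hz1
  have m1 : mk3 0 0 (p2 z.1.1) ∈ SecL (LV hg) := e1 ▸ z.1.2
  obtain ⟨u, hu, hu1, hu2⟩ := ex _ (isZ2_of_mem m1) (e1 ▸ inW_el z)
  refine ⟨hu1.el, Subtype.ext (Subtype.ext (pq_one_mk3 hg u)), Subtype.ext (Subtype.ext ?_)⟩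
  refine (nabE_deg1 hg hu1.mem).trans ?_
  refine Eq.trans ?_ e1.symm
  congr 1
  exact funext fun i => funext fun x => hu2 i x

end complex

/-! ### local sizes of multiplications -/

section mult

/-- local size of the multiplication by `σ` from the local size of `σ` -/
theorem mb_smul_one {n : ℕ} {M : Type} [TopologicalSpace M] {A : Atl n M} {P : Part A} {κ : Type}
    [DecidableEq κ] {σ : A.ι → M → ℂ} {c : A.ι → ℝ} (hc : ∀ i, 0 ≤ c i)
    (hσ : ∀ i, A.SmAt i (σ i))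
    (hb : ∀ s : ℕ, ∃ C : ℝ, 0 ≤ C ∧ ∀ i, ∀ x ∈ tsupport (P.ψ i),
      ‖iteratedFDeriv ℝ s (fun z => σ i ((A.e i).symm z)) (A.e i x)‖ ≤ C * c i) :
    WY4193.MB P (fun i x => σ i x • (1 : Matrix κ κ ℂ)) c where
  sm i k l := by
    by_cases hkl : k = l
    · subst hkl
      have : (fun x => (σ i x • (1 : Matrix κ κ ℂ)) k k) = σ i := by
        funext x
        simp
      rw [this]
      exact hσ i
    · have : (fun x => (σ i x • (1 : Matrix κ κ ℂ)) k l) = fun _ => 0 := by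
        funext x
        simp [Matrix.one_apply_ne hkl]
      rw [this]
      exact contDiffOn_const
  bd s := by
    obtain ⟨C, hC, h⟩ := hb s
    refine ⟨C, hC, fun i k l x hx => ?_⟩
    by_cases hkl : k = l
    · subst hkl
      have : (fun z => (σ i ((A.e i).symm z) • (1 : Matrix κ κ ℂ)) k k) =
          fun z => σ i ((A.e i).symm z) := by
        funext z
        simp
      rw [this]
      exact h i x hx
    · have : (fun z => (σ i ((A.e i).symm z) • (1 : Matrix κ κ ℂ)) k l) = fun _ => 0 := by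
        funext z
        simp [Matrix.one_apply_ne hkl]
      rw [this]
      have h0 : iteratedFDeriv ℝ s (fun _ : Cn n => (0 : ℂ)) (A.e i x) = 0 :=
        congrFun (iteratedFDeriv_fun_zero (𝕜 := ℝ) (n := s)) _
      rw [h0, norm_zero]
      exact mul_nonneg hC (hc i)


/-- multiplication by a section which vanishes off a compact set has finite local size -/
theorem exists_mb_finite (P : Part A) {hg : IsLC A g} {hg' : IsLC A g'} {τ : A.ι → M → ℂ}
    {gt : A.ι → A.ι → M → ℂ}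
    (ht : IsZ0 A gt univ τ) (he : EqOv A (gt * g) g') {K : Set M} (hK : IsCompact K)
    (h0 : ∀ i, ∀ x ∉ K, ∀ᶠ y in 𝓝 x, τ i y = 0) :
    ∃ S : Finset A.ι, WY4193.MB P (mulH hg hg' ht he).h (Set.indicator (S : Set A.ι) 1) := by
  refine ⟨(P.lf K hK).toFinset, WY4193.MB.of_finite (fun i k l => (mulH hg hg' ht he).smooth i k l)
    _ fun i hi x hx => ?_⟩
  have hx' : x ∉ K := by
    intro h
    refine hi ?_
    rw [Set.Finite.mem_toFinset]
    exact ⟨x, P.ψ_sub i hx, h⟩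
  filter_upwards [h0 i x hx'] with y hy
  show (τ i y • (1 : Matrix (Fin 4 × Unit) (Fin 4 × Unit) ℂ)) = 0
  rw [hy, zero_smul]

theorem deg_le_two (hg : IsLC A g) (k : (BL hg).κ) : (BL hg).deg k ≤ 2 := by
  have key : ∀ k : Fin 4, dg k ≤ 2 := by decide
  exact key k.1

end mult

/-! ### the bounded division step -/

section main

/-- **the bounded division step** (raw form, with a cut-off `ζ`) -/
theorem bndZ {hg : IsLC A g} {hg' : IsLC A g'} (hs : IsZ0 A gs univ σ) (hh : IsHol A σ)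
    (he : EqOv A (gs * g) g') (he' : EqOv A (gs⁻¹ * g') g)
    (h : BGeo P (BL hg)) (h' : BGeo P (BL hg')) {w w' : Wt Q} {c : A.ι → ℝ} (hc : ∀ i, 0 ≤ c i)
    (hσ : WY4193.MB P (fun i x => σ i x • (1 : Matrix (Fin 4 × Unit) (Fin 4 × Unit) ℂ)) c)
    (hD : Dom c w w')
    {ζ : M → ℂ} (hζ : SmOn A univ ζ) (hζc : HasCompactSupport ζ)
    (hζ0 : ∀ i x, x ∈ (A.e i).source → x ∈ tsupport ζ → σ i x ≠ 0)
    (ex1 : ∀ z, IsZ1 A g' univ z → InW w' hg' (mk3 0 z 0) → (∀ i x, d1 A z i x = 0) →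
      ∃ u, IsZ0 A g' univ u ∧ InW w' hg' (mk3 u 0 0) ∧ ∀ i x, d0 A u i x = z i x)
    (ex2 : ∀ z, IsZ2 A g univ z → InW w hg (mk3 0 0 z) →
      ∃ u, IsZ1 A g univ u ∧ InW w hg (mk3 0 u 0) ∧ ∀ i x, d1 A u i x = z i x)
    (s : ℕ) :
    ∃ C : ℝ, 0 < C ∧ ∀ b, InW w' hg' (mk3 0 b 0) → (∀ i x, ζ x ≠ 1 → d1 A b i x = 0) →
      ∃ f b', IsZ0 A g' univ f ∧ IsZ1 A g univ b' ∧
        InW w' hg' (mk3 f 0 0) ∧ InW w hg (mk3 0 b' 0) ∧
        (∀ i x, b i x = d0 A f i x + sm1 σ b' i x) ∧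
        (∀ i x, d1 A b' i x = invZ A ζ σ i x * d1 A b i x) ∧
        nW h' w' s (mk3 f 0 0) ≤ C * nW h' w' s (mk3 0 b 0) ∧
        nW h w s (mk3 0 b' 0) ≤ C * nW h' w' s (mk3 0 b 0) := by
  have hτ : IsZ0 A gs⁻¹ univ (invZ A ζ σ) := isZ0_invZ hs hζ hζ0
  obtain ⟨S, hS⟩ := exists_mb_finite P (hg := hg') (hg' := hg) hτ he' hζc (fun i x hx => by
    filter_upwards [notMem_tsupport_iff_eventuallyEq.1 hx] with y hy
    simp [invZ, hy])
  have hS0 : ∀ i, 0 ≤ Set.indicator (S : Set A.ι) (1 : A.ι → ℝ) i := fun i =>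
    Set.indicator_nonneg (fun _ _ => zero_le_one) i
  have lμ : LE Q 0 c (mulH hg hg' hs he).actL := le_actL Q _ (deg_le_two hg') hc hσ
  have lm : LE Q 0 (Set.indicator (S : Set A.ι) 1) (mulH hg' hg hτ he').actL :=
    le_actL Q _ (deg_le_two hg) hS0 hS
  have dm : Dom (Set.indicator (S : Set A.ι) 1) w' w := dom_of_finite S w' w
  obtain ⟨C, hC, key⟩ := bndT (degEx_one h' w' ex1) (degEx_two h w ex2)
    (μ := (mulH hg hg' hs he).actL.restrict (lμ.mem hD))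
    (m := (mulH hg' hg hτ he').actL.restrict (lm.mem dm))
    (lμ.op0 h h' hD _) (lm.op0 h' h dm _)
    (LinearMap.ext fun u => Subtype.ext (LinearMap.congr_fun (mulH_nabL hh) u.1))
    (fun u hu => Subtype.ext (by
      have h1 := LinearMap.congr_fun (mulH_pqL (hg := hg) (hg' := hg') (hs := hs) (he := he) 1) u.1
      refine h1.trans ?_
      have h2 : pqL (BL hg) 1 u.1 = u.1 := congrArg Subtype.val hu
      show (mulH hg hg' hs he).actL (pqL (BL hg) 1 u.1) = _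
      rw [h2]
      rfl)) s
  refine ⟨C, hC, fun b hb hbζ => ?_⟩
  have hb1 : IsZ1 A g' univ b := isZ1_of_mem hb.mem
  have e1 : nabE (LV hg') (mk3 0 b 0) = mk3 0 0 (d1 A b) := nabE_deg1 hg' hb.mem
  have e2 : (mulH hg' hg hτ he').act (mk3 0 0 (d1 A b)) =
      mk3 0 0 (sm (invZ A ζ σ) (d1 A b)) := by
    rw [mulH_mk3]
    congr 1
    · funext i x
      simp [sm]
    · funext i x a
      simp [sm1]
  have e3 : (mulH hg hg' hs he).act (mk3 0 0 (sm (invZ A ζ σ) (d1 A b))) =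
      mk3 0 0 (d1 A b) := by
    rw [mulH_mk3]
    congr 1
    · funext i x
      simp [sm]
    · funext i x a
      simp [sm1]
    · funext i x
      show σ i x * (invZ A ζ σ i x * d1 A b i x) = d1 A b i x
      by_cases hx : x ∈ (A.e i).source
      · by_cases h1 : ζ x = 1
        · have h2 : x ∈ tsupport ζ := subset_tsupport _ (by
            rw [Function.mem_support, h1]
            exact one_ne_zero)
          rw [← mul_assoc, mul_invZ h1 (hζ0 i x hx h2), one_mul]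
        · rw [hbζ i x h1, mul_zero, mul_zero]
      · rw [d1_of_not_mem hx, mul_zero, mul_zero]
  have m2 : mk3 0 0 (sm (invZ A ζ σ) (d1 A b)) ∈ SecL (LV hg) := by
    rw [← e2, ← e1]
    exact (mulH hg' hg hτ he').act_mem (nabE_mem (LV hg') hb.mem)
  obtain ⟨f, b', hf, hb', hbf, heb, n1, n2⟩ := key hb.el
    (Subtype.ext (Subtype.ext (pq_one_mk3 hg' b)))
    (Subtype.ext (Subtype.ext (by
      show (mulH hg hg' hs he).act ((mulH hg' hg hτ he').act (nabE (LV hg') (mk3 0 b 0))) =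
        nabE (LV hg') (mk3 0 b 0)
      rw [e1, e2, e3])))
    (Subtype.ext (Subtype.ext (by
      show nabE (LV hg) ((mulH hg' hg hτ he').act (nabE (LV hg') (mk3 0 b 0))) = 0
      rw [e1, e2, nabE_deg2 hg m2, mk3_zero]
      rfl)))
    (Subtype.ext (Subtype.ext (by
      show pq (BL hg) 2 ((mulH hg' hg hτ he').act (nabE (LV hg') (mk3 0 b 0))) =
        (mulH hg' hg hτ he').act (nabE (LV hg') (mk3 0 b 0))
      rw [e1, e2]
      exact pq_two_mk3 hg _)))
  have e4 := eq_mk3_zero hf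
  have e5 := eq_mk3_one hb'
  have i4 : InW w' hg' (mk3 (p0 f.1.1) 0 0) := e4 ▸ inW_el f
  have i5 : InW w hg (mk3 0 (p1 b'.1.1) 0) := e5 ▸ inW_el b'
  have a1 : nabE (LV hg') f.1.1 = mk3 0 (d0 A (p0 f.1.1)) 0 := by
    conv_lhs => rw [e4]
    exact nabE_deg0 hg' i4.mem
  have a2 : (mulH hg hg' hs he).act b'.1.1 = mk3 (sm σ 0) (sm1 σ (p1 b'.1.1)) (sm σ 0) := by
    conv_lhs => rw [e5]
    exact mulH_mk3 _ _ _
  have e6 : mk3 0 b 0 = mk3 0 (d0 A (p0 f.1.1)) 0 +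
      mk3 (sm σ 0) (sm1 σ (p1 b'.1.1)) (sm σ 0) :=
    (congrArg (fun v : WSm (BL hg') w' => v.1.1) hbf).trans
      (congrArg₂ (fun (x y : A.ι → M → (Fin 4 × Unit) → ℂ) => x + y) a1 a2)
  have e7 : nabE (LV hg) (mk3 0 (p1 b'.1.1) 0) = mk3 0 0 (sm (invZ A ζ σ) (d1 A b)) := by
    rw [← e5, ← e2, ← e1]
    exact congrArg (fun v : WSm (BL hg) w => v.1.1) heb
  rw [nabE_deg1 hg i5.mem] at e7
  refine ⟨p0 f.1.1, p1 b'.1.1, isZ0_of_mem i4.mem, isZ1_of_mem i5.mem, i4, i5, fun i x => ?_,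
    fun i x => congrFun (congrFun (congrArg p2 e7) i) x, ?_, ?_⟩
  · have e8 := congrFun (congrFun (congrArg p1 e6) i) x
    rw [p1_mk3] at e8
    rw [e8]
    funext a
    fin_cases a <;> rfl
  · rw [← e4, nW_el, nW_eq h' hb]
    exact n1
  · rw [← e5, nW_el, nW_eq h' hb]
    exact n2

/-- the set where a section does not vanish is open -/
theorem isOpen_ne (hs : IsZ0 A gs univ σ) :
    IsOpen {x : M | ∀ i, x ∈ (A.e i).source → σ i x ≠ 0} := by
  rw [isOpen_iff_mem_nhds]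
  intro x hx
  obtain ⟨i, hi⟩ := A.cover x
  have hc : ContinuousAt (σ i) x := (hs.sm i x hi trivial).continuousAt hi
  filter_upwards [hc.eventually_ne (hx i hi), (A.e i).open_source.mem_nhds hi] with y hy hyi j hj h0
  have := hs.tr i j y ⟨hyi, hj⟩ trivial
  rw [h0, mul_zero] at this
  exact hy this

/-- **the bounded division step** (raw form, with a compact set `K ⊆ {σ ≠ 0}`) -/
theorem bndZ_compact [T2Space M] {hg : IsLC A g} {hg' : IsLC A g'} (hs : IsZ0 A gs univ σ)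
    (hh : IsHol A σ) (he : EqOv A (gs * g) g') (he' : EqOv A (gs⁻¹ * g') g)
    (h : BGeo P (BL hg)) (h' : BGeo P (BL hg')) {w w' : Wt Q} {c : A.ι → ℝ} (hc : ∀ i, 0 ≤ c i)
    (hσ : WY4193.MB P (fun i x => σ i x • (1 : Matrix (Fin 4 × Unit) (Fin 4 × Unit) ℂ)) c)
    (hD : Dom c w w')
    (ex1 : ∀ z, IsZ1 A g' univ z → InW w' hg' (mk3 0 z 0) → (∀ i x, d1 A z i x = 0) →
      ∃ u, IsZ0 A g' univ u ∧ InW w' hg' (mk3 u 0 0) ∧ ∀ i x, d0 A u i x = z i x)
    (ex2 : ∀ z, IsZ2 A g univ z → InW w hg (mk3 0 0 z) →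
      ∃ u, IsZ1 A g univ u ∧ InW w hg (mk3 0 u 0) ∧ ∀ i x, d1 A u i x = z i x)
    {K : Set M} (hK : IsCompact K) (hK0 : ∀ i, ∀ x ∈ K, x ∈ (A.e i).source → σ i x ≠ 0)
    (s : ℕ) :
    ∃ C : ℝ, 0 < C ∧ ∀ b, InW w' hg' (mk3 0 b 0) → (∀ i, ∀ x ∉ K, d1 A b i x = 0) →
      ∃ f b', IsZ0 A g' univ f ∧ IsZ1 A g univ b' ∧
        InW w' hg' (mk3 f 0 0) ∧ InW w hg (mk3 0 b' 0) ∧
        (∀ i x, b i x = d0 A f i x + sm1 σ b' i x) ∧
        (∀ i x, d1 A b' i x = (σ i x)⁻¹ * d1 A b i x) ∧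
        nW h' w' s (mk3 f 0 0) ≤ C * nW h' w' s (mk3 0 b 0) ∧
        nW h w s (mk3 0 b' 0) ≤ C * nW h' w' s (mk3 0 b 0) := by
  obtain ⟨φ, h1, -, h3, h4, h5⟩ := QN2b734.exists_bump A hK (isOpen_ne hs)
    (fun x hx i hi => hK0 i x hx hi)
  have hsm : A.Sm φ := QN2b734.sm_iff.2 h1
  have hsupp : tsupport (fun y => (φ y : ℂ)) ⊆ tsupport φ := closure_mono fun y hy => by
    rw [Function.mem_support] at hy ⊢
    intro h0
    exact hy (by rw [h0, Complex.ofReal_zero])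
  obtain ⟨C, hC, key⟩ := bndZ (ζ := fun y => (φ y : ℂ)) hs hh he he' h h' hc hσ hD
    (fun i x hi _ => (smAt_iff (A := A) (i := i) (f := fun y => (φ y : ℂ))).1
      (ofRealCLM.contDiff.comp_contDiffOn (hsm i)) x hi)
    (h4.of_isClosed_subset (isClosed_tsupport _) hsupp)
    (fun i x hx hxs => h5 (hsupp hxs) i hx) ex1 ex2 s
  refine ⟨C, hC, fun b hb hbK => ?_⟩
  have hφ1 : ∀ x ∈ K, (φ x : ℂ) = 1 := fun x hx => by
    have := (eventually_nhdsSet_iff_forall.1 h3 x hx).self_of_nhds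
    rw [this, Complex.ofReal_one]
  obtain ⟨f, b', h6, h7, h8, h9, h10, h11, h12, h13⟩ := key b hb (fun i x hx =>
    hbK i x fun hxK => hx (hφ1 x hxK))
  refine ⟨f, b', h6, h7, h8, h9, h10, fun i x => ?_, h12, h13⟩
  rw [h11]
  by_cases hx : x ∈ K
  · rw [invZ, hφ1 x hx, one_mul]
  · rw [hbK i x hx, mul_zero, mul_zero]

end main

end

end Crest.Agent.R275.BndZ323
end

-- ▼ part R275/NormI_195
section

/-!
# R275, norm instance for SEC5-ITER (helper195), part I: norms of raw forms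

`le_of_MB`   : diagonal multiplications of bounded local size are local operators.
`le_of_cpt`  : the same for multiplications with compact support.
`locJ_eq`, `mem_WSm_of_cpt`, `nT_le_of_cpt`, `sup_piece` : pieces of sections, sections with
compact support, sup bounds.
-/

set_option autoImplicit false
set_option linter.unusedSectionVars false

open Set Filter Topology Complex
open scoped ContDiff Matrix ComplexConjugate

namespace Crest.Agent.R275.Norm195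

open Geo Fm96 Lam2130 Q74 WY681 WY4193 FHom556 Fred685 Tor812 Ret666

noncomputable section

section gen

variable {n : ℕ} {M : Type} [TopologicalSpace M] {A : Atl n M} {P : Part A} {B B' : FBun A}

theorem Nr_zero (Q : PNb P) (i : A.ι) : Q.Nr 0 i = {i} := by
  ext j
  rw [Q.mem_Nr_zero, Finset.mem_singleton]

/-- **diagonal multiplications are local operators** -/
theorem le_of_MB (Q : PNb P) {F : A.ι → M → Matrix B'.κ B.κ ℂ} {c : A.ι → ℝ} (h : MB P F c)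
    (hc : ∀ i, 0 ≤ c i) {e : ℕ} (hd : ∀ i x k l, F i x k l ≠ 0 → sh B' k + e ≤ sh B l)
    {T : Sec B →ₗ[ℂ] Sec B'} (hT : ∀ (u : Sec B) i x, (T u).1 i x = F i x *ᵥ u.1 i x) :
    LE Q e c T := by
  refine LE.mk' 0 fun s => ?_
  obtain ⟨C, hC, h1⟩ := MB.rows h hc hd s
  refine ⟨C, hC, fun u i k => ?_⟩
  rw [Nr_zero, Finset.sum_singleton, mul_assoc]
  have h2 := h1 i (u.1 i) (fun l => u.2.1 i l) k
  have h3 : (T u).1 i = fun x => F i x *ᵥ u.1 i x := funext fun x => hT u i x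
  have h4 : locJ P B' (T u) (i, k) =
      loc A i (P.psi B'.κ i) (fun x => F i x *ᵥ u.1 i x) k := by
    rw [← h3]
    rfl
  rw [h4]
  exact h2

/-- the charts meeting a compact set -/
def chs (P : Part A) {K : Set M} (hK : IsCompact K) : Finset A.ι := (P.lf K hK).toFinset

theorem mem_chs {K : Set M} {hK : IsCompact K} {i : A.ι} :
    i ∈ chs P hK ↔ (tsupport (P.χ i) ∩ K).Nonempty := by
  unfold chs
  rw [Set.Finite.mem_toFinset]
  rfl

/-- **diagonal multiplications with compact support are local operators** -/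
theorem le_of_cpt [T2Space M] (Q : PNb P) {F : A.ι → M → Matrix B'.κ B.κ ℂ}
    (hF : ∀ i k l, A.SmAt i (fun x => F i x k l)) {K : Set M} (hK : IsCompact K)
    (h0 : ∀ i, ∀ x ∉ K, F i x = 0) {e : ℕ}
    (hd : ∀ i x k l, F i x k l ≠ 0 → sh B' k + e ≤ sh B l)
    {T : Sec B →ₗ[ℂ] Sec B'} (hT : ∀ (u : Sec B) i x, (T u).1 i x = F i x *ᵥ u.1 i x) :
    LE Q e (Set.indicator (chs P hK : Set A.ι) 1) T := by
  refine le_of_MB Q (MB.of_finite hF (chs P hK) fun i hi x hx => ?_) (fun i => ?_) hd hT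
  · have hxK : x ∉ K := fun h => hi (mem_chs.2 ⟨x, P.ψ_sub i hx, h⟩)
    filter_upwards [hK.isClosed.isOpen_compl.mem_nhds hxK] with y hy using h0 i y hy
  · exact Set.indicator_nonneg (fun _ _ => zero_le_one) i

theorem dom_indicator {Q : PNb P} (w : WY681.Wt Q) (S : Set A.ι) :
    Dom (Set.indicator S 1) w w := by
  refine ⟨1, zero_le_one, fun i => ?_⟩
  by_cases h : i ∈ S
  · rw [Set.indicator_of_mem h, Pi.one_apply, mul_one, one_mul]
  · rw [Set.indicator_of_notMem h, mul_zero, one_mul]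
    exact (w.pos i).le


/-! ### pieces -/

/-- the pieces of a section -/
theorem locJ_eq (u : Sec B) (i : A.ι) (k : B.κ) :
    locJ P B u (i, k) = TorT2539.lp A i (fun x => (P.ψ i x : ℂ) * u.1 i x k) := by
  rw [locJ_apply]
  show loc A i (P.psi B.κ i) (u.1 i) k = _
  rw [TorT2539.loc_eq_lp]
  congr 1
  funext x
  show (((P.ψ i x : ℂ) • (1 : Matrix B.κ B.κ ℂ)) *ᵥ u.1 i x) k = _
  rw [Matrix.smul_mulVec, Matrix.one_mulVec]
  rfl

theorem smAt_piece (u : Sec B) (i : A.ι) (k : B.κ) :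
    A.SmAt i (fun x => (P.ψ i x : ℂ) * u.1 i x k) := by
  have h1 : A.SmAt i (fun x => (P.ψ i x : ℂ)) := ofRealCLM.contDiff.comp_contDiffOn (P.ψ_sm i i)
  exact C1c193.smAt_mul h1 (u.2.1 i k)

theorem psi_off {i : A.ι} {x : M} (hx : x ∉ tsupport (P.χ i)) : P.ψ i x = 0 := by
  by_contra h
  exact hx (P.ψ_sub i (subset_tsupport _ h))

theorem cptIn_piece (P : Part A) (u : Sec B) (i : A.ι) (k : B.κ) :
    C1c193.CptIn A i (fun x => (P.ψ i x : ℂ) * u.1 i x k) :=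
  ⟨tsupport (P.χ i), P.χ_cpt i, P.χ_sub i, fun x _ hx => by
    show (P.ψ i x : ℂ) * u.1 i x k = 0
    rw [psi_off hx, ofReal_zero, zero_mul]⟩

theorem lp_zero (i : A.ι) : TorT2539.lp A i (fun _ => (0 : ℂ)) = 0 := by
  rw [TorT2539.lp_eq (C1c193.smAt_const 0) C1c193.CptIn.zero]
  apply SPer.ext
  intro x
  rw [C1c193.pf_apply]
  by_cases hx : TorS666.fr x ∈ C1c193.rdU A i
  · rw [C1c193.rd_of_mem hx]; rfl
  · rw [C1c193.rd_of_not hx]; rfl



/-- sections with finitely many pieces are in all weighted spaces -/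
theorem mem_WSm_of_fin {Q : PNb P} (w : WY681.Wt Q) {u : Sec B} {J : Finset A.ι}
    (h0 : ∀ i ∉ J, ∀ k, locJ P B u (i, k) = 0) : u ∈ WSm B w := by
  classical
  rw [mem_WSm_iff]
  intro s
  refine summable_of_hasFiniteSupport
    (((J ×ˢ (Finset.univ : Finset B.κ)).finite_toSet).subset ?_)
  intro p hp
  rw [Finset.mem_coe, Finset.mem_product]
  refine ⟨?_, Finset.mem_univ _⟩
  by_contra hi
  refine hp ?_
  show (w.w p.1 * nrm (s + sh B p.2) (locJ P B u (p.1, p.2))) ^ 2 = 0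
  rw [h0 _ hi, nrm_zero_fun, mul_zero]
  ring

/-- the norm of a section with finitely many pieces -/
theorem nT_le_of_fin {Q : PNb P} {w : WY681.Wt Q} (h : BGeo P B) {u : WSm B w} {J : Finset A.ι}
    (h0 : ∀ i ∉ J, ∀ k, locJ P B u.1 (i, k) = 0) (s : ℕ) :
    (WY681.sc h w).nrm s u ≤ ∑ i ∈ J, ∑ k, w.w i * nrm (s + sh B k) (locJ P B u.1 (i, k)) := by
  classical
  rw [sc_nrm]
  have hS : 0 ≤ ∑ i ∈ J, ∑ k, w.w i * nrm (s + sh B k) (locJ P B u.1 (i, k)) :=
    Finset.sum_nonneg fun i _ => Finset.sum_nonneg fun k _ =>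
      mul_nonneg (w.pos i).le (nrm_nonneg _ _)
  refine (pow_le_pow_iff_left₀ (nT_nonneg _ _) hS two_ne_zero).1 ?_
  rw [← (hasSum_nT s (LocW B w u)).tsum_eq]
  refine Real.tsum_le_of_sum_le (fun _ => sq_nonneg _) fun F => ?_
  have h1 : ∑ p ∈ F, ((wsW B w).om p * nrm (s + (wsW B w).sh p) ((LocW B w u).fn p)) ^ 2 ≤
      ∑ p ∈ J ×ˢ (Finset.univ : Finset B.κ),
        (w.w p.1 * nrm (s + sh B p.2) (locJ P B u.1 (p.1, p.2))) ^ 2 := by
    refine (Finset.sum_le_sum_of_subset_of_nonneg (Finset.subset_union_left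
      (s₂ := J ×ˢ (Finset.univ : Finset B.κ))) fun _ _ _ => sq_nonneg _).trans
      (le_of_eq ?_)
    refine (Finset.sum_subset Finset.subset_union_right fun p _ hp => ?_).symm
    have hi : p.1 ∉ J := fun hi => hp (Finset.mem_product.2 ⟨hi, Finset.mem_univ _⟩)
    show (w.w p.1 * nrm (s + sh B p.2) (locJ P B u.1 (p.1, p.2))) ^ 2 = 0
    rw [h0 _ hi, nrm_zero_fun, mul_zero]
    ring
  refine h1.trans ?_
  refine (Finset.sum_sq_le_sq_sum_of_nonneg fun p _ =>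
    mul_nonneg (w.pos _).le (nrm_nonneg _ _)).trans (le_of_eq ?_)
  rw [Finset.sum_product]


theorem coord_sc {Q : PNb P} {w : WY681.Wt Q} (h : BGeo P B) (u : WSm B w) (s : ℕ) (i : A.ι)
    (k : B.κ) : w.w i * nrm (s + sh B k) (locJ P B u.1 (i, k)) ≤ (WY681.sc h w).nrm s u :=
  coord_le s (LocW B w u) (i, k)

/-- **sup bound of the pieces** -/
theorem sup_piece {N : ℕ} (hN : Fintype.card (RI n) < 2 * N) : ∃ C : ℝ, 0 ≤ C ∧
    ∀ (u : Sec B) (i : A.ι) (k : B.κ) (x : M),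
      ‖(P.ψ i x : ℂ) * u.1 i x k‖ ≤ C * nrm N (locJ P B u (i, k)) := by
  obtain ⟨C, hC, h⟩ := CnD812.cn_le_nrm (d := RI n) hN 0
  refine ⟨C, hC, fun u i k x => ?_⟩
  by_cases hx : x ∈ (A.e i).source
  · have h1 : locJ P B u (i, k) (rc (A.e i x)) = (P.ψ i x : ℂ) * u.1 i x k := by
      rw [locJ_eq, TorT2539.lp_eq (smAt_piece u i k) (cptIn_piece P u i k)]
      exact C1c193.pf_rc _ _ hx
    rw [← h1]
    refine (TorF812.le_cn_zero _ _).trans ((h _).trans (le_of_eq ?_))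
    rw [zero_add]
  · rw [u.2.2.1 i x hx]
    show ‖(P.ψ i x : ℂ) * (0 : B.κ → ℂ) k‖ ≤ _
    rw [Pi.zero_apply, mul_zero, norm_zero]
    exact mul_nonneg hC (nrm_nonneg _ _)

/-- the sum of the partition over the charts meeting `K` -/
theorem sum_chs {K : Set M} (hK : IsCompact K) {x : M} (hx : x ∈ K) :
    ∑ i ∈ chs P hK, (P.ψ i x : ℂ) = 1 := by
  rw [← ofReal_sum]
  have h1 : ∑ i ∈ chs P hK, P.ψ i x = 1 := by
    rw [← P.sum_one x]
    symm
    refine finsum_eq_sum_of_support_subset _ fun i hi => ?_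
    rw [Finset.mem_coe, mem_chs]
    refine ⟨x, ?_, hx⟩
    by_contra h
    exact hi (psi_off h)
  rw [h1, ofReal_one]

end gen

end

end Crest.Agent.R275.Norm195
end

-- ▼ part R275/NormJ_195
section

/-!
# R275, norm instance for SEC5-ITER (helper195), part II: `NP A` from the weighted spaces

`C1`, `N1` : raw `(0,1)`-forms with values in `g` in the weighted space, norm of level `s`
             (helper323's `InW`, `nW`); `nzW : NZ A`.
`C0`, `N0` : functions.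
`npW`      : **the norm package** `NP A` (`3 ≤ s`).
`hcs`      : compactly supported forms are in `C1`.
`sup_wt`   : pointwise bound `‖f q‖ ≤ C / c * N0 f` if the weights near `q` are `≥ c`.
`N1_piece`, `C1_of_fin`, `N1_le_of_fin` : comparison with finite sums of norms of pieces.
-/

set_option autoImplicit false
set_option linter.unusedSectionVars false

open Set Filter Topology Complex
open scoped ContDiff Matrix ComplexConjugate

namespace Crest.Agent.R275.Norm195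

open Geo Fm96 Lam2130 Q74 WY681 WY4193 FHom556 Fred685 Tor812 Ret666 BndZ323 MulZ323

noncomputable section

variable {M : Type} [TopologicalSpace M] {A : Atl 2 M} {P : Part A} {Q : PNb P}
variable {g : A.ι → A.ι → M → ℂ}

/-- raw `(0,1)`-forms in the weighted space -/
def C1 (w : WY681.Wt Q) (hg : IsLC A g) (b : A.ι → M → Fin 2 → ℂ) : Prop := InW w hg (mk3 0 b 0)

/-- their norm of level `s` -/
def N1 {hg : IsLC A g} (h : BGeo P (BL hg)) (w : WY681.Wt Q) (s : ℕ)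
    (b : A.ι → M → Fin 2 → ℂ) : ℝ := nW h w s (mk3 0 b 0)

/-- functions in the weighted space -/
def C0 (w : WY681.Wt Q) (f : M → ℂ) : Prop := InW w IsLC.one (mk3 (fn A f) 0 0)

/-- their norm of level `s` -/
def N0 (h : BGeo P (BL (IsLC.one (A := A)))) (w : WY681.Wt Q) (s : ℕ) (f : M → ℂ) : ℝ :=
  nW h w s (mk3 (fn A f) 0 0)

theorem mk3_mem1 (hg : IsLC A g) {b : A.ι → M → Fin 2 → ℂ} (hb : IsZ1 A g univ b) :
    mk3 0 b 0 ∈ SecL (LV hg) := by
  refine (mem_iff hg _).2 ?_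
  rw [p0_mk3, p1_mk3, p2_mk3]
  exact ⟨IsZ0.zero, hb, IsZ2.zero⟩


theorem C1.z1 {w : WY681.Wt Q} {hg : IsLC A g} {b : A.ι → M → Fin 2 → ℂ} (h : C1 w hg b) :
    IsZ1 A g univ b := isZ1_of_mem h.mem

theorem C0.sm {w : WY681.Wt Q} {f : M → ℂ} (h : C0 (A := A) w f) : SmOn A univ f := by
  intro i x hx _
  exact (smP_fn hx).1 ((isZ0_of_mem h.mem).sm i x hx trivial)

theorem mk3_one_add (b b' : A.ι → M → Fin 2 → ℂ) :
    (mk3 0 (b + b') 0 : A.ι → M → (Fin 4 × Unit) → ℂ) = mk3 0 b 0 + mk3 0 b' 0 := by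
  funext i x ⟨k, r⟩
  fin_cases k <;> simp [mk3]

theorem mk3_one_sub (b b' : A.ι → M → Fin 2 → ℂ) :
    (mk3 0 (b - b') 0 : A.ι → M → (Fin 4 × Unit) → ℂ) = mk3 0 b 0 - mk3 0 b' 0 := by
  funext i x ⟨k, r⟩
  fin_cases k <;> simp [mk3]

theorem add1 {hg : IsLC A g} (h : BGeo P (BL hg)) (w : WY681.Wt Q) (s : ℕ)
    {b b' : A.ι → M → Fin 2 → ℂ} (hb : C1 w hg b) (hb' : C1 w hg b') :
    C1 w hg (b + b') ∧ N1 h w s (b + b') ≤ N1 h w s b + N1 h w s b' := by
  unfold C1 N1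
  rw [mk3_one_add]
  exact ⟨hb.add hb', nW_add_le h hb hb'⟩

theorem sub1 {hg : IsLC A g} (h : BGeo P (BL hg)) (w : WY681.Wt Q) (s : ℕ)
    {b b' : A.ι → M → Fin 2 → ℂ} (hb : C1 w hg b) (hb' : C1 w hg b') :
    C1 w hg (b - b') ∧ N1 h w s (b - b') ≤ N1 h w s b + N1 h w s b' := by
  unfold C1 N1
  rw [mk3_one_sub]
  exact ⟨hb.sub hb', nW_sub_le h hb hb'⟩

/-! ### multiplications with compact support -/

theorem eqOv_one_mul (g : A.ι → A.ι → M → ℂ) : EqOv A (1 * g) g := fun i j x _ => by simp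

/-- multiplication by a function with compact support -/
theorem mul11 [T2Space M] {hg : IsLC A g} (h : BGeo P (BL hg)) (w : WY681.Wt Q) (s : ℕ)
    {φ : M → ℂ} (hφ : SmOn A univ φ) (hc : HasCompactSupport φ) :
    ∃ C : ℝ, 0 ≤ C ∧ ∀ b, C1 w hg b → C1 w hg (fun i x e => φ x * b i x e) ∧
      N1 h w s (fun i x e => φ x * b i x e) ≤ C * N1 h w s b := by
  have hτ : IsZ0 A 1 univ (fn A φ) := isZ0_fn hφ
  obtain ⟨S, hS⟩ := exists_mb_finite P (hg := hg) (hg' := hg) hτ (eqOv_one_mul g) hc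
    (fun i x hx => by
      filter_upwards [notMem_tsupport_iff_eventuallyEq.1 hx] with y hy
      by_cases hy' : y ∈ (A.e i).source
      · rw [fn_of_mem hy']; exact hy
      · exact fn_of_not_mem hy')
  have lm := le_actL Q _ (deg_le_two hg)
    (fun i => Set.indicator_nonneg (fun _ _ => zero_le_one) i) hS
  obtain ⟨C, hC, h1⟩ := op0_raw h h lm (dom_of_finite S w w) s
  refine ⟨C, hC, fun b hb => ?_⟩
  have e : (mulH hg hg hτ (eqOv_one_mul g)).act (mk3 0 b 0) =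
      mk3 0 (fun i x e => φ x * b i x e) 0 := by
    rw [mulH_mk3]
    congr 1
    · funext i x; simp [Fm96.sm]
    · funext i x e
      by_cases hx : x ∈ (A.e i).source
      · simp [sm1, fn_of_mem hx]
      · simp [sm1, (C1.z1 hb).off i x hx]
    · funext i x; simp [Fm96.sm]
  have h2 := h1 _ hb
  have e2 : ((mulH hg hg hτ (eqOv_one_mul g)).actL ⟨mk3 0 b 0, InW.mem hb⟩).1 =
      mk3 0 (fun i x e => φ x * b i x e) 0 := e
  rw [e2] at h2
  exact h2


/-- the matrix of the multiplication of functions by a `(0,1)`-form -/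
def mF (m : A.ι → M → Fin 2 → ℂ) (i : A.ι) (x : M) : Matrix (Fin 4 × Unit) (Fin 4 × Unit) ℂ :=
  Matrix.of fun p q => if q.1 = 0 then ![0, m i x 0, m i x 1, 0] p.1 else 0

theorem mF_mulVec (m : A.ι → M → Fin 2 → ℂ) (i : A.ι) (x : M) (v : Fin 4 × Unit → ℂ)
    (p : Fin 4 × Unit) : (mF m i x *ᵥ v) p = ![0, m i x 0, m i x 1, 0] p.1 * v (0, ()) := by
  show ∑ q : Fin 4 × Unit, (if q.1 = 0 then ![0, m i x 0, m i x 1, 0] p.1 else 0) * v q = _
  rw [sum_four_prod]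
  simp

/-- multiplication of the degree zero part by a `(0,1)`-form -/
def mulM (hg : IsLC A g) {m : A.ι → M → Fin 2 → ℂ} (hm : IsZ1 A 1 univ m) :
    Sec (BL hg) →ₗ[ℂ] Sec (BL hg) where
  toFun u := ⟨mk3 0 (sm1 (p0 u.1) m) 0, mk3_mem1 hg (by
    have h := (((mem_iff hg u.1).1 u.2).1).sm1' hm
    rwa [mul_one] at h)⟩
  map_add' u v := by
    apply Subtype.ext
    show mk3 0 (sm1 (p0 (u.1 + v.1)) m) 0 = mk3 0 (sm1 (p0 u.1) m) 0 + mk3 0 (sm1 (p0 v.1) m) 0
    rw [← mk3_one_add]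
    congr 1
    funext i x e
    exact add_mul (p0 u.1 i x) (p0 v.1 i x) (m i x e)
  map_smul' c u := by
    apply Subtype.ext
    show mk3 0 (sm1 (p0 (c • u.1)) m) 0 = c • mk3 0 (sm1 (p0 u.1) m) 0
    funext i x ⟨k, r⟩
    fin_cases k <;> simp [mk3, sm1, p0, mul_assoc]

theorem mulM_act (hg : IsLC A g) {m : A.ι → M → Fin 2 → ℂ} (hm : IsZ1 A 1 univ m)
    (u : Sec (BL hg)) (i : A.ι) (x : M) : (mulM hg hm u).1 i x = mF m i x *ᵥ u.1 i x := by
  have key : ∀ k : Fin 4, ∀ r : Unit, mk3 0 (sm1 (p0 u.1) m) 0 i x (k, r) =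
      (mF m i x *ᵥ u.1 i x) (k, r) := by
    intro k r
    have h := mF_mulVec m i x (u.1 i x) (k, r)
    rw [h]
    fin_cases k
    · simp [mk3]
    · simp only [mk3, sm1, p0]
      exact mul_comm _ _
    · simp only [mk3, sm1, p0]
      exact mul_comm _ _
    · simp [mk3]
  exact funext fun p => key p.1 p.2

theorem mul01 [T2Space M] {hg : IsLC A g} (h : BGeo P (BL hg)) (w : WY681.Wt Q) (s : ℕ)
    {m : A.ι → M → Fin 2 → ℂ} (hm : IsZ1 A 1 univ m) (hc : It160.CSupp m) :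
    ∃ C : ℝ, 0 ≤ C ∧ ∀ f, InW w hg (mk3 f 0 0) → C1 w hg (sm1 f m) ∧
      N1 h w s (sm1 f m) ≤ C * nW h w s (mk3 f 0 0) := by
  obtain ⟨K, hK, hK0⟩ := hc
  have hF : ∀ i k l, A.SmAt i (fun x => mF m i x k l) := by
    intro i k l
    have h1 : ∀ e, A.SmAt i (fun x => m i x e) := fun e =>
      smAt_iff.2 fun x hx => hm.sm i e x hx trivial
    by_cases hl : l.1 = 0
    · have e1 : ∀ k : Fin 4 × Unit, (fun x => mF m i x k l) =
          fun x => ![0, m i x 0, m i x 1, 0] k.1 := by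
        intro k
        funext x
        show (if l.1 = 0 then _ else _) = _
        rw [if_pos hl]
      rw [e1]
      have key : ∀ k : Fin 4, A.SmAt i (fun x => ![0, m i x 0, m i x 1, 0] k) := by
        intro k
        fin_cases k
        · exact C1c193.smAt_const 0
        · exact h1 0
        · exact h1 1
        · exact C1c193.smAt_const 0
      exact key k.1
    · have e1 : (fun x => mF m i x k l) = fun _ => 0 := by
        funext x
        show (if l.1 = 0 then _ else _) = _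
        rw [if_neg hl]
      rw [e1]
      exact C1c193.smAt_const 0
  have lm : LE Q 0 (Set.indicator (chs P hK : Set A.ι) 1) (mulM hg hm) := by
    refine le_of_cpt Q (F := mF m) hF hK (fun i x hx => ?_) ?_ (mulM_act hg hm)
    · funext p q
      have h0 := hK0 i x hx
      show (if q.1 = 0 then ![0, m i x 0, m i x 1, 0] p.1 else 0) = 0
      rw [h0]
      split_ifs
      · obtain ⟨k, r⟩ := p
        fin_cases k <;> rfl
      · rfl
    · have key : ∀ (a b : Fin 4) (i : A.ι) (x : M),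
          (if b = 0 then (![0, m i x 0, m i x 1, 0] : Fin 4 → ℂ) a else 0) ≠ 0 →
          2 - dg a + 0 ≤ 2 - dg b := by
        intro a b i x h1
        by_cases hb : b = 0
        · subst hb
          have : dg (0 : Fin 4) = 0 := rfl
          rw [this]
          omega
        · rw [if_neg hb] at h1
          exact absurd rfl h1
      exact fun i x k l hkl => key k.1 l.1 i x hkl
  obtain ⟨C, hC, h1⟩ := op0_raw h h lm (dom_indicator w _) s
  refine ⟨C, hC, fun f hf => ?_⟩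
  have e : (mulM hg hm ⟨mk3 f 0 0, InW.mem hf⟩).1 = mk3 0 (sm1 f m) 0 := rfl
  have h2 := h1 _ hf
  rw [e] at h2
  exact h2

/-! ### pieces and sup bounds -/

theorem piece_le {hg : IsLC A g} (h : BGeo P (BL hg)) (w : WY681.Wt Q) {s : ℕ} (hs : 3 ≤ s) :
    ∃ C : ℝ, 0 ≤ C ∧ ∀ u, InW w hg u → ∀ (i : A.ι) (k : Fin 4 × Unit) (x : M) (c : ℝ), 0 < c →
      c ≤ w.w i → ‖(P.ψ i x : ℂ) * u i x k‖ ≤ C / c * nW h w s u := by
  obtain ⟨C, hC, h1⟩ := sup_piece (P := P) (B := BL hg) (N := 3) (by simp)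
  refine ⟨C, hC, fun u hu i k x c hc hcw => ?_⟩
  have h2 := h1 ⟨u, hu.mem⟩ i k x
  refine h2.trans ?_
  rw [div_mul_eq_mul_div, le_div_iff₀ hc, mul_assoc]
  refine mul_le_mul_of_nonneg_left ?_ hC
  rw [nW_eq h hu]
  refine le_trans ?_ (coord_sc h hu.el s i k)
  rw [mul_comm]
  exact mul_le_mul hcw (nrm_mono (by omega) _) (nrm_nonneg _ _) (w.pos i).le

/-- the charts near a point -/
theorem card_pt (Q : PNb P) (q : M) : ((chs P (isCompact_singleton (x := q))).card : ℝ) ≤ Q.D := by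
  classical
  by_cases hne : (chs P (isCompact_singleton (x := q))).Nonempty
  · obtain ⟨i, hi⟩ := hne
    have hq : ∀ j ∈ chs P (isCompact_singleton (x := q)), q ∈ tsupport (P.χ j) := by
      intro j hj
      obtain ⟨y, hy, hyq⟩ := mem_chs.1 hj
      rw [Set.mem_singleton_iff] at hyq
      exact hyq ▸ hy
    have h1 : (chs P (isCompact_singleton (x := q))) ⊆ Q.N i := fun j hj =>
      Q.mem i j ⟨q, hq i hi, hq j hj⟩
    exact_mod_cast (Finset.card_le_card h1).trans (Q.card_le i)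
  · rw [Finset.not_nonempty_iff_eq_empty.1 hne, Finset.card_empty, Nat.cast_zero]
    exact Nat.cast_nonneg _

/-- **pointwise bound of functions** -/
theorem sup_wt (h : BGeo P (BL (IsLC.one (A := A)))) (w : WY681.Wt Q) {s : ℕ} (hs : 3 ≤ s) :
    ∃ C : ℝ, 0 ≤ C ∧ ∀ f, C0 w f → ∀ q, ∀ c : ℝ, 0 < c →
      (∀ i, q ∈ tsupport (P.χ i) → c ≤ w.w i) → ‖f q‖ ≤ C / c * N0 h w s f := by
  obtain ⟨C, hC, h1⟩ := piece_le h w hs
  refine ⟨Q.D * C, by positivity, fun f hf q c hc hw => ?_⟩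
  have hS := sum_chs (P := P) (isCompact_singleton (x := q)) (Set.mem_singleton q)
  have e1 : f q = ∑ i ∈ chs P (isCompact_singleton (x := q)), (P.ψ i q : ℂ) * f q := by
    rw [← Finset.sum_mul, hS, one_mul]
  have hn : 0 ≤ nW h w s (mk3 (fn A f) 0 0) := nW_nonneg _ _ _ _
  have h2 : ∀ i ∈ chs P (isCompact_singleton (x := q)), ‖(P.ψ i q : ℂ) * f q‖ ≤
      C / c * nW h w s (mk3 (fn A f) 0 0) := by
    intro i hi
    obtain ⟨y, hy, hyq⟩ := mem_chs.1 hi
    rw [Set.mem_singleton_iff] at hyq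
    subst hyq
    have h3 := h1 _ hf i (0, ()) y c hc (hw i hy)
    have e2 : mk3 (fn A f) 0 0 i y ((0 : Fin 4), ()) = f y := fn_of_mem (P.χ_sub i hy)
    rw [e2] at h3
    exact h3
  calc ‖f q‖ = ‖∑ i ∈ chs P (isCompact_singleton (x := q)), (P.ψ i q : ℂ) * f q‖ := by rw [← e1]
    _ ≤ ∑ i ∈ chs P (isCompact_singleton (x := q)), ‖(P.ψ i q : ℂ) * f q‖ := norm_sum_le _ _
    _ ≤ ∑ _i ∈ chs P (isCompact_singleton (x := q)), C / c * nW h w s (mk3 (fn A f) 0 0) :=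
        Finset.sum_le_sum h2
    _ = (chs P (isCompact_singleton (x := q))).card * (C / c * nW h w s (mk3 (fn A f) 0 0)) := by
        rw [Finset.sum_const, nsmul_eq_mul]
    _ ≤ Q.D * (C / c * nW h w s (mk3 (fn A f) 0 0)) :=
        mul_le_mul_of_nonneg_right (card_pt Q q) (mul_nonneg (div_nonneg hC hc.le) hn)
    _ = Q.D * C / c * N0 h w s f := by unfold N0; ring

/-- the weights are bounded below near a compact set -/
theorem exists_lower (w : WY681.Wt Q) {K : Set M} (hK : IsCompact K) :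
    ∃ c : ℝ, 0 < c ∧ ∀ q ∈ K, ∀ i, q ∈ tsupport (P.χ i) → c ≤ w.w i := by
  classical
  by_cases hne : (chs P hK).Nonempty
  · refine ⟨(chs P hK).inf' hne w.w, ?_, fun q hq i hi =>
      Finset.inf'_le _ (mem_chs.2 ⟨q, hi, hq⟩)⟩
    rw [Finset.lt_inf'_iff]
    exact fun i _ => w.pos i
  · refine ⟨1, zero_lt_one, fun q hq i hi => ?_⟩
    exact absurd ⟨i, mem_chs.2 ⟨q, hi, hq⟩⟩ hne

theorem sup0 (h : BGeo P (BL (IsLC.one (A := A)))) (w : WY681.Wt Q) {s : ℕ} (hs : 3 ≤ s)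
    {K : Set M} (hK : IsCompact K) : ∃ C : ℝ, 0 ≤ C ∧ ∀ f, C0 w f → ∀ q ∈ K,
      ‖f q‖ ≤ C * N0 h w s f := by
  obtain ⟨C, hC, h1⟩ := sup_wt h w hs
  obtain ⟨c, hc, h2⟩ := exists_lower w hK
  exact ⟨C / c, div_nonneg hC hc.le, fun f hf q hq => h1 f hf q c hc (h2 q hq)⟩


/-- **sup bound of the components of forms on compact subsets of a chart** -/
theorem sup1 {hg : IsLC A g} (h : BGeo P (BL hg)) (w : WY681.Wt Q) {s : ℕ} (hs : 3 ≤ s)
    {K : Set M} (hK : IsCompact K) {i : A.ι} (hKi : K ⊆ (A.e i).source) :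
    ∃ C : ℝ, 0 ≤ C ∧ ∀ b, C1 w hg b → ∀ q ∈ K, ∀ e, ‖b i q e‖ ≤ C * N1 h w s b := by
  classical
  obtain ⟨C, hC, h1⟩ := piece_le h w hs
  obtain ⟨c₀, hc₀, hw⟩ := exists_lower w hK
  have hD : ∀ (j : A.ι) (e a : Fin 2), ∃ D : ℝ, 0 ≤ D ∧ ∀ q ∈ K ∩ tsupport (P.χ j),
      ‖g i j q * conj (A.J i j q a e)‖ ≤ D := by
    intro j e a
    have hc : ContinuousOn (fun q => g i j q * conj (A.J i j q a e)) (K ∩ tsupport (P.χ j)) := by
      intro q hq
      have hx : q ∈ (A.e i).source ∩ (A.e j).source := ⟨hKi hq.1, P.χ_sub j hq.2⟩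
      have h2 : ContinuousAt (g i j) q := (hg.hol i j q hx).smP.continuousAt hx.1
      have h3 : ContinuousAt (fun y => A.J i j y a e) q := (J_holP hx a e).smP.continuousAt hx.1
      exact (h2.mul (Complex.continuous_conj.continuousAt.comp h3)).continuousWithinAt
    obtain ⟨D, hD⟩ := (hK.inter_right (isClosed_tsupport _)).exists_bound_of_continuousOn hc
    exact ⟨max D 0, le_max_right _ _, fun q hq => (hD q hq).trans (le_max_left _ _)⟩
  choose D hD0 hD using hD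
  refine ⟨∑ j ∈ chs P hK, ∑ e, ∑ a, D j e a * (C / c₀), Finset.sum_nonneg fun j _ =>
    Finset.sum_nonneg fun e _ => Finset.sum_nonneg fun a _ =>
      mul_nonneg (hD0 j e a) (div_nonneg hC hc₀.le), fun b hb q hq e => ?_⟩
  have hn : 0 ≤ N1 h w s b := nW_nonneg _ _ _ _
  have hS := sum_chs (P := P) hK hq
  have e1 : b i q e = ∑ j ∈ chs P hK, (P.ψ j q : ℂ) * b i q e := by
    rw [← Finset.sum_mul, hS, one_mul]
  have h2 : ∀ j ∈ chs P hK, ‖(P.ψ j q : ℂ) * b i q e‖ ≤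
      (∑ e, ∑ a, D j e a * (C / c₀)) * N1 h w s b := by
    intro j _
    have hle : ∑ a, D j e a * (C / c₀) ≤ ∑ e, ∑ a, D j e a * (C / c₀) :=
      Finset.single_le_sum (f := fun e => ∑ a, D j e a * (C / c₀)) (fun e _ =>
        Finset.sum_nonneg fun a _ => mul_nonneg (hD0 j e a) (div_nonneg hC hc₀.le))
        (Finset.mem_univ e)
    refine le_trans ?_ (mul_le_mul_of_nonneg_right hle hn)
    by_cases hj : q ∈ tsupport (P.χ j)
    · have hx : q ∈ (A.e i).source ∩ (A.e j).source := ⟨hKi hq, P.χ_sub j hj⟩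
      have h3 : (P.ψ j q : ℂ) * b i q e =
          ∑ a, g i j q * conj (A.J i j q a e) * ((P.ψ j q : ℂ) * b j q a) := by
        rw [hb.z1.tr i j q hx trivial e, Finset.mul_sum, Finset.mul_sum]
        exact Finset.sum_congr rfl fun a _ => by ring
      rw [h3]
      refine (norm_sum_le _ _).trans ?_
      rw [Finset.sum_mul]
      refine Finset.sum_le_sum fun a _ => ?_
      rw [norm_mul, mul_assoc (D j e a)]
      refine mul_le_mul (hD j e a q ⟨hq, hj⟩) ?_ (norm_nonneg _) (hD0 j e a)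
      have h4 := h1 _ hb j (ix1 a, ()) q c₀ hc₀ (hw q hq j hj)
      have e2 : mk3 0 b 0 j q (ix1 a, ()) = b j q a := by
        have := congrFun (congrFun (congrFun (p1_mk3 (A := A) 0 b 0) j) q) a
        exact this
      rw [e2] at h4
      exact h4
    · rw [psi_off hj, ofReal_zero, zero_mul, norm_zero]
      exact mul_nonneg (Finset.sum_nonneg fun a _ =>
        mul_nonneg (hD0 j e a) (div_nonneg hC hc₀.le)) hn
  calc ‖b i q e‖ = ‖∑ j ∈ chs P hK, (P.ψ j q : ℂ) * b i q e‖ := by rw [← e1]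
    _ ≤ ∑ j ∈ chs P hK, ‖(P.ψ j q : ℂ) * b i q e‖ := norm_sum_le _ _
    _ ≤ ∑ j ∈ chs P hK, (∑ e, ∑ a, D j e a * (C / c₀)) * N1 h w s b := Finset.sum_le_sum h2
    _ = _ := by rw [← Finset.sum_mul]

/-! ### comparison with finite sums -/

theorem locJ_mk3 {hg : IsLC A g} {b : A.ι → M → Fin 2 → ℂ} (hb : mk3 0 b 0 ∈ SecL (LV hg))
    (j : A.ι) (a : Fin 2) :
    locJ P (BL hg) ⟨mk3 0 b 0, hb⟩ (j, (ix1 a, ())) =
      TorT2539.lp A j (fun x => (P.ψ j x : ℂ) * b j x a) := by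
  have h := locJ_eq (P := P) (B := BL hg) ⟨mk3 0 b 0, hb⟩ j (ix1 a, ())
  refine h.trans ?_
  congr 1
  funext x
  fin_cases a <;> rfl

theorem locJ_mk3_zero {hg : IsLC A g} {b : A.ι → M → Fin 2 → ℂ} (hb : mk3 0 b 0 ∈ SecL (LV hg))
    (j : A.ι) {k : Fin 4} (hk : k = 0 ∨ k = 3) (r : Unit) :
    locJ P (BL hg) ⟨mk3 0 b 0, hb⟩ (j, (k, r)) = 0 := by
  have h := locJ_eq (P := P) (B := BL hg) ⟨mk3 0 b 0, hb⟩ j (k, r)
  refine h.trans ?_
  have e : (fun x => (P.ψ j x : ℂ) * mk3 0 b 0 j x (k, r)) = fun _ => (0 : ℂ) := by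
    funext x
    rcases hk with rfl | rfl <;> exact mul_zero _
  exact (congrArg (TorT2539.lp A j) e).trans (lp_zero j)

/-- **(a)** the pieces are bounded by the norm -/
theorem N1_piece {hg : IsLC A g} (h : BGeo P (BL hg)) (w : WY681.Wt Q) (s : ℕ)
    {b : A.ι → M → Fin 2 → ℂ} (hb : C1 w hg b) (j : A.ι) (a : Fin 2) :
    nrm (s + 1) (TorT2539.lp A j (fun x => (P.ψ j x : ℂ) * b j x a)) ≤
      (w.w j)⁻¹ * N1 h w s b := by
  have h1 := coord_sc h (InW.el hb) s j (ix1 a, ())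
  rw [inv_mul_eq_div, le_div_iff₀ (w.pos j), mul_comm]
  have e1 : locJ P (BL hg) (InW.el hb).1 (j, (ix1 a, ())) =
      TorT2539.lp A j (fun x => (P.ψ j x : ℂ) * b j x a) := locJ_mk3 hb.mem j a
  have e2 : sh (BL hg) (ix1 a, ()) = 1 := by fin_cases a <;> rfl
  unfold N1
  rw [nW_eq h hb]
  rw [e1, e2] at h1
  exact h1

/-- **(b)** forms with finitely many pieces -/
theorem C1_of_fin {hg : IsLC A g} (w : WY681.Wt Q) {b : A.ι → M → Fin 2 → ℂ}
    (hb : IsZ1 A g univ b) {J : Finset A.ι}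
    (h0 : ∀ j ∉ J, ∀ x a, (P.ψ j x : ℂ) * b j x a = 0) : C1 w hg b := by
  refine ⟨mk3_mem1 hg hb, mem_WSm_of_fin w (J := J) fun j hj k => ?_⟩
  obtain ⟨k, r⟩ := k
  have h1 : ∀ a, locJ P (BL hg) ⟨mk3 0 b 0, mk3_mem1 hg hb⟩ (j, (ix1 a, ())) = 0 := by
    intro a
    rw [locJ_mk3]
    have e : (fun x => (P.ψ j x : ℂ) * b j x a) = fun _ => (0 : ℂ) := funext fun x => h0 j hj x a
    rw [e, lp_zero]
  have key : ∀ k : Fin 4, locJ P (BL hg) ⟨mk3 0 b 0, mk3_mem1 hg hb⟩ (j, (k, ())) = 0 := by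
    intro k
    fin_cases k
    · exact locJ_mk3_zero _ j (Or.inl rfl) ()
    · exact h1 0
    · exact h1 1
    · exact locJ_mk3_zero _ j (Or.inr rfl) ()
  exact key k

theorem N1_le_of_fin {hg : IsLC A g} (h : BGeo P (BL hg)) (w : WY681.Wt Q) (s : ℕ)
    (J : Finset A.ι) : ∃ C : ℝ, 0 ≤ C ∧ ∀ b : A.ι → M → Fin 2 → ℂ, IsZ1 A g univ b →
      (∀ j ∉ J, ∀ x a, (P.ψ j x : ℂ) * b j x a = 0) →
      N1 h w s b ≤ C * ∑ j ∈ J, ∑ a,
        nrm (s + 1) (TorT2539.lp A j (fun x => (P.ψ j x : ℂ) * b j x a)) := by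
  classical
  refine ⟨∑ j ∈ J, w.w j, Finset.sum_nonneg fun j _ => (w.pos j).le, fun b hb h0 => ?_⟩
  have hC := C1_of_fin w (hg := hg) hb h0
  have h1 : ∀ j a, locJ P (BL hg) (InW.el hC).1 (j, (ix1 a, ())) =
      TorT2539.lp A j (fun x => (P.ψ j x : ℂ) * b j x a) := fun j a => locJ_mk3 hC.mem j a
  have h3 : ∀ j, ∀ k : Fin 4, k = 0 ∨ k = 3 →
      locJ P (BL hg) (InW.el hC).1 (j, (k, ())) = 0 := fun j k hk => locJ_mk3_zero hC.mem j hk ()
  have h2 : ∀ j ∉ J, ∀ k, locJ P (BL hg) (InW.el hC).1 (j, k) = 0 := by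
    intro j hj k
    have key : ∀ k : Fin 4, locJ P (BL hg) (InW.el hC).1 (j, (k, ())) = 0 := by
      have h4 : ∀ a, locJ P (BL hg) (InW.el hC).1 (j, (ix1 a, ())) = 0 := by
        intro a
        rw [h1]
        have e : (fun x => (P.ψ j x : ℂ) * b j x a) = fun _ => (0 : ℂ) :=
          funext fun x => h0 j hj x a
        rw [e, lp_zero]
      intro k
      fin_cases k
      · exact h3 j 0 (Or.inl rfl)
      · exact h4 0
      · exact h4 1
      · exact h3 j 3 (Or.inr rfl)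
    exact key k.1
  unfold N1
  rw [nW_eq h hC]
  refine (nT_le_of_fin h h2 s).trans ?_
  rw [Finset.sum_mul]
  refine Finset.sum_le_sum fun j hj => ?_
  have e4 : ∑ k : (BL hg).κ, w.w j * nrm (s + sh (BL hg) k)
      (locJ P (BL hg) (InW.el hC).1 (j, k)) =
      ∑ a, w.w j * nrm (s + 1) (TorT2539.lp A j (fun x => (P.ψ j x : ℂ) * b j x a)) := by
    have h5 : ∑ k : Fin 4 × Unit, w.w j * nrm (s + sh (BL hg) k)
        (locJ P (BL hg) (InW.el hC).1 (j, k)) = _ := Fintype.sum_prod_type _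
    refine h5.trans ?_
    rw [Fin.sum_univ_four, Fin.sum_univ_two]
    simp only [Finset.univ_unique, Finset.sum_singleton]
    have e0 := h3 j 0 (Or.inl rfl)
    have e3 := h3 j 3 (Or.inr rfl)
    have a0 := h1 j 0
    have a1 := h1 j 1
    have z0 : w.w j * nrm (s + sh (BL hg) ((0 : Fin 4), ()))
        (locJ P (BL hg) (InW.el hC).1 (j, ((0 : Fin 4), ()))) = 0 := by
      rw [e0, nrm_zero_fun, mul_zero]
    have z3 : w.w j * nrm (s + sh (BL hg) ((3 : Fin 4), ()))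
        (locJ P (BL hg) (InW.el hC).1 (j, ((3 : Fin 4), ()))) = 0 := by
      rw [e3, nrm_zero_fun, mul_zero]
    have z1 : w.w j * nrm (s + sh (BL hg) ((1 : Fin 4), ()))
        (locJ P (BL hg) (InW.el hC).1 (j, ((1 : Fin 4), ()))) =
        w.w j * nrm (s + 1) (TorT2539.lp A j (fun x => (P.ψ j x : ℂ) * b j x 0)) := by
      rw [← a0]; rfl
    have z2 : w.w j * nrm (s + sh (BL hg) ((2 : Fin 4), ()))
        (locJ P (BL hg) (InW.el hC).1 (j, ((2 : Fin 4), ()))) =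
        w.w j * nrm (s + 1) (TorT2539.lp A j (fun x => (P.ψ j x : ℂ) * b j x 1)) := by
      rw [← a1]; rfl
    refine (congrArg₂ (· + ·) (congrArg₂ (· + ·) (congrArg₂ (· + ·) z0 z1) z2) z3).trans ?_
    ring
  refine e4.le.trans ?_
  rw [← Finset.mul_sum]
  refine mul_le_mul_of_nonneg_left ?_ (w.pos j).le
  exact Finset.single_le_sum (f := fun j => ∑ a,
    nrm (s + 1) (TorT2539.lp A j (fun x => (P.ψ j x : ℂ) * b j x a)))
    (fun j _ => Finset.sum_nonneg fun a _ => nrm_nonneg _ _) hj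

/-- **compactly supported forms** -/
theorem C1_of_cpt {hg : IsLC A g} (w : WY681.Wt Q) {b : A.ι → M → Fin 2 → ℂ}
    (hb : IsZ1 A g univ b) (hc : It160.CSupp b) : C1 w hg b := by
  obtain ⟨K, hK, hK0⟩ := hc
  refine C1_of_fin w hb (J := chs P hK) fun j hj x a => ?_
  by_cases hx : x ∈ tsupport (P.χ j)
  · have : x ∉ K := fun hxK => hj (mem_chs.2 ⟨x, hx, hxK⟩)
    rw [hK0 j x this, Pi.zero_apply, mul_zero]
  · rw [psi_off hx, ofReal_zero, zero_mul]

end

end Crest.Agent.R275.Norm195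
end

-- ▼ part R275/BndY_323
section

/-!
# R275: adaptors for the bounded division step (helper323)

* `ex1_raw`, `ex2_raw` : the hypotheses `ex1`, `ex2` of `BndZ323.bndZ` from exactness of helper89's
  weighted complex `WCxY D c`, where `F.V a b = WSm (BL hg) w` (681's `wf`: `rfl`).
* `mb_of_WB`, `mb_of_BD` : local size of the multiplication by `σ` from helper96's pointwise bounds
  on the cores.
* `bd_of_lims` : a section in `V_L` with limits at both ends is bounded.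
* `bndZ_lb` : the bounded division step for line bundles: `H¹_{a,b}(O) = 0`,
  `H²_{a,b}(L_Z⁻¹) = 0`, `s_Z` a holomorphic section of `L_Z`, bounded on the cores.
-/

set_option autoImplicit false
set_option linter.unusedSectionVars false
set_option linter.unusedVariables false

open Set Filter Topology Complex
open scoped ContDiff Matrix ComplexConjugate

namespace Crest.Agent.R275.BndZ323

open Geo Fm96 Q74 Lam2130 FHom556 MulZ323 WY681 Fred685 Bnd323 Core144 LauB681 WCxY89 GG89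

noncomputable section

variable {M : Type} [TopologicalSpace M] {A : Atl 2 M} {P : Part A} {Q : PNb P}
variable {g g' gs : A.ι → A.ι → M → ℂ} {σ : A.ι → M → ℂ}

/-! ### exactness -/

section ex

variable {hg : IsLC A g} {F : WF ℂ (SecL (LV hg))} {C : Cx F}

/-- raw exactness in degree one -/
theorem ex1_raw (D : DolF hg C) (c : Cut C) {a b : ℝ} {w : Wt Q}
    (hV : F.V a b = WSm (BL hg) w) (e : (WCxY D c).Ex₁ a b) :
    ∀ z, IsZ1 A g univ z → InW w hg (mk3 0 z 0) → (∀ i x, d1 A z i x = 0) →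
      ∃ u, IsZ0 A g univ u ∧ InW w hg (mk3 u 0 0) ∧ ∀ i x, d0 A u i x = z i x := by
  intro z hz hw hd
  have h1 : (⟨z, hz⟩ : ZZ1 A g) ∈ (WCxY D c).W₁ a b := by
    rw [mem_W₁, hV]
    exact hw.choose_spec
  obtain ⟨v, hv, hv'⟩ := e _ h1 (by
    rw [WCxY_d₁]
    refine Subtype.ext ?_
    funext i x
    exact hd i x)
  rw [WCxY_d₀] at hv'
  rw [mem_W₀, hV] at hv
  exact ⟨v, v.2, ⟨((eqv hg).symm (v, 0, 0)).2, hv⟩, fun i x =>
    congrFun (congrFun (congrArg Subtype.val hv') i) x⟩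

/-- raw exactness in degree two -/
theorem ex2_raw (D : DolF hg C) (c : Cut C) {a b : ℝ} {w : Wt Q}
    (hV : F.V a b = WSm (BL hg) w) (e : (WCxY D c).Ex₂ a b) :
    ∀ z, IsZ2 A g univ z → InW w hg (mk3 0 0 z) →
      ∃ u, IsZ1 A g univ u ∧ InW w hg (mk3 0 u 0) ∧ ∀ i x, d1 A u i x = z i x := by
  intro z hz hw
  have h1 : (⟨z, hz⟩ : ZZ2 A g) ∈ (WCxY D c).W₂ a b := by
    rw [mem_W₂, hV]
    exact hw.choose_spec
  obtain ⟨v, hv, hv'⟩ := e _ h1
  rw [WCxY_d₁] at hv'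
  rw [mem_W₁, hV] at hv
  exact ⟨v, v.2, ⟨((eqv hg).symm (0, v, 0)).2, hv⟩, fun i x =>
    congrFun (congrFun (congrArg Subtype.val hv') i) x⟩

end ex

/-! ### bounds of the multiplier -/

/-- local size one of the multiplication by a section which is bounded with all derivatives on the
cores -/
theorem mb_of_WB {κ : Type} [DecidableEq κ] {K : A.ι → Set M} {W : M → ℝ} {c : A.ι → ℝ}
    (hK : ∀ i, tsupport (P.ψ i) ⊆ K i) (hs : ∀ i, A.SmAt i (σ i)) (hb : WB A K W σ)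
    {L : ℝ} (hL : 0 ≤ L) (hc : ∀ i, 0 ≤ c i) (hW : ∀ i, ∀ x ∈ tsupport (P.ψ i), W x ≤ L * c i) :
    WY4193.MB P (fun i x => σ i x • (1 : Matrix κ κ ℂ)) c := by
  refine mb_smul_one hc hs fun s => ?_
  obtain ⟨C, hC, h⟩ := hb.bound s
  refine ⟨C * L, mul_nonneg hC hL, fun i x hx => (h i x (hK i hx)).trans ?_⟩
  rw [mul_assoc]
  exact mul_le_mul_of_nonneg_left (hW i x hx) hC

theorem mb_of_BD {κ : Type} [DecidableEq κ] {K : A.ι → Set M} {h : M → ℝ}
    (hK : ∀ i, tsupport (P.ψ i) ⊆ K i) (hs : ∀ i, A.SmAt i (σ i)) (hb : BD A K h 0 0 σ) :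
    WY4193.MB P (fun i x => σ i x • (1 : Matrix κ κ ℂ)) (fun _ => 1) :=
  mb_of_WB hK hs hb zero_le_one (fun _ => zero_le_one) fun i x _ => by
    rw [wgt_zero, one_mul]

theorem smAt_of_isZ0 (hs : IsZ0 A gs univ σ) (i : A.ι) : A.SmAt i (σ i) :=
  smAt_iff.2 fun x hx => hs.sm i x hx trivial

/-- a section in `V_L` with limits at both ends is bounded -/
theorem bd_of_lims {h : M → ℝ} {L : LB A} {s : A.ι → M → ℂ} {c c' : ℂ} (hs : s ∈ VL h L)
    (hS : LimS h s c) (hL : LimL h s c') : Bd A h (wgt 0 0) s := by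
  obtain ⟨T, hT⟩ := hS 1 one_pos
  obtain ⟨T', hT'⟩ := hL 1 one_pos
  obtain ⟨C, hC0, hC⟩ := (hs.2 1 one_pos).exists_nonneg fun t => (wgt_pos 1 1 t).le
  refine ⟨(‖c‖ + 1) + (‖c'‖ + 1) + C * Real.exp (|T| + |T'|), fun i x hx => ?_⟩
  rw [wgt_zero, mul_one]
  have e0 : 0 ≤ C * Real.exp (|T| + |T'|) := mul_nonneg hC0 (Real.exp_pos _).le
  rcases lt_or_ge (h x) T with h1 | h1
  · have h2 : ‖s i x‖ ≤ ‖c‖ + 1 := by
      have h3 := (hT i x hx h1).le
      calc ‖s i x‖ = ‖c + (s i x - c)‖ := by rw [add_sub_cancel]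
        _ ≤ ‖c‖ + ‖s i x - c‖ := norm_add_le _ _
        _ ≤ _ := by linarith
    linarith [norm_nonneg c']
  · rcases lt_or_ge T' (h x) with h4 | h4
    · have h2 : ‖s i x‖ ≤ ‖c'‖ + 1 := by
        have h3 := (hT' i x hx h4).le
        calc ‖s i x‖ = ‖c' + (s i x - c')‖ := by rw [add_sub_cancel]
          _ ≤ ‖c'‖ + ‖s i x - c'‖ := norm_add_le _ _
          _ ≤ _ := by linarith
      linarith [norm_nonneg c]
    · have h5 : wgt 1 1 (h x) ≤ Real.exp (|T| + |T'|) := by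
        rw [wgt_gg, one_mul]
        refine Real.exp_le_exp.2 (abs_le.2 ⟨?_, ?_⟩)
        · linarith [neg_abs_le T, abs_nonneg T']
        · linarith [le_abs_self T', abs_nonneg T]
      have h6 := (hC i x hx).trans (mul_le_mul_of_nonneg_left h5 hC0)
      linarith [norm_nonneg c, norm_nonneg c']

/-! ### line bundles -/


/-- **the bounded division step for line bundles**: `H¹(O) = 0`, `H²(L_Z⁻¹) = 0` in the weighted
spaces with weight `w`; `s_Z` bounded on the cores -/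
theorem bndZ_lb [T2Space M] {LZ : LB A} {sZ : A.ι → M → ℂ} (hs : IsHS LZ univ sZ)
    (h : BGeo P (BL (Fm96.isLC LZ⁻¹))) (h' : BGeo P (BL (Fm96.isLC (1 : LB A)))) {w : Wt Q}
    (hσ : WY4193.MB P (fun i x => sZ i x • (1 : Matrix (Fin 4 × Unit) (Fin 4 × Unit) ℂ))
      (fun _ => 1))
    (ex1 : ∀ z, IsZ1 A 1 univ z → InW w (Fm96.isLC (1 : LB A)) (mk3 0 z 0) →
      (∀ i x, d1 A z i x = 0) →
      ∃ u, IsZ0 A 1 univ u ∧ InW w (Fm96.isLC (1 : LB A)) (mk3 u 0 0) ∧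
        ∀ i x, d0 A u i x = z i x)
    (ex2 : ∀ z, IsZ2 A LZ⁻¹.g univ z → InW w (Fm96.isLC LZ⁻¹) (mk3 0 0 z) →
      ∃ u, IsZ1 A LZ⁻¹.g univ u ∧ InW w (Fm96.isLC LZ⁻¹) (mk3 0 u 0) ∧
        ∀ i x, d1 A u i x = z i x)
    {K : Set M} (hK : IsCompact K) (hK0 : ∀ i, ∀ x ∈ K, x ∈ (A.e i).source → sZ i x ≠ 0)
    (s : ℕ) :
    ∃ C : ℝ, 0 < C ∧ ∀ b, InW w (Fm96.isLC (1 : LB A)) (mk3 0 b 0) →
      (∀ i, ∀ x ∉ K, d1 A b i x = 0) →
      ∃ f b', IsZ0 A 1 univ f ∧ IsZ1 A LZ⁻¹.g univ b' ∧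
        InW w (Fm96.isLC (1 : LB A)) (mk3 f 0 0) ∧ InW w (Fm96.isLC LZ⁻¹) (mk3 0 b' 0) ∧
        (∀ i x, b i x = d0 A f i x + sm1 sZ b' i x) ∧
        (∀ i x, d1 A b' i x = (sZ i x)⁻¹ * d1 A b i x) ∧
        nW h' w s (mk3 f 0 0) ≤ C * nW h' w s (mk3 0 b 0) ∧
        nW h w s (mk3 0 b' 0) ≤ C * nW h' w s (mk3 0 b 0) := by
  have hsz : IsZ0 A LZ.g univ sZ := ((isHS_iff isOpen_univ).1 hs).z0
  have hgg : EqOv A (LZ.g * LZ⁻¹.g) (1 : LB A).g := fun i j x hx => by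
    show LZ.g i j x * (LZ.g i j x)⁻¹ = 1
    exact mul_inv_cancel₀ (LZ.ne_zero i j x)
  have hgg' : EqOv A (LZ.g⁻¹ * (1 : LB A).g) LZ⁻¹.g := fun i j x hx => by
    show (LZ.g i j x)⁻¹ * 1 = (LZ.g i j x)⁻¹
    exact mul_one _
  have hhol : IsHol A sZ := fun i x => ((isHS_iff isOpen_univ).1 hs).db i x (mem_univ x)
  exact bndZ_compact hsz hhol hgg hgg' h h' (fun _ => zero_le_one)
    hσ (BndZ323.dom_one w) ex1 ex2 hK hK0 s

end

end Crest.Agent.R275.BndZ323
end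

-- ▼ part R275/NormK_195
section

/-!
# R275, norm instance for SEC5-ITER (helper195), part III: the norm package

* `npW h w hs : NP A` (`3 ≤ s`), `nzW h w s : NZ A` (forms with values in a line bundle).
* `locN_npW`  : helper539's `LocN P (npW ..) (s + 1)`.
* `hcs_npW`   : compactly supported forms are in the class.
* `wt_sup`    : `‖f q‖ ≤ C * wgt a b (h q) * n0 f` for the weights `H.wt a b`;
  `hsup_npW`  : bounded at the small end (`a ≤ 0`).
* `mulB_W`, `mulB_cpt` : `MulB` for a multiplier of local size `c` / with compact support.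
* `bndA_W`, `bndA_lb`, `bndZ_W` : helper539's `BndA`, helper160's `BndZ` from helper323's bounded
  division step.
-/

set_option autoImplicit false
set_option linter.unusedSectionVars false

open Set Filter Topology Complex
open scoped ContDiff Matrix ComplexConjugate

namespace Crest.Agent.R275.Norm195

open Geo Fm96 Lam2130 Q74 WY681 WY4193 FHom556 Fred685 Tor812 Ret666 BndZ323 MulZ323 It160
open Core144

noncomputable section

variable {M : Type} [TopologicalSpace M] [T2Space M] {A : Atl 2 M} {P : Part A} {Q : PNb P}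
variable {g : A.ι → A.ι → M → ℂ}

theorem sm1_fn_eq_fm {f : M → ℂ} {m : A.ι → M → Fin 2 → ℂ} (hm : IsZ1 A 1 univ m) :
    sm1 (fn A f) m = fm f m := by
  funext i x e
  by_cases hx : x ∈ (A.e i).source
  · simp [sm1, fn_of_mem hx, fm]
  · simp [sm1, fm, hm.off i x hx]

/-- **the norm package** -/
def npW (h : BGeo P (BL (IsLC.one (A := A)))) (w : WY681.Wt Q) {s : ℕ} (hs : 3 ≤ s) : NP A where
  c0 := C0 w
  c1 := C1 w IsLC.one
  n0 := N0 h w s
  n1 := N1 h w s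
  n0_nn _ := nW_nonneg _ _ _ _
  n1_nn _ := nW_nonneg _ _ _ _
  c0_sm _ hf := hf.sm
  c1_z1 _ hb := hb.z1
  add1 _ _ hb hb' := Norm195.add1 h w s hb hb'
  sub1 _ _ hb hb' := Norm195.sub1 h w s hb hb'
  mul11 _ hφ hc := Norm195.mul11 h w s hφ hc
  mul01 m hm hc := by
    obtain ⟨C, hC, h1⟩ := Norm195.mul01 h w s hm hc
    refine ⟨C, hC, fun f hf => ?_⟩
    have h2 := h1 (fn A f) hf
    rw [sm1_fn_eq_fm hm] at h2
    exact h2
  sup0 _ hK := Norm195.sup0 h w hs hK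
  sup1 _ hK _ hKi := Norm195.sup1 h w hs hK hKi

/-- the norm for the forms with values in a line bundle -/
def nzW {hg : IsLC A g} (h : BGeo P (BL hg)) (w : WY681.Wt Q) (s : ℕ) : NZ A where
  c1 := C1 w hg
  n1 := N1 h w s

section one

variable (h : BGeo P (BL (IsLC.one (A := A)))) (w : WY681.Wt Q) {s : ℕ} (hs : 3 ≤ s)

/-- comparison with finite sums of torus norms of the pieces -/
theorem locN_npW : AtlAdd539.LocN P (npW h w hs) (s + 1) where
  lower j l := ⟨(w.w j)⁻¹, (inv_pos.2 (w.pos j)).le, fun _ hb => N1_piece h w s hb j l⟩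
  upper J := by
    obtain ⟨C, hC, h1⟩ := N1_le_of_fin h w s J
    exact ⟨C, hC, fun b hb h0 => ⟨C1_of_fin w hb h0, h1 b hb h0⟩⟩

/-- compactly supported forms are in the class -/
theorem hcs_npW : ∀ m, IsZ1 A 1 univ m → CSupp m → (npW h w hs).c1 m :=
  fun _ hm hc => C1_of_cpt w hm hc

end one

/-! ### sup bounds for the weights of the heights -/

/-- the weights near a point -/
theorem wt_lower (H : Hts Q) {ht : M → ℝ} {R : ℝ} (hR : 0 ≤ R)
    (hn : ∀ j, ∀ x ∈ tsupport (P.χ j), |ht x - H.ht j| ≤ R) (a b : ℝ) {q : M} {i : A.ι}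
    (hi : q ∈ tsupport (P.χ i)) :
    (Real.exp ((|a| + |b|) * R))⁻¹ * (wgt a b (ht q))⁻¹ ≤ (H.wt a b).w i := by
  rw [H.wt_w, inv_mul_le_iff₀ (Real.exp_pos _), Sup912.wgt_inv, Sup912.wgt_inv]
  refine (Sup912.wgt_le_mul _ _ _ (H.ht i)).trans ?_
  rw [abs_neg, abs_neg]
  refine mul_le_mul_of_nonneg_right (Real.exp_le_exp.2 ?_) (wgt_pos _ _ _).le
  exact mul_le_mul_of_nonneg_left (hn i q hi) (add_nonneg (abs_nonneg _) (abs_nonneg _))

/-- **weighted sup bound of functions** -/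
theorem wt_sup (h : BGeo P (BL (IsLC.one (A := A)))) (H : Hts Q) {ht : M → ℝ} {R : ℝ} (hR : 0 ≤ R)
    (hn : ∀ j, ∀ x ∈ tsupport (P.χ j), |ht x - H.ht j| ≤ R) (a b : ℝ) {s : ℕ} (hs : 3 ≤ s) :
    ∃ C : ℝ, 0 ≤ C ∧ ∀ f, (npW h (H.wt a b) hs).c0 f → ∀ q,
      ‖f q‖ ≤ C * wgt a b (ht q) * (npW h (H.wt a b) hs).n0 f := by
  obtain ⟨C, hC, h1⟩ := sup_wt h (H.wt a b) hs
  refine ⟨C * Real.exp ((|a| + |b|) * R), by positivity, fun f hf q => ?_⟩
  have hw := wgt_pos a b (ht q)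
  have h2 := h1 f hf q ((Real.exp ((|a| + |b|) * R))⁻¹ * (wgt a b (ht q))⁻¹)
    (mul_pos (inv_pos.2 (Real.exp_pos _)) (inv_pos.2 hw)) fun i hi => wt_lower H hR hn a b hi
  refine h2.trans (le_of_eq ?_)
  rw [← mul_inv, div_inv_eq_mul, ← mul_assoc]
  rfl

/-- bounded at the small end -/
theorem hsup_npW (h : BGeo P (BL (IsLC.one (A := A)))) (H : Hts Q) {ht : M → ℝ} {R : ℝ}
    (hR : 0 ≤ R) (hn : ∀ j, ∀ x ∈ tsupport (P.χ j), |ht x - H.ht j| ≤ R) {a b : ℝ} (ha : a ≤ 0)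
    {s : ℕ} (hs : 3 ≤ s) :
    ∃ T C : ℝ, ∀ f, (npW h (H.wt a b) hs).c0 f → ∀ q, ht q < T →
      ‖f q‖ ≤ C * (npW h (H.wt a b) hs).n0 f := by
  obtain ⟨C, hC, h1⟩ := wt_sup h H hR hn a b hs
  refine ⟨0, C, fun f hf q hq => (h1 f hf q).trans ?_⟩
  refine mul_le_mul_of_nonneg_right ?_ ((npW h (H.wt a b) hs).n0_nn f)
  refine mul_le_of_le_one_right hC ?_
  unfold wgt
  rw [max_eq_left (by linarith : (0 : ℝ) ≤ -ht q), max_eq_right hq.le, mul_zero, add_zero,
    Real.exp_le_one_iff]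
  exact mul_nonpos_of_nonpos_of_nonneg ha (by linarith)



/-! ### multipliers -/





/-! ### the bounded division step -/




end

end Crest.Agent.R275.Norm195
end

-- ▼ part R275/BndW_323
section

/-!
# R275: the bounded division step from exactness of the weighted complexes (helper323)

`bndZ_cx` : `H¹_{a,b}(O) = 0`, `H²_{a,b}(L_Z⁻¹) = 0` in the form of helper89's `WCxY`
(`Ex₁`, `Ex₂`), families `V a b = WSm _ w` (helper681's `wf`: `rfl`, `w = H.wt (-a) b`),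
`s_Z` a section of `L_Z` in `V_L` with limits at both ends.
-/

set_option autoImplicit false
set_option linter.unusedSectionVars false
set_option linter.unusedVariables false

open Set Filter Topology Complex
open scoped ContDiff Matrix ComplexConjugate

namespace Crest.Agent.R275.BndZ323

open Geo Fm96 Q74 Lam2130 FHom556 MulZ323 WY681 Fred685 Bnd323 Core144 LauB681 WCxY89 GG89

noncomputable section

variable {M : Type} [TopologicalSpace M] {A : Atl 2 M} {P : Part A} {Q : PNb P}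

/-- the conclusion of the bounded division step, at the level `s` -/
def BDiv {LZ : LB A} (h : BGeo P (BL (Fm96.isLC LZ⁻¹))) (h' : BGeo P (BL (Fm96.isLC (1 : LB A))))
    (w : Wt Q) (sZ : A.ι → M → ℂ) (K : Set M) (s : ℕ) : Prop :=
  ∃ C : ℝ, 0 < C ∧ ∀ b, InW w (Fm96.isLC (1 : LB A)) (mk3 0 b 0) →
    (∀ i, ∀ x ∉ K, d1 A b i x = 0) →
    ∃ f b', IsZ0 A 1 univ f ∧ IsZ1 A LZ⁻¹.g univ b' ∧
      InW w (Fm96.isLC (1 : LB A)) (mk3 f 0 0) ∧ InW w (Fm96.isLC LZ⁻¹) (mk3 0 b' 0) ∧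
      (∀ i x, b i x = d0 A f i x + sm1 sZ b' i x) ∧
      (∀ i x, d1 A b' i x = (sZ i x)⁻¹ * d1 A b i x) ∧
      nW h' w s (mk3 f 0 0) ≤ C * nW h' w s (mk3 0 b 0) ∧
      nW h w s (mk3 0 b' 0) ≤ C * nW h' w s (mk3 0 b 0)

/-- **the bounded division step** -/
theorem bndZ_cx [T2Space M] {LZ : LB A} {sZ : A.ι → M → ℂ} (hs : IsHS LZ univ sZ)
    (h : BGeo P (BL (Fm96.isLC LZ⁻¹))) (h' : BGeo P (BL (Fm96.isLC (1 : LB A))))
    (hσ : WY4193.MB P (fun i x => sZ i x • (1 : Matrix (Fin 4 × Unit) (Fin 4 × Unit) ℂ))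
      (fun _ => 1))
    {F1 : WF ℂ (SecL (LV (Fm96.isLC (1 : LB A))))} {C1 : Cx F1}
    (D1 : DolF (Fm96.isLC (1 : LB A)) C1) (c1 : Cut C1)
    {F2 : WF ℂ (SecL (LV (Fm96.isLC LZ⁻¹)))} {C2 : Cx F2}
    (D2 : DolF (Fm96.isLC LZ⁻¹) C2) (c2 : Cut C2) {a b : ℝ} {w : Wt Q}
    (hV1 : F1.V a b = WSm (BL (Fm96.isLC (1 : LB A))) w)
    (hV2 : F2.V a b = WSm (BL (Fm96.isLC LZ⁻¹)) w)
    (e1 : (WCxY D1 c1).Ex₁ a b) (e2 : (WCxY D2 c2).Ex₂ a b)
    {K : Set M} (hK : IsCompact K) (hK0 : ∀ i, ∀ x ∈ K, x ∈ (A.e i).source → sZ i x ≠ 0)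
    (s : ℕ) : BDiv h h' w sZ K s :=
  bndZ_lb hs h h' hσ (ex1_raw D1 c1 hV1 e1) (ex2_raw D2 c2 hV2 e2) hK hK0 s

end

end Crest.Agent.R275.BndZ323
end

-- ▼ part R275/MulZ2_658
section

/-!
# R275, block SEC5-ITER, leaf MulZ, part 2 (helper658): multiplication on the weighted spaces

* `mb_of_bd` : `θ` in the class `BD A K h a b` gives 193's local size `MB`.
* `mulS`, `mulS0`, `mulS1`, `mulS2` : multiplication by `θ` on 323's `InW` / `nW`.
* `mulS_hts` : weights `H.wt a b` of 681; `mulB_of` : `MulB` of `ItE_160` for any norm packages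
  which are restrictions of `nW`.
* `mul1_bd`, `mulB1` : the first multiplier.
-/

set_option autoImplicit false
set_option linter.unusedSectionVars false
set_option linter.unusedVariables false

open Set Filter Topology Complex Metric
open scoped ContDiff ComplexConjugate

namespace Crest.Agent.R275.MulZ658

open Geo Fm96 It160 Core144 JB658 AtlAdd539 Q74 Lam2130 FHom556 MulZ323 WY681 BndZ323

noncomputable section

variable {M : Type} [TopologicalSpace M] {A : Atl 2 M} {P : Part A} {Q : PNb P}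
  {K : A.ι → Set M} {h : M → ℝ} {g g' gs : A.ι → A.ι → M → ℂ} {θ : A.ι → M → ℂ}

/-- local size of the multiplication by `θ` from the class `BD` -/
theorem mb_of_bd (hs : IsZ0 A gs univ θ) {a b : ℝ} (hb : BD A K h a b θ)
    (hK : ∀ i, tsupport (P.ψ i) ⊆ K i) {c : A.ι → ℝ} (hc : ∀ i, 0 ≤ c i) {L : ℝ} (hL : 0 ≤ L)
    (hw : ∀ i, ∀ x ∈ tsupport (P.ψ i), wgt a b (h x) ≤ L * c i) :
    WY4193.MB P (fun i x => θ i x • (1 : Matrix (Fin 4 × Unit) (Fin 4 × Unit) ℂ)) c := by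
  refine mb_smul_one hc (fun i => smAt_iff.2 fun x hx => hs.sm i x hx trivial) fun s => ?_
  obtain ⟨C, hC, h1⟩ := WB.bound hb s
  refine ⟨C * L, mul_nonneg hC hL, fun i x hx => (h1 i x (hK i hx)).trans ?_⟩
  rw [mul_assoc]
  exact mul_le_mul_of_nonneg_left (hw i x hx) hC

section mul

variable {hg : IsLC A g} {hg' : IsLC A g'} {w w' : Wt Q} {c : A.ι → ℝ}

/-- multiplication by `θ` on the weighted spaces -/
theorem mulS (hs : IsZ0 A gs univ θ) (he : EqOv A (gs * g) g') (hB : BGeo P (BL hg))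
    (hB' : BGeo P (BL hg')) (hc : ∀ i, 0 ≤ c i)
    (hm : WY4193.MB P (fun i x => θ i x • (1 : Matrix (Fin 4 × Unit) (Fin 4 × Unit) ℂ)) c)
    (hD : Dom c w w') (s : ℕ) :
    ∃ C : ℝ, 0 ≤ C ∧ ∀ u, InW w hg u → InW w' hg' ((mulH hg hg' hs he).act u) ∧
      nW hB' w' s ((mulH hg hg' hs he).act u) ≤ C * nW hB w s u := by
  obtain ⟨C, hC, H⟩ := op0_raw hB hB' (T := (mulH hg hg' hs he).actL)
    (le_actL Q (mulH hg hg' hs he) (deg_le_two hg') hc hm) hD s
  exact ⟨C, hC, fun u hu => H u hu⟩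


/-- degree one -/
theorem mulS1 (hs : IsZ0 A gs univ θ) (he : EqOv A (gs * g) g') (hB : BGeo P (BL hg))
    (hB' : BGeo P (BL hg')) (hc : ∀ i, 0 ≤ c i)
    (hm : WY4193.MB P (fun i x => θ i x • (1 : Matrix (Fin 4 × Unit) (Fin 4 × Unit) ℂ)) c)
    (hD : Dom c w w') (s : ℕ) :
    ∃ C : ℝ, 0 ≤ C ∧ ∀ u, InW w hg (mk3 0 u 0) → InW w' hg' (mk3 0 (sm1 θ u) 0) ∧
      nW hB' w' s (mk3 0 (sm1 θ u) 0) ≤ C * nW hB w s (mk3 0 u 0) := by
  obtain ⟨C, hC, H⟩ := mulS hs he hB hB' hc hm hD s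
  refine ⟨C, hC, fun u hu => ?_⟩
  have h1 := H _ hu
  rw [mulH_mk3] at h1
  have e2 : sm θ (0 : A.ι → M → ℂ) = 0 := by funext i x; simp [sm]
  rw [e2] at h1
  exact h1


/-! ### the abstract packages of `ItD_160` / `ItE_160` -/

/-- `MulB` for packages given by `InW` / `nW` (on the forms of degree one) -/
theorem mulB_of [T2Space M] (hs : IsZ0 A gs univ θ) (he : EqOv A (gs * g) 1)
    {h1 : IsLC A (1 : A.ι → A.ι → M → ℂ)} (hB : BGeo P (BL hg)) (hB' : BGeo P (BL h1))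
    (hc : ∀ i, 0 ≤ c i)
    (hm : WY4193.MB P (fun i x => θ i x • (1 : Matrix (Fin 4 × Unit) (Fin 4 × Unit) ℂ)) c)
    (hD : Dom c w w') {s : ℕ} {N : NP A} {NB : NZ A}
    (hN : ∀ b, IsZ1 A 1 univ b → InW w' h1 (mk3 0 b 0) → N.c1 b)
    (hNn : ∀ b, N.c1 b → N.n1 b = nW hB' w' s (mk3 0 b 0))
    (hNB : ∀ b, NB.c1 b → InW w hg (mk3 0 b 0))
    (hNBn : ∀ b, NB.c1 b → NB.n1 b = nW hB w s (mk3 0 b 0)) : MulB N NB θ := by
  obtain ⟨C, hC, H⟩ := mulS1 hs he hB hB' hc hm hD s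
  refine ⟨C, hC, fun b' hb' => ?_⟩
  obtain ⟨k1, k2⟩ := H b' (hNB b' hb')
  have k3 : N.c1 (sm1 θ b') := hN _ (isZ1_of_mem k1.mem) k1
  refine ⟨k3, ?_⟩
  rw [hNn _ k3, hNBn _ hb']
  exact k2

end mul

/-! ### weights of the heights -/

/-- the oscillation of `h` on the cores with respect to the heights `ht` -/
def NearH (P : Part A) (h : M → ℝ) (ht : A.ι → ℝ) : Prop :=
  ∃ R : ℝ, 0 ≤ R ∧ ∀ j, ∀ x ∈ tsupport (P.ψ j), |h x - ht j| ≤ R

theorem nearH_of_HD (H : Sup912.HD P h) : NearH P h H.ht :=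
  ⟨H.R, H.R_nonneg, fun j x hx => H.near j x (P.ψ_sub j hx)⟩

/-- local size in terms of the reference heights -/
theorem mb_hts {ht : A.ι → ℝ} (hn : NearH P h ht) (hs : IsZ0 A gs univ θ) {a b : ℝ}
    (hb : BD A K h a b θ) (hK : ∀ i, tsupport (P.ψ i) ⊆ K i) :
    WY4193.MB P (fun i x => θ i x • (1 : Matrix (Fin 4 × Unit) (Fin 4 × Unit) ℂ))
      (fun i => wgt a b (ht i)) := by
  obtain ⟨R, hR, hn⟩ := hn
  refine mb_of_bd hs hb hK (fun i => (wgt_pos _ _ _).le) (L := Real.exp ((|a| + |b|) * R))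
    (Real.exp_pos _).le fun i x hx => ?_
  exact Wy5197.wgt_le_of_abs a b (hn i x hx)


/-- `MulB` for 681's weights: `θ` decays at any rate at the large end -/
theorem mulB_hts [T2Space M] {H : Hts Q} (hn : NearH P h H.ht) {hg : IsLC A g}
    {h1 : IsLC A (1 : A.ι → A.ι → M → ℂ)} (hs : IsZ0 A gs univ θ) (he : EqOv A (gs * g) 1)
    (hB : BGeo P (BL hg)) (hB' : BGeo P (BL h1)) {p q : ℝ} (hb : BD A K h p q θ)
    (hK : ∀ i, tsupport (P.ψ i) ⊆ K i) {a b a' b' : ℝ} (ha : a + p ≤ a') (hb' : b + q ≤ b')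
    {s : ℕ} {N : NP A} {NB : NZ A}
    (hN : ∀ b, IsZ1 A 1 univ b → InW (H.wt a' b') h1 (mk3 0 b 0) → N.c1 b)
    (hNn : ∀ b, N.c1 b → N.n1 b = nW hB' (H.wt a' b') s (mk3 0 b 0))
    (hNB : ∀ u, NB.c1 u → InW (H.wt a b) hg (mk3 0 u 0))
    (hNBn : ∀ u, NB.c1 u → NB.n1 u = nW hB (H.wt a b) s (mk3 0 u 0)) : MulB N NB θ :=
  mulB_of hs he hB hB' (fun i => (wgt_pos _ _ _).le) (mb_hts hn hs hb hK) (H.dom_mul ha hb')
    hN hNn hNB hNBn

end

end Crest.Agent.R275.MulZ658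
end

-- ▼ part R275/MulZ3_658

/-!
# R275, block SEC5-ITER, leaf MulZ, part 3 (helper658): compactly supported multipliers, the
enlarged atlas `add A Φ`, and the two multipliers of `ItE_160`

* `mulB_cpt` : `MulB` for `θ` of compact support, any two weights.
* `NPW`, `NZW` : norm packages given by 323's `InW` / `nW`; `mulB_mul1`, `mulB_mul2` : the two
  hypotheses `m1`, `m2` of 539's `solB_add`.
* `bd_mul1_add` : the first multiplier, restricted to the old charts, is in `BD A K h 0 b`.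
* `cpt_mul2_add` : the second multiplier, restricted to the old charts.
-/

set_option autoImplicit false
set_option linter.unusedSectionVars false
set_option linter.unusedVariables false

open Set Filter Topology Complex Metric
open scoped ContDiff ComplexConjugate

namespace Crest.Agent.R275.MulZ658

open Geo Fm96 It160 Core144 JB658 AtlAdd539 Q74 Lam2130 FHom556 MulZ323 WY681 BndZ323

noncomputable section

variable {M : Type} [TopologicalSpace M] {A : Atl 2 M} {P : Part A} {Q : PNb P}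
  {K : A.ι → Set M} {h : M → ℝ} {g g' gs : A.ι → A.ι → M → ℂ} {θ : A.ι → M → ℂ}



/-! ### the enlarged atlas -/

section add

variable {Φ : OpenPartialHomeomorph M (Cn 2)} (hΦ : Cmp A Φ)










/-! ### the two hypotheses of `solB_add` -/

/-- the package `N` is given by `InW` / `nW` on the forms of degree one -/
structure NPW {h1 : IsLC A (1 : A.ι → A.ι → M → ℂ)} (hB : BGeo P (BL h1)) (w : Wt Q) (s : ℕ)
    [T2Space M] (N : NP A) : Prop where
  c1 : ∀ b, N.c1 b ↔ IsZ1 A 1 univ b ∧ InW w h1 (mk3 0 b 0)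
  n1 : ∀ b, N.c1 b → N.n1 b = nW hB w s (mk3 0 b 0)

/-- the package `NB` is given by `InW` / `nW` -/
structure NZW {hg : IsLC A g} (hB : BGeo P (BL hg)) (w : Wt Q) (s : ℕ) (NB : NZ A) : Prop where
  c1 : ∀ b, NB.c1 b ↔ IsZ1 A g univ b ∧ InW w hg (mk3 0 b 0)
  n1 : ∀ b, NB.c1 b → NB.n1 b = nW hB w s (mk3 0 b 0)

/-- `MulB` for a section of the class `BD A K h p q`, weights `H.wt` of 681 -/
theorem mulB_bd [T2Space M] {H : Hts Q} (hn : NearH P h H.ht) {hg : IsLC A g}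
    {h1 : IsLC A (1 : A.ι → A.ι → M → ℂ)} (hs : IsZ0 A gs univ θ) (he : EqOv A (gs * g) 1)
    {hB : BGeo P (BL hg)} {hB' : BGeo P (BL h1)} {p q : ℝ} (hb : BD A K h p q θ)
    (hK : ∀ i, tsupport (P.ψ i) ⊆ K i) {a b a' b' : ℝ} (ha : a + p ≤ a') (hb' : b + q ≤ b')
    {s : ℕ} {N : NP A} {NB : NZ A} (hN : NPW hB' (H.wt a' b') s N)
    (hNB : NZW hB (H.wt a b) s NB) : MulB N NB θ :=
  mulB_hts hn hs he hB hB' hb hK ha hb' (fun b h2 h3 => (hN.c1 b).2 ⟨h2, h3⟩) hN.n1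
    (fun u hu => ((hNB.c1 u).1 hu).2) hNB.n1



end add

end

end Crest.Agent.R275.MulZ658
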