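import Crest.Agent.R275.St3B_686
import Crest.Agent.R275.DivP_572
import Crest.Agent.R275.LemW_861
import Crest.Agent.R275.BdcB_96
import Crest.Agent.R275.Sol_352
import Crest.Agent.R275.LemD_96
import Crest.Agent.R275.Sec1A_197
import Crest.Agent.R275.Sec1B_197
import Crest.Agent.R275.Cls_672
import Crest.Agent.R275.Eqv_672

-- ▼ part R275/St3C_686
section

/-!
R275 (S0418), Part IV, helper686: section 3, part C: from `coprime_eq_zero` to `Sec3`.
* `window`   : a divisor whose residual part is deep is compact on compact windows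
* `attained` : `D_{δ₀} = ∑ g^k h₀` is a locally finite sum of compact divisors if `c_+(h₀) ≠ 0`
* `S3In`, `S3In.sec3` : the output of section 3 in the form of block T
-/

set_option autoImplicit false
set_option linter.unusedSectionVars false
set_option linter.unusedVariables false

open Set Filter Topology Complex
open scoped ContDiff Manifold

noncomputable section

namespace Crest.Agent.R275.St3686

open Crest.AlgGeometry.Surface
open Geo Fm96 Core144 FmExt861 Dv69 ODiv686 LMP631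
open Crest.Agent.R275.Dv69.EffDiv (CPr pSum pull)
open Crest.Agent.R275.HolY631 (Deck)

variable {Y : Type} [TopologicalSpace Y] [ChartedSpace C2 Y] [IsManifold 𝓘(ℂ, C2) 1 Y]
variable {A : Atl 2 Y}

/-! ### divisors -/

theorem isCompact_supp_nsmul [T2Space Y] {D : EffDiv Y} (hD : IsCompact D.supp) (n : ℕ) :
    IsCompact (n • D).supp := by
  induction n with
  | zero => rw [zero_smul, EffDiv.supp_zero]; exact isCompact_empty
  | succ n ih => rw [succ_nsmul, EffDiv.supp_add]; exact ih.union hD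

theorem isCompact_supp_pSum [T2Space Y] (D : EffDiv Y) (s : Finset (CPr Y)) :
    IsCompact (pSum D s).supp := by
  classical
  unfold EffDiv.pSum
  induction s using Finset.induction_on with
  | empty => rw [Finset.sum_empty, EffDiv.supp_zero]; exact isCompact_empty
  | insert C s hC ih =>
    rw [Finset.sum_insert hC, EffDiv.supp_add]
    exact (isCompact_supp_nsmul C.2.2 _).union ih

/-- on a compact window where the residual part vanishes the divisor is compact -/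
theorem window [T2Space Y] {D Z R : EffDiv Y} (hD : D = Z + R)
    (hZs : ∀ s : Finset (CPr Y), pSum D s ≤ Z)
    (hloc : ∀ p, ∃ s : Finset (CPr Y), ∀ᶠ q in 𝓝 p, Z.D q = (pSum D s).D q) {K : Set Y}
    (hK : IsCompact K) (hRK : ∀ q ∈ K, q ∉ R.supp) :
    ∃ Z' D' : EffDiv Y, D = Z' + D' ∧ IsCompact Z'.supp ∧ ∀ q ∈ K, q ∉ D'.supp := by
  classical
  choose s hs using hloc
  obtain ⟨t, ht⟩ := hK.elim_nhds_subcover (fun p => {q | Z.D q = (pSum D (s p)).D q})
    (fun p _ => hs p)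
  set u : Finset (CPr Y) := t.biUnion s with hu
  have hle : pSum D u ≤ Z := hZs u
  have hZK : ∀ q ∈ K, Z.D q = (pSum D u).D q := by
    intro q hq
    obtain ⟨p, hp, hqp⟩ := mem_iUnion₂.1 (ht.2 hq)
    have h1 : Z.D q = (pSum D (s p)).D q := hqp
    have h2 : pSum D (s p) ≤ pSum D u := EffDiv.pSum_mono (Finset.subset_biUnion_of_mem s hp)
    refine le_antisymm ?_ (hle q)
    rw [h1]
    exact h2 q
  obtain ⟨E, hE⟩ := EffDiv.exists_add_of_le hle
  refine ⟨pSum D u, E + R, by rw [← add_assoc, ← hE, hD], isCompact_supp_pSum D u, ?_⟩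
  intro q hq
  have h1 : E.D q = 1 := by
    have h2 := hZK q hq
    rw [hE, EffDiv.add_D] at h2
    exact mul_left_cancel₀ ((pSum D u).ne_zero q) (h2.trans (mul_one _).symm)
  rw [EffDiv.supp_add]
  rintro (h2 | h2)
  · exact h2 h1
  · exact hRK q hq h2

/-- if `F n = γ^* F (n+1)` and `F n₀ - F (n₀ + N)` is compact then `F 0` is locally attained by
compact divisors -/
theorem attained [T2Space Y] {γ : Y ≃ₜ Y} (hγ : EffDiv.IsBihol γ) {h : Y → ℝ}
    (hsh : ∀ y, h (γ y) = h y - 1) {F : ℕ → EffDiv Y} (hF : ∀ n, F n = pull hγ (F (n + 1)))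
    {t : ℝ} (ht : ∀ x ∈ (F 0).supp, h x ≤ t) {n₀ N : ℕ} (hN : 0 < N) {H : EffDiv Y}
    (hH : IsCompact H.supp) (hFH : F n₀ = F (n₀ + N) + H) (p : Y) :
    ∃ E ≤ F 0, IsCompact E.supp ∧ E.D p = (F 0).D p := by
  -- shift invariance
  have up : ∀ n, (∃ H : EffDiv Y, IsCompact H.supp ∧ F n = F (n + N) + H) →
      ∃ H : EffDiv Y, IsCompact H.supp ∧ F (n + 1) = F (n + 1 + N) + H := by
    rintro n ⟨H, h1, h2⟩
    refine ⟨pull hγ.symm H, EffDiv.isCompact_supp_pull hγ.symm h1, ?_⟩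
    apply EffDiv.pull_injective hγ
    have h3 : n + N + 1 = n + 1 + N := by omega
    rw [EffDiv.pull_add, ← hF n, ← h3, ← hF (n + N), h2]
    congr 1
    exact (EffDiv.pull_symm hγ.symm H).symm
  have down : ∀ n, (∃ H : EffDiv Y, IsCompact H.supp ∧ F (n + 1) = F (n + 1 + N) + H) →
      ∃ H : EffDiv Y, IsCompact H.supp ∧ F n = F (n + N) + H := by
    rintro n ⟨H, h1, h2⟩
    refine ⟨pull hγ H, EffDiv.isCompact_supp_pull hγ h1, ?_⟩
    have h3 : n + N + 1 = n + 1 + N := by omega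
    rw [hF n, hF (n + N), h3, h2, EffDiv.pull_add]
  have h0 : ∃ H : EffDiv Y, IsCompact H.supp ∧ F 0 = F (0 + N) + H := by
    have key : ∀ n, (∃ H : EffDiv Y, IsCompact H.supp ∧ F n = F (n + N) + H) →
        ∃ H : EffDiv Y, IsCompact H.supp ∧ F 0 = F (0 + N) + H := by
      intro n
      induction n with
      | zero => exact fun h => h
      | succ n ih => exact fun h => ih (down n h)
    exact key n₀ ⟨H, hH, hFH⟩
  have hall : ∀ n, ∃ H : EffDiv Y, IsCompact H.supp ∧ F n = F (n + N) + H := by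
    intro n
    induction n with
    | zero => exact h0
    | succ n ih => exact up n ih
  -- telescoping
  have tel : ∀ m : ℕ, ∃ E : EffDiv Y, IsCompact E.supp ∧ F 0 = F (m * N) + E := by
    intro m
    induction m with
    | zero => exact ⟨0, by rw [EffDiv.supp_zero]; exact isCompact_empty, by simp⟩
    | succ m ih =>
      obtain ⟨E, h1, h2⟩ := ih
      obtain ⟨H', h3, h4⟩ := hall (m * N)
      refine ⟨H' + E, by rw [EffDiv.supp_add]; exact h3.union h1, ?_⟩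
      rw [h2, h4, add_assoc, Nat.succ_mul]
  -- supports
  have hsupp : ∀ n : ℕ, ∀ x ∈ (F n).supp, h x ≤ t - n := by
    intro n
    induction n with
    | zero => intro x hx; simpa using ht x hx
    | succ n ih =>
      intro x hx
      have h1 : γ.symm x ∈ (F n).supp := by
        rw [hF n, EffDiv.mem_supp_pull]
        simpa using hx
      have h2 := ih _ h1
      have h3 := hsh (γ.symm x)
      rw [γ.apply_symm_apply] at h3
      push_cast
      linarith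
  obtain ⟨m, hm⟩ := exists_nat_gt (t - h p)
  obtain ⟨E, h1, h2⟩ := tel m
  refine ⟨E, h2 ▸ le_add_self, h1, ?_⟩
  have h3 : p ∉ (F (m * N)).supp := by
    intro hp
    have h4 := hsupp (m * N) p hp
    have h5 : (m : ℝ) ≤ ((m * N : ℕ) : ℝ) := by
      exact_mod_cast Nat.le_mul_of_pos_right m hN
    linarith
  rw [h2, EffDiv.add_D, EffDiv.notMem_supp.1 h3, one_mul]

/-! ### the input of section 3 -/

/-- solvability used in the division step: `H²_gg(E_β⁻¹ L₀⁻¹) = 0` for compactly supported data and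
`H¹_gg(L₀⁻¹) = 0`; `Gr` is the class of `(0,1)`-forms of small growth -/
def Solv (A : Atl 2 Y) (h : Y → ℝ) (Lβ L0 : LB A) (sβ : A.ι → Y → ℂ) (d : ℝ) : Prop :=
  ∃ Gr : (A.ι → Y → Fin 2 → ℂ) → Prop,
    (∀ F, IsZ2 A (Lβ⁻¹ * L0⁻¹).g univ F → CSupp F →
      ∃ b, IsZ1 A (Lβ⁻¹ * L0⁻¹).g univ b ∧ d1 A b = F ∧ Gr (sm1 sβ b)) ∧
    (∀ om, IsZ1 A (L0⁻¹).g univ om → Gr om → d1 A om = 0 →
      ∃ b, IsZ0 A (L0⁻¹).g univ b ∧ d0 A b = om ∧ Bd A h (wgt d d) b) ∧
    (∀ om, IsZ1 A (L0⁻¹).g univ om → CSupp om → Gr om) ∧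
    ∀ om om', Gr om → Gr om' → Gr (om - om')

/-- output of Lemma W: a frame of `L` near the small end which is holomorphic modulo `s_β` -/
def FrameW (A : Atl 2 Y) (h : Y → ℝ) (Lβ L : LB A) (sβ : A.ι → Y → ℂ) : Prop :=
  ∃ (T : ℝ) (τ : A.ι → Y → ℂ) (b : A.ι → Y → Fin 2 → ℂ), IsZ0 A L.g {x | h x < T} τ ∧
    (∀ i, ∀ x ∈ (A.e i).source, h x < T → τ i x ≠ 0) ∧ IsZ1 A (L * Lβ⁻¹).g {x | h x < T} b ∧
    (∀ i x, h x < T → ∀ c, d0 A τ i x c = sβ i x * b i x c) ∧ LimS h τ 1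

/-- inputs of section 3 -/
structure S3In (A : Atl 2 Y) (h : Y → ℝ) (γ : Y ≃ₜ Y) (P : Subgroup (LB A)) {B : Type}
    (g : Equiv.Perm B) (lev : B → ℤ) (E : B → LB A) (s : B → A.ι → Y → ℂ) : Prop where
  adm : Adm A
  big : Nonempty (Big A)
  part : Nonempty (Part A)
  smh : A.Sm h
  deck : Deck γ h
  lev_g : ∀ β, lev (g β) = lev β + 1
  E_mem : ∀ β, E β ∈ P
  s_mem : ∀ β, s β ∈ VL h (E β)
  s_ne : ∀ β, s β ≠ 0
  /-- equivariance of the divisors -/
  dpull : ∀ (hγ : EffDiv.IsBihol γ) (β : B),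
    GeoP572.dvs A (s β) = pull hγ (GeoP572.dvs A (s (g β)))
  /-- D1 -/
  lim : ∀ L ∈ P, ∀ σ ∈ VL h L, σ ≠ 0 → ∃ c : ℂ, c ≠ 0 ∧ LimL (A := A) h σ c
  /-- D2 / SOL5: exponential convergence at the small end -/
  limS : ∀ L ∈ P, ∀ σ ∈ VL h L, ∃ (c : ℂ) (C ρ : ℝ), 0 < ρ ∧
    ∀ i, ∀ x ∈ (A.e i).source, h x ≤ 0 → ‖σ i x - c‖ ≤ C * Real.exp (ρ * h x)
  /-- Lemma D, far-apart case -/
  far : ∃ N : ℤ, ∀ β δ, lev β + N ≤ lev δ → ∃ k ∈ VL h (E β * (E δ)⁻¹), s β = s δ * k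
  /-- Lemma W -/
  frame : ∀ β δ, LimS (A := A) h (s β) 0 → FrameW A h (E β) (E δ) (s β)
  /-- vanishing theorems -/
  solv : ∀ β δ, LimS (A := A) h (s β) 0 → LimS (A := A) h (s δ) 0 → ∀ d : ℝ, 0 < d →
    Solv A h (E β) (E δ) (s β) d

theorem limS_of_exp {σ : A.ι → Y → ℂ} {h : Y → ℝ} {c : ℂ} {C ρ : ℝ} (hρ : 0 < ρ)
    (H : ∀ i, ∀ x ∈ (A.e i).source, h x ≤ 0 → ‖σ i x - c‖ ≤ C * Real.exp (ρ * h x)) :
    LimS (A := A) h σ c := by
  intro ε hε
  have h2 : Tendsto (fun t : ℝ => Real.exp (ρ * t)) atBot (𝓝 0) :=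
    Real.tendsto_exp_atBot.comp (tendsto_id.const_mul_atBot hρ)
  have h3 : Tendsto (fun t : ℝ => C * Real.exp (ρ * t)) atBot (𝓝 0) := by
    simpa using h2.const_mul C
  obtain ⟨T, hT⟩ := eventually_atBot.1 (h3.eventually (gt_mem_nhds hε))
  refine ⟨min T 0, fun i x hx hxT => ?_⟩
  exact (H i x hx (hxT.trans_le (min_le_right _ _)).le).trans_lt
    (hT (h x) (hxT.trans_le (min_le_left _ _)).le)

/-- translates of a divisor bounded above move down -/
theorem supp_shift {γ : Y ≃ₜ Y} (hγ : EffDiv.IsBihol γ) {h : Y → ℝ}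
    (hsh : ∀ y, h (γ y) = h y - 1) {F : ℕ → EffDiv Y} (hF : ∀ n, F n = pull hγ (F (n + 1)))
    {t : ℝ} (ht : ∀ x ∈ (F 0).supp, h x ≤ t) : ∀ n : ℕ, ∀ x ∈ (F n).supp, h x ≤ t - n := by
  intro n
  induction n with
  | zero => intro x hx; simpa using ht x hx
  | succ n ih =>
    intro x hx
    have h1 : γ.symm x ∈ (F n).supp := by
      rw [hF n, EffDiv.mem_supp_pull]
      simpa using hx
    have h2 := ih _ h1
    have h3 := hsh (γ.symm x)
    rw [γ.apply_symm_apply] at h3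
    push_cast
    linarith

theorem compact_shift {γ : Y ≃ₜ Y} (hγ : EffDiv.IsBihol γ) {F : ℕ → EffDiv Y}
    (hF : ∀ n, F n = pull hγ (F (n + 1))) : ∀ n : ℕ, IsCompact (F n).supp →
      IsCompact (F 0).supp := by
  intro n
  induction n with
  | zero => exact fun h => h
  | succ n ih => exact fun h => ih (by rw [hF n]; exact EffDiv.isCompact_supp_pull hγ h)

/-- **Section 3.** -/
theorem S3In.sec3 [T2Space Y] [PreconnectedSpace Y] [Nonempty Y] {h : Y → ℝ} {γ : Y ≃ₜ Y}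
    {P : Subgroup (LB A)} {B : Type} {g : Equiv.Perm B} {lev : B → ℤ} {E : B → LB A}
    {s : B → A.ι → Y → ℂ} (H : S3In A h γ P g lev E s) : GeoP572.Sec3 A h s := by
  classical
  intro β T
  obtain ⟨bigA⟩ := H.big
  obtain ⟨Pt⟩ := H.part
  have hA := H.adm
  have hγ : EffDiv.IsBihol γ := ⟨H.deck.hol.mdifferentiable one_ne_zero,
    H.deck.hol_symm.mdifferentiable one_ne_zero⟩
  have nz : ∀ δ, BR4672.NZ A (s δ) := fun δ =>
    BR4672.nz_of_ne hA (H.s_mem δ).1 (H.s_ne δ)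
  set F : ℕ → EffDiv Y := fun n => GeoP572.dvs A (s ((g ^ n) β)) with hFdef
  have hF : ∀ n, F n = pull hγ (F (n + 1)) := fun n => by
    have h1 := H.dpull hγ ((g ^ n) β)
    have h2 : g ((g ^ n) β) = (g ^ (n + 1)) β := by rw [pow_succ']; rfl
    rw [h2] at h1
    exact h1
  have hF0 : F 0 = GeoP572.dvs A (s β) := by simp [hFdef]
  have hlev : ∀ n : ℕ, lev ((g ^ n) β) = lev β + n := by
    intro n
    induction n with
    | zero => simp
    | succ n ih =>
      have h2 : (g ^ (n + 1)) β = g ((g ^ n) β) := by rw [pow_succ']; rfl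
      rw [h2, H.lev_g, ih]; push_cast; ring
  rw [← hF0]
  by_cases hcomp : IsCompact (F 0).supp
  · refine ⟨F 0, 0, by rw [add_zero], hcomp, fun x hx => ?_⟩
    rw [EffDiv.supp_zero] at hx
    exact absurd hx (notMem_empty x)
  -- upper bound of the support
  obtain ⟨cβ, hcβ0, hcβ⟩ := H.lim (E β) (H.E_mem β) (s β) (H.s_mem β) (H.s_ne β)
  obtain ⟨t, δt, hδt, ht⟩ := BR4672.lowL hcβ hcβ0
  have htne : ∀ i, ∀ x ∈ (A.e i).source, t < h x → s β i x ≠ 0 := by
    intro i x hx hxt h0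
    have := ht i x hx hxt
    rw [h0, norm_zero] at this
    linarith
  have htop : ∀ x ∈ (F 0).supp, h x ≤ t := by
    intro x hx
    by_contra hlt
    obtain ⟨i, hi⟩ := A.cover x
    refine htne i x hi (not_le.1 hlt) ((BR4672.mem_supp_dv hA (H.s_mem β).1 (nz β) hi).1 ?_)
    rw [hF0] at hx
    exact hx
  have hshift := supp_shift hγ H.deck.shift hF htop
  -- the limits at the small end vanish
  have hlim0 : ∀ n : ℕ, LimS (A := A) h (s ((g ^ n) β)) 0 := by
    intro n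
    obtain ⟨c, C, ρ, hρ, hc⟩ := H.limS _ (H.E_mem ((g ^ n) β)) _ (H.s_mem ((g ^ n) β))
    have h1 := limS_of_exp hρ hc
    by_cases hc0 : c = 0
    · rwa [hc0] at h1
    · exfalso
      obtain ⟨c', hc'0, hc'⟩ := H.lim _ (H.E_mem ((g ^ n) β)) _ (H.s_mem ((g ^ n) β))
        (H.s_ne ((g ^ n) β))
      have h2 : IsCompact (F n).supp := BR4672.isCompact_supp H.deck hA
        (H.s_mem ((g ^ n) β)).1 (nz _) (BR4672.lowE_of_lim h1 hc0 hc' hc'0)
      exact hcomp (compact_shift hγ hF n h2)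
  have hlimβ : LimS (A := A) h (s β) 0 := by
    have := hlim0 0
    simpa using this
  -- the residual part
  obtain ⟨Z, R, hD, hno, -, hZs, hloc⟩ := EffDiv.exists_resid (F 0)
  -- choice of `δ₀`, `δ₁`
  obtain ⟨n₀, hn₀⟩ := exists_nat_gt (t + T)
  obtain ⟨N, hN⟩ := H.far
  set N' : ℕ := N.toNat + 1 with hN'
  have hNN : N ≤ (N' : ℤ) := by
    have := Int.self_le_toNat N
    rw [hN']; push_cast; linarith
  obtain ⟨k, hk, hsk⟩ := hN ((g ^ n₀) β) ((g ^ (n₀ + N')) β) (by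
    rw [hlev, hlev]; push_cast; linarith)
  have hkne : k ≠ 0 := by
    rintro rfl
    exact H.s_ne ((g ^ n₀) β) (by rw [hsk, mul_zero])
  have hkP : E ((g ^ n₀) β) * (E ((g ^ (n₀ + N')) β))⁻¹ ∈ P :=
    P.mul_mem (H.E_mem _) (P.inv_mem (H.E_mem _))
  obtain ⟨c, C, ρ, hρ, hc⟩ := H.limS _ hkP k hk
  have key : ∀ x ∈ R.supp, h x < -T := by
    by_cases hc0 : c = 0
    · -- the main case
      subst hc0
      obtain ⟨T1, τ, bτ, hτ, hτ0, hbτ, hdτ, hτ1⟩ := H.frame β ((g ^ (n₀ + N')) β) hlimβ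
      obtain ⟨S, P', hR, hP0, hS⟩ := EffDiv.exists_saturation R (F n₀)
      obtain ⟨Gr, V1, V2, Gc, Gs⟩ := H.solv β ((g ^ n₀) β) hlimβ (hlim0 n₀) (ρ / 2) (by linarith)
      have hP'R : P' ≤ R := hR ▸ le_add_self
      have hRD : R ≤ F 0 := hD ▸ le_add_self
      have hP' : P' = 0 := by
        refine coprime_eq_zero hA bigA Pt H.smh H.deck.cont H.deck.slab (T0 := t)
          (C := max C 0) (ρ := ρ) (d := ρ / 2) (h0 := k) (H.s_mem β).1 (H.s_mem ((g ^ n₀) β)).1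
          (H.s_mem ((g ^ (n₀ + N')) β)).1 (nz β) (nz _) htne ?_ (le_max_right _ _)
          (by linarith) ?_ (hlim0 _) hτ hτ0 hbτ hdτ hτ1 V1 V2 Gc Gs (fun b hb => hb)
          (fun C' hC' => hno C' (hC'.trans hP'R)) ?_ hP0
        · intro i x
          rw [hsk, Pi.mul_apply, Pi.mul_apply, mul_comm]
        · intro i x hx hx0
          have h1 := hc i x hx hx0
          rw [sub_zero] at h1
          exact h1.trans (mul_le_mul_of_nonneg_right (le_max_left _ _) (Real.exp_pos _).le)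
        · exact (hP'R.trans hRD).trans (le_of_eq hF0)
      intro x hx
      rw [hR, hP', add_zero] at hx
      have h1 : x ∈ (F n₀).supp := by
        by_contra h2
        exact hS x h2 hx
      have h2 := hshift n₀ x h1
      linarith
    · -- `h₀` is compact
      obtain ⟨c', hc'0, hc'⟩ := H.lim _ hkP k hk hkne
      have h1 : IsCompact (GeoP572.dvs A k).supp := BR4672.isCompact_supp H.deck hA hk.1
        (BR4672.nz_of_ne hA hk.1 hkne)
        (BR4672.lowE_of_lim (limS_of_exp hρ hc) hc0 hc' hc'0)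
      have h2 : F n₀ = F (n₀ + N') + GeoP572.dvs A k := by
        show GeoP572.dvs A (s ((g ^ n₀) β)) = _
        rw [hsk]
        exact GeoP572.dvs_mul hA (H.s_mem ((g ^ (n₀ + N')) β)).1 (H.s_ne _) hk.1 hkne
      have h3 : R = 0 := EffDiv.resid_eq_zero hD hZs fun p =>
        attained hγ H.deck.shift hF htop (Nat.succ_pos _) h1 h2 p
      intro x hx
      rw [h3, EffDiv.supp_zero] at hx
      exact absurd hx (notMem_empty x)
  obtain ⟨Z', D', h1, h2, h3⟩ := window hD hZs hloc (H.deck.slab (-T) t)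
    (fun q hq hqR => by have := key q hqR; linarith [hq.1])
  refine ⟨Z', D', h1, h2, fun x hx => ?_⟩
  by_contra hlt
  have h4 : x ∈ (F 0).supp := EffDiv.supp_mono (h1 ▸ le_add_self) hx
  exact h3 x ⟨not_lt.1 hlt, htop x h4⟩ hx

end Crest.Agent.R275.St3686
end
end

-- ▼ part R275/LemWB_861
section

/-!
# R275, LEMMA W with helper96's classes (helper861)

`lemWB` : `s` holomorphic section of `Lβ`, decaying at the small end (`BD A K h (-ρ) e s`);
`SolZ2 Lβ⁻¹ (..) (-d) d'`, `SolZ1 1 (-d1) d2 (-d3) d3'`; `τ₀` a smooth frame of `L` over `{h < T}`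
whose connection form is in `BD1 (-d1)`.  Then `τ = τ₀ e^{-f}` is a smooth frame over `{h < T'}`
with `∂̄ τ = s τ b`, `f ∈ BD (-d3) d3'`, `b ∈ BD1 (-d) d'` (`LWOut`).

`LWOut.sig` : for a holomorphic section `t` of `L` the function `σ = t / τ` satisfies
`∂̄ σ = s · (- σ b)` over `{h < T'}`.
-/

set_option autoImplicit false
set_option linter.unusedSectionVars false

open Set Filter Topology Complex
open scoped ContDiff ComplexConjugate

namespace Crest.Agent.R275.LemWB861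

open Geo Fm96 FmExt861 LemW861 Core144

noncomputable section

variable {M : Type} [TopologicalSpace M] {A : Atl 2 M} {K : A.ι → Set M} {h : M → ℝ}
  {L Lβ : LB A} {s τ₀ τ f : A.ι → M → ℂ} {b : A.ι → M → Fin 2 → ℂ} {d d' d3 d3' T : ℝ}

/-- output of Lemma W -/
structure LWOut (A : Atl 2 M) (K : A.ι → Set M) (h : M → ℝ) (Lβ L : LB A) (s τ₀ : A.ι → M → ℂ)
    (d d' d3 d3' T : ℝ) (τ f : A.ι → M → ℂ) (b : A.ι → M → Fin 2 → ℂ) : Prop where
  zf : IsZ0 A 1 univ f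
  bf : BD A K h (-d3) d3' f
  zb : IsZ1 A (Lβ⁻¹).g univ b
  bb : BD1 A K h (-d) d' b
  zτ : IsZ0 A L.g {x | h x < T} τ
  nτ : ∀ i, ∀ x ∈ (A.e i).source, h x < T → τ i x ≠ 0
  eτ : τ = sm τ₀ (ex A (-f))
  dτ : ∀ i x, h x < T → ∀ c, d0 A τ i x c = s i x * (τ i x * b i x c)

theorem LWOut.mono (H : LWOut A K h Lβ L s τ₀ d d' d3 d3' T τ f b) {T' : ℝ} (hT : T' ≤ T) :
    LWOut A K h Lβ L s τ₀ d d' d3 d3' T' τ f b where
  zf := H.zf
  bf := H.bf
  zb := H.zb
  bb := H.bb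
  zτ := H.zτ.mono fun _ hx => lt_of_lt_of_le hx hT
  nτ i x hx hxT := H.nτ i x hx (lt_of_lt_of_le hxT hT)
  eτ := H.eτ
  dτ i x hxT := H.dτ i x (lt_of_lt_of_le hxT hT)

/-- compactly supported families are slab-supported -/
theorem slab_of_csupp (C : Cor A h K) {u : A.ι → M → ℂ} {Q : Set M} (hQ : IsCompact Q)
    (hu : ∀ i, ∀ x ∉ Q, u i x = 0) (hs : ∀ i, ∀ x ∈ K i, SmP A i (u i) x) (a b : ℝ) :
    BD A K h a b u := by
  obtain ⟨m, hm⟩ := hQ.bddBelow_image C.cont.continuousOn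
  obtain ⟨m', hm'⟩ := hQ.bddAbove_image C.cont.continuousOn
  refine C.slab_supp hs (S := m) (T := m') (fun i x hx => hu i x fun hxQ => ?_) a b
  have h1 := hm (mem_image_of_mem h hxQ)
  have h2 := hm' (mem_image_of_mem h hxQ)
  rcases hx with hx | hx <;> linarith

/-- **LEMMA W** -/
theorem lemWB [T2Space M] (P : Part A) (C : Cor A h K)
    (hslab : ∀ a b : ℝ, IsCompact {x | a ≤ h x ∧ h x ≤ b})
    (hs : IsHS Lβ univ s) (hd : DenseNZ A univ s) {ρ e d1 d2 r1 r2 b0 : ℝ}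
    (hsb : BD A K h (-ρ) e s) (S2 : SolZ2 A K h Lβ⁻¹ r1 r2 (-d) d')
    (S1 : SolZ1 A K h 1 (-d1) d2 (-d3) d3') (h1 : d1 ≤ ρ + d) (h2 : e + d' ≤ d2)
    (hτ : IsZ0 A L.g {x | h x < T} τ₀)
    (hne : ∀ i, ∀ x ∈ (A.e i).source, h x < T → τ₀ i x ≠ 0)
    (hcon : BD1 A (Kl K h T) h (-d1) b0 (sdv1 τ₀ (d0 A τ₀))) :
    ∃ (τ f : A.ι → M → ℂ) (b : A.ι → M → Fin 2 → ℂ) (T' : ℝ), T' ≤ T ∧
      LWOut A K h Lβ L s τ₀ d d' d3 d3' T' τ f b := by
  have hGo : ∀ t : ℝ, IsOpen {x | h x < t} := fun t => isOpen_lt C.cont continuous_const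
  have hsH : IsH A Lβ.g univ s := (isHS_iff isOpen_univ).1 hs
  have hgL := isLC L
  have hgβ := isLC Lβ
  have ha := conn_mem hgL (hGo T) hτ hne
  have hχ : SmOn A univ (fun x => (ct (T - 2) (T - 1) (h x) : ℂ)) := smOn_cf C.sm _ _
  have h01 : T - 2 < T - 1 := by linarith
  -- the class of the cut-off connection form
  have haW : BD1 A K h (-d1) d2
      (sm1 (fn A fun x => (ct (T - 2) (T - 1) (h x) : ℂ)) (sdv1 τ₀ (d0 A τ₀))) := by
    intro c
    have e1 : BD A (Kl K h T) h 0 0 (fn A fun x => (ct (T - 2) (T - 1) (h x) : ℂ)) :=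
      (C.bd_cf h01 0).low T 0
    have e2 := e1.mul (hcon c)
    rw [zero_add, zero_add] at e2
    refine BD.of_low C.sub (T := T) e2 (fun i x hx hxT => ?_) d2
    have hx1 : T - 1 < h x := by linarith
    filter_upwards [(isOpen_lt continuous_const C.cont).mem_nhds hx1] with y hy
    have h3 : fn A (fun x => (ct (T - 2) (T - 1) (h x) : ℂ)) i y = 0 :=
      cf_zero h01 i (le_of_lt hy)
    simp [Fm96.sm, h3]
  obtain ⟨f, b, T', hT', hf, hfW, hb, hbW, hab⟩ := lemW_form P C.cont hslab hgβ hsH hd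
    (W0 := BD A K h (-d3) d3') (W1 := BD1 A K h (-d1) d2) (W1β := BD1 A K h (-d) d')
    (fun u v _ _ hu hv => hu.sub hv)
    (fun u hu hc c => by
      obtain ⟨Q, hQ, hQu⟩ := hc
      exact slab_of_csupp C hQ (fun i x hx => by rw [hQu i x hx]; rfl)
        (fun i x hx => hu.sm i c x (C.sub i hx) (mem_univ x)) _ _)
    (fun u hu hub => (hsb.mul1 hub).mono (by linarith) h2)
    (fun η hη hc => by
      obtain ⟨Q, hQ, hQu⟩ := hc
      obtain ⟨β, hβ, hβb, hβd⟩ := S2 η hη (slab_of_csupp C hQ (fun i x hx => hQu i x hx)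
        (fun i x hx => hη.sm i x (C.sub i hx) (mem_univ x)) _ _)
      exact ⟨β, hβ, hβb, hβd⟩)
    (fun w hw hwW hwd => by
      obtain ⟨f, hf, hfb, hfd⟩ := S1 w hw hwW hwd
      exact ⟨f, hf, hfb, hfd⟩)
    (by linarith : T - 1 < T) ha (fun i x hx => conn_closed hgL (hGo T) hτ hne i hx) hχ
    (t1 := T - 2) (fun x hx => by simp [ct_one h01 (le_of_lt hx)])
    (fun x hx => by simp [ct_zero h01 (le_of_lt hx)]) haW
  have hsubT : {x | h x < T'} ⊆ {x | h x < T} := fun x hx => lt_of_lt_of_le hx hT'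
  have hτ' := hτ.mono hsubT
  have he : IsZ0 A 1 {x | h x < T'} (ex A (-f)) := ((hf.mono (subset_univ _)).neg).ex'
  have hone : EqOv A (L.g * 1) L.g := fun i j x _ => by simp
  refine ⟨sm τ₀ (ex A (-f)), f, b, T', hT', hf, hfW, hb, hbW, IsZ0.chg hone (hτ'.sm' he), ?_, rfl,
    ?_⟩
  · intro i x hx hxT
    exact mul_ne_zero (hne i x hx (hsubT hxT)) (ex_ne hx)
  · intro i x hx c
    have hx' : x ∈ {x | h x < T'} := hx
    rw [d0_sm hτ' he i hx', d0_ex ((hf.mono (subset_univ _)).neg) i hx' c,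
      d0_neg (hf.mono (subset_univ _)) i hx']
    by_cases hxi : x ∈ (A.e i).source
    · have h1 := hab i x hx c
      have h2 : sdv1 τ₀ (d0 A τ₀) i x c = (τ₀ i x)⁻¹ * d0 A τ₀ i x c := rfl
      have h3 : d0 A τ₀ i x c = τ₀ i x * (d0 A f i x c + s i x * b i x c) := by
        rw [← h1, h2, ← mul_assoc, mul_inv_cancel₀ (hne i x hxi (hsubT hx)), one_mul]
      simp only [sm, Pi.neg_apply]
      rw [h3]
      ring
    · simp [ex_of_not_mem hxi, sm, d0_of_not_mem hxi]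


theorem norm_exp_neg_sub_one_le (z : ℂ) : ‖Complex.exp (-z) - 1‖ ≤ ‖z‖ * Real.exp ‖z‖ := by
  have h1 := norm_exp_sub_sum_le_norm_mul_exp (-z) 1
  simpa using h1

/-- `τ → 1` exponentially at the small end (on the cores) if `τ₀` does -/
theorem LWOut.near_one (H : LWOut A K h Lβ L s τ₀ d d' d3 d3' T τ f b)
    (hK : ∀ i, K i ⊆ (A.e i).source) (h3 : 0 ≤ d3) {C0 : ℝ}
    (hτ₀ : ∀ i, ∀ x ∈ K i, h x < T → ‖τ₀ i x - 1‖ ≤ C0 * Real.exp (-d3 * |h x|)) :
    ∃ C : ℝ, 0 ≤ C ∧ ∀ i, ∀ x ∈ K i, h x < T →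
      ‖τ i x - 1‖ ≤ C * Real.exp (-d3 * |h x|) ∧ ‖f i x‖ ≤ C * Real.exp (-d3 * |h x|) := by
  obtain ⟨C1, hC1, hb⟩ := (H.bf.low T (-d3)).sup (Kl.sub hK T)
  set D : ℝ := max C0 0 with hD
  have hD0 : 0 ≤ D := le_max_right _ _
  refine ⟨D * Real.exp C1 + C1 * Real.exp C1 + C1, by positivity, fun i x hx hxT => ?_⟩
  have hxs := hK i hx
  set E : ℝ := Real.exp (-d3 * |h x|) with hE
  have hE0 : 0 < E := Real.exp_pos _
  have hE1 : E ≤ 1 := by
    rw [hE, Real.exp_le_one_iff]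
    have := abs_nonneg (h x)
    nlinarith
  have e1 : ‖f i x‖ ≤ C1 * E := by
    have := hb i x ⟨hx, hxT⟩
    rwa [wgt_gg] at this
  have e2 : ‖f i x‖ ≤ C1 := e1.trans (mul_le_of_le_one_right hC1 hE1)
  have e3 : ‖Complex.exp (-(f i x)) - 1‖ ≤ C1 * Real.exp C1 * E := by
    refine (norm_exp_neg_sub_one_le _).trans ?_
    calc ‖f i x‖ * Real.exp ‖f i x‖ ≤ (C1 * E) * Real.exp C1 :=
          mul_le_mul e1 (Real.exp_le_exp.2 e2) (Real.exp_pos _).le (by positivity)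
      _ = _ := by ring
  have e4 : ‖Complex.exp (-(f i x))‖ ≤ Real.exp C1 := by
    rw [Complex.norm_exp]
    apply Real.exp_le_exp.2
    refine le_trans ?_ e2
    have := (Complex.abs_re_le_norm (-(f i x)))
    rw [norm_neg] at this
    exact (le_abs_self _).trans this
  have e5 : ‖τ₀ i x - 1‖ ≤ D * E :=
    (hτ₀ i x hx hxT).trans (mul_le_mul_of_nonneg_right (le_max_left _ _) hE0.le)
  have e6 : τ i x - 1 = (τ₀ i x - 1) * Complex.exp (-(f i x)) + (Complex.exp (-(f i x)) - 1) := by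
    rw [H.eτ]
    simp only [sm, ex_of_mem hxs, Pi.neg_apply]
    ring
  constructor
  · rw [e6]
    refine (norm_add_le _ _).trans ?_
    rw [norm_mul]
    have e7 : ‖τ₀ i x - 1‖ * ‖Complex.exp (-(f i x))‖ ≤ D * E * Real.exp C1 :=
      mul_le_mul e5 e4 (norm_nonneg _) (by positivity)
    have e8 : 0 ≤ C1 * E := by positivity
    nlinarith
  · have e8 : 0 ≤ D * Real.exp C1 * E := by positivity
    have e9 : 0 ≤ C1 * Real.exp C1 * E := by positivity
    nlinarith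

end

end Crest.Agent.R275.LemWB861
end

-- ▼ part R275/St3D_686
section

/-!
R275 (S0418), Part IV, helper686: section 3, part D: the inputs of section 3 from the analysis.
* `bd_of_core`  : sup bounds on the cores give sup bounds on the whole charts
* `bd_decay`    : a section of `V_L` with limit `0` at the small end (explicit rate)
* `solv_of`     : `Solv` from `Sol` (helper352)
* `FrAt`        : logarithms whose cochain vanishes over `{h < T}`; `frameS_of`, `frameW_of`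
-/

set_option autoImplicit false
set_option linter.unusedSectionVars false
set_option linter.unusedVariables false

open Set Filter Topology Complex
open scoped ContDiff Manifold

noncomputable section

namespace Crest.Agent.R275.St3686

open Crest.AlgGeometry.Surface
open Geo Fm96 Core144 FmExt861 Dv69
open Crest.Agent.R275.NAtl938 (IsLog Dec2 HasCls)
open Crest.Agent.R275.Wy5197 (UG fr fri con lam)
open Crest.Agent.R275.Sol352 (Sol)
open Crest.Agent.R275.Sec1197 (SecIn bd_sec)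
open Crest.Agent.R275.BR4672 (BdG)

variable {Y : Type} [TopologicalSpace Y] {A : Atl 2 Y} {h : Y → ℝ} {K : A.ι → Set Y}

/-! ### bounds -/

/-- sup bounds on the cores give sup bounds on the whole charts -/
theorem bd_of_core (cov : ∀ x, ∃ i, x ∈ K i) (hK : ∀ i, K i ⊆ (A.e i).source) {L : LB A}
    (hL : BdG L) {f : A.ι → Y → ℂ} (hf : IsZ0 A L.g univ f) {w : ℝ → ℝ} (hw : ∀ t, 0 ≤ w t)
    {C : ℝ} (hb : ∀ i, ∀ x ∈ K i, ‖f i x‖ ≤ C * w (h x)) : Bd A h w f := by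
  obtain ⟨D, hD⟩ := hL
  refine ⟨max D 0 * max C 0, fun i x hx => ?_⟩
  obtain ⟨j, hj⟩ := cov x
  have h1 := hf.tr i j x ⟨hx, hK j hj⟩ trivial
  rw [h1, norm_mul, mul_assoc]
  refine mul_le_mul ((hD i j x).trans (le_max_left _ _)) ?_ (norm_nonneg _) (le_max_right _ _)
  exact (hb j x hj).trans (mul_le_mul_of_nonneg_right (le_max_left _ _) (hw _))

/-- weights of a section decaying at the small end -/
theorem bd_decay {L : LB A} {s : A.ι → Y → ℂ} (hs : s ∈ VL h L) {C ρ : ℝ} (hρ : 0 ≤ ρ)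
    (hc : ∀ i, ∀ x ∈ (A.e i).source, h x ≤ 0 → ‖s i x‖ ≤ C * Real.exp (ρ * h x)) {e : ℝ}
    (he : 0 < e) : Bd A h (wgt (-ρ) e) s := by
  obtain ⟨D, hD0, hD⟩ := (hs.2 e he).exists_nonneg fun t => (wgt_pos _ _ t).le
  refine ⟨max C D, fun i x hx => ?_⟩
  rcases le_total (h x) 0 with h0 | h0
  · have h1 : wgt (-ρ) e (h x) = Real.exp (ρ * h x) := by
      unfold wgt
      rw [max_eq_left (by linarith), max_eq_right h0]
      congr 1; ring
    rw [h1]
    exact (hc i x hx h0).trans (mul_le_mul_of_nonneg_right (le_max_left _ _) (Real.exp_pos _).le)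
  · have h1 : wgt (-ρ) e (h x) = wgt e e (h x) := by
      unfold wgt
      rw [max_eq_right (by linarith), max_eq_left h0]
      congr 1; ring
    rw [h1]
    exact (hD i x hx).trans (mul_le_mul_of_nonneg_right (le_max_right _ _) (wgt_pos _ _ _).le)

/-- compactly supported forms have all rates -/
theorem bd1_of_csupp (C : Cor A h K) {g : A.ι → A.ι → Y → ℂ} {om : A.ι → Y → Fin 2 → ℂ}
    (ho : IsZ1 A g univ om) (hc : CSupp om) (a b : ℝ) : BD1 A K h a b om := by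
  obtain ⟨Q, hQ, hQu⟩ := hc
  intro c
  exact LemWB861.slab_of_csupp C hQ (fun i x hx => by rw [hQu i x hx]; rfl)
    (fun i x hx => ho.sm i c x (C.sub i hx) (mem_univ x)) _ _

theorem bd0_of_csupp (C : Cor A h K) {g : A.ι → A.ι → Y → ℂ} {F : A.ι → Y → ℂ}
    (ho : IsZ2 A g univ F) (hc : CSupp F) (a b : ℝ) : BD A K h a b F := by
  obtain ⟨Q, hQ, hQu⟩ := hc
  exact LemWB861.slab_of_csupp C hQ (fun i x hx => hQu i x hx)
    (fun i x hx => ho.sm i x (C.sub i hx) (mem_univ x)) _ _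

/-! ### `Solv` -/

theorem d1_eq_funext {om om' : A.ι → Y → ℂ} (H : ∀ i x, om i x = om' i x) : om = om' := by
  funext i x; exact H i x

/-- **`Solv` from the solution theorems** -/
theorem solv_of {Pt : Part A} (U : UG Pt h K) (C : Cor A h K) {P : Subgroup (LB A)}
    {q : LB A → ℤ} {d₀ : ℝ} (S : Sol A K h P q d₀) (hbdg : ∀ L ∈ P, BdG L) {Lβ L0 : LB A}
    (hβ : Lβ ∈ P) (h0 : L0 ∈ P) (hq : q L0⁻¹ = -1) (hV : VL h L0⁻¹ = ⊥) {sβ : A.ι → Y → ℂ}
    (hs : sβ ∈ VL h Lβ) {d : ℝ} (hd : 0 < d) : Solv A h Lβ L0 sβ d := by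
  set e : ℝ := min (d / 2) (d₀ / 4) with he
  have hd0 := S.pos
  have he0 : 0 < e := lt_min (by linarith) (by linarith)
  have he1 : 2 * e ≤ d := by have := min_le_left (d / 2) (d₀ / 4); linarith
  have he2 : 2 * e < d₀ := by have := min_le_right (d / 2) (d₀ / 4); linarith
  refine ⟨BD1 A K h e e, ?_, ?_, ?_, ?_⟩
  · intro F hF hFc
    obtain ⟨b, hb, hbb, hbe⟩ := S.ex₂ (Lβ⁻¹ * L0⁻¹)
      (P.mul_mem (P.inv_mem hβ) (P.inv_mem h0)) (a := 0) (b := 0) (a' := e / 2) (b' := e / 2)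
      (by linarith) (by linarith) F hF (bd0_of_csupp C hF hFc _ _)
    refine ⟨b, hb, d1_eq_funext hbe, ?_⟩
    have h1 : BD A K h (e / 2) (e / 2) sβ := bd_sec U hs.1 (hs.2 _ (by linarith))
    exact (h1.mul1 hbb).mono (by linarith) (by linarith)
  · intro om hom hg hcl
    obtain ⟨f, hf, hfb, hfe⟩ := S.ex₁_gg L0⁻¹ (P.inv_mem h0) hq hV (a := e) (b := e)
      (a' := 2 * e) (b' := 2 * e) (by linarith) he2 (by linarith) he2 (by linarith) (by linarith)
      om hom hg (fun i x => by rw [hcl]; rfl)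
    refine ⟨f, hf, by funext i x; exact hfe i x, ?_⟩
    obtain ⟨D, hD, hDb⟩ := hfb.sup C.sub
    refine bd_of_core C.cov C.sub (hbdg _ (P.inv_mem h0)) hf (fun t => (wgt_pos _ _ t).le)
      (C := D) fun i x hx => (hDb i x hx).trans ?_
    exact mul_le_mul_of_nonneg_left (wgt_mono he1 he1 _) hD
  · exact fun om hom hc => bd1_of_csupp C hom hc _ _
  · exact fun om om' h1 h2 => h1.sub h2

/-! ### frames near the small end -/

/-- logarithms (decaying at both ends) with a cochain vanishing over `{h < T}` -/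
def FrAt (A : Atl 2 Y) (h : Y → ℝ) (L : LB A) (T : ℝ) : Prop :=
  ∃ (θ : A.ι → A.ι → Y → ℂ) (c : A.ι → A.ι → A.ι → ℤ) (C ρ : ℝ), IsLog A L.g θ c ∧ 0 < ρ ∧
    Dec2 A h θ C ρ ∧ ∀ i j k x, x ∈ (A.e i).source → x ∈ (A.e j).source → x ∈ (A.e k).source →
      h x < T → c i j k = 0

theorem FrAt.mono {L : LB A} {T T' : ℝ} (H : FrAt A h L T) (hT : T' ≤ T) : FrAt A h L T' := by
  obtain ⟨θ, c, C, ρ, h1, h2, h3, h4⟩ := H
  exact ⟨θ, c, C, ρ, h1, h2, h3, fun i j k x hi hj hk hx => h4 i j k x hi hj hk (hx.trans_le hT)⟩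

/-- a finitely supported class gives `FrAt` -/
theorem frAt_of_cls {Pt : Part A} (U : UG Pt h K) {L : LB A} {c : A.ι → A.ι → A.ι → ℤ}
    (hc : NAtl938.Fin3 c) (H : HasCls A h L.g c) : ∃ T, FrAt A h L T := by
  classical
  obtain ⟨θ, h1, C, ρ, hρ, h2⟩ := H
  obtain ⟨W, hW, hosc⟩ := U.osc
  -- lower bound of `h` on a chart
  have hlow : ∀ i, ∃ t : ℝ, ∀ x ∈ (A.e i).source, t ≤ h x := by
    intro i
    by_cases hne : ((A.e i).source).Nonempty
    · obtain ⟨y, hy⟩ := hne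
      refine ⟨h y - W, fun x hx => ?_⟩
      have := (abs_le.1 (hosc i x hx y hy)).1
      linarith
    · exact ⟨0, fun x hx => absurd ⟨x, hx⟩ hne⟩
  choose t ht using hlow
  have hf : ((fun p : A.ι × A.ι × A.ι => t p.1) '' {p | c p.1 p.2.1 p.2.2 ≠ 0}).Finite :=
    Set.Finite.image _ hc
  obtain ⟨T, hT⟩ := hf.bddBelow
  refine ⟨T, θ, c, C, ρ, h1, hρ, h2, fun i j k x hi hj hk hx => ?_⟩
  by_contra hne
  have h3 : T ≤ t i := hT ⟨(i, j, k), hne, rfl⟩
  have h4 := ht i x hi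
  linarith

/-- transport of `FrAt` -/
theorem FrAt.tw {σ : Equiv.Perm A.ι} {φ : Y ≃ₜ Y} (S : BR4672.Sy A σ φ) {c₀ : ℝ}
    (hφ : ∀ y, h (φ y) = h y - c₀) {L : LB A} {T : ℝ} (H : FrAt A h L T) :
    FrAt A h (BR4672.twL S L) (T + c₀) := by
  obtain ⟨θ, c, C, ρ, h1, h2, h3, h4⟩ := H
  refine ⟨Cls672.tw2 σ φ θ, Cls672.twc σ c, _, ρ, Cls672.IsLog.tw S h1, h2,
    Cls672.Dec2.tw S hφ h2.le h3, fun i j k x hi hj hk hx => ?_⟩
  exact h4 (σ i) (σ j) (σ k) (φ x) ((S.src i x).2 hi) ((S.src j x).2 hj) ((S.src k x).2 hk)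
    (by rw [hφ]; linarith)

section frames

variable {Pt : Part A} (U : UG Pt h K) (C : Cor A h K)
include U C

theorem wb_low {w : Y → ℝ} {u : A.ι → Y → ℂ} (hu : WB A K w u) (T : ℝ) {a b : ℝ}
    (hw : ∀ x, w x ≤ wgt a b (h x)) : BD A (Kl K h T) h a b u :=
  (WB.sub_core hu (kl_sub T)).mono zero_le_one fun i x _ => by rw [one_mul]; exact hw x

/-- the connection form of the frame -/
theorem sdv1_fr {L : LB A} {θ : A.ι → A.ι → Y → ℂ} {c : A.ι → A.ι → A.ι → ℤ}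
    (hθ : IsLog A L.g θ c) (i : A.ι) {x : Y} (hx : x ∈ (A.e i).source) (b : Fin 2) :
    sdv1 (fr Pt θ) (d0 A (fr Pt θ)) i x b = con Pt θ i x b := by
  show (fr Pt θ i x)⁻¹ * d0 A (fr Pt θ) i x b = _
  rw [Wy5197.d0_fr hθ, ← mul_assoc, inv_mul_cancel₀ (Wy5197.fr_ne hx), one_mul]

theorem abd_fr {L : LB A} {θ : A.ι → A.ι → Y → ℂ} {c : A.ι → A.ι → A.ι → ℤ} {C₀ ρ : ℝ}
    (hθ : IsLog A L.g θ c) (hρ : 0 < ρ) (hd : Dec2 A h θ C₀ ρ) (T : ℝ) {d1 : ℝ} (h1 : d1 ≤ ρ)
    {b0 : ℝ} (hb0 : 0 ≤ b0) :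
    BD1 A (Kl K h T) h (-d1) b0 (sdv1 (fr Pt θ) (d0 A (fr Pt θ))) := by
  intro b
  have h2 : WB A K (fun x => wgt (-ρ) (-ρ) (h x)) (fun i x => con Pt θ i x b) :=
    Wy5197.wb_con U hθ hd b
  have h3 : BD A (Kl K h T) h (-d1) b0 (fun i x => con Pt θ i x b) :=
    wb_low U C h2 T fun x => wgt_mono (by linarith) (by linarith) _
  refine WB.congr h3 (Kl.sub C.sub T) fun i x hx => ?_
  filter_upwards [src_nhds (C.sub i hx.1)] with y hy
  exact sdv1_fr U C hθ i hy b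

/-- helper96's frame -/
theorem frameS_of {L : LB A} {T : ℝ} (H : FrAt A h L T) : ∃ (lam : A.ι → Y → ℂ) (ρ0 : ℝ),
    FrameS A K h L lam T ρ0 := by
  obtain ⟨θ, c, C₀, ρ, hθ, hρ, hd, hc⟩ := H
  refine ⟨fr Pt θ, ρ, hρ, ?_, fun i x hx _ => Wy5197.fr_ne hx, ?_, ?_, ?_⟩
  · exact Wy5197.isZ0_fr hθ fun i j k x hxN hi hj hk => hc i j k x hi hj hk hxN
  · have h1 : WB A K (fun _ => 1) (fr Pt θ) := Wy5197.wb_fr U hθ hρ.le hd
    exact wb_low U C h1 T fun x => by rw [wgt_zero]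
  · have h1 : WB A K (fun _ => 1) (fri Pt θ) := Wy5197.wb_fri U hθ hρ.le hd
    have h2 : (fun i x => (fr Pt θ i x)⁻¹) = fri Pt θ := by
      funext i x; rw [Wy5197.fri_eq_inv]
    rw [h2]
    exact wb_low U C h1 T fun x => by rw [wgt_zero]
  · exact abd_fr U C hθ hρ hd T le_rfl le_rfl

/-- **`FrameW` from Lemma W** (helper861) -/
theorem frameW_of [T2Space Y] (hslab : ∀ a b : ℝ, IsCompact {x | a ≤ h x ∧ h x ≤ b})
    {P : Subgroup (LB A)} {q : LB A → ℤ} {d₀ : ℝ} (S : Sol A K h P q d₀)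
    {Lβ L : LB A} (hβ : Lβ ∈ P) (hbd : BdG L) {T : ℝ} (H : FrAt A h L T) {s : A.ι → Y → ℂ}
    (hs : s ∈ VL h Lβ) (hsd : DenseNZ A univ s) {C₁ ρ : ℝ} (hρ : 0 < ρ)
    (hdec : ∀ i, ∀ x ∈ (A.e i).source, h x ≤ 0 → ‖s i x‖ ≤ C₁ * Real.exp (ρ * h x)) :
    FrameW A h Lβ L s := by
  obtain ⟨θ, c, C₀, ρ₀, hθ, hρ₀, hd, hc⟩ := H
  have hd0 := S.pos
  set r : ℝ := min (min (ρ / 2) (ρ₀ / 2)) (d₀ / 8) with hr
  have hr0 : 0 < r := lt_min (lt_min (by linarith) (by linarith)) (by linarith)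
  have hr1 : 2 * r ≤ ρ := by
    have : r ≤ ρ / 2 := (min_le_left _ _).trans (min_le_left _ _)
    linarith
  have hr2 : 2 * r ≤ ρ₀ := by
    have : r ≤ ρ₀ / 2 := (min_le_left _ _).trans (min_le_right _ _)
    linarith
  have hr3 : 8 * r ≤ d₀ := by
    have : r ≤ d₀ / 8 := min_le_right _ _
    linarith
  -- the frame of helper197
  have hτz : IsZ0 A L.g {x | h x < T} (fr Pt θ) :=
    Wy5197.isZ0_fr hθ fun i j k x hxN hi hj hk => hc i j k x hi hj hk hxN
  have hsb : BD A K h (-ρ) r s := bd_sec U hs.1 (bd_decay hs hρ.le hdec hr0)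
  obtain ⟨τ, f, b, T', hT', W⟩ := LemWB861.lemWB Pt C hslab hs.1 hsd (d := r) (d' := r)
    (d1 := 2 * r) (d2 := 3 * r) (d3 := r) (d3' := 4 * r) (r1 := -(2 * r)) (r2 := 0) (b0 := 0)
    hsb (S.ex₂ _ (P.inv_mem hβ) (by linarith) (by linarith))
    (S.dg (by linarith) (by linarith) (by linarith) (by linarith) (by linarith) (by linarith))
    (by linarith) (by linarith) hτz (fun i x hx _ => Wy5197.fr_ne hx)
    (abd_fr U C hθ hρ₀ hd T hr2 le_rfl)
  obtain ⟨D, hD, hfr, -⟩ := Wy5197.fr_sub_le U hρ₀.le hd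
  obtain ⟨C2, hC2, hnear⟩ := W.near_one C.sub hr0.le (C0 := D) fun i x hx hxT => by
    refine (hfr i x (C.sub i hx)).trans (mul_le_mul_of_nonneg_left ?_ hD)
    rw [wgt_gg]
    apply Real.exp_le_exp.2
    have := abs_nonneg (h x)
    nlinarith
  -- `f` decays on the whole charts, hence `τ → 1`
  have hfdec : ∀ i, ∀ x ∈ (A.e i).source, h x < T' → ‖f i x‖ ≤ C2 * Real.exp (-r * |h x|) := by
    intro i x hx hxT
    obtain ⟨j, hj⟩ := C.cov x
    have h1 := W.zf.tr i j x ⟨hx, C.sub j hj⟩ trivial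
    rw [h1]
    simpa using (hnear j x hj hxT).2
  refine ⟨T', τ, sm1 τ b, W.zτ, W.nτ, ?_, ?_, ?_⟩
  · exact W.zτ.sm1' (W.zb.mono (subset_univ _))
  · intro i x hx c'
    exact W.dτ i x hx c'
  · -- the limit
    intro ε hε
    have hE : Tendsto (fun t : ℝ => Real.exp (r * t)) atBot (𝓝 0) :=
      Real.tendsto_exp_atBot.comp (tendsto_id.const_mul_atBot hr0)
    have h3 : Tendsto (fun t : ℝ => D * Real.exp C2 * Real.exp (r * t) +
        C2 * Real.exp C2 * Real.exp (r * t)) atBot (𝓝 0) := by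
      simpa using (hE.const_mul (D * Real.exp C2)).add (hE.const_mul (C2 * Real.exp C2))
    obtain ⟨T1, hT1⟩ := eventually_atBot.1 (h3.eventually (gt_mem_nhds hε))
    refine ⟨min (min T1 T') 0, fun i x hx hxT => ?_⟩
    have hx1 : h x ≤ T1 := (hxT.trans_le ((min_le_left _ _).trans (min_le_left _ _))).le
    have hx2 : h x < T' := hxT.trans_le ((min_le_left _ _).trans (min_le_right _ _))
    have hx3 : h x < 0 := hxT.trans_le (min_le_right _ _)
    set Ex : ℝ := Real.exp (r * h x) with hEx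
    have hEx0 : 0 < Ex := Real.exp_pos _
    have hEx1 : Ex ≤ 1 := by
      rw [hEx, Real.exp_le_one_iff]; nlinarith
    have hexp : Real.exp (-r * |h x|) = Ex := by
      rw [abs_of_neg hx3, hEx]; congr 1; ring
    have e1 : ‖f i x‖ ≤ C2 * Ex := by rw [← hexp]; exact hfdec i x hx hx2
    have e2 : ‖f i x‖ ≤ C2 := e1.trans (mul_le_of_le_one_right hC2 hEx1)
    have e3 : ‖Complex.exp (-(f i x)) - 1‖ ≤ C2 * Real.exp C2 * Ex := by
      refine (LemWB861.norm_exp_neg_sub_one_le _).trans ?_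
      calc ‖f i x‖ * Real.exp ‖f i x‖ ≤ (C2 * Ex) * Real.exp C2 :=
            mul_le_mul e1 (Real.exp_le_exp.2 e2) (Real.exp_pos _).le (by positivity)
        _ = _ := by ring
    have e4 : ‖Complex.exp (-(f i x))‖ ≤ Real.exp C2 := by
      rw [Complex.norm_exp]
      apply Real.exp_le_exp.2
      refine le_trans ?_ e2
      have := (Complex.abs_re_le_norm (-(f i x)))
      rw [norm_neg] at this
      exact (le_abs_self _).trans this
    have e5 : ‖fr Pt θ i x - 1‖ ≤ D * Ex := by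
      refine (hfr i x hx).trans (mul_le_mul_of_nonneg_left ?_ hD)
      rw [wgt_gg, ← hexp]
      apply Real.exp_le_exp.2
      have := abs_nonneg (h x)
      nlinarith
    have e6 : τ i x - 1 = (fr Pt θ i x - 1) * Complex.exp (-(f i x)) +
        (Complex.exp (-(f i x)) - 1) := by
      rw [W.eτ]
      simp only [sm, ex_of_mem hx, Pi.neg_apply]
      ring
    rw [e6]
    refine (norm_add_le _ _).trans_lt ?_
    rw [norm_mul]
    have e7 : ‖fr Pt θ i x - 1‖ * ‖Complex.exp (-(f i x))‖ ≤ D * Ex * Real.exp C2 :=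
      mul_le_mul e5 e4 (norm_nonneg _) (by positivity)
    have e8 := hT1 (h x) hx1
    rw [← hEx] at e8
    nlinarith

end frames

end Crest.Agent.R275.St3686
end
end

-- ▼ part R275/St3E_686

/-!
R275 (S0418), Part IV, helper686: producers of the fields `sec3` and `far` of `GeoP572.TIn`.
* `kn`         : `K · L = b(L, L) - 2 q(L)`, additive
* `unif`       : uniformity over the unit bundles
* `TinS`       : the input (everything comes from `Sol`, `SecIn`, `UG`, `Cor`, `Lat`, ODIV, NEF)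
* `TinS.limS_zero` : `c_+(s_β) = 0` for all `β`
* `TinS.far`   : Lemma D, far-apart case
* `TinS.s3In`, `TinS.sec3`
-/

set_option autoImplicit false
set_option linter.unusedSectionVars false
set_option linter.unusedVariables false

open Set Filter Topology Complex
open scoped ContDiff Manifold

noncomputable section

namespace Crest.Agent.R275.St3686

open Crest.AlgGeometry.Surface
open Geo Fm96 Core144 FmExt861 Dv69
open Crest.Agent.R275.Dv69.EffDiv (CPr pSum pull)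
open Crest.Agent.R275.HolY631 (Deck)
open Crest.Agent.R275.GeoP572 (Lat bq q_mul bq_comm TG dvs)
open Crest.Agent.R275.NAtl938 (IsLog Dec2 HasCls)
open Crest.Agent.R275.Wy5197 (UG)
open Crest.Agent.R275.Sol352 (Sol)
open Crest.Agent.R275.Sec1197 (SecIn bd_sec)
open Crest.Agent.R275.BR4672 (BdG LowE NZ Sy twL sy_equi twL_congr twL_twL twL_one sy_one)

/-! ### the number `K · L` -/

section lattice

variable {G : Type*} [CommGroup G] {B : Type*} {P T : Subgroup G} {E : B → G} {q : G → ℤ}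

/-- `K · L` -/
def kn (q : G → ℤ) (L : G) : ℤ := bq q L L - 2 * q L

theorem kn_mul (H : Lat P T E q) {L L' : G} (hL : L ∈ P) (hL' : L' ∈ P) :
    kn q (L * L') = kn q L + kn q L' := by
  unfold kn
  have h1 := H.b_add L hL L' hL' (L * L') (P.mul_mem hL hL')
  have h2 : bq q L (L * L') = bq q L L + bq q L' L := by
    rw [bq_comm q L (L * L')]; exact H.b_add L hL L' hL' L hL
  have h3 : bq q L' (L * L') = bq q L L' + bq q L' L' := by
    rw [bq_comm q L' (L * L')]; exact H.b_add L hL L' hL' L' hL'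
  have h4 := q_mul q L L'
  have h5 := bq_comm q L L'
  rw [h1, h2, h3, h4, h5]
  ring

theorem kn_one (H : Lat P T E q) : kn q 1 = 0 := by
  unfold kn
  rw [H.b_one P.one_mem, H.q_one]; ring

theorem kn_congr (H : Lat P T E q) {L L' : G} (hL : L ∈ P) (hL' : L' ∈ P) (h : L' * L⁻¹ ∈ T) :
    kn q L' = kn q L := by
  unfold kn
  have h1 := H.b_congr hL hL' hL' h
  have h2 := H.b_congr hL hL' hL h
  rw [bq_comm q L' L] at h2
  rw [h1, h2, H.q_iso L hL L' hL' h]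

theorem kn_E (H : Lat P T E q) (β : B) : kn q (E β) = -1 := by
  unfold kn
  rw [H.b_self, H.q_E]; ring

theorem q_E_inv (H : Lat P T E q) (β : B) : q (E β)⁻¹ = -1 := by
  have h1 := q_mul q (E β) (E β)⁻¹
  have h2 : bq q (E β) (E β)⁻¹ = 1 := by
    rw [bq_comm, H.b_inv (H.E_mem β) (H.E_mem β), H.b_self]; ring
  rw [mul_inv_cancel, H.q_one, H.q_E, h2] at h1
  omega

end lattice

/-! ### uniformity over the unit bundles -/

/-- a monotone equivariant property has a uniform constant -/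
theorem unif {B : Type} (g : Equiv.Perm B) (lev : B → ℤ) (lev_g : ∀ β, lev (g β) = lev β + 1)
    (fin : {β | lev β = 0}.Finite) (R : B → ℝ → Prop)
    (mono : ∀ β t t', t ≤ t' → R β t → R β t') (sh : ∀ β t, R β t ↔ R (g β) (t - 1))
    (ex : ∀ β, ∃ t, R β t) : ∃ T : ℝ, ∀ β, R β (T - lev β) := by
  classical
  have sh' : ∀ m : ℤ, ∀ β t, R β t ↔ R ((g ^ m) β) (t - m) := by
    intro m
    induction m using Int.induction_on with
    | zero => intro β t; simp
    | succ m ih =>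
      intro β t
      rw [zpow_add_one, Equiv.Perm.mul_apply, sh β t, ih (g β) (t - 1)]
      push_cast
      rw [sub_sub, add_comm (1 : ℝ)]
    | pred m ih =>
      intro β t
      rw [zpow_sub_one, Equiv.Perm.mul_apply]
      have h1 := sh (g⁻¹ β) (t + 1)
      have h2 : g (g⁻¹ β) = β := g.apply_symm_apply β
      rw [h2, add_sub_cancel_right] at h1
      rw [← h1, ih (g⁻¹ β) (t + 1)]
      push_cast
      rw [show t + 1 - -(m : ℝ) = t - (-(m : ℝ) - 1) by ring]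
  have lev' : ∀ m : ℤ, ∀ β, lev ((g ^ m) β) = lev β + m := by
    intro m
    induction m using Int.induction_on with
    | zero => intro β; simp
    | succ m ih =>
      intro β
      rw [zpow_add_one, Equiv.Perm.mul_apply, ih (g β), lev_g]
      ring
    | pred m ih =>
      intro β
      rw [zpow_sub_one, Equiv.Perm.mul_apply, ih (g⁻¹ β)]
      have h1 := lev_g (g⁻¹ β)
      have h2 : g (g⁻¹ β) = β := g.apply_symm_apply β
      rw [h2] at h1
      rw [h1]; ring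
  choose t ht using ex
  obtain ⟨T, hT⟩ := (fin.image t).bddAbove
  refine ⟨T, fun β => ?_⟩
  have h0 : lev ((g ^ (-lev β)) β) = 0 := by rw [lev']; ring
  have h1 : R ((g ^ (-lev β)) β) T := mono _ _ _ (hT ⟨_, h0, rfl⟩) (ht _)
  have h2 := (sh' (lev β) ((g ^ (-lev β)) β) T).1 h1
  have h3 : (g ^ (lev β)) ((g ^ (-lev β)) β) = β := by
    rw [← Equiv.Perm.mul_apply, ← zpow_add, add_neg_cancel, zpow_zero, Equiv.Perm.one_apply]
  rwa [h3] at h2

variable {Y : Type} [TopologicalSpace Y] [ChartedSpace C2 Y] [IsManifold 𝓘(ℂ, C2) 1 Y]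
variable {A : Atl 2 Y} {h : Y → ℝ} {γ : Y ≃ₜ Y} {K : A.ι → Set Y}

/-! ### growth in the three regions -/

/-- growth near both ends is enough -/
theorem mem_VL_of_regions (D : Deck γ h) (hA : Adm A) {L : LB A} (hL : BdG L) {k : A.ι → Y → ℂ}
    (hk : IsHS L univ k) (T1 T2 : ℝ)
    (h1 : ∀ e > 0, ∃ C : ℝ, ∀ i, ∀ x ∈ (A.e i).source, h x < T1 → ‖k i x‖ ≤ C * wgt e e (h x))
    (h2 : ∀ e > 0, ∃ C : ℝ, ∀ i, ∀ x ∈ (A.e i).source, T2 < h x → ‖k i x‖ ≤ C * wgt e e (h x)) :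
    k ∈ VL h L := by
  refine ⟨hk, fun e he => ?_⟩
  obtain ⟨C1, hC1⟩ := h1 e he
  obtain ⟨C2, hC2⟩ := h2 e he
  obtain ⟨M, hM0, hM⟩ := BR4672.bd_on_compact hA hL hk (D.slab T1 T2)
  refine ⟨max (max C1 C2) M, fun i x hx => ?_⟩
  have hw := wgt_pos e e (h x)
  by_cases c1 : h x < T1
  · exact (hC1 i x hx c1).trans (mul_le_mul_of_nonneg_right
      ((le_max_left _ _).trans (le_max_left _ _)) hw.le)
  · by_cases c2 : T2 < h x
    · exact (hC2 i x hx c2).trans (mul_le_mul_of_nonneg_right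
        ((le_max_right _ _).trans (le_max_left _ _)) hw.le)
    · have h3 := hM i x hx ⟨not_lt.1 c1, not_lt.1 c2⟩
      have h4 : 1 ≤ wgt e e (h x) := by
        rw [wgt_gg]
        exact Real.one_le_exp (mul_nonneg he.le (abs_nonneg _))
      calc ‖k i x‖ ≤ M := h3
        _ ≤ max (max C1 C2) M * 1 := by rw [mul_one]; exact le_max_right _ _
        _ ≤ _ := mul_le_mul_of_nonneg_left h4 (hM0.trans (le_max_right _ _))

/-- the quotient has small growth at the large end -/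
theorem quot_large {L L' : LB A} {s u k : A.ι → Y → ℂ} (hu : u ∈ VL h L')
    (e0 : ∀ i x, s i x * k i x = u i x) {T2 δ : ℝ} (hδ : 0 < δ)
    (hlow : ∀ i, ∀ x ∈ (A.e i).source, T2 < h x → δ ≤ ‖s i x‖) (e : ℝ) (he : 0 < e) :
    ∃ C : ℝ, ∀ i, ∀ x ∈ (A.e i).source, T2 < h x → ‖k i x‖ ≤ C * wgt e e (h x) := by
  obtain ⟨C, hC0, hC⟩ := (hu.2 e he).exists_nonneg fun t => (wgt_pos _ _ t).le
  refine ⟨C / δ, fun i x hx hxT => ?_⟩
  have h1 := hlow i x hx hxT
  have h2 := hC i x hx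
  rw [← e0 i x, norm_mul] at h2
  rw [div_mul_eq_mul_div, le_div_iff₀ hδ, mul_comm]
  exact (mul_le_mul_of_nonneg_right h1 (norm_nonneg _)).trans h2

/-! ### the input -/

/-- the input of the producers of `sec3` and `far` -/
structure TinS (A : Atl 2 Y) (Pt : Part A) (h : Y → ℝ) (γ : Y ≃ₜ Y) (Q : Equi A γ)
    (K : A.ι → Set Y) (P : Subgroup (LB A)) {B : Type} (g : Equiv.Perm B) (lev : B → ℤ)
    (E : B → LB A) (q : LB A → ℤ) (s : B → A.ι → Y → ℂ) (d : ℝ) : Prop where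
  adm : Adm A
  big : Nonempty (Big A)
  deck : Deck γ h
  ug : UG Pt h K
  cor : Cor A h K
  le : P ≤ PG A h
  /-- finitely supported classes (`frAt_of_cls`) -/
  fr : ∀ L ∈ P, ∃ T, FrAt A h L T
  lev_g : ∀ β, lev (g β) = lev β + 1
  fin : ∀ n, {β | lev β = n}.Finite
  /-- helper572's class lattice (`T` = trivial bundles) -/
  lat : ∃ T : Subgroup (LB A), (∀ L, L ∈ T ↔ TrivP h L) ∧ Lat P T E q
  E_pull : ∀ β, pullL Q (E (g β)) = E β
  s_pull : ∀ β, pullS Q (s (g β)) = s β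
  s_mem : ∀ β, s β ∈ VL h (E β)
  s_ne : ∀ β, s β ≠ 0
  sol : Sol A K h P q d
  sec : SecIn A h P q
  /-- exponential convergence at the small end -/
  limS : ∀ L ∈ P, ∀ σ ∈ VL h L, ∃ (c : ℂ) (C ρ : ℝ), 0 < ρ ∧
    ∀ i, ∀ x ∈ (A.e i).source, h x ≤ 0 → ‖σ i x - c‖ ≤ C * Real.exp (ρ * h x)
  /-- ODIV for compact primes -/
  odiv : ∀ C : EffDiv Y, Mon.IsPr C → IsCompact C.supp → ∃ L ∈ P, ∃ σ ∈ VL h L, σ ≠ 0 ∧
    dvs A σ = C ∧ LowE A h σ
  /-- NEF -/
  nef : ∀ C : EffDiv Y, Mon.IsPr C → IsCompact C.supp → ∀ L ∈ P, ∀ σ ∈ VL h L, σ ≠ 0 →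
    dvs A σ = C → 2 * q L ≤ bq q L L

namespace TinS

variable {Pt : Part A} {Q : Equi A γ} {P : Subgroup (LB A)} {B : Type} {g : Equiv.Perm B}
  {lev : B → ℤ} {E : B → LB A} {q : LB A → ℤ} {s : B → A.ι → Y → ℂ} {d : ℝ}
  (H : TinS A Pt h γ Q K P g lev E q s d)
include H

theorem bdg {L : LB A} (hL : L ∈ P) : BdG L := BR4672.InP.bdG (H.le hL)

theorem E_mem (β : B) : E β ∈ P := by
  obtain ⟨T, -, lat⟩ := H.lat
  exact lat.E_mem β

theorem lim {L : LB A} (hL : L ∈ P) {σ : A.ι → Y → ℂ} (hσ : σ ∈ VL h L) (h0 : σ ≠ 0) :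
    ∃ c : ℂ, c ≠ 0 ∧ LimL (A := A) h σ c := by
  obtain ⟨c, hc⟩ := H.sec.limL L hL σ hσ
  exact ⟨c, H.sec.limL_ne hL hσ h0 hc, hc⟩


/-- the sections with divisor a given compact divisor -/
def Gd (A : Atl 2 Y) (h : Y → ℝ) (P : Subgroup (LB A)) (q : LB A → ℤ) (D : EffDiv Y) : Prop :=
  ∃ L ∈ P, ∃ σ ∈ VL h L, σ ≠ 0 ∧ dvs A σ = D ∧ LowE A h σ ∧ 0 ≤ kn q L

section gd

variable [PreconnectedSpace Y] [Nonempty Y]

theorem gd_zero : Gd A h P q 0 := by
  obtain ⟨T, -, lat⟩ := H.lat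
  refine ⟨1, P.one_mem, oneS A, oneS_mem_VL, GeoP572.oneS_ne_zero, GeoP572.dvs_oneS H.adm,
    BR4672.lowE_of_one (T := 0) fun i x hx _ => by simp [oneS, hx], ?_⟩
  rw [kn_one lat]

theorem gd_add {D D' : EffDiv Y} (h1 : Gd A h P q D) (h2 : Gd A h P q D') :
    Gd A h P q (D + D') := by
  obtain ⟨T, -, lat⟩ := H.lat
  obtain ⟨L, hL, σ, hσ, hσ0, rfl, hl, hk⟩ := h1
  obtain ⟨L', hL', σ', hσ', hσ0', rfl, hl', hk'⟩ := h2
  refine ⟨L * L', P.mul_mem hL hL', σ * σ', mul_mem_VL hσ hσ',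
    GeoP572.mul_ne_zero' H.adm hσ.1 hσ0 hσ'.1 hσ0', GeoP572.dvs_mul H.adm hσ.1 hσ0 hσ'.1 hσ0',
    hl.mul hl', ?_⟩
  rw [kn_mul lat hL hL']
  omega

theorem gd_nsmul {D : EffDiv Y} (h1 : Gd A h P q D) (n : ℕ) : Gd A h P q (n • D) := by
  induction n with
  | zero => rw [zero_smul]; exact H.gd_zero
  | succ n ih => rw [succ_nsmul]; exact H.gd_add ih h1

theorem gd_cpr (C : CPr Y) : Gd A h P q C.1 := by
  obtain ⟨L, hL, σ, hσ, hσ0, hd, hl⟩ := H.odiv C.1 C.2.1 C.2.2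
  refine ⟨L, hL, σ, hσ, hσ0, hd, hl, ?_⟩
  have := H.nef C.1 C.2.1 C.2.2 L hL σ hσ hσ0 hd
  unfold kn
  omega

theorem gd_pSum (D : EffDiv Y) (S : Finset (CPr Y)) : Gd A h P q (pSum D S) := by
  classical
  unfold EffDiv.pSum
  induction S using Finset.induction_on with
  | empty => rw [Finset.sum_empty]; exact H.gd_zero
  | insert C S hC ih =>
    rw [Finset.sum_insert hC]
    exact H.gd_add (H.gd_nsmul (H.gd_cpr C) _) ih

end gd

variable [PreconnectedSpace Y] [Nonempty Y]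

/-- **`c_+(s_β) = 0`** -/
theorem limS_zero (β : B) : LimS (A := A) h (s β) 0 := by
  obtain ⟨T, hT, lat⟩ := H.lat
  obtain ⟨c, C, ρ, hρ, hc⟩ := H.limS (E β) (H.E_mem β) (s β) (H.s_mem β)
  have h1 := limS_of_exp hρ hc
  by_cases hc0 : c = 0
  · rwa [hc0] at h1
  · exfalso
    obtain ⟨c', hc'0, hc'⟩ := H.lim (H.E_mem β) (H.s_mem β) (H.s_ne β)
    have hlow := BR4672.lowE_of_lim h1 hc0 hc' hc'0
    have nz : NZ A (s β) := BR4672.nz_of_ne H.adm (H.s_mem β).1 (H.s_ne β)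
    have hcomp : IsCompact (dvs A (s β)).supp :=
      BR4672.isCompact_supp H.deck H.adm (H.s_mem β).1 nz hlow
    obtain ⟨S, hS⟩ := EffDiv.exists_eq_pSum hcomp
    obtain ⟨M, hM, σ, hσ, hσ0, hσd, hσl, hσk⟩ := H.gd_pSum (dvs A (s β)) S
    rw [← hS] at hσd
    have nzσ : NZ A σ := BR4672.nz_of_ne H.adm hσ.1 hσ0
    obtain ⟨w, hw, ew, -, -⟩ := BR4672.exists_quot_VL H.deck H.adm (H.bdg hM)
      (H.bdg (H.E_mem β)) hσ.1 nzσ hσl (H.s_mem β) nz hσd.le
    obtain ⟨v, hv, ev, -, -⟩ := BR4672.exists_quot_VL H.deck H.adm (H.bdg (H.E_mem β))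
      (H.bdg hM) (H.s_mem β).1 nz hlow hσ nzσ hσd.ge
    have hw0 : w ≠ 0 := by rintro rfl; rw [mul_zero] at ew; exact H.s_ne β ew
    have hv0 : v ≠ 0 := by rintro rfl; rw [mul_zero] at ev; exact hσ0 ev
    have hv' : v ∈ VL h (E β * M⁻¹)⁻¹ := by
      rw [mul_inv, inv_inv, mul_comm]; exact hv
    have hP : E β * M⁻¹ ∈ P := P.mul_mem (H.E_mem β) (P.inv_mem hM)
    have h2 : E β * M⁻¹ ∈ T := (hT _).2 (H.sec.trivP_of_ne hP hw hv' hw0 hv0)
    have h3 := kn_congr lat hM (H.E_mem β) h2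
    rw [kn_E lat β] at h3
    omega

/-- decay of `s β` at the small end, explicit rate -/
theorem decay (β : B) : ∃ C ρ : ℝ, 0 < ρ ∧ ∀ i, ∀ x ∈ (A.e i).source, h x ≤ 0 →
    ‖s β i x‖ ≤ C * Real.exp (ρ * h x) := by
  obtain ⟨c, C, ρ, hρ, hc⟩ := H.limS (E β) (H.E_mem β) (s β) (H.s_mem β)
  have h1 : c = 0 := BR4672.LimS.unique H.sec.small (limS_of_exp hρ hc) (H.limS_zero β)
  subst h1
  exact ⟨C, ρ, hρ, fun i x hx h0 => by simpa using hc i x hx h0⟩

theorem VL_inv (β : B) : VL h (E β)⁻¹ = ⊥ :=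
  H.sec.VL_inv_eq_bot (H.E_mem β) (H.s_mem β) (H.s_ne β) (H.limS_zero β)

theorem q_inv (β : B) : q (E β)⁻¹ = -1 := by
  obtain ⟨T, -, lat⟩ := H.lat
  exact q_E_inv lat β

/-! ### uniform levels -/

/-- `s_β` has no zeros beyond `T0 - lev β` -/
theorem exists_top : ∃ T0 : ℝ, ∀ β, ∀ i, ∀ x ∈ (A.e i).source, T0 - lev β < h x →
    s β i x ≠ 0 := by
  refine unif g lev H.lev_g (H.fin 0)
    (fun β t => ∀ i, ∀ x ∈ (A.e i).source, t < h x → s β i x ≠ 0) ?_ ?_ ?_
  · intro β t t' htt' h1 i x hx hxt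
    exact h1 i x hx (htt'.trans_lt hxt)
  · intro β t
    have key : ∀ i x, s β i x = s (g β) (Q.sh i) (γ x) := by
      intro i x
      rw [← H.s_pull β]; rfl
    constructor
    · intro h1 j y hy hyt h0
      have e1 : γ (γ.symm y) = y := γ.apply_symm_apply y
      have e2 : Q.sh (Q.sh.symm j) = j := Q.sh.apply_symm_apply j
      have h2 : γ.symm y ∈ (A.e (Q.sh.symm j)).source := by
        rw [← Q.src', e1, e2]; exact hy
      refine h1 (Q.sh.symm j) (γ.symm y) h2 ?_ ?_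
      · have := H.deck.shift_symm y
        linarith
      · rw [key, e1, e2]; exact h0
    · intro h1 i x hx hxt h0
      refine h1 (Q.sh i) (γ x) ((Q.src' i x).2 hx) ?_ ?_
      · have := H.deck.shift x
        linarith
      · rw [← key]; exact h0
  · intro β
    obtain ⟨c, hc0, hc⟩ := H.lim (H.E_mem β) (H.s_mem β) (H.s_ne β)
    obtain ⟨t, δ, hδ, ht⟩ := BR4672.lowL hc hc0
    refine ⟨t, fun i x hx hxt h0 => ?_⟩
    have := ht i x hx hxt
    rw [h0, norm_zero] at this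
    linarith

/-- uniform frames -/
theorem exists_fr : ∃ T1 : ℝ, ∀ β, FrAt A h (E β) (T1 - lev β) := by
  have h0 : {β | (fun β => -lev β) β = 0}.Finite := by
    have : {β | (fun β => -lev β) β = 0} = {β | lev β = 0} := by
      ext β; simp
    rw [this]; exact H.fin 0
  have sh : ∀ β t, FrAt A h (E β) (-t) ↔ FrAt A h (E (g.symm β)) (-(t - 1)) := by
    intro β t
    have e1 : pullL Q (E β) = E (g.symm β) := by
      have := H.E_pull (g.symm β)
      rwa [Equiv.apply_symm_apply] at this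
    constructor
    · intro h1
      have h2 := h1.tw (sy_equi Q) (c₀ := 1) H.deck.shift
      rw [← BR4672.pullL_eq, e1] at h2
      rwa [show -t + 1 = -(t - 1) by ring] at h2
    · intro h1
      have h2 := h1.tw (sy_equi Q).inv (c₀ := -1) fun y => by
        have := H.deck.shift_symm y
        have e2 : (γ⁻¹ : Y ≃ₜ Y) y = γ.symm y := rfl
        rw [e2]; linarith
      have e3 : twL (sy_equi Q).inv (E (g.symm β)) = E β := by
        rw [← e1, BR4672.pullL_eq, twL_twL,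
          twL_congr _ sy_one (mul_inv_cancel _) (mul_inv_cancel _), twL_one]
      rw [e3] at h2
      rwa [show -(t - 1) + -1 = -t by ring] at h2
  have ex : ∀ β, ∃ t, FrAt A h (E β) (-t) := by
    intro β
    obtain ⟨T, hT⟩ := H.fr (E β) (H.E_mem β)
    exact ⟨-T, by rwa [neg_neg]⟩
  obtain ⟨T, hT⟩ := unif g.symm (fun β => -lev β) (fun β => by
      have h1 := H.lev_g (g.symm β)
      rw [Equiv.apply_symm_apply] at h1
      show -lev (g.symm β) = -lev β + 1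
      omega) h0
    (fun β t => FrAt A h (E β) (-t)) (fun β t t' htt' h1 => h1.mono (by linarith)) sh ex
  refine ⟨-T, fun β => ?_⟩
  have := hT β
  push_cast at this
  rwa [show -(T - -(lev β : ℝ)) = -T - lev β by ring] at this

/-! ### Lemma D, far-apart case -/

/-- one pair -/
theorem far_pair (β δ : B) {T : ℝ} (hfr : FrAt A h (E β) T)
    (htop : ∀ i, ∀ x ∈ (A.e i).source, T - 5 < h x → s δ i x ≠ 0) :
    ∃ k ∈ VL h (E β * (E δ)⁻¹), s β = s δ * k := by
  obtain ⟨lam, ρ0, hlam⟩ := frameS_of H.ug H.cor hfr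
  obtain ⟨Cβ, ρβ, hρβ, hβ⟩ := H.decay β
  obtain ⟨Cδ, ρδ, hρδ, hδ⟩ := H.decay δ
  have hd0 := H.sol.pos
  set ρ : ℝ := min ρβ ρδ with hρ
  have hρ0 : 0 < ρ := lt_min hρβ hρδ
  have hsz : IsH A (E β).g univ (s β) := (Fm96.isHS_iff isOpen_univ).1 (H.s_mem β).1
  have hsδ : IsH A (E δ).g univ (s δ) := (Fm96.isHS_iff isOpen_univ).1 (H.s_mem δ).1
  have D : LD A K h (E δ) (E β) (s δ) (s β) lam univ T ρ ρ0 :=
    { C := H.cor
      bot := fun t => H.sec.small t
      hρ := hρ0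
      hs := hsδ
      sd := denseNZ_of_nz (BR4672.nz_of_ne H.adm (H.s_mem δ).1 (H.s_ne δ)) univ
      sne := htop
      sbd := fun e he => (bd_sec H.ug (H.s_mem δ).1 (bd_decay (H.s_mem δ) hρδ.le hδ he)).mono
        (neg_le_neg (min_le_right _ _)) le_rfl
      oN := isOpen_univ
      subN := subset_univ _
      hu := hsz
      ubd := ((bd_sec H.ug (H.s_mem β).1 (bd_decay (H.s_mem β) hρβ.le hβ one_pos)).mono
        (neg_le_neg (min_le_left _ _)) le_rfl).low T 0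
      fr := hlam }
  have hρ00 := hlam.pos
  set dd : ℝ := d / 4 with hdd
  set r : ℝ := min dd ρ0 with hr
  have hr0 : 0 < r := lt_min (by linarith) hρ00
  have hrd : r ≤ dd := min_le_left _ _
  obtain ⟨k, hk, ek, hbd⟩ := D.lemD (d := dd) (r := r) (e0 := d / 2) (e1 := d) (by linarith) hr0
    hrd (min_le_right _ _) (by linarith) (by linarith)
    (H.sol.ex₂ _ (P.inv_mem (H.E_mem δ)) (by linarith) (by linarith))
    (H.sol.dg (by linarith) (by linarith) (by linarith) (by linarith) (by linarith)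
      (by linarith))
    (fun e he1 he2 => H.sol.ex₁_gg _ (P.inv_mem (H.E_mem δ)) (H.q_inv δ) (H.VL_inv δ) he1 he2
      he1 he2 he1 he1)
    (H.sol.const (by linarith) (by linarith))
  have hkS : IsHS (E β * (E δ)⁻¹) univ k := by
    rw [mul_comm]; exact (Fm96.isHS_iff isOpen_univ).2 hk
  have hPk : E β * (E δ)⁻¹ ∈ P := P.mul_mem (H.E_mem β) (P.inv_mem (H.E_mem δ))
  refine ⟨k, ?_, ?_⟩
  · obtain ⟨c, hc0, hc⟩ := H.lim (H.E_mem δ) (H.s_mem δ) (H.s_ne δ)
    obtain ⟨t, δ', hδ', ht⟩ := BR4672.lowL hc hc0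
    refine mem_VL_of_regions H.deck H.adm (H.bdg hPk) hkS (T - 4) t ?_
      (quot_large (L := E δ) (H.s_mem β) ek hδ' ht)
    intro e he
    obtain ⟨C, hC, hCb⟩ := hbd e he
    obtain ⟨D', hD'⟩ := H.bdg hPk
    refine ⟨max D' 0 * C, fun i x hx hxT => ?_⟩
    obtain ⟨j, hj⟩ := H.cor.cov x
    have h1 := hkS.tr i j x ⟨hx, H.cor.sub j hj⟩ trivial
    rw [h1, norm_mul, mul_assoc]
    exact mul_le_mul ((hD' i j x).trans (le_max_left _ _)) (hCb j x hj hxT) (norm_nonneg _)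
      (le_max_right _ _)
  · funext i x
    exact (ek i x).symm

/-- **Lemma D, far-apart case** -/
theorem far' : ∃ N : ℤ, ∀ β δ, lev β + N ≤ lev δ → ∃ k ∈ VL h (E β * (E δ)⁻¹),
    s β = s δ * k := by
  obtain ⟨T0, hT0⟩ := H.exists_top
  obtain ⟨T1, hT1⟩ := H.exists_fr
  refine ⟨⌈T0 + 5 - T1⌉, fun β δ hβδ => ?_⟩
  refine H.far_pair β δ (hT1 β) fun i x hx hxT => hT0 δ i x hx ?_
  have h1 : T0 + 5 - T1 ≤ (⌈T0 + 5 - T1⌉ : ℤ) := Int.le_ceil _
  have h2 : ((lev β + ⌈T0 + 5 - T1⌉ : ℤ) : ℝ) ≤ ((lev δ : ℤ) : ℝ) := by exact_mod_cast hβδ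
  push_cast at h2
  linarith

/-- the field `far` of `GeoP572.TIn` -/
theorem far : ∃ N : ℤ, ∀ β δ, lev β + N ≤ lev δ → dvs A (s δ) ≤ dvs A (s β) := by
  obtain ⟨N, hN⟩ := H.far'
  refine ⟨N, fun β δ hβδ => ?_⟩
  obtain ⟨k, hk, e⟩ := hN β δ hβδ
  have hk0 : k ≠ 0 := by rintro rfl; rw [mul_zero] at e; exact H.s_ne β e
  rw [e, GeoP572.dvs_mul H.adm (H.s_mem δ).1 (H.s_ne δ) hk.1 hk0]
  exact le_self_add

/-- the input of section 3 -/
theorem s3In [T2Space Y] : S3In A h γ P g lev E s where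
  adm := H.adm
  big := H.big
  part := ⟨Pt⟩
  smh := H.cor.sm
  deck := H.deck
  lev_g := H.lev_g
  E_mem := H.E_mem
  s_mem := H.s_mem
  s_ne := H.s_ne
  dpull hγ β := by
    rw [← GeoP572.dvs_pull H.adm Q hγ (H.s_mem (g β)).1 (H.s_ne (g β)), H.s_pull β]
  lim L hL σ hσ h0 := H.lim hL hσ h0
  limS := H.limS
  far := H.far'
  frame β δ _ := by
    obtain ⟨C, ρ, hρ, hc⟩ := H.decay β
    obtain ⟨T, hT⟩ := H.fr (E δ) (H.E_mem δ)
    exact frameW_of H.ug H.cor H.deck.slab H.sol (H.E_mem β) (H.bdg (H.E_mem δ)) hT (H.s_mem β)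
      (denseNZ_of_nz (BR4672.nz_of_ne H.adm (H.s_mem β).1 (H.s_ne β)) univ) hρ hc
  solv β δ _ _ r hr := solv_of H.ug H.cor H.sol (fun L hL => H.bdg hL) (H.E_mem β) (H.E_mem δ)
    (H.q_inv δ) (H.VL_inv δ) (H.s_mem β) hr

/-- **the field `sec3` of `GeoP572.TIn`** -/
theorem sec3 [T2Space Y] : GeoP572.Sec3 A h s := H.s3In.sec3

end TinS

end Crest.Agent.R275.St3686
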