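import Crest.Agent.R275.BR4b_672
import Crest.Agent.R275.WD_938
import Crest.Agent.R275.ODiv_686
import Crest.Agent.R275.Cls_672
import Crest.Agent.R275.Cls_938
import Crest.Agent.R275.Core2_144
import Crest.Agent.R275.SecD_572
import Crest.Agent.R275.Sec1C_197
import Crest.Agent.R275.Bdc_96
import Crest.Agent.R275.WBHt_658
import Crest.Agent.R275.SupD_912
import Crest.Agent.R275.Wy5B_197
import Crest.Agent.R275.St3E_686
import Crest.Agent.R275.Base_144
import Crest.Agent.R275.PSol_646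
import Crest.Agent.R275.Sol_352
import Crest.Agent.R275.EB_938
import Crest.Agent.R275.DivP_572

-- ▼ part R275/Conv_672
section

/-!
# R275, block P, leaf CLS / CONV (helper672), OUT4 of docs 1163

* `resL`, `resS` : restriction of line bundles / families between the atlases `N.at' σ`, `N.at' ρ`
  (`ρ ≤ σ`); `isHS_resS`, `resS_mem_VL`, `inP_resL`, `dv_resS`, limits
* `adm_at'`      : the atlases `N.at' ρ` are admissible if the big charts are charts of `Y`
* `exists_hasCls`: **CONV** `L̂ : LB N.big`, `InP h L̂`  ==>  a finitely supported class of its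
  restriction to the small balls, cocycle on the nerve of the big balls
-/

set_option autoImplicit false
set_option linter.unusedSectionVars false

open Set Filter Topology Complex Metric
open scoped Manifold ContDiff

namespace Crest.Agent.R275.Conv672

open Crest.AlgGeometry.Surface
open Crest.Agent.R275.Geo Crest.Agent.R275.Core144 Crest.Agent.R275.NAtl938
open Crest.Agent.R275.BR4672 Crest.Agent.R275.GC293 Crest.Agent.R275.Fm96

noncomputable section

/-! ### restriction to smaller balls -/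

section Res

variable {n : ℕ} {Y : Type} [TopologicalSpace Y] {N : NAtl n Y} {ρ σ : ℝ} {hρ : N.r ≤ ρ}
  {hσ : N.r ≤ σ}

theorem mem_src {ρ : ℝ} {hρ : N.r ≤ ρ} {i : N.ι} {x : Y} :
    x ∈ ((N.at' ρ hρ).e i).source ↔ x ∈ N.B ρ i := Set.ext_iff.1 (N.at'_source hρ i) x

theorem tgt_mono (h : ρ ≤ σ) (i : N.ι) :
    ((N.at' ρ hρ).e i).target ⊆ ((N.at' σ hσ).e i).target := by
  intro z hz
  simp only [NAtl.at', OpenPartialHomeomorph.trans_target, OpenPartialHomeomorph.ofSet_target,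
    OpenPartialHomeomorph.ofSet_symm, OpenPartialHomeomorph.ofSet_apply] at hz ⊢
  exact ⟨ball_subset_ball h hz.1, hz.2⟩

theorem holAt_res (h : ρ ≤ σ) {i : N.ι} {U : Set Y} {f : Y → ℂ}
    (hf : HolAt (N.at' σ hσ) i U f) : HolAt (N.at' ρ hρ) i U f :=
  DifferentiableOn.mono hf fun _ hz => ⟨tgt_mono h i hz.1, hz.2⟩

open Classical in
/-- restriction of a line bundle to smaller balls -/
def resL (hρ : N.r ≤ ρ) (hσ : N.r ≤ σ) (h : ρ ≤ σ) : LB (N.at' σ hσ) →* LB (N.at' ρ hρ) where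
  toFun L :=
    { g := fun i j x => if x ∈ N.B ρ i ∩ N.B ρ j then L.g i j x else 1
      hol := fun i j => by
        have h1 : HolAt (N.at' ρ hρ) i ((N.at' ρ hρ).e j).source (L.g i j) :=
          (holAt_res h (L.hol i j)).mono fun x hx =>
            mem_src.2 (N.B_mono h j (mem_src.1 hx))
        exact h1.congr fun x hx hx' => by rw [if_pos ⟨mem_src.1 hx, mem_src.1 hx'⟩]
      off := fun i j x hx => if_neg fun h' => hx ⟨mem_src.2 h'.1, mem_src.2 h'.2⟩
      self := fun i x => by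
        split_ifs
        · exact L.self i x
        · rfl
      mul := fun i j k x hx => by
        have h1 : x ∈ N.B ρ i := mem_src.1 hx.1.1
        have h2 : x ∈ N.B ρ j := mem_src.1 hx.1.2
        have h3 : x ∈ N.B ρ k := mem_src.1 hx.2
        rw [if_pos ⟨h1, h2⟩, if_pos ⟨h2, h3⟩, if_pos ⟨h1, h3⟩]
        exact L.mul i j k x ⟨⟨mem_src.2 (N.B_mono h i h1), mem_src.2 (N.B_mono h j h2)⟩,
          mem_src.2 (N.B_mono h k h3)⟩ }
  map_one' := by
    ext i j x
    show (if x ∈ N.B ρ i ∩ N.B ρ j then (1 : ℂ) else 1) = 1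
    split_ifs <;> rfl
  map_mul' L L' := by
    ext i j x
    show (if x ∈ N.B ρ i ∩ N.B ρ j then L.g i j x * L'.g i j x else 1) =
      (if x ∈ N.B ρ i ∩ N.B ρ j then L.g i j x else 1) *
        (if x ∈ N.B ρ i ∩ N.B ρ j then L'.g i j x else 1)
    split_ifs
    · rfl
    · rw [one_mul]

theorem resL_g (h : ρ ≤ σ) (L : LB (N.at' σ hσ)) {i j : N.ι} {x : Y}
    (hx : x ∈ N.B ρ i ∩ N.B ρ j) : (resL hρ hσ h L).g i j x = L.g i j x := if_pos hx

open Classical in
/-- restriction of a family to smaller balls -/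
def resS (N : NAtl n Y) (ρ : ℝ) (s : N.ι → Y → ℂ) : N.ι → Y → ℂ :=
  fun i x => if x ∈ N.B ρ i then s i x else 0

theorem resS_apply {s : N.ι → Y → ℂ} {i : N.ι} {x : Y} (hx : x ∈ N.B ρ i) :
    resS N ρ s i x = s i x := if_pos hx




theorem isHS_resS (h : ρ ≤ σ) {L : LB (N.at' σ hσ)} {U : Set Y} {s : N.ι → Y → ℂ}
    (hs : IsHS L U s) : IsHS (resL hρ hσ h L) U (resS N ρ s) where
  hol i := (holAt_res h (hs.hol i)).congr fun x hx _ => by rw [resS_apply (mem_src.1 hx)]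
  off i x hx := if_neg fun h' => hx (mem_src.2 h')
  tr i j x hx hxU := by
    have h1 : x ∈ N.B ρ i := mem_src.1 hx.1
    have h2 : x ∈ N.B ρ j := mem_src.1 hx.2
    rw [resS_apply h1, resS_apply h2, resL_g h L ⟨h1, h2⟩]
    exact hs.tr i j x ⟨mem_src.2 (N.B_mono h i h1), mem_src.2 (N.B_mono h j h2)⟩ hxU

variable {ht : Y → ℝ}

theorem bd_resS (h : ρ ≤ σ) {w : ℝ → ℝ} {s : N.ι → Y → ℂ} (hs : Bd (N.at' σ hσ) ht w s) :
    Bd (N.at' ρ hρ) ht w (resS N ρ s) := by
  obtain ⟨C, hC⟩ := hs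
  refine ⟨C, fun i x hx => ?_⟩
  rw [resS_apply (mem_src.1 hx)]
  exact hC i x (mem_src.2 (N.B_mono h i (mem_src.1 hx)))

theorem resS_mem_VL (h : ρ ≤ σ) {L : LB (N.at' σ hσ)} {s : N.ι → Y → ℂ} (hs : s ∈ VL ht L) :
    resS N ρ s ∈ VL ht (resL hρ hσ h L) :=
  ⟨isHS_resS h hs.1, fun ε hε => bd_resS h (hs.2 ε hε)⟩

theorem limS_resS (h : ρ ≤ σ) {s : N.ι → Y → ℂ} {c : ℂ}
    (hs : LimS (A := N.at' σ hσ) ht s c) : LimS (A := N.at' ρ hρ) ht (resS N ρ s) c := by
  intro ε hε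
  obtain ⟨T, hT⟩ := hs ε hε
  refine ⟨T, fun i x hx hxT => ?_⟩
  rw [resS_apply (mem_src.1 hx)]
  exact hT i x (mem_src.2 (N.B_mono h i (mem_src.1 hx))) hxT

theorem limL_resS (h : ρ ≤ σ) {s : N.ι → Y → ℂ} {c : ℂ}
    (hs : LimL (A := N.at' σ hσ) ht s c) : LimL (A := N.at' ρ hρ) ht (resS N ρ s) c := by
  intro ε hε
  obtain ⟨T, hT⟩ := hs ε hε
  refine ⟨T, fun i x hx hxT => ?_⟩
  rw [resS_apply (mem_src.1 hx)]
  exact hT i x (mem_src.2 (N.B_mono h i (mem_src.1 hx))) hxT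

theorem inP_resL (h : ρ ≤ σ) {L : LB (N.at' σ hσ)} (hL : InP ht L) :
    InP ht (resL hρ hσ h L) := by
  obtain ⟨δ, hδ, C, hC⟩ := hL
  refine ⟨δ, hδ, C, fun i j x hx => ?_⟩
  have h1 : x ∈ N.B ρ i := mem_src.1 hx.1
  have h2 : x ∈ N.B ρ j := mem_src.1 hx.2
  rw [resL_g h L ⟨h1, h2⟩]
  exact hC i j x ⟨mem_src.2 (N.B_mono h i h1), mem_src.2 (N.B_mono h j h2)⟩


end Res

/-! ### holomorphic logarithms -/

section Log

variable {n : ℕ} {M : Type} [TopologicalSpace M] {A : Atl n M} {i j : A.ι}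

theorem holP_of_holAt {U : Set M} {f : M → ℂ} (h : HolAt A i U f) (hU : IsOpen U) {x : M}
    (hx : x ∈ (A.e i).source) (hxU : x ∈ U) : HolP A i f x := by
  have h1 : A.e i x ∈ (A.e i).target ∩ (A.e i).symm ⁻¹' U :=
    ⟨(A.e i).map_source hx, by rw [mem_preimage, (A.e i).left_inv hx]; exact hxU⟩
  filter_upwards [(isOpen_ti hU).mem_nhds h1] with z hz
  exact DifferentiableOn.differentiableAt h ((isOpen_ti hU).mem_nhds hz)

theorem smOn_of_smP {U : Set M} (hU : U ⊆ (A.e i).source) {f : M → ℂ}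
    (h : ∀ x ∈ U, SmP A i f x) : GC293.SmOn A U f :=
  (smOn_iff_chart i hU).2 fun x hx => (h x hx).self

theorem smP_of_smOn {U : Set M} (hU : IsOpen U) {f : M → ℂ} (h : GC293.SmOn A U f) {x : M}
    (hx : x ∈ (A.e i).source) (hxU : x ∈ U) : SmP A i f x := by
  have h1 : A.e i x ∈ (A.e i).target ∩ (A.e i).symm ⁻¹' U :=
    ⟨(A.e i).map_source hx, by rw [mem_preimage, (A.e i).left_inv hx]; exact hxU⟩
  filter_upwards [(isOpen_ti hU).mem_nhds h1] with z hz
  have h2 := h ((A.e i).symm z) hz.2 i ((A.e i).map_target hz.1)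
  rwa [(A.e i).right_inv hz.1] at h2

theorem isOpen_U2 (A : Atl n M) (i j : A.ι) : IsOpen (U2 A i j) :=
  (A.e i).open_source.inter (A.e j).open_source

/-- holomorphic logarithm on a convex overlap -/
theorem exists_hlog (hA : GoodA A) (i j : A.ι) {G : M → ℂ} (hG : ∀ x ∈ U2 A i j, HolP A i G x)
    (h0 : ∀ x ∈ U2 A i j, G x ≠ 0) : ∃ θ : M → ℂ, (∀ x ∈ U2 A i j, HolP A i θ x) ∧
      ∀ x ∈ U2 A i j, exp (2 * Real.pi * I * θ x) = G x := by
  obtain ⟨φ, h1, h2⟩ := hA.exists_log2 i j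
    (smOn_of_smP inter_subset_left fun x hx => (hG x hx).smP) h0
  refine ⟨φ, fun x hx => ?_, h2⟩
  have h3 : ∀ y ∈ U2 A i j, SmP A i φ y := fun y hy => smP_of_smOn (isOpen_U2 A i j) h1 hy.1 hy
  refine holP_of_db hx.1 (h3 x hx) ?_
  filter_upwards [(isOpen_U2 A i j).mem_nhds hx] with y hy a
  have h4 : SmP A i (fun y => 2 * Real.pi * I * φ y) y := (SmP.const _).mul (h3 y hy)
  have h5 := db_expP a h4 hy.1
  have h6 : A.db i a (fun y => exp (2 * Real.pi * I * φ y)) y = A.db i a G y := by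
    refine db_congr hy.1 ?_
    filter_upwards [(isOpen_U2 A i j).mem_nhds hy] with w hw
    exact h2 w hw
  rw [h6, (hG y hy).db_eq, db_mulP a (SmP.const _) (h3 y hy) hy.1, db_constP, zero_mul,
    zero_add] at h5
  have h7 := (mul_eq_zero.1 h5.symm).resolve_left (exp_ne_zero _)
  exact (mul_eq_zero.1 h7).resolve_left two_pi_I_ne_zero

theorem holP_log {f : M → ℂ} {x : M} (hx : x ∈ (A.e i).source) (hf : HolP A i f x)
    (h0 : f x ∈ slitPlane) : HolP A i (fun y => log (f y)) x := by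
  have h1 : ∀ᶠ z in 𝓝 (A.e i x), f ((A.e i).symm z) ∈ slitPlane := by
    refine hf.smP.self.continuousAt.eventually_mem (isOpen_slitPlane.mem_nhds ?_)
    simpa [(A.e i).left_inv hx] using h0
  filter_upwards [hf, h1] with z h2 h3 using h2.clog h3

theorem mem_slitPlane_of_near {w : ℂ} (hw : ‖w - 1‖ ≤ 1 / 2) : w ∈ slitPlane := by
  apply mem_slitPlane_iff.2
  left
  have h1 := abs_re_le_norm (w - 1)
  rw [sub_re, one_re] at h1
  have h2 := abs_le.1 (h1.trans hw)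
  linarith [h2.1]

theorem norm_two_pi_I_inv : ‖(2 * Real.pi * I : ℂ)⁻¹‖ ≤ 1 / 6 := by
  rw [norm_inv]
  have h1 : ‖(2 * Real.pi * I : ℂ)‖ = 2 * Real.pi := by
    rw [norm_mul, norm_mul, norm_I, mul_one, norm_real, Real.norm_eq_abs,
      abs_of_pos Real.pi_pos]
    simp
  rw [h1, one_div]
  apply inv_anti₀ (by norm_num)
  linarith [Real.pi_gt_three]

theorem norm_plog {w : ℂ} (hw : ‖w - 1‖ ≤ 1 / 2) :
    ‖log w * (2 * Real.pi * I : ℂ)⁻¹‖ ≤ 1 / 4 * ‖w - 1‖ := by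
  have h1 := norm_log_one_add_half_le_self hw
  rw [add_sub_cancel] at h1
  rw [norm_mul]
  calc _ ≤ (3 / 2 * ‖w - 1‖) * (1 / 6) :=
        mul_le_mul h1 norm_two_pi_I_inv (norm_nonneg _) (by positivity)
    _ = _ := by ring

theorem exp_plog {w : ℂ} (hw : w ≠ 0) :
    exp (2 * Real.pi * I * (log w * (2 * Real.pi * I : ℂ)⁻¹)) = w := by
  have : (2 * Real.pi * I : ℂ) * (log w * (2 * Real.pi * I : ℂ)⁻¹) = log w := by
    field_simp [two_pi_I_ne_zero]
  rw [this, exp_log hw]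

end Log

/-! ### CONV -/

section Conv

variable {Y : Type} [TopologicalSpace Y] {N : NAtl 2 Y} {g : Y ≃ₜ Y} {h : Y → ℝ}

/-- the compact set `|z - z₀| ≤ r` of the chart `i` -/
def KK (N : NAtl 2 Y) (i : N.ι) : Set Y := (N.E i).symm '' closedBall N.z₀ N.r

theorem closedBall_sub_tgt (N : NAtl 2 Y) (i : N.ι) : closedBall N.z₀ N.r ⊆ (N.E i).target := by
  rw [N.tgt]
  refine closedBall_subset_ball ?_
  have := N.r_pos; have := N.r_lt; linarith

theorem isCompact_KK (N : NAtl 2 Y) (i : N.ι) : IsCompact (KK N i) :=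
  (isCompact_closedBall _ _).image_of_continuousOn
    ((N.E i).continuousOn_symm.mono (closedBall_sub_tgt N i))

theorem KK_sub (N : NAtl 2 Y) (i : N.ι) : KK N i ⊆ (N.E i).source := by
  rintro _ ⟨z, hz, rfl⟩
  exact (N.E i).map_target (closedBall_sub_tgt N i hz)

theorem B_sub_KK (N : NAtl 2 Y) (i : N.ι) : N.B N.r i ⊆ KK N i := fun x hx =>
  ⟨N.E i x, ball_subset_closedBall hx.2, (N.E i).left_inv hx.1⟩

theorem mem_U2_big {i j : N.ι} {x : Y} :
    x ∈ U2 N.big i j ↔ x ∈ (N.E i).source ∧ x ∈ (N.E j).source := by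
  unfold U2
  constructor
  · rintro ⟨h1, h2⟩
    exact ⟨(mem_src.1 h1).1, (mem_src.1 h2).1⟩
  · rintro ⟨h1, h2⟩
    exact ⟨mem_src.2 (N.mem_B_R.2 h1), mem_src.2 (N.mem_B_R.2 h2)⟩

theorem mem_U3_big {i j k : N.ι} {x : Y} :
    x ∈ U3 N.big i j k ↔ x ∈ (N.E i).source ∧ x ∈ (N.E j).source ∧ x ∈ (N.E k).source := by
  unfold U3
  constructor
  · rintro ⟨⟨h1, h2⟩, h3⟩
    exact ⟨(mem_src.1 h1).1, (mem_src.1 h2).1, (mem_src.1 h3).1⟩
  · rintro ⟨h1, h2, h3⟩
    exact ⟨⟨mem_src.2 (N.mem_B_R.2 h1), mem_src.2 (N.mem_B_R.2 h2)⟩,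
      mem_src.2 (N.mem_B_R.2 h3)⟩

theorem exists_T {C ρ : ℝ} (hρ : 0 < ρ) (hC : 0 ≤ C) :
    ∃ T : ℝ, 0 ≤ T ∧ ∀ t, T ≤ t → C * Real.exp (-ρ * t) ≤ 1 / 2 := by
  refine ⟨(2 * C) / ρ, by positivity, fun t ht => ?_⟩
  have h1 : 2 * C ≤ ρ * t := by
    have := mul_le_mul_of_nonneg_left ht hρ.le
    rwa [mul_div_cancel₀ _ hρ.ne'] at this
  have h2 : 2 * C + 1 ≤ Real.exp (ρ * t) := by
    have := Real.add_one_le_exp (ρ * t)
    linarith
  have h3 : Real.exp (-ρ * t) = (Real.exp (ρ * t))⁻¹ := by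
    rw [← Real.exp_neg]; congr 1; ring
  rw [h3, ← div_eq_mul_inv, div_le_iff₀ (Real.exp_pos _)]
  linarith

/-- **CONV** (OUT4): a class `P` bundle on the big balls has a finitely supported class -/
theorem exists_hasCls [T2Space Y] (hG : N.Good) (Q : N.Per g h) (L : LB N.big) (hL : InP h L) :
    ∃ c ∈ Z2 N.big ℤ, Fin3 c ∧
      HasCls N.sm h (resL le_rfl N.r_le_R N.r_le_R L).g c := by
  classical
  have hA : GoodA N.big := WD938.goodA_at' hG N.r_le_R le_rfl
  obtain ⟨ρ, hρ, C, hC0, hC, -⟩ := hL.bound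
  obtain ⟨T, hT0, hT⟩ := exists_T hρ hC0
  have hhol : ∀ i j, ∀ x ∈ U2 N.big i j, HolP N.big i (L.g i j) x := fun i j x hx =>
    holP_of_holAt (L.hol i j) (N.big.e j).open_source hx.1 hx.2
  choose φ hφ hφe using fun i j =>
    exists_hlog hA i j (hhol i j) (fun x _ => L.ne_zero i j x)
  let Far : N.ι → N.ι → Prop := fun i j => ∀ x ∈ U2 N.big i j, ‖L.g i j x - 1‖ ≤ 1 / 2
  let θ : N.ι → N.ι → Y → ℂ := fun i j x =>
    if Far i j then log (L.g i j x) * (2 * Real.pi * I : ℂ)⁻¹ else φ i j x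
  have hθF : ∀ i j, Far i j → θ i j = fun x => log (L.g i j x) * (2 * Real.pi * I : ℂ)⁻¹ :=
    fun i j hF => by funext x; exact if_pos hF
  have hθN : ∀ i j, ¬ Far i j → θ i j = φ i j := fun i j hF => by funext x; exact if_neg hF
  -- `θ` is holomorphic
  have hθ : ∀ i j, ∀ x ∈ U2 N.big i j, HolP N.big i (θ i j) x := by
    intro i j x hx
    by_cases hF : Far i j
    · rw [hθF i j hF]
      exact (holP_log hx.1 (hhol i j x hx) (mem_slitPlane_of_near (hF x hx))).mul (HolP.const _)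
    · rw [hθN i j hF]
      exact hφ i j x hx
  -- `θ` is a logarithm
  have hθe : ∀ i j, ∀ x ∈ U2 N.big i j, exp (2 * Real.pi * I * θ i j x) = L.g i j x := by
    intro i j x hx
    by_cases hF : Far i j
    · rw [hθF i j hF]
      exact exp_plog (L.ne_zero i j x)
    · rw [hθN i j hF]
      exact hφe i j x hx
  have hθc : ∀ i j, ∀ x ∈ U2 N.big i j, ContinuousAt (θ i j) x := fun i j x hx =>
    (hθ i j x hx).smP.continuousAt hx.1
  -- small values for far pairs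
  have hθs : ∀ i j, Far i j → ∀ x ∈ U2 N.big i j, ‖θ i j x‖ ≤ 1 / 4 * ‖L.g i j x - 1‖ := by
    intro i j hF x hx
    rw [hθF i j hF]
    exact norm_plog (hF x hx)
  -- the integers
  have hint : ∀ i j k, ∃ m : ℤ, ∀ x ∈ U3 N.big i j k,
      θ j k x - θ i k x + θ i j x = m := by
    intro i j k
    apply exists_int_of_preconnected (hA.isPreconnected3 i j k)
    · intro x hx
      exact (((hθc j k x ⟨hx.1.2, hx.2⟩).sub (hθc i k x ⟨hx.1.1, hx.2⟩)).add
        (hθc i j x hx.1)).continuousWithinAt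
    · intro x hx
      rw [← exp_eq_one_iff_int]
      have e : 2 * Real.pi * I * (θ j k x - θ i k x + θ i j x) =
          2 * Real.pi * I * θ j k x + -(2 * Real.pi * I * θ i k x) +
            2 * Real.pi * I * θ i j x := by ring
      rw [e, exp_add, exp_add, exp_neg, hθe j k x ⟨hx.1.2, hx.2⟩, hθe i k x ⟨hx.1.1, hx.2⟩,
        hθe i j x hx.1, ← L.mul i j k x hx]
      have h1 := L.ne_zero i j x
      have h2 := L.ne_zero j k x
      field_simp
  choose m hm using hint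
  let c : N.ι → N.ι → N.ι → ℤ := fun i j k => if (U3 N.big i j k).Nonempty then m i j k else 0
  have hc : ∀ i j k, ∀ x ∈ U3 N.big i j k, θ j k x - θ i k x + θ i j x = c i j k := by
    intro i j k x hx
    have : c i j k = m i j k := if_pos ⟨x, hx⟩
    rw [this]
    exact hm i j k x hx
  -- pairs which are not far
  have hnf : ∀ i j, ¬ Far i j → ∃ x ∈ U2 N.big i j, |h x| < T := by
    intro i j hF
    simp only [Far, not_forall, not_le] at hF
    obtain ⟨x, hx, hx'⟩ := hF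
    refine ⟨x, hx, ?_⟩
    by_contra hcon
    push Not at hcon
    have h1 := (hC i j x).trans (hT _ hcon)
    linarith
  -- finiteness
  have hF' : {i : N.ι | ∃ x ∈ (N.E i).source, -(T + Q.W) ≤ h x ∧ h x ≤ T + Q.W}.Finite :=
    Q.lf _ _
  have hmem : ∀ i, (∃ x ∈ (N.E i).source, |h x| ≤ T + Q.W) → i ∈ hF'.toFinset := by
    rintro i ⟨x, hx, hx'⟩
    rw [Set.Finite.mem_toFinset]
    exact ⟨x, hx, (abs_le.1 hx').1, (abs_le.1 hx').2⟩
  refine ⟨c, ?_, ?_, θ, ⟨?_, ?_, ?_⟩, ?_⟩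
  · rintro i j k l ⟨x, ⟨⟨hi, hj⟩, hk⟩, hl⟩
    have e1 := hc j k l x ⟨⟨hj, hk⟩, hl⟩
    have e2 := hc i k l x ⟨⟨hi, hk⟩, hl⟩
    have e3 := hc i j l x ⟨⟨hi, hj⟩, hl⟩
    have e4 := hc i j k x ⟨⟨hi, hj⟩, hk⟩
    have e5 : ((c j k l - c i k l + c i j l - c i j k : ℤ) : ℂ) = 0 := by
      push_cast
      rw [← e1, ← e2, ← e3, ← e4]
      ring
    exact_mod_cast e5
  · -- finite support
    refine ((hF'.toFinset.finite_toSet.prod
      (hF'.toFinset.finite_toSet.prod hF'.toFinset.finite_toSet))).subset ?_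
    rintro ⟨i, j, k⟩ hne
    have hne' : c i j k ≠ 0 := hne
    have hU : (U3 N.big i j k).Nonempty := by
      by_contra hcon
      exact hne' (if_neg hcon)
    obtain ⟨x, hx⟩ := hU
    -- some pair is not far
    have h1 : ¬ (Far j k ∧ Far i k ∧ Far i j) := by
      rintro ⟨f1, f2, f3⟩
      have a1 := hθs j k f1 x ⟨hx.1.2, hx.2⟩
      have a2 := hθs i k f2 x ⟨hx.1.1, hx.2⟩
      have a3 := hθs i j f3 x hx.1
      have b1 := f1 x ⟨hx.1.2, hx.2⟩
      have b2 := f2 x ⟨hx.1.1, hx.2⟩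
      have b3 := f3 x hx.1
      have h2 : ‖((c i j k : ℤ) : ℂ)‖ < 1 := by
        rw [← hc i j k x hx]
        calc _ ≤ ‖θ j k x - θ i k x‖ + ‖θ i j x‖ := norm_add_le _ _
          _ ≤ ‖θ j k x‖ + ‖θ i k x‖ + ‖θ i j x‖ := by gcongr; exact norm_sub_le _ _
          _ < 1 := by linarith
      rw [norm_intCast] at h2
      have h3 : |c i j k| < 1 := by exact_mod_cast h2
      exact hne' (Int.abs_lt_one_iff.1 h3)
    -- hence `|h x| ≤ T + W`
    have key : ∀ a b, ¬ Far a b → (x ∈ (N.E a).source) → |h x| ≤ T + Q.W := by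
      intro a b hab hxa
      obtain ⟨y, hy, hyT⟩ := hnf a b hab
      have h2 := Q.osc a x hxa y (mem_U2_big.1 hy).1
      have h3 : |h x| ≤ |h x - h y| + |h y| := by
        have := abs_add_le (h x - h y) (h y)
        rwa [sub_add_cancel] at this
      linarith
    obtain ⟨x1, x2, x3⟩ := mem_U3_big.1 hx
    have hxT : |h x| ≤ T + Q.W := by
      by_contra hcon
      apply h1
      refine ⟨?_, ?_, ?_⟩
      · by_contra hF; exact hcon (key j k hF x2)
      · by_contra hF; exact hcon (key i k hF x1)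
      · by_contra hF; exact hcon (key i j hF x1)
    exact ⟨hmem i ⟨x, x1, hxT⟩, hmem j ⟨x, x2, hxT⟩, hmem k ⟨x, x3, hxT⟩⟩
  · -- holomorphy on the small balls
    intro i j x hx
    have h1 : x ∈ U2 N.big i j := mem_U2_big.2 ⟨(mem_src.1 hx.1).1, (mem_src.1 hx.2).1⟩
    exact hθ i j x h1
  · intro i j x hx
    have h1 : x ∈ U2 N.big i j := mem_U2_big.2 ⟨(mem_src.1 hx.1).1, (mem_src.1 hx.2).1⟩
    have h2 : (resL le_rfl N.r_le_R N.r_le_R L).g i j x = L.g i j x :=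
      resL_g N.r_le_R L ⟨mem_src.1 hx.1, mem_src.1 hx.2⟩
    rw [h2]
    exact hθe i j x h1
  · intro i j k x hx
    exact hc i j k x (mem_U3_big.2 ⟨(mem_src.1 hx.1.1).1, (mem_src.1 hx.1.2).1,
      (mem_src.1 hx.2).1⟩)
  · -- decay
    have hbd : ∀ i j, ∃ B : ℝ, 0 ≤ B ∧ ∀ x ∈ KK N i ∩ KK N j, ‖θ i j x‖ ≤ B := by
      intro i j
      have hK : IsCompact (KK N i ∩ KK N j) := (isCompact_KK N i).inter (isCompact_KK N j)
      have hcont : ContinuousOn (θ i j) (KK N i ∩ KK N j) := fun x hx =>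
        (hθc i j x (mem_U2_big.2 ⟨KK_sub N i hx.1, KK_sub N j hx.2⟩)).continuousWithinAt
      obtain ⟨B, hB⟩ := hK.exists_bound_of_continuousOn hcont
      exact ⟨max B 0, le_max_right _ _, fun x hx => (hB x hx).trans (le_max_left _ _)⟩
    choose B hB0 hB using hbd
    set S : ℝ := ∑ i ∈ hF'.toFinset, ∑ j ∈ hF'.toFinset, B i j with hS
    have hS0 : 0 ≤ S := Finset.sum_nonneg fun i _ => Finset.sum_nonneg fun j _ => hB0 i j
    refine ⟨C + S * Real.exp (ρ * (T + Q.W)), ρ, hρ, ?_⟩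
    intro i j x hx
    have hx1 : x ∈ N.B N.r i := mem_src.1 hx.1
    have hx2 : x ∈ N.B N.r j := mem_src.1 hx.2
    have h1 : x ∈ U2 N.big i j := mem_U2_big.2 ⟨hx1.1, hx2.1⟩
    by_cases hF : Far i j
    · have h2 := hθs i j hF x h1
      have h3 := hC i j x
      have h4 : 0 ≤ S * Real.exp (ρ * (T + Q.W)) * Real.exp (-ρ * |h x|) := by positivity
      have h5 := norm_nonneg (L.g i j x - 1)
      rw [add_mul]
      linarith
    · obtain ⟨y, hy, hyT⟩ := hnf i j hF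
      have h2 := Q.osc i x hx1.1 y (mem_U2_big.1 hy).1
      have h3 : |h x| ≤ T + Q.W := by
        have h4 : |h x| ≤ |h x - h y| + |h y| := by
          have := abs_add_le (h x - h y) (h y)
          rwa [sub_add_cancel] at this
        linarith
      have hi : i ∈ hF'.toFinset := hmem i ⟨x, hx1.1, h3⟩
      have hj : j ∈ hF'.toFinset := hmem j ⟨x, hx2.1, h3⟩
      have h5 : B i j ≤ S :=
        (Finset.single_le_sum (f := fun j => B i j) (fun j _ => hB0 i j) hj).trans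
          (Finset.single_le_sum (f := fun i => ∑ j ∈ hF'.toFinset, B i j)
            (fun i _ => Finset.sum_nonneg fun j _ => hB0 i j) hi)
      have h6 : ‖θ i j x‖ ≤ S := (hB i j x ⟨B_sub_KK N i hx1, B_sub_KK N j hx2⟩).trans h5
      have h7 : 1 ≤ Real.exp (ρ * (T + Q.W)) * Real.exp (-ρ * |h x|) := by
        rw [← Real.exp_add]
        apply Real.one_le_exp
        nlinarith
      have h8 : 0 ≤ C * Real.exp (-ρ * |h x|) := by positivity
      have h9 : S ≤ S * (Real.exp (ρ * (T + Q.W)) * Real.exp (-ρ * |h x|)) :=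
        le_mul_of_one_le_right hS0 h7
      rw [add_mul]
      linarith

end Conv

/-! ### divisors -/

section Man

variable {Y : Type} [TopologicalSpace Y] [ChartedSpace C2 Y] [IsManifold 𝓘(ℂ, C2) 1 Y]
variable {N : NAtl 2 Y} {ρ σ : ℝ} {hρ : N.r ≤ ρ} {hσ : N.r ≤ σ}

theorem adm_at' (hE : ∀ i, N.E i ∈ IsManifold.maximalAtlas 𝓘(ℂ, C2) 1 Y) (hρ : N.r ≤ ρ) :
    Adm (N.at' ρ hρ) := by
  intro i
  have e : (N.at' ρ hρ).e i = (N.E i).restr (N.B ρ i) := by
    apply OpenPartialHomeomorph.ext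
    · intro x; rfl
    · intro x; rfl
    · have h1 : ((N.at' ρ hρ).e i).source = N.B ρ i := N.at'_source hρ i
      rw [h1, OpenPartialHomeomorph.restr_source' _ _ (N.isOpen_B ρ i)]
      ext x
      exact ⟨fun hx => ⟨hx.1, hx⟩, fun hx => hx.2⟩
  rw [e]
  exact restr_mem_maximalAtlas _ (hE i) (N.isOpen_B ρ i)

variable {L : LB (N.at' σ hσ)} {s : N.ι → Y → ℂ}

theorem resS_ev {i : N.ι} {p : Y} (hp : p ∈ N.B ρ i) : resS N ρ s i =ᶠ[𝓝 p] s i := by
  filter_upwards [(N.isOpen_B ρ i).mem_nhds hp] with x hx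
  exact resS_apply hx

theorem nz_resS (h : ρ ≤ σ) (h0 : NZ (N.at' σ hσ) s) : NZ (N.at' ρ hρ) (resS N ρ s) := by
  intro i p hp e
  have hp' : p ∈ N.B ρ i := mem_src.1 hp
  exact h0 i p (mem_src.2 (N.B_mono h i hp')) ((resS_ev hp').symm.trans e)


/-- the divisor does not change under restriction -/
theorem dv_resS (hE : ∀ i, N.E i ∈ IsManifold.maximalAtlas 𝓘(ℂ, C2) 1 Y) (h : ρ ≤ σ)
    (hs : IsHS L univ s) (h0 : NZ (N.at' σ hσ) s) :
    dv (N.at' ρ hρ) (resS N ρ s) = dv (N.at' σ hσ) s := by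
  refine dv_eq_of_leq (adm_at' hE hρ) (isHS_resS h hs) (nz_resS h h0) fun i p hp => ?_
  have hp' : p ∈ N.B ρ i := mem_src.1 hp
  have h1 := dv_leq (adm_at' hE hσ) hs h0 (mem_src.2 (N.B_mono h i hp'))
  have e : resS N ρ s i =ᶠ[𝓝 p] s i := resS_ev hp'
  exact ⟨h1.1.congr e.symm, fun e' => h1.2.1 (e.symm.trans e'),
    by rw [h1.2.2, Dv69.gt_congr e]⟩

end Man

end

end Crest.Agent.R275.Conv672
end

-- ▼ part R275/OD_672
section

/-!
# R275, ODIV for the nested atlas (helper672)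

`exists_od` : for a compact divisor `D` of `Y` there is a line bundle on the small balls with a
finitely supported class (cocycle on the nerve of the big balls) and a section `s ∈ V_L` with
`dv s = D` and limits `1` at both ends.
-/

set_option autoImplicit false
set_option linter.unusedSectionVars false

open Set Filter Topology Complex Metric
open scoped Manifold ContDiff

namespace Crest.Agent.R275.Conv672

open Crest.AlgGeometry.Surface
open Crest.Agent.R275.Geo Crest.Agent.R275.Core144 Crest.Agent.R275.NAtl938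
open Crest.Agent.R275.BR4672 Crest.Agent.R275.GC293 Crest.Agent.R275.Fm96
open Crest.Agent.R275.Dv69
open Crest.Agent.R275.ODiv686 (KB exists_odiv_compact)

noncomputable section

variable {Y : Type} [TopologicalSpace Y] [ChartedSpace C2 Y] [IsManifold 𝓘(ℂ, C2) 1 Y]
variable {N : NAtl 2 Y} {g : Y ≃ₜ Y} {h : Y → ℝ}

/-- a family of local equations is not locally zero -/
theorem nz_of_leq {A : Atl 2 Y} {s : A.ι → Y → ℂ} {D : EffDiv Y}
    (hs : ∀ i, ∀ x ∈ (A.e i).source, LEq D (s i) x) : NZ A s := fun i x hx => (hs i x hx).2.1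

/-- **ODIV on the small balls, with class** -/
theorem exists_od [T2Space Y] (hG : N.Good) (Q : N.Per g h) (B : Big N.big)
    (hE : ∀ i, N.E i ∈ IsManifold.maximalAtlas 𝓘(ℂ, C2) 1 Y) (hc : Continuous h)
    (hlf : ∀ K : Set Y, IsCompact K → {i | (KB N.big B i ∩ K).Nonempty}.Finite)
    (D : EffDiv Y) (hD : IsCompact D.supp) :
    ∃ (L : LB N.sm) (c : N.ι → N.ι → N.ι → ℤ) (s : N.ι → Y → ℂ), InP h L ∧ c ∈ Z2 N.big ℤ ∧
      Fin3 c ∧ HasCls N.sm h L.g c ∧ s ∈ VL h L ∧ NZ N.sm s ∧ dv N.sm s = D ∧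
      LimS (A := N.sm) h s 1 ∧ LimL (A := N.sm) h s 1 ∧
      (∃ T : ℝ, ∀ i, ∀ x ∈ (N.sm.e i).source, T < |h x| → s i x = 1) ∧
      ∃ T : ℝ, ∀ i j x, T < |h x| → L.g i j x = 1 := by
  obtain ⟨L, hL, s, hs, hs1, ⟨T, hT⟩, ⟨T', hT'⟩, hS, hLg⟩ :=
    exists_odiv_compact B (adm_at' hE N.r_le_R) hc hlf D hD
  obtain ⟨c, hc1, hc2, hc3⟩ := exists_hasCls hG Q L hL
  have hnz : NZ N.big s := nz_of_leq hs1
  refine ⟨resL le_rfl N.r_le_R N.r_le_R L, c, resS N N.r s, inP_resL N.r_le_R hL, hc1, hc2, hc3,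
    resS_mem_VL N.r_le_R hs, nz_resS N.r_le_R hnz, ?_, limS_resS N.r_le_R hS,
    limL_resS N.r_le_R hLg, ⟨T, fun i x hx hTx => ?_⟩, ⟨T', fun i j x hTx => ?_⟩⟩
  · exact (dv_resS hE N.r_le_R hs.1 hnz).trans
      (dv_eq_of_leq (adm_at' hE N.r_le_R) hs.1 hnz hs1)
  · have hx' : x ∈ N.B N.r i := mem_src.1 hx
    have e : resS N N.r s i x = s i x := resS_apply hx'
    exact e.trans (hT i x (mem_src.2 (N.B_mono N.r_le_R i hx')) hTx)
  · by_cases hx : x ∈ N.B N.r i ∩ N.B N.r j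
    · exact (resL_g N.r_le_R L hx).trans (hT' i j x hTx)
    · exact if_neg hx

end

end Crest.Agent.R275.Conv672
end

-- ▼ part R275/OD2_672
section

/-!
# R275 (helper672): the group `PP N h` of 938 under pull back, and ODIV inside `PP`

* `HC.tw`, `HC.pull`      : classes under the (powers of the) deck transformation
* `pull_mem_PP_iff`       : `pullL (Per.equi Q) L ∈ PP N h ↔ L ∈ PP N h`
* `odivPP`                : ODIV for the nested atlas `shrink N R'` (`2 R' < R`) in the shape of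
                            `GeoP572.TIn.odiv` (with the class, and the limits `1`)
-/

set_option autoImplicit false
set_option linter.unusedSectionVars false

open Set Filter Topology Complex Metric
open scoped Manifold ContDiff

namespace Crest.Agent.R275.Conv672

open Crest.AlgGeometry.Surface
open Crest.Agent.R275.Geo Crest.Agent.R275.Core144 Crest.Agent.R275.NAtl938
open Crest.Agent.R275.BR4672 Crest.Agent.R275.GC293 Crest.Agent.R275.Fm96
open Crest.Agent.R275.Dv69 Crest.Agent.R275.Cls672 Crest.Agent.R275.Cls938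
open Crest.Agent.R275.ODiv686 (KB exists_odiv_compact)

noncomputable section

/-! ### pull back -/

section Pull

variable {Y : Type} [TopologicalSpace Y] {N : NAtl 2 Y} {g : Y ≃ₜ Y} {h : Y → ℝ}

theorem HC.tw (Q : N.Per g h) (m : ℤ) {L : LB N.sm} {c : N.ι → N.ι → N.ι → ℤ}
    (H : HC N h L c) : HC N h (twL (sy_per_zpow Q le_rfl m) L) (twc (Q.s ^ m) c) :=
  ⟨⟨z2_tw (sy_per_zpow Q N.r_le_R m) H.1.1, fin3_tw _ H.1.2⟩,
    twL_hasCls (sy_per_zpow Q le_rfl m) (shift_zpow_per Q m) H.2⟩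

theorem HC.tw1 (Q : N.Per g h) {L : LB N.sm} {c : N.ι → N.ι → N.ι → ℤ}
    (H : HC N h L c) : HC N h (twL (sy_per Q le_rfl) L) (twc Q.s c) :=
  ⟨⟨z2_tw (sy_per Q N.r_le_R) H.1.1, fin3_tw _ H.1.2⟩,
    twL_hasCls (sy_per Q le_rfl) Q.shift H.2⟩

theorem HC.tw_inv (Q : N.Per g h) {L : LB N.sm} {c : N.ι → N.ι → N.ι → ℤ}
    (H : HC N h L c) : HC N h (twL (sy_per Q le_rfl).inv L) (twc Q.s⁻¹ c) :=
  ⟨⟨z2_tw (sy_per Q N.r_le_R).inv H.1.1, fin3_tw _ H.1.2⟩,
    twL_hasCls (sy_per Q le_rfl).inv (c₀ := -1) (fun y => by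
      have h1 := Q.shift (g⁻¹ y)
      have h2 : g (g⁻¹ y) = y := g.apply_symm_apply y
      rw [h2] at h1
      linarith) H.2⟩

theorem pullL_equi (Q : N.Per g h) (L : LB N.sm) :
    pullL (Per.equi Q le_rfl) L = twL (sy_per Q le_rfl) L := by
  ext i j x
  have h1 := equi_sh Q le_rfl i
  have h2 := equi_sh Q le_rfl j
  show L.g ((Per.equi Q le_rfl).sh i) ((Per.equi Q le_rfl).sh j) (g x) = L.g (Q.s i) (Q.s j) (g x)
  rw [h1, h2]


/-- the class of `g^* L` -/
theorem HC.pull (Q : N.Per g h) {L : LB N.sm} {c : N.ι → N.ι → N.ι → ℤ}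
    (H : HC N h L c) : HC N h (pullL (Per.equi Q le_rfl) L) (twc Q.s c) := by
  rw [pullL_equi]
  exact HC.tw1 Q H

theorem pull_mem_PP (Q : N.Per g h) {L : LB N.sm} (hL : L ∈ PP N h) :
    pullL (Per.equi Q le_rfl) L ∈ PP N h := by
  obtain ⟨c, hc⟩ := hL
  exact ⟨_, HC.pull Q hc⟩

theorem pull_mem_PP_iff (Q : N.Per g h) {L : LB N.sm} :
    pullL (Per.equi Q le_rfl) L ∈ PP N h ↔ L ∈ PP N h := by
  refine ⟨fun H => ?_, pull_mem_PP Q⟩
  obtain ⟨c, hc⟩ := H
  rw [pullL_equi] at hc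
  have h1 := HC.tw_inv Q hc
  have e : twL (sy_per Q le_rfl).inv (twL (sy_per Q le_rfl) L) = L := by
    ext i j x
    have e1 : L.g (Q.s (Q.s⁻¹ i)) (Q.s (Q.s⁻¹ j)) = L.g i j :=
      congrArg₂ L.g (Q.s.apply_symm_apply i) (Q.s.apply_symm_apply j)
    have e2 : g (g⁻¹ x) = x := g.apply_symm_apply x
    exact (congrFun e1 (g (g⁻¹ x))).trans (congrArg (L.g i j) e2)
  rw [e] at h1
  exact ⟨_, h1⟩

end Pull

/-! ### ODIV -/

section ODiv

variable {Y : Type} [TopologicalSpace Y] [ChartedSpace C2 Y] [IsManifold 𝓘(ℂ, C2) 1 Y]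
variable {N : NAtl 2 Y} {g : Y ≃ₜ Y} {h : Y → ℝ} {R' : ℝ}



end ODiv

end

end Crest.Agent.R275.Conv672
end

-- ▼ part R275/Sec1D_197
section

/-!
# R275, leaf SEC1 (helper197), part D

* `small_of_per`, `large_of_per` : the height of a periodic atlas is unbounded at both ends;
* `isIso_of_isoP`, `isoP_of_isIso` : helper938's `IsIso` (limits at the ends, exponentially) and
  helper144's `IsoP` (subexponential growth) agree in class `P`.
-/

set_option autoImplicit false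
set_option linter.unusedSectionVars false

open Set Filter Topology Complex Metric
open scoped ContDiff ComplexConjugate Manifold

namespace Crest.Agent.R275.Sec1197

open Crest.AlgGeometry.Surface Geo Fm96 Core144 JB658 Wy5197 NAtl938 Sol352
open Crest.Agent.R275.GC293 (glue)

noncomputable section

variable {Y : Type} [TopologicalSpace Y]

/-! ### the ends -/

section ends

variable {n : ℕ} {N : NAtl n Y} {g : Y ≃ₜ Y} {h : Y → ℝ}

theorem h_iterate (hg : ∀ y, h (g y) = h y - 1) (y : Y) (k : ℕ) : h (g^[k] y) = h y - k := by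
  induction k with
  | zero => simp
  | succ k ih => rw [Function.iterate_succ_apply', hg, ih]; push_cast; ring

theorem h_iterate_symm (hg : ∀ y, h (g y) = h y - 1) (y : Y) (k : ℕ) :
    h (g.symm^[k] y) = h y + k := by
  induction k with
  | zero => simp
  | succ k ih =>
    have h1 := hg (g.symm (g.symm^[k] y))
    rw [g.apply_symm_apply] at h1
    rw [Function.iterate_succ_apply']
    push_cast
    linarith

theorem small_of_shift [Nonempty Y] (hg : ∀ y, h (g y) = h y - 1) (T : ℝ) : ∃ y, h y < T := by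
  obtain ⟨y⟩ := ‹Nonempty Y›
  obtain ⟨k, hk⟩ := exists_nat_gt (h y - T)
  exact ⟨g^[k] y, by rw [h_iterate hg]; linarith⟩

theorem large_of_shift [Nonempty Y] (hg : ∀ y, h (g y) = h y - 1) (T : ℝ) : ∃ y, T < h y := by
  obtain ⟨y⟩ := ‹Nonempty Y›
  obtain ⟨k, hk⟩ := exists_nat_gt (T - h y)
  exact ⟨g.symm^[k] y, by rw [h_iterate_symm hg]; linarith⟩

theorem small_of_per [Nonempty Y] (Pr : N.Per g h) (T : ℝ) : ∃ y, h y < T :=
  small_of_shift Pr.shift T

theorem large_of_per [Nonempty Y] (Pr : N.Per g h) (T : ℝ) : ∃ y, T < h y :=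
  large_of_shift Pr.shift T

end ends

variable {A : Atl 2 Y}
variable {P : Part A} {h : Y → ℝ} {K : A.ι → Set Y} {L L' : LB A} {s : A.ι → Y → ℂ}
variable {Pg : Subgroup (LB A)} {q : LB A → ℤ} {d : ℝ}

/-! ### from subexponential growth to exponential limits -/

/-- a trivialisation in class `P` has non-zero limits at the ends -/
theorem isIso_of_isoP [ChartedSpace C2 Y] [IsManifold 𝓘(ℂ, C2) 1 Y] (U : UG P h K)
    (S : Sol A K h Pg q d) (hPg : Pg ≤ PG A h)
    (small : ∀ T : ℝ, ∃ y : Y, h y < T) (large : ∀ T : ℝ, ∃ y : Y, T < h y)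
    (hL : L ∈ Pg) (hL' : L' ∈ Pg) (H : IsoP h L L') : ∃ s, IsIso A h L.g L'.g s := by
  have HS := secIn_of_sol U S hPg small large
  have hM : L' * L⁻¹ ∈ Pg := Pg.mul_mem hL' (Pg.inv_mem hL)
  obtain ⟨s, hs, hne, hs'⟩ := H
  obtain ⟨cs, cl, D, r, hr, hlim⟩ := exists_lim' U S (hPg hM) hs
  have hs0 : s ≠ 0 := by
    obtain ⟨y, -⟩ := large 0
    obtain ⟨i, hi⟩ := A.cover y
    intro e
    exact hne i y hi (by rw [e]; rfl)
  refine ⟨s, ?_, hne, ?_, cs, cl, ?_, ?_, D, r, hr, hlim⟩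
  · exact fun i x hx => holP_sec hs.1 ⟨hx, hx⟩
  · intro i j x hx
    have h1 := hs.1.tr i j x hx (mem_univ _)
    rw [LB.mul_g, LB.inv_g] at h1
    have h2 := L.ne_zero i j x
    rw [h1]
    field_simp
  · exact HS.limS_ne_of_trivP hM hs hs' hne (limS_of_lim hr hlim)
  · exact HS.limL_ne hM hs hs0 (limL_of_lim hr hlim)

/-! ### from exponential limits to subexponential growth -/





end

end Crest.Agent.R275.Sec1197
end

-- ▼ part R275/CorP_508
section

/-!
# R275, glue (helper508): uniform geometry of a periodic nested atlas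

`N : NAtl 2 Y`, `P : N.Per g h`, `Q : EPart N P` (equivariant partition of unity on the small balls),
cores `K i = tsupport (ψ i)` (or `tsupport (χ i)`).

* `cor_psi`, `cor_chi` : helper96's `Cor N.sm h K`;
* `hd`   : helper912's `HD` (reference heights);
* `ug`   : helper197's `UG` (uniform geometry on the cores).
-/

set_option autoImplicit false
set_option linter.unusedSectionVars false

open Set Filter Topology Complex Metric
open scoped ContDiff ComplexConjugate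

namespace Crest.Agent.R275.CorP508

open Crest.Agent.R275.Geo Crest.Agent.R275.NAtl938 Crest.Agent.R275.WB658

noncomputable section

variable {n : ℕ} {Y : Type} [TopologicalSpace Y] {g : Y ≃ₜ Y} {h : Y → ℝ}

section general

variable {N : NAtl n Y} {P : N.Per g h} (Q : EPart N P)

theorem tsupport_psi_cpt (i : N.ι) : IsCompact (tsupport (Q.ψ i)) :=
  (Q.χ_cpt i).of_isClosed_subset (isClosed_tsupport _) (Q.tsupport_psi_sub i)



/-- reference heights of the charts -/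
def rh (N : NAtl n Y) (h : Y → ℝ) (i : N.ι) : ℝ := h (src_ne (N := N) i).some

theorem rh_near (P : N.Per g h) {i : N.ι} {x : Y} (hx : x ∈ (N.E i).source) :
    |h x - rh N h i| ≤ P.W := P.osc i x hx _ (src_ne (N := N) i).some_mem

/-- the charts meeting the slab `[k, k + 1]` -/
def slabSet (P : N.Per g h) (k : ℤ) : Finset N.ι := (P.lf k (k + 1)).toFinset

theorem mem_slabSet (P : N.Per g h) {k : ℤ} {i : N.ι} :
    i ∈ slabSet P k ↔ ∃ x ∈ (N.E i).source, (k : ℝ) ≤ h x ∧ h x ≤ k + 1 := by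
  unfold slabSet
  rw [Set.Finite.mem_toFinset]
  rfl

theorem card_slab_succ (P : N.Per g h) (k : ℤ) :
    (slabSet P (k + 1)).card = (slabSet P k).card := by
  classical
  refine Finset.card_bij (fun i _ => P.s i) (fun i hi => ?_)
    (fun i _ j _ hij => P.s.injective hij) (fun i hi => ?_)
  · rw [mem_slabSet] at hi ⊢
    obtain ⟨x, hx, h1, h2⟩ := hi
    refine ⟨g x, (P.src i x).2 hx, ?_, ?_⟩
    · rw [P.shift]; push_cast at h1; linarith
    · rw [P.shift]; push_cast at h2; linarith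
  · rw [mem_slabSet] at hi
    obtain ⟨x, hx, h1, h2⟩ := hi
    obtain ⟨j, rfl⟩ := P.s.surjective i
    obtain ⟨y, rfl⟩ := g.surjective x
    refine ⟨j, ?_, rfl⟩
    rw [mem_slabSet]
    refine ⟨y, (P.src j y).1 hx, ?_, ?_⟩
    · rw [P.shift] at h1; push_cast; linarith
    · rw [P.shift] at h2; push_cast; linarith

theorem card_slab (P : N.Per g h) (k : ℤ) : (slabSet P k).card = (slabSet P 0).card := by
  induction k using Int.induction_on with
  | zero => rfl
  | succ k ih => rw [card_slab_succ, ih]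
  | pred k ih =>
    rw [← ih]
    have := card_slab_succ P (-(k : ℤ) - 1)
    rw [sub_add_cancel] at this
    exact this.symm

/-- uniform bound of an equivariant family of compactly supported continuous functions -/
theorem exists_bound {f : N.ι → Y → ℝ} (hf : ∀ i y, f (P.s i) (g y) = f i y)
    (hc : ∀ i, Continuous (f i)) (hK : ∀ i, HasCompactSupport (f i)) :
    ∃ C : ℝ, 0 < C ∧ ∀ i x, |f i x| ≤ C := by
  refine exists_uniform1 P (fun i C => ∀ x, |f i x| ≤ C) (fun i C C' hCC h1 x => (h1 x).trans hCC)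
    (fun i C => ?_) (fun i => ?_)
  · constructor
    · intro h1 x
      rw [← hf i x]; exact h1 (g x)
    · intro h1 x
      obtain ⟨y, rfl⟩ := g.surjective x
      rw [hf i y]; exact h1 y
  · obtain ⟨C, hC⟩ := (hK i).exists_bound_of_continuous (hc i)
    exact ⟨C, fun x => by simpa [Real.norm_eq_abs] using hC x⟩

/-- a smooth function is continuous -/
theorem continuous_of_sm {A : Atl n Y} {f : Y → ℝ} (hf : A.Sm f) : Continuous f := by
  rw [continuous_iff_continuousAt]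
  intro x
  obtain ⟨i, hi⟩ := A.cover x
  have h1 : ContinuousAt (fun z => f ((A.e i).symm z)) (A.e i x) :=
    ((hf i).continuousOn).continuousAt ((A.e i).open_target.mem_nhds ((A.e i).map_source hi))
  have h2 : ContinuousAt (fun y => f ((A.e i).symm (A.e i y))) x :=
    ContinuousAt.comp (f := A.e i) (g := fun z => f ((A.e i).symm z)) h1
      ((A.e i).continuousAt hi)
  refine h2.congr ?_
  filter_upwards [(A.e i).open_source.mem_nhds hi] with y hy
  rw [(A.e i).left_inv hy]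

/-- helper912's reference heights -/
def hd : Sup912.HD Q.toPart h where
  ht := rh N h
  R := P.W
  R_nonneg := P.W_pos.le
  near j x hx := rh_near P (N.B_sub _ _ (Q.core_sub j hx))
  q := (slabSet P 0).card
  cnt k T hT := by
    rw [← card_slab P k]
    refine Finset.card_le_card fun j hj => (mem_slabSet P (i := j)).2 ?_
    refine ⟨_, (src_ne (N := N) j).some_mem, ?_, ?_⟩
    · have := Int.floor_le (rh N h j)
      rw [hT j hj] at this
      exact this
    · have := (Int.lt_floor_add_one (rh N h j)).le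
      rw [hT j hj] at this
      exact this
  cψ := (exists_bound (P := P) Q.ψ_eq (fun i => continuous_of_sm (Q.ψ_sm i))
    (fun i => tsupport_psi_cpt Q i)).choose
  cψ_nonneg := (exists_bound (P := P) Q.ψ_eq (fun i => continuous_of_sm (Q.ψ_sm i))
    (fun i => tsupport_psi_cpt Q i)).choose_spec.1.le
  psi_le := (exists_bound (P := P) Q.ψ_eq (fun i => continuous_of_sm (Q.ψ_sm i))
    (fun i => tsupport_psi_cpt Q i)).choose_spec.2

end general

section surface

variable {N : NAtl 2 Y} {P : N.Per g h} (Q : EPart N P)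




/-- room around the cores, uniformly -/
theorem exists_room' [T2Space Y] (P : N.Per g h) {K : N.ι → Set Y} {ρ : ℝ} (hρ : ρ < N.r)
    (hKs : ∀ i, K i ⊆ N.B ρ i) :
    ∃ δ : ℝ, 0 < δ ∧ ∀ i j, ∀ x, x ∈ K i → x ∈ K j → ball (N.E i x) δ ⊆ N.sm.ov i j := by
  obtain ⟨δ, hδ, hb⟩ := exists_room P hρ N.r_le_R
  refine ⟨δ, hδ, fun i j x hx hx' z hz => ?_⟩
  obtain ⟨h1, h2⟩ := hb i j x ⟨hKs i hx, hKs j hx'⟩ hz
  exact ⟨(N.at'_target le_rfl N.r_le_R i).ge h1, (N.at'_source le_rfl j).ge h2⟩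

/-- helper197's uniform geometry, general cores -/
theorem ug_of [T2Space Y] {K : N.ι → Set Y}
    {ρ : ℝ} (hρ : ρ < N.r) (hKs : ∀ i, K i ⊆ N.B ρ i) (hKψ : ∀ i, tsupport (Q.ψ i) ⊆ K i) :
    Wy5197.UG Q.toPart h K where
  K_sub i := (hKs i).trans ((N.B_mono hρ.le i).trans (N.at'_source le_rfl i).ge)
  psi_sub := hKψ
  room := exists_room' P hρ hKs
  osc := ⟨P.W, P.W_pos.le, fun i x hx y hy => P.osc i x
    (N.B_sub _ _ ((N.at'_source le_rfl i).le hx)) y (N.B_sub _ _ ((N.at'_source le_rfl i).le hy))⟩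
  nb := by
    obtain ⟨m, hm⟩ := exists_nb_card P
    refine ⟨nb P, ⟨m, hm⟩, fun i x hx l hl => (mem_nb P).2 ⟨x, ?_, ?_⟩⟩
    · exact N.B_sub _ _ (hKs i hx)
    · exact N.B_sub _ _ (hKs l (hKψ l hl))
  psi := by
    have h1 := (Q.wb_psi (ρ' := ρ) (hρ.trans_le N.r_le_R)).ofReal
    exact h1.sub_dom fun p => hKs p.1

theorem ug_psi [T2Space Y] : Wy5197.UG Q.toPart h (fun i => tsupport (Q.ψ i)) :=
  ug_of Q Q.ρ_lt (fun i => (Q.tsupport_psi_sub i).trans (Q.core_sub i)) fun _ => Subset.rfl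


end surface

end

end Crest.Agent.R275.CorP508
end

-- ▼ part R275/TinY_686
section

/-!
R275 (S0418), Part IV, helper686: `TinS` (inputs of section 3 and of Lemma D) on helper144's `YBase`.

For `B : YBase Y`, the solution theorems `Sol` for the group `PP B.N B.h` and helper938's
equivariant unit bundles: `tinS`, hence `sec3`, `far`, `limS_zero`, ... without further hypotheses
except NEF for compact primes.
-/

set_option autoImplicit false
set_option linter.unusedSectionVars false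
set_option linter.unusedVariables false

open Set Filter Topology Complex
open scoped ContDiff Manifold

noncomputable section

namespace Crest.Agent.R275.TinY686

open Crest.AlgGeometry.Surface
open Geo Fm96 Core144 Dv69 St3686
open Crest.Agent.R275.NAtl938
open Crest.Agent.R275.Base144 (YBase)
open Crest.Agent.R275.Cls938 (PP HC)
open Crest.Agent.R275.GeoP572 (Lat bq TG dvs)
open Crest.Agent.R275.Wy5197 (UG)
open Crest.Agent.R275.Sol352 (Sol)
open Crest.Agent.R275.Sec1197 (SecIn secIn_of_sol exists_lim')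
open Crest.Agent.R275.BR4672 (LowE gB)

variable {Y : Type} [TopologicalSpace Y] [ChartedSpace C2 Y] [IsManifold 𝓘(ℂ, C2) 1 Y]

section base

variable (B : YBase Y)

theorem ug [T2Space Y] : UG B.Pt.toPart B.h B.K := Wy5197.ug_psi B.Pt

theorem small [Nonempty Y] (T : ℝ) : ∃ y, B.h y < T := Sec1197.small_of_per B.Q T

theorem large [Nonempty Y] (T : ℝ) : ∃ y, T < B.h y := Sec1197.large_of_per B.Q T

/-- end frames for all bundles with a class -/
theorem exists_frAt [T2Space Y] {L : LB B.N.sm} (hL : L ∈ PP B.N B.h) :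
    ∃ T, FrAt B.N.sm B.h L T := by
  obtain ⟨c, hc⟩ := hL
  exact frAt_of_cls (ug B) hc.1.2 hc.2

/-- ODIV -/
theorem exists_odiv [T2Space Y] [Nonempty Y] (D : EffDiv Y) (hD : IsCompact D.supp) :
    ∃ L ∈ PP B.N B.h, ∃ σ ∈ VL B.h L, σ ≠ 0 ∧ dvs B.N.sm σ = D ∧ LowE B.N.sm B.h σ ∧
      LimS (A := B.N.sm) B.h σ 1 ∧ LimL (A := B.N.sm) B.h σ 1 := by
  obtain ⟨L, c, s, k1, k2, k3, k4, k5, k6, k7, k8, k9, ⟨T, k10⟩, k11⟩ :=
    Conv672.exists_od B.good B.Q B.room B.adm B.deck.cont B.room_lf D hD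
  exact ⟨L, ⟨c, ⟨k2, k3⟩, k4⟩, s, k5, k6.ne_zero, k7, BR4672.lowE_of_one k10, k8, k9⟩

variable {q : LB B.N.sm → ℤ} {d : ℝ}

theorem secIn [T2Space Y] [Nonempty Y] (S : Sol B.N.sm B.K B.h (PP B.N B.h) q d) :
    SecIn B.N.sm B.h (PP B.N B.h) q :=
  secIn_of_sol (ug B) S Cls938.PP_le (small B) (large B)

/-- exponential convergence at the small end -/
theorem limS [T2Space Y] (S : Sol B.N.sm B.K B.h (PP B.N B.h) q d) {L : LB B.N.sm}
    (hL : L ∈ PP B.N B.h) {σ : B.N.ι → Y → ℂ} (hσ : σ ∈ VL B.h L) :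
    ∃ (c : ℂ) (C ρ : ℝ), 0 < ρ ∧ ∀ i, ∀ x ∈ (B.N.sm.e i).source, B.h x ≤ 0 →
      ‖σ i x - c‖ ≤ C * Real.exp (ρ * B.h x) := by
  obtain ⟨cs, cl, D, r, hr, H⟩ := exists_lim' (ug B) S (Cls938.PP_le hL) hσ
  refine ⟨cs, D, r, hr, fun i x hx h0 => ?_⟩
  have h1 := (H i x hx).1 h0
  rwa [abs_of_nonpos h0, show -r * -B.h x = r * B.h x by ring] at h1

/-- **`TinS` on `YBase`** -/
theorem tinS [T2Space Y] [Nonempty Y] (S : Sol B.N.sm B.K B.h (PP B.N B.h) q d) {ι : Type}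
    {g : Equiv.Perm ι} {lev : ι → ℤ} {E : ι → LB B.N.sm} {s : ι → B.N.ι → Y → ℂ}
    (hlev : ∀ β, lev (g β) = lev β + 1) (hfin : ∀ n, {β | lev β = n}.Finite)
    (lat : Lat (PP B.N B.h) (TG B.N.sm B.h) E q)
    (E_pull : ∀ β, pullL B.equi (E (g β)) = E β) (s_pull : ∀ β, pullS B.equi (s (g β)) = s β)
    (s_mem : ∀ β, s β ∈ VL B.h (E β)) (s_ne : ∀ β, s β ≠ 0)
    (nef : ∀ C : EffDiv Y, Mon.IsPr C → IsCompact C.supp → ∀ L ∈ PP B.N B.h, ∀ σ ∈ VL B.h L,
      σ ≠ 0 → dvs B.N.sm σ = C → 2 * q L ≤ bq q L L) :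
    TinS B.N.sm B.P B.h B.g B.equi B.K (PP B.N B.h) g lev E q s d where
  adm := B.admA
  big := ⟨B.bigSm⟩
  deck := B.deck
  ug := ug B
  cor := B.cor
  le := Cls938.PP_le
  fr := fun L hL => exists_frAt B hL
  lev_g := hlev
  fin := hfin
  lat := ⟨TG B.N.sm B.h, fun L => Iff.rfl, lat⟩
  E_pull := E_pull
  s_pull := s_pull
  s_mem := s_mem
  s_ne := s_ne
  sol := S
  sec := secIn B S
  limS := fun L hL σ hσ => limS B S hL hσ
  odiv := fun C _ hC2 => by
    obtain ⟨L, hL, σ, h1, h2, h3, h4, -, -⟩ := exists_odiv B C hC2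
    exact ⟨L, hL, σ, h1, h2, h3, h4⟩
  nef := nef

/-- the case of helper938's unit bundles `E : κ × ℤ → LB` -/
theorem tinS' [T2Space Y] [Nonempty Y] (S : Sol B.N.sm B.K B.h (PP B.N B.h) q d) {κ : Type}
    [Finite κ] {E : κ × ℤ → LB B.N.sm} {s : κ × ℤ → B.N.ι → Y → ℂ}
    (lat : Lat (PP B.N B.h) (TG B.N.sm B.h) E q)
    (E_pull : ∀ β, pullL B.equi (E (gB κ β)) = E β)
    (s_pull : ∀ β, pullS B.equi (s (gB κ β)) = s β)
    (s_mem : ∀ β, s β ∈ VL B.h (E β)) (lim1 : ∀ β, LimL (A := B.N.sm) B.h (s β) 1)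
    (nef : ∀ C : EffDiv Y, Mon.IsPr C → IsCompact C.supp → ∀ L ∈ PP B.N B.h, ∀ σ ∈ VL B.h L,
      σ ≠ 0 → dvs B.N.sm σ = C → 2 * q L ≤ bq q L L) :
    TinS B.N.sm B.P B.h B.g B.equi B.K (PP B.N B.h) (gB κ) Prod.snd E q s d := by
  refine tinS B S (fun β => rfl) (fun n => BR4672.fin_lev n) lat E_pull s_pull s_mem ?_ nef
  intro β h0
  have h1 := lim1 β
  rw [h0] at h1
  have h2 : LimL (A := B.N.sm) B.h (0 : B.N.ι → Y → ℂ) 0 :=
    fun ε hε => ⟨0, fun i x _ _ => by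
      show ‖(0 : ℂ) - 0‖ < ε
      rw [sub_zero, norm_zero]; exact hε⟩
  exact one_ne_zero (BR4672.LimL.unique (large B) h1 h2)

end base

end Crest.Agent.R275.TinY686
end
end

-- ▼ part R275/POut_646
section

/-!
# R275, block P (helper646): OUT1, OUT2, EX WITH RATE from `Sol`

* `exists_LB_of_sol` : every class with compact support is the class of an end line bundle with any
  prescribed rate
* `solv_of_sol`, `exists_iso_of_sol` : two end line bundles whose classes differ by a finitely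
  supported coboundary are isomorphic
* `exists_HN_rate` : `c ∈ Z2c`, `R` ⟹ `L` with normalised class `c` and `|L.g - 1| ≤ C exp (-R|h|)`
* `exists_rate` : `L ∈ PP N h`, `R` ⟹ `L' ∈ PP N h`, `IsoP h L L'`, `|L'.g - 1| ≤ C exp (-R|h|)`
-/

set_option autoImplicit false
set_option linter.unusedSectionVars false

open Set Filter Topology Complex

namespace Crest.Agent.R275.POut646

open Crest.Agent.R275.Geo Crest.Agent.R275.GC293 Crest.Agent.R275.NAtl938
open Crest.Agent.R275.WD977 Crest.Agent.R275.Core144 Crest.Agent.R275.Cls938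
open Crest.Agent.R275.LocT474 Crest.Agent.R275.Loc647
open Crest.Agent.R275.Fm96 Crest.Agent.R275.Sol352 Crest.Agent.R275.EB938
open Crest.Agent.R275.PCech646 Crest.Agent.R275.PEx646 Crest.Agent.R275.PUn646
open Crest.Agent.R275.PSol646
open Crest.Agent.R275.WB658 (EPart)

noncomputable section

variable {Y : Type} [TopologicalSpace Y] {N : NAtl 2 Y} {g : Y ≃ₜ Y} {h : Y → ℝ}
  {K : N.ι → Set Y} {σ : ℝ} {Pr : Subgroup (LB N.sm)} {q : LB N.sm → ℤ} {d : ℝ}

/-- **OUT1** -/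
theorem exists_LB_of_sol [T2Space Y] (P : N.Per g h) (C : Core N K σ) {ψ : N.ι → Y → ℝ}
    (hψ : PU N.sm ψ) (S : Sol N.sm K h Pr q d) {R : ℝ} (hR : 0 ≤ R) {c : N.ι → N.ι → N.ι → ℤ}
    (hc : c ∈ GC293.Z2 N.big ℤ) (hfin : Fin3 c) : ∃ L : LB N.sm, HasClsR N.sm h L.g c R :=
  exists_LB_of_solZ2 P C hψ hR
    (S.ex₂ 1 Pr.one_mem (a := -R - 1) (b := -R - 1) (by linarith) (by linarith)) hc hfin


/-- the rate of the cocycle from the rate of the logarithms -/
theorem rate_of_HasClsR {A : Atl 2 Y} {G : A.ι → A.ι → Y → ℂ} {c : A.ι → A.ι → A.ι → ℤ} {R : ℝ}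
    (hR : 0 ≤ R) (H : HasClsR A h G c R) :
    ∃ C : ℝ, 0 ≤ C ∧ ∀ i j, ∀ x ∈ (A.e i).source ∩ (A.e j).source,
      ‖G i j x - 1‖ ≤ C * Real.exp (-R * |h x|) := by
  obtain ⟨θ, h1, C, h2⟩ := H
  have hC : 0 ≤ max C 0 := le_max_right _ _
  have h2' := Cls938.Dec2.mono h2 (le_max_left C 0) hC le_rfl
  refine ⟨2 * Real.pi * max C 0 * Real.exp (2 * Real.pi * max C 0), by positivity,
    fun i j x hx => ?_⟩
  rw [← h1.exp i j x hx]
  refine (norm_exp_sub_one_le' _).trans ?_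
  have e1 : ‖2 * Real.pi * I * θ i j x‖ = 2 * Real.pi * ‖θ i j x‖ := by
    rw [norm_mul, norm_mul, norm_mul, Complex.norm_I, mul_one, Complex.norm_real,
      Real.norm_of_nonneg Real.pi_pos.le]
    norm_num
  have e2 : Real.exp (-R * |h x|) ≤ 1 := by
    rw [Real.exp_le_one_iff]
    have := mul_nonneg hR (abs_nonneg (h x))
    linarith
  have e3 := h2' i j x hx
  have e4 : ‖θ i j x‖ ≤ max C 0 := e3.trans (by nlinarith)
  rw [e1]
  calc 2 * Real.pi * ‖θ i j x‖ * Real.exp (2 * Real.pi * ‖θ i j x‖)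
      ≤ 2 * Real.pi * (max C 0 * Real.exp (-R * |h x|)) * Real.exp (2 * Real.pi * max C 0) := by
        gcongr
    _ = _ := by ring


variable {Pn : Nerve N.ι}

/-- **EX WITH RATE**: a normalised class is the class of an end line bundle with any rate -/
theorem exists_HN_rate [T2Space Y] (P : N.Per g h) (C : Core N K σ) {ψ : N.ι → Y → ℝ}
    (hψ : PU N.sm ψ) (H : NL N h Pn) (S : Sol N.sm K h Pr q d) {c : C2 N.ι} (hc : c ∈ Pn.Z2c)
    (R : ℝ) : ∃ L : LB N.sm, HN Pn h L c ∧ ∃ D : ℝ, 0 ≤ D ∧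
      ∀ i j, ∀ x ∈ (N.sm.e i).source ∩ (N.sm.e j).source,
        ‖L.g i j x - 1‖ ≤ D * Real.exp (-R * |h x|) := by
  have hR1 : 0 < max R 1 := lt_max_of_lt_right one_pos
  obtain ⟨L, hL⟩ := exists_LB_of_sol P C hψ S hR1.le (mem_Z2_of_Z2c H hc.1) (fin3_of_Z2c hc)
  refine ⟨L, ⟨hc, hL.hasCls hR1⟩, ?_⟩
  obtain ⟨D, hD, h1⟩ := rate_of_HasClsR hR1.le hL
  refine ⟨D, hD, fun i j x hx => (h1 i j x hx).trans (mul_le_mul_of_nonneg_left ?_ hD)⟩
  apply Real.exp_le_exp.2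
  have := mul_le_mul_of_nonneg_right (le_max_left R 1) (abs_nonneg (h x))
  linarith

/-- **OUT1 for 938's `exists_lat`** (field `hEX`) -/
theorem exists_hEX [T2Space Y] (P : N.Per g h) (C : Core N K σ) (Pa : Part N.sm) (H : NL N h Pn)
    (S : Sol N.sm K h Pr q d) : ∀ c ∈ Pn.Z2c, ∃ L : LB N.sm, HasCls N.sm h L.g c := fun c hc => by
  obtain ⟨L, hL, -⟩ := exists_HN_rate P C (pu_of_part Pa) H S hc 0
  exact ⟨L, hL.2⟩

/-- **`hrate`** of helper69: every end line bundle is isomorphic to one with any prescribed rate -/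
theorem exists_rate [T2Space Y] (G : N.Good) (P : N.Per g h) (C : Core N K σ) (Pa : Part N.sm)
    (H : NL N h Pn) (F : Forms Pn) (S : Sol N.sm K h Pr q d)
    (hT : ∀ L ∈ PP N h, qL F h L = 0 → qL F h L⁻¹ = 0 → TrivP h L)
    {L : LB N.sm} (hL : L ∈ PP N h) (R : ℝ) :
    ∃ L' ∈ PP N h, IsoP h L L' ∧ ∃ D : ℝ, 0 ≤ D ∧
      ∀ i j, ∀ x ∈ (N.sm.e i).source ∩ (N.sm.e j).source,
        ‖L'.g i j x - 1‖ ≤ D * Real.exp (-R * |h x|) := by
  obtain ⟨c, hc⟩ := (mem_PP_iff H).1 hL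
  obtain ⟨L', hL', h1⟩ := exists_HN_rate P C (pu_of_part Pa) H S hc.1 R
  refine ⟨L', (mem_PP_iff H).2 ⟨c, hL'⟩, ?_, h1⟩
  have h2 := hL'.mul hc.inv
  rw [add_neg_cancel] at h2
  have h3 : HN Pn h (L' * L⁻¹)⁻¹ 0 := by
    have := h2.inv
    rwa [neg_zero] at this
  refine hT _ ((mem_PP_iff H).2 ⟨_, h2⟩) ?_ ?_
  · rw [qL_eq G P Pa H F h2, q0_zero]
  · rw [qL_eq G P Pa H F h3, q0_zero]

end

end Crest.Agent.R275.POut646
end

-- ▼ part R275/POutY_646
section

/-!
# R275, block P (helper646): the outputs of `POut_646` on the base `B : YBase Y`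

`coreY`, `solvY`, `exists_LB_Y`, `exists_hEX_Y`, `exists_rate_Y`
-/

set_option autoImplicit false
set_option linter.unusedSectionVars false

open Set Filter Topology Complex

namespace Crest.Agent.R275.POutY646

open Crest.Agent.R275.Geo Crest.Agent.R275.GC293 Crest.Agent.R275.NAtl938
open Crest.Agent.R275.WD977 Crest.Agent.R275.Core144 Crest.Agent.R275.Cls938
open Crest.Agent.R275.LocT474 Crest.Agent.R275.Loc647
open Crest.Agent.R275.Fm96 Crest.Agent.R275.Sol352 Crest.Agent.R275.EB938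
open Crest.Agent.R275.PCech646 Crest.Agent.R275.PEx646 Crest.Agent.R275.PUn646
open Crest.Agent.R275.PSol646 Crest.Agent.R275.POut646 Crest.Agent.R275.Base144
open Crest.AlgGeometry.Surface

noncomputable section

variable {Y : Type} [TopologicalSpace Y] [ChartedSpace C2 Y] (B : YBase Y)

/-- the cores of the base -/
theorem coreY : Core B.N B.K B.Pt.ρ := core_psi B.Pt

variable {Pr : Subgroup (LB B.N.sm)} {q : LB B.N.sm → ℤ} {d : ℝ}




variable {Pn : Nerve B.N.ι}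


/-- hypothesis `hEX` of `EB938.exists_lat` -/
theorem exists_hEX_Y [T2Space Y] (H : NL B.N B.h Pn) (S : Sol B.N.sm B.K B.h Pr q d) :
    ∀ c ∈ Pn.Z2c, ∃ L : LB B.N.sm, HasCls B.N.sm B.h L.g c :=
  exists_hEX B.Q (coreY B) B.P H S

/-- **`hrate`** -/
theorem exists_rate_Y [T2Space Y] (H : NL B.N B.h Pn) (F : Forms Pn)
    (S : Sol B.N.sm B.K B.h Pr q d)
    (hT : ∀ L ∈ PP B.N B.h, qL F B.h L = 0 → qL F B.h L⁻¹ = 0 → TrivP B.h L)
    {L : LB B.N.sm} (hL : L ∈ PP B.N B.h) (R : ℝ) :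
    ∃ L' ∈ PP B.N B.h, IsoP B.h L L' ∧ ∃ D : ℝ, 0 ≤ D ∧
      ∀ i j, ∀ x ∈ (B.N.sm.e i).source ∩ (B.N.sm.e j).source,
        ‖L'.g i j x - 1‖ ≤ D * Real.exp (-R * |B.h x|) :=
  exists_rate B.good B.Q (coreY B) B.P H F S hT hL R

end

end Crest.Agent.R275.POutY646
end

-- ▼ part R275/TInA_672

/-!
# R275 (helper672): assembly of the inputs of section 4 (`GeoP572.TIn`)

* `YDat B F d`  : the analytic data over the geometric base `B : YBase Y` (helper144): nerve, forms,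
                  solution theorems;
* `Pre B F d E s` : everything of `TIn` which only depends on the class lattice, the limits, the
                  periodicity (all derived lemmas in the literal form of `TIn`);
* `YDat.exists_pre` : existence (helper938's `exists_lat`);
* `Pre.tinS`    : helper686's `TinS` from `nef`;
* `Pre.toTIn`   : `TIn` from `Pre` and the fields `genus`, `nef`, `inter`;
* `exists_tin`  : the existence statement.
-/

set_option autoImplicit false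
set_option linter.unusedSectionVars false

open Set Filter Topology Complex Metric
open scoped Manifold ContDiff

namespace Crest.Agent.R275.TInA672

open Crest.AlgGeometry.Surface
open Crest.Agent.R275.Geo Crest.Agent.R275.Core144 Crest.Agent.R275.NAtl938
open Crest.Agent.R275.Fm96 Crest.Agent.R275.WB658 Crest.Agent.R275.Base144
open Crest.Agent.R275.Cls938 Crest.Agent.R275.EB938 Crest.Agent.R275.Loc647
open Crest.Agent.R275.LocT474 Crest.Agent.R275.Sol352 Crest.Agent.R275.Sec1197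
open Crest.Agent.R275.GeoP572 (TG Lat bq dvs TIn)
open Crest.Agent.R275.BR4672 (gB BdG LowE NZ)
open Crest.Agent.R275.Dv69 (EffDiv LocFact)
open Crest.Agent.R275.ODiv686 (KB)

noncomputable section

variable {Y : Type} [TopologicalSpace Y] [ChartedSpace C2 Y]

/-! ### the analytic data -/

/-- the analytic data over the geometric base -/
structure YDat (B : YBase Y) {Pn : Nerve B.N.ι} (F : Forms Pn) (d : ℝ) : Prop where
  /-- `Pn` is the nerve of the big balls -/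
  nl : NL B.N B.h Pn
  /-- the deck transformation on the nerve -/
  g_eq : ∀ i, B.Q.s i = Pn.g i
  /-- the solution theorems -/
  sol : Sol B.N.sm B.K B.h (PP B.N B.h) (qL F B.h) d

namespace YDat

variable {B : YBase Y} {Pn : Nerve B.N.ι} {F : Forms Pn} {d : ℝ} (D : YDat B F d)
include D

theorem ug [T2Space Y] : Wy5197.UG B.P B.h B.K := CorP508.ug_psi B.Pt

theorem small [Nonempty Y] (T : ℝ) : ∃ y : Y, B.h y < T := small_of_shift B.Q.shift T

theorem large [Nonempty Y] (T : ℝ) : ∃ y : Y, T < B.h y := large_of_shift B.Q.shift T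

/-- the analytic inputs of section 1 -/
theorem secIn [T2Space Y] [Nonempty Y] [IsManifold 𝓘(ℂ, C2) 1 Y] :
    SecIn B.N.sm B.h (PP B.N B.h) (qL F B.h) :=
  secIn_of_sol D.ug D.sol PP_le D.small D.large

theorem equi_sh (i : B.N.ι) : B.equi.sh i = Pn.g i := (B.equi_sh i).trans (D.g_eq i)

/-- existence of the unit bundles with their sections -/
theorem exists_lat [T2Space Y] [Nonempty Y] [IsManifold 𝓘(ℂ, C2) 1 Y] :
    ∃ (b : ℕ) (E : Fin b × ℤ → LB B.N.sm) (s : Fin b × ℤ → B.N.ι → Y → ℂ), 0 < b ∧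
      Lat (PP B.N B.h) (TG B.N.sm B.h) E (qL F B.h) ∧
      (∀ β, pullL B.equi (E (gB _ β)) = E β) ∧ (∀ β, pullS B.equi (s (gB _ β)) = s β) ∧
      (∀ β, s β ∈ VL B.h (E β)) ∧ (∀ β, LimL (A := B.N.sm) B.h (s β) 1) ∧
      ∃ R : ℝ, ∀ β, ∃ e, HN Pn B.h (E β) e ∧ ∀ i j k, e i j k ≠ 0 → |(Pn.p i : ℝ) - β.2| ≤ R := by
  refine EB938.exists_lat B.good B.Q B.P D.nl F B.equi D.equi_sh
    (POutY646.exists_hEX_Y B D.nl D.sol)
    (fun L hL h0 h1 => D.secIn.trivP_of_q hL h0 h1) (fun L hL hT => ?_)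
    (fun K hK h0 => D.sol.exists_sec K hK h0)
  have hI : IsoP B.h (1 : LB B.N.sm) L := by
    unfold IsoP
    rw [inv_one, mul_one]
    exact hT
  exact isIso_of_isoP D.ug D.sol PP_le D.small D.large (PP B.N B.h).one_mem hL hI

end YDat

/-! ### the class lattice with its sections -/

/-- the part of `TIn` which is produced by the class lattice -/
structure Pre (B : YBase Y) {Pn : Nerve B.N.ι} (F : Forms Pn) (d : ℝ) {b : ℕ}
    (E : Fin b × ℤ → LB B.N.sm) (s : Fin b × ℤ → B.N.ι → Y → ℂ) : Prop where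
  dat : YDat B F d
  b_pos : 0 < b
  lat : Lat (PP B.N B.h) (TG B.N.sm B.h) E (qL F B.h)
  E_eq : ∀ β, pullL B.equi (E (gB _ β)) = E β
  s_eq : ∀ β, pullS B.equi (s (gB _ β)) = s β
  s_mem : ∀ β, s β ∈ VL B.h (E β)
  s_lim : ∀ β, LimL (A := B.N.sm) B.h (s β) 1
  cls : ∃ R : ℝ, ∀ β, ∃ e, HN Pn B.h (E β) e ∧
    ∀ i j k, e i j k ≠ 0 → |(Pn.p i : ℝ) - β.2| ≤ R

theorem YDat.exists_pre [T2Space Y] [Nonempty Y] [IsManifold 𝓘(ℂ, C2) 1 Y] {B : YBase Y}
    {Pn : Nerve B.N.ι} {F : Forms Pn} {d : ℝ} (D : YDat B F d) :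
    ∃ (b : ℕ) (E : Fin b × ℤ → LB B.N.sm) (s : Fin b × ℤ → B.N.ι → Y → ℂ), Pre B F d E s := by
  obtain ⟨b, E, s, h1, h2, h3, h4, h5, h6, h7⟩ := D.exists_lat
  exact ⟨b, E, s, D, h1, h2, h3, h4, h5, h6, h7⟩

namespace Pre

variable [IsManifold 𝓘(ℂ, C2) 1 Y]
variable {B : YBase Y} {Pn : Nerve B.N.ι} {F : Forms Pn} {d : ℝ} {b : ℕ}
  {E : Fin b × ℤ → LB B.N.sm} {s : Fin b × ℤ → B.N.ι → Y → ℂ} (H : Pre B F d E s)
include H

theorem bdg : ∀ L ∈ PP B.N B.h, BdG L := fun _ hL => BR4672.InP.bdG (PP_le hL)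

theorem P_pull : ∀ L ∈ PP B.N B.h, pullL B.equi L ∈ PP B.N B.h :=
  fun L hL => (EB938.pull_mem_PP_iff H.dat.nl B.equi H.dat.equi_sh B.Q.shift L).2 hL

theorem lev_g : ∀ β : Fin b × ℤ, ((gB _ β).2 : ℤ) = β.2 + 1 := fun _ => rfl

theorem fin (n : ℤ) : {β : Fin b × ℤ | β.2 = n}.Finite := BR4672.fin_lev n

theorem E_pull (β : Fin b × ℤ) : pullL B.equi (E (gB _ β)) * (E β)⁻¹ ∈ TG B.N.sm B.h := by
  rw [H.E_eq β, mul_inv_cancel]
  exact trivP_one

theorem s_ne [Nonempty Y] (β : Fin b × ℤ) : s β ≠ 0 := by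
  intro e
  obtain ⟨T, hT⟩ := H.s_lim β (1 / 2) (by norm_num)
  obtain ⟨y, hy⟩ := H.dat.large T
  obtain ⟨i, hi⟩ := B.N.sm.cover y
  have h1 := hT i y hi hy
  have h2 : s β i y = 0 := congrFun (congrFun e i) y
  have h3 : ‖(0 : ℂ) - 1‖ < 1 / 2 :=
    (congrArg (fun z : ℂ => ‖z - 1‖) h2).symm.le.trans_lt h1
  rw [zero_sub, norm_neg, norm_one] at h3
  norm_num at h3

variable [T2Space Y] [Nonempty Y]

theorem lim : ∀ L ∈ PP B.N B.h, ∀ σ ∈ VL B.h L, σ ≠ 0 →
    ∃ c : ℂ, c ≠ 0 ∧ LimL (A := B.N.sm) B.h σ c := by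
  intro L hL σ hσ h0
  obtain ⟨c, hc⟩ := H.dat.secIn.limL L hL σ hσ
  exact ⟨c, H.dat.secIn.limL_ne hL hσ h0 hc, hc⟩

theorem loc : ∃ W : ℝ, ∀ β, ∀ L ∈ PP B.N B.h, ∀ σ ∈ VL B.h L, σ ≠ 0 → ∀ T : ℝ,
    (∀ i, ∀ x ∈ (B.N.sm.e i).source, T < B.h x → σ i x ≠ 0) → T + W ≤ -((β.2 : ℤ) : ℝ) →
    bq (qL F B.h) L (E β) = 0 := by
  obtain ⟨R, hR⟩ := H.cls
  refine loc_final B.good B.P B.Q B.deck.cont H.dat.nl F (PP B.N B.h) (fun β => β.2) E
    (qL F B.h) (fun L hL => ?_) (fun L hL β c hc e he hLc hEe => ?_) (R := R) (fun β => ?_) H.lim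
  · obtain ⟨c, hc⟩ := (mem_PP_iff H.dat.nl).1 hL
    exact ⟨c, hc.1, hc.2⟩
  · exact bq_eq B.good B.Q B.P H.dat.nl F ⟨hc, hLc⟩ ⟨he, hEe⟩
  · obtain ⟨e, he, h1⟩ := hR β
    exact ⟨e, he.1, he.2, h1⟩

/-- **ODIV** in the literal form of `TIn`, with more information -/
theorem odiv' (Dv : EffDiv Y) (hD : IsCompact Dv.supp) : ∃ L ∈ PP B.N B.h, ∃ σ ∈ VL B.h L, σ ≠ 0 ∧
    dvs B.N.sm σ = Dv ∧ LowE B.N.sm B.h σ ∧ LimS (A := B.N.sm) B.h σ 1 ∧
    LimL (A := B.N.sm) B.h σ 1 ∧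
    (∃ T : ℝ, ∀ i, ∀ x ∈ (B.N.sm.e i).source, T < |B.h x| → σ i x = 1) ∧
    ∃ T : ℝ, ∀ i j x, T < |B.h x| → L.g i j x = 1 := by
  obtain ⟨L, c, s, -, k2, k3, k4, k5, k6, k7, k8, k9, ⟨T, k10⟩, k11⟩ :=
    Conv672.exists_od B.good B.Q B.room B.adm B.deck.cont B.room_lf Dv hD
  refine ⟨L, ⟨c, ⟨k2, k3⟩, k4⟩, s, k5, k6.ne_zero, k7, ?_, k8, k9, ⟨T, k10⟩, k11⟩
  exact ⟨T, 1, one_pos, fun i x hx hTx => by rw [k10 i x hx hTx, norm_one]⟩

theorem odiv (Dv : EffDiv Y) (hD : IsCompact Dv.supp) : ∃ L ∈ PP B.N B.h, ∃ σ ∈ VL B.h L, σ ≠ 0 ∧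
    dvs B.N.sm σ = Dv ∧ LowE B.N.sm B.h σ := by
  obtain ⟨L, hL, σ, h1, h2, h3, h4, -⟩ := H.odiv' Dv hD
  exact ⟨L, hL, σ, h1, h2, h3, h4⟩

/-- helper686's input of section 3 and of Lemma D -/
theorem tinS
    (nef : ∀ C : EffDiv Y, Dv69.Mon.IsPr C → IsCompact C.supp → ∀ L ∈ PP B.N B.h,
      ∀ σ ∈ VL B.h L, σ ≠ 0 → dvs B.N.sm σ = C → 2 * qL F B.h L ≤ bq (qL F B.h) L L) :
    St3686.TinS B.N.sm B.P B.h B.g B.equi B.K (PP B.N B.h) (gB (Fin b)) Prod.snd E (qL F B.h) s d :=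
  TinY686.tinS' B H.dat.sol H.lat H.E_eq H.s_eq H.s_mem H.s_lim nef

/-- **`TIn`** from the class lattice and the three remaining fields -/
theorem toTIn [LocFact Y] [PreconnectedSpace Y]
    (genus : ∀ C : EffDiv Y, Dv69.Mon.IsPr C → IsCompact C.supp → ∀ L ∈ PP B.N B.h,
      ∀ σ ∈ VL B.h L, σ ≠ 0 → dvs B.N.sm σ = C → qL F B.h L⁻¹ = -1)
    (nef : ∀ C : EffDiv Y, Dv69.Mon.IsPr C → IsCompact C.supp → ∀ L ∈ PP B.N B.h,
      ∀ σ ∈ VL B.h L, σ ≠ 0 → dvs B.N.sm σ = C → 2 * qL F B.h L ≤ bq (qL F B.h) L L)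
    (inter : ∀ C : EffDiv Y, Dv69.Mon.IsPr C → IsCompact C.supp → ∀ L ∈ PP B.N B.h,
      ∀ σ ∈ VL B.h L, σ ≠ 0 → dvs B.N.sm σ = C → ∀ C' : EffDiv Y, Dv69.Mon.IsPr C' →
      IsCompact C'.supp → C ≠ C' → ∀ L' ∈ PP B.N B.h, ∀ σ' ∈ VL B.h L', σ' ≠ 0 →
      dvs B.N.sm σ' = C' → 0 ≤ bq (qL F B.h) L L') :
    TIn B.N.sm B.h B.g B.equi (PP B.N B.h) (gB (Fin b)) Prod.snd E (qL F B.h) s where
  adm := B.admA
  deck := B.deck
  bdg := H.bdg
  P_pull := H.P_pull
  lev_g := H.lev_g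
  fin := H.fin
  lat := H.lat
  E_pull := H.E_pull
  lim := H.lim
  s_mem := H.s_mem
  s_ne := H.s_ne
  loc := H.loc
  sec3 := (H.tinS nef).sec3
  odiv := H.odiv
  genus := genus
  nef := nef
  inter := inter
  far := (H.tinS nef).far

end Pre


end

end Crest.Agent.R275.TInA672
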