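import Crest.Agent.R275.SkelY_144_Mg
import Crest.Agent.R275.EndAll_468
import Crest.Agent.R275.TInA_672
import Crest.Agent.R275.TInB_672
import Crest.Agent.R275.LargeEndB_884
import Crest.Agent.R275.MulZ3_658_Mg
import Crest.Agent.R275.YBG_812
import Crest.Agent.R275.CutZ_89
import Crest.Agent.R275.Sec1B_197
import Crest.Agent.R275.Wy5C_197
import Crest.Agent.R275.SolY_352
import Crest.Agent.R275.IterAll_539
import Crest.Agent.R275.FamY_160

-- ▼ part R275/SkelEndY_69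
section

/-!
# R275, helper69: the END half assembled, on `G : XGeo X`

* `shell_of_yOut` : `YOut` (144) + spectrum + `Sol` for all nonspectral rates + iteration ⟹ shell
-/

set_option autoImplicit false
set_option linter.unusedSectionVars false

open Set Filter Topology
open scoped Manifold ContDiff

namespace Crest.Agent.R275.SkelEnd69

open Crest.AlgGeometry.Surface Crest.Agent.R275.Geo Crest.Agent.R275.Core144
open Crest.Agent.R275.NAtl938 Crest.Agent.R275.Base144 Crest.Agent.R275.Cls938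
open Crest.Agent.R275.EB938 Crest.Agent.R275.Loc647 Crest.Agent.R275.LocT474
open Crest.Agent.R275.Dv69 (HolN LEq EffDiv gt LocFact DivFin)
open Crest.Agent.R275.HolY631 (Deck)
open Crest.Agent.R275.GeoP572 Crest.Agent.R275.Sec495 Crest.Agent.R275.S5In95
open Crest.Agent.R275.Int495 Crest.Agent.R275.RootS5595 Crest.Agent.R275.Rech69
open Crest.Agent.R275.St3686 Crest.Agent.R275.Sol352 Crest.Agent.R275.Lau473
open Crest.Agent.R275.Fin468 Crest.Agent.R275.Xin473 Crest.Agent.R275.Tr5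
open Crest.Agent.R275.SkelY144 (YOut N8Out)
open Crest.Agent.R275.BR4672 (gB BdG LowE NZ)
open Crest.Agent.R275.TInA672 (YDat Pre)
open Crest.Agent.R275.ZC352 Crest.Agent.R275.XN194

noncomputable section

variable {Y : Type} [TopologicalSpace Y] [ChartedSpace C2 Y] [IsManifold 𝓘(ℂ, C2) 1 Y]

/-- bundles with a prescribed rate in every class -/
theorem hex_of_pre [T2Space Y] [Nonempty Y] {B : YBase Y} {Pn : Nerve B.N.ι} {F : Forms Pn}
    {d : ℝ} (D : YDat B F d) (R : ℝ) :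
    ∀ L ∈ PP B.N B.h, ∃ L' ∈ PP B.N B.h, IsoP B.h L L' ∧ HasR B.h R L' := by
  intro L hL
  obtain ⟨L', h1, h2, C, -, h3⟩ := POutY646.exists_rate_Y B D.nl F D.sol
    (fun L hL h0 h1 => D.secIn.trivP_of_q hL h0 h1) hL R
  exact ⟨L', h1, h2, C, h3⟩

theorem pull_iff {B : YBase Y} {Pn : Nerve B.N.ι} {F : Forms Pn} {d : ℝ} (D : YDat B F d)
    (L : LB B.N.sm) : pullL B.equi L ∈ PP B.N B.h ↔ L ∈ PP B.N B.h :=
  EB938.pull_mem_PP_iff D.nl B.equi D.equi_sh B.Q.shift L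

/-- **the END half**, for a `YBase` -/
theorem shell_of_yBase {X : Type} [TopologicalSpace X] [T2Space X] [CompactSpace X]
    [ConnectedSpace X] [ChartedSpace C2 X] [IsManifold 𝓘(ℂ, C2) 1 X]
    [T2Space Y] [ConnectedSpace Y] [LocFact Y] [DivFin Y] (B : YBase Y) (Ec : EndCover X Y)
    (hg : Ec.g = B.g) (hh : Ec.h = B.h) {Pn : Nerve B.N.ι} {F : Forms Pn} {d : ℝ} {b : ℕ}
    {E : Fin b × ℤ → LB B.N.sm} {s : Fin b × ℤ → B.N.ι → Y → ℂ} (yo : YOut B F d E s)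
    (hle : ∀ t ∈ Spec B.g, ‖t‖ ≤ 1)
    (hsol : (∀ r : ℝ, r ≠ 0 → NonSp B.g r) → ∀ d : ℝ, 0 < d →
      Sol B.N.sm B.K B.h (PP B.N B.h) (qL F B.h) d)
    (hit : ∀ (O : Ord495 yo.tin.toDivData.toData) (m : ℤ) (N : Set Y), IsOpen N →
      (Dk yo.tin O m).supp ⊆ N → (∃ T : ℝ, {z | B.h z ≤ T} ⊆ N) →
      (∃ H0 : ℝ, ∀ z ∈ N, B.h z ≤ H0) →
      (∀ k, k + O.r k < m → Disjoint (closure N) (Ck yo.tin O k).1.supp) →
      E (O.φ (m - 1)) ∈ FrG B.N.sm B.h N → IterHyp yo.tin O m N) :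
    HasGlobalSphericalShell X := by
  cases B with
  | mk BN Bg Bh Bdeck Bgood Badm Broom Broom_lf BQ Bsmooth BPt Bpsi =>
    dsimp only at hg hh
    subst hg
    subst hh
    have : Nonempty (Fin b × ℤ) := ⟨⟨⟨0, yo.pre.b_pos⟩, 0⟩⟩
    exact shell_of_tin Ec yo.tin yo.tinS (pull_iff yo.pre.dat) yo.n8.n8i yo.n8.n8ii hle hsol
      (hex_of_pre yo.pre.dat) hit

/-- **the END half** on `G : XGeo X` -/
theorem shell_of_yOut {X : Type} [TopologicalSpace X] [T2Space X] [CompactSpace X]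
    [ConnectedSpace X] [ChartedSpace C2 X] [IsManifold 𝓘(ℂ, C2) 1 X] (G : XGeo X)
    [ConnectedSpace (YC G.u)] [LocFact (YC G.u)] [DivFin (YC G.u)] (F : Forms G.Pn) {d : ℝ} {b : ℕ}
    {E : Fin b × ℤ → LB G.yBase.N.sm} {s : Fin b × ℤ → G.yBase.N.ι → YC G.u → ℂ}
    (yo : YOut G.yBase F d E s) (hle : ∀ t ∈ Spec (YC.dk G.u), ‖t‖ ≤ 1)
    (hsol : ∀ d : ℝ, 0 < d → (∀ r : ℝ, 0 < r → r < d → NonSp (YC.dk G.u) (-r)) →
      Sol G.yBase.N.sm G.yBase.K G.yBase.h (PP G.yBase.N G.yBase.h) (qL F G.yBase.h) d)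
    (hit : ∀ (O : Ord495 yo.tin.toDivData.toData) (m : ℤ) (N : Set (YC G.u)), IsOpen N →
      (Dk yo.tin O m).supp ⊆ N → (∃ T : ℝ, {z | YC.ht G.u z ≤ T} ⊆ N) →
      (∃ H0 : ℝ, ∀ z ∈ N, YC.ht G.u z ≤ H0) →
      (∀ k, k + O.r k < m → Disjoint (closure N) (Ck yo.tin O k).1.supp) →
      E (O.φ (m - 1)) ∈ FrG G.yBase.N.sm (YC.ht G.u) N → IterHyp yo.tin O m N) :
    HasGlobalSphericalShell X :=
  shell_of_yBase G.yBase (Top630.endCover_YC G.u) rfl rfl yo hle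
    (fun hns d hd => hsol d hd fun r hr _ => hns (-r) (neg_ne_zero.2 hr.ne')) hit

/-- the spectrum at the small end -/
theorem spec_le {Y : Type} [TopologicalSpace Y] [ChartedSpace C2 Y] [MeasurableSpace Y]
    [BorelSpace Y] {g : Y ≃ₜ Y} {h : Y → ℝ} (L : FL884.LargeEnd g h) :
    ∀ t ∈ Spec g, ‖t‖ ≤ 1 := by
  rintro t ⟨f, h1, h2, h3⟩
  exact L.spec t f h1 h2 h3

end

end Crest.Agent.R275.SkelEnd69
end

-- ▼ part R275/BndB_323
section

/-!
# R275: the bounded division step on the cover (helper323)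

`B : YBase Y` (helper144), weights `(hts B).wt (-a) b` (helper812, helper681), the weighted complexes
`wL` of helper89.

* `mb_sec` : a section in `V_L` with limits at both ends has local size one.
* `bndY` : the bounded division step from `Ex₁` for `O`, `Ex₂` for `L_Z⁻¹`.
* `bndY_of_yan` : from helper352's `YAn`, all rates `0 < a, b < d`.
-/

set_option autoImplicit false
set_option linter.unusedSectionVars false
set_option linter.unusedVariables false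

open Set Filter Topology Complex
open scoped ContDiff Matrix ComplexConjugate

namespace Crest.Agent.R275.BndZ323

open Geo Fm96 Q74 Lam2130 WY681 Core144 LauB681 WCxY89 GG89 Base144 YBG812 CutZ89 NAtl938
open Sol352 Crest.AlgGeometry.Surface

noncomputable section

/-! ### bounds of the section -/

section sec

variable {M : Type} [TopologicalSpace M] {A : Atl 2 M} {P : Part A}

/-- a section in `V_L` with limits at both ends has local size one -/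
theorem mb_sec {κ : Type} [DecidableEq κ] {h : M → ℝ} {K : A.ι → Set M} {L : LB A}
    {s : A.ι → M → ℂ} {c c' : ℂ} (U : Wy5197.UG P h K) (hK : ∀ i, tsupport (P.ψ i) ⊆ K i)
    (hs : s ∈ VL h L) (hS : LimS h s c) (hL : LimL h s c') :
    WY4193.MB P (fun i x => s i x • (1 : Matrix κ κ ℂ)) (fun _ => 1) :=
  mb_of_BD hK (smAt_of_isZ0 ((Fm96.isHS_iff isOpen_univ).1 hs.1).z0)
    (Sec1197.bd_sec U hs.1 (bd_of_lims hs hS hL))

end sec

variable {Y : Type} [TopologicalSpace Y] [ChartedSpace C2 Y] (B : YBase Y)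

/-- **the bounded division step on `Y`** -/
theorem bndY [T2Space Y] {LZ : LB B.N.sm} (hLZ : LZ⁻¹ ∈ BG B) {sZ : B.N.sm.ι → Y → ℂ} {c c' : ℂ}
    (hs : sZ ∈ VL B.h LZ) (hS : LimS B.h sZ c) (hL : LimL B.h sZ c')
    {hh : B.N.sm.Sm B.h} {t t' : ℝ} {a b : ℝ}
    (e1 : (wL (hg := Fm96.isLC (1 : LB B.N.sm)) (bgeo_one (B := B)) (hd B) (card_nb B) hh t).Ex₁ a b)
    (e2 : (wL (hg := Fm96.isLC LZ⁻¹) (bgeo hLZ) (hd B) (card_nb B) hh t').Ex₂ a b)
    {K : Set Y} (hK : IsCompact K) (hK0 : ∀ i, ∀ x ∈ K, x ∈ (B.N.sm.e i).source → sZ i x ≠ 0)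
    (s : ℕ) : BDiv (bgeo hLZ) (bgeo_one (B := B)) ((hts B).wt (-a) b) sZ K s :=
  bndZ_cx hs.1 (bgeo hLZ) (bgeo_one (B := B))
    (mb_sec (Wy5197.ug_psi B.Pt) (fun i => subset_rfl) hs hS hL)
    _ _ _ _ rfl rfl e1 e2 hK hK0 s

/-- **the bounded division step on `Y`, from the final list of inputs of block D** -/
theorem bndY_of_yan [T2Space Y] {Pr : Subgroup (LB B.N.sm)} {q : LB B.N.sm → ℤ} {d : ℝ}
    (Z : YAn B.N.sm B.K B.h Pr q d) {LZ : LB B.N.sm} (hP : LZ ∈ Pr) (hLZ : LZ⁻¹ ∈ BG B)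
    {sZ : B.N.sm.ι → Y → ℂ} {c c' : ℂ}
    (hs : sZ ∈ VL B.h LZ) (hS : LimS B.h sZ c) (hL : LimL B.h sZ c')
    {hh : B.N.sm.Sm B.h} {t t' : ℝ}
    (h1 : (Z.F 1 (Z.bgP 1 Pr.one_mem)).W =
      wL (hg := Fm96.isLC (1 : LB B.N.sm)) (bgeo_one (B := B)) (hd B) (card_nb B) hh t)
    (h2 : (Z.F LZ⁻¹ (Z.bgP _ (Pr.inv_mem hP))).W =
      wL (hg := Fm96.isLC LZ⁻¹) (bgeo hLZ) (hd B) (card_nb B) hh t')
    {a b : ℝ} (ha : 0 < a) (had : a < d) (hb : 0 < b) (hbd : b < d)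
    {K : Set Y} (hK : IsCompact K) (hK0 : ∀ i, ∀ x ∈ K, x ∈ (B.N.sm.e i).source → sZ i x ≠ 0)
    (s : ℕ) : BDiv (bgeo hLZ) (bgeo_one (B := B)) ((hts B).wt (-a) b) sZ K s :=
  bndY B hLZ hs hS hL (h1 ▸ (Z.od.dg a b ha had hb hbd).ex₁)
    (h2 ▸ (Z.ldata LZ⁻¹ (Pr.inv_mem hP)).ex₂ a (Z.ns_pos a ha had) b (Z.ns_pos b hb hbd)) hK hK0 s

end

end Crest.Agent.R275.BndZ323
end

-- ▼ part R275/AnInst_539
section

/-!
# R275, block SEC5-ITER (helper539): the analytic input on `YBase`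

`anIn_div` : `AnIn` from the bounded division step `BDiv`, weights `(hts B).wt (-a) b`.
`anIn_yan` : `AnIn` from helper352's `YAn`.
`ug_Y`, `rm_Y` : room around the cores.
-/

set_option autoImplicit false
set_option linter.unusedSectionVars false

open Set Filter Topology Complex
open scoped ContDiff Matrix ComplexConjugate

namespace Crest.Agent.R275.IterAll539

open Geo Fm96 Q74 Lam2130 WY681 Core144 Base144 YBG812 BndZ323 It160 AtlAdd539 Norm195 MulZ658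
open Sol352 Crest.AlgGeometry.Surface

noncomputable section

variable {Y : Type} [TopologicalSpace Y] [ChartedSpace C2 Y] [T2Space Y] (B : YBase Y)

/-- bounded geometry of the trivial bundle -/
theorem bgeo1 : BGeo B.P (BndZ323.BL (IsLC.one (A := B.N.sm))) := bgeo_one (B := B)

/-- the norm package on `Y` -/
abbrev npY (a b : ℝ) {s : ℕ} (hs : 3 ≤ s) : NP B.N.sm := npW (bgeo1 B) ((hts B).wt (-a) b) hs

variable {B}

/-- the norm package for the bundle valued forms -/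
abbrev nzY {LZ : LB B.N.sm} (hLZ : LZ⁻¹ ∈ BG B) (a b : ℝ) (s : ℕ) : NZ B.N.sm :=
  nzW (bgeo hLZ) ((hts B).wt (-a) b) s

theorem near_Y : ∀ j, ∀ x ∈ tsupport (B.P.χ j), |B.h x - (hts B).ht j| ≤ (hd B).R :=
  fun j x hx => (hd B).near j x hx

theorem nearH_Y : NearH B.P B.h (hts B).ht := nearH_of_HD (hd B)

/-- forms with strictly better rates are in the class -/
theorem c1_of_bd {a b p q : ℝ} (hp : p < -a) (hq : q < b) {s : ℕ} (hs : 3 ≤ s)
    {u : B.N.sm.ι → Y → Fin 2 → ℂ} (hu : IsZ1 B.N.sm 1 univ u) (hb : BD1 B.N.sm B.K B.h p q u) :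
    (npY B a b hs).c1 u := by
  have hm : mk3 0 u 0 ∈ SecL (LV (IsLC.one (A := B.N.sm))) := mk3_mem1 _ hu
  refine ⟨hm, ?_⟩
  have h1 := FamY160.mem_of_wb (B := BndZ323.BL (IsLC.one (A := B.N.sm))) (hd B)
    (hc := card_nb B) hp hq (FamY160.wb_psi_Y B)
    (u := ⟨mk3 0 u 0, hm⟩) fun k => by
      have h2 := FamY160.comp_wb (K := B.K) (h := B.h) (a := p) (b := q)
        (u0 := (0 : B.N.sm.ι → Y → ℂ)) (u1 := u) (u2 := (0 : B.N.sm.ι → Y → ℂ))
        FamY160.bd_zero hb FamY160.bd_zero k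
      exact h2
  exact h1

/-- **the analytic input from the bounded division step** -/
theorem anIn_div {d a b : ℝ} (ha : 0 < a) (had : a < d / 2) (hb : 0 < b) {s : ℕ} (hs : 3 ≤ s)
    {LZ : LB B.N.sm} (hLZ : LZ⁻¹ ∈ BG B) {sZ : B.N.sm.ι → Y → ℂ}
    (hdiv : ∀ K : Set Y, IsCompact K → (∀ i, ∀ q ∈ K, q ∈ (B.N.sm.e i).source → sZ i q ≠ 0) →
      BDiv (bgeo hLZ) (bgeo_one (B := B)) ((hts B).wt (-a) b) sZ K s) :
    AnIn B.P B.K B.h d (npY B a b hs) (nzY hLZ a b s) (s + 1) LZ sZ where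
  loc := locN_npW _ _ _
  hsup := hsup_npW (bgeo1 B) (hts B) (hd B).R_nonneg near_Y (by linarith) hs
  hcs := hcs_npW _ _ _
  hbd u hu hb' := c1_of_bd (by linarith) hb hs hu hb'
  mul θ hθ hθb := by
    refine mulB_bd (H := hts B) (h := B.h) (K := B.K) (g := LZ⁻¹.g) (gs := LZ.g) nearH_Y hθ ?_
      (hB := bgeo hLZ) (hB' := bgeo1 B) hθb (fun i => subset_rfl) (a := -a) (b := b) (a' := -a)
      (b' := b) (by linarith) (by linarith) (s := s) ⟨fun b => ?_, fun b _ => rfl⟩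
      ⟨fun b => ?_, fun b _ => rfl⟩
    · intro i j x _
      show LZ.g i j x * LZ⁻¹.g i j x = 1
      rw [LB.inv_g, mul_inv_cancel₀ (LZ.ne_zero i j x)]
    · exact ⟨fun hb => ⟨C1.z1 hb, hb⟩, fun hb => hb.2⟩
    · exact ⟨fun hb => ⟨C1.z1 hb, hb⟩, fun hb => hb.2⟩
  bnd K hK hK0 := by
    obtain ⟨C, hC, key⟩ := hdiv K hK hK0
    refine ⟨C, hC.le, fun b hb hbK hbc => ?_⟩
    obtain ⟨u, b', h1, h2, h3, h4, h5, -, h7, h8⟩ := key b hbc hbK
    obtain ⟨f, hf, hu, -⟩ := exists_fn isOpen_univ h1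
    have e : u = fn B.N.sm f := funext fun i => funext fun x => hu i x trivial
    subst e
    exact ⟨f, b', hf, h2, fun j q e => congrFun (h5 j q) e, h3, h7, h4, h8⟩

/-- **the analytic input from the final list of block D** -/
theorem anIn_yan {Pr : Subgroup (LB B.N.sm)} {q : LB B.N.sm → ℤ} {d : ℝ}
    (Z : YAn B.N.sm B.K B.h Pr q d)
    (hF : ∀ L (hL : L ∈ Pr) (hB : L ∈ BG B), (Z.F L (Z.bgP L hL)).W = FamY160.wY B L hB)
    {LZ : LB B.N.sm} (hP : LZ ∈ Pr) (hLZ : LZ⁻¹ ∈ BG B) {sZ : B.N.sm.ι → Y → ℂ} {c c' : ℂ}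
    (hsZ : sZ ∈ VL B.h LZ) (hS : LimS B.h sZ c) (hL : LimL B.h sZ c')
    {a b : ℝ} (ha : 0 < a) (had : a < d / 2) (hb : 0 < b) (hbd : b < d) {s : ℕ} (hs : 3 ≤ s) :
    AnIn B.P B.K B.h d (npY B a b hs) (nzY hLZ a b s) (s + 1) LZ sZ :=
  anIn_div ha had hb hs hLZ fun _ hK hK0 =>
    bndY_of_yan B Z hP hLZ hsZ hS hL (hF 1 Pr.one_mem one_mem_BG)
      (hF LZ⁻¹ (Pr.inv_mem hP) hLZ) ha (by linarith) hb hbd hK hK0 s

/-- room around the cores of `YBase` -/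
theorem ug_Y (B : YBase Y) : Wy5197.UG B.P B.h B.K := Wy5197.ug_psi B.Pt


end

end Crest.Agent.R275.IterAll539
end

-- ▼ part R275/IterHypY_572

/-!
# R275, END half (helper572): `IterHyp` on `YBase`

* `exists_anIn`  : helper539's `AnIn` for the bundles `LZk` (from `YAn`);
* `iterHyp_yan`  : `IterHyp H O m N` on `B : YBase Y` from `YAn`.
-/

set_option autoImplicit false
set_option linter.unusedSectionVars false

open Set Filter Topology
open scoped Manifold ContDiff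

namespace Crest.Agent.R275.EReg572

open Crest.AlgGeometry.Surface Crest.Agent.R275.Geo Crest.Agent.R275.Core144
open Crest.Agent.R275.Fm96 Crest.Agent.R275.It160 Crest.Agent.R275.AtlAdd539
open Crest.Agent.R275.Dv69 (HolN LEq EffDiv gt gm Og LocFact DivFin)
open Crest.Agent.R275.GeoP572 Crest.Agent.R275.Sec495 Crest.Agent.R275.S5In95
open Crest.Agent.R275.Int495 Crest.Agent.R275.QCons734 Crest.Agent.R275.Base144
open Crest.Agent.R275.YBG812 Crest.Agent.R275.Sol352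

noncomputable section

variable {Y : Type} [TopologicalSpace Y] [T2Space Y] [ChartedSpace C2 Y] [IsManifold 𝓘(ℂ, C2) 1 Y]
variable [LocFact Y] [DivFin Y] [PreconnectedSpace Y] [Nonempty Y]
variable {B : YBase Y} {γ : Y ≃ₜ Y} {Q : Equi B.N.sm γ} {P : Subgroup (LB B.N.sm)}
  {Bi : Type} [DecidableEq Bi] {g : Equiv.Perm Bi} {lev : Bi → ℤ} {E : Bi → LB B.N.sm}
  {q : LB B.N.sm → ℤ} {s : Bi → B.N.sm.ι → Y → ℂ}
  (H : TIn B.N.sm B.h γ Q P g lev E q s) (O : Ord495 H.toDivData.toData)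

theorem sZk_ne (k : ℤ) : sZk H O k ≠ 0 :=
  prodS_ne H.adm (fun _ _ => H.s_mem _) fun _ _ => H.s_ne _

include H in
/-- **the analytic input of the iteration** from `YAn` -/
theorem exists_anIn (hS : HasS B.h P) (hBG : ∀ L ∈ P, L ∈ BG B) {d : ℝ}
    (Z : YAn B.N.sm B.K B.h P q d)
    (hF : ∀ L (hL : L ∈ P) (hB : L ∈ BG B), (Z.F L (Z.bgP L hL)).W = FamY160.wY B L hB)
    {L : LB B.N.sm} (hL : L ∈ P) {σ : B.N.sm.ι → Y → ℂ} (hσ : σ ∈ VL B.h L) (h0 : σ ≠ 0) :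
    ∃ (N : NP B.N.sm) (NB : NZ B.N.sm) (n : ℕ), IterAll539.AnIn B.P B.K B.h d N NB n L σ := by
  obtain ⟨c, hc⟩ := hS L hL σ hσ
  obtain ⟨c', -, hc'⟩ := H.lim L hL σ hσ h0
  have hd := Z.sol.pos
  exact ⟨_, _, _, IterAll539.anIn_yan (B := B) (a := d / 4) (b := d / 2) (s := 3) Z hF hL
    (hBG _ (P.inv_mem hL)) hσ hc hc' (by linarith) (by linarith) (by linarith) (by linarith)
    le_rfl⟩

/-- **`IterHyp` on `Y`** -/
theorem iterHyp_yan (hS : HasS B.h P) (Lk : Links B.N.sm B.h P q) (hBG : ∀ L ∈ P, L ∈ BG B)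
    {d : ℝ} (Z : YAn B.N.sm B.K B.h P q d)
    (hF : ∀ L (hL : L ∈ P) (hB : L ∈ BG B), (Z.F L (Z.bgP L hL)).W = FamY160.wY B L hB)
    (m : ℤ) (N : Set Y) (hN : IsOpen N) (hDN : (Dk H O m).supp ⊆ N)
    (hT : ∃ T : ℝ, {z | B.h z ≤ T} ⊆ N) (hN' : ∃ H0 : ℝ, ∀ z ∈ N, B.h z ≤ H0) :
    Fin468.IterHyp H O m N :=
  iterHyp_sol H O hS B.cor (IterAll539.ug_Y B) B.P Lk Z.sol m
    (exists_anIn H hS hBG Z hF (LZk_mem H O _) (sZk_mem H O _) (sZk_ne H O _)) N hN hDN hT hN'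

end

end Crest.Agent.R275.EReg572
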