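import Mathlib.Algebra.MonoidAlgebra.Lift
import Mathlib.Algebra.MonoidAlgebra.Basic
import Mathlib.RingTheory.Ideal.Quotient.Basic
import Mathlib.Algebra.BigOperators.Fin
import Mathlib.Data.Nat.Choose.Basic
import Mathlib.Tactic.Ring
import Mathlib.Tactic.LinearCombination
import Mathlib.Tactic.Linarith

/-!
R275, block F2/NA5 (helper798): the ring of smooth bundles modulo the kernel of the index pairing,
the quadratic law, and the formula for the symmetric powers.
-/

set_option autoImplicit false

namespace Crest.Agent.R275.KR798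

/-- Iso classes of bundles (a commutative monoid under tensor product), an integer valued index and
the relation "`E` is the direct sum of `F` and `G`". -/
structure IndexData (B : Type*) [CommMonoid B] where
  /-- the index -/
  ind : B → ℤ
  /-- `E` is the direct sum of `F` and `G` -/
  IsSum : B → B → B → Prop
  isSum_mul : ∀ {E F G : B}, IsSum E F G → ∀ Y : B, IsSum (E * Y) (F * Y) (G * Y)
  ind_add : ∀ {E F G : B}, IsSum E F G → ind E = ind F + ind G

namespace IndexData

variable {B : Type*} [CommMonoid B] (D : IndexData B)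

/-- linear extension of the index to `ℤ[B]` -/
noncomputable def indL : MonoidAlgebra ℤ B →+ ℤ :=
  MonoidAlgebra.liftNC (AddMonoidHom.id ℤ) D.ind

theorem indL_single (b : B) (n : ℤ) : D.indL (MonoidAlgebra.single b n) = n * D.ind b := by
  unfold indL
  rw [MonoidAlgebra.liftNC_single]; rfl

/-- the kernel of the index pairing -/
noncomputable def N : Ideal (MonoidAlgebra ℤ B) where
  carrier := {x | ∀ y, D.indL (x * y) = 0}
  add_mem' := by
    intro a b ha hb y
    rw [add_mul, map_add, ha y, hb y, add_zero]
  zero_mem' := by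
    intro y
    rw [zero_mul, map_zero]
  smul_mem' := by
    intro c x hx y
    have : c • x * y = x * (c * y) := by
      rw [smul_eq_mul]; ring
    rw [this]; exact hx _

theorem mem_N_iff {x : MonoidAlgebra ℤ B} :
    x ∈ D.N ↔ ∀ y, D.indL (x * y) = 0 := Iff.rfl

theorem mem_N_of_single {x : MonoidAlgebra ℤ B}
    (h : ∀ b : B, D.indL (x * MonoidAlgebra.single b 1) = 0) : x ∈ D.N := by
  rw [mem_N_iff]
  intro y
  induction y using MonoidAlgebra.induction_on with
  | of b => exact h b
  | add f g hf hg => rw [mul_add, map_add, hf, hg, add_zero]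
  | smul r f hf => rw [mul_smul_comm, map_zsmul, hf, smul_zero]

/-- the ring of classes -/
abbrev R : Type _ := MonoidAlgebra ℤ B ⧸ D.N

/-- the class of a bundle -/
noncomputable def cls : B →* D.R :=
  (Ideal.Quotient.mk D.N : MonoidAlgebra ℤ B →* D.R).comp (MonoidAlgebra.of ℤ B)

/-- the index on the ring of classes -/
noncomputable def indR : D.R →+ ℤ :=
  QuotientAddGroup.lift D.N.toAddSubgroup D.indL (by
    intro x hx
    have := (D.mem_N_iff.1 hx) 1
    rwa [mul_one] at this)

theorem indR_mk (x : MonoidAlgebra ℤ B) : D.indR (Ideal.Quotient.mk D.N x) = D.indL x := rfl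

@[simp] theorem indR_cls (b : B) : D.indR (D.cls b) = D.ind b := by
  unfold cls
  rw [MonoidHom.comp_apply]
  have : ((Ideal.Quotient.mk D.N : MonoidAlgebra ℤ B →* D.R)) ((MonoidAlgebra.of ℤ B) b) =
    Ideal.Quotient.mk D.N (MonoidAlgebra.single b 1) := rfl
  rw [this, indR_mk, indL_single, one_mul]

theorem ext_R {x y : D.R} (h : ∀ b : B, D.indR (x * D.cls b) = D.indR (y * D.cls b)) : x = y := by
  obtain ⟨x, rfl⟩ := Ideal.Quotient.mk_surjective x
  obtain ⟨y, rfl⟩ := Ideal.Quotient.mk_surjective y
  rw [Ideal.Quotient.eq]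
  apply D.mem_N_of_single
  intro b
  have := h b
  have e1 : D.indR (Ideal.Quotient.mk D.N x * D.cls b) =
    D.indL (x * MonoidAlgebra.single b 1) := rfl
  have e2 : D.indR (Ideal.Quotient.mk D.N y * D.cls b) =
    D.indL (y * MonoidAlgebra.single b 1) := rfl
  rw [e1, e2] at this
  rw [sub_mul, map_sub, this, sub_self]

theorem cls_sum {E F G : B} (h : D.IsSum E F G) : D.cls E = D.cls F + D.cls G := by
  apply D.ext_R
  intro b
  rw [add_mul, map_add, ← map_mul, ← map_mul, ← map_mul, indR_cls, indR_cls, indR_cls]
  exact D.ind_add (D.isSum_mul h b)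

end IndexData

/-! ### Quadratic functions -/

section Quad

variable {Γ : Type*} [AddCommGroup Γ]



end Quad

/-! ### Symmetric powers -/

section Sym

variable {A : Type*} [CommRing A]


end Sym

end Crest.Agent.R275.KR798
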