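import Crest.Agent.R275.LauR_635

/-!
R275 / PART II (helper635): exact homotopy from a parametrix and exactness, on a scale.
-/

set_option autoImplicit false

namespace Crest.Agent.R275.Lau635

open Crest.Agent.R275.Fred685 Module LinearMap Submodule

/-- correction of an approximate homotopy, in any ring -/
theorem correct_homotopy_ring {A : Type*} [Ring A] {P D Kt W : A} (hPP : P * P = P)
    (hDP : D * P = D) (hPD : P * D = D) (hDD : D * D = 0) (hPK : P * Kt = Kt) (hKP : Kt * P = Kt)
    (hW1 : (1 - (P - (D * Kt + Kt * D))) * W = 1) (hW2 : W * (1 - (P - (D * Kt + Kt * D))) = 1) :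
    D * (W * Kt) + (W * Kt) * D = P ∧ P * (W * Kt) = W * Kt ∧ (W * Kt) * P = W * Kt := by
  set U : A := D * Kt + Kt * D with hU
  set E : A := P - U with hE
  have hDU : D * U = U * D := by
    rw [hU, mul_add, add_mul, ← mul_assoc, hDD, zero_mul, zero_add, mul_assoc, mul_assoc, hDD,
      mul_zero, add_zero]
  have hPU : P * U = U := by rw [hU, mul_add, ← mul_assoc, hPD, ← mul_assoc, hPK]
  have hUP : U * P = U := by rw [hU, add_mul, mul_assoc, hKP, mul_assoc, hDP]
  have comm_of : ∀ x : A, x * E = E * x → x * W = W * x := by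
    intro x hx
    have h1 : x * (1 - E) = (1 - E) * x := by rw [mul_sub, sub_mul, hx, mul_one, one_mul]
    calc x * W = W * (1 - E) * (x * W) := by rw [hW2, one_mul]
      _ = W * ((1 - E) * x) * W := by noncomm_ring
      _ = W * (x * (1 - E)) * W := by rw [h1]
      _ = W * x * ((1 - E) * W) := by noncomm_ring
      _ = W * x := by rw [hW1, mul_one]
  have hDE : D * E = E * D := by rw [hE, mul_sub, sub_mul, hDP, hPD, hDU]
  have hPE : P * E = E * P := by rw [hE, mul_sub, sub_mul, hPP, hPU, hUP]
  have hDW := comm_of D hDE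
  have hPW := comm_of P hPE
  refine ⟨?_, ?_, ?_⟩
  · have h1 : (1 - E) * P = U := by
      rw [hE, sub_mul, one_mul, sub_mul, hPP, hUP]; abel
    calc D * (W * Kt) + W * Kt * D = W * U := by
          rw [hU, ← mul_assoc, hDW, mul_add, mul_assoc, mul_assoc]
      _ = W * (1 - E) * P := by rw [← h1, mul_assoc]
      _ = P := by rw [hW2, one_mul]
  · rw [← mul_assoc, hPW, mul_assoc, hPK]
  · rw [mul_assoc, hKP]

section

variable {𝕜 V : Type*} [RCLike 𝕜] [AddCommGroup V] [Module 𝕜 V] {S : Scale 𝕜 V}


end

end Crest.Agent.R275.Lau635
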