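import Crest.Agent.R240.SmInt
import Crest.Agent.R275.C1a_509
import Crest.Agent.R275.SmR_425
import Crest.Agent.R275.QN2b_734
import Crest.Agent.R275.NA7_763
import Crest.Agent.R275.Lam2_130

-- ▼ part R275/LnkP1_476
section

/-!
R275, block LINK, leaf D4 (helper476), part 1: the radial homotopy for `∂̄` at a point of `ℂⁿ`,
modulo the ideal `(z₁, …, zₙ)`.

* `II m g z = ∫₀¹ sᵐ g(sz) ds`, smooth on balls; `dbj_II`, `ftc`;
* `Kh`, `dB`: the homotopy and `∂̄` on functions with values in a Fock space, in components;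
* `homotopy`: `∂̄ K f + K ∂̄ f = f - f₀(0) - Σ z_j II (∂f/∂z_j)`.
-/

set_option autoImplicit false
set_option linter.unusedSectionVars false

open Set Filter Topology MeasureTheory Complex
open scoped ContDiff ComplexConjugate
open Crest.Agent.R240.SmJ Crest.Agent.R275.Geo

namespace Crest.Agent.R275.LnkP1476

noncomputable section

variable {n : ℕ}

/-- `∂/∂z_a` -/
def dzj (a : Fin n) (f : Cn n → ℂ) (z : Cn n) : ℂ :=
  (1 / 2 : ℂ) * (fderiv ℝ f z (EuclideanSpace.single a 1) -
    I * fderiv ℝ f z (EuclideanSpace.single a I))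

theorem clm_vec (L : Cn n →L[ℝ] ℂ) (v : Cn n) :
    L v = ∑ a, (v a * ((1 / 2 : ℂ) * (L (EuclideanSpace.single a 1) -
      I * L (EuclideanSpace.single a I))) +
      conj (v a) * ((1 / 2 : ℂ) * (L (EuclideanSpace.single a 1) +
      I * L (EuclideanSpace.single a I)))) := by
  conv_lhs => rw [vec_eq_sum v]
  rw [map_sum]
  refine Finset.sum_congr rfl fun a _ => ?_
  rw [map_add, map_smul, map_smul, Complex.real_smul, Complex.real_smul]
  have h1 : v a = (v a).re + (v a).im * I := (Complex.re_add_im _).symm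
  have h2 : conj (v a) = (v a).re - (v a).im * I := by
    apply Complex.ext <;> simp
  rw [h2]
  conv_rhs => rw [h1]
  have h3 : ∀ w : ℂ, ((w.re : ℂ) + w.im * I).re = w.re := by intro w; simp
  have h4 : ∀ w : ℂ, ((w.re : ℂ) + w.im * I).im = w.im := by intro w; simp
  rw [h3, h4]
  linear_combination (((v a).im : ℂ) * L (EuclideanSpace.single a I)) * Complex.I_mul_I

theorem fderiv_vec (f : Cn n → ℂ) (z v : Cn n) :
    fderiv ℝ f z v = ∑ a, (v a * dzj a f z + conj (v a) * dbj a f z) :=
  clm_vec (fderiv ℝ f z) v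

theorem contDiffOn_fderiv_apply {U : Set (Cn n)} (hU : IsOpen U) {g : Cn n → ℂ}
    (hg : ContDiffOn ℝ ∞ g U) (v : Cn n) : ContDiffOn ℝ ∞ (fun p => fderiv ℝ g p v) U :=
  (hg.fderiv_of_isOpen hU (m := ∞) (by simp)).clm_apply contDiffOn_const

theorem contDiffOn_dzj {U : Set (Cn n)} (hU : IsOpen U) {g : Cn n → ℂ}
    (hg : ContDiffOn ℝ ∞ g U) (a : Fin n) : ContDiffOn ℝ ∞ (dzj a g) U :=
  contDiffOn_const.mul ((contDiffOn_fderiv_apply hU hg _).sub
    (contDiffOn_const.mul (contDiffOn_fderiv_apply hU hg _)))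

/-- star shaped at `0` -/
def Star (U : Set (Cn n)) : Prop := ∀ p ∈ U, ∀ s ∈ Icc (0 : ℝ) 1, s • p ∈ U

theorem star_ball (r : ℝ) : Star (Metric.ball (0 : Cn n) r) := by
  intro p hp s hs
  rw [mem_ball_zero_iff] at hp ⊢
  rw [norm_smul, Real.norm_of_nonneg hs.1]
  calc s * ‖p‖ ≤ 1 * ‖p‖ := by gcongr; exact hs.2
    _ = ‖p‖ := one_mul _
    _ < r := hp

/-- the integrand -/
def IG (m : ℕ) (g : Cn n → ℂ) (q : Cn n × ℝ) : ℂ := ((q.2 : ℂ) ^ m) * g (q.2 • q.1)

/-- the Hadamard integral -/
def II (m : ℕ) (g : Cn n → ℂ) (p : Cn n) : ℂ := ∫ s in Icc (0 : ℝ) 1, IG m g (p, s)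

/-- the scaled domain -/
def SU (U : Set (Cn n)) : Set (Cn n × ℝ) := {q | q.2 • q.1 ∈ U}

theorem isOpen_SU {U : Set (Cn n)} (hU : IsOpen U) : IsOpen (SU U) :=
  hU.preimage (by fun_prop)

theorem subset_SU {U : Set (Cn n)} (hS : Star U) : U ×ˢ Icc (0 : ℝ) 1 ⊆ SU U :=
  fun q hq => hS q.1 hq.1 q.2 hq.2

theorem contDiffOn_IG {U : Set (Cn n)} (m : ℕ) {g : Cn n → ℂ}
    (hg : ContDiffOn ℝ ∞ g U) : ContDiffOn ℝ ∞ (IG m g) (SU U) := by
  unfold IG
  refine ContDiffOn.mul ?_ ?_
  · refine ContDiff.contDiffOn ?_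
    have : ContDiff ℝ ∞ (fun q : Cn n × ℝ => ((q.2 : ℝ) : ℂ)) :=
      Complex.ofRealCLM.contDiff.comp contDiff_snd
    exact this.pow m
  · have h1 : ContDiff ℝ ∞ (fun q : Cn n × ℝ => q.2 • q.1) := contDiff_snd.smul contDiff_fst
    exact hg.comp h1.contDiffOn (fun q hq => hq)

theorem contDiffOn_II {U : Set (Cn n)} (hU : IsOpen U) (hS : Star U) (m : ℕ) {g : Cn n → ℂ}
    (hg : ContDiffOn ℝ ∞ g U) : ContDiffOn ℝ ∞ (II m g) U := by
  have h := contDiffOn_integral (E := Cn n) (E' := ℝ) (V := ℂ) (g := IG m g) (K := Icc (0 : ℝ) 1)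
    (isOpen_SU hU) hU isCompact_Icc (subset_SU hS) volume (contDiffOn_IG m hg)
  exact h

theorem dx_IG {U : Set (Cn n)} (hU : IsOpen U) (m : ℕ) {g : Cn n → ℂ}
    (hg : ContDiffOn ℝ ∞ g U) {p : Cn n} {s : ℝ} (hp : (p, s) ∈ SU U) (v : Cn n) :
    dx (IG m g) (p, s) v = ((s : ℂ) ^ (m + 1)) * fderiv ℝ g (s • p) v := by
  have hd : DifferentiableAt ℝ (IG m g) (p, s) :=
    ((contDiffOn_IG m hg).contDiffAt ((isOpen_SU hU).mem_nhds hp)).differentiableAt (by simp)
  have h1 : HasFDerivAt (fun x => IG m g (x, s)) (dx (IG m g) (p, s)) p :=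
    hasFDerivAt_dx (p := (p, s)) hd
  have hgd : DifferentiableAt ℝ g (s • p) :=
    (hg.contDiffAt (hU.mem_nhds hp)).differentiableAt (by simp)
  have hL : HasFDerivAt (fun x : Cn n => s • x) (s • ContinuousLinearMap.id ℝ (Cn n)) p :=
    (s • ContinuousLinearMap.id ℝ (Cn n)).hasFDerivAt
  have h2 : HasFDerivAt (fun x => IG m g (x, s))
      (((s : ℂ) ^ m) • ((fderiv ℝ g (s • p)).comp (s • ContinuousLinearMap.id ℝ (Cn n)))) p := by
    have h3 : HasFDerivAt (fun x : Cn n => g (s • x))
        ((fderiv ℝ g (s • p)).comp (s • ContinuousLinearMap.id ℝ (Cn n))) p :=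
      HasFDerivAt.comp p (by exact hgd.hasFDerivAt) hL
    change HasFDerivAt (fun x : Cn n => ((s : ℂ) ^ m) * g (s • x)) _ p
    exact h3.const_mul _
  rw [h1.unique h2]
  have h4 : (s • ContinuousLinearMap.id ℝ (Cn n)) v = s • v := rfl
  rw [_root_.smul_apply, ContinuousLinearMap.comp_apply, h4, map_smul]
  rw [Complex.real_smul, smul_eq_mul, pow_succ]
  ring

theorem cont_seg {U : Set (Cn n)} (hS : Star U) {g : Cn n → ℂ}
    (hg : ContinuousOn g U) (m : ℕ) {p : Cn n} (hp : p ∈ U) :
    ContinuousOn (fun s : ℝ => IG m g (p, s)) (Icc (0 : ℝ) 1) := by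
  unfold IG
  refine ContinuousOn.mul (by fun_prop) ?_
  refine hg.comp (f := fun s : ℝ => s • p) (by fun_prop) ?_
  intro s hs
  exact hS p hp s hs

theorem int_seg {U : Set (Cn n)} (hS : Star U) {g : Cn n → ℂ}
    (hg : ContinuousOn g U) (m : ℕ) {p : Cn n} (hp : p ∈ U) :
    IntegrableOn (fun s : ℝ => IG m g (p, s)) (Icc (0 : ℝ) 1) :=
  (cont_seg hS hg m hp).integrableOn_Icc

theorem fderiv_II {U : Set (Cn n)} (hU : IsOpen U) (hS : Star U) (m : ℕ) {g : Cn n → ℂ}
    (hg : ContDiffOn ℝ ∞ g U) {p : Cn n} (hp : p ∈ U) (v : Cn n) :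
    fderiv ℝ (II m g) p v = II (m + 1) (fun z => fderiv ℝ g z v) p := by
  have h := hasFDerivAt_integral (E := Cn n) (E' := ℝ) (V := ℂ) (g := IG m g)
    (K := Icc (0 : ℝ) 1) (isOpen_SU hU) hU isCompact_Icc (subset_SU hS) volume
    (contDiffOn_IG m hg) hp
  have h' : HasFDerivAt (II m g) (∫ y in Icc (0 : ℝ) 1, dx (IG m g) (p, y)) p := h
  rw [h'.fderiv]
  have hint : Integrable (fun s => dx (IG m g) (p, s)) (volume.restrict (Icc (0 : ℝ) 1)) := by
    have hc : ContinuousOn (fun s => dx (IG m g) (p, s)) (Icc (0 : ℝ) 1) := by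
      have h1 : ContinuousOn (dx (IG m g)) (SU U) :=
        (contDiffOn_dx (E := Cn n) (E' := ℝ) (V := ℂ) (g := IG m g) (s := SU U)
          (isOpen_SU hU) (contDiffOn_IG m hg)).continuousOn
      refine h1.comp (f := fun s : ℝ => (p, s)) (by fun_prop) ?_
      intro s hs
      exact subset_SU hS ⟨hp, hs⟩
    exact hc.integrableOn_Icc
  rw [ContinuousLinearMap.integral_apply hint]
  unfold II
  refine setIntegral_congr_fun measurableSet_Icc fun s hs => ?_
  exact dx_IG hU m hg (subset_SU hS ⟨hp, hs⟩) v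

theorem II_add {U : Set (Cn n)} (hS : Star U) (m : ℕ) {f g : Cn n → ℂ}
    (hf : ContinuousOn f U) (hg : ContinuousOn g U) {p : Cn n} (hp : p ∈ U) :
    II m (fun z => f z + g z) p = II m f p + II m g p := by
  unfold II
  rw [← integral_add (int_seg hS hf m hp) (int_seg hS hg m hp)]
  refine setIntegral_congr_fun measurableSet_Icc fun s _ => ?_
  simp only [IG]; ring

theorem II_const_mul (m : ℕ) (c : ℂ) (f : Cn n → ℂ) (p : Cn n) :
    II m (fun z => c * f z) p = c * II m f p := by
  unfold II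
  rw [← integral_const_mul]
  refine setIntegral_congr_fun measurableSet_Icc fun s _ => ?_
  simp only [IG]; ring

theorem II_zero (m : ℕ) (p : Cn n) : II m (fun _ : Cn n => (0 : ℂ)) p = 0 := by
  simp [II, IG]

theorem II_congr {U : Set (Cn n)} (hS : Star U) (m : ℕ) {f g : Cn n → ℂ} (h : EqOn f g U)
    {p : Cn n} (hp : p ∈ U) : II m f p = II m g p := by
  unfold II
  refine setIntegral_congr_fun measurableSet_Icc fun s hs => ?_
  simp only [IG, h (hS p hp s hs)]

theorem II_sum {U : Set (Cn n)} (hS : Star U) (m : ℕ) {ι : Type*} (t : Finset ι)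
    (f : ι → Cn n → ℂ) (hf : ∀ i ∈ t, ContinuousOn (f i) U) {p : Cn n} (hp : p ∈ U) :
    II m (fun z => ∑ i ∈ t, f i z) p = ∑ i ∈ t, II m (f i) p := by
  classical
  induction t using Finset.induction_on with
  | empty => simp only [Finset.sum_empty]; exact II_zero m p
  | insert i t hi ih =>
    have e : (fun z => ∑ l ∈ insert i t, f l z) = fun z => f i z + ∑ l ∈ t, f l z := by
      funext z; rw [Finset.sum_insert hi]
    rw [e, II_add hS m (hf i (Finset.mem_insert_self i t))
      (continuousOn_finsetSum t fun l hl => hf l (Finset.mem_insert_of_mem hl)) hp,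
      ih (fun l hl => hf l (Finset.mem_insert_of_mem hl)), Finset.sum_insert hi]

theorem II_coord_mul (m : ℕ) (b : Fin n) (g : Cn n → ℂ) (p : Cn n) :
    II m (fun z => z b * g z) p = p b * II (m + 1) g p := by
  unfold II
  rw [← integral_const_mul]
  refine setIntegral_congr_fun measurableSet_Icc fun s _ => ?_
  have h1 : (s • p) b = (s : ℂ) * p b := by
    rw [PiLp.smul_apply, Complex.real_smul]
  simp only [IG, h1, pow_succ]
  ring

theorem dbj_II {U : Set (Cn n)} (hU : IsOpen U) (hS : Star U) (m : ℕ) {g : Cn n → ℂ}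
    (hg : ContDiffOn ℝ ∞ g U) (a : Fin n) {p : Cn n} (hp : p ∈ U) :
    dbj a (II m g) p = II (m + 1) (dbj a g) p := by
  have h1 := fderiv_II hU hS m hg hp (EuclideanSpace.single a 1)
  have h2 := fderiv_II hU hS m hg hp (EuclideanSpace.single a I)
  have c1 := (contDiffOn_fderiv_apply hU hg (EuclideanSpace.single a 1)).continuousOn
  have c2 := (contDiffOn_fderiv_apply hU hg (EuclideanSpace.single a I)).continuousOn
  have c2' : ContinuousOn (fun z => I * fderiv ℝ g z (EuclideanSpace.single a I)) U :=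
    continuousOn_const.mul c2
  have e : dbj a g = fun z => (1 / 2 : ℂ) * (fderiv ℝ g z (EuclideanSpace.single a 1) +
      I * fderiv ℝ g z (EuclideanSpace.single a I)) := rfl
  rw [e, II_const_mul, II_add hS (m + 1) c1 c2' hp, II_const_mul]
  simp only [dbj, smul_eq_mul, h1, h2]

/-- fundamental theorem along the ray -/
theorem ftc {U : Set (Cn n)} (hU : IsOpen U) (hS : Star U) (m : ℕ) {g : Cn n → ℂ}
    (hg : ContDiffOn ℝ ∞ g U) {p : Cn n} (hp : p ∈ U) :
    g p - (if m = 0 then g 0 else 0) = m * II (m - 1) g p +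
      ∑ a, (p a * II m (dzj a g) p + conj (p a) * II m (dbj a g) p) := by
  have hderiv : ∀ s ∈ uIcc (0 : ℝ) 1, HasDerivAt (fun s : ℝ => ((s : ℂ) ^ m) * g (s • p))
      ((m : ℂ) * (s : ℂ) ^ (m - 1) * g (s • p) + ((s : ℂ) ^ m) * fderiv ℝ g (s • p) p) s := by
    intro s hs
    rw [uIcc_of_le zero_le_one] at hs
    have hgd : DifferentiableAt ℝ g (s • p) :=
      (hg.contDiffAt (hU.mem_nhds (hS p hp s hs))).differentiableAt (by simp)
    have h1 : HasDerivAt (fun s : ℝ => s • p) p s := by
      simpa using (hasDerivAt_id s).smul_const p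
    have h2 : HasDerivAt (fun s : ℝ => g (s • p)) (fderiv ℝ g (s • p) p) s :=
      hgd.hasFDerivAt.comp_hasDerivAt s h1
    have h3 : HasDerivAt (fun s : ℝ => ((s : ℂ) ^ m)) ((m : ℂ) * (s : ℂ) ^ (m - 1)) s := by
      have := (hasDerivAt_pow m (s : ℂ)).comp_ofReal
      simpa using this
    exact h3.mul h2
  have hsum : ∀ s : ℝ, (m : ℂ) * (s : ℂ) ^ (m - 1) * g (s • p) +
      ((s : ℂ) ^ m) * fderiv ℝ g (s • p) p = (m : ℂ) * IG (m - 1) g (p, s) +
      ∑ a, (p a * IG m (dzj a g) (p, s) + conj (p a) * IG m (dbj a g) (p, s)) := by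
    intro s
    rw [fderiv_vec, Finset.mul_sum]
    simp only [IG]
    congr 1
    · ring
    · exact Finset.sum_congr rfl fun a _ => by ring
  have hcz : ∀ a, ContinuousOn (dzj a g) U := fun a => (contDiffOn_dzj hU hg a).continuousOn
  have hcb : ∀ a, ContinuousOn (dbj a g) U := fun a => (contDiffOn_dbj hU hg a).continuousOn
  have i0 : IntegrableOn (fun s : ℝ => (m : ℂ) * IG (m - 1) g (p, s)) (Icc (0 : ℝ) 1) :=
    (continuousOn_const.mul (cont_seg hS hg.continuousOn (m - 1) hp)).integrableOn_Icc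
  have ia : ∀ a ∈ (Finset.univ : Finset (Fin n)), IntegrableOn (fun s : ℝ =>
      p a * IG m (dzj a g) (p, s) + conj (p a) * IG m (dbj a g) (p, s)) (Icc (0 : ℝ) 1) :=
    fun a _ => ((continuousOn_const.mul (cont_seg hS (hcz a) m hp)).add
      (continuousOn_const.mul (cont_seg hS (hcb a) m hp))).integrableOn_Icc
  have hcont : ContinuousOn (fun s : ℝ => (m : ℂ) * (s : ℂ) ^ (m - 1) * g (s • p) +
      ((s : ℂ) ^ m) * fderiv ℝ g (s • p) p) (Icc (0 : ℝ) 1) := by
    simp only [hsum]
    refine (continuousOn_const.mul (cont_seg hS hg.continuousOn (m - 1) hp)).add ?_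
    exact continuousOn_finsetSum _ fun a _ =>
      (continuousOn_const.mul (cont_seg hS (hcz a) m hp)).add
      (continuousOn_const.mul (cont_seg hS (hcb a) m hp))
  have hftc := intervalIntegral.integral_eq_sub_of_hasDerivAt hderiv
    (ContinuousOn.intervalIntegrable_of_Icc zero_le_one hcont)
  rw [intervalIntegral.integral_of_le zero_le_one, ← integral_Icc_eq_integral_Ioc] at hftc
  simp only [one_smul, zero_smul, Complex.ofReal_one, one_pow, one_mul, Complex.ofReal_zero] at hftc
  have e1 : ∫ s in Icc (0 : ℝ) 1, ((m : ℂ) * (s : ℂ) ^ (m - 1) * g (s • p) +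
      ((s : ℂ) ^ m) * fderiv ℝ g (s • p) p) = m * II (m - 1) g p +
      ∑ a, (p a * II m (dzj a g) p + conj (p a) * II m (dbj a g) p) := by
    simp only [hsum]
    rw [integral_add i0 (integrable_finsetSum _ ia), integral_finsetSum _ ia,
      integral_const_mul]
    congr 1
    refine Finset.sum_congr rfl fun a _ => ?_
    have j1 : IntegrableOn (fun s : ℝ => p a * IG m (dzj a g) (p, s)) (Icc (0 : ℝ) 1) :=
      (continuousOn_const.mul (cont_seg hS (hcz a) m hp)).integrableOn_Icc
    have j2 : IntegrableOn (fun s : ℝ => conj (p a) * IG m (dbj a g) (p, s)) (Icc (0 : ℝ) 1) :=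
      (continuousOn_const.mul (cont_seg hS (hcb a) m hp)).integrableOn_Icc
    rw [integral_add j1 j2, integral_const_mul, integral_const_mul]
    rfl
  rw [e1] at hftc
  rw [hftc]
  congr 1
  by_cases hm : m = 0
  · subst hm; simp
  · simp [hm, zero_pow hm]

/-! ### `∂̄` calculus -/

theorem dbj_mul {f g : Cn n → ℂ} {z : Cn n} (hf : DifferentiableAt ℝ f z)
    (hg : DifferentiableAt ℝ g z) (a : Fin n) :
    dbj a (fun w => f w * g w) z = f z * dbj a g z + dbj a f z * g z := by
  have h : fderiv ℝ (fun w => f w * g w) z = f z • fderiv ℝ g z + g z • fderiv ℝ f z :=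
    fderiv_mul hf hg
  simp only [dbj, h, _root_.add_apply, _root_.smul_apply, smul_eq_mul]
  ring

theorem dbj_sum {ι : Type*} (t : Finset ι) {f : ι → Cn n → ℂ} {z : Cn n}
    (hf : ∀ i ∈ t, DifferentiableAt ℝ (f i) z) (a : Fin n) :
    dbj a (fun w => ∑ i ∈ t, f i w) z = ∑ i ∈ t, dbj a (f i) z := by
  have h : fderiv ℝ (fun w => ∑ i ∈ t, f i w) z = ∑ i ∈ t, fderiv ℝ (f i) z :=
    fderiv_fun_sum hf
  simp only [dbj, h, FunLike.coe_sum, Finset.sum_apply, smul_eq_mul]
  rw [Finset.mul_sum, ← Finset.sum_add_distrib, Finset.mul_sum]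

/-- the coordinate `z ↦ conj z_j` as a real linear map -/
def cL (j : Fin n) : Cn n →L[ℝ] ℂ :=
  (Complex.conjCLE : ℂ →L[ℝ] ℂ).comp
    ((EuclideanSpace.proj j : Cn n →L[ℂ] ℂ).restrictScalars ℝ)

theorem cL_apply (j : Fin n) (z : Cn n) : cL j z = conj (z j) := rfl

theorem dbj_conj_coord (a j : Fin n) (z : Cn n) :
    dbj a (fun w : Cn n => conj (w j)) z = if a = j then 1 else 0 := by
  have h : fderiv ℝ (fun w : Cn n => conj (w j)) z = cL j := (cL j).hasFDerivAt.fderiv
  simp only [dbj, h, cL_apply, smul_eq_mul, PiLp.single_apply]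
  by_cases hj : a = j
  · subst hj
    simp only [if_true]
    rw [map_one, Complex.conj_I]
    linear_combination (-(1 / 2 : ℂ)) * Complex.I_mul_I
  · rw [if_neg (Ne.symm hj), if_neg (Ne.symm hj), if_neg hj]
    simp

section fock

variable {κ : Type} [Fintype κ] [DecidableEq κ] (e io : Fin n → Matrix κ κ ℂ) (deg : κ → ℕ)

/-- `∂̄` on functions with values in the Fock space -/
def dB (f : κ → Cn n → ℂ) (k : κ) (z : Cn n) : ℂ := ∑ a, ∑ l, e a k l * dbj a (f l) z

/-- the radial homotopy -/
def Kh (f : κ → Cn n → ℂ) (k : κ) (z : Cn n) : ℂ :=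
  ∑ j, ∑ l, conj (z j) * io j k l * II (deg k) (f l) z


theorem contDiff_conj_coord (j : Fin n) : ContDiff ℝ ∞ (fun z : Cn n => conj (z j)) :=
  (cL j).contDiff

theorem contDiffOn_Kh {U : Set (Cn n)} (hU : IsOpen U) (hS : Star U) {f : κ → Cn n → ℂ}
    (hf : ∀ l, ContDiffOn ℝ ∞ (f l) U) (k : κ) : ContDiffOn ℝ ∞ (Kh io deg f k) U :=
  ContDiffOn.sum fun j _ => ContDiffOn.sum fun l _ =>
    ((contDiff_conj_coord j).contDiffOn.mul contDiffOn_const).mul
      (contDiffOn_II hU hS (deg k) (hf l))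

theorem dbj_Kh {U : Set (Cn n)} (hU : IsOpen U) (hS : Star U) {f : κ → Cn n → ℂ}
    (hf : ∀ l, ContDiffOn ℝ ∞ (f l) U) (a : Fin n) (l : κ) {z : Cn n} (hz : z ∈ U) :
    dbj a (Kh io deg f l) z = ∑ j, ∑ m, io j l m *
      ((if a = j then 1 else 0) * II (deg l) (f m) z +
        conj (z j) * II (deg l + 1) (dbj a (f m)) z) := by
  have hII : ∀ m, DifferentiableAt ℝ (II (deg l) (f m)) z := fun m =>
    ((contDiffOn_II hU hS (deg l) (hf m)).contDiffAt (hU.mem_nhds hz)).differentiableAt (by simp)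
  have hc : ∀ j, DifferentiableAt ℝ (fun w : Cn n => conj (w j)) z := fun j =>
    (contDiff_conj_coord j).contDiffAt.differentiableAt (by simp)
  have hcc : ∀ j m, DifferentiableAt ℝ (fun w : Cn n => conj (w j) * io j l m) z := fun j m =>
    (hc j).mul_const _
  have hcm : ∀ j m, DifferentiableAt ℝ
      (fun w : Cn n => conj (w j) * io j l m * II (deg l) (f m) w) z :=
    fun j m => (hcc j m).mul (hII m)
  have hcs : ∀ j, DifferentiableAt ℝ
      (fun w : Cn n => ∑ m, conj (w j) * io j l m * II (deg l) (f m) w) z :=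
    fun j => DifferentiableAt.fun_sum fun m _ => hcm j m
  refine (dbj_sum Finset.univ (f := fun (j : Fin n) (w : Cn n) =>
    ∑ m, conj (w j) * io j l m * II (deg l) (f m) w) (fun j _ => hcs j) a).trans ?_
  refine Finset.sum_congr rfl fun j _ => ?_
  refine (dbj_sum Finset.univ (f := fun (m : κ) (w : Cn n) =>
    conj (w j) * io j l m * II (deg l) (f m) w) (fun m _ => hcm j m) a).trans ?_
  refine Finset.sum_congr rfl fun m _ => ?_
  refine (dbj_mul (hcc j m) (hII m) a).trans ?_
  have e2 : dbj a (fun w : Cn n => conj (w j) * io j l m) z =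
      (if a = j then 1 else 0) * io j l m := by
    refine (dbj_mul (hc j) (differentiableAt_const (io j l m)) a).trans ?_
    rw [dbj_conj_coord, dbj_const, mul_zero, zero_add]
  rw [e2, dbj_II hU hS (deg l) (hf m) a hz]
  ring

/-- **the homotopy identity** -/
theorem homotopy (e_deg : ∀ a k l, e a k l ≠ 0 → deg k = deg l + 1)
    (ei : ∀ a b, e a * io b + io b * e a = if a = b then 1 else 0)
    (num : ∀ k l, (∑ a, e a * io a) k l = if k = l then (deg k : ℂ) else 0)
    {U : Set (Cn n)} (hU : IsOpen U) (hS : Star U) {f : κ → Cn n → ℂ}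
    (hf : ∀ l, ContDiffOn ℝ ∞ (f l) U) (k : κ) {z : Cn n} (hz : z ∈ U) :
    dB e (Kh io deg f) k z + Kh io deg (dB e f) k z =
      f k z - (if deg k = 0 then f k 0 else 0) - ∑ a, z a * II (deg k) (dzj a (f k)) z := by
  set X : κ → ℂ := fun m => II (deg k - 1) (f m) z with hX
  set Y : Fin n → κ → ℂ := fun a m => II (deg k) (dbj a (f m)) z with hY
  -- first term
  have h1 : dB e (Kh io deg f) k z = ∑ a, ∑ l, ∑ j, ∑ m, e a k l * io j l m *
      ((if a = j then 1 else 0) * X m + conj (z j) * Y a m) := by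
    unfold dB
    refine Finset.sum_congr rfl fun a _ => Finset.sum_congr rfl fun l _ => ?_
    rw [dbj_Kh io deg hU hS hf a l hz, Finset.mul_sum]
    refine Finset.sum_congr rfl fun j _ => ?_
    rw [Finset.mul_sum]
    refine Finset.sum_congr rfl fun m _ => ?_
    by_cases h0 : e a k l = 0
    · rw [h0]; ring
    · have hd := e_deg a k l h0
      have hd' : deg l = deg k - 1 := by omega
      simp only [hX, hY]
      rw [← hd, hd']
      ring
  have h2 : Kh io deg (dB e f) k z = ∑ j, ∑ l, ∑ a, ∑ m, conj (z j) * io j k l * e a l m * Y a m := by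
    unfold Kh
    refine Finset.sum_congr rfl fun j _ => Finset.sum_congr rfl fun l _ => ?_
    have e2 : II (deg k) (dB e f l) z = ∑ a, ∑ m, e a l m * Y a m := by
      have hca : ∀ a m, ContinuousOn (fun w => e a l m * dbj a (f m) w) U := fun a m =>
        continuousOn_const.mul (contDiffOn_dbj hU (hf m) a).continuousOn
      have e3 : dB e f l = fun w => ∑ a, ∑ m, e a l m * dbj a (f m) w := rfl
      rw [e3, II_sum hS (deg k) _ (fun a w => ∑ m, e a l m * dbj a (f m) w)
        (fun a _ => continuousOn_finsetSum _ fun m _ => hca a m) hz]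
      refine Finset.sum_congr rfl fun a _ => ?_
      rw [II_sum hS (deg k) _ (fun m w => e a l m * dbj a (f m) w) (fun m _ => hca a m) hz]
      refine Finset.sum_congr rfl fun m _ => ?_
      rw [II_const_mul]
    rw [e2, Finset.mul_sum]
    refine Finset.sum_congr rfl fun a _ => ?_
    rw [Finset.mul_sum]
    refine Finset.sum_congr rfl fun m _ => ?_
    ring
  -- number operator
  have h3 : ∑ a, ∑ l, ∑ j, ∑ m, e a k l * io j l m * ((if a = j then 1 else 0) * X m) =
      deg k * X k := by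
    have e3 : ∀ a l, ∑ j, ∑ m, e a k l * io j l m * ((if a = j then 1 else 0) * X m) =
        ∑ m, e a k l * io a l m * X m := by
      intro a l
      rw [Finset.sum_eq_single a]
      · refine Finset.sum_congr rfl fun m _ => ?_
        rw [if_pos rfl, one_mul]
      · intro j _ hj
        refine Finset.sum_eq_zero fun m _ => ?_
        rw [if_neg (Ne.symm hj), zero_mul, mul_zero]
      · intro h; exact (h (Finset.mem_univ _)).elim
    simp only [e3]
    have e4 : ∑ a, ∑ l, ∑ m, e a k l * io a l m * X m = ∑ m, (∑ a, e a * io a) k m * X m := by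
      have e5 : ∀ m, (∑ a, e a * io a) k m = ∑ a, ∑ l, e a k l * io a l m := by
        intro m
        rw [Matrix.sum_apply]
        refine Finset.sum_congr rfl fun a _ => ?_
        rw [Matrix.mul_apply]
      have e6 : ∀ a, ∑ l, ∑ m, e a k l * io a l m * X m = ∑ m, ∑ l, e a k l * io a l m * X m :=
        fun a => Finset.sum_comm
      simp only [e6]
      rw [Finset.sum_comm]
      refine Finset.sum_congr rfl fun m _ => ?_
      rw [e5, Finset.sum_mul]
      refine Finset.sum_congr rfl fun a _ => ?_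
      rw [Finset.sum_mul]
    rw [e4]
    simp only [num]
    rw [Finset.sum_eq_single k]
    · rw [if_pos rfl]
    · intro m _ hm
      rw [if_neg (Ne.symm hm), zero_mul]
    · intro h; exact (h (Finset.mem_univ _)).elim
  -- anticommutator
  have h4 : ∑ a, ∑ l, ∑ j, ∑ m, e a k l * io j l m * (conj (z j) * Y a m) +
      ∑ j, ∑ l, ∑ a, ∑ m, conj (z j) * io j k l * e a l m * Y a m =
      ∑ j, conj (z j) * Y j k := by
    have e5 : ∑ a, ∑ l, ∑ j, ∑ m, e a k l * io j l m * (conj (z j) * Y a m) =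
        ∑ j, ∑ a, ∑ m, conj (z j) * Y a m * (e a * io j) k m := by
      have e6 : ∀ a, ∑ l, ∑ j, ∑ m, e a k l * io j l m * (conj (z j) * Y a m) =
          ∑ j, ∑ m, conj (z j) * Y a m * (e a * io j) k m := by
        intro a
        rw [Finset.sum_comm]
        refine Finset.sum_congr rfl fun j _ => ?_
        rw [Finset.sum_comm]
        refine Finset.sum_congr rfl fun m _ => ?_
        rw [Matrix.mul_apply, Finset.mul_sum]
        refine Finset.sum_congr rfl fun l _ => ?_
        ring
      simp only [e6]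
      rw [Finset.sum_comm]
    have e7 : ∑ j, ∑ l, ∑ a, ∑ m, conj (z j) * io j k l * e a l m * Y a m =
        ∑ j, ∑ a, ∑ m, conj (z j) * Y a m * (io j * e a) k m := by
      refine Finset.sum_congr rfl fun j _ => ?_
      rw [Finset.sum_comm]
      refine Finset.sum_congr rfl fun a _ => ?_
      rw [Finset.sum_comm]
      refine Finset.sum_congr rfl fun m _ => ?_
      rw [Matrix.mul_apply, Finset.mul_sum]
      refine Finset.sum_congr rfl fun l _ => ?_
      ring
    rw [e5, e7, ← Finset.sum_add_distrib]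
    refine Finset.sum_congr rfl fun j _ => ?_
    rw [← Finset.sum_add_distrib, Finset.sum_eq_single j]
    · rw [← Finset.sum_add_distrib, Finset.sum_eq_single k]
      · rw [← mul_add, ← Matrix.add_apply, ei, if_pos rfl, Matrix.one_apply_eq, mul_one]
      · intro m _ hm
        rw [← mul_add, ← Matrix.add_apply, ei, if_pos rfl, Matrix.one_apply_ne (Ne.symm hm),
          mul_zero]
      · intro h; exact (h (Finset.mem_univ _)).elim
    · intro a _ ha
      rw [← Finset.sum_add_distrib]
      refine Finset.sum_eq_zero fun m _ => ?_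
      rw [← mul_add, ← Matrix.add_apply, ei, if_neg ha, Matrix.zero_apply, mul_zero]
    · intro h; exact (h (Finset.mem_univ _)).elim
  have h5 := ftc hU hS (deg k) (hf k) hz
  have h6 : dB e (Kh io deg f) k z + Kh io deg (dB e f) k z = deg k * X k +
      ∑ j, conj (z j) * Y j k := by
    rw [h1, h2, ← h4, ← h3]
    simp only [mul_add, Finset.sum_add_distrib]
    ring
  rw [h6]
  rw [Finset.sum_add_distrib] at h5
  simp only [hX, hY]
  linear_combination -h5

/-- `K` preserves the ideal `(z₁, …, zₙ)` -/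
theorem Kh_ideal {U : Set (Cn n)} (hS : Star U) {h : κ → Cn n → ℂ}
    {g : Fin n → κ → Cn n → ℂ} (hg : ∀ b l, ContinuousOn (g b l) U)
    (hh : ∀ l, ∀ z ∈ U, h l z = ∑ b, z b * g b l z) (k : κ) {z : Cn n} (hz : z ∈ U) :
    Kh io deg h k z = ∑ b, z b *
      ∑ j, ∑ l, conj (z j) * io j k l * II (deg k + 1) (g b l) z := by
  have hcb : ∀ b : Fin n, ContinuousOn (fun w : Cn n => w b) U := fun b =>
    (EuclideanSpace.proj b : Cn n →L[ℂ] ℂ).continuous.continuousOn
  have e1 : ∀ l, II (deg k) (h l) z = ∑ b, z b * II (deg k + 1) (g b l) z := by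
    intro l
    rw [II_congr hS (deg k) (hh l) hz,
      II_sum hS (deg k) _ (fun b w => w b * g b l w) (fun b _ => (hcb b).mul (hg b l)) hz]
    exact Finset.sum_congr rfl fun b _ => II_coord_mul _ _ _ _
  unfold Kh
  simp only [e1, Finset.mul_sum]
  have e2 : ∀ j, ∑ l, ∑ b, conj (z j) * io j k l * (z b * II (deg k + 1) (g b l) z) =
      ∑ b, ∑ l, z b * (conj (z j) * io j k l * II (deg k + 1) (g b l) z) := by
    intro j
    rw [Finset.sum_comm]
    exact Finset.sum_congr rfl fun b _ => Finset.sum_congr rfl fun l _ => by ring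
  simp only [e2]
  rw [Finset.sum_comm]

/-- **local acyclicity** of `Ω^{0,*} / (z₁, …, zₙ)` at a point, radial form. -/
theorem local_acyclic (e_deg : ∀ a k l, e a k l ≠ 0 → deg k = deg l + 1)
    (ei : ∀ a b, e a * io b + io b * e a = if a = b then 1 else 0)
    (num : ∀ k l, (∑ a, e a * io a) k l = if k = l then (deg k : ℂ) else 0)
    {U : Set (Cn n)} (hU : IsOpen U) (hS : Star U) {f : κ → Cn n → ℂ}
    (hf : ∀ l, ContDiffOn ℝ ∞ (f l) U) {g : Fin n → κ → Cn n → ℂ}
    (hg : ∀ b l, ContDiffOn ℝ ∞ (g b l) U)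
    (hd : ∀ l, ∀ z ∈ U, dB e f l z = ∑ b, z b * g b l z) :
    ∃ (h : κ → Cn n → ℂ) (w : Fin n → κ → Cn n → ℂ), (∀ k, ContDiffOn ℝ ∞ (h k) U) ∧
      (∀ b k, ContDiffOn ℝ ∞ (w b k) U) ∧ ∀ k, ∀ z ∈ U,
        f k z - (if deg k = 0 then f k 0 else 0) - dB e h k z = ∑ b, z b * w b k z := by
  refine ⟨Kh io deg f, fun b k z => II (deg k) (dzj b (f k)) z +
    ∑ j, ∑ l, conj (z j) * io j k l * II (deg k + 1) (g b l) z,
    contDiffOn_Kh io deg hU hS hf, fun b k => ?_, fun k z hz => ?_⟩
  · refine (contDiffOn_II hU hS _ (contDiffOn_dzj hU (hf k) b)).add ?_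
    exact ContDiffOn.sum fun j _ => ContDiffOn.sum fun l _ =>
      ((contDiff_conj_coord j).contDiffOn.mul contDiffOn_const).mul
        (contDiffOn_II hU hS _ (hg b l))
  · have h1 := homotopy e io deg e_deg ei num hU hS hf k hz
    have h2 := Kh_ideal io deg hS (fun b l => (hg b l).continuousOn) hd k hz
    have h3 : ∑ b, z b * (II (deg k) (dzj b (f k)) z +
        ∑ j, ∑ l, conj (z j) * io j k l * II (deg k + 1) (g b l) z) =
        ∑ b, z b * II (deg k) (dzj b (f k)) z + ∑ b, z b *
          ∑ j, ∑ l, conj (z j) * io j k l * II (deg k + 1) (g b l) z := by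
      rw [← Finset.sum_add_distrib]
      exact Finset.sum_congr rfl fun b _ => mul_add _ _ _
    rw [h3, ← h2]
    linear_combination -h1

end fock

end

end Crest.Agent.R275.LnkP1476
end

-- ▼ part R275/LnkP2_476
section

/-!
R275, block LINK, leaf D4 (helper476), part 2: the ideal `I_p` of a point of a complex manifold
(functions which near `p` are in `(z₁, …, zₙ) C^∞`), the submodule `I_p • Sec B`, and the acyclicity
of the quotient `Sec B / I_p • Sec B` away from the constants.
-/

set_option autoImplicit false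
set_option linter.unusedSectionVars false

open Set Filter Topology Complex
open scoped ContDiff ComplexConjugate Matrix
open Crest.Agent.R275.Geo Crest.Agent.R275.SmR425 Crest.Agent.R275.Smf798
open Crest.Agent.R275.LnkP1476

namespace Crest.Agent.R275.LnkP2476

noncomputable section

variable {n : ℕ} {M : Type} [TopologicalSpace M] {A : Atl n M}

/-! ### the local condition -/

/-- near `c`, `F` is in the ideal generated by the coordinates centred at `c` -/
def IdAt (c : Cn n) (F : Cn n → ℂ) : Prop :=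
  ∃ r > 0, ∃ g : Fin n → Cn n → ℂ, (∀ b, ContDiffOn ℝ ∞ (g b) (Metric.ball c r)) ∧
    ∀ z ∈ Metric.ball c r, F z = ∑ b, (z b - c b) * g b z

theorem IdAt.congr {c : Cn n} {F G : Cn n → ℂ} (h : IdAt c F) (e : F =ᶠ[𝓝 c] G) : IdAt c G := by
  obtain ⟨r, hr, g, hg, hF⟩ := h
  obtain ⟨r', hr', he⟩ := Metric.eventually_nhds_iff_ball.1 e
  refine ⟨min r r', lt_min hr hr', g, fun b => (hg b).mono
    (Metric.ball_subset_ball (min_le_left _ _)), fun z hz => ?_⟩
  rw [← he z (Metric.ball_subset_ball (min_le_right _ _) hz)]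
  exact hF z (Metric.ball_subset_ball (min_le_left _ _) hz)

theorem idAt_zero (c : Cn n) : IdAt c (fun _ => 0) :=
  ⟨1, one_pos, fun _ _ => 0, fun _ => contDiffOn_const, fun z _ => by simp⟩

theorem IdAt.add {c : Cn n} {F G : Cn n → ℂ} (h : IdAt c F) (h' : IdAt c G) :
    IdAt c (fun z => F z + G z) := by
  obtain ⟨r, hr, g, hg, hF⟩ := h
  obtain ⟨r', hr', g', hg', hG⟩ := h'
  refine ⟨min r r', lt_min hr hr', fun b z => g b z + g' b z, fun b => ContDiffOn.add
    ((hg b).mono (Metric.ball_subset_ball (min_le_left _ _)))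
    ((hg' b).mono (Metric.ball_subset_ball (min_le_right _ _))), fun z hz => ?_⟩
  show F z + G z = ∑ b, (z b - c b) * (g b z + g' b z)
  rw [hF z (Metric.ball_subset_ball (min_le_left _ _) hz),
    hG z (Metric.ball_subset_ball (min_le_right _ _) hz), ← Finset.sum_add_distrib]
  exact Finset.sum_congr rfl fun b _ => (mul_add _ _ _).symm

theorem IdAt.mul {c : Cn n} {F G : Cn n → ℂ} (h : IdAt c F) {r' : ℝ} (hr' : 0 < r')
    (hG : ContDiffOn ℝ ∞ G (Metric.ball c r')) : IdAt c (fun z => G z * F z) := by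
  obtain ⟨r, hr, g, hg, hF⟩ := h
  refine ⟨min r r', lt_min hr hr', fun b z => G z * g b z, fun b => ContDiffOn.mul
    (hG.mono (Metric.ball_subset_ball (min_le_right _ _)))
    ((hg b).mono (Metric.ball_subset_ball (min_le_left _ _))), fun z hz => ?_⟩
  show G z * F z = ∑ b, (z b - c b) * (G z * g b z)
  rw [hF z (Metric.ball_subset_ball (min_le_left _ _) hz), Finset.mul_sum]
  exact Finset.sum_congr rfl fun b _ => by ring

theorem IdAt.sum {ι : Type*} {c : Cn n} (t : Finset ι) {F : ι → Cn n → ℂ}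
    (h : ∀ i ∈ t, IdAt c (F i)) : IdAt c (fun z => ∑ i ∈ t, F i z) := by
  classical
  induction t using Finset.induction_on with
  | empty => simpa using idAt_zero c
  | insert i t hi ih =>
    have h1 := (h i (Finset.mem_insert_self i t)).add
      (ih fun l hl => h l (Finset.mem_insert_of_mem hl))
    refine h1.congr (Eventually.of_forall fun z => ?_)
    show F i z + ∑ l ∈ t, F l z = ∑ l ∈ insert i t, F l z
    rw [Finset.sum_insert hi]

theorem IdAt.apply_self {c : Cn n} {F : Cn n → ℂ} (h : IdAt c F) : F c = 0 := by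
  obtain ⟨r, hr, g, hg, hF⟩ := h
  rw [hF c (Metric.mem_ball_self hr)]
  simp

/-- common data for a finite family -/
theorem IdAt.family {κ : Type*} [Fintype κ] {c : Cn n} {F : κ → Cn n → ℂ}
    (h : ∀ k, IdAt c (F k)) {R : ℝ} (hR : 0 < R) : ∃ r > 0, r ≤ R ∧ ∃ g : Fin n → κ → Cn n → ℂ,
      (∀ b k, ContDiffOn ℝ ∞ (g b k) (Metric.ball c r)) ∧
      ∀ k, ∀ z ∈ Metric.ball c r, F k z = ∑ b, (z b - c b) * g b k z := by
  classical
  choose r hr g hg hF using h
  have hne : (insert R (Finset.univ.image r)).Nonempty := Finset.insert_nonempty _ _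
  set ρ := (insert R (Finset.univ.image r)).min' hne with hρ
  have h1 : ρ ≤ R := Finset.min'_le _ _ (Finset.mem_insert_self _ _)
  have h2 : ∀ k, ρ ≤ r k := fun k => Finset.min'_le _ _
    (Finset.mem_insert_of_mem (Finset.mem_image_of_mem _ (Finset.mem_univ k)))
  have h3 : 0 < ρ := by
    rw [hρ, Finset.lt_min'_iff]
    intro x hx
    rcases Finset.mem_insert.1 hx with h | h
    · rwa [h]
    · obtain ⟨k, -, rfl⟩ := Finset.mem_image.1 h
      exact hr k
  exact ⟨ρ, h3, h1, fun b k => g k b,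
    fun b k => (hg k b).mono (Metric.ball_subset_ball (h2 k)),
    fun k z hz => hF k z (Metric.ball_subset_ball (h2 k) hz)⟩

/-! ### the ideal -/

section ideal

variable {p : M} {i : A.ι}

/-- the local condition for functions on `M`, read in the chart `i` -/
def InI (A : Atl n M) (i : A.ι) (p : M) (f : M → ℂ) : Prop :=
  IdAt (A.e i p) (fun z => f ((A.e i).symm z))

theorem tendsto_symm (hp : p ∈ (A.e i).source) : Tendsto (A.e i).symm (𝓝 (A.e i p)) (𝓝 p) := by
  have := ((A.e i).continuousAt_symm ((A.e i).map_source hp)).tendsto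
  rwa [(A.e i).left_inv hp] at this

theorem InI.congr (hp : p ∈ (A.e i).source) {f g : M → ℂ} (h : InI A i p f)
    (e : f =ᶠ[𝓝 p] g) : InI A i p g :=
  IdAt.congr h ((tendsto_symm hp).eventually e)

theorem InI.mul_smAt (hp : p ∈ (A.e i).source) {f g : M → ℂ} (h : InI A i p f)
    (hg : A.SmAt i g) : InI A i p (fun x => g x * f x) := by
  obtain ⟨r, hr, hb⟩ := Metric.isOpen_iff.1 (A.e i).open_target (A.e i p) ((A.e i).map_source hp)
  exact IdAt.mul h hr (hg.mono hb)

theorem InI.of_eventually_zero (hp : p ∈ (A.e i).source) {f : M → ℂ} (h : ∀ᶠ x in 𝓝 p, f x = 0) :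
    InI A i p f :=
  (idAt_zero (A.e i p)).congr (by
    filter_upwards [(tendsto_symm hp).eventually h] with z hz using hz.symm)

theorem InI.apply_self (hp : p ∈ (A.e i).source) {f : M → ℂ} (h : InI A i p f) : f p = 0 := by
  have := IdAt.apply_self h
  rwa [(A.e i).left_inv hp] at this

/-- the ideal of the point `p` -/
def Ip (A : Atl n M) (i : A.ι) (p : M) (hp : p ∈ (A.e i).source) : Ideal (smf A) where
  carrier := {f | InI A i p f.1}
  add_mem' := by
    intro f g hf hg
    exact IdAt.add hf hg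
  zero_mem' := idAt_zero _
  smul_mem' := by
    intro c f hf
    exact InI.mul_smAt hp hf (c.2 i)

theorem mem_Ip {hp : p ∈ (A.e i).source} {f : smf A} : f ∈ Ip A i p hp ↔ InI A i p f.1 := Iff.rfl

variable {B : FBun A} [T2Space M]

/-- a bump function in the ring -/
theorem exists_chi (hp : p ∈ (A.e i).source) {N : Set M} (hN : N ∈ 𝓝 p) :
    ∃ χ : M → ℝ, A.Sm χ ∧ (∀ᶠ x in 𝓝 p, χ x = 1) ∧ tsupport χ ⊆ N ∧ tsupport χ ⊆ (A.e i).source := by
  obtain ⟨χ, h1, -, h3, -, h5⟩ := QN2b734.exists_bump_point A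
    (Filter.inter_mem hN ((A.e i).open_source.mem_nhds hp))
  exact ⟨χ, QN2b734.sm_iff.2 h1, h3, h5.trans inter_subset_left, h5.trans inter_subset_right⟩

/-- **`I_p • Sec B` is described by the local condition.** -/
theorem mem_smul_top_iff (hp : p ∈ (A.e i).source) (u : Sec B) :
    u ∈ (Ip A i p hp • (⊤ : Submodule (smf A) (Sec B))) ↔
      ∀ k, InI A i p (fun x => u.1 i x k) := by
  constructor
  · intro h k
    refine Submodule.smul_induction_on (p := fun u => InI A i p (fun x => u.1 i x k)) h ?_ ?_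
    · intro f hf v _
      have h1 : InI A i p (fun x => v.1 i x k * f.1 x) := InI.mul_smAt hp hf (v.2.1 i k)
      refine h1.congr hp (Eventually.of_forall fun x => ?_)
      simp only [sec_smul_apply, Pi.smul_apply, smul_eq_mul]
      ring
    · intro v w hv hw
      exact IdAt.add hv hw
  · intro h
    obtain ⟨χ, hχ, hχ1, -, hχs⟩ := exists_chi (A := A) hp (N := univ) univ_mem
    -- the function `χ²` in the ring
    have hχc : A.Sm (fun x => (χ x : ℂ)) := sm_ofReal hχ
    let X : smf A := ⟨fun x => (χ x : ℂ), hχc⟩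
    have hu : u = (1 - X * X) • u + ∑ k, (coef i χ hχ hχs k u) • frame B i χ hχ hχs k := by
      refine sec_ext fun j x => ?_
      rw [sec_add_apply, sec_smul_apply, sec_sum_apply]
      have e1 : ∑ k, ((coef i χ hχ hχs k u) • frame B i χ hχ hχs k : Sec B).1 j x =
          ((X * X : smf A).1 x) • u.1 j x := by
        funext l
        rw [Finset.sum_apply]
        by_cases hj : x ∈ (A.e j).source
        · by_cases hi : x ∈ (A.e i).source
          · have e2 : ∀ k, ((coef i χ hχ hχs k u) • frame B i χ hχ hχs k : Sec B).1 j x l =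
                ((χ x : ℂ) * u.1 i x k) * ((χ x : ℂ) * B.τ j i x l k) := by
              intro k
              rw [sec_smul_apply, Pi.smul_apply, frame_apply B i χ hχ hχs k hj hi, coef_apply]
              rfl
            simp only [e2]
            have e3 : u.1 j x l = ∑ k, B.τ j i x l k * u.1 i x k :=
              congrFun (Sec.tr B u.2 ⟨hj, hi⟩) l
            rw [Pi.smul_apply, e3, coe_mul, smul_eq_mul, Finset.mul_sum]
            refine Finset.sum_congr rfl fun k _ => ?_
            simp only [X]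
            ring
          · have h0 : χ x = 0 := image_eq_zero_of_notMem_tsupport fun h => hi (hχs h)
            rw [Pi.smul_apply, coe_mul]
            simp only [X, h0, ofReal_zero, mul_zero, zero_smul]
            refine Finset.sum_eq_zero fun k _ => ?_
            rw [sec_smul_apply, Pi.smul_apply, frame_apply_of_notMem B i χ hχ hχs k hi, smul_zero]
        · have e4 : ∀ v : Sec B, v.1 j x l = 0 := fun v => by
            rw [Sec.off B v.2 hj]; rfl
          rw [Pi.smul_apply, e4, smul_zero]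
          exact Finset.sum_eq_zero fun k _ => e4 _
      rw [e1, coe_sub, coe_one, sub_smul, one_smul]
      abel
    rw [hu]
    refine Submodule.add_mem _ (Submodule.smul_mem_smul ?_ trivial)
      (Submodule.sum_mem _ fun k _ => Submodule.smul_mem_smul ?_ trivial)
    · refine InI.of_eventually_zero hp ?_
      filter_upwards [hχ1] with x hx
      rw [coe_sub, coe_mul, coe_one]
      simp [X, hx]
    · exact InI.mul_smAt hp (h k) (g := fun x => (χ x : ℂ)) (hχc i)

end ideal

/-! ### extension of local sections -/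

section extend

variable {p : M} {i : A.ι} {B : FBun A} [T2Space M]

theorem exists_ext (hp : p ∈ (A.e i).source) {r : ℝ} (hr : 0 < r) {h : B.κ → Cn n → ℂ}
    (hh : ∀ k, ContDiffOn ℝ ∞ (h k) (Metric.ball (A.e i p) r)) :
    ∃ v : Sec B, ∀ᶠ x in 𝓝 p, ∀ k, v.1 i x k = h k (A.e i x) := by
  classical
  set N : Set M := (A.e i).source ∩ (A.e i) ⁻¹' (Metric.ball (A.e i p) r) with hN
  have hNp : N ∈ 𝓝 p := Filter.inter_mem ((A.e i).open_source.mem_nhds hp)
    (((A.e i).continuousAt hp) (Metric.ball_mem_nhds _ hr))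
  obtain ⟨χ, hχ, hχ1, hχN, hχs⟩ := exists_chi (A := A) hp hNp
  -- the coefficients
  have hG : ∀ k, A.Sm (fun x => if x ∈ (A.e i).source then (χ x : ℂ) * h k (A.e i x) else 0) := by
    intro k
    refine sm_of_smAt (W := ℂ) (i := i) ?_ ?_
    · intro z hz
      refine ContDiffAt.contDiffWithinAt ?_
      by_cases hzb : z ∈ Metric.ball (A.e i p) r
      · have h1 : ContDiffAt ℝ ∞ (fun w => (χ ((A.e i).symm w) : ℂ) * h k w) z := by
          refine ContDiffAt.mul ?_ ((hh k).contDiffAt (Metric.isOpen_ball.mem_nhds hzb))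
          exact (Complex.ofRealCLM.contDiff.contDiffAt).comp z
            ((hχ i).contDiffAt ((A.e i).open_target.mem_nhds hz))
        refine h1.congr_of_eventuallyEq ?_
        filter_upwards [(A.e i).open_target.mem_nhds hz] with w hw
        rw [if_pos ((A.e i).map_target hw), (A.e i).right_inv hw]
      · have h0 : ∀ᶠ y in 𝓝 ((A.e i).symm z), χ y = 0 := by
          have hnot : (A.e i).symm z ∉ tsupport χ := by
            intro hmem
            have := (hχN hmem).2
            rw [mem_preimage, (A.e i).right_inv hz] at this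
            exact hzb this
          filter_upwards [(isClosed_tsupport χ).isOpen_compl.mem_nhds hnot] with y hy
          exact image_eq_zero_of_notMem_tsupport hy
        have h1 : Tendsto (A.e i).symm (𝓝 z) (𝓝 ((A.e i).symm z)) :=
          (A.e i).symm.continuousAt hz
        refine (contDiffAt_const (c := (0 : ℂ))).congr_of_eventuallyEq ?_
        filter_upwards [h1.eventually h0] with w hw
        rw [hw]; simp
    · refine (closure_mono ?_).trans hχs
      intro x hx
      rw [Function.mem_support] at hx ⊢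
      intro h0
      apply hx
      simp [h0]
  let G : B.κ → smf A := fun k =>
    ⟨fun x => if x ∈ (A.e i).source then (χ x : ℂ) * h k (A.e i x) else 0, hG k⟩
  refine ⟨∑ k, G k • frame B i χ hχ hχs k, ?_⟩
  filter_upwards [hχ1, (A.e i).open_source.mem_nhds hp] with x hx hxs k
  rw [sec_sum_apply, Finset.sum_apply, Finset.sum_eq_single k]
  · rw [sec_smul_apply, Pi.smul_apply, frame_apply B i χ hχ hχs k hxs hxs, B.τ_self i x hxs]
    have e1 : (G k).1 x = (χ x : ℂ) * h k (A.e i x) := if_pos hxs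
    rw [e1, hx, Matrix.one_apply_eq, smul_eq_mul]
    simp
  · intro l _ hl
    rw [sec_smul_apply, Pi.smul_apply, frame_apply B i χ hχ hχs l hxs hxs, B.τ_self i x hxs,
      Matrix.one_apply_ne (Ne.symm hl), mul_zero, smul_zero]
  · intro h; exact (h (Finset.mem_univ _)).elim

end extend

/-! ### acyclicity -/

section acyclic

variable {p : M} {i : A.ι} {B : FBun A}

theorem nab_comp (hα : ∀ x ∈ (A.e i).source, B.α i x = 0) (u : Sec B) {x : M}
    (hx : x ∈ (A.e i).source) (k : B.κ) :
    nab B u.1 i x k = ∑ a, ∑ l, B.e a k l *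
      dbj a (fun z => u.1 i ((A.e i).symm z) l) (A.e i x) := by
  rw [nab_apply B hx, hα x hx, Matrix.zero_mulVec, add_zero, Finset.sum_apply]
  refine Finset.sum_congr rfl fun a _ => ?_
  rw [Matrix.mulVec, dotProduct]
  refine Finset.sum_congr rfl fun l _ => ?_
  rw [Atl.db_pi (u.2.1 i) hx a l]
  rfl

theorem dbj_translate (c : Cn n) (F : Cn n → ℂ) (a : Fin n) (w : Cn n) :
    dbj a (fun y => F (c + y)) w = dbj a F (c + w) := by
  have h : fderiv ℝ (fun y => F (c + y)) w = fderiv ℝ F (c + w) := fderiv_comp_add_left c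
  simp only [dbj, h]

theorem acyclic [T2Space M] (hp : p ∈ (A.e i).source)
    (hα : ∀ x ∈ (A.e i).source, B.α i x = 0)
    (num : ∀ k l, (∑ a, B.e a * B.io a) k l = if k = l then (B.deg k : ℂ) else 0)
    (u : Sec B) (hu : ∀ k, InI A i p (fun x => nab B u.1 i x k)) :
    ∃ v : Sec B, ∀ k, InI A i p (fun x => u.1 i x k -
      (if B.deg k = 0 then u.1 i p k else 0) - nab B v.1 i x k) := by
  classical
  set c : Cn n := A.e i p with hc
  obtain ⟨R, hR, hRt⟩ := Metric.isOpen_iff.1 (A.e i).open_target c ((A.e i).map_source hp)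
  obtain ⟨r, hr, hrR, g, hg, hgu⟩ := IdAt.family hu hR
  have hrt : Metric.ball c r ⊆ (A.e i).target := (Metric.ball_subset_ball hrR).trans hRt
  set U : Set (Cn n) := Metric.ball (0 : Cn n) r with hU
  have htr : ∀ w ∈ U, c + w ∈ Metric.ball c r := by
    intro w hw
    rw [mem_ball_iff_norm, add_sub_cancel_left]
    exact mem_ball_zero_iff.1 hw
  have hcd : ContDiff ℝ ∞ (fun w : Cn n => c + w) := contDiff_const.add contDiff_id
  let f : B.κ → Cn n → ℂ := fun l w => u.1 i ((A.e i).symm (c + w)) l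
  have hf : ∀ l, ContDiffOn ℝ ∞ (f l) U := fun l =>
    ((u.2.1 i l).mono hrt).comp hcd.contDiffOn htr
  let g' : Fin n → B.κ → Cn n → ℂ := fun b l w => g b l (c + w)
  have hg' : ∀ b l, ContDiffOn ℝ ∞ (g' b l) U := fun b l => (hg b l).comp hcd.contDiffOn htr
  have hd : ∀ l, ∀ w ∈ U, dB B.e f l w = ∑ b, w b * g' b l w := by
    intro l w hw
    have h1 : nab B u.1 i ((A.e i).symm (c + w)) l = _ := hgu l (c + w) (htr w hw)
    have hxs : (A.e i).symm (c + w) ∈ (A.e i).source := (A.e i).map_target (hrt (htr w hw))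
    rw [nab_comp hα u hxs, (A.e i).right_inv (hrt (htr w hw))] at h1
    unfold dB
    have h2 : ∀ a m, dbj a (f m) w = dbj a (fun z => u.1 i ((A.e i).symm z) m) (c + w) :=
      fun a m => dbj_translate c (fun z => u.1 i ((A.e i).symm z) m) a w
    simp only [h2]
    rw [h1]
    refine Finset.sum_congr rfl fun b _ => ?_
    have h3 : (c + w) b - c b = w b := by
      rw [PiLp.add_apply, add_sub_cancel_left]
    rw [h3]
  obtain ⟨h, w, hh, hw, hfin⟩ := local_acyclic B.e B.io B.deg B.e_deg B.ei num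
    Metric.isOpen_ball (star_ball r) hf hg' hd
  -- extension of `h`
  have hback : ∀ z ∈ Metric.ball c r, z - c ∈ U := by
    intro z hz
    rw [hU, mem_ball_zero_iff]
    exact mem_ball_iff_norm.1 hz
  have hcs : ContDiff ℝ ∞ (fun z : Cn n => z - c) := contDiff_id.sub contDiff_const
  obtain ⟨v, hv⟩ := exists_ext (B := B) hp hr (h := fun k z => h k (z - c))
    (fun k => (hh k).comp hcs.contDiffOn hback)
  refine ⟨v, fun k => ?_⟩
  -- compare near `p`
  have hvn : ∀ᶠ z in 𝓝 c, ∀ l, v.1 i ((A.e i).symm z) l = h l (z - c) := by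
    have h1 := (tendsto_symm hp).eventually hv
    filter_upwards [h1, (A.e i).open_target.mem_nhds ((A.e i).map_source hp)] with z hz hzt l
    rw [hz l, (A.e i).right_inv hzt]
  have hvn' : ∀ᶠ z in 𝓝 c, ∀ᶠ z' in 𝓝 z, ∀ l, v.1 i ((A.e i).symm z') l = h l (z' - c) :=
    hvn.eventually_nhds
  have hbase : IdAt c (fun z => ∑ b, (z b - c b) * w b k (z - c)) :=
    ⟨r, hr, fun b z => w b k (z - c), fun b => (hw b k).comp hcs.contDiffOn hback, fun z _ => rfl⟩
  refine hbase.congr ?_
  filter_upwards [hvn', Metric.ball_mem_nhds c hr] with z hz hzb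
  have hzt := hrt hzb
  have hxs : (A.e i).symm z ∈ (A.e i).source := (A.e i).map_target hzt
  have h1 := hfin k (z - c) (hback z hzb)
  have h2 : f k (z - c) = u.1 i ((A.e i).symm z) k := by
    simp only [f]
    rw [add_sub_cancel]
  have h3 : f k 0 = u.1 i p k := by
    simp only [f]
    rw [add_zero, hc, (A.e i).left_inv hp]
  have h4 : dB B.e h k (z - c) = nab B v.1 i ((A.e i).symm z) k := by
    rw [nab_comp hα v hxs, (A.e i).right_inv hzt]
    unfold dB
    refine Finset.sum_congr rfl fun a _ => Finset.sum_congr rfl fun l _ => ?_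
    congr 1
    have h5 : dbj a (fun z => v.1 i ((A.e i).symm z) l) z = dbj a (fun z => h l (z - c)) z :=
      dbj_congr (by filter_upwards [hz] with z' hz' using hz' l) a
    rw [h5]
    have h6 := dbj_translate (-c) (h l) a z
    have h7 : (fun y => h l (-c + y)) = fun z => h l (z - c) := by
      funext y; rw [neg_add_eq_sub]
    rw [h7, neg_add_eq_sub] at h6
    exact h6.symm
  rw [h2, h3, h4] at h1
  show ∑ b, (z b - c b) * w b k (z - c) = _
  have h8 : ∀ b, (z - c) b = z b - c b := fun b => rfl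
  simp only [h8] at h1
  exact h1.symm

end acyclic

end

end Crest.Agent.R275.LnkP2476
end

-- ▼ part R275/LnkP3_476

/-!
R275, block LINK, leaf D4 (helper476), part 3: supertraces.

* `sub`, `quot`, `ses`: sub- and quotient supercomplexes of a stable submodule (any field);
* `sub_st`: for the complex `S` of smooth sections of a Dolbeault bundle with `α = 0`, number operator
  `= deg` and a unique vacuum, the subcomplex `F = I_p • Sec B` satisfies `F.st = S.st - 1`;
* `lam2` satisfies the hypotheses.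
-/

set_option autoImplicit false
set_option linter.unusedSectionVars false

open Set Filter Topology Complex
open scoped ContDiff ComplexConjugate Matrix
open Crest.Agent.R275.Geo Crest.Agent.R275.SmR425 Crest.Agent.R275.Smf798
open Crest.Agent.R275.LnkP1476 Crest.Agent.R275.LnkP2476 Crest.Agent.R275.NA7763

namespace Crest.Agent.R275.LnkP3476

noncomputable section

/-! ### sub- and quotient complexes -/

section subquot

variable {k : Type*} [Field k] {V : Type*} [AddCommGroup V] [Module k V] (S : SC k V)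
  (F : Submodule k V) (hd : ∀ x ∈ F, S.d x ∈ F) (hT : ∀ x ∈ F, S.T x ∈ F)

/-- the subcomplex -/
def sub : SC k F where
  d := S.d.restrict hd
  T := S.T.restrict hT
  dd x := Subtype.ext (S.dd x)
  dT x := Subtype.ext (S.dT x)

/-- the quotient complex -/
def quot : SC k (V ⧸ F) where
  d := F.mapQ F S.d hd
  T := F.mapQ F S.T hT
  dd x := by
    obtain ⟨x, rfl⟩ := F.mkQ_surjective x
    show F.mkQ (S.d (S.d x)) = 0
    rw [S.dd, map_zero]
  dT x := by
    obtain ⟨x, rfl⟩ := F.mkQ_surjective x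
    show F.mkQ (S.d (S.T x)) = - F.mkQ (S.T (S.d x))
    rw [S.dT, map_neg]

theorem quot_d (x : V) : (quot S F hd hT).d (F.mkQ x) = F.mkQ (S.d x) := rfl

/-- the short exact sequence -/
def ses : SC.SES (sub S F hd hT) S (quot S F hd hT) where
  i := { f := F.subtype, d := fun _ => rfl, T := fun _ => rfl }
  p := { f := F.mkQ, d := fun _ => rfl, T := fun _ => rfl }
  inj := Subtype.val_injective
  surj := F.mkQ_surjective
  exact y hy := ⟨⟨y, (Submodule.Quotient.mk_eq_zero F).1 hy⟩, rfl⟩
  zero x := (Submodule.Quotient.mk_eq_zero F).2 x.2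

/-- the one-dimensional complex -/
def pt (k : Type*) [Field k] : SC k k where
  d := 0
  T := LinearMap.id
  dd _ := rfl
  dT _ := by simp

instance : FiniteDimensional k (pt k).H :=
  inferInstanceAs (FiniteDimensional k
    (LinearMap.ker (pt k).d ⧸ (LinearMap.range (pt k).d).submoduleOf (LinearMap.ker (pt k).d)))

theorem pt_st : (pt k).st = 1 := by
  -- `H = k`
  let g : k →ₗ[k] (pt k).H := (Coh.mk (pt k).d) ∘ₗ (LinearMap.id.codRestrict (LinearMap.ker (pt k).d)
    (fun _ => rfl))
  have hg : Function.Bijective g := by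
    constructor
    · rw [injective_iff_map_eq_zero]
      intro x hx
      obtain ⟨y, hy⟩ := (Coh.mk_eq_zero (d := (pt k).d) (x := x) rfl).1 hx
      exact hy.symm
    · intro a
      obtain ⟨⟨x, hx⟩, rfl⟩ := Coh.mk_surjective (pt k).d a
      exact ⟨x, rfl⟩
  let e : k ≃ₗ[k] (pt k).H := LinearEquiv.ofBijective g hg
  have h1 : (pt k).TH = e.conj LinearMap.id := by
    rw [LinearEquiv.conj_id]
    refine LinearMap.ext fun a => ?_
    revert a
    refine (pt k).ind fun x hx => rfl
  rw [SC.st, h1, LinearMap.trace_conj', LinearMap.trace_id, Module.finrank_self, Nat.cast_one]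

end subquot

/-! ### the complex of smooth sections -/

section geo

variable {n : ℕ} {M : Type} [TopologicalSpace M] [T2Space M] {A : Atl n M} {B : FBun A}
  {p : M} {i : A.ι}

theorem idAt_dbj {c : Cn n} {F : Cn n → ℂ} (h : IdAt c F) (a : Fin n) : IdAt c (dbj a F) := by
  obtain ⟨r, hr, g, hg, hF⟩ := h
  refine ⟨r, hr, fun b => Geo.dbj a (g b), fun b => contDiffOn_dbj Metric.isOpen_ball (hg b) a,
    fun z hz => ?_⟩
  have h1 : Geo.dbj a F z = Geo.dbj a (fun w => ∑ b, (w b - c b) * g b w) z := by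
    refine dbj_congr ?_ a
    filter_upwards [Metric.isOpen_ball.mem_nhds hz] with w hw using hF w hw
  have hc : ∀ b : Fin n, HasFDerivAt (fun w : Cn n => w b - c b)
      ((EuclideanSpace.proj b : Cn n →L[ℂ] ℂ).restrictScalars ℝ) z := fun b =>
    (((EuclideanSpace.proj b : Cn n →L[ℂ] ℂ).restrictScalars ℝ).hasFDerivAt).sub_const _
  have hgd : ∀ b, DifferentiableAt ℝ (g b) z := fun b =>
    ((hg b).contDiffAt (Metric.isOpen_ball.mem_nhds hz)).differentiableAt (by simp)
  have hc0 : ∀ b, Geo.dbj a (fun w : Cn n => w b - c b) z = 0 := by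
    intro b
    simp only [Geo.dbj, (hc b).fderiv, smul_eq_mul]
    have e1 : ((EuclideanSpace.proj b : Cn n →L[ℂ] ℂ).restrictScalars ℝ)
        (EuclideanSpace.single a I) = I * ((EuclideanSpace.proj b : Cn n →L[ℂ] ℂ).restrictScalars ℝ)
        (EuclideanSpace.single a 1) := by
      show (EuclideanSpace.single a I : Cn n) b = I * (EuclideanSpace.single a (1 : ℂ) : Cn n) b
      rw [PiLp.single_apply, PiLp.single_apply]
      split_ifs <;> simp
    rw [e1]
    linear_combination (1 / 2 : ℂ) * (((EuclideanSpace.proj b : Cn n →L[ℂ] ℂ).restrictScalars ℝ)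
        (EuclideanSpace.single a 1)) * Complex.I_mul_I
  rw [h1]
  refine (dbj_sum Finset.univ (f := fun (b : Fin n) (w : Cn n) => (w b - c b) * g b w)
    (fun b _ => (hc b).differentiableAt.mul (hgd b)) a).trans ?_
  refine Finset.sum_congr rfl fun b _ => ?_
  refine (dbj_mul (hc b).differentiableAt (hgd b) a).trans ?_
  rw [hc0, zero_mul, add_zero]

theorem nab_InI (hp : p ∈ (A.e i).source) (hα : ∀ x ∈ (A.e i).source, B.α i x = 0) (u : Sec B)
    (hu : ∀ k, InI A i p (fun x => u.1 i x k)) (k : B.κ) :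
    InI A i p (fun x => nab B u.1 i x k) := by
  have h1 : IdAt (A.e i p) (fun z => ∑ a, ∑ l, B.e a k l *
      dbj a (fun z => u.1 i ((A.e i).symm z) l) z) :=
    IdAt.sum _ fun a _ => IdAt.sum _ fun l _ => IdAt.mul
      (G := fun _ => B.e a k l) (idAt_dbj (hu l) a) one_pos contDiffOn_const
  refine IdAt.congr h1 ?_
  filter_upwards [(A.e i).open_target.mem_nhds ((A.e i).map_source hp)] with z hz
  rw [nab_comp hα u ((A.e i).map_target hz), (A.e i).right_inv hz]

variable (hp : p ∈ (A.e i).source)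

/-- the subspace `I_p • Sec B` over `ℂ` -/
def Fp (B : FBun A) : Submodule ℂ (Sec B) :=
  (Ip A i p hp • (⊤ : Submodule (smf A) (Sec B))).restrictScalars ℂ

theorem mem_Fp {u : Sec B} : u ∈ Fp hp B ↔ ∀ k, InI A i p (fun x => u.1 i x k) :=
  mem_smul_top_iff hp u

variable (S : SC ℂ (Sec B))

theorem Fp_d (hα : ∀ x ∈ (A.e i).source, B.α i x = 0) (hSd : ∀ u, (S.d u).1 = nab B u.1)
    (u : Sec B) (hu : u ∈ Fp hp B) : S.d u ∈ Fp hp B := by
  rw [mem_Fp] at hu ⊢
  intro k
  rw [hSd]
  exact nab_InI hp hα u hu k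

theorem Fp_T (hST : ∀ u : Sec B, ∀ x k, (S.T u).1 i x k = (-1) ^ (B.deg k) * u.1 i x k)
    (u : Sec B) (hu : u ∈ Fp hp B) : S.T u ∈ Fp hp B := by
  rw [mem_Fp] at hu ⊢
  intro k
  have hc : A.SmAt i (fun _ : M => (-1 : ℂ) ^ (B.deg k)) := contDiffOn_const
  refine InI.congr hp (InI.mul_smAt hp (hu k) hc) (Eventually.of_forall fun x => ?_)
  exact (hST u x k).symm

/-- **the supertrace of the subcomplex `I_p • Sec B`** -/
theorem sub_st [FiniteDimensional ℂ S.H] (hα : ∀ x ∈ (A.e i).source, B.α i x = 0)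
    (num : ∀ k l, (∑ a, B.e a * B.io a) k l = if k = l then (B.deg k : ℂ) else 0)
    (hSd : ∀ u, (S.d u).1 = nab B u.1)
    (hST : ∀ u : Sec B, ∀ x k, (S.T u).1 i x k = (-1) ^ (B.deg k) * u.1 i x k)
    (k0 : B.κ) (hk0 : ∀ k, B.deg k = 0 ↔ k = k0)
    (one : Sec B) (hone : S.d one = 0) (hTone : S.T one = one)
    (hone1 : ∀ᶠ x in 𝓝 p, ∀ k, one.1 i x k = if k = k0 then 1 else 0) :
    FiniteDimensional ℂ (sub S (Fp hp B) (Fp_d hp S hα hSd) (Fp_T hp S hST)).H ∧
      (sub S (Fp hp B) (Fp_d hp S hα hSd) (Fp_T hp S hST)).st = S.st - 1 := by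
  classical
  set F := Fp hp B with hF
  set hd := Fp_d hp S hα hSd
  set hT := Fp_T hp S hST
  -- components of `∇v` in degree 0
  have hdeg0 : ∀ (v : Sec B) x, x ∈ (A.e i).source → nab B v.1 i x k0 = 0 := by
    intro v x hx
    rw [nab_comp hα v hx]
    refine Finset.sum_eq_zero fun a _ => Finset.sum_eq_zero fun l _ => ?_
    have h0 : B.e a k0 l = 0 := by
      by_contra hne
      have := B.e_deg a k0 l hne
      rw [(hk0 k0).2 rfl] at this
      omega
    rw [h0, zero_mul]
  have honep : ∀ k, one.1 i p k = if k = k0 then 1 else 0 := hone1.self_of_nhds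
  let φ : SC.Hom (pt ℂ) (quot S F hd hT) :=
    { f := F.mkQ ∘ₗ (LinearMap.id.smulRight one)
      d := fun c => by
        show F.mkQ (S.d (c • one)) = F.mkQ ((0 : ℂ) • one)
        rw [map_smul, hone, smul_zero, zero_smul]
      T := fun c => by
        show F.mkQ (S.T (c • one)) = F.mkQ (c • one)
        rw [map_smul, hTone] }
  have hφ : φ.Quasi := by
    constructor
    · rw [injective_iff_map_eq_zero]
      refine (pt ℂ).ind fun c hc => ?_
      intro h
      rw [SC.Hom.mapH_cls, SC.cls_eq_zero] at h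
      obtain ⟨y, hy⟩ := h
      obtain ⟨v, rfl⟩ := F.mkQ_surjective y
      have hy' : F.mkQ (c • one - S.d v) = 0 := by
        rw [map_sub, sub_eq_zero]
        exact hy.symm
      have h1 : c • one - S.d v ∈ F := (Submodule.Quotient.mk_eq_zero F).1 hy'
      rw [hF, mem_Fp] at h1
      have h2 := InI.apply_self hp (h1 k0)
      have h3 : (c • one - S.d v).1 i p k0 = c * one.1 i p k0 - nab B v.1 i p k0 := by
        rw [← hSd]; rfl
      rw [h3, honep, if_pos rfl, hdeg0 v p hp, mul_one, sub_zero] at h2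
      rw [SC.cls_eq_zero]
      exact ⟨0, by rw [map_zero, h2]⟩
    · intro a
      revert a
      refine SC.ind _ fun y hy => ?_
      obtain ⟨u, rfl⟩ := F.mkQ_surjective y
      have h1 : S.d u ∈ F := (Submodule.Quotient.mk_eq_zero F).1 hy
      rw [hF, mem_Fp] at h1
      have h2 : ∀ k, InI A i p (fun x => nab B u.1 i x k) := by
        intro k
        have := h1 k
        rwa [hSd] at this
      obtain ⟨v, hv⟩ := acyclic hp hα num u h2
      have hc0 : (pt ℂ).d (u.1 i p k0) = 0 := rfl
      refine ⟨(pt ℂ).cls (u.1 i p k0) hc0, ?_⟩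
      rw [SC.Hom.mapH_cls, SC.cls_eq]
      refine ⟨F.mkQ (-v), ?_⟩
      rw [quot_d]
      show F.mkQ (S.d (-v)) = F.mkQ (u.1 i p k0 • one) - F.mkQ u
      rw [← map_sub, ← sub_eq_zero, ← map_sub]
      refine (Submodule.Quotient.mk_eq_zero F).2 ?_
      rw [hF, mem_Fp]
      intro k
      refine InI.congr hp (hv k) ?_
      filter_upwards [hone1] with x hx
      have h3 : (S.d (-v) - (u.1 i p k0 • one - u)).1 i x k =
          (S.d (-v)).1 i x k - (u.1 i p k0 * one.1 i x k - u.1 i x k) := rfl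
      have h4 : (S.d (-v)).1 i x k = - nab B v.1 i x k := by
        rw [map_neg, ← hSd]; rfl
      rw [h3, h4, hx k]
      by_cases hk : k = k0
      · subst hk
        rw [if_pos rfl, if_pos ((hk0 k).2 rfl)]
        ring
      · rw [if_neg hk, if_neg (fun h => hk ((hk0 k).1 h))]
        ring
  have hfinQ : FiniteDimensional ℂ (quot S F hd hT).H := hφ.finite
  have hfinS := (ses S F hd hT).finite_left
  refine ⟨hfinS, ?_⟩
  have h5 := (ses S F hd hT).st_eq
  have h6 : (quot S F hd hT).st = 1 := by rw [← hφ.st_eq, pt_st]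
  rw [h6] at h5
  rw [h5]; ring

end geo

/-! ### the Dolbeault complex of a surface -/

section lam

open Crest.Agent.R275.Lam2130

variable {M : Type} [TopologicalSpace M] {A : Atl 2 M}

theorem eio_num (k l : Fin 4) : (∑ a, eM a * ioM a) k l = if k = l then (dg k : ℂ) else 0 := by
  fin_cases k <;> fin_cases l <;>
    (simp [eM, ioM, dg, Matrix.mul_apply, Fin.sum_univ_four, Fin.sum_univ_two, Matrix.sum_apply]; try norm_num)

theorem dg_zero (k : Fin 4) : dg k = 0 ↔ k = 0 := by
  fin_cases k <;> simp [dg]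

/-- the vacuum vector -/
def v0 : Fin 4 → ℂ := ![1, 0, 0, 0]

theorem v0_apply (k : Fin 4) : v0 k = if k = 0 then 1 else 0 := by
  fin_cases k <;> simp [v0]

theorem tau_v0 (m : Matrix (Fin 2) (Fin 2) ℂ) : tauM m *ᵥ v0 = v0 := by
  funext k
  fin_cases k <;> simp [v0, tauM, Matrix.mulVec, dotProduct, Fin.sum_univ_four]

/-- the constant section `1`, raw family -/
def oneF (A : Atl 2 M) : A.ι → M → Fin 4 → ℂ := fun i x =>
  Set.indicator (A.e i).source (fun _ => v0) x

theorem oneF_mem {i : A.ι} {x : M} (hx : x ∈ (A.e i).source) : oneF A i x = v0 :=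
  Set.indicator_of_mem hx _

theorem oneF_off {i : A.ι} {x : M} (hx : x ∉ (A.e i).source) : oneF A i x = 0 :=
  Set.indicator_of_notMem hx _

/-- the constant section `1` -/
def oneS (A : Atl 2 M) : Sec (lam2 A) :=
  ⟨oneF A, by
    refine ⟨fun i k => ?_, fun i x hx => oneF_off hx, fun i j x hx => ?_⟩
    · refine (contDiffOn_const (c := v0 k)).congr ?_
      intro z hz
      exact congrFun (oneF_mem ((A.e i).map_target hz)) k
    · show oneF A i x = tauM (Jm A i j x) *ᵥ oneF A j x
      rw [oneF_mem hx.1, oneF_mem hx.2, tau_v0]⟩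

theorem oneS_apply {i : A.ι} {x : M} (hx : x ∈ (A.e i).source) (k : Fin 4) :
    (oneS A).1 i x k = if k = 0 then 1 else 0 := by
  show oneF A i x k = _
  rw [oneF_mem hx, v0_apply]

theorem nab_oneS (A : Atl 2 M) : nab (lam2 A) (oneS A).1 = 0 := by
  funext i x
  by_cases hx : x ∈ (A.e i).source
  · funext k
    rw [nab_comp (B := lam2 A) (i := i) (fun _ _ => rfl) (oneS A) hx]
    refine Finset.sum_eq_zero fun a _ => Finset.sum_eq_zero fun l _ => ?_
    have h1 : dbj a (fun z => (oneS A).1 i ((A.e i).symm z) l) (A.e i x) =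
        dbj a (fun _ : Cn 2 => v0 l) (A.e i x) := by
      refine dbj_congr ?_ a
      filter_upwards [(A.e i).open_target.mem_nhds ((A.e i).map_source hx)] with z hz
      exact congrFun (oneF_mem ((A.e i).map_target hz)) l
    rw [h1, dbj_const, mul_zero]
  · exact nab_off (lam2 A) hx

theorem oneS_deg (A : Atl 2 M) : IsDeg (lam2 A) 0 (oneS A).1 := by
  intro i x k hk
  change oneF A i x k ≠ 0 at hk
  by_cases hx : x ∈ (A.e i).source
  · rw [oneF_mem hx] at hk
    have h := v0_apply k
    by_contra hne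
    apply hk
    rw [h, if_neg]
    intro h'
    apply hne
    exact (dg_zero k).2 h'
  · exact absurd (congrFun (oneF_off hx) k) hk

variable [T2Space M] {p : M} {i : A.ι} (hp : p ∈ (A.e i).source) (S : SC ℂ (Sec (lam2 A)))

/-- **D4, supertrace form**: `χ(I_p Ω^{0,*}) = χ(Ω^{0,*}) - 1` on a complex surface. -/
theorem lam2_sub_st [FiniteDimensional ℂ S.H] (hSd : ∀ u, (S.d u).1 = nab (lam2 A) u.1)
    (hST : ∀ u : Sec (lam2 A), ∀ j x k, (S.T u).1 j x k = (-1) ^ ((lam2 A).deg k) * u.1 j x k) :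
    FiniteDimensional ℂ (sub S (Fp hp (lam2 A)) (Fp_d hp S (fun _ _ => rfl) hSd)
      (Fp_T hp S fun u => hST u i)).H ∧
    (sub S (Fp hp (lam2 A)) (Fp_d hp S (fun _ _ => rfl) hSd)
      (Fp_T hp S fun u => hST u i)).st = S.st - 1 := by
  refine sub_st hp S (fun _ _ => rfl) eio_num hSd (fun u => hST u i) (0 : Fin 4) dg_zero (oneS A)
    ?_ ?_ ?_
  · apply Subtype.ext
    rw [hSd, nab_oneS]; rfl
  · apply Subtype.ext
    funext j x k
    rw [hST]
    by_cases hk : (oneS A).1 j x k = 0
    · rw [hk, mul_zero]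
    · rw [oneS_deg A j x k hk, pow_zero, one_mul]
  · filter_upwards [(A.e i).open_source.mem_nhds hp] with x hx k
    exact oneS_apply hx k

end lam

end

end Crest.Agent.R275.LnkP3476
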