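import Crest.Agent.R275.MIb_683

-- ▼ part R275/MIc_683
section

/-!
# R275, PART I' (helper683): Dirac objects on scales

`IsD S T B` : `T` is a grading involution, `B` is odd, of order `0`, `B² = 1` modulo negligible
operators.  Index `oidx T B`.  Congruence, isomorphism, products, change of sign of the grading,
cutting by an idempotent.
-/

set_option autoImplicit false

namespace Crest.Agent.R275.MI683

open Module LinearMap Submodule Crest.Agent.R275.Fred685

variable {𝕜 V W : Type*} [RCLike 𝕜] [AddCommGroup V] [Module 𝕜 V] [AddCommGroup W] [Module 𝕜 W]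
variable {S : Scale 𝕜 V} {S' : Scale 𝕜 W}

/-- Dirac object -/
structure IsD (S : Scale 𝕜 V) (T B : Module.End 𝕜 V) : Prop where
  TT : T * T = 1
  T0 : Op0 S S T
  B0 : Op0 S S B
  TB : T * B = -(B * T)
  BB : Neg S S (1 - B * B)

theorem IsD.fred {T B : Module.End 𝕜 V} (h : IsD S T B) :
    FredS (S.ran (p := pe T) (op0_pe h.T0) (pe_idem h.TT))
      (S.ran (p := po T) (op0_po h.T0) (po_idem h.TT)) (eo T B) :=
  fredS_eo h.TT h.T0 h.B0 h.B0 h.TB h.TB h.BB h.BB

theorem oidx_congr {T B B' : Module.End 𝕜 V} (h : IsD S T B) (hN : Neg S S (B' - B)) :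
    oidx T B' = oidx T B := by
  refine h.fred.idx_congr ?_
  rw [← corner_sub]
  exact Neg.corner hN (op0_pe h.T0) (pe_idem h.TT) (op0_po h.T0) (po_idem h.TT)

/-- change of sign of the grading -/
theorem oidx_neg_T {T B : Module.End 𝕜 V} (h : IsD S T B) : oidx (-T) B = - oidx T B := by
  have hpe : pe (-T) = po T := by unfold pe po; rw [sub_eq_add_neg]
  have hpo : po (-T) = pe T := by unfold pe po; rw [sub_neg_eq_add]
  have e1 : oidx (-T) B = idx (oe T B) := by
    unfold oidx eo oe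
    rw [hpe, hpo]
  have h1 := h.fred
  -- the other corner
  have h2 : FredS (S.ran (p := po T) (op0_po h.T0) (po_idem h.TT))
      (S.ran (p := pe T) (op0_pe h.T0) (pe_idem h.TT)) (oe T B) :=
    FredS.corner (p := po T) (op0_po h.T0) (po_idem h.TT) (q := pe T) (op0_pe h.T0)
      (pe_idem h.TT) h.B0 h.B0 h.BB h.BB (pe_odd h.TB) (po_odd h.TB)
  have h3 := idx_add_of_param (S := S.ran (p := pe T) (op0_pe h.T0) (pe_idem h.TT)) h1.finIdx
    h2.finIdx (by
      rw [oe_comp_eo h.TT h.TB, ← corner_id (p := pe T) (pe_idem h.TT), ← corner_sub]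
      exact Neg.corner h.BB (op0_pe h.T0) (pe_idem h.TT) (op0_pe h.T0) (pe_idem h.TT))
  rw [e1]
  unfold oidx
  omega

theorem idx_neg {X : V →ₗ[𝕜] W} : idx (-X) = idx X := by
  unfold idx
  rw [LinearMap.range_neg]
  have : ker (-X) = ker X := by ext x; simp
  rw [this]

/-- change of sign of `B` -/
theorem oidx_neg_B (T B : Module.End 𝕜 V) : oidx T (-B) = oidx T B := by
  unfold oidx
  have : eo T (-B) = - eo T B := by
    apply LinearMap.ext; intro v; apply Subtype.ext
    simp [corner_coe]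
  rw [this, idx_neg]

/-- equality of indices of conjugate operators (pure algebra) -/
theorem oidx_conj {T B : Module.End 𝕜 V} {T' B' : Module.End 𝕜 W} (e : V ≃ₗ[𝕜] W)
    (hT : ∀ v, e (T v) = T' (e v)) (hB : ∀ v, e (B v) = B' (e v)) : oidx T B = oidx T' B' := by
  have hpe : ∀ v, e (pe T v) = pe T' (e v) := fun v => by
    simp only [pe_coe_apply, map_smul, map_add, hT]
  have hpo : ∀ v, e (po T v) = po T' (e v) := fun v => by
    simp only [po_coe_apply, map_smul, map_sub, hT]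
  -- equivalences of the ranges
  let e0 : range (pe T) ≃ₗ[𝕜] range (pe T') := e.ofSubmodules _ _ (by
    ext w
    constructor
    · rintro ⟨_, ⟨v, rfl⟩, rfl⟩
      exact ⟨e v, (hpe v).symm⟩
    · rintro ⟨v, rfl⟩
      refine ⟨pe T (e.symm v), ⟨_, rfl⟩, ?_⟩
      change e (pe T (e.symm v)) = _
      rw [hpe, e.apply_symm_apply])
  let e1 : range (po T) ≃ₗ[𝕜] range (po T') := e.ofSubmodules _ _ (by
    ext w
    constructor
    · rintro ⟨_, ⟨v, rfl⟩, rfl⟩
      exact ⟨e v, (hpo v).symm⟩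
    · rintro ⟨v, rfl⟩
      refine ⟨po T (e.symm v), ⟨_, rfl⟩, ?_⟩
      change e (po T (e.symm v)) = _
      rw [hpo, e.apply_symm_apply])
  have key : eo T' B' = (e1 : range (po T) →ₗ[𝕜] range (po T')) ∘ₗ eo T B ∘ₗ
      (e0.symm : range (pe T') →ₗ[𝕜] range (pe T)) := by
    apply LinearMap.ext
    intro v
    obtain ⟨v, rfl⟩ := e0.surjective v
    apply Subtype.ext
    simp only [LinearMap.comp_apply, LinearEquiv.coe_coe, LinearEquiv.symm_apply_apply, corner_coe]
    change po T' (B' (e (v : V))) = e (po T (B (v : V)))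
    rw [hpo, hB]
  unfold oidx
  -- no finiteness needed: compare kernels and cokernels
  have k1 : ker (eo T' B') ≃ₗ[𝕜] ker (eo T B) := by
    refine (e0.symm.ofSubmodules _ _ ?_)
    ext v
    constructor
    · rintro ⟨w, hw, rfl⟩
      have hw' : eo T' B' w = 0 := hw
      rw [key] at hw'
      simp only [LinearMap.comp_apply, LinearEquiv.coe_coe] at hw'
      exact (map_eq_zero_iff _ e1.injective).1 hw'
    · intro hv
      refine ⟨e0 v, ?_, e0.symm_apply_apply v⟩
      change eo T' B' (e0 v) = 0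
      rw [key]
      simp only [LinearMap.comp_apply, LinearEquiv.coe_coe, LinearEquiv.symm_apply_apply]
      rw [show eo T B v = 0 from hv, map_zero]
  have k2 : (range (po T) ⧸ range (eo T B)) ≃ₗ[𝕜] (range (po T') ⧸ range (eo T' B')) := by
    refine Submodule.Quotient.equiv _ _ e1 ?_
    ext v
    constructor
    · rintro ⟨_, ⟨w, rfl⟩, rfl⟩
      refine ⟨e0 w, ?_⟩
      rw [key]
      simp only [LinearMap.comp_apply, LinearEquiv.coe_coe, LinearEquiv.symm_apply_apply]
    · rintro ⟨w, rfl⟩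
      refine ⟨eo T B (e0.symm w), ⟨_, rfl⟩, ?_⟩
      rw [key]
      simp only [LinearMap.comp_apply, LinearEquiv.coe_coe]
  unfold idx
  rw [k1.finrank_eq, k2.finrank_eq]

/-- isomorphic Dirac objects have the same index -/
theorem oidx_iso {T B : Module.End 𝕜 V} {T' B' : Module.End 𝕜 W} (h : IsD S T B)
    (e : V ≃ₗ[𝕜] W) (he' : Op0 S' S (e.symm : W →ₗ[𝕜] V)) (hT : ∀ v, e (T v) = T' (e v))
    (hB : Neg S S' ((e : V →ₗ[𝕜] W) ∘ₗ B - B' ∘ₗ (e : V →ₗ[𝕜] W))) : oidx T B = oidx T' B' := by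
  -- transport `B'` to `V`
  set C : Module.End 𝕜 V := (e.symm : W →ₗ[𝕜] V) ∘ₗ B' ∘ₗ (e : V →ₗ[𝕜] W) with hC
  have h1 : oidx T C = oidx T' B' := by
    refine oidx_conj e hT fun v => ?_
    simp [hC]
  rw [← h1]
  refine (oidx_congr h ?_).symm
  have e1 : C - B = -((e.symm : W →ₗ[𝕜] V) ∘ₗ
      ((e : V →ₗ[𝕜] W) ∘ₗ B - B' ∘ₗ (e : V →ₗ[𝕜] W))) := by
    apply LinearMap.ext; intro v
    simp [hC]
  rw [e1]
  exact (hB.comp_left he').neg

/-! ### products -/

/-- product of Dirac objects -/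
theorem IsD.prod {T B : Module.End 𝕜 V} {T' B' : Module.End 𝕜 W} (h : IsD S T B)
    (h' : IsD S' T' B') : IsD (S.prod S') (T.prodMap T') (B.prodMap B') where
  TT := by
    apply LinearMap.ext; rintro ⟨v, w⟩
    have e1 := LinearMap.congr_fun h.TT v
    have e2 := LinearMap.congr_fun h'.TT w
    exact Prod.ext e1 e2
  T0 := h.T0.prodMap h'.T0
  B0 := h.B0.prodMap h'.B0
  TB := by
    apply LinearMap.ext; rintro ⟨v, w⟩
    have e1 := LinearMap.congr_fun h.TB v
    have e2 := LinearMap.congr_fun h'.TB w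
    exact Prod.ext e1 e2
  BB := by
    have e : (1 - B.prodMap B' * B.prodMap B' : Module.End 𝕜 (V × W)) =
        (1 - B * B : Module.End 𝕜 V).prodMap (1 - B' * B' : Module.End 𝕜 W) := by
      apply LinearMap.ext; rintro ⟨v, w⟩; rfl
    rw [e]
    exact h.BB.prodMap h'.BB

theorem oidx_prod {T B : Module.End 𝕜 V} {T' B' : Module.End 𝕜 W} (h : IsD S T B)
    (h' : IsD S' T' B') :
    oidx (T.prodMap T') (B.prodMap B') = oidx T B + oidx T' B' := by
  have hp : ∀ x, pe (T.prodMap T') x = (pe T x.1, pe T' x.2) := fun x => rfl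
  have hq : ∀ x, po (T.prodMap T') x = (po T x.1, po T' x.2) := fun x => rfl
  -- equivalence of ranges
  let f0 : range (pe (T.prodMap T')) ≃ₗ[𝕜] range (pe T) × range (pe T') :=
    { toFun := fun x => (⟨x.1.1, by
        obtain ⟨y, hy⟩ := x.2
        exact ⟨y.1, by rw [← hy, hp]⟩⟩, ⟨x.1.2, by
        obtain ⟨y, hy⟩ := x.2
        exact ⟨y.2, by rw [← hy, hp]⟩⟩)
      map_add' := fun _ _ => rfl
      map_smul' := fun _ _ => rfl
      invFun := fun y => ⟨(y.1.1, y.2.1), by
        obtain ⟨a, ha⟩ := y.1.2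
        obtain ⟨b, hb⟩ := y.2.2
        exact ⟨(a, b), by rw [hp, ha, hb]⟩⟩
      left_inv := fun _ => rfl
      right_inv := fun _ => rfl }
  let f1 : range (po (T.prodMap T')) ≃ₗ[𝕜] range (po T) × range (po T') :=
    { toFun := fun x => (⟨x.1.1, by
        obtain ⟨y, hy⟩ := x.2
        exact ⟨y.1, by rw [← hy, hq]⟩⟩, ⟨x.1.2, by
        obtain ⟨y, hy⟩ := x.2
        exact ⟨y.2, by rw [← hy, hq]⟩⟩)
      map_add' := fun _ _ => rfl
      map_smul' := fun _ _ => rfl
      invFun := fun y => ⟨(y.1.1, y.2.1), by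
        obtain ⟨a, ha⟩ := y.1.2
        obtain ⟨b, hb⟩ := y.2.2
        exact ⟨(a, b), by rw [hq, ha, hb]⟩⟩
      left_inv := fun _ => rfl
      right_inv := fun _ => rfl }
  have key : (f1 : _ →ₗ[𝕜] range (po T) × range (po T')) ∘ₗ
      eo (T.prodMap T') (B.prodMap B') =
      ((eo T B).prodMap (eo T' B')) ∘ₗ (f0 : _ →ₗ[𝕜] range (pe T) × range (pe T')) := by
    apply LinearMap.ext; intro x; rfl
  have h1 := h.fred.finIdx
  have h2 := h'.fred.finIdx
  have h3 := (h.prod h').fred.finIdx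
  have e1 := idx_comp (finIdx_equiv f1) h3
  have e2 := idx_comp (finIdx_prodMap h1 h2) (finIdx_equiv f0)
  rw [key, e2, idx_equiv, idx_equiv, idx_prodMap h1 h2] at e1
  unfold oidx
  omega

/-! ### cutting by an idempotent -/

section cut

variable {T B P : Module.End 𝕜 V}

/-- the restriction of an operator to the range of an idempotent -/
abbrev cut (P X : Module.End 𝕜 V) : Module.End 𝕜 (range P) := corner P P X

theorem cut_coe (P X : Module.End 𝕜 V) (v : range P) : (cut P X v : V) = P (X v) := rfl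

theorem P_of_mem (hPP : P * P = P) (v : range P) : P (v : V) = v :=
  (mem_range_iff_of_idem (p := P) hPP _).1 v.2

theorem cut_coe' (hPP : P * P = P) {X : Module.End 𝕜 V} (hX : P * X = X * P) (v : range P) :
    (cut P X v : V) = X v := by
  rw [cut_coe]
  have h : P (X v) = X (P v) := LinearMap.congr_fun hX (v : V)
  rw [h, P_of_mem hPP]

theorem IsD.cut (h : IsD S T B) (hPP : P * P = P) (hP0 : Op0 S S P) (hTP : T * P = P * T)
    (hPB : Neg S S (P * B - B * P)) :
    IsD (S.ran (p := P) hP0 hPP) (cut P T) (cut P B) where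
  TT := by
    have := corner_comp (p := P) hPP (q := P) P (A := T) (by exact hTP.symm) T
    have h2 : (MI683.cut P T * MI683.cut P T : Module.End 𝕜 (range P)) =
        corner P P (T * T) := this
    rw [h2, h.TT]
    exact corner_id hPP
  T0 := Op0.corner h.T0 hP0 hPP hP0 hPP
  B0 := Op0.corner h.B0 hP0 hPP hP0 hPP
  TB := by
    apply LinearMap.ext; intro v; apply Subtype.ext
    change P (T (P (B v))) = -(P (B (P (T v))))
    have e1 : P (T (P (B v))) = P (T (B v)) := by
      have := LinearMap.congr_fun hTP (B v)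
      change T (P (B v)) = P (T (B v)) at this
      rw [this]
      exact LinearMap.congr_fun hPP (T (B v))
    have e2 : P (T (v : V)) = T v := by
      have := LinearMap.congr_fun hTP (v : V)
      change T (P v) = P (T v) at this
      rw [← this, P_of_mem hPP]
    have e3 : T (B v) = -(B (T v)) := LinearMap.congr_fun h.TB (v : V)
    rw [e1, e2, e3, map_neg]
  BB := by
    have e : (1 - MI683.cut P B * MI683.cut P B : Module.End 𝕜 (range P)) =
        corner P P ((1 - B * B) - (B * P - P * B) * B) := by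
      apply LinearMap.ext; intro v; apply Subtype.ext
      change (v : V) - P (B (P (B v))) = P (((v : V) - B (B v)) - (B (P (B v)) - P (B (B v))))
      have hPP' : ∀ w, P (P w) = P w := fun w => LinearMap.congr_fun hPP w
      rw [map_sub, map_sub, map_sub, P_of_mem hPP, hPP']
      abel
    rw [e]
    refine Neg.corner ?_ hP0 hPP hP0 hPP
    refine h.BB.sub (Neg.mulR ?_ h.B0)
    have : B * P - P * B = -(P * B - B * P) := by abel
    rw [this]
    exact hPB.neg

end cut

end Crest.Agent.R275.MI683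
end

-- ▼ part R275/MId_683

/-!
# R275, PART I' (helper683): order `-1` operators, Rellich scales, shifts and finite powers
-/

set_option autoImplicit false
set_option linter.unusedSectionVars false

namespace Crest.Agent.R275.MI683

open Module LinearMap Submodule Crest.Agent.R275.Fred685

/-! ### order `-1` operators -/

section opm

variable {𝕜 V W U : Type*} [RCLike 𝕜] [AddCommGroup V] [Module 𝕜 V] [AddCommGroup W] [Module 𝕜 W]
  [AddCommGroup U] [Module 𝕜 U]
variable {S : Scale 𝕜 V} {S' : Scale 𝕜 W} {S'' : Scale 𝕜 U}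

/-- the Rellich property of a scale (at every level) -/
def Rell (S : Scale 𝕜 V) : Prop :=
  ∀ s, ∀ ε > 0, ∃ F : V →ₗ[𝕜] V, SmFin S S F ∧ ∀ v, S.nrm s (v - F v) ≤ ε * S.nrm (s + 1) v


theorem opm_add {A B : V →ₗ[𝕜] W} (hA : Opm S S' A) (hB : Opm S S' B) : Opm S S' (A + B) := by
  intro s
  obtain ⟨C, hC⟩ := hA s
  obtain ⟨D, hD⟩ := hB s
  refine ⟨C + D, fun v => ?_⟩
  rw [LinearMap.add_apply, add_mul]
  exact (map_add_le_add _ _ _).trans (add_le_add (hC v) (hD v))

theorem opm_neg {A : V →ₗ[𝕜] W} (hA : Opm S S' A) : Opm S S' (-A) := by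
  intro s
  obtain ⟨C, hC⟩ := hA s
  exact ⟨C, fun v => by rw [LinearMap.neg_apply, map_neg_eq_map]; exact hC v⟩

theorem opm_sub {A B : V →ₗ[𝕜] W} (hA : Opm S S' A) (hB : Opm S S' B) : Opm S S' (A - B) := by
  rw [sub_eq_add_neg]; exact opm_add hA (opm_neg hB)

theorem opm_comp_left {A : W →ₗ[𝕜] U} {N : V →ₗ[𝕜] W} (hA : Op0 S' S'' A) (hN : Opm S S' N) :
    Opm S S'' (A ∘ₗ N) := by
  intro s
  obtain ⟨C, hC0, hC⟩ := exists_nonneg_const (hA (s + 1))
  obtain ⟨D, hD⟩ := hN s
  refine ⟨C * D, fun v => ?_⟩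
  rw [LinearMap.comp_apply, mul_assoc]
  exact (hC _).trans (mul_le_mul_of_nonneg_left (hD v) hC0)

theorem opm_comp_right {N : W →ₗ[𝕜] U} {A : V →ₗ[𝕜] W} (hN : Opm S' S'' N) (hA : Op0 S S' A) :
    Opm S S'' (N ∘ₗ A) := by
  intro s
  obtain ⟨C, hC0, hC⟩ := exists_nonneg_const (hN s)
  obtain ⟨D, hD⟩ := hA s
  refine ⟨C * D, fun v => ?_⟩
  rw [LinearMap.comp_apply, mul_assoc]
  exact (hC _).trans (mul_le_mul_of_nonneg_left (hD v) hC0)

/-- order `-1` operators are negligible on a Rellich scale -/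
theorem neg_of_opm {N : V →ₗ[𝕜] W} (hR : Rell S') (hN : Opm S S' N) : Neg S S' N := by
  refine ⟨hN, fun ε hε => ?_⟩
  obtain ⟨C, hC0, hC⟩ := exists_nonneg_const (hN 0)
  obtain ⟨F, hF, hF'⟩ := hR 0 (ε / (C + 1)) (by positivity)
  refine ⟨F ∘ₗ N, hF.comp_right hN.op0, fun v => ?_⟩
  rw [LinearMap.comp_apply]
  refine (hF' _).trans ((mul_le_mul_of_nonneg_left (hC v) (by positivity)).trans ?_)
  have h1 : ε / (C + 1) * C ≤ ε := by
    rw [div_mul_eq_mul_div, div_le_iff₀ (by positivity)]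
    nlinarith
  calc ε / (C + 1) * (C * S.nrm 0 v) = (ε / (C + 1) * C) * S.nrm 0 v := by ring
    _ ≤ ε * S.nrm 0 v := mul_le_mul_of_nonneg_right h1 (apply_nonneg _ _)

theorem rell_ran (hR : Rell S) {p : V →ₗ[𝕜] V} (hp0 : Op0 S S p) (hp : p ∘ₗ p = p) :
    Rell (S.ran hp0 hp) := by
  intro s ε hε
  obtain ⟨C, hC0, hC⟩ := exists_nonneg_const (hp0 s)
  obtain ⟨F, hF, hF'⟩ := hR s (ε / (C + 1)) (by positivity)
  refine ⟨corner p p F, ?_, fun v => ?_⟩
  · exact (SmFin.comp_left (op0_rangeRestrict hp0 hp) (hF.comp_right (op0_ran_subtype hp0 hp)))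
  · have e : ((v - corner p p F v : range p) : V) = p ((v : V) - F v) := by
      rw [map_sub, (mem_range_iff_of_idem hp _).1 v.2]; rfl
    change S.nrm s ((v - corner p p F v : range p) : V) ≤ ε * S.nrm (s + 1) v
    rw [e]
    refine (hC _).trans ((mul_le_mul_of_nonneg_left (hF' _) hC0).trans ?_)
    have h1 : C * (ε / (C + 1)) ≤ ε := by
      rw [mul_div_assoc', div_le_iff₀ (by positivity)]
      nlinarith
    calc C * (ε / (C + 1) * S.nrm (s + 1) v) = (C * (ε / (C + 1))) * S.nrm (s + 1) v := by ring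
      _ ≤ ε * S.nrm (s + 1) v := mul_le_mul_of_nonneg_right h1 (apply_nonneg _ _)

theorem rell_prod (hR : Rell S) (hR' : Rell S') : Rell (S.prod S') := by
  intro s ε hε
  obtain ⟨F, hF, hF'⟩ := hR s ε hε
  obtain ⟨G, hG, hG'⟩ := hR' s ε hε
  refine ⟨F.prodMap G, ?_, fun v => ?_⟩
  · rw [prodMap_eq]
    exact ((hF.comp_right op0_fst).comp_left op0_inl).add ((hG.comp_right op0_snd).comp_left op0_inr)
  · have h1 := hF' v.1
    have h2 := hG' v.2
    change S.nrm s (v.1 - F v.1) + S'.nrm s (v.2 - G v.2) ≤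
      ε * (S.nrm (s + 1) v.1 + S'.nrm (s + 1) v.2)
    linarith

/-- the shifted scale -/
def up (S : Scale 𝕜 V) : Scale 𝕜 V where
  nrm s := S.nrm (s + 1)
  mono s v := S.mono (s + 1) v
  eq_zero v h := S.eq_zero v (le_antisymm ((S.mono 0 v).trans h.le) (apply_nonneg _ _))
  complete u hu := by
    obtain ⟨v, hv⟩ := S.complete u (fun s ε hε => by
      obtain ⟨N, hN⟩ := hu s ε hε
      exact ⟨N, fun m hm n hn => (S.mono s _).trans_lt (hN m hm n hn)⟩)
    exact ⟨v, fun s ε hε => hv (s + 1) ε hε⟩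

@[simp] theorem up_nrm (S : Scale 𝕜 V) (s : ℕ) (v : V) : (up S).nrm s v = S.nrm (s + 1) v := rfl

theorem op0_up {A : V →ₗ[𝕜] W} (hA : Op0 S S' A) : Op0 (up S) (up S') A := fun s => hA (s + 1)

theorem opm_up {A : V →ₗ[𝕜] W} (hA : Opm S S' A) : Opm (up S) (up S') A := fun s => hA (s + 1)

theorem smFin_up {A : V →ₗ[𝕜] W} (hA : SmFin S S' A) : SmFin (up S) (up S') A := by
  refine ⟨hA.1, fun s => ?_⟩
  obtain ⟨C, hC0, hC⟩ := exists_nonneg_const (hA.2 (s + 1))
  exact ⟨C, fun v => (hC v).trans (mul_le_mul_of_nonneg_left (S.mono 0 v) hC0)⟩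

theorem rell_up (hR : Rell S) : Rell (up S) := by
  intro s ε hε
  obtain ⟨F, hF, hF'⟩ := hR (s + 1) ε hε
  exact ⟨F, smFin_up hF, hF'⟩

theorem isD_neg {T B : Module.End 𝕜 V} (h : IsD S T B) : IsD S (-T) (-B) :=
  ⟨by rw [neg_mul_neg]; exact h.TT, h.T0.neg, h.B0.neg, by rw [neg_mul_neg, h.TB, neg_mul_neg], by
    rw [neg_mul_neg]; exact h.BB⟩

theorem isD_up {T B : Module.End 𝕜 V} (h : IsD S T B) (hR : Rell S) : IsD (up S) T B :=
  ⟨h.TT, op0_up h.T0, op0_up h.B0, h.TB, neg_of_opm (rell_up hR) (opm_up h.BB.opm)⟩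

/-! ### finite powers -/

section pow

variable {N M L : Type} [Fintype N] [Fintype M] [Fintype L]

/-- the scale on `N → V` -/
def pw (N : Type) [Fintype N] (S : Scale 𝕜 V) : Scale 𝕜 (N → V) where
  nrm s := Seminorm.of (fun v => ∑ j, S.nrm s (v j))
    (fun v w => by
      rw [← Finset.sum_add_distrib]
      exact Finset.sum_le_sum fun j _ => map_add_le_add _ _ _)
    (fun c v => by
      rw [Finset.mul_sum]
      exact Finset.sum_congr rfl fun j _ => map_smul_eq_mul _ _ _)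
  mono s v := Finset.sum_le_sum fun j _ => S.mono s (v j)
  eq_zero v h := by
    have h1 : ∑ j, S.nrm 0 (v j) = 0 := h
    rw [Finset.sum_eq_zero_iff_of_nonneg fun j _ => apply_nonneg _ _] at h1
    exact funext fun j => S.eq_zero _ (h1 j (Finset.mem_univ j))
  complete u hu := by
    have h1 : ∀ j, ∃ v, ∀ s, ∀ ε > 0, ∃ n0, ∀ n ≥ n0, S.nrm s (u n j - v) < ε := by
      intro j
      refine S.complete (fun n => u n j) fun s ε hε => ?_
      obtain ⟨n0, h0⟩ := hu s ε hε
      refine ⟨n0, fun m hm n hn => lt_of_le_of_lt ?_ (h0 m hm n hn)⟩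
      exact Finset.single_le_sum (f := fun j => S.nrm s ((u m - u n) j))
        (fun j _ => apply_nonneg _ _) (Finset.mem_univ j)
    choose v hv using h1
    refine ⟨v, fun s ε hε => ?_⟩
    choose n0 h0 using fun j => hv j s (ε / (Fintype.card N + 1)) (by positivity)
    refine ⟨Finset.univ.sup n0, fun n hn => ?_⟩
    have h2 : ∀ j, S.nrm s ((u n - v) j) ≤ ε / (Fintype.card N + 1) := fun j =>
      (h0 j n ((Finset.le_sup (Finset.mem_univ j)).trans hn)).le
    calc ∑ j, S.nrm s ((u n - v) j) ≤ ∑ _ : N, ε / (Fintype.card N + 1) :=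
          Finset.sum_le_sum fun j _ => h2 j
      _ = Fintype.card N * (ε / (Fintype.card N + 1)) := by simp
      _ < ε := by
        rw [mul_div_assoc', div_lt_iff₀ (by positivity)]
        nlinarith

theorem pw_nrm (S : Scale 𝕜 V) (s : ℕ) (v : N → V) : (pw N S).nrm s v = ∑ j, S.nrm s (v j) := rfl

theorem le_pw (S : Scale 𝕜 V) (s : ℕ) (v : N → V) (j : N) :
    S.nrm s (v j) ≤ (pw N S).nrm s v :=
  Finset.single_le_sum (f := fun j => S.nrm s (v j)) (fun j _ => apply_nonneg _ _)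
    (Finset.mem_univ j)

/-- operators given by matrices of operators -/
def mop (X : M → N → (V →ₗ[𝕜] W)) : (N → V) →ₗ[𝕜] (M → W) where
  toFun v i := ∑ j, X i j (v j)
  map_add' v w := by ext i; simp [Finset.sum_add_distrib]
  map_smul' c v := by ext i; simp [Finset.smul_sum]

@[simp] theorem mop_apply (X : M → N → (V →ₗ[𝕜] W)) (v : N → V) (i : M) :
    mop X v i = ∑ j, X i j (v j) := rfl

theorem bound_mop {s t : ℕ} {X : M → N → (V →ₗ[𝕜] W)}
    (h : ∀ i j, ∃ C : ℝ, ∀ v, S'.nrm t (X i j v) ≤ C * S.nrm s v) :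
    ∃ C : ℝ, ∀ v, (pw M S').nrm t (mop X v) ≤ C * (pw N S).nrm s v := by
  have h' : ∀ i j, ∃ C : ℝ, 0 ≤ C ∧ ∀ v, S'.nrm t (X i j v) ≤ C * S.nrm s v := fun i j =>
    exists_nonneg_const (h i j)
  choose C hC0 hC using h'
  refine ⟨∑ i, ∑ j, C i j, fun v => ?_⟩
  rw [pw_nrm, Finset.sum_mul]
  refine Finset.sum_le_sum fun i _ => ?_
  rw [mop_apply, Finset.sum_mul]
  refine (Finset.le_sum_of_subadditive (S'.nrm t) (map_zero _).le (map_add_le_add _) _ _).trans ?_
  exact Finset.sum_le_sum fun j _ => (hC i j (v j)).trans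
    (mul_le_mul_of_nonneg_left (le_pw S s v j) (hC0 i j))

theorem op0_mop {X : M → N → (V →ₗ[𝕜] W)} (h : ∀ i j, Op0 S S' (X i j)) :
    Op0 (pw N S) (pw M S') (mop X) := fun s => bound_mop fun i j => h i j s

theorem opm_mop {X : M → N → (V →ₗ[𝕜] W)} (h : ∀ i j, Opm S S' (X i j)) :
    Opm (pw N S) (pw M S') (mop X) := fun s => bound_mop fun i j => h i j s

/-- entrywise action -/
def dg (N : Type) [Fintype N] (X : V →ₗ[𝕜] W) : (N → V) →ₗ[𝕜] (N → W) where
  toFun v i := X (v i)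
  map_add' v w := by ext i; simp
  map_smul' c v := by ext i; simp

@[simp] theorem dg_apply (X : V →ₗ[𝕜] W) (v : N → V) (i : N) : dg N X v i = X (v i) := rfl

theorem bound_dg {s t : ℕ} {X : V →ₗ[𝕜] W}
    (h : ∃ C : ℝ, ∀ v, S'.nrm t (X v) ≤ C * S.nrm s v) :
    ∃ C : ℝ, ∀ v, (pw N S').nrm t (dg N X v) ≤ C * (pw N S).nrm s v := by
  obtain ⟨C, hC⟩ := h
  refine ⟨C, fun v => ?_⟩
  rw [pw_nrm, pw_nrm, Finset.mul_sum]
  exact Finset.sum_le_sum fun i _ => hC (v i)

theorem op0_dg {X : V →ₗ[𝕜] W} (h : Op0 S S' X) : Op0 (pw N S) (pw N S') (dg N X) :=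
  fun s => bound_dg (h s)

theorem opm_dg {X : V →ₗ[𝕜] W} (h : Opm S S' X) : Opm (pw N S) (pw N S') (dg N X) :=
  fun s => bound_dg (h s)

/-- entrywise action with signs -/
def dgs (t : N → ℤˣ) (X : V →ₗ[𝕜] W) : (N → V) →ₗ[𝕜] (N → W) where
  toFun v i := t i • X (v i)
  map_add' v w := by ext i; simp
  map_smul' c v := by ext i; simp [smul_comm (t i) c]

@[simp] theorem dgs_apply (t : N → ℤˣ) (X : V →ₗ[𝕜] W) (v : N → V) (i : N) :
    dgs t X v i = t i • X (v i) := rfl

theorem nrm_units_smul (p : Seminorm 𝕜 V) (u : ℤˣ) (v : V) : p (u • v) = p v := by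
  rcases Int.units_eq_one_or u with h | h
  · rw [h, one_smul]
  · rw [h, Units.neg_smul, one_smul, map_neg_eq_map]

theorem op0_dgs (t : N → ℤˣ) {X : V →ₗ[𝕜] W} (h : Op0 S S' X) :
    Op0 (pw N S) (pw N S') (dgs t X) := by
  intro s
  obtain ⟨C, hC⟩ := h s
  refine ⟨C, fun v => ?_⟩
  rw [pw_nrm, pw_nrm, Finset.mul_sum]
  refine Finset.sum_le_sum fun i _ => ?_
  rw [dgs_apply, nrm_units_smul]
  exact hC (v i)

theorem rell_pw (hR : Rell S) : Rell (pw N S) := by
  intro s ε hε
  obtain ⟨F, hF, hF'⟩ := hR s ε hε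
  refine ⟨dg N F, ⟨?_, fun s => bound_dg (hF.2 s)⟩, fun v => ?_⟩
  · have h1 := hF.1
    have h2 : range (dg N F) ≤ Submodule.pi Set.univ (fun _ : N => range F) := by
      rintro _ ⟨v, rfl⟩ i _
      exact ⟨v i, rfl⟩
    have h3 : FiniteDimensional 𝕜 (Submodule.pi Set.univ (fun _ : N => range F)) := by
      let e : (Submodule.pi Set.univ (fun _ : N => range F)) →ₗ[𝕜] (N → range F) :=
        { toFun := fun x i => ⟨x.1 i, x.2 i (Set.mem_univ i)⟩
          map_add' := fun _ _ => rfl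
          map_smul' := fun _ _ => rfl }
      refine FiniteDimensional.of_injective e fun x y h => ?_
      apply Subtype.ext
      funext i
      exact congrArg Subtype.val (congrFun h i)
    exact Submodule.finiteDimensional_of_le h2
  · rw [pw_nrm, pw_nrm, Finset.mul_sum]
    exact Finset.sum_le_sum fun i _ => hF' (v i)

end pow

end opm

end Crest.Agent.R275.MI683
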