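import Mathlib
import Crest.Agent.R213.ParamInt
import Crest.Agent.R275.Dg2_199
import Crest.Agent.R275.ProdB_363
import Crest.Agent.R275.SmR_425
import Crest.Agent.R275.SmRP_425

-- ▼ part R275/NA4a_783
section

/-!
# R275, NA4 (helper783), part a: radial homotopy near the diagonal, local form

`Vert r d Z` : linear functionals `u j` (equations of the "diagonal"), vertical vectors `nv j`
               dual to them, base vectors `bv a` inside the diagonal.
`Fib r d V`  : fibre operators (exterior multiplications `ex a`, `e j`, contractions `io j`,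
               scaling `S s = s ^ N`, `N = ∑ e j io j`).
`JP D O m f` : `f` is on `O` a sum of `m`-fold products of the `u j` times smooth functions.
-/

set_option autoImplicit false
set_option linter.unusedSectionVars false
set_option linter.deprecated false

open Set Filter Topology Complex MeasureTheory
open scoped ContDiff ComplexConjugate

namespace Crest.Agent.R275.NA4783

noncomputable section

variable {Z V V' : Type} [NormedAddCommGroup Z] [NormedSpace ℂ Z] [NormedAddCommGroup V]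
  [NormedSpace ℂ V] [NormedAddCommGroup V'] [NormedSpace ℂ V']

/-- `∂̄` in direction `v` -/
def dbv (v : Z) (f : Z → V) (p : Z) : V :=
  (1 / 2 : ℂ) • (fderiv ℝ f p v + I • fderiv ℝ f p (I • v))

/-- `∂` in direction `v` -/
def dv (v : Z) (f : Z → V) (p : Z) : V :=
  (1 / 2 : ℂ) • (fderiv ℝ f p v - I • fderiv ℝ f p (I • v))

/-- real derivative from `∂`, `∂̄` -/
theorem fderiv_smul_eq (c : ℂ) (v : Z) (f : Z → V) (p : Z) :
    fderiv ℝ f p (c • v) = c • dv v f p + conj c • dbv v f p := by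
  have h1 : c • v = c.re • v + c.im • (I • v) := by
    conv_lhs => rw [← Complex.re_add_im c]
    rw [add_smul, mul_smul]
    rfl
  rw [h1, map_add, map_smul, map_smul, dv, dbv]
  set a := fderiv ℝ f p v
  set b := fderiv ℝ f p (I • v)
  have h2 : (c.re : ℂ) = (c + conj c) / 2 := by
    rw [Complex.add_conj]; push_cast; ring
  have h3 : (c.im : ℂ) = (c - conj c) / (2 * I) := by
    rw [Complex.sub_conj]; push_cast
    field_simp
  have h4 : c.re • a = (c.re : ℂ) • a := rfl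
  have h5 : c.im • b = (c.im : ℂ) • b := rfl
  rw [h4, h5, h2, h3]
  have h6 : (c - conj c) / (2 * I) = - (c * (1 / 2) * I) + conj c * (1 / 2) * I := by
    field_simp
    ring_nf
    rw [Complex.I_sq]; ring
  rw [h6]
  module

theorem dbv_congr {v : Z} {f g : Z → V} {p : Z} (h : f =ᶠ[𝓝 p] g) : dbv v f p = dbv v g p := by
  rw [dbv, dbv, h.fderiv_eq]




theorem dbv_sum {ι : Type} (s : Finset ι) {v : Z} {f : ι → Z → V} {p : Z}
    (hf : ∀ i ∈ s, DifferentiableAt ℝ (f i) p) :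
    dbv v (fun x => ∑ i ∈ s, f i x) p = ∑ i ∈ s, dbv v (f i) p := by
  simp only [dbv, fderiv_fun_sum hf, ContinuousLinearMap.sum_apply, Finset.smul_sum,
    ← Finset.sum_add_distrib, smul_add]


/-- constant fibre operators commute with `∂̄` -/
theorem dbv_clm {v : Z} (T : V →L[ℂ] V') {f : Z → V} {p : Z} (hf : DifferentiableAt ℝ f p) :
    dbv v (fun x => T (f x)) p = T (dbv v f p) := by
  have h : fderiv ℝ (fun x => T (f x)) p = (T.restrictScalars ℝ).comp (fderiv ℝ f p) :=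
    ((T.restrictScalars ℝ).hasFDerivAt.comp p hf.hasFDerivAt).fderiv
  simp only [dbv, h, ContinuousLinearMap.comp_apply, ContinuousLinearMap.coe_restrictScalars',
    map_smul, map_add]


theorem dbv_smul {v : Z} {c : Z → ℂ} {f : Z → V} {p : Z} (hc : DifferentiableAt ℝ c p)
    (hf : DifferentiableAt ℝ f p) :
    dbv v (fun x => c x • f x) p = c p • dbv v f p + dbv v c p • f p := by
  simp only [dbv, fderiv_fun_smul hc hf, ContinuousLinearMap.add_apply,
    ContinuousLinearMap.smul_apply, ContinuousLinearMap.smulRight_apply, smul_eq_mul]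
  module


theorem dbv_linear (v : Z) (l : Z →L[ℂ] ℂ) (p : Z) : dbv v (fun x => l x) p = 0 := by
  have h : fderiv ℝ (fun x => l x) p = l.restrictScalars ℝ :=
    (l.restrictScalars ℝ).hasFDerivAt.fderiv
  simp only [dbv, h, ContinuousLinearMap.coe_restrictScalars', map_smul, smul_eq_mul]
  rw [← mul_assoc, Complex.I_mul_I]; ring


theorem dbv_conj (v : Z) (l : Z →L[ℂ] ℂ) (p : Z) :
    dbv v (fun x => conj (l x)) p = conj (l v) := by
  have h : fderiv ℝ (fun x => conj (l x)) p =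
      (Complex.conjCLE : ℂ →L[ℝ] ℂ).comp (l.restrictScalars ℝ) :=
    ((Complex.conjCLE : ℂ →L[ℝ] ℂ).comp (l.restrictScalars ℝ)).hasFDerivAt.fderiv
  simp only [dbv, h, ContinuousLinearMap.comp_apply, ContinuousLinearMap.coe_restrictScalars',
    map_smul, smul_eq_mul]
  simp only [ContinuousLinearEquiv.coe_coe, Complex.conjCLE_apply, map_mul, Complex.conj_I]
  linear_combination (-(1 / 2) * conj (l v)) * Complex.I_mul_I

/-- equations of the diagonal, dual vertical vectors, base vectors -/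
structure Vert (r d : ℕ) (Z : Type) [NormedAddCommGroup Z] [NormedSpace ℂ Z] where
  u : Fin r → Z →L[ℂ] ℂ
  nv : Fin r → Z
  bv : Fin d → Z
  u_nv : ∀ j k, u j (nv k) = if j = k then 1 else 0
  u_bv : ∀ j a, u j (bv a) = 0

namespace Vert

variable {r d : ℕ} (D : Vert r d Z)

/-- vertical projection -/
def q : Z →L[ℂ] Z := ∑ j, (D.u j).smulRight (D.nv j)

theorem q_apply (p : Z) : D.q p = ∑ j, D.u j p • D.nv j := by
  simp [q]

theorem u_q (j : Fin r) (p : Z) : D.u j (D.q p) = D.u j p := by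
  rw [q_apply, map_sum]
  simp only [map_smul, D.u_nv, smul_eq_mul, mul_ite, mul_one, mul_zero]
  simp

theorem q_bv (a : Fin d) : D.q (D.bv a) = 0 := by
  rw [q_apply]; simp [D.u_bv]

theorem q_nv (j : Fin r) : D.q (D.nv j) = D.nv j := by
  rw [q_apply]; simp [D.u_nv]


/-- scaling of the vertical part -/
def ms (s : ℝ) : Z →L[ℂ] Z := ContinuousLinearMap.id ℂ Z - ((1 - s : ℝ) : ℂ) • D.q

theorem ms_apply (s : ℝ) (p : Z) : D.ms s p = p - ((1 - s : ℝ) : ℂ) • D.q p := by
  simp [ms]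

theorem ms_one (p : Z) : D.ms 1 p = p := by simp [ms_apply]

theorem u_ms (j : Fin r) (s : ℝ) (p : Z) : D.u j (D.ms s p) = (s : ℂ) * D.u j p := by
  rw [ms_apply, map_sub, map_smul, u_q, smul_eq_mul]; push_cast; ring

theorem ms_bv (s : ℝ) (a : Fin d) : D.ms s (D.bv a) = D.bv a := by
  rw [ms_apply, q_bv, smul_zero, sub_zero]

theorem ms_nv (s : ℝ) (j : Fin r) : D.ms s (D.nv j) = (s : ℂ) • D.nv j := by
  rw [ms_apply, q_nv]
  push_cast
  module


/-- `ms` as a smooth function of both variables -/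
theorem ms_contDiff : ContDiff ℝ ∞ (fun x : Z × ℝ => D.ms x.2 x.1) := by
  have h : (fun x : Z × ℝ => D.ms x.2 x.1) =
      fun x : Z × ℝ => x.1 - (1 - x.2) • (D.q.restrictScalars ℝ) x.1 := by
    funext x
    rw [ms_apply]; rfl
  rw [h]
  exact contDiff_fst.sub ((contDiff_const.sub contDiff_snd).smul
    ((D.q.restrictScalars ℝ).contDiff.comp contDiff_fst))

theorem ms_hasDerivAt (s : ℝ) (p : Z) : HasDerivAt (fun t : ℝ => D.ms t p) (D.q p) s := by
  have h : (fun t : ℝ => D.ms t p) = fun t : ℝ => p - (1 - t) • D.q p := by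
    funext t; rw [ms_apply]; rfl
  rw [h]
  have h1 : HasDerivAt (fun t : ℝ => p - (1 - t) • D.q p) (0 - (0 - 1 : ℝ) • D.q p) s :=
    (hasDerivAt_const s p).sub (((hasDerivAt_const s (1 : ℝ)).sub (hasDerivAt_id s)).smul_const _)
  convert h1 using 1
  module

/-- star shaped -/
def Star (O : Set Z) : Prop := ∀ p ∈ O, ∀ s ∈ Icc (0 : ℝ) 1, D.ms s p ∈ O

end Vert

variable {r d : ℕ}

/-- vanishing to order `m` along the diagonal, in the ideal sense -/
def JP (D : Vert r d Z) (O : Set Z) : ℕ → (Z → V) → Prop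
  | 0, f => ContDiffOn ℝ ∞ f O
  | m + 1, f => ∃ g : Fin r → Z → V, (∀ j, JP D O m (g j)) ∧ ∀ p ∈ O, f p = ∑ j, D.u j p • g j p

theorem u_smooth (D : Vert r d Z) (j : Fin r) : ContDiff ℝ ∞ (fun p => D.u j p) :=
  ((D.u j).restrictScalars ℝ).contDiff

theorem JP.smooth {D : Vert r d Z} {O : Set Z} {m : ℕ} {f : Z → V} (h : JP D O m f) :
    ContDiffOn ℝ ∞ f O := by
  induction m generalizing f with
  | zero => exact h
  | succ m ih =>
    obtain ⟨g, hg, hf⟩ := h
    refine ContDiffOn.congr ?_ hf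
    exact ContDiffOn.sum fun j _ => (u_smooth D j).contDiffOn.smul (ih (hg j))

theorem JP.congr {D : Vert r d Z} {O : Set Z} {m : ℕ} {f f' : Z → V} (h : JP D O m f)
    (hf : ∀ p ∈ O, f' p = f p) : JP D O m f' := by
  cases m with
  | zero => exact ContDiffOn.congr h hf
  | succ m =>
    obtain ⟨g, hg, h1⟩ := h
    exact ⟨g, hg, fun p hp => (hf p hp).trans (h1 p hp)⟩

theorem JP.mono {D : Vert r d Z} {O O' : Set Z} (hO : O' ⊆ O) {m : ℕ} {f : Z → V}
    (h : JP D O m f) : JP D O' m f := by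
  induction m generalizing f with
  | zero => exact ContDiffOn.mono h hO
  | succ m ih =>
    obtain ⟨g, hg, h1⟩ := h
    exact ⟨g, fun j => ih (hg j), fun p hp => h1 p (hO hp)⟩

theorem JP.zero (D : Vert r d Z) (O : Set Z) (m : ℕ) : JP D O m (fun _ => (0 : V)) := by
  induction m with
  | zero => exact contDiffOn_const
  | succ m ih => exact ⟨fun _ _ => 0, fun _ => ih, fun p _ => by simp⟩

theorem JP.add {D : Vert r d Z} {O : Set Z} {m : ℕ} {f f' : Z → V} (h : JP D O m f)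
    (h' : JP D O m f') : JP D O m (fun p => f p + f' p) := by
  induction m generalizing f f' with
  | zero => exact ContDiffOn.add h h'
  | succ m ih =>
    obtain ⟨g, hg, h1⟩ := h
    obtain ⟨g', hg', h1'⟩ := h'
    refine ⟨fun j p => g j p + g' j p, fun j => ih (hg j) (hg' j), fun p hp => ?_⟩
    beta_reduce
    rw [h1 p hp, h1' p hp, ← Finset.sum_add_distrib]
    simp only [smul_add]

theorem JP.sum {D : Vert r d Z} {O : Set Z} {m : ℕ} {ι : Type} (s : Finset ι) {f : ι → Z → V}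
    (h : ∀ i ∈ s, JP D O m (f i)) : JP D O m (fun p => ∑ i ∈ s, f i p) := by
  classical
  induction s using Finset.induction_on with
  | empty => simpa using JP.zero D O m
  | insert i s hi ih =>
    have := (h i (Finset.mem_insert_self i s)).add (ih fun j hj => h j (Finset.mem_insert_of_mem hj))
    refine this.congr fun p _ => ?_
    rw [Finset.sum_insert hi]

/-- multiplication by a smooth operator valued function -/
theorem JP.clm {D : Vert r d Z} {O : Set Z} {m : ℕ} {f : Z → V} (h : JP D O m f)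
    {T : Z → V →L[ℂ] V'} (hT : ContDiffOn ℝ ∞ T O) : JP D O m (fun p => T p (f p)) := by
  induction m generalizing f with
  | zero =>
    have h1 : ContDiffOn ℝ ∞ (fun p => (T p).restrictScalars ℝ) O :=
      (ContinuousLinearMap.restrictScalarsL ℂ V V' ℝ ℝ).contDiff.comp_contDiffOn hT
    exact ContDiffOn.clm_apply h1 h
  | succ m ih =>
    obtain ⟨g, hg, h1⟩ := h
    refine ⟨fun j p => T p (g j p), fun j => ih (hg j), fun p hp => ?_⟩
    beta_reduce
    rw [h1 p hp, map_sum]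
    simp only [map_smul]

theorem JP.smul {D : Vert r d Z} {O : Set Z} {m : ℕ} {f : Z → V} (h : JP D O m f)
    {c : Z → ℂ} (hc : ContDiffOn ℝ ∞ c O) : JP D O m (fun p => c p • f p) := by
  induction m generalizing f with
  | zero => exact hc.smul h
  | succ m ih =>
    obtain ⟨g, hg, h1⟩ := h
    refine ⟨fun j p => c p • g j p, fun j => ih (hg j), fun p hp => ?_⟩
    beta_reduce
    rw [h1 p hp, Finset.smul_sum]
    exact Finset.sum_congr rfl fun j _ => smul_comm _ _ _

theorem JP.const_clm {D : Vert r d Z} {O : Set Z} {m : ℕ} {f : Z → V} (h : JP D O m f)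
    (T : V →L[ℂ] V') : JP D O m (fun p => T (f p)) :=
  h.clm (T := fun _ => T) contDiffOn_const

theorem JP.neg {D : Vert r d Z} {O : Set Z} {m : ℕ} {f : Z → V} (h : JP D O m f) :
    JP D O m (fun p => - f p) := by
  refine (h.smul (c := fun _ => -1) contDiffOn_const).congr fun p _ => ?_
  simp

theorem JP.sub {D : Vert r d Z} {O : Set Z} {m : ℕ} {f f' : Z → V} (h : JP D O m f)
    (h' : JP D O m f') : JP D O m (fun p => f p - f' p) := by
  refine (h.add h'.neg).congr fun p _ => ?_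
  rw [sub_eq_add_neg]

theorem JP.mul_u {D : Vert r d Z} {O : Set Z} {m : ℕ} {f : Z → V} (h : JP D O m f) (j : Fin r) :
    JP D O (m + 1) (fun p => D.u j p • f p) := by
  refine ⟨fun k p => if k = j then f p else 0, fun k => ?_, fun p _ => ?_⟩
  · by_cases hk : k = j
    · simpa [hk] using h
    · simpa [hk] using JP.zero D O m
  · simp

theorem JP.pred {D : Vert r d Z} {O : Set Z} {m : ℕ} {f : Z → V} (h : JP D O (m + 1) f) :
    JP D O m f := by
  induction m generalizing f with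
  | zero => exact JP.smooth h
  | succ m ih =>
    obtain ⟨g, hg, h1⟩ := h
    exact ⟨g, fun j => ih (hg j), h1⟩

theorem JP.le {D : Vert r d Z} {O : Set Z} {m m' : ℕ} (hm : m' ≤ m) {f : Z → V}
    (h : JP D O m f) : JP D O m' f := by
  induction hm with
  | refl => exact h
  | step _ ih => exact ih h.pred

theorem smooth_fderiv_apply {O : Set Z} (hO : IsOpen O) {f : Z → V} (hf : ContDiffOn ℝ ∞ f O)
    (v : Z) : ContDiffOn ℝ ∞ (fun p => fderiv ℝ f p v) O :=
  (hf.fderiv_of_isOpen hO (m := ∞) (by simp)).clm_apply contDiffOn_const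

theorem smooth_dbv {O : Set Z} (hO : IsOpen O) {f : Z → V} (hf : ContDiffOn ℝ ∞ f O) (v : Z) :
    ContDiffOn ℝ ∞ (dbv v f) O :=
  ((smooth_fderiv_apply hO hf v).add ((smooth_fderiv_apply hO hf (I • v)).const_smul I)).const_smul _

theorem smooth_dv {O : Set Z} (hO : IsOpen O) {f : Z → V} (hf : ContDiffOn ℝ ∞ f O) (v : Z) :
    ContDiffOn ℝ ∞ (dv v f) O :=
  ((smooth_fderiv_apply hO hf v).sub ((smooth_fderiv_apply hO hf (I • v)).const_smul I)).const_smul _

theorem diff_at {O : Set Z} (hO : IsOpen O) {f : Z → V} (hf : ContDiffOn ℝ ∞ f O) {p : Z}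
    (hp : p ∈ O) : DifferentiableAt ℝ f p :=
  (hf.contDiffAt (hO.mem_nhds hp)).differentiableAt (by simp)

theorem dbv_u_sum (D : Vert r d Z) {g : Fin r → Z → V} {p : Z}
    (hg : ∀ j, DifferentiableAt ℝ (g j) p) (v : Z) :
    dbv v (fun x => ∑ j, D.u j x • g j x) p = ∑ j, D.u j p • dbv v (g j) p := by
  have hu : ∀ j, DifferentiableAt ℝ (fun x => D.u j x) p := fun j =>
    ((u_smooth D j).differentiable (by simp)) p
  rw [dbv_sum Finset.univ (f := fun j x => D.u j x • g j x) fun j _ => (hu j).smul (hg j)]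
  refine Finset.sum_congr rfl fun j _ => ?_
  rw [dbv_smul (hu j) (hg j), dbv_linear, zero_smul, add_zero]

/-- `∂̄` preserves the ideal powers -/
theorem JP.dbv {D : Vert r d Z} {O : Set Z} (hO : IsOpen O) {m : ℕ} {f : Z → V}
    (h : JP D O m f) (v : Z) : JP D O m (NA4783.dbv v f) := by
  induction m generalizing f with
  | zero => exact smooth_dbv hO h v
  | succ m ih =>
    obtain ⟨g, hg, h1⟩ := h
    refine ⟨fun j => NA4783.dbv v (g j), fun j => ih (hg j), fun p hp => ?_⟩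
    have h2 : f =ᶠ[𝓝 p] fun x => ∑ j, D.u j x • g j x := by
      filter_upwards [hO.mem_nhds hp] with x hx using h1 x hx
    rw [dbv_congr h2, dbv_u_sum D fun j => diff_at hO (hg j).smooth hp]

/-- weighted radial integral `∫₀¹ s^{-k} S(s) f(m_s p) ds` -/
def Iop (D : Vert r d Z) (S : ℝ → V →L[ℂ] V) (k : ℤ) (f : Z → V) (p : Z) : V :=
  ∫ s in (0 : ℝ)..1, (s ^ (-k) : ℝ) • S s (f (D.ms s p))

/-- integrand with a natural power -/
def itg (D : Vert r d Z) (S : ℝ → V →L[ℂ] V) (n : ℕ) (f : Z → V) (x : Z × ℝ) : V :=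
  x.2 ^ n • S x.2 (f (D.ms x.2 x.1))

theorem Iop_nat (D : Vert r d Z) (S : ℝ → V →L[ℂ] V) (n : ℕ) (f : Z → V) (p : Z) :
    Iop D S (-(n : ℤ)) f p = ∫ s in (0 : ℝ)..1, itg D S n f (p, s) := by
  unfold Iop itg
  simp

theorem itg_smooth {D : Vert r d Z} {S : ℝ → V →L[ℂ] V} (hS : ContDiff ℝ ∞ S) (n : ℕ)
    {f : Z → V} {O B : Set Z} (hst : D.Star O) (hB : B ⊆ O) (hf : ContDiffOn ℝ ∞ f O) :
    ContDiffOn ℝ ∞ (itg D S n f) (B ×ˢ Icc (0 : ℝ) 1) := by
  have h1 : ContDiff ℝ ∞ (fun x : Z × ℝ => (S x.2).restrictScalars ℝ) :=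
    (ContinuousLinearMap.restrictScalarsL ℂ V V ℝ ℝ).contDiff.comp (hS.comp contDiff_snd)
  have h2 : ContDiffOn ℝ ∞ (fun x : Z × ℝ => f (D.ms x.2 x.1)) (B ×ˢ Icc (0 : ℝ) 1) :=
    hf.comp D.ms_contDiff.contDiffOn (fun x hx => hst x.1 (hB hx.1) x.2 hx.2)
  exact (contDiff_snd.pow n).contDiffOn.smul (h1.contDiffOn.clm_apply h2)

theorem Iop_smooth [CompleteSpace V] {D : Vert r d Z} {S : ℝ → V →L[ℂ] V} (hS : ContDiff ℝ ∞ S)
    (n : ℕ) {f : Z → V} {O : Set Z} (hO : IsOpen O) (hst : D.Star O) (hf : ContDiffOn ℝ ∞ f O) :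
    ContDiffOn ℝ ∞ (Iop D S (-(n : ℤ)) f) O := by
  intro p hp
  obtain ⟨ε, hε, hB⟩ := Metric.isOpen_iff.1 hO p hp
  have h := R213.ParamInt.contDiffOn_param (convex_ball p ε) Metric.isOpen_ball.uniqueDiffOn
    zero_lt_one (itg_smooth hS n hst hB hf)
  have h2 : ContDiffOn ℝ ∞ (Iop D S (-(n : ℤ)) f) (Metric.ball p ε) :=
    h.congr fun x _ => Iop_nat D S n f x
  exact (h2.contDiffAt (Metric.ball_mem_nhds p hε)).contDiffWithinAt

/-- derivative of the integrand in `p` -/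
def itg' (D : Vert r d Z) (S : ℝ → V →L[ℂ] V) (n : ℕ) (f : Z → V) (x : Z × ℝ) : Z →L[ℝ] V :=
  x.2 ^ n • ((S x.2).restrictScalars ℝ).comp
    ((fderiv ℝ f (D.ms x.2 x.1)).comp ((D.ms x.2).restrictScalars ℝ))

theorem itg'_cont {D : Vert r d Z} {S : ℝ → V →L[ℂ] V} (hS : ContDiff ℝ ∞ S) (n : ℕ)
    {f : Z → V} {O B : Set Z} (hO : IsOpen O) (hst : D.Star O) (hB : B ⊆ O)
    (hf : ContDiffOn ℝ ∞ f O) :
    ContinuousOn (itg' D S n f) (B ×ˢ Icc (0 : ℝ) 1) := by
  have h1 : ContDiff ℝ ∞ (fun x : Z × ℝ => (S x.2).restrictScalars ℝ) :=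
    (ContinuousLinearMap.restrictScalarsL ℂ V V ℝ ℝ).contDiff.comp (hS.comp contDiff_snd)
  have h2 : ContDiffOn ℝ ∞ (fun x : Z × ℝ => fderiv ℝ f (D.ms x.2 x.1)) (B ×ˢ Icc (0 : ℝ) 1) :=
    (hf.fderiv_of_isOpen hO (m := ∞) (by simp)).comp D.ms_contDiff.contDiffOn
      (fun x hx => hst x.1 (hB hx.1) x.2 hx.2)
  have h3 : ContDiff ℝ ∞ (fun x : Z × ℝ => (D.ms x.2).restrictScalars ℝ) := by
    have e : (fun x : Z × ℝ => (D.ms x.2).restrictScalars ℝ) = fun x : Z × ℝ =>
        (ContinuousLinearMap.id ℝ Z) - (1 - x.2) • (D.q.restrictScalars ℝ) := by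
      funext x
      ext p
      simp only [ContinuousLinearMap.coe_restrictScalars', Vert.ms_apply]
      rfl
    rw [e]
    exact contDiff_const.sub ((contDiff_const.sub contDiff_snd).smul contDiff_const)
  exact ((contDiff_snd.pow n).contDiffOn.smul
    (h1.contDiffOn.clm_comp (h2.clm_comp h3.contDiffOn))).continuousOn

theorem Iop_hasFDerivAt [CompleteSpace V] {D : Vert r d Z} {S : ℝ → V →L[ℂ] V}
    (hS : ContDiff ℝ ∞ S) (n : ℕ) {f : Z → V} {O : Set Z} (hO : IsOpen O) (hst : D.Star O)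
    (hf : ContDiffOn ℝ ∞ f O) {p : Z} (hp : p ∈ O) :
    HasFDerivAt (Iop D S (-(n : ℤ)) f) (∫ s in (0 : ℝ)..1, itg' D S n f (p, s)) p := by
  obtain ⟨ε, hε, hB⟩ := Metric.isOpen_iff.1 hO p hp
  have h := R213.ParamInt.hasFDerivWithinAt_param (convex_ball p ε) zero_le_one
    (itg_smooth hS n hst hB hf).continuousOn (itg'_cont hS n hO hst hB hf) (by
      intro z hz s hs
      refine HasFDerivAt.hasFDerivWithinAt ?_
      have h1 : HasFDerivAt (fun y => D.ms s y) ((D.ms s).restrictScalars ℝ) z :=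
        ((D.ms s).restrictScalars ℝ).hasFDerivAt
      have h2 : HasFDerivAt f (fderiv ℝ f (D.ms s z)) (D.ms s z) :=
        (diff_at hO hf (hst z (hB hz) s hs)).hasFDerivAt
      have h3 := h2.comp z h1
      have h4 := ((S s).restrictScalars ℝ).hasFDerivAt.comp z h3
      exact h4.const_smul (s ^ n)) (Metric.mem_ball_self hε)
  have h2 : HasFDerivAt (fun z => ∫ s in (0 : ℝ)..1, itg D S n f (z, s))
      (∫ s in (0 : ℝ)..1, itg' D S n f (p, s)) p :=
    h.hasFDerivAt (Metric.ball_mem_nhds p hε)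
  exact h2.congr_of_eventuallyEq (Eventually.of_forall fun z => Iop_nat D S n f z)

theorem Iop_fderiv_apply [CompleteSpace V] {D : Vert r d Z} {S : ℝ → V →L[ℂ] V}
    (hS : ContDiff ℝ ∞ S) (n : ℕ) {f : Z → V} {O : Set Z} (hO : IsOpen O) (hst : D.Star O)
    (hf : ContDiffOn ℝ ∞ f O) {p : Z} (hp : p ∈ O) (v : Z) :
    fderiv ℝ (Iop D S (-(n : ℤ)) f) p v =
      ∫ s in (0 : ℝ)..1, s ^ n • S s (fderiv ℝ f (D.ms s p) (D.ms s v)) := by
  rw [(Iop_hasFDerivAt hS n hO hst hf hp).fderiv, ContinuousLinearMap.intervalIntegral_apply]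
  · rfl
  · have h := (itg'_cont hS n hO hst (B := {p}) (singleton_subset_iff.2 hp) hf)
    have h2 : ContinuousOn (fun s => itg' D S n f (p, s)) (Icc 0 1) :=
      h.comp (by fun_prop) fun s hs => ⟨rfl, hs⟩
    exact h2.intervalIntegrable_of_Icc zero_le_one

theorem dbv_real_smul (s : ℝ) (v : Z) (f : Z → V) (p : Z) :
    dbv ((s : ℂ) • v) f p = s • dbv v f p := by
  have h1 : ((s : ℂ) • v : Z) = s • v := rfl
  have h2 : (I • (s : ℂ) • v : Z) = s • (I • v) := by rw [smul_comm]; rfl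
  rw [dbv, dbv, h2, h1, map_smul, map_smul, smul_comm I s, ← smul_add, smul_comm]

theorem Iop_dbv_nat [CompleteSpace V] {D : Vert r d Z} {S : ℝ → V →L[ℂ] V}
    (hS : ContDiff ℝ ∞ S) (n : ℕ) {f : Z → V} {O : Set Z} (hO : IsOpen O) (hst : D.Star O)
    (hf : ContDiffOn ℝ ∞ f O) {p : Z} (hp : p ∈ O) (v : Z) :
    dbv v (Iop D S (-(n : ℤ)) f) p =
      ∫ s in (0 : ℝ)..1, s ^ n • S s (dbv (D.ms s v) f (D.ms s p)) := by
  have hint : ∀ w : Z, IntervalIntegrable
      (fun s => s ^ n • S s (fderiv ℝ f (D.ms s p) (D.ms s w))) volume 0 1 := by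
    intro w
    have h := (itg'_cont hS n hO hst (B := {p}) (singleton_subset_iff.2 hp) hf)
    have h2 : ContinuousOn (fun s => itg' D S n f (p, s)) (Icc 0 1) :=
      h.comp (by fun_prop) fun s hs => ⟨rfl, hs⟩
    have h3 : ContinuousOn (fun s => itg' D S n f (p, s) w) (Icc 0 1) :=
      h2.clm_apply continuousOn_const
    exact h3.intervalIntegrable_of_Icc zero_le_one
  rw [dbv, Iop_fderiv_apply hS n hO hst hf hp, Iop_fderiv_apply hS n hO hst hf hp]
  set A : ℝ → V := fun s => s ^ n • S s (fderiv ℝ f (D.ms s p) (D.ms s v)) with hA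
  set B : ℝ → V := fun s => s ^ n • S s (fderiv ℝ f (D.ms s p) (D.ms s (I • v))) with hB
  have e : ∀ s, s ^ n • S s (dbv (D.ms s v) f (D.ms s p)) = (1 / 2 : ℂ) • (A s + I • B s) := by
    intro s
    simp only [dbv, map_smul, map_add, hA, hB]
    have h1 : ∀ a : V, I • (s ^ n • S s a) = s ^ n • (I • S s a) := fun a => smul_comm _ _ _
    rw [h1, ← smul_add, smul_comm]
  have hI : IntervalIntegrable (fun s => I • B s) volume 0 1 := (hint (I • v)).smul I
  have hAi : IntervalIntegrable A volume 0 1 := hint v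
  calc (1 / 2 : ℂ) • ((∫ s in (0 : ℝ)..1, A s) + I • ∫ s in (0 : ℝ)..1, B s)
      = (1 / 2 : ℂ) • ((∫ s in (0 : ℝ)..1, A s) + ∫ s in (0 : ℝ)..1, I • B s) := by
        rw [intervalIntegral.integral_smul]
    _ = ∫ s in (0 : ℝ)..1, (1 / 2 : ℂ) • (A s + I • B s) := by
        rw [← intervalIntegral.integral_add hAi hI, ← intervalIntegral.integral_smul]
    _ = _ := by simp only [e]

theorem Iop_dbv_c_nat [CompleteSpace V] {D : Vert r d Z} {S : ℝ → V →L[ℂ] V}
    (hS : ContDiff ℝ ∞ S) (n c : ℕ) {f : Z → V} {O : Set Z} (hO : IsOpen O) (hst : D.Star O)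
    (hf : ContDiffOn ℝ ∞ f O) {p : Z} (hp : p ∈ O) {v : Z}
    (hv : ∀ s : ℝ, D.ms s v = ((s ^ c : ℝ) : ℂ) • v) :
    dbv v (Iop D S (-(n : ℤ)) f) p = Iop D S (-((n + c : ℕ) : ℤ)) (dbv v f) p := by
  rw [Iop_dbv_nat hS n hO hst hf hp, Iop_nat]
  refine intervalIntegral.integral_congr fun s _ => ?_
  simp only [itg, hv, dbv_real_smul]
  have h : S s (s ^ c • dbv v f (D.ms s p)) = s ^ c • S s (dbv v f (D.ms s p)) :=
    ((S s).restrictScalars ℝ).map_smul (s ^ c) (dbv v f (D.ms s p))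
  rw [h, smul_smul, pow_add]

/-! ### general order -/

/-- pointwise form of the order shift -/
theorem shift_pw (D : Vert r d Z) (S : ℝ → V →L[ℂ] V) (k : ℤ) (g : Fin r → Z → V) (p : Z)
    {s : ℝ} (hs : s ≠ 0) :
    (s ^ (-k) : ℝ) • S s (∑ j, D.u j (D.ms s p) • g j (D.ms s p)) =
      ∑ j, D.u j p • ((s ^ (-(k - 1)) : ℝ) • S s (g j (D.ms s p))) := by
  rw [map_sum, Finset.smul_sum]
  refine Finset.sum_congr rfl fun j _ => ?_
  rw [map_smul, D.u_ms, mul_smul]
  have h1 : ((s : ℂ) • D.u j p • S s (g j (D.ms s p)) : V) =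
      s • D.u j p • S s (g j (D.ms s p)) := rfl
  have h2 : (s ^ (-(k - 1)) : ℝ) = s ^ (-k) * s := by
    rw [neg_sub, sub_eq_add_neg, add_comm, zpow_add₀ hs, zpow_one]
  rw [h1, smul_smul, h2, smul_comm]

/-- integrability of the radial integrand -/
def IntInt (D : Vert r d Z) (S : ℝ → V →L[ℂ] V) (k : ℤ) (f : Z → V) (p : Z) : Prop :=
  IntervalIntegrable (fun s : ℝ => (s ^ (-k) : ℝ) • S s (f (D.ms s p))) volume 0 1

theorem intInt_JP {D : Vert r d Z} {S : ℝ → V →L[ℂ] V} (hS : ContDiff ℝ ∞ S) {O : Set Z}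
    (hst : D.Star O) {m : ℕ} {f : Z → V} (hf : JP D O m f) {k : ℤ} (hk : k ≤ m) {p : Z}
    (hp : p ∈ O) : IntInt D S k f p := by
  induction m generalizing f k with
  | zero =>
    obtain ⟨n, hn⟩ : ∃ n : ℕ, k = -(n : ℤ) := ⟨(-k).toNat, by
      have : 0 ≤ -k := by simpa using hk
      omega⟩
    subst hn
    have h := (itg_smooth hS n hst (singleton_subset_iff.2 hp) hf).continuousOn
    have h2 : ContinuousOn (fun s => itg D S n f (p, s)) (Icc 0 1) :=
      h.comp (by fun_prop) fun s hs => ⟨rfl, hs⟩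
    have h3 := h2.intervalIntegrable_of_Icc (μ := volume) zero_le_one
    unfold IntInt
    simpa [itg] using h3
  | succ m ih =>
    obtain ⟨g, hg, h1⟩ := hf
    have h2 : IntervalIntegrable (fun s : ℝ => ∑ j, D.u j p •
        ((s ^ (-(k - 1)) : ℝ) • S s (g j (D.ms s p)))) volume 0 1 := by
      have h3 : ∀ j ∈ (Finset.univ : Finset (Fin r)), IntervalIntegrable (fun s : ℝ => D.u j p •
          ((s ^ (-(k - 1)) : ℝ) • S s (g j (D.ms s p)))) volume 0 1 := fun j _ =>
        (ih (hg j) (k := k - 1) (by push_cast at hk; omega)).smul (D.u j p)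
      have h4 := IntervalIntegrable.sum Finset.univ h3
      refine h4.congr fun s _ => ?_
      simp only [Finset.sum_apply]
    refine h2.congr_ae ?_
    rw [uIoc_of_le zero_le_one]
    refine (ae_restrict_iff' measurableSet_Ioc).2 (Eventually.of_forall fun s hs => ?_)
    beta_reduce
    rw [h1 _ (hst p hp s (Ioc_subset_Icc_self hs)), shift_pw D S k g p hs.1.ne']

theorem Iop_congr {D : Vert r d Z} {S : ℝ → V →L[ℂ] V} {O : Set Z} (hst : D.Star O)
    {f f' : Z → V} (h : ∀ x ∈ O, f x = f' x) {p : Z} (hp : p ∈ O) (k : ℤ) :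
    Iop D S k f p = Iop D S k f' p := by
  refine intervalIntegral.integral_congr fun s hs => ?_
  rw [uIcc_of_le zero_le_one] at hs
  rw [h _ (hst p hp s hs)]

theorem Iop_shift {D : Vert r d Z} {S : ℝ → V →L[ℂ] V} (hS : ContDiff ℝ ∞ S) {O : Set Z}
    (hst : D.Star O) {m : ℕ} {g : Fin r → Z → V} (hg : ∀ j, JP D O m (g j)) {k : ℤ}
    (hk : k ≤ (m + 1 : ℕ)) {p : Z} (hp : p ∈ O) :
    Iop D S k (fun x => ∑ j, D.u j x • g j x) p = ∑ j, D.u j p • Iop D S (k - 1) (g j) p := by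
  have h1 : Iop D S k (fun x => ∑ j, D.u j x • g j x) p =
      ∫ s in (0 : ℝ)..1, ∑ j, D.u j p • ((s ^ (-(k - 1)) : ℝ) • S s (g j (D.ms s p))) := by
    refine intervalIntegral.integral_congr_ae (Eventually.of_forall fun s hs => ?_)
    rw [uIoc_of_le zero_le_one] at hs
    exact shift_pw D S k g p hs.1.ne'
  rw [h1, intervalIntegral.integral_finset_sum]
  · refine Finset.sum_congr rfl fun j _ => ?_
    rw [intervalIntegral.integral_smul]; rfl
  · intro j _
    exact (intInt_JP hS hst (hg j) (k := k - 1) (by push_cast at hk; omega) hp).smul (D.u j p)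

theorem Iop_JP [CompleteSpace V] {D : Vert r d Z} {S : ℝ → V →L[ℂ] V} (hS : ContDiff ℝ ∞ S)
    {O : Set Z} (hO : IsOpen O) (hst : D.Star O) {m : ℕ} {f : Z → V} (hf : JP D O m f) {k : ℤ}
    (hk : k ≤ m) : JP D O m (Iop D S k f) := by
  induction m generalizing f k with
  | zero =>
    obtain ⟨n, hn⟩ : ∃ n : ℕ, k = -(n : ℤ) := ⟨(-k).toNat, by
      have : 0 ≤ -k := by simpa using hk
      omega⟩
    subst hn
    exact Iop_smooth hS n hO hst hf
  | succ m ih =>
    obtain ⟨g, hg, h1⟩ := hf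
    refine ⟨fun j => Iop D S (k - 1) (g j), fun j => ih (hg j) (by push_cast at hk; omega),
      fun p hp => ?_⟩
    rw [Iop_congr hst h1 hp, Iop_shift hS hst hg hk hp]

/-- `∂̄` of the radial integral -/
theorem Iop_dbv [CompleteSpace V] {D : Vert r d Z} {S : ℝ → V →L[ℂ] V} (hS : ContDiff ℝ ∞ S)
    {O : Set Z} (hO : IsOpen O) (hst : D.Star O) {m : ℕ} {f : Z → V} (hf : JP D O m f) {k : ℤ}
    (hk : k ≤ m) {p : Z} (hp : p ∈ O) {v : Z} (c : ℕ)
    (hv : ∀ s : ℝ, D.ms s v = ((s ^ c : ℝ) : ℂ) • v) :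
    dbv v (Iop D S k f) p = Iop D S (k - c) (dbv v f) p := by
  induction m generalizing f k p with
  | zero =>
    obtain ⟨n, hn⟩ : ∃ n : ℕ, k = -(n : ℤ) := ⟨(-k).toNat, by
      have : 0 ≤ -k := by simpa using hk
      omega⟩
    subst hn
    rw [Iop_dbv_c_nat hS n c hO hst hf hp hv]
    congr 1
    push_cast; ring
  | succ m ih =>
    obtain ⟨g, hg, h1⟩ := hf
    have hk' : k - 1 ≤ (m : ℤ) := by push_cast at hk; omega
    have h2 : Iop D S k f =ᶠ[𝓝 p] fun x => ∑ j, D.u j x • Iop D S (k - 1) (g j) x := by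
      filter_upwards [hO.mem_nhds hp] with x hx
      rw [Iop_congr hst h1 hx, Iop_shift hS hst hg hk hx]
    have h3 : ∀ x ∈ O, dbv v f x = ∑ j, D.u j x • dbv v (g j) x := by
      intro x hx
      have h4 : f =ᶠ[𝓝 x] fun y => ∑ j, D.u j y • g j y := by
        filter_upwards [hO.mem_nhds hx] with y hy using h1 y hy
      rw [dbv_congr h4, dbv_u_sum D fun j => diff_at hO (hg j).smooth hx]
    rw [dbv_congr h2, dbv_u_sum D fun j => diff_at hO (Iop_JP hS hO hst (hg j) hk').smooth hp,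
      Iop_congr hst h3 hp, Iop_shift hS hst (fun j => (hg j).dbv hO v) (by omega) hp]
    refine Finset.sum_congr rfl fun j _ => ?_
    rw [ih (hg j) hk' hp]
    congr 2
    ring

/-- fibre operators -/
structure Fib (r d : ℕ) (V : Type) [NormedAddCommGroup V] [NormedSpace ℂ V] where
  ex : Fin d → V →L[ℂ] V
  e : Fin r → V →L[ℂ] V
  io : Fin r → V →L[ℂ] V
  S : ℝ → V →L[ℂ] V
  ei : ∀ j k v, e j (io k v) + io k (e j v) = if j = k then v else 0
  exi : ∀ a j v, ex a (io j v) + io j (ex a v) = 0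
  S_smooth : ContDiff ℝ ∞ S
  S_one : ∀ v, S 1 v = v
  S_ex : ∀ s a v, S s (ex a v) = ex a (S s v)
  S_e : ∀ s j v, S s (e j v) = s • e j (S s v)
  S_der : ∀ s v, HasDerivAt (fun t => S t v) (∑ j, e j (S s (io j v))) s

section homotopy

variable [CompleteSpace V] (D : Vert r d Z) (F : Fib r d V)

/-- `∂̄` on fibre valued functions in adapted coordinates -/
def Dbar (f : Z → V) (p : Z) : V :=
  ∑ a, F.ex a (dbv (D.bv a) f p) + ∑ j, F.e j (dbv (D.nv j) f p)

/-- the radial homotopy -/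
def Kop (k : ℤ) (f : Z → V) (p : Z) : V :=
  ∑ j, conj (D.u j p) • Iop D F.S k (fun x => F.io j (f x)) p

variable {D F}

theorem JP.Dbar {O : Set Z} (hO : IsOpen O) {m : ℕ} {f : Z → V} (hf : JP D O m f) :
    JP D O m (Dbar D F f) := by
  refine JP.add (JP.sum _ fun a _ => (hf.dbv hO _).const_clm _)
    (JP.sum _ fun a _ => (hf.dbv hO _).const_clm _)

theorem conj_u_smooth (D : Vert r d Z) (j : Fin r) : ContDiff ℝ ∞ (fun p => conj (D.u j p)) :=
  (Complex.conjCLE : ℂ →L[ℝ] ℂ).contDiff.comp (u_smooth D j)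

theorem Kop_JP {O : Set Z} (hO : IsOpen O) (hst : D.Star O) {m : ℕ} {f : Z → V}
    (hf : JP D O m f) {k : ℤ} (hk : k ≤ m) : JP D O m (Kop D F k f) :=
  JP.sum _ fun j _ => (Iop_JP F.S_smooth hO hst (hf.const_clm (F.io j)) hk).smul
    (conj_u_smooth D j).contDiffOn

theorem Kop_congr {O : Set Z} (hst : D.Star O) {f f' : Z → V} (h : ∀ x ∈ O, f x = f' x) {p : Z}
    (hp : p ∈ O) (k : ℤ) : Kop D F k f p = Kop D F k f' p := by
  refine Finset.sum_congr rfl fun j _ => ?_
  rw [Iop_congr hst (f' := fun x => F.io j (f' x)) (fun x hx => by rw [h x hx]) hp]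

theorem Kop_shift {O : Set Z} (hst : D.Star O) {m : ℕ} {g : Fin r → Z → V}
    (hg : ∀ j, JP D O m (g j)) {k : ℤ} (hk : k ≤ (m + 1 : ℕ)) {p : Z} (hp : p ∈ O) :
    Kop D F k (fun x => ∑ j, D.u j x • g j x) p = ∑ j, D.u j p • Kop D F (k - 1) (g j) p := by
  have h1 : ∀ l : Fin r, Iop D F.S k (fun x => F.io l (∑ j, D.u j x • g j x)) p =
      ∑ j, D.u j p • Iop D F.S (k - 1) (fun x => F.io l (g j x)) p := by
    intro l
    rw [← Iop_shift F.S_smooth hst (fun j => (hg j).const_clm (F.io l)) hk hp]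
    refine Iop_congr hst (fun x _ => ?_) hp k
    rw [map_sum]
    simp only [map_smul]
  simp only [Kop, h1, Finset.smul_sum]
  rw [Finset.sum_comm]
  refine Finset.sum_congr rfl fun j _ => Finset.sum_congr rfl fun l _ => smul_comm _ _ _

theorem Iop_add {S : ℝ → V →L[ℂ] V} {k : ℤ} {f g : Z → V} {p : Z} (hf : IntInt D S k f p)
    (hg : IntInt D S k g p) :
    Iop D S k (fun x => f x + g x) p = Iop D S k f p + Iop D S k g p := by
  unfold Iop
  rw [← intervalIntegral.integral_add hf hg]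
  simp only [map_add, smul_add]

theorem Iop_sum {ι : Type} (t : Finset ι) {S : ℝ → V →L[ℂ] V} {k : ℤ} {f : ι → Z → V} {p : Z}
    (hf : ∀ i ∈ t, IntInt D S k (f i) p) :
    Iop D S k (fun x => ∑ i ∈ t, f i x) p = ∑ i ∈ t, Iop D S k (f i) p := by
  unfold Iop
  rw [← intervalIntegral.integral_finset_sum hf]
  simp only [map_sum, Finset.smul_sum]

/-- base exterior multiplications pass through the radial integral -/
theorem ex_Iop {k : ℤ} {f : Z → V} {p : Z} (hf : IntInt D F.S k f p) (a : Fin d) :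
    F.ex a (Iop D F.S k f p) = Iop D F.S k (fun x => F.ex a (f x)) p := by
  unfold Iop
  rw [← ContinuousLinearMap.intervalIntegral_comp_comm _ hf]
  refine intervalIntegral.integral_congr fun s _ => ?_
  simp only [F.S_ex]
  exact ((F.ex a).restrictScalars ℝ).map_smul _ _

/-- vertical exterior multiplications pass through with a shift -/
theorem e_Iop {k : ℤ} {f : Z → V} {p : Z} (hf : IntInt D F.S (k - 1) f p) (j : Fin r) :
    F.e j (Iop D F.S (k - 1) f p) = Iop D F.S k (fun x => F.e j (f x)) p := by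
  unfold Iop
  rw [← ContinuousLinearMap.intervalIntegral_comp_comm _ hf]
  refine intervalIntegral.integral_congr_ae (Eventually.of_forall fun s hs => ?_)
  rw [uIoc_of_le zero_le_one] at hs
  have h1 : F.e j ((s ^ (-(k - 1)) : ℝ) • F.S s (f (D.ms s p))) =
      (s ^ (-(k - 1)) : ℝ) • F.e j (F.S s (f (D.ms s p))) :=
    ((F.e j).restrictScalars ℝ).map_smul _ _
  have h2 : (s ^ (-(k - 1)) : ℝ) = s ^ (-k) * s := by
    rw [neg_sub, sub_eq_add_neg, add_comm, zpow_add₀ hs.1.ne', zpow_one]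
  rw [h1, F.S_e, smul_smul, h2]

/-- fundamental theorem of calculus along the rays -/
theorem ray_ftc {O : Set Z} (hO : IsOpen O) (hst : D.Star O) {f : Z → V}
    (hf : ContDiffOn ℝ ∞ f O) {p : Z} (hp : p ∈ O) :
    f p - F.S 0 (f (D.ms 0 p)) = ∫ s in (0 : ℝ)..1,
      ((∑ j, F.e j (F.S s (F.io j (f (D.ms s p))))) +
        F.S s (∑ j, (D.u j p • dv (D.nv j) f (D.ms s p) +
          conj (D.u j p) • dbv (D.nv j) f (D.ms s p)))) := by
  have hd : ∀ s ∈ Icc (0 : ℝ) 1, HasDerivAt (fun t => F.S t (f (D.ms t p)))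
      ((∑ j, F.e j (F.S s (F.io j (f (D.ms s p))))) +
        F.S s (∑ j, (D.u j p • dv (D.nv j) f (D.ms s p) +
          conj (D.u j p) • dbv (D.nv j) f (D.ms s p)))) s := by
    intro s hs
    have h1 : HasDerivAt (fun t => f (D.ms t p)) (fderiv ℝ f (D.ms s p) (D.q p)) s :=
      (diff_at hO hf (hst p hp s hs)).hasFDerivAt.comp_hasDerivAt s (D.ms_hasDerivAt s p)
    have h2 : HasDerivAt F.S (deriv F.S s) s :=
      ((F.S_smooth.differentiable (by simp)) s).hasDerivAt
    have h2' : HasDerivAt (fun t => (F.S t).restrictScalars ℝ)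
        ((deriv F.S s).restrictScalars ℝ) s :=
      (ContinuousLinearMap.restrictScalarsL ℂ V V ℝ ℝ).hasFDerivAt.comp_hasDerivAt s h2
    have h3 := h2'.clm_apply h1
    have h4 : (deriv F.S s) (f (D.ms s p)) = ∑ j, F.e j (F.S s (F.io j (f (D.ms s p)))) := by
      have h5 : HasDerivAt (fun t => F.S t (f (D.ms s p))) ((deriv F.S s) (f (D.ms s p))) s := by
        have := h2'.clm_apply (hasDerivAt_const s (f (D.ms s p)))
        simpa using this
      exact h5.unique (F.S_der s _)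
    have h6 : fderiv ℝ f (D.ms s p) (D.q p) = ∑ j, (D.u j p • dv (D.nv j) f (D.ms s p) +
          conj (D.u j p) • dbv (D.nv j) f (D.ms s p)) := by
      rw [D.q_apply, map_sum]
      exact Finset.sum_congr rfl fun j _ => fderiv_smul_eq _ _ _ _
    rw [← h4, ← h6]
    exact h3
  have hcont : ContinuousOn (fun s => ((∑ j, F.e j (F.S s (F.io j (f (D.ms s p))))) +
        F.S s (∑ j, (D.u j p • dv (D.nv j) f (D.ms s p) +
          conj (D.u j p) • dbv (D.nv j) f (D.ms s p))))) (Icc 0 1) := by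
    have hm : ContinuousOn (fun s : ℝ => D.ms s p) (Icc 0 1) :=
      (D.ms_contDiff.continuous.comp (by fun_prop : Continuous fun s : ℝ => (p, s))).continuousOn
    have hmaps : MapsTo (fun s : ℝ => D.ms s p) (Icc 0 1) O := fun s hs => hst p hp s hs
    have hS : ContinuousOn F.S (Icc 0 1) := F.S_smooth.continuous.continuousOn
    refine ContinuousOn.add (continuousOn_finset_sum _ fun j _ => ?_) (hS.clm_apply
      (continuousOn_finset_sum _ fun j _ => ?_))
    · exact (F.e j).continuous.comp_continuousOn (hS.clm_apply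
        ((F.io j).continuous.comp_continuousOn (hf.continuousOn.comp hm hmaps)))
    · exact ((continuousOn_const).smul ((smooth_dv hO hf _).continuousOn.comp hm hmaps)).add
        ((continuousOn_const).smul ((smooth_dbv hO hf _).continuousOn.comp hm hmaps))
  rw [intervalIntegral.integral_eq_sub_of_hasDerivAt_of_le zero_le_one (fun s hs =>
    (hd s hs).continuousAt.continuousWithinAt) (fun s hs => hd s (Ioo_subset_Icc_self hs))
    (hcont.intervalIntegrable_of_Icc zero_le_one), F.S_one, D.ms_one]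

/-- `∂̄` of the homotopy in one direction -/
theorem Kop_dbv {O : Set Z} (hO : IsOpen O) (hst : D.Star O) {m : ℕ} {f : Z → V}
    (hf : JP D O m f) {k : ℤ} (hk : k ≤ m) {p : Z} (hp : p ∈ O) {v : Z} (c : ℕ)
    (hv : ∀ s : ℝ, D.ms s v = ((s ^ c : ℝ) : ℂ) • v) :
    dbv v (Kop D F k f) p = ∑ j, (conj (D.u j p) • Iop D F.S (k - c) (fun x => F.io j (dbv v f x)) p
      + conj (D.u j v) • Iop D F.S k (fun x => F.io j (f x)) p) := by
  have hI : ∀ j, JP D O m (Iop D F.S k (fun x => F.io j (f x))) := fun j =>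
    Iop_JP F.S_smooth hO hst (hf.const_clm (F.io j)) hk
  have hu : ∀ j, DifferentiableAt ℝ (fun x => conj (D.u j x)) p := fun j =>
    ((conj_u_smooth D j).differentiable (by simp)) p
  have h0 : dbv v (Kop D F k f) p = dbv v (fun x => ∑ j, conj (D.u j x) •
    Iop D F.S k (fun x => F.io j (f x)) x) p := rfl
  rw [h0, dbv_sum Finset.univ (f := fun j x => conj (D.u j x) •
    Iop D F.S k (fun x => F.io j (f x)) x) fun j _ => (hu j).smul (diff_at hO (hI j).smooth hp)]
  refine Finset.sum_congr rfl fun j _ => ?_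
  rw [dbv_smul (hu j) (diff_at hO (hI j).smooth hp), dbv_conj,
    Iop_dbv F.S_smooth hO hst (hf.const_clm (F.io j)) hk hp c hv]
  congr 2
  exact Iop_congr hst (fun x hx => dbv_clm (F.io j) (diff_at hO hf.smooth hx)) hp _

theorem ms_bv_pow (D : Vert r d Z) (a : Fin d) (s : ℝ) :
    D.ms s (D.bv a) = ((s ^ 0 : ℝ) : ℂ) • D.bv a := by
  rw [D.ms_bv]; simp

theorem ms_nv_pow (D : Vert r d Z) (j : Fin r) (s : ℝ) :
    D.ms s (D.nv j) = ((s ^ 1 : ℝ) : ℂ) • D.nv j := by
  rw [D.ms_nv]; simp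

/-- the homotopy identity in order zero -/
theorem hom0 {O : Set Z} (hO : IsOpen O) (hst : D.Star O) {f : Z → V}
    (hf : ContDiffOn ℝ ∞ f O) {p : Z} (hp : p ∈ O) :
    Dbar D F (Kop D F 0 f) p + Kop D F 0 (Dbar D F f) p =
      f p - F.S 0 (f (D.ms 0 p)) - ∑ j, D.u j p • Iop D F.S 0 (dv (D.nv j) f) p := by
  have hf0 : JP D O 0 f := hf
  have hint0 : ∀ {g : Z → V}, ContDiffOn ℝ ∞ g O → IntInt D F.S 0 g p := fun hg =>
    intInt_JP F.S_smooth hst (m := 0) hg (by simp) hp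
  have hint1 : ∀ {g : Z → V}, ContDiffOn ℝ ∞ g O → IntInt D F.S (0 - 1) g p := fun hg =>
    intInt_JP F.S_smooth hst (m := 0) hg (by simp) hp
  have hsm : ∀ v (T : V →L[ℂ] V), ContDiffOn ℝ ∞ (fun x => T (dbv v f x)) O := fun v T =>
    JP.const_clm (m := 0) (D := D) (smooth_dbv hO hf v) T
  have hsm2 : ∀ v (T T' : V →L[ℂ] V), ContDiffOn ℝ ∞ (fun x => T' (T (dbv v f x))) O :=
    fun v T T' => JP.const_clm (m := 0) (D := D) (hsm v T) T'
  -- left term
  have hL : Dbar D F (Kop D F 0 f) p =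
      ∑ j, conj (D.u j p) • Iop D F.S 0 (fun x => ∑ a, F.ex a (F.io j (dbv (D.bv a) f x))) p +
      ∑ j, conj (D.u j p) • Iop D F.S 0 (fun x => ∑ l, F.e l (F.io j (dbv (D.nv l) f x))) p +
      ∑ l, F.e l (Iop D F.S 0 (fun x => F.io l (f x)) p) := by
    have h1 : ∀ a, F.ex a (dbv (D.bv a) (Kop D F 0 f) p) = ∑ j, conj (D.u j p) •
        Iop D F.S 0 (fun x => F.ex a (F.io j (dbv (D.bv a) f x))) p := by
      intro a
      rw [Kop_dbv hO hst hf0 (k := 0) (by simp) hp 0 (ms_bv_pow D a), map_sum]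
      refine Finset.sum_congr rfl fun j _ => ?_
      rw [D.u_bv, map_zero, zero_smul, add_zero, map_smul, Nat.cast_zero, sub_zero,
        ex_Iop (hint0 (hsm _ _))]
    have h2 : ∀ l, F.e l (dbv (D.nv l) (Kop D F 0 f) p) = ∑ j, conj (D.u j p) •
        Iop D F.S 0 (fun x => F.e l (F.io j (dbv (D.nv l) f x))) p +
        F.e l (Iop D F.S 0 (fun x => F.io l (f x)) p) := by
      intro l
      rw [Kop_dbv hO hst hf0 (k := 0) (by simp) hp 1 (ms_nv_pow D l), Finset.sum_add_distrib,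
        map_add, map_sum]
      congr 1
      · refine Finset.sum_congr rfl fun j _ => ?_
        rw [map_smul, Nat.cast_one, e_Iop (hint1 (hsm _ _))]
      · congr 1
        simp only [D.u_nv]
        rw [Finset.sum_eq_single l]
        · simp
        · intro j _ hj; simp [hj]
        · simp
    unfold Dbar
    simp only [h1, h2]
    rw [Finset.sum_add_distrib, ← add_assoc]
    congr 2
    · rw [Finset.sum_comm]
      refine Finset.sum_congr rfl fun j _ => ?_
      rw [← Finset.smul_sum, Iop_sum _ fun a _ => hint0 (hsm2 _ _ _)]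
    · rw [Finset.sum_comm]
      refine Finset.sum_congr rfl fun j _ => ?_
      rw [← Finset.smul_sum, Iop_sum _ fun a _ => hint0 (hsm2 _ _ _)]
  have hDs : ContDiffOn ℝ ∞ (Dbar D F f) O := JP.Dbar (m := 0) (D := D) hO hf
  have hK : Dbar D F (Kop D F 0 f) p + Kop D F 0 (Dbar D F f) p =
      ∑ j, conj (D.u j p) • Iop D F.S 0 (dbv (D.nv j) f) p +
      ∑ l, F.e l (Iop D F.S 0 (fun x => F.io l (f x)) p) := by
    rw [hL, add_right_comm]
    congr 1
    unfold Kop
    rw [← Finset.sum_add_distrib, ← Finset.sum_add_distrib]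
    refine Finset.sum_congr rfl fun j _ => ?_
    rw [← smul_add, ← smul_add]
    congr 1
    have s1 : ContDiffOn ℝ ∞ (fun x => ∑ a, F.ex a (F.io j (dbv (D.bv a) f x))) O :=
      ContDiffOn.sum fun a _ => hsm2 _ _ _
    have s2 : ContDiffOn ℝ ∞ (fun x => ∑ l, F.e l (F.io j (dbv (D.nv l) f x))) O :=
      ContDiffOn.sum fun a _ => hsm2 _ _ _
    have s3 : ContDiffOn ℝ ∞ (fun x => F.io j (Dbar D F f x)) O :=
      JP.const_clm (m := 0) (D := D) hDs (F.io j)
    rw [← Iop_add (hint0 s1) (hint0 s2), ← Iop_add (hint0 (s1.add s2)) (hint0 s3)]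
    congr 1
    funext x
    unfold Dbar
    rw [map_add, map_sum, map_sum]
    have e1 : ∀ a, F.ex a (F.io j (dbv (D.bv a) f x)) = - F.io j (F.ex a (dbv (D.bv a) f x)) :=
      fun a => eq_neg_of_add_eq_zero_left (F.exi a j _)
    have e2 : ∀ l, F.e l (F.io j (dbv (D.nv l) f x)) =
        (if l = j then dbv (D.nv l) f x else 0) - F.io j (F.e l (dbv (D.nv l) f x)) :=
      fun l => eq_sub_of_add_eq (F.ei l j _)
    simp only [e1, e2, Finset.sum_neg_distrib, Finset.sum_sub_distrib, Finset.sum_ite_eq',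
      Finset.mem_univ, if_true]
    abel
  rw [hK]
  -- fundamental theorem of calculus
  have hA : ∀ l, F.e l (Iop D F.S 0 (fun x => F.io l (f x)) p) =
      ∫ s in (0 : ℝ)..1, F.e l (F.S s (F.io l (f (D.ms s p)))) := by
    intro l
    unfold Iop
    rw [← ContinuousLinearMap.intervalIntegral_comp_comm _
      (hint0 (JP.const_clm (m := 0) (D := D) hf (F.io l)))]
    simp
  have hm : ContinuousOn (fun s : ℝ => D.ms s p) (Icc 0 1) :=
    (D.ms_contDiff.continuous.comp (by fun_prop : Continuous fun s : ℝ => (p, s))).continuousOn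
  have hmaps : MapsTo (fun s : ℝ => D.ms s p) (Icc 0 1) O := fun s hs => hst p hp s hs
  have hS : ContinuousOn F.S (Icc 0 1) := F.S_smooth.continuous.continuousOn
  have iA : ∀ l ∈ (Finset.univ : Finset (Fin r)), IntervalIntegrable
      (fun s => F.e l (F.S s (F.io l (f (D.ms s p))))) volume 0 1 := fun l _ =>
    ((F.e l).continuous.comp_continuousOn (hS.clm_apply ((F.io l).continuous.comp_continuousOn
      (hf.continuousOn.comp hm hmaps)))).intervalIntegrable_of_Icc zero_le_one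
  have iB : ∀ j ∈ (Finset.univ : Finset (Fin r)), IntervalIntegrable
      (fun s => D.u j p • F.S s (dv (D.nv j) f (D.ms s p))) volume 0 1 := fun j _ =>
    (continuousOn_const.smul (hS.clm_apply
      ((smooth_dv hO hf _).continuousOn.comp hm hmaps))).intervalIntegrable_of_Icc zero_le_one
  have iC : ∀ j ∈ (Finset.univ : Finset (Fin r)), IntervalIntegrable
      (fun s => conj (D.u j p) • F.S s (dbv (D.nv j) f (D.ms s p))) volume 0 1 := fun j _ =>
    (continuousOn_const.smul (hS.clm_apply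
      ((smooth_dbv hO hf _).continuousOn.comp hm hmaps))).intervalIntegrable_of_Icc zero_le_one
  have hint : ∫ s in (0 : ℝ)..1, ((∑ j, F.e j (F.S s (F.io j (f (D.ms s p))))) +
        F.S s (∑ j, (D.u j p • dv (D.nv j) f (D.ms s p) +
          conj (D.u j p) • dbv (D.nv j) f (D.ms s p)))) =
      ∑ l, F.e l (Iop D F.S 0 (fun x => F.io l (f x)) p) +
      (∑ j, D.u j p • Iop D F.S 0 (dv (D.nv j) f) p +
       ∑ j, conj (D.u j p) • Iop D F.S 0 (dbv (D.nv j) f) p) := by
    have e : ∀ s, ((∑ j, F.e j (F.S s (F.io j (f (D.ms s p))))) +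
        F.S s (∑ j, (D.u j p • dv (D.nv j) f (D.ms s p) +
          conj (D.u j p) • dbv (D.nv j) f (D.ms s p)))) =
        (∑ j, F.e j (F.S s (F.io j (f (D.ms s p))))) +
        (∑ j, D.u j p • F.S s (dv (D.nv j) f (D.ms s p)) +
         ∑ j, conj (D.u j p) • F.S s (dbv (D.nv j) f (D.ms s p))) := by
      intro s
      rw [map_sum]
      simp only [map_add, map_smul, Finset.sum_add_distrib]
    simp only [e]
    have iA' : IntervalIntegrable (fun s => ∑ j, F.e j (F.S s (F.io j (f (D.ms s p)))))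
        volume 0 1 := by
      have := IntervalIntegrable.sum Finset.univ iA
      exact this.congr fun s _ => by simp only [Finset.sum_apply]
    have iB' : IntervalIntegrable (fun s => ∑ j, D.u j p • F.S s (dv (D.nv j) f (D.ms s p)))
        volume 0 1 := by
      have := IntervalIntegrable.sum Finset.univ iB
      exact this.congr fun s _ => by simp only [Finset.sum_apply]
    have iC' : IntervalIntegrable
        (fun s => ∑ j, conj (D.u j p) • F.S s (dbv (D.nv j) f (D.ms s p))) volume 0 1 := by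
      have := IntervalIntegrable.sum Finset.univ iC
      exact this.congr fun s _ => by simp only [Finset.sum_apply]
    rw [intervalIntegral.integral_add iA' (iB'.add iC'), intervalIntegral.integral_add iB' iC',
      intervalIntegral.integral_finset_sum iA, intervalIntegral.integral_finset_sum iB,
      intervalIntegral.integral_finset_sum iC]
    simp only [hA, intervalIntegral.integral_smul]
    congr 2
    · refine Finset.sum_congr rfl fun j _ => ?_
      simp [Iop]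
    · refine Finset.sum_congr rfl fun j _ => ?_
      simp [Iop]
  have hftc := ray_ftc (F := F) hO hst hf hp
  rw [hint] at hftc
  rw [hftc]
  abel

/-! ### restriction of order `m` and the homotopy in order `m` -/

variable (D F) in
/-- the leading part of order `m` along the diagonal, vertical form part dropped -/
def Rho (m : ℕ) (f : Z → V) (p : Z) : V :=
  limUnder (𝓝[>] (0 : ℝ)) (fun s => (s ^ (-(m : ℤ)) : ℝ) • F.S s (f (D.ms s p)))

theorem ev_mem : ∀ᶠ s : ℝ in 𝓝[>] (0 : ℝ), s ∈ Ioc (0 : ℝ) 1 := by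
  have h1 : Ioo (0 : ℝ) 1 ∈ 𝓝[>] (0 : ℝ) := Ioo_mem_nhdsGT one_pos
  filter_upwards [h1] with s hs using ⟨hs.1, hs.2.le⟩

theorem tendsto_zero_order {O : Set Z} (hst : D.Star O) {f : Z → V} (hO : IsOpen O)
    (hf : ContDiffOn ℝ ∞ f O) {p : Z} (hp : p ∈ O) :
    Tendsto (fun s : ℝ => (s ^ (-((0 : ℕ) : ℤ)) : ℝ) • F.S s (f (D.ms s p))) (𝓝[>] (0 : ℝ))
      (𝓝 (F.S 0 (f (D.ms 0 p)))) := by
  have h0 : D.ms 0 p ∈ O := hst p hp 0 ⟨le_rfl, zero_le_one⟩
  have hm : ContinuousAt (fun s : ℝ => D.ms s p) 0 :=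
    (D.ms_contDiff.continuous.comp (by fun_prop : Continuous fun s : ℝ => (p, s))).continuousAt
  have h1 : ContinuousAt (fun s : ℝ => f (D.ms s p)) 0 :=
    ContinuousAt.comp (f := fun s : ℝ => D.ms s p) (hf.continuousOn.continuousAt (hO.mem_nhds h0)) hm
  have h2 : ContinuousAt (fun s : ℝ => F.S s (f (D.ms s p))) 0 :=
    (F.S_smooth.continuous.continuousAt).clm_apply h1
  have h3 := h2.tendsto.mono_left (nhdsWithin_le_nhds (s := Ioi (0 : ℝ)))
  refine h3.congr fun s => ?_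
  simp

theorem exists_rho {O : Set Z} (hO : IsOpen O) (hst : D.Star O) {m : ℕ} {f : Z → V}
    (hf : JP D O m f) {p : Z} (hp : p ∈ O) :
    ∃ L, Tendsto (fun s : ℝ => (s ^ (-(m : ℤ)) : ℝ) • F.S s (f (D.ms s p))) (𝓝[>] (0 : ℝ))
      (𝓝 L) := by
  induction m generalizing f with
  | zero => exact ⟨_, tendsto_zero_order hst hO hf hp⟩
  | succ m ih =>
    obtain ⟨g, hg, h1⟩ := hf
    choose L hL using fun j => ih (hg j)
    refine ⟨∑ j, D.u j p • L j, ?_⟩
    have h2 : Tendsto (fun s : ℝ => ∑ j, D.u j p • ((s ^ (-(m : ℤ)) : ℝ) • F.S s (g j (D.ms s p))))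
        (𝓝[>] (0 : ℝ)) (𝓝 (∑ j, D.u j p • L j)) :=
      tendsto_finset_sum _ fun j _ => (hL j).const_smul _
    refine h2.congr' ?_
    filter_upwards [ev_mem] with s hs
    rw [h1 _ (hst p hp s (Ioc_subset_Icc_self hs)), shift_pw D F.S _ g p hs.1.ne']
    have : -(((m + 1 : ℕ) : ℤ) - 1) = -(m : ℤ) := by push_cast; ring
    rw [this]

theorem tendsto_rho {O : Set Z} (hO : IsOpen O) (hst : D.Star O) {m : ℕ} {f : Z → V}
    (hf : JP D O m f) {p : Z} (hp : p ∈ O) :
    Tendsto (fun s : ℝ => (s ^ (-(m : ℤ)) : ℝ) • F.S s (f (D.ms s p))) (𝓝[>] (0 : ℝ))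
      (𝓝 (Rho D F m f p)) :=
  tendsto_nhds_limUnder (exists_rho hO hst hf hp)

theorem rho_eq {m : ℕ} {f : Z → V} {p : Z} {L : V}
    (h : Tendsto (fun s : ℝ => (s ^ (-(m : ℤ)) : ℝ) • F.S s (f (D.ms s p))) (𝓝[>] (0 : ℝ)) (𝓝 L)) :
    Rho D F m f p = L := h.limUnder_eq

theorem rho_zero {O : Set Z} (hO : IsOpen O) (hst : D.Star O) {f : Z → V}
    (hf : ContDiffOn ℝ ∞ f O) {p : Z} (hp : p ∈ O) : Rho D F 0 f p = F.S 0 (f (D.ms 0 p)) :=
  rho_eq (tendsto_zero_order hst hO hf hp)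

theorem rho_congr {O : Set Z} (hst : D.Star O) {m : ℕ} {f f' : Z → V}
    (h : ∀ x ∈ O, f x = f' x) {p : Z} (hp : p ∈ O) : Rho D F m f p = Rho D F m f' p := by
  unfold Rho limUnder
  congr 1
  refine Filter.map_congr ?_
  filter_upwards [ev_mem] with s hs
  rw [h _ (hst p hp s (Ioc_subset_Icc_self hs))]

theorem rho_shift {O : Set Z} (hO : IsOpen O) (hst : D.Star O) {m : ℕ} {g : Fin r → Z → V}
    (hg : ∀ j, JP D O m (g j)) {p : Z} (hp : p ∈ O) :
    Rho D F (m + 1) (fun x => ∑ j, D.u j x • g j x) p = ∑ j, D.u j p • Rho D F m (g j) p := by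
  refine rho_eq ?_
  have h2 : Tendsto (fun s : ℝ => ∑ j, D.u j p • ((s ^ (-(m : ℤ)) : ℝ) • F.S s (g j (D.ms s p))))
      (𝓝[>] (0 : ℝ)) (𝓝 (∑ j, D.u j p • Rho D F m (g j) p)) :=
    tendsto_finset_sum _ fun j _ => (tendsto_rho hO hst (hg j) hp).const_smul _
  refine h2.congr' ?_
  filter_upwards [ev_mem] with s hs
  rw [shift_pw D F.S _ g p hs.1.ne']
  have : -(((m + 1 : ℕ) : ℤ) - 1) = -(m : ℤ) := by push_cast; ring
  rw [this]

theorem Dbar_u_sum {g : Fin r → Z → V} {p : Z} (hg : ∀ j, DifferentiableAt ℝ (g j) p) :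
    Dbar D F (fun x => ∑ j, D.u j x • g j x) p = ∑ j, D.u j p • Dbar D F (g j) p := by
  unfold Dbar
  simp only [dbv_u_sum D hg, map_sum, map_smul, smul_add, Finset.smul_sum]
  rw [Finset.sum_add_distrib]
  congr 1 <;> exact Finset.sum_comm

theorem Dbar_congr {f f' : Z → V} {p : Z} (h : f =ᶠ[𝓝 p] f') : Dbar D F f p = Dbar D F f' p := by
  unfold Dbar
  simp only [dbv_congr h]

/-- **The homotopy identity in order `m`.** -/
theorem hom {O : Set Z} (hO : IsOpen O) (hst : D.Star O) {m : ℕ} {f : Z → V}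
    (hf : JP D O m f) :
    ∃ R : Z → V, JP D O (m + 1) R ∧ ∀ p ∈ O,
      Dbar D F (Kop D F m f) p + Kop D F m (Dbar D F f) p = f p - Rho D F m f p - R p := by
  induction m generalizing f with
  | zero =>
    have hf' : ContDiffOn ℝ ∞ f O := hf
    refine ⟨fun p => ∑ j, D.u j p • Iop D F.S 0 (dv (D.nv j) f) p,
      ⟨fun j => Iop D F.S 0 (dv (D.nv j) f), fun j => ?_, fun p _ => rfl⟩, fun p hp => ?_⟩
    · exact Iop_JP F.S_smooth hO hst (m := 0) (smooth_dv hO hf' _) (by simp)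
    · have h := hom0 (F := F) hO hst hf' hp
      rw [rho_zero hO hst hf' hp]
      exact h
  | succ m ih =>
    obtain ⟨g, hg, h1⟩ := hf
    choose R hR hR1 using fun j => ih (hg j)
    refine ⟨fun p => ∑ j, D.u j p • R j p, ⟨R, hR, fun p _ => rfl⟩, fun p hp => ?_⟩
    have hc : (((m + 1 : ℕ) : ℤ) - 1) = (m : ℤ) := by push_cast; ring
    have e1 : ∀ x ∈ O, Kop D F ((m + 1 : ℕ) : ℤ) f x = ∑ j, D.u j x • Kop D F m (g j) x := by
      intro x hx
      rw [Kop_congr hst h1 hx, Kop_shift hst hg le_rfl hx, hc]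
    have e2 : ∀ x ∈ O, Dbar D F f x = ∑ j, D.u j x • Dbar D F (g j) x := by
      intro x hx
      have h4 : f =ᶠ[𝓝 x] fun y => ∑ j, D.u j y • g j y := by
        filter_upwards [hO.mem_nhds hx] with y hy using h1 y hy
      rw [Dbar_congr h4, Dbar_u_sum fun j => diff_at hO (hg j).smooth hx]
    have e3 : Dbar D F (Kop D F ((m + 1 : ℕ) : ℤ) f) p =
        ∑ j, D.u j p • Dbar D F (Kop D F m (g j)) p := by
      have h4 : Kop D F ((m + 1 : ℕ) : ℤ) f =ᶠ[𝓝 p] fun y => ∑ j, D.u j y • Kop D F m (g j) y := by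
        filter_upwards [hO.mem_nhds hp] with y hy using e1 y hy
      rw [Dbar_congr h4, Dbar_u_sum fun j => diff_at hO (Kop_JP hO hst (hg j) le_rfl).smooth hp]
    have e4 : Kop D F ((m + 1 : ℕ) : ℤ) (Dbar D F f) p =
        ∑ j, D.u j p • Kop D F m (Dbar D F (g j)) p := by
      rw [Kop_congr hst e2 hp, Kop_shift hst (fun j => (hg j).Dbar hO) le_rfl hp, hc]
    have e5 : Rho D F (m + 1) f p = ∑ j, D.u j p • Rho D F m (g j) p := by
      rw [rho_congr hst h1 hp, rho_shift hO hst hg hp]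
    rw [e3, e4, e5, h1 p hp, ← Finset.sum_add_distrib, ← Finset.sum_sub_distrib,
      ← Finset.sum_sub_distrib]
    refine Finset.sum_congr rfl fun j _ => ?_
    rw [← smul_add, hR1 j p hp, ← smul_sub, ← smul_sub]

/-- the homotopy has no leading part -/
theorem rho_Kop {O : Set Z} (hO : IsOpen O) (hst : D.Star O) {m : ℕ} {f : Z → V}
    (hf : JP D O m f) {p : Z} (hp : p ∈ O) : Rho D F m (Kop D F m f) p = 0 := by
  induction m generalizing f with
  | zero =>
    have hf' : ContDiffOn ℝ ∞ f O := hf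
    have h1 : ContDiffOn ℝ ∞ (Kop D F 0 f) O := Kop_JP (m := 0) hO hst hf' (by simp)
    have h0 : Rho D F 0 (Kop D F ((0 : ℕ) : ℤ) f) p = F.S 0 (Kop D F 0 f (D.ms 0 p)) :=
      rho_zero hO hst h1 hp
    rw [h0]
    have : Kop D F 0 f (D.ms 0 p) = 0 := by
      unfold Kop
      simp [D.u_ms]
    rw [this, map_zero]
  | succ m ih =>
    obtain ⟨g, hg, h1⟩ := hf
    have hc : (((m + 1 : ℕ) : ℤ) - 1) = (m : ℤ) := by push_cast; ring
    have e1 : ∀ x ∈ O, Kop D F ((m + 1 : ℕ) : ℤ) f x = ∑ j, D.u j x • Kop D F m (g j) x := by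
      intro x hx
      rw [Kop_congr hst h1 hx, Kop_shift hst hg le_rfl hx, hc]
    rw [rho_congr hst e1 hp, rho_shift hO hst (fun j => Kop_JP hO hst (hg j) le_rfl) hp]
    simp [ih (hg _)]



end homotopy

end

end Crest.Agent.R275.NA4783
end

-- ▼ part R275/NA4b_783
section

/-!
# R275, NA4 (helper783), part b: the fibre scaling `s ^ N` for two vertical directions
-/

set_option autoImplicit false
set_option linter.unusedSectionVars false

open Set Filter Topology Complex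
open scoped ContDiff ComplexConjugate

namespace Crest.Agent.R275.NA4783

noncomputable section

variable {V : Type} [NormedAddCommGroup V] [NormedSpace ℂ V]

/-- anticommutation relations for two vertical directions and `d` base directions -/
structure Car (d : ℕ) (V : Type) [NormedAddCommGroup V] [NormedSpace ℂ V] where
  ex : Fin d → V →L[ℂ] V
  e : Fin 2 → V →L[ℂ] V
  io : Fin 2 → V →L[ℂ] V
  ee : ∀ j k, e j * e k + e k * e j = 0
  ii : ∀ j k, io j * io k + io k * io j = 0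
  ei : ∀ j k, e j * io k + io k * e j = if j = k then 1 else 0
  exi : ∀ a j, ex a * io j + io j * ex a = 0
  exe : ∀ a j, ex a * e j + e j * ex a = 0

namespace Car

variable {d : ℕ} (C : Car d V)

theorem e_sq (j : Fin 2) : C.e j * C.e j = 0 := by
  have h := C.ee j j
  rw [← two_smul ℂ, smul_eq_zero] at h
  exact h.resolve_left two_ne_zero


/-- the projection on forms containing the `j`-th vertical covector -/
def P (j : Fin 2) : V →L[ℂ] V := C.e j * C.io j

theorem P_e_self (j : Fin 2) : C.P j * C.e j = C.e j := by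
  have h := C.ei j j
  rw [if_pos rfl] at h
  have h2 : C.io j * C.e j = 1 - C.e j * C.io j := eq_sub_of_add_eq' h
  rw [P, mul_assoc, h2, mul_sub, mul_one, ← mul_assoc, C.e_sq, zero_mul, sub_zero]

theorem e_P_self (j : Fin 2) : C.e j * C.P j = 0 := by
  rw [P, ← mul_assoc, C.e_sq, zero_mul]

theorem io_e_ne {j k : Fin 2} (h : j ≠ k) : C.io j * C.e k = -(C.e k * C.io j) := by
  have h1 := C.ei k j
  rw [if_neg h.symm] at h1
  exact eq_neg_of_add_eq_zero_right h1

theorem e_e_ne (j k : Fin 2) : C.e j * C.e k = -(C.e k * C.e j) :=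
  eq_neg_of_add_eq_zero_left (C.ee j k)

theorem i_i_ne (j k : Fin 2) : C.io j * C.io k = -(C.io k * C.io j) :=
  eq_neg_of_add_eq_zero_left (C.ii j k)

theorem P_e_ne {j k : Fin 2} (h : j ≠ k) : C.P j * C.e k = C.e k * C.P j := by
  rw [P, mul_assoc, C.io_e_ne h, mul_neg, ← mul_assoc, C.e_e_ne j k, neg_mul, neg_neg, mul_assoc]

theorem P_i_ne {j k : Fin 2} (h : j ≠ k) : C.P j * C.io k = C.io k * C.P j := by
  rw [P, mul_assoc, C.i_i_ne j k, mul_neg, ← mul_assoc, ← mul_assoc, C.io_e_ne h.symm, neg_mul]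

theorem P_P {j k : Fin 2} (h : j ≠ k) : C.P j * C.P k = C.P k * C.P j := by
  change C.P j * (C.e k * C.io k) = (C.e k * C.io k) * C.P j
  rw [← mul_assoc, C.P_e_ne h, mul_assoc, C.P_i_ne h, ← mul_assoc]

theorem P_ex (a : Fin d) (j : Fin 2) : C.P j * C.ex a = C.ex a * C.P j := by
  have h1 : C.io j * C.ex a = -(C.ex a * C.io j) := eq_neg_of_add_eq_zero_right (C.exi a j)
  have h2 : C.e j * C.ex a = -(C.ex a * C.e j) := eq_neg_of_add_eq_zero_right (C.exe a j)
  rw [P, mul_assoc, h1, mul_neg, ← mul_assoc, h2, neg_mul, neg_neg, mul_assoc]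

/-- one factor of the scaling -/
def T (j : Fin 2) (s : ℝ) : V →L[ℂ] V := 1 + ((s - 1 : ℝ) : ℂ) • C.P j

/-- the scaling `s ^ N` -/
def S (s : ℝ) : V →L[ℂ] V := C.T 0 s * C.T 1 s

theorem T_e_self (j : Fin 2) (s : ℝ) : C.T j s * C.e j = (s : ℂ) • C.e j := by
  rw [T, add_mul, one_mul, smul_mul_assoc, C.P_e_self]
  push_cast; module

theorem e_T_self (j : Fin 2) (s : ℝ) : C.e j * C.T j s = C.e j := by
  rw [T, mul_add, mul_one, mul_smul_comm, C.e_P_self, smul_zero, add_zero]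

theorem T_e_ne {j k : Fin 2} (h : j ≠ k) (s : ℝ) : C.T j s * C.e k = C.e k * C.T j s := by
  rw [T, add_mul, mul_add, one_mul, mul_one, smul_mul_assoc, mul_smul_comm, C.P_e_ne h]

theorem T_i_ne {j k : Fin 2} (h : j ≠ k) (s : ℝ) : C.T j s * C.io k = C.io k * C.T j s := by
  rw [T, add_mul, mul_add, one_mul, mul_one, smul_mul_assoc, mul_smul_comm, C.P_i_ne h]

theorem T_T (s t : ℝ) : C.T 0 s * C.T 1 t = C.T 1 t * C.T 0 s := by
  simp only [T, add_mul, mul_add, one_mul, mul_one, smul_mul_assoc, mul_smul_comm,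
    C.P_P (show (0 : Fin 2) ≠ 1 by decide)]
  module

theorem T_ex (a : Fin d) (j : Fin 2) (s : ℝ) : C.T j s * C.ex a = C.ex a * C.T j s := by
  rw [T, add_mul, mul_add, one_mul, mul_one, smul_mul_assoc, mul_smul_comm, C.P_ex]

theorem S_e (j : Fin 2) (s : ℝ) : C.S s * C.e j = (s : ℂ) • (C.e j * C.S s) := by
  have h01 : (0 : Fin 2) ≠ 1 := by decide
  fin_cases j
  · change C.T 0 s * C.T 1 s * C.e 0 = (s : ℂ) • (C.e 0 * (C.T 0 s * C.T 1 s))
    rw [mul_assoc, C.T_e_ne h01.symm, ← mul_assoc, ← mul_assoc, C.T_e_self, C.e_T_self,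
      smul_mul_assoc]
  · change C.T 0 s * C.T 1 s * C.e 1 = (s : ℂ) • (C.e 1 * (C.T 0 s * C.T 1 s))
    rw [mul_assoc, C.T_e_self, C.T_T, ← mul_assoc, C.e_T_self, mul_smul_comm, C.T_e_ne h01]

theorem S_ex (a : Fin d) (s : ℝ) : C.S s * C.ex a = C.ex a * C.S s := by
  rw [S, mul_assoc, C.T_ex, ← mul_assoc, C.T_ex, mul_assoc]

theorem S_one : C.S 1 = 1 := by simp [S, T]

theorem S_expand (s : ℝ) :
    C.S s = 1 + (s - 1) • (C.P 0 + C.P 1) + ((s - 1) ^ 2) • (C.P 0 * C.P 1) := by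
  have h : C.S s = 1 + ((s - 1 : ℝ) : ℂ) • (C.P 0 + C.P 1) +
      (((s - 1) ^ 2 : ℝ) : ℂ) • (C.P 0 * C.P 1) := by
    simp only [S, T, add_mul, mul_add, one_mul, mul_one, smul_mul_assoc, mul_smul_comm]
    push_cast
    module
  rw [h]; rfl

theorem S_smooth : ContDiff ℝ ∞ C.S := by
  have : C.S = fun s : ℝ => (1 : V →L[ℂ] V) + (s - 1) • (C.P 0 + C.P 1) +
      ((s - 1) ^ 2) • (C.P 0 * C.P 1) := by funext s; exact C.S_expand s
  rw [this]
  have h1 : ContDiff ℝ ∞ (fun s : ℝ => s - 1) := contDiff_id.sub contDiff_const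
  exact (contDiff_const.add (h1.smul contDiff_const)).add ((h1.pow 2).smul contDiff_const)

theorem sum_e_S_i (s : ℝ) : ∑ j, C.e j * C.S s * C.io j =
    (C.P 0 + C.P 1) + (2 * (s - 1)) • (C.P 0 * C.P 1) := by
  have h01 : (0 : Fin 2) ≠ 1 := by decide
  rw [Fin.sum_univ_two]
  have e0 : C.e 0 * C.S s * C.io 0 = C.T 1 s * C.P 0 := by
    rw [S, ← mul_assoc, C.e_T_self, mul_assoc, C.T_i_ne h01.symm, P, ← mul_assoc, ← mul_assoc,
      mul_assoc, ← mul_assoc, C.T_e_ne h01.symm, mul_assoc, mul_assoc, C.T_i_ne h01.symm]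
  have e1 : C.e 1 * C.S s * C.io 1 = C.T 0 s * C.P 1 := by
    rw [S, C.T_T, ← mul_assoc, C.e_T_self, mul_assoc, C.T_i_ne h01, P, ← mul_assoc, ← mul_assoc,
      C.T_e_ne h01, mul_assoc, mul_assoc, C.T_i_ne h01]
  rw [e0, e1, T, T, add_mul, add_mul, one_mul, one_mul, smul_mul_assoc, smul_mul_assoc,
    ← C.P_P h01]
  have : ((2 * (s - 1)) • (C.P 0 * C.P 1) : V →L[ℂ] V) =
      ((2 * (s - 1) : ℝ) : ℂ) • (C.P 0 * C.P 1) := rfl
  rw [this]
  push_cast
  module

/-- the fibre data of the homotopy -/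
def toFib : Fib 2 d V where
  ex := C.ex
  e := C.e
  io := C.io
  S := C.S
  ei j k v := by
    have h := DFunLike.congr_fun (C.ei j k) v
    change C.e j (C.io k v) + C.io k (C.e j v) = _ at h
    rw [h]
    split_ifs <;> rfl
  exi a j v := DFunLike.congr_fun (C.exi a j) v
  S_smooth := C.S_smooth
  S_one v := by rw [C.S_one]; rfl
  S_ex s a v := DFunLike.congr_fun (C.S_ex a s) v
  S_e s j v := DFunLike.congr_fun (C.S_e j s) v
  S_der s v := by
    have h1 : HasDerivAt (fun t : ℝ => (1 : V →L[ℂ] V) v + (t - 1) • ((C.P 0 + C.P 1) v) +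
      ((t - 1) ^ 2) • ((C.P 0 * C.P 1) v)) (0 + (1 : ℝ) • ((C.P 0 + C.P 1) v) +
      (2 * (s - 1)) • ((C.P 0 * C.P 1) v)) s := by
      refine ((hasDerivAt_const s _).add (((hasDerivAt_id s).sub_const 1).smul_const _)).add
        (HasDerivAt.smul_const ?_ _)
      have h5 : HasDerivAt (fun t : ℝ => (t - 1) ^ 2) ((2 : ℕ) * (s - 1) ^ (2 - 1) * 1) s :=
        ((hasDerivAt_id s).sub_const 1).pow 2
      refine h5.congr_deriv ?_
      push_cast
      ring
    have h2 : (fun t => C.S t v) = (fun t : ℝ => (1 : V →L[ℂ] V) v + (t - 1) • ((C.P 0 + C.P 1) v) +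
      ((t - 1) ^ 2) • ((C.P 0 * C.P 1) v)) := by
      funext t
      rw [C.S_expand]; rfl
    have h3 : ∑ j, C.e j (C.S s (C.io j v)) = 0 + (1 : ℝ) • ((C.P 0 + C.P 1) v) +
      (2 * (s - 1)) • ((C.P 0 * C.P 1) v) := by
      have h := DFunLike.congr_fun (C.sum_e_S_i s) v
      rw [Fin.sum_univ_two] at h ⊢
      rw [zero_add, one_smul]
      exact h
    rw [h2, h3]
    exact h1

end Car

end

end Crest.Agent.R275.NA4783
end

-- ▼ part R275/NA4c_783
section

/-!
# R275, NA4 (helper783), part c: the powers of the ideal of the diagonal on `X × X`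

* `LV` : vector valued version of 199's `LSpan`; dictionary with `JP` in a chart;
* `ud A i a (x, y) = z_a(x) - z_a(y)`, `ud_change` : change of charts, with the value on the diagonal;
* `Fm B m` : sections of `B : FBun (A.prod A)` vanishing to order `m` along the diagonal.
-/

set_option autoImplicit false
set_option linter.unusedSectionVars false

open Set Filter Topology Complex MeasureTheory
open scoped ContDiff Matrix ComplexConjugate
open Crest.Agent.R275.Geo Crest.Agent.R275.Smf798 Crest.Agent.R275.Dg199 Crest.Agent.R275.Prod363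

namespace Crest.Agent.R275.NA4783

noncomputable section

section general

variable {n : ℕ} {M : Type} [TopologicalSpace M] {A : Atl n M}

/-- germwise smooth ⇒ smooth on a neighbourhood in the chart -/
theorem ev_smN_chart {W : Type} [NormedAddCommGroup W] [NormedSpace ℝ W] {i : A.ι} {q : M}
    (hq : q ∈ (A.e i).source) {c : M → W} (h : ∀ᶠ x in 𝓝 q, SmN A c x) :
    ∀ᶠ z in 𝓝 (A.e i q), z ∈ (A.e i).target ∧
      ContDiffAt ℝ ∞ (fun z => c ((A.e i).symm z)) z := by
  filter_upwards [ev_symm hq h, (A.e i).open_target.mem_nhds ((A.e i).map_source hq)] with z h1 h2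
  refine ⟨h2, ?_⟩
  have := (smN_iff ((A.e i).map_target h2)).1 h1
  rwa [(A.e i).right_inv h2] at this

theorem smN_of_chart {W : Type} [NormedAddCommGroup W] [NormedSpace ℝ W] {i : A.ι} {q : M}
    (hq : q ∈ (A.e i).source) {O : Set (Cn n)} (hO : IsOpen O) (hqO : A.e i q ∈ O) {c : M → W}
    (h : ContDiffOn ℝ ∞ (fun z => c ((A.e i).symm z)) O) : ∀ᶠ x in 𝓝 q, SmN A c x := by
  have h1 : ∀ᶠ x in 𝓝 q, A.e i x ∈ O := ev_chart hq (hO.mem_nhds hqO)
  filter_upwards [h1, (A.e i).open_source.mem_nhds hq] with x h2 h3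
  exact ⟨i, h3, h.contDiffAt (hO.mem_nhds h2)⟩

/-- vector valued version of `LSpan` -/
def LV (A : Atl n M) {ι κ : Type} [Fintype ι] [Fintype κ] (v : ι → M → ℂ) (F : M → κ → ℂ)
    (q : M) : Prop :=
  ∃ c : ι → M → κ → ℂ, (∀ a, ∀ᶠ x in 𝓝 q, SmN A (c a) x) ∧ ∀ᶠ x in 𝓝 q, F x = ∑ a, v a x • c a x

theorem smN_pi {κ : Type} [Fintype κ] {c : M → κ → ℂ} {q : M} :
    SmN A c q ↔ ∀ k, SmN A (fun x => c x k) q := by
  obtain ⟨i, hi⟩ := A.cover q
  rw [smN_iff hi]
  refine Iff.trans contDiffAt_pi (forall_congr' fun k => ?_)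
  rw [smN_iff hi]

theorem lv_iff {ι κ : Type} [Fintype ι] [Fintype κ] {v : ι → M → ℂ} {F : M → κ → ℂ} {q : M} :
    LV A v F q ↔ ∀ k, LSpan A v (fun x => F x k) q := by
  constructor
  · rintro ⟨c, h1, h2⟩ k
    refine ⟨fun a x => c a x k, fun a => ?_, ?_⟩
    · filter_upwards [h1 a] with x hx using smN_pi.1 hx k
    · filter_upwards [h2] with x hx
      rw [hx, Finset.sum_apply]
      rfl
  · intro h
    choose c h1 h2 using h
    refine ⟨fun a x k => c k a x, fun a => ?_, ?_⟩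
    · filter_upwards [eventually_all.2 fun k => h1 k a] with x hx
      exact smN_pi.2 hx
    · filter_upwards [eventually_all.2 h2] with x hx
      funext k
      rw [hx k, Finset.sum_apply]
      rfl

section vert

variable {d : ℕ} (D : Vert 2 d (Cn n))

theorem JP.monoS {V : Type} [NormedAddCommGroup V] [NormedSpace ℂ V] {D : Vert 2 d (Cn n)}
    {O : Set (Cn n)} {c : Cn n → V}
    (hc : ContDiffOn ℝ ∞ c O) (a b : ℕ) :
    JP D O (a + b) (fun z => ((D.u 0 z) ^ a * (D.u 1 z) ^ b) • c z) := by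
  induction a with
  | zero =>
    induction b with
    | zero =>
      have h0 : JP D O 0 c := hc
      exact h0.congr fun z _ => by simp
    | succ b ih =>
      refine (ih.mul_u 1).congr fun z _ => ?_
      simp only [smul_smul]
      congr 1
      ring
  | succ a ih =>
    have h1 := ih.mul_u 0
    rw [show a + 1 + b = a + b + 1 by omega]
    refine h1.congr fun z _ => ?_
    simp only [smul_smul]
    congr 1
    ring

/-- from the local description on `M` to the ideal condition in the chart -/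
theorem LV.toJP {κ : Type} [Fintype κ] {i : A.ι} {u : Fin 2 → M → ℂ} {q : M}
    (hq : q ∈ (A.e i).source) (hu : ∀ a, ∀ᶠ x in 𝓝 q, u a x = D.u a (A.e i x)) {m : ℕ}
    {F : M → κ → ℂ} (h : LV A (Dg199.mono m u) F q) :
    ∃ O : Set (Cn n), IsOpen O ∧ A.e i q ∈ O ∧ O ⊆ (A.e i).target ∧
      ∃ g : Fin (m + 1) → Cn n → κ → ℂ, (∀ c, ContDiffOn ℝ ∞ (g c) O) ∧
        ∀ z ∈ O, F ((A.e i).symm z) =
          ∑ c : Fin (m + 1), ((D.u 0 z) ^ (m - c : ℕ) * (D.u 1 z) ^ (c : ℕ)) • g c z := by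
  obtain ⟨c, h1, h2⟩ := h
  have h3 : ∀ᶠ z in 𝓝 (A.e i q), (∀ a, z ∈ (A.e i).target ∧
      ContDiffAt ℝ ∞ (fun z => c a ((A.e i).symm z)) z) ∧
      F ((A.e i).symm z) = ∑ a, Dg199.mono m u a ((A.e i).symm z) • c a ((A.e i).symm z) ∧
      ∀ a, u a ((A.e i).symm z) = D.u a (A.e i ((A.e i).symm z)) := by
    filter_upwards [eventually_all.2 fun a => ev_smN_chart hq (h1 a), ev_symm hq h2,
      ev_symm hq (eventually_all.2 hu)] with z a b c using ⟨a, b, c⟩
  obtain ⟨O, hO, hO1, hO2⟩ := _root_.eventually_nhds_iff.1 h3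
  refine ⟨O, hO1, hO2, fun z hz => ((hO z hz).1 0).1,
    fun a z => c (Fin.rev a) ((A.e i).symm z), fun a z hz =>
      (((hO z hz).1 (Fin.rev a)).2).contDiffWithinAt, fun z hz => ?_⟩
  obtain ⟨h4, h5, h6⟩ := hO z hz
  rw [h5]
  refine Fintype.sum_equiv Fin.revPerm _ _ fun a => ?_
  simp only [Fin.revPerm_apply, Fin.rev_rev, Dg199.mono, h6, (A.e i).right_inv (h4 0).1]
  have ha : m - (Fin.rev a : ℕ) = a := by
    have := a.2
    rw [Fin.val_rev]; omega
  have hb : (Fin.rev a : ℕ) = m - a := by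
    have := a.2
    rw [Fin.val_rev]; omega
  rw [ha, hb]

theorem JP.of_rep {V : Type} [NormedAddCommGroup V] [NormedSpace ℂ V] {D : Vert 2 d (Cn n)}
    {O : Set (Cn n)} {m : ℕ} {g : Fin (m + 1) → Cn n → V}
    (hg : ∀ c, ContDiffOn ℝ ∞ (g c) O) {f : Cn n → V}
    (hf : ∀ z ∈ O, f z = ∑ c : Fin (m + 1), ((D.u 0 z) ^ (m - c : ℕ) * (D.u 1 z) ^ (c : ℕ)) • g c z) :
    JP D O m f := by
  have h1 : JP D O m (fun z => ∑ c : Fin (m + 1),
      ((D.u 0 z) ^ (m - c : ℕ) * (D.u 1 z) ^ (c : ℕ)) • g c z) := by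
    refine JP.sum _ fun c _ => ?_
    have h2 := JP.monoS (D := D) (hg c) (m - c : ℕ) (c : ℕ)
    have h3 : m - (c : ℕ) + c = m := Nat.sub_add_cancel (Nat.lt_succ_iff.1 c.2)
    rwa [h3] at h2
  exact h1.congr hf

/-- from the ideal condition in the chart to the local description on `M` (scalar) -/
theorem JP.toLSpan {i : A.ι} {u : Fin 2 → M → ℂ} {q : M} (hq : q ∈ (A.e i).source)
    (hu : ∀ a, ∀ᶠ x in 𝓝 q, u a x = D.u a (A.e i x)) {m : ℕ} {O : Set (Cn n)} (hO : IsOpen O)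
    (hqO : A.e i q ∈ O) {f : Cn n → ℂ} (h : JP D O m f) {F : M → ℂ}
    (hF : ∀ᶠ x in 𝓝 q, F x = f (A.e i x)) :
    LSpan A (Dg199.mono m u) F q := by
  have hus : ∀ (g : Cn n → ℂ), ContDiffOn ℝ ∞ g O → ∀ᶠ x in 𝓝 q, SmN A (fun x => g (A.e i x)) x := by
    intro g hg
    refine smN_of_chart (i := i) hq (O := O ∩ (A.e i).target)
      (hO.inter (A.e i).open_target) ⟨hqO, (A.e i).map_source hq⟩ ?_
    refine (hg.mono inter_subset_left).congr fun z hz => ?_
    rw [(A.e i).right_inv hz.2]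
  induction m generalizing f F with
  | zero =>
    refine LSpan.mono_zero ?_
    filter_upwards [hus f h, eventually_eventually_nhds.2 hF] with x h1 h2 using h1.congr h2
  | succ m ih =>
    obtain ⟨g, hg, h1⟩ := h
    have h2 : LSpan A (Dg199.mono (m + 1) u) (fun x => ∑ j, g j (A.e i x) * u j x) q := by
      refine LSpan.sum fun j _ => ?_
      exact (ih (hg j) (Eventually.of_forall fun x => rfl)).mono_mul (LSpan.self j)
    refine h2.congr ?_
    filter_upwards [hF, eventually_all.2 hu, ev_chart hq (hO.mem_nhds hqO)] with x h3 h4 h5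
    rw [h3, h1 _ h5]
    refine Finset.sum_congr rfl fun j _ => ?_
    rw [h4, smul_eq_mul, mul_comm]

theorem JP.toLV {κ : Type} [Fintype κ] {i : A.ι} {u : Fin 2 → M → ℂ} {q : M}
    (hq : q ∈ (A.e i).source)
    (hu : ∀ a, ∀ᶠ x in 𝓝 q, u a x = D.u a (A.e i x)) {m : ℕ} {O : Set (Cn n)} (hO : IsOpen O)
    (hqO : A.e i q ∈ O) {f : Cn n → κ → ℂ} (h : JP D O m f) {F : M → κ → ℂ}
    (hF : ∀ᶠ x in 𝓝 q, F x = f (A.e i x)) :
    LV A (Dg199.mono m u) F q := by
  rw [lv_iff]
  intro k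
  have h1 : JP D O m (fun z => f z k) :=
    h.const_clm (ContinuousLinearMap.proj (R := ℂ) (φ := fun _ : κ => ℂ) k)
  refine JP.toLSpan D hq hu hO hqO h1 ?_
  filter_upwards [hF] with x hx
  rw [hx]

end vert

theorem LV.congr {ι κ : Type} [Fintype ι] [Fintype κ] {v : ι → M → ℂ} {F G : M → κ → ℂ} {q : M}
    (h : LV A v F q) (hG : G =ᶠ[𝓝 q] F) : LV A v G q := by
  obtain ⟨c, h1, h2⟩ := h
  exact ⟨c, h1, by filter_upwards [hG, h2] with x a b using a.trans b⟩

theorem LV.zero {ι κ : Type} [Fintype ι] [Fintype κ] (v : ι → M → ℂ) (q : M) :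
    LV A v (fun _ => (0 : κ → ℂ)) q :=
  lv_iff.2 fun _ => LSpan.zero v q

theorem LV.of_ev_zero {ι κ : Type} [Fintype ι] [Fintype κ] {v : ι → M → ℂ} {F : M → κ → ℂ} {q : M}
    (h : ∀ᶠ x in 𝓝 q, F x = 0) : LV A v F q := (LV.zero v q).congr h

theorem LV.add {ι κ : Type} [Fintype ι] [Fintype κ] {v : ι → M → ℂ} {F G : M → κ → ℂ} {q : M}
    (hF : LV A v F q) (hG : LV A v G q) : LV A v (fun x => F x + G x) q := by
  rw [lv_iff] at *
  intro k
  exact (hF k).add (hG k)

theorem LV.sum {ι κ τ : Type} [Fintype ι] [Fintype κ] {v : ι → M → ℂ} {s : Finset τ}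
    {F : τ → M → κ → ℂ} {q : M} (hF : ∀ t ∈ s, LV A v (F t) q) :
    LV A v (fun x => ∑ t ∈ s, F t x) q := by
  rw [lv_iff]
  intro k
  refine (LSpan.sum (s := s) (f := fun t x => F t x k) fun t ht => lv_iff.1 (hF t ht) k).congr ?_
  exact Eventually.of_forall fun x => by simp only [Finset.sum_apply]

theorem LV.smul {ι κ : Type} [Fintype ι] [Fintype κ] {v : ι → M → ℂ} {F : M → κ → ℂ} {q : M}
    {f : M → ℂ} (hf : ∀ᶠ x in 𝓝 q, SmN A f x) (hF : LV A v F q) :
    LV A v (fun x => f x • F x) q := by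
  rw [lv_iff] at *
  intro k
  exact (hF k).mul_left hf

theorem LV.neg {ι κ : Type} [Fintype ι] [Fintype κ] {v : ι → M → ℂ} {F : M → κ → ℂ} {q : M}
    (hF : LV A v F q) : LV A v (fun x => - F x) q := by
  refine (hF.smul (f := fun _ => -1) (Eventually.of_forall fun x => smN_const _ x)).congr ?_
  exact Eventually.of_forall fun x => by simp

theorem LV.sub {ι κ : Type} [Fintype ι] [Fintype κ] {v : ι → M → ℂ} {F G : M → κ → ℂ} {q : M}
    (hF : LV A v F q) (hG : LV A v G q) : LV A v (fun x => F x - G x) q := by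
  refine (hF.add hG.neg).congr ?_
  exact Eventually.of_forall fun x => sub_eq_add_neg _ _

/-- multiplication by a smooth matrix -/
theorem LV.mulVec {ι κ κ' : Type} [Fintype ι] [Fintype κ] [Fintype κ'] {v : ι → M → ℂ}
    {F : M → κ → ℂ} {q : M} {T : M → Matrix κ' κ ℂ}
    (hT : ∀ k l, ∀ᶠ x in 𝓝 q, SmN A (fun x => T x k l) x) (hF : LV A v F q) :
    LV A v (fun x => T x *ᵥ F x) q := by
  rw [lv_iff] at *
  intro k
  have h1 : LSpan A v (fun x => ∑ l, T x k l * F x l) q := LSpan.sum fun l _ =>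
    (hF l).mul_left (hT k l)
  exact h1

theorem LV.mono_change {κ : Type} [Fintype κ] {m : ℕ} {u v : Fin 2 → M → ℂ} {F : M → κ → ℂ}
    {q : M} (hF : LV A (Dg199.mono m u) F q) (h : ∀ a, LSpan A v (u a) q) :
    LV A (Dg199.mono m v) F q :=
  lv_iff.2 fun k => (lv_iff.1 hF k).mono_change h

theorem LSpan.mono_pred {m : ℕ} {u : Fin 2 → M → ℂ} {F : M → ℂ} {q : M}
    (hu : ∀ a, ∀ᶠ x in 𝓝 q, SmN A (u a) x)
    (hF : LSpan A (Dg199.mono (m + 1) u) F q) : LSpan A (Dg199.mono m u) F q := by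
  refine hF.trans fun β => ?_
  obtain ⟨α, a, h⟩ := Dg199.mono_succ m u β
  refine LSpan.congr (F := fun x => u a x * Dg199.mono m u α x)
    ((LSpan.self (A := A) (v := Dg199.mono m u) α).mul_left (hu a)) ?_
  exact Eventually.of_forall fun x => by rw [h x, mul_comm]

theorem LV.mono_pred {κ : Type} [Fintype κ] {m : ℕ} {u : Fin 2 → M → ℂ} {F : M → κ → ℂ} {q : M}
    (hu : ∀ a, ∀ᶠ x in 𝓝 q, SmN A (u a) x)
    (hF : LV A (Dg199.mono (m + 1) u) F q) : LV A (Dg199.mono m u) F q :=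
  lv_iff.2 fun k => LSpan.mono_pred hu (lv_iff.1 hF k)


end general

section diag

variable {n : ℕ} {X : Type} [TopologicalSpace X] (A : Atl n X)

/-- `z_a(x) - z_a(y)` in the chart `i` -/
def ud (i : A.ι) (a : Fin n) (q : X × X) : ℂ := A.e i q.1 a - A.e i q.2 a

variable {A}

theorem ud_diag (i : A.ι) (a : Fin n) (x : X) : ud A i a (x, x) = 0 := sub_self _

theorem coord_smN {i : A.ι} {p : X} (hp : p ∈ (A.e i).source) (a : Fin n) :
    SmN A (fun x => A.e i x a) p := by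
  refine ⟨i, hp, ?_⟩
  have h1 : ContDiffAt ℝ ∞ (fun z : Cn n => z a) (A.e i p) :=
    ((EuclideanSpace.proj (𝕜 := ℂ) a : Cn n →L[ℂ] ℂ).restrictScalars ℝ).contDiff.contDiffAt
  refine h1.congr_of_eventuallyEq ?_
  filter_upwards [(A.e i).open_target.mem_nhds ((A.e i).map_source hp)] with z hz
  rw [(A.e i).right_inv hz]

theorem smN_fst {W : Type} [NormedAddCommGroup W] [NormedSpace ℝ W] {f : X → W} {p : X × X}
    (hf : SmN A f p.1) : SmN (A.prod A) (fun q => f q.1) p := by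
  obtain ⟨i, hi, h⟩ := hf
  obtain ⟨j, hj⟩ := A.cover p.2
  refine ⟨(i, j), ⟨hi, hj⟩, ?_⟩
  have h0 : ContDiffAt ℝ ∞ (fun z => f ((A.e i).symm z)) (fstL n n (app (A.e i p.1) (A.e j p.2))) := by
    rw [fstL_app]; exact h
  exact ContDiffAt.comp (g := fun z => f ((A.e i).symm z)) (f := fun z => fstL n n z)
    (app (A.e i p.1) (A.e j p.2)) h0 ((fstL n n).restrictScalars ℝ).contDiff.contDiffAt

theorem smN_snd {W : Type} [NormedAddCommGroup W] [NormedSpace ℝ W] {f : X → W} {p : X × X}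
    (hf : SmN A f p.2) : SmN (A.prod A) (fun q => f q.2) p := by
  obtain ⟨i, hi, h⟩ := hf
  obtain ⟨j, hj⟩ := A.cover p.1
  refine ⟨(j, i), ⟨hj, hi⟩, ?_⟩
  have h0 : ContDiffAt ℝ ∞ (fun z => f ((A.e i).symm z)) (sndL n n (app (A.e j p.1) (A.e i p.2))) := by
    rw [sndL_app]; exact h
  exact ContDiffAt.comp (g := fun z => f ((A.e i).symm z)) (f := fun z => sndL n n z)
    (app (A.e j p.1) (A.e i p.2)) h0 ((sndL n n).restrictScalars ℝ).contDiff.contDiffAt

/-- restriction to the diagonal of a smooth function -/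
theorem smN_diag {W : Type} [NormedAddCommGroup W] [NormedSpace ℝ W] {f : X × X → W} {p : X}
    (hf : SmN (A.prod A) f (p, p)) : SmN A (fun x => f (x, x)) p := by
  obtain ⟨i, hi⟩ := A.cover p
  have h1 := (smN_iff (A := A.prod A) (i := (i, i)) (p := (p, p)) ⟨hi, hi⟩).1 hf
  refine ⟨i, hi, ?_⟩
  have h2 : ContDiffAt ℝ ∞ (fun z : Cn n => app z z) (A.e i p) := by
    have : ContDiff ℝ ∞ (fun z : Cn n => ((appL n n).restrictScalars ℝ) (z, z)) :=
      ((appL n n).restrictScalars ℝ).contDiff.comp (contDiff_id.prodMk contDiff_id)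
    exact this.contDiffAt
  have h3 := ContDiffAt.comp (g := fun z => f (((A.prod A).e (i, i)).symm z)) (A.e i p) h1 h2
  refine h3.congr_of_eventuallyEq (Eventually.of_forall fun z => ?_)
  simp only [Function.comp_apply, prodE_symm_app]

theorem tendsto_diag (p : X) : Tendsto (fun x : X => (x, x)) (𝓝 p) (𝓝 (p, p)) :=
  (continuous_id.prodMk continuous_id).tendsto p

theorem ud_smN {i : A.ι} {p : X × X} (h1 : p.1 ∈ (A.e i).source) (h2 : p.2 ∈ (A.e i).source)
    (a : Fin n) : SmN (A.prod A) (ud A i a) p :=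
  (smN_fst (coord_smN h1 a)).sub (smN_snd (coord_smN h2 a))

theorem ud_ev_smN {i : A.ι} {p : X} (hp : p ∈ (A.e i).source) (a : Fin n) :
    ∀ᶠ q in 𝓝 (p, p), SmN (A.prod A) (ud A i a) q := by
  have h : (A.e i).source ×ˢ (A.e i).source ∈ 𝓝 (p, p) :=
    ((A.e i).open_source.prod (A.e i).open_source).mem_nhds ⟨hp, hp⟩
  filter_upwards [h] with q hq using ud_smN hq.1 hq.2 a

/-- box neighbourhoods of diagonal points -/
def bx (x0 : Cn n) (r : ℝ) : Set (Cn (n + n)) :=
  {z | fstL n n z ∈ Metric.ball x0 r ∧ sndL n n z ∈ Metric.ball x0 r}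

theorem isOpen_bx (x0 : Cn n) (r : ℝ) : IsOpen (bx x0 r) :=
  (Metric.isOpen_ball.preimage (fstL n n).continuous).inter
    (Metric.isOpen_ball.preimage (sndL n n).continuous)

theorem convex_bx (x0 : Cn n) (r : ℝ) : Convex ℝ (bx x0 r) := by
  have h1 : Convex ℝ ((fstL n n : Cn (n + n) →L[ℂ] Cn n) ⁻¹' Metric.ball x0 r) :=
    (convex_ball x0 r).is_linear_preimage ⟨fun a b => map_add _ a b, fun c a => by
      exact ((fstL n n).restrictScalars ℝ).map_smul c a⟩
  have h2 : Convex ℝ ((sndL n n : Cn (n + n) →L[ℂ] Cn n) ⁻¹' Metric.ball x0 r) :=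
    (convex_ball x0 r).is_linear_preimage ⟨fun a b => map_add _ a b, fun c a => by
      exact ((sndL n n).restrictScalars ℝ).map_smul c a⟩
  exact h1.inter h2

theorem app_mem_bx {x0 : Cn n} {r : ℝ} {x y : Cn n} :
    app x y ∈ bx x0 r ↔ x ∈ Metric.ball x0 r ∧ y ∈ Metric.ball x0 r := by
  simp only [bx, mem_ofPred_eq, fstL_app, sndL_app]

theorem diag_mem_bx (x0 : Cn n) {r : ℝ} (hr : 0 < r) : app x0 x0 ∈ bx x0 r :=
  app_mem_bx.2 ⟨Metric.mem_ball_self hr, Metric.mem_ball_self hr⟩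


theorem exists_bx {x0 : Cn n} {P : Cn (n + n) → Prop} (h : ∀ᶠ z in 𝓝 (app x0 x0), P z) :
    ∃ r > 0, ∀ z ∈ bx x0 r, P z := by
  have h1 : ContinuousAt (fun p : Cn n × Cn n => app p.1 p.2) (x0, x0) :=
    (appL n n).continuous.continuousAt
  have h2 : ∀ᶠ p in 𝓝 (x0, x0), P (app p.1 p.2) := h1.eventually h
  rw [nhds_prod_eq] at h2
  obtain ⟨r, hr, hr2⟩ := ((Metric.nhds_basis_ball (x := x0)).prod_self).eventually_iff.1 h2
  refine ⟨r, hr, fun z hz => ?_⟩
  have := hr2 (x := (fstL n n z, sndL n n z)) ⟨hz.1, hz.2⟩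
  rwa [app_fstL_sndL] at this

/-- the chart `(i, i)` of `X × X` -/
def dI (i : A.ι) : (A.prod A).ι := (i, i)


theorem diag_mem_dI {i : A.ι} {p : X} (hp : p ∈ (A.e i).source) :
    (p, p) ∈ ((A.prod A).e (dI i)).source := ⟨hp, hp⟩

theorem dI_apply (i : A.ι) (q : X × X) : (A.prod A).e (dI i) q = app (A.e i q.1) (A.e i q.2) := rfl

theorem dI_diag (i : A.ι) (p : X) : (A.prod A).e (dI i) (p, p) = app (A.e i p) (A.e i p) := rfl

theorem dI_symm_app (i : A.ι) (x y : Cn n) :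
    ((A.prod A).e (dI i)).symm (app x y) = ((A.e i).symm x, (A.e i).symm y) :=
  prod_e_symm_app A A i i x y



section change

variable (A) in
/-- the mean value coefficients -/
def Hm (i j : A.ι) (b a : Fin n) (z : Cn (n + n)) : ℂ :=
  ∫ t in (0 : ℝ)..1, A.J i j ((A.e i).symm (sndL n n z + t • (fstL n n z - sndL n n z))) b a

theorem seg_mem {x0 : Cn n} {r : ℝ} {z : Cn (n + n)} (hz : z ∈ bx x0 r) {t : ℝ}
    (ht : t ∈ Icc (0 : ℝ) 1) :
    sndL n n z + t • (fstL n n z - sndL n n z) ∈ Metric.ball x0 r := by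
  have := (convex_ball x0 r).add_smul_sub_mem hz.2 hz.1 ht
  exact this

theorem seg_contDiff : ContDiff ℝ ∞ (fun x : Cn (n + n) × ℝ =>
    sndL n n x.1 + x.2 • (fstL n n x.1 - sndL n n x.1)) := by
  have h1 : ContDiff ℝ ∞ (fun x : Cn (n + n) × ℝ => fstL n n x.1) :=
    ((fstL n n).restrictScalars ℝ).contDiff.comp contDiff_fst
  have h2 : ContDiff ℝ ∞ (fun x : Cn (n + n) × ℝ => sndL n n x.1) :=
    ((sndL n n).restrictScalars ℝ).contDiff.comp contDiff_fst
  exact h2.add (contDiff_snd.smul (h1.sub h2))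

theorem Hm_smooth {i j : A.ι} {x0 : Cn n} {r : ℝ} (hb : Metric.ball x0 r ⊆ A.ov i j)
    (b a : Fin n) : ContDiffOn ℝ ∞ (Hm A i j b a) (bx x0 r) := by
  have hJ := (SmR425.contDiffOn_trans A i j)
  have hJ2 : ContDiffOn ℝ ∞ (fun z => A.J i j ((A.e i).symm z) b a) (A.ov i j) := by
    have h1 : AnalyticOnNhd ℂ (fun z => A.e j ((A.e i).symm z)) (A.ov i j) :=
      Crest.Agent.R266.SCV.analyticOnNhd_of_differentiableOn (isOpen_ov i j) (A.holo i j)
    have h2 : AnalyticOnNhd ℂ (fderiv ℂ (fun z => A.e j ((A.e i).symm z))) (A.ov i j) := h1.fderiv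
    have h3 : ContDiffOn ℂ ∞ (fderiv ℂ (fun z => A.e j ((A.e i).symm z))) (A.ov i j) :=
      fun z hz => ((h2 z hz).contDiffAt (n := ∞)).contDiffWithinAt
    have h4 : ContDiffOn ℂ ∞ (fun z => (EuclideanSpace.proj (𝕜 := ℂ) b)
        (fderiv ℂ (fun z => A.e j ((A.e i).symm z)) z (EuclideanSpace.single a 1)))
        (A.ov i j) :=
      (EuclideanSpace.proj (𝕜 := ℂ) b).contDiff.comp_contDiffOn
        (h3.clm_apply contDiffOn_const)
    refine (h4.restrict_scalars ℝ).congr fun z hz => ?_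
    unfold Atl.J
    rw [(A.e i).right_inv hz.1]
    rfl
  have h1 : ContDiffOn ℝ ∞ (fun x : Cn (n + n) × ℝ => A.J i j ((A.e i).symm
      (sndL n n x.1 + x.2 • (fstL n n x.1 - sndL n n x.1))) b a) (bx x0 r ×ˢ Icc (0 : ℝ) 1) :=
    hJ2.comp seg_contDiff.contDiffOn fun x hx => hb (seg_mem hx.1 hx.2)
  exact R213.ParamInt.contDiffOn_param (convex_bx x0 r) (isOpen_bx x0 r).uniqueDiffOn
    zero_lt_one h1

theorem Hm_eq {i j : A.ι} {x0 : Cn n} {r : ℝ} (hb : Metric.ball x0 r ⊆ A.ov i j) {z : Cn (n + n)}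
    (hz : z ∈ bx x0 r) (b : Fin n) :
    A.e j ((A.e i).symm (fstL n n z)) b - A.e j ((A.e i).symm (sndL n n z)) b =
      ∑ a, (fstL n n z a - sndL n n z a) * Hm A i j b a z := by
  set x := fstL n n z with hx
  set y := sndL n n z with hy
  have hmem : ∀ t ∈ Icc (0 : ℝ) 1, y + t • (x - y) ∈ A.ov i j := fun t ht => hb (seg_mem hz ht)
  have hder : ∀ t ∈ uIcc (0 : ℝ) 1, HasDerivAt
      (fun t : ℝ => A.e j ((A.e i).symm (y + t • (x - y))) b)
      (∑ a, (x a - y a) * A.J i j ((A.e i).symm (y + t • (x - y))) b a) t := by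
    intro t ht
    rw [uIcc_of_le zero_le_one] at ht
    have h1 : HasDerivAt (fun t : ℝ => y + t • (x - y)) (x - y) t := by
      have := ((hasDerivAt_id t).smul_const (x - y)).const_add y
      simpa using this
    have h2 : HasFDerivAt (fun z => A.e j ((A.e i).symm z))
        (fderiv ℂ (fun z => A.e j ((A.e i).symm z)) (y + t • (x - y))) (y + t • (x - y)) :=
      ((A.holo i j).differentiableAt ((isOpen_ov i j).mem_nhds (hmem t ht))).hasFDerivAt
    have h3 : HasFDerivAt (𝕜 := ℝ) (fun z => A.e j ((A.e i).symm z) b)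
        (((EuclideanSpace.proj (𝕜 := ℂ) b).comp
          (fderiv ℂ (fun z => A.e j ((A.e i).symm z)) (y + t • (x - y)))).restrictScalars ℝ)
        (y + t • (x - y)) :=
      (((EuclideanSpace.proj (𝕜 := ℂ) b).hasFDerivAt).comp _ h2).restrictScalars ℝ
    have h4 := h3.comp_hasDerivAt t h1
    refine h4.congr_deriv ?_
    have e : ∀ a, A.J i j ((A.e i).symm (y + t • (x - y))) b a =
        (fderiv ℂ (fun z => A.e j ((A.e i).symm z)) (y + t • (x - y))
          (EuclideanSpace.single a 1)) b := by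
      intro a
      unfold Atl.J
      rw [(A.e i).right_inv (hmem t ht).1]
    simp only [e]
    have h5 : ∀ (L : Cn n →L[ℂ] Cn n), (L (x - y)) b =
        ∑ a, (x a - y a) * (L (EuclideanSpace.single a 1)) b := by
      intro L
      have hv : x - y = ∑ a, (x a - y a) • EuclideanSpace.single a (1 : ℂ) := by
        ext c
        simp [Pi.single_apply]
      conv_lhs => rw [hv]
      simp only [map_sum, map_smul, WithLp.ofLp_sum, WithLp.ofLp_smul, Finset.sum_apply,
        Pi.smul_apply, smul_eq_mul]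
    exact h5 _
  have hcont : ContinuousOn (fun t : ℝ => ∑ a, (x a - y a) *
      A.J i j ((A.e i).symm (y + t • (x - y))) b a) (uIcc (0 : ℝ) 1) := by
    rw [uIcc_of_le zero_le_one]
    refine continuousOn_finsetSum _ fun a _ => continuousOn_const.mul ?_
    have h1 : AnalyticOnNhd ℂ (fun z => A.e j ((A.e i).symm z)) (A.ov i j) :=
      Crest.Agent.R266.SCV.analyticOnNhd_of_differentiableOn (isOpen_ov i j) (A.holo i j)
    have h2 : ContinuousOn (fderiv ℂ (fun z => A.e j ((A.e i).symm z))) (A.ov i j) :=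
      h1.fderiv.continuousOn
    have h3 : ContinuousOn (fun z => (EuclideanSpace.proj (𝕜 := ℂ) b)
        (fderiv ℂ (fun z => A.e j ((A.e i).symm z)) z (EuclideanSpace.single a 1)))
        (A.ov i j) :=
      (EuclideanSpace.proj (𝕜 := ℂ) b).continuous.comp_continuousOn
        (h2.clm_apply continuousOn_const)
    have h4 : ContinuousOn (fun z => A.J i j ((A.e i).symm z) b a) (A.ov i j) := by
      refine h3.congr fun z hz => ?_
      unfold Atl.J
      rw [(A.e i).right_inv hz.1]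
      rfl
    exact h4.comp (by fun_prop) hmem
  have hint := intervalIntegral.integral_eq_sub_of_hasDerivAt hder hcont.intervalIntegrable
  rw [one_smul, zero_smul, add_zero, add_sub_cancel] at hint
  rw [← hint, intervalIntegral.integral_finsetSum]
  · refine Finset.sum_congr rfl fun a _ => ?_
    rw [intervalIntegral.integral_const_mul]
    rfl
  · intro a _
    have h1 : AnalyticOnNhd ℂ (fun z => A.e j ((A.e i).symm z)) (A.ov i j) :=
      Crest.Agent.R266.SCV.analyticOnNhd_of_differentiableOn (isOpen_ov i j) (A.holo i j)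
    have h2 : ContinuousOn (fderiv ℂ (fun z => A.e j ((A.e i).symm z))) (A.ov i j) :=
      h1.fderiv.continuousOn
    have h3 : ContinuousOn (fun z => (EuclideanSpace.proj (𝕜 := ℂ) b)
        (fderiv ℂ (fun z => A.e j ((A.e i).symm z)) z (EuclideanSpace.single a 1)))
        (A.ov i j) :=
      (EuclideanSpace.proj (𝕜 := ℂ) b).continuous.comp_continuousOn
        (h2.clm_apply continuousOn_const)
    have h4 : ContinuousOn (fun z => A.J i j ((A.e i).symm z) b a) (A.ov i j) := by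
      refine h3.congr fun z hz => ?_
      unfold Atl.J
      rw [(A.e i).right_inv hz.1]
      rfl
    have h5 : ContinuousOn (fun t : ℝ => A.J i j ((A.e i).symm (y + t • (x - y))) b a)
        (Icc (0 : ℝ) 1) := h4.comp (by fun_prop) hmem
    exact (continuousOn_const.mul h5).intervalIntegrable_of_Icc zero_le_one

theorem Hm_diag (i j : A.ι) (b a : Fin n) (w : Cn n) :
    Hm A i j b a (app w w) = A.J i j ((A.e i).symm w) b a := by
  unfold Hm
  simp only [fstL_app, sndL_app, sub_self, smul_zero, add_zero]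
  simp

/-- **change of charts for the equations of the diagonal** -/
theorem ud_change {i j : A.ι} {p : X} (hp : p ∈ (A.e i).source ∩ (A.e j).source) :
    ∃ h : Fin n → Fin n → X × X → ℂ,
      (∀ b a, ∀ᶠ q in 𝓝 (p, p), SmN (A.prod A) (h b a) q) ∧
      (∀ᶠ q in 𝓝 (p, p), ∀ b, ud A j b q = ∑ a, ud A i a q * h b a q) ∧
      ∀ᶠ x in 𝓝 p, ∀ b a, h b a (x, x) = A.J i j x b a := by
  obtain ⟨r, hr, hb⟩ := Metric.isOpen_iff.1 (isOpen_ov i j) _ (mem_ov hp)
  have hbx : ∀ᶠ q in 𝓝 (p, p), (A.prod A).e (dI i) q ∈ bx (A.e i p) r := by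
    refine ev_chart (A := A.prod A) (i := dI i) (p := (p, p)) ⟨hp.1, hp.1⟩ ?_
    exact (isOpen_bx _ _).mem_nhds (diag_mem_bx _ hr)
  have hs : ∀ᶠ q in 𝓝 (p, p), q ∈ (A.e i).source ×ˢ (A.e i).source :=
    ((A.e i).open_source.prod (A.e i).open_source).mem_nhds ⟨hp.1, hp.1⟩
  refine ⟨fun b a q => Hm A i j b a ((A.prod A).e (dI i) q), fun b a => ?_, ?_, ?_⟩
  · refine smN_of_chart (A := A.prod A) (i := dI i) (q := (p, p)) ⟨hp.1, hp.1⟩
      (O := bx (A.e i p) r ∩ ((A.prod A).e (dI i)).target)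
      ((isOpen_bx _ _).inter ((A.prod A).e (dI i)).open_target)
      ⟨diag_mem_bx _ hr, ((A.prod A).e (dI i)).map_source ⟨hp.1, hp.1⟩⟩ ?_
    refine ((Hm_smooth hb b a).mono inter_subset_left).congr fun z hz => ?_
    show Hm A i j b a _ = _
    rw [((A.prod A).e (dI i)).right_inv hz.2]
  · filter_upwards [hbx, hs] with q h1 h2 b
    have h3 := Hm_eq hb h1 b
    have e1 : fstL n n ((A.prod A).e (dI i) q) = A.e i q.1 := fstL_app _ _
    have e2 : sndL n n ((A.prod A).e (dI i) q) = A.e i q.2 := sndL_app _ _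
    rw [e1, e2, (A.e i).left_inv h2.1, (A.e i).left_inv h2.2] at h3
    exact h3
  · have h3 : ∀ᶠ x in 𝓝 p, x ∈ (A.e i).source := (A.e i).open_source.mem_nhds hp.1
    filter_upwards [h3] with x hx b a
    show Hm A i j b a (app (A.e i x) (A.e i x)) = _
    rw [Hm_diag, (A.e i).left_inv hx]

end change

end diag

end

end Crest.Agent.R275.NA4783
end

-- ▼ part R275/NA4d_783

/-!
# R275, NA4 (helper783), part d: the filtration `Fm` and the chart form of `nab`

* `VD` : adapted coordinates `x`, `u = x - y` on `Cn (2 + 2)`;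
* `FAt`, `Fm B m` : sections vanishing to order `m` along the diagonal;
* `carD B` : fibre operators in the adapted frame, `nab_chart : nab = Dbar` in the charts `(i,i)`.
-/

set_option autoImplicit false
set_option linter.unusedSectionVars false

open Set Filter Topology Complex MeasureTheory
open scoped ContDiff Matrix ComplexConjugate
open Crest.Agent.R275.Geo Crest.Agent.R275.Smf798 Crest.Agent.R275.Dg199 Crest.Agent.R275.Prod363
open Crest.Agent.R275.SmR425

namespace Crest.Agent.R275.NA4783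

noncomputable section

/-- adapted coordinates on the product of two surfaces -/
def VD : Vert 2 2 (Cn (2 + 2)) where
  u a := (EuclideanSpace.proj (𝕜 := ℂ) (Fin.castAdd 2 a) : Cn (2 + 2) →L[ℂ] ℂ) -
    (EuclideanSpace.proj (𝕜 := ℂ) (Fin.natAdd 2 a) : Cn (2 + 2) →L[ℂ] ℂ)
  nv j := - EuclideanSpace.single (Fin.natAdd 2 j) 1
  bv a := EuclideanSpace.single (Fin.castAdd 2 a) 1 + EuclideanSpace.single (Fin.natAdd 2 a) 1
  u_nv j k := by
    have h1 : (Fin.castAdd 2 j : Fin (2 + 2)) ≠ Fin.natAdd 2 k := castAdd_ne_natAdd j k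
    have h2 : ((Fin.natAdd 2 j : Fin (2 + 2)) = Fin.natAdd 2 k) ↔ j = k :=
      ⟨fun h => Fin.natAdd_injective _ _ h, fun h => by rw [h]⟩
    show (-(EuclideanSpace.single (Fin.natAdd 2 k) (1 : ℂ) : Cn (2 + 2))) (Fin.castAdd 2 j) -
      (-(EuclideanSpace.single (Fin.natAdd 2 k) (1 : ℂ) : Cn (2 + 2))) (Fin.natAdd 2 j) = _
    simp only [PiLp.neg_apply, PiLp.single_apply]
    rw [if_neg h1]
    simp only [h2]
    split_ifs <;> simp
  u_bv j a := by
    have h1 : (Fin.castAdd 2 j : Fin (2 + 2)) ≠ Fin.natAdd 2 a := castAdd_ne_natAdd j a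
    have h3 : (Fin.natAdd 2 j : Fin (2 + 2)) ≠ Fin.castAdd 2 a := (castAdd_ne_natAdd a j).symm
    have h2 : ((Fin.natAdd 2 j : Fin (2 + 2)) = Fin.natAdd 2 a) ↔ j = a :=
      ⟨fun h => Fin.natAdd_injective _ _ h, fun h => by rw [h]⟩
    have h4 : ((Fin.castAdd 2 j : Fin (2 + 2)) = Fin.castAdd 2 a) ↔ j = a :=
      ⟨fun h => Fin.castAdd_injective _ _ h, fun h => by rw [h]⟩
    show (EuclideanSpace.single (Fin.castAdd 2 a) (1 : ℂ) +
        EuclideanSpace.single (Fin.natAdd 2 a) (1 : ℂ) : Cn (2 + 2)) (Fin.castAdd 2 j) -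
      (EuclideanSpace.single (Fin.castAdd 2 a) (1 : ℂ) +
        EuclideanSpace.single (Fin.natAdd 2 a) (1 : ℂ) : Cn (2 + 2)) (Fin.natAdd 2 j) = _
    simp only [PiLp.add_apply, PiLp.single_apply]
    rw [if_neg h1, if_neg h3]
    simp only [h2, h4]
    split_ifs <;> simp

section appl
variable {n m : ℕ}

theorem app_neg (x : Cn n) (y : Cn m) : app (-x) (-y) = - app x y :=
  ext_prod (by rw [map_neg, fstL_app, fstL_app]) (by rw [map_neg, sndL_app, sndL_app])

theorem app_add (x x' : Cn n) (y y' : Cn m) : app (x + x') (y + y') = app x y + app x' y' :=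
  ext_prod (by rw [map_add, fstL_app, fstL_app, fstL_app])
    (by rw [map_add, sndL_app, sndL_app, sndL_app])


theorem app_smul (c : ℂ) (x : Cn n) (y : Cn m) : app (c • x) (c • y) = c • app x y :=
  ext_prod (by rw [map_smul, fstL_app, fstL_app]) (by rw [map_smul, sndL_app, sndL_app])

end appl

theorem VD_u (a : Fin 2) (z : Cn (2 + 2)) : VD.u a z = fstL 2 2 z a - sndL 2 2 z a := rfl

theorem VD_q (z : Cn (2 + 2)) : VD.q z = app 0 (-(fstL 2 2 z - sndL 2 2 z)) := by
  rw [VD.q_apply]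
  have h1 : ∀ j, VD.u j z • VD.nv j = app (0 : Cn 2) (-(VD.u j z • EuclideanSpace.single j (1 : ℂ))) := by
    intro j
    have h0 : VD.nv j = - EuclideanSpace.single (Fin.natAdd 2 j) 1 := rfl
    rw [h0, ← app_single_right, ← app_neg, neg_zero, ← app_smul, smul_zero, smul_neg]
  simp only [h1]
  refine ext_prod ?_ ?_
  · rw [map_sum]
    simp only [fstL_app, Finset.sum_const_zero]
  · rw [map_sum]
    simp only [sndL_app, Finset.sum_neg_distrib]
    congr 1
    ext b
    simp only [WithLp.ofLp_sum, WithLp.ofLp_smul, Finset.sum_apply, Pi.smul_apply,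
      PiLp.single_apply, smul_eq_mul, mul_ite, mul_one, mul_zero, Finset.sum_ite_eq,
      Finset.mem_univ, if_true]
    rfl

theorem VD_ms (s : ℝ) (z : Cn (2 + 2)) :
    VD.ms s z = app (fstL 2 2 z) (fstL 2 2 z - s • (fstL 2 2 z - sndL 2 2 z)) := by
  rw [VD.ms_apply, VD_q]
  refine ext_prod ?_ ?_
  · rw [map_sub, map_smul, fstL_app, fstL_app, smul_zero, sub_zero]
  · have hr : ∀ v : Cn 2, s • v = (s : ℂ) • v := fun v => rfl
    rw [map_sub, map_smul, sndL_app, sndL_app, hr]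
    push_cast
    module

theorem VD_ms_zero (z : Cn (2 + 2)) : VD.ms 0 z = app (fstL 2 2 z) (fstL 2 2 z) := by
  rw [VD_ms, zero_smul, sub_zero]

theorem star_bx (x0 : Cn 2) (r : ℝ) : VD.Star (bx x0 r) := by
  intro z hz s hs
  rw [VD_ms, app_mem_bx]
  refine ⟨hz.1, ?_⟩
  have h := (convex_ball x0 r).add_smul_sub_mem hz.1 hz.2 hs
  have e : fstL 2 2 z - s • (fstL 2 2 z - sndL 2 2 z) =
      fstL 2 2 z + s • (sndL 2 2 z - fstL 2 2 z) := by module
  rw [e]
  exact h

theorem dbj_eq_dbv {n : ℕ} {W : Type} [NormedAddCommGroup W] [NormedSpace ℂ W] (a : Fin n)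
    (f : Cn n → W) (z : Cn n) : dbj a f z = dbv (EuclideanSpace.single a 1) f z := by
  have hI : I • (EuclideanSpace.single a 1 : Cn n) = EuclideanSpace.single a I := by
    ext b
    simp [PiLp.single_apply]
  rw [dbj, dbv, hI]

theorem dbv_add_vec {Z V : Type} [NormedAddCommGroup Z] [NormedSpace ℂ Z] [NormedAddCommGroup V]
    [NormedSpace ℂ V] (v w : Z) (f : Z → V) (p : Z) :
    dbv (v + w) f p = dbv v f p + dbv w f p := by
  simp only [dbv, map_add, smul_add]
  abel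

theorem dbv_neg_vec {Z V : Type} [NormedAddCommGroup Z] [NormedSpace ℂ Z] [NormedAddCommGroup V]
    [NormedSpace ℂ V] (v : Z) (f : Z → V) (p : Z) : dbv (-v) f p = - dbv v f p := by
  simp only [dbv, map_neg, smul_neg]
  rw [← neg_add, smul_neg]

variable {X : Type} [TopologicalSpace X] {A : Atl 2 X}

theorem ud_eq_VD (i : A.ι) (a : Fin 2) (q : X × X) :
    ud A i a q = VD.u a ((A.prod A).e (dI i) q) := by
  rw [VD_u, dI_apply, fstL_app, sndL_app]
  rfl

section F

variable {B : FBun (A.prod A)}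

/-- `w` vanishes to order `m` along the diagonal, near `(p, p)` -/
def FAt (m : ℕ) (w : Sec B) (p : X) : Prop :=
  ∀ i : A.ι, p ∈ (A.e i).source → ∀ k : B.κ,
    LSpan (A.prod A) (Dg199.mono m (ud A i)) (fun q => w.1 (dI i) q k) (p, p)

theorem FAt.lv {m : ℕ} {w : Sec B} {p : X} (h : FAt m w p) {i : A.ι} (hi : p ∈ (A.e i).source) :
    LV (A.prod A) (Dg199.mono m (ud A i)) (w.1 (dI i)) (p, p) := lv_iff.2 (h i hi)

theorem ud_lspan {i j : A.ι} {p : X} (hi : p ∈ (A.e i).source) (hj : p ∈ (A.e j).source)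
    (b : Fin 2) : LSpan (A.prod A) (ud A i) (ud A j b) (p, p) := by
  obtain ⟨h, h1, h2, -⟩ := ud_change ⟨hi, hj⟩
  exact ⟨h b, h1 b, by filter_upwards [h2] with q hq using hq b⟩

theorem tau_smN {i j : A.ι} {p : X} (hi : p ∈ (A.e i).source) (hj : p ∈ (A.e j).source)
    (k l : B.κ) : ∀ᶠ q in 𝓝 (p, p), SmN (A.prod A) (fun q => B.τ (dI i) (dI j) q k l) q := by
  have h : ((A.prod A).e (dI i)).source ∩ ((A.prod A).e (dI j)).source ∈ 𝓝 (p, p) :=
    (((A.prod A).e (dI i)).open_source.inter ((A.prod A).e (dI j)).open_source).mem_nhds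
      ⟨diag_mem_dI hi, diag_mem_dI hj⟩
  filter_upwards [h] with q hq
  exact ⟨dI i, hq.1, (B.τ_smooth (dI i) (dI j) k l).contDiffAt
    ((isOpen_ov (A := A.prod A) (dI i) (dI j)).mem_nhds (mem_ov hq))⟩

/-- the condition may be checked in one chart -/
theorem FAt.of_chart {m : ℕ} {w : Sec B} {p : X} {j : A.ι} (hj : p ∈ (A.e j).source)
    (h : LV (A.prod A) (Dg199.mono m (ud A j)) (w.1 (dI j)) (p, p)) : FAt m w p := by
  intro i hi
  rw [← lv_iff]
  have h1 : LV (A.prod A) (Dg199.mono m (ud A i)) (w.1 (dI j)) (p, p) :=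
    h.mono_change fun b => ud_lspan hi hj b
  refine (h1.mulVec (T := fun q => B.τ (dI i) (dI j) q) fun k l => tau_smN hi hj k l).congr ?_
  have h2 : ((A.prod A).e (dI i)).source ∩ ((A.prod A).e (dI j)).source ∈ 𝓝 (p, p) :=
    (((A.prod A).e (dI i)).open_source.inter ((A.prod A).e (dI j)).open_source).mem_nhds
      ⟨diag_mem_dI hi, diag_mem_dI hj⟩
  filter_upwards [h2] with q hq
  exact Sec.tr B w.2 hq

theorem FAt.congr {m : ℕ} {w w' : Sec B} {p : X} (h : FAt m w p) {j : A.ι}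
    (hj : p ∈ (A.e j).source) (he : w'.1 (dI j) =ᶠ[𝓝 (p, p)] w.1 (dI j)) : FAt m w' p :=
  FAt.of_chart hj ((h.lv hj).congr he)

theorem FAt.of_ev_zero {m : ℕ} {w : Sec B} {p : X} {j : A.ι} (hj : p ∈ (A.e j).source)
    (he : ∀ᶠ q in 𝓝 (p, p), w.1 (dI j) q = 0) : FAt m w p :=
  FAt.of_chart hj (LV.of_ev_zero he)

theorem FAt.add {m : ℕ} {w w' : Sec B} {p : X} (h : FAt m w p) (h' : FAt m w' p) :
    FAt m (w + w') p := by
  obtain ⟨j, hj⟩ := A.cover p
  exact FAt.of_chart hj ((h.lv hj).add (h'.lv hj))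

theorem FAt.zero (m : ℕ) (p : X) : FAt m (0 : Sec B) p := by
  obtain ⟨j, hj⟩ := A.cover p
  exact FAt.of_ev_zero hj (Eventually.of_forall fun q => rfl)

theorem FAt.smul {m : ℕ} {w : Sec B} {p : X} (h : FAt m w p) (f : smf (A.prod A)) :
    FAt m (f • w) p := by
  obtain ⟨j, hj⟩ := A.cover p
  exact FAt.of_chart hj ((h.lv hj).smul (Eventually.of_forall fun q => smN_of_mem f q))

theorem FAt.csmul {m : ℕ} {w : Sec B} {p : X} (h : FAt m w p) (c : ℂ) :
    FAt m (c • w) p := by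
  obtain ⟨j, hj⟩ := A.cover p
  exact FAt.of_chart hj ((h.lv hj).smul (f := fun _ => c) (Eventually.of_forall fun q => smN_const c q))

theorem FAt.neg {m : ℕ} {w : Sec B} {p : X} (h : FAt m w p) : FAt m (-w) p := by
  obtain ⟨j, hj⟩ := A.cover p
  exact FAt.of_chart hj (h.lv hj).neg

theorem FAt.sub {m : ℕ} {w w' : Sec B} {p : X} (h : FAt m w p) (h' : FAt m w' p) :
    FAt m (w - w') p := by
  obtain ⟨j, hj⟩ := A.cover p
  exact FAt.of_chart hj ((h.lv hj).sub (h'.lv hj))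

theorem FAt.sum {m : ℕ} {τ : Type} {s : Finset τ} {w : τ → Sec B} {p : X}
    (h : ∀ t ∈ s, FAt m (w t) p) : FAt m (∑ t ∈ s, w t) p := by
  classical
  induction s using Finset.induction_on with
  | empty => simpa using FAt.zero m p
  | insert a s ha ih =>
    rw [Finset.sum_insert ha]
    exact (h a (Finset.mem_insert_self a s)).add
      (ih fun b hb => h b (Finset.mem_insert_of_mem hb))

theorem FAt.pred {m : ℕ} {w : Sec B} {p : X} (h : FAt (m + 1) w p) : FAt m w p := by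
  obtain ⟨j, hj⟩ := A.cover p
  exact FAt.of_chart hj ((h.lv hj).mono_pred fun a => ud_ev_smN hj a)


variable (B) in
/-- sections vanishing to order `m` along the diagonal -/
def Fm (m : ℕ) : Submodule (smf (A.prod A)) (Sec B) where
  carrier := {w | ∀ p, FAt m w p}
  add_mem' h h' p := (h p).add (h' p)
  zero_mem' p := FAt.zero m p
  smul_mem' f _ h p := (h p).smul f

theorem mem_Fm {m : ℕ} {w : Sec B} : w ∈ Fm B m ↔ ∀ p, FAt m w p := Iff.rfl

theorem mem_Fm_iff {m : ℕ} {w : Sec B} : w ∈ Fm B m ↔ ∀ (i : A.ι), ∀ p ∈ (A.e i).source,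
    ∀ k : B.κ, LSpan (A.prod A) (Dg199.mono m (ud A i)) (fun q => w.1 (dI i) q k) (p, p) :=
  ⟨fun h i p hp => h p i hp, fun h p i hp => h i p hp⟩


theorem Fm_succ_le (m : ℕ) : Fm B (m + 1) ≤ Fm B m := fun _ h p => (h p).pred

/-- `∂̄` in the chart preserves the ideal powers -/
theorem LV.db {κ : Type} [Fintype κ] {i : A.ι} {p : X} (hp : p ∈ (A.e i).source) {m : ℕ}
    {F : X × X → κ → ℂ} (h : LV (A.prod A) (Dg199.mono m (ud A i)) F (p, p)) (a : Fin (2 + 2)) :
    LV (A.prod A) (Dg199.mono m (ud A i)) ((A.prod A).db (dI i) a F) (p, p) := by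
  have hu : ∀ a, ∀ᶠ q in 𝓝 (p, p), ud A i a q = VD.u a ((A.prod A).e (dI i) q) := fun a =>
    Eventually.of_forall fun q => ud_eq_VD i a q
  obtain ⟨O, hO, hpO, hOt, g, hg, hf⟩ := LV.toJP VD (diag_mem_dI hp) hu h
  have h1 : JP VD O m (fun z => F (((A.prod A).e (dI i)).symm z)) := JP.of_rep hg hf
  refine JP.toLV VD (diag_mem_dI hp) hu hO hpO (h1.dbv hO (EuclideanSpace.single a 1)) ?_
  exact Eventually.of_forall fun q => dbj_eq_dbv a _ _

theorem alpha_smN {i : A.ι} {p : X} (hi : p ∈ (A.e i).source)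
    (k l : B.κ) : ∀ᶠ q in 𝓝 (p, p), SmN (A.prod A) (fun q => B.α (dI i) q k l) q := by
  have h : ((A.prod A).e (dI i)).source ∈ 𝓝 (p, p) :=
    ((A.prod A).e (dI i)).open_source.mem_nhds (diag_mem_dI hi)
  filter_upwards [h] with q hq
  exact ⟨dI i, hq, (B.α_smooth (dI i) k l).contDiffAt
    (((A.prod A).e (dI i)).open_target.mem_nhds (((A.prod A).e (dI i)).map_source hq))⟩

theorem FAt.nab {m : ℕ} {w : Sec B} {p : X} (h : FAt m w p) : FAt m (nabL B w) p := by
  obtain ⟨i, hi⟩ := A.cover p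
  refine FAt.of_chart hi ?_
  have h1 : LV (A.prod A) (Dg199.mono m (ud A i)) (fun q => (∑ a, (B.e a) *ᵥ
      ((A.prod A).db (dI i) a (w.1 (dI i)) q)) + (B.α (dI i) q) *ᵥ (w.1 (dI i) q)) (p, p) := by
    refine LV.add (LV.sum fun a _ => ?_) ?_
    · exact LV.mulVec (T := fun _ => B.e a) (fun k l => Eventually.of_forall fun x => smN_const _ x)
        (LV.db hi (h.lv hi) a)
    · exact LV.mulVec (fun k l => alpha_smN hi k l) (h.lv hi)
  refine h1.congr ?_
  have h2 : ((A.prod A).e (dI i)).source ∈ 𝓝 (p, p) :=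
    ((A.prod A).e (dI i)).open_source.mem_nhds (diag_mem_dI hi)
  filter_upwards [h2] with q hq
  exact nab_apply B hq

theorem Fm_nab {m : ℕ} {w : Sec B} (h : w ∈ Fm B m) : nabL B w ∈ Fm B m := fun p => (h p).nab

end F

/-! ### fibre operators in the adapted frame -/

section fibre

/-- matrices as continuous linear maps -/
def mvL {κ κ' : Type} [Fintype κ] [DecidableEq κ] [Fintype κ'] (T : Matrix κ' κ ℂ) :
    (κ → ℂ) →L[ℂ] (κ' → ℂ) :=
  LinearMap.toContinuousLinearMap (Matrix.mulVecLin T)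

variable {κ κ' κ'' : Type} [Fintype κ] [DecidableEq κ] [Fintype κ'] [DecidableEq κ'] [Fintype κ'']

@[simp] theorem mvL_apply (T : Matrix κ' κ ℂ) (v : κ → ℂ) : mvL T v = T *ᵥ v := rfl

theorem mvL_mul (S T : Matrix κ κ ℂ) : mvL (S * T) = mvL S * mvL T := by
  ext1 v
  show (S * T) *ᵥ v = S *ᵥ (T *ᵥ v)
  rw [Matrix.mulVec_mulVec]

theorem mvL_add (S T : Matrix κ' κ ℂ) : mvL (S + T) = mvL S + mvL T := by
  ext1 v
  exact Matrix.add_mulVec _ _ _

theorem mvL_one : mvL (1 : Matrix κ κ ℂ) = 1 := by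
  ext1 v
  exact Matrix.one_mulVec _

theorem mvL_zero : mvL (0 : Matrix κ' κ ℂ) = 0 := by
  ext1 v
  exact Matrix.zero_mulVec _


theorem mvL_sub (S T : Matrix κ' κ ℂ) : mvL (S - T) = mvL S - mvL T := by
  ext1 v
  exact Matrix.sub_mulVec _ _ _

/-- anticommutators of matrices and operators -/
theorem mvL_anti (S T : Matrix κ κ ℂ) : mvL S * mvL T + mvL T * mvL S = mvL (S * T + T * S) := by
  rw [mvL_add, mvL_mul, mvL_mul]

/-- the fibre operators of `B` in the frame adapted to `x`, `u = x - y` -/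
def carD (B : FBun (A.prod A)) : Car 2 (B.κ → ℂ) where
  ex a := mvL (B.e (Fin.castAdd 2 a))
  e j := mvL (B.e (Fin.castAdd 2 j) - B.e (Fin.natAdd 2 j))
  io j := mvL (- B.io (Fin.natAdd 2 j))
  ee j k := by
    rw [mvL_anti, ← mvL_zero]
    congr 1
    have h1 := B.ee (Fin.castAdd 2 j) (Fin.castAdd 2 k)
    have h2 := B.ee (Fin.castAdd 2 j) (Fin.natAdd 2 k)
    have h3 := B.ee (Fin.natAdd 2 j) (Fin.castAdd 2 k)
    have h4 := B.ee (Fin.natAdd 2 j) (Fin.natAdd 2 k)
    have e : (B.e (Fin.castAdd 2 j) - B.e (Fin.natAdd 2 j)) *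
        (B.e (Fin.castAdd 2 k) - B.e (Fin.natAdd 2 k)) +
        (B.e (Fin.castAdd 2 k) - B.e (Fin.natAdd 2 k)) *
        (B.e (Fin.castAdd 2 j) - B.e (Fin.natAdd 2 j)) =
        (B.e (Fin.castAdd 2 j) * B.e (Fin.castAdd 2 k) + B.e (Fin.castAdd 2 k) *
          B.e (Fin.castAdd 2 j)) -
        (B.e (Fin.castAdd 2 j) * B.e (Fin.natAdd 2 k) + B.e (Fin.natAdd 2 k) *
          B.e (Fin.castAdd 2 j)) -
        (B.e (Fin.natAdd 2 j) * B.e (Fin.castAdd 2 k) + B.e (Fin.castAdd 2 k) *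
          B.e (Fin.natAdd 2 j)) +
        (B.e (Fin.natAdd 2 j) * B.e (Fin.natAdd 2 k) + B.e (Fin.natAdd 2 k) *
          B.e (Fin.natAdd 2 j)) := by noncomm_ring
    rw [e, h1, h2, h3, h4]
    simp
  ii j k := by
    rw [mvL_anti, ← mvL_zero]
    congr 1
    have h4 := B.ii (Fin.natAdd 2 j) (Fin.natAdd 2 k)
    rw [neg_mul_neg, neg_mul_neg]
    exact h4
  ei j k := by
    rw [mvL_anti]
    have h2 := B.ei (Fin.castAdd 2 j) (Fin.natAdd 2 k)
    have h4 := B.ei (Fin.natAdd 2 j) (Fin.natAdd 2 k)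
    rw [if_neg (castAdd_ne_natAdd j k)] at h2
    have e : (B.e (Fin.castAdd 2 j) - B.e (Fin.natAdd 2 j)) * (-B.io (Fin.natAdd 2 k)) +
        (-B.io (Fin.natAdd 2 k)) * (B.e (Fin.castAdd 2 j) - B.e (Fin.natAdd 2 j)) =
        (B.e (Fin.natAdd 2 j) * B.io (Fin.natAdd 2 k) + B.io (Fin.natAdd 2 k) *
          B.e (Fin.natAdd 2 j)) -
        (B.e (Fin.castAdd 2 j) * B.io (Fin.natAdd 2 k) + B.io (Fin.natAdd 2 k) *
          B.e (Fin.castAdd 2 j)) := by noncomm_ring
    rw [e, h2, h4, sub_zero]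
    by_cases hjk : j = k
    · rw [if_pos hjk, if_pos (by rw [hjk]), mvL_one]
    · rw [if_neg hjk, if_neg (fun h => hjk (Fin.natAdd_injective _ _ h)), mvL_zero]
  exi a j := by
    rw [mvL_anti, ← mvL_zero]
    congr 1
    have h2 := B.ei (Fin.castAdd 2 a) (Fin.natAdd 2 j)
    rw [if_neg (castAdd_ne_natAdd a j)] at h2
    rw [mul_neg, neg_mul, ← neg_add, h2, neg_zero]
  exe a j := by
    rw [mvL_anti, ← mvL_zero]
    congr 1
    have h1 := B.ee (Fin.castAdd 2 a) (Fin.castAdd 2 j)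
    have h2 := B.ee (Fin.castAdd 2 a) (Fin.natAdd 2 j)
    have e : B.e (Fin.castAdd 2 a) * (B.e (Fin.castAdd 2 j) - B.e (Fin.natAdd 2 j)) +
        (B.e (Fin.castAdd 2 j) - B.e (Fin.natAdd 2 j)) * B.e (Fin.castAdd 2 a) =
        (B.e (Fin.castAdd 2 a) * B.e (Fin.castAdd 2 j) + B.e (Fin.castAdd 2 j) *
          B.e (Fin.castAdd 2 a)) -
        (B.e (Fin.castAdd 2 a) * B.e (Fin.natAdd 2 j) + B.e (Fin.natAdd 2 j) *
          B.e (Fin.castAdd 2 a)) := by noncomm_ring
    rw [e, h1, h2, sub_zero]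

variable (B : FBun (A.prod A))

/-- `∂̄` in the adapted frame -/
theorem Dbar_eq (f : Cn (2 + 2) → B.κ → ℂ) (z : Cn (2 + 2)) :
    Dbar VD (carD B).toFib f z = ∑ a : Fin (2 + 2), B.e a *ᵥ dbj a f z := by
  rw [Fin.sum_univ_add]
  unfold Dbar
  have h1 : ∀ a : Fin 2, (carD B).toFib.ex a (dbv (VD.bv a) f z) =
      B.e (Fin.castAdd 2 a) *ᵥ dbj (Fin.castAdd 2 a) f z +
        B.e (Fin.castAdd 2 a) *ᵥ dbj (Fin.natAdd 2 a) f z := by
    intro a
    have : VD.bv a = EuclideanSpace.single (Fin.castAdd 2 a) 1 +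
      EuclideanSpace.single (Fin.natAdd 2 a) 1 := rfl
    rw [this, dbv_add_vec, ← dbj_eq_dbv, ← dbj_eq_dbv]
    exact Matrix.mulVec_add _ _ _
  have h2 : ∀ j : Fin 2, (carD B).toFib.e j (dbv (VD.nv j) f z) =
      B.e (Fin.natAdd 2 j) *ᵥ dbj (Fin.natAdd 2 j) f z -
        B.e (Fin.castAdd 2 j) *ᵥ dbj (Fin.natAdd 2 j) f z := by
    intro j
    have : VD.nv j = - EuclideanSpace.single (Fin.natAdd 2 j) 1 := rfl
    rw [this, dbv_neg_vec, ← dbj_eq_dbv]
    show (B.e (Fin.castAdd 2 j) - B.e (Fin.natAdd 2 j)) *ᵥ (- dbj (Fin.natAdd 2 j) f z) = _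
    rw [Matrix.mulVec_neg, Matrix.sub_mulVec]
    abel
  simp only [h1, h2, Finset.sum_add_distrib, Finset.sum_sub_distrib]
  abel

/-- `nab` in the chart `(i, i)` is `Dbar` -/
theorem nab_chart (hα : ∀ i q, B.α i q = 0) (w : A.prod A |>.ι → X × X → B.κ → ℂ) (i : A.ι)
    {z : Cn (2 + 2)} (hz : z ∈ ((A.prod A).e (dI i)).target) :
    nab B w (dI i) (((A.prod A).e (dI i)).symm z) =
      Dbar VD (carD B).toFib (fun z => w (dI i) (((A.prod A).e (dI i)).symm z)) z := by
  rw [nab_apply B (((A.prod A).e (dI i)).map_target hz), hα, Matrix.zero_mulVec, add_zero, Dbar_eq]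
  refine Finset.sum_congr rfl fun a _ => ?_
  rw [Atl.db_symm hz]

end fibre

end

end Crest.Agent.R275.NA4783
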