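import Crest.Agent.R275.NA4e_783
import Crest.Agent.R275.SymBun_585

-- ▼ part R275/NA4f_783
section

/-!
# R275, NA4 (helper783), part f: leading coefficients along the diagonal

* `ResL`, `LiftL` : restriction / lifting as linear maps on the fibres of `BB A`;
* `Rep m w i p g` : `w` is near `(p, p)` the sum of the monomials of degree `m` times `g c`;
* `lc m w i x c` : the leading coefficients (restricted to the diagonal), `lc_eq`, `lc_ev`;
* `CC A m = tw (lam2 A) (symV A m)`, `rhoF m w` : the leading coefficient section of `w`.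
-/

set_option autoImplicit false
set_option linter.unusedSectionVars false
set_option linter.unusedSimpArgs false

open Set Filter Topology Complex MeasureTheory
open scoped ContDiff Matrix ComplexConjugate Kronecker
open Crest.Agent.R275.Geo Crest.Agent.R275.Smf798 Crest.Agent.R275.Dg199 Crest.Agent.R275.Prod363
open Crest.Agent.R275.SmR425 Crest.Agent.R275.Lam2130 Crest.Agent.R275.Sym585
open Crest.Agent.R275.SymBun585

namespace Crest.Agent.R275.NA4783

noncomputable section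

variable {X : Type} [TopologicalSpace X] {A : Atl 2 X}

section fibre

variable (A) in
/-- restriction to the diagonal on the fibres -/
def ResL : ((BB A).κ → ℂ) →L[ℂ] (Fin 4 → ℂ) := mvL (κ := Fin 4 × Fin 4) Res

variable (A) in
/-- `v ↦ v ⊗ 1` on the fibres -/
def LiftL : (Fin 4 → ℂ) →L[ℂ] ((BB A).κ → ℂ) := mvL (κ' := Fin 4 × Fin 4) Lift

theorem ResL_LiftL (v : Fin 4 → ℂ) : ResL A (LiftL A v) = v := by
  show Res *ᵥ (Lift *ᵥ v) = v
  rw [Matrix.mulVec_mulVec, Res_Lift, Matrix.one_mulVec]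

theorem ResL_e_cast (a : Fin 2) (v : (BB A).κ → ℂ) :
    ResL A ((BB A).e (Fin.castAdd 2 a) *ᵥ v) = eM a *ᵥ ResL A v := by
  rw [BB_e_cast]
  show Res *ᵥ ((eM a ⊗ₖ (1 : Matrix (Fin 4) (Fin 4) ℂ)) *ᵥ v) = eM a *ᵥ (Res *ᵥ v)
  rw [Matrix.mulVec_mulVec, Matrix.mulVec_mulVec, Res_e_cast]

theorem ResL_e_nat (a : Fin 2) (v : (BB A).κ → ℂ) :
    ResL A ((BB A).e (Fin.natAdd 2 a) *ᵥ v) = eM a *ᵥ ResL A v := by
  rw [BB_e_nat]
  show Res *ᵥ ((sg dg ⊗ₖ eM a) *ᵥ v) = eM a *ᵥ (Res *ᵥ v)
  rw [Matrix.mulVec_mulVec, Matrix.mulVec_mulVec, Res_e_nat]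

theorem ResL_tau (i j : A.ι) (x : X) (v : (BB A).κ → ℂ) :
    ResL A ((BB A).τ (dI i) (dI j) (x, x) *ᵥ v) = tauM (Jm A i j x) *ᵥ ResL A v := by
  show Res *ᵥ ((tauM (Jm A i j x) ⊗ₖ tauM (Jm A i j x)) *ᵥ v) = tauM (Jm A i j x) *ᵥ (Res *ᵥ v)
  rw [Matrix.mulVec_mulVec, Matrix.mulVec_mulVec, Res_tau]

theorem S_zero_apply (v : (BB A).κ → ℂ) : (carD (BB A)).toFib.S 0 v = LiftL A (ResL A v) := by
  rw [S_zero_BB]
  show (Lift * Res) *ᵥ v = Lift *ᵥ (Res *ᵥ v)
  rw [Matrix.mulVec_mulVec]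


theorem LiftL_deg {q : ℕ} {v : Fin 4 → ℂ} (hv : ∀ k, v k ≠ 0 → dg k = q) {p : (BB A).κ}
    (hp : LiftL A v p ≠ 0) : (BB A).deg p = q := by
  have h1 : LiftL A v p = ∑ k : Fin 4, Lift p k * v k := rfl
  rw [h1] at hp
  obtain ⟨k, -, hk⟩ := Finset.exists_ne_zero_of_sum_ne_zero hp
  rw [← hv k (right_ne_zero_of_mul hk), Lift_deg (left_ne_zero_of_mul hk)]
  rfl

end fibre

/-! ### monomials, uniqueness of the leading coefficients -/

variable (A) in
/-- monomials of degree `m` in the equations of the diagonal, in the order of `Sym585` -/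
def mon (m : ℕ) (i : A.ι) (c : Fin (m + 1)) (q : X × X) : ℂ :=
  ud A i 0 q ^ (m - c : ℕ) * ud A i 1 q ^ (c : ℕ)

theorem mon_eq_mono (m : ℕ) (i : A.ι) (c : Fin (m + 1)) (q : X × X) :
    mon A m i c q = Dg199.mono m (ud A i) (Fin.rev c) q := by
  have h1 : (Fin.rev c : ℕ) = m - c := by rw [Fin.val_rev]; omega
  have h2 : m - (m - (c : ℕ)) = c := by have := c.2; omega
  unfold mon Dg199.mono
  rw [h1, h2]

/-- vanishing of a polynomial near the origin -/
theorem coef_zero {W : Type} [NormedAddCommGroup W] [NormedSpace ℂ W] {m : ℕ}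
    {a : Fin (m + 1) → W}
    (h : ∀ t : ℂ, ∑ c : Fin (m + 1), (t ^ (c : ℕ)) • a c = 0) : ∀ c, a c = 0 := by
  classical
  -- Vandermonde
  have hdet : (Matrix.vandermonde (fun c : Fin (m + 1) => ((c : ℕ) : ℂ))).det ≠ 0 := by
    rw [Matrix.det_vandermonde_ne_zero_iff]
    intro c c' hcc
    have hcc' : ((c : ℕ) : ℂ) = ((c' : ℕ) : ℂ) := hcc
    exact Fin.ext (by exact_mod_cast hcc')
  set V := Matrix.vandermonde (fun c : Fin (m + 1) => ((c : ℕ) : ℂ)) with hV
  have hU : IsUnit V.det := isUnit_iff_ne_zero.2 hdet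
  intro c
  have h1 : ∑ j, V⁻¹ c j • ∑ k : Fin (m + 1), V j k • a k = a c := by
    simp only [Finset.smul_sum, smul_smul]
    rw [Finset.sum_comm]
    have : ∀ k, ∑ j, (V⁻¹ c j * V j k) • a k = (V⁻¹ * V) c k • a k := by
      intro k
      rw [Matrix.mul_apply, Finset.sum_smul]
    simp only [this, Matrix.nonsing_inv_mul V hU, Matrix.one_apply, ite_smul, one_smul, zero_smul,
      Finset.sum_ite_eq, Finset.mem_univ, if_true]
  rw [← h1]
  refine Finset.sum_eq_zero fun j _ => ?_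
  have h2 := h ((j : ℕ) : ℂ)
  have h3 : ∑ k : Fin (m + 1), V j k • a k = 0 := by
    rw [← h2]
    refine Finset.sum_congr rfl fun k _ => ?_
    rw [hV, Matrix.vandermonde_apply]
  rw [h3, smul_zero]

/-- uniqueness of the leading coefficients -/
theorem lead_zero {W : Type} [NormedAddCommGroup W] [NormedSpace ℂ W] {m : ℕ} {i : A.ι} {p : X}
    (hp : p ∈ (A.e i).source) {g : Fin (m + 1) → X × X → W}
    (hg : ∀ c, ContinuousAt (g c) (p, p))
    (h : ∀ᶠ q in 𝓝 (p, p), ∑ c, mon A m i c q • g c q = 0) (c : Fin (m + 1)) : g c (p, p) = 0 := by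
  refine coef_zero (a := fun c => g c (p, p)) (fun t => ?_) c
  -- the curve s ↦ (p, point with coordinate z(p) - s (1, t))
  let v : Cn 2 := WithLp.toLp 2 ![1, t]
  let γ : ℝ → X × X := fun s => (p, (A.e i).symm (A.e i p - s • v))
  have hc0 : ContinuousAt (fun s : ℝ => A.e i p - s • v) 0 := by fun_prop
  have hγ0 : γ 0 = (p, p) := by
    simp only [γ, zero_smul, sub_zero, (A.e i).left_inv hp]
  have hcont : ContinuousAt γ 0 := by
    refine ContinuousAt.prodMk continuousAt_const ?_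
    have h1 : ContinuousAt (A.e i).symm (A.e i p - (0 : ℝ) • v) := by
      rw [zero_smul, sub_zero]
      exact (A.e i).continuousAt_symm ((A.e i).map_source hp)
    exact ContinuousAt.comp (f := fun s : ℝ => A.e i p - s • v) h1 hc0
  have htend : Tendsto γ (𝓝[>] (0 : ℝ)) (𝓝 (p, p)) := by
    rw [← hγ0]
    exact hcont.tendsto.mono_left nhdsWithin_le_nhds
  have htar : ∀ᶠ s : ℝ in 𝓝[>] (0 : ℝ), A.e i p - s • v ∈ (A.e i).target := by
    have : ∀ᶠ s : ℝ in 𝓝 (0 : ℝ), A.e i p - s • v ∈ (A.e i).target := by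
      refine hc0.eventually ?_
      show ∀ᶠ y in 𝓝 (A.e i p - (0 : ℝ) • v), y ∈ (A.e i).target
      rw [zero_smul, sub_zero]
      exact (A.e i).open_target.mem_nhds ((A.e i).map_source hp)
    exact this.filter_mono nhdsWithin_le_nhds
  have hlim : Tendsto (fun s : ℝ => ∑ c : Fin (m + 1), (t ^ (c : ℕ)) • g c (γ s)) (𝓝[>] (0 : ℝ))
      (𝓝 (∑ c : Fin (m + 1), (t ^ (c : ℕ)) • g c (p, p))) :=
    tendsto_finsetSum _ fun c _ => (((hg c).tendsto.comp htend)).const_smul _
  have hz : (fun s : ℝ => ∑ c : Fin (m + 1), (t ^ (c : ℕ)) • g c (γ s)) =ᶠ[𝓝[>] (0 : ℝ)]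
      fun _ => 0 := by
    filter_upwards [htend.eventually h, htar, self_mem_nhdsWithin] with s h1 h2 h3
    have hs : (s : ℂ) ≠ 0 := by
      have : s ≠ 0 := ne_of_gt h3
      exact_mod_cast this
    have hu : ∀ a, ud A i a (γ s) = (s : ℂ) * v a := by
      intro a
      show A.e i p a - A.e i ((A.e i).symm (A.e i p - s • v)) a = _
      rw [(A.e i).right_inv h2]
      show A.e i p a - (A.e i p a - s • v a) = _
      rw [sub_sub_cancel]
      rfl
    have hm : ∀ c : Fin (m + 1), mon A m i c (γ s) = (s : ℂ) ^ m * t ^ (c : ℕ) := by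
      intro c
      unfold mon
      rw [hu, hu]
      have e0 : v 0 = 1 := rfl
      have e1 : v 1 = t := rfl
      rw [e0, e1, mul_one, mul_pow, ← mul_assoc, ← pow_add, Nat.sub_add_cancel
        (Nat.lt_succ_iff.1 c.2)]
    simp only [hm, mul_smul, ← Finset.smul_sum] at h1
    exact (smul_eq_zero.1 h1).resolve_left (pow_ne_zero _ hs)
  exact tendsto_nhds_unique hlim ((tendsto_const_nhds).congr' hz.symm)

section rep

variable {B : FBun (A.prod A)}

/-- representation of order `m` of `F` near `(p, p)` -/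
def Rep {κ : Type} [Fintype κ] (m : ℕ) (F : X × X → κ → ℂ) (i : A.ι) (p : X)
    (g : Fin (m + 1) → X × X → κ → ℂ) : Prop :=
  (∀ c, ∀ᶠ q in 𝓝 (p, p), SmN (A.prod A) (g c) q) ∧
    ∀ᶠ q in 𝓝 (p, p), F q = ∑ c, mon A m i c q • g c q

variable {κ : Type} [Fintype κ] {m : ℕ} {F F' : X × X → κ → ℂ} {i : A.ι} {p : X}
  {g g' : Fin (m + 1) → X × X → κ → ℂ}

theorem exists_rep (h : LV (A.prod A) (Dg199.mono m (ud A i)) F (p, p)) :
    ∃ g, Rep (A := A) m F i p g := by
  obtain ⟨c, h1, h2⟩ := h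
  refine ⟨fun a => c (Fin.rev a), fun a => h1 _, ?_⟩
  filter_upwards [h2] with q hq
  rw [hq]
  refine Fintype.sum_equiv Fin.revPerm _ _ fun a => ?_
  rw [Fin.revPerm_apply, mon_eq_mono, Fin.rev_rev]

theorem Rep.lv (h : Rep (A := A) m F i p g) :
    LV (A.prod A) (Dg199.mono m (ud A i)) F (p, p) := by
  obtain ⟨h1, h2⟩ := h
  refine ⟨fun a => g (Fin.rev a), fun a => h1 _, ?_⟩
  filter_upwards [h2] with q hq
  rw [hq]
  refine Fintype.sum_equiv Fin.revPerm _ _ fun a => ?_
  rw [Fin.revPerm_apply, mon_eq_mono, Fin.rev_rev]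

theorem Rep.congr (h : Rep (A := A) m F i p g) (he : F' =ᶠ[𝓝 (p, p)] F) :
    Rep (A := A) m F' i p g :=
  ⟨h.1, by filter_upwards [he, h.2] with q a b using a.trans b⟩

theorem Rep.ev (h : Rep (A := A) m F i p g) : ∀ᶠ x in 𝓝 p, Rep (A := A) m F i x g := by
  have h1 : ∀ᶠ q in 𝓝 (p, p), (∀ c, ∀ᶠ q' in 𝓝 q, SmN (A.prod A) (g c) q') ∧
      ∀ᶠ q' in 𝓝 q, F q' = ∑ c, mon A m i c q' • g c q' :=
    (eventually_all.2 fun c => eventually_eventually_nhds.2 (h.1 c)).and
      (eventually_eventually_nhds.2 h.2)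
  exact (tendsto_diag p).eventually h1

theorem Rep.contAt (h : Rep (A := A) m F i p g) (c : Fin (m + 1)) :
    ContinuousAt (g c) (p, p) := (h.1 c).self_of_nhds.continuousAt

theorem Rep.unique (hp : p ∈ (A.e i).source) (h : Rep (A := A) m F i p g)
    (h' : Rep (A := A) m F i p g') (c : Fin (m + 1)) : g c (p, p) = g' c (p, p) := by
  have := lead_zero hp (g := fun c q => g c q - g' c q)
    (fun c => (h.contAt c).sub (h'.contAt c)) (by
      filter_upwards [h.2, h'.2] with q a b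
      simp only [smul_sub, Finset.sum_sub_distrib]
      rw [← a, ← b, sub_self]) c
  exact sub_eq_zero.1 this

theorem Rep.add (h : Rep (A := A) m F i p g) (h' : Rep (A := A) m F' i p g') :
    Rep (A := A) m (fun q => F q + F' q) i p (fun c q => g c q + g' c q) := by
  refine ⟨fun c => ?_, ?_⟩
  · filter_upwards [h.1 c, h'.1 c] with q a b using a.add b
  · filter_upwards [h.2, h'.2] with q a b
    simp only [a, b, smul_add, Finset.sum_add_distrib]

theorem Rep.smul {f : X × X → ℂ} (hf : ∀ᶠ q in 𝓝 (p, p), SmN (A.prod A) f q)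
    (h : Rep (A := A) m F i p g) :
    Rep (A := A) m (fun q => f q • F q) i p (fun c q => f q • g c q) := by
  refine ⟨fun c => ?_, ?_⟩
  · filter_upwards [h.1 c, hf] with q a b using b.csmul a
  · filter_upwards [h.2] with q a
    rw [a, Finset.smul_sum]
    exact Finset.sum_congr rfl fun c _ => smul_comm _ _ _

theorem smN_mulVec {κ' : Type} [Fintype κ'] {T : X × X → Matrix κ' κ ℂ} {f : X × X → κ → ℂ}
    {q : X × X} (hT : ∀ k l, SmN (A.prod A) (fun q => T q k l) q) (hf : SmN (A.prod A) f q) :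
    SmN (A.prod A) (fun q => T q *ᵥ f q) q := by
  rw [smN_pi]
  intro k
  exact SmN.sum (s := Finset.univ) (f := fun l q => T q k l * f q l) fun l _ =>
    (hT k l).mul (smN_pi.1 hf l)

theorem Rep.mulVec {κ' : Type} [Fintype κ'] {T : X × X → Matrix κ' κ ℂ}
    (hT : ∀ k l, ∀ᶠ q in 𝓝 (p, p), SmN (A.prod A) (fun q => T q k l) q)
    (h : Rep (A := A) m F i p g) :
    Rep (A := A) m (fun q => T q *ᵥ F q) i p (fun c q => T q *ᵥ g c q) := by
  refine ⟨fun c => ?_, ?_⟩
  · filter_upwards [h.1 c, eventually_all.2 fun k => eventually_all.2 fun l => hT k l] with q a b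
    exact smN_mulVec b a
  · filter_upwards [h.2] with q a
    rw [a, Matrix.mulVec_sum]
    exact Finset.sum_congr rfl fun c _ => Matrix.mulVec_smul _ _ _

theorem Rep.zero : Rep (A := A) m (fun _ => (0 : κ → ℂ)) i p (fun _ _ => 0) :=
  ⟨fun _ => Eventually.of_forall fun q => smN_const _ q, Eventually.of_forall fun q => by simp⟩

/-- a representation of order `m + 1` gives one of order `m` with vanishing leading coefficients -/
theorem exists_rep_succ (hp : p ∈ (A.e i).source)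
    (h : LV (A.prod A) (Dg199.mono (m + 1) (ud A i)) F (p, p)) :
    ∃ g, Rep (A := A) m F i p g ∧ ∀ c, g c (p, p) = 0 := by
  obtain ⟨G, h1, h2⟩ := h
  choose α a hα using fun β => Dg199.mono_succ m (ud A i) β
  refine ⟨fun c q => ∑ β, if Fin.rev c = α β then ud A i (a β) q • G β q else 0,
    ⟨fun c => ?_, ?_⟩, fun c => ?_⟩
  · filter_upwards [eventually_all.2 h1, eventually_all.2 fun b => ud_ev_smN hp b] with q h3 h4
    refine SmN.sum fun β _ => ?_
    by_cases hc : Fin.rev c = α β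
    · simp only [hc, if_true]
      exact (h4 (a β)).csmul (h3 β)
    · simp only [hc, if_false]
      exact smN_const _ q
  · filter_upwards [h2] with q hq
    rw [hq]
    simp only [Finset.smul_sum]
    rw [Finset.sum_comm]
    refine Finset.sum_congr rfl fun β _ => ?_
    rw [Finset.sum_eq_single (Fin.rev (α β))]
    · rw [Fin.rev_rev, if_pos rfl, mon_eq_mono, Fin.rev_rev, smul_smul, hα]
    · intro c _ hc
      rw [if_neg, smul_zero]
      intro h
      exact hc (by rw [← h, Fin.rev_rev])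
    · simp
  · refine Finset.sum_eq_zero fun β _ => ?_
    split_ifs
    · rw [ud_diag, zero_smul]
    · rfl

end rep

end

end Crest.Agent.R275.NA4783
end

-- ▼ part R275/NA4g_783

/-!
# R275, NA4 (helper783), part g: the leading coefficient section

* `CC A m = tw (lam2 A) (symV A m)`, `rho m : Fm (BB A) m →ₗ[ℂ] Sec (CC A m)`;
* `rho_apply` : value from any local representation; `rho_nab`, `rho_deg`, `rho_smul`, `rho_succ`.
-/

set_option autoImplicit false
set_option linter.unusedSectionVars false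
set_option linter.unusedSimpArgs false

open Set Filter Topology Complex MeasureTheory
open scoped ContDiff Matrix ComplexConjugate Kronecker
open Crest.Agent.R275.Geo Crest.Agent.R275.Smf798 Crest.Agent.R275.Dg199 Crest.Agent.R275.Prod363
open Crest.Agent.R275.SmR425 Crest.Agent.R275.Lam2130 Crest.Agent.R275.Sym585
open Crest.Agent.R275.SymBun585

namespace Crest.Agent.R275.NA4783

noncomputable section

variable {X : Type} [TopologicalSpace X] {A : Atl 2 X}

variable (A) in
/-- `(0,*)`-forms on `X` with values in `Sym^m Ω¹` -/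
def CC (m : ℕ) : FBun A := tw (lam2 A) (symV A m)

open Classical in
/-- leading coefficients, restricted to the diagonal -/
def lc (m : ℕ) (F : X × X → (BB A).κ → ℂ) (i : A.ι) (x : X) (c : Fin (m + 1)) : Fin 4 → ℂ :=
  if h : ∃ g, Rep (A := A) m F i x g then ResL A (h.choose c (x, x)) else 0

section lc

variable {m : ℕ} {F F' : X × X → (BB A).κ → ℂ} {i : A.ι} {p : X}
  {g g' : Fin (m + 1) → X × X → (BB A).κ → ℂ}

theorem lc_eq (hp : p ∈ (A.e i).source) (h : Rep (A := A) m F i p g) (c : Fin (m + 1)) :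
    lc m F i p c = ResL A (g c (p, p)) := by
  have hex : ∃ g, Rep (A := A) m F i p g := ⟨g, h⟩
  rw [lc, dif_pos hex, hex.choose_spec.unique hp h c]

theorem lc_ev (hp : p ∈ (A.e i).source) (h : Rep (A := A) m F i p g) :
    ∀ᶠ x in 𝓝 p, ∀ c, lc m F i x c = ResL A (g c (x, x)) := by
  filter_upwards [h.ev, (A.e i).open_source.mem_nhds hp] with x h1 h2 c using lc_eq h2 h1 c

end lc

/-- the family of leading coefficients -/
def rhoF (m : ℕ) (w : Sec (BB A)) : A.ι → X → (CC A m).κ → ℂ := fun i x k =>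
  (haveI := Classical.dec (x ∈ (A.e i).source); if x ∈ (A.e i).source then
    lc m (w.1 (dI i)) i x k.2 k.1 else 0)

theorem rhoF_on {m : ℕ} {w : Sec (BB A)} {i : A.ι} {x : X} (hx : x ∈ (A.e i).source)
    (k : Fin 4) (c : Fin (m + 1)) : rhoF m w i x (k, c) = lc m (w.1 (dI i)) i x c k := by
  unfold rhoF
  rw [if_pos hx]

theorem rhoF_off {m : ℕ} {w : Sec (BB A)} {i : A.ι} {x : X} (hx : x ∉ (A.e i).source) :
    rhoF m w i x = 0 := by
  funext k
  unfold rhoF
  rw [if_neg hx]
  rfl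

section

variable {m : ℕ} {w : Sec (BB A)} {i : A.ι} {p : X}
  {g : Fin (m + 1) → X × X → (BB A).κ → ℂ}

theorem rhoF_eq (hp : p ∈ (A.e i).source) (h : Rep (A := A) m (w.1 (dI i)) i p g)
    (k : Fin 4) (c : Fin (m + 1)) : rhoF m w i p (k, c) = ResL A (g c (p, p)) k := by
  rw [rhoF_on hp, lc_eq hp h]

theorem rhoF_ev (hp : p ∈ (A.e i).source) (h : Rep (A := A) m (w.1 (dI i)) i p g) :
    ∀ᶠ x in 𝓝 p, ∀ (k : Fin 4) (c : Fin (m + 1)), rhoF m w i x (k, c) = ResL A (g c (x, x)) k := by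
  filter_upwards [lc_ev hp h, (A.e i).open_source.mem_nhds hp] with x h1 h2 k c
  rw [rhoF_on h2, h1 c]

theorem smN_clm {n : ℕ} {M : Type} [TopologicalSpace M] {A : Atl n M} {W W' : Type}
    [NormedAddCommGroup W] [NormedSpace ℂ W] [NormedAddCommGroup W'] [NormedSpace ℂ W']
    (T : W →L[ℂ] W') {f : M → W} {q : M} (h : SmN A f q) : SmN A (fun x => T (f x)) q := by
  obtain ⟨i, hi, h1⟩ := h
  exact ⟨i, hi, (T.restrictScalars ℝ).contDiff.contDiffAt.comp _ h1⟩

theorem rhoF_smN (hp : p ∈ (A.e i).source) (h : Rep (A := A) m (w.1 (dI i)) i p g)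
    (k : Fin 4) (c : Fin (m + 1)) : SmN A (fun x => rhoF m w i x (k, c)) p := by
  have h1 : SmN A (fun x => g c (x, x)) p := smN_diag (h.1 c).self_of_nhds
  have h2 : SmN A (fun x => ResL A (g c (x, x)) k) p := smN_pi.1 (smN_clm (ResL A) h1) k
  refine h2.congr ?_
  filter_upwards [rhoF_ev hp h] with x hx using hx k c

/-- functions smooth near the diagonal point `(p, p)` -/
def smDiag (A : Atl 2 X) (p : X) : Subring (X × X → ℂ) where
  carrier := {f | ∀ᶠ q in 𝓝 (p, p), SmN (A.prod A) f q}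
  mul_mem' h h' := by
    filter_upwards [h, h'] with q a b using a.mul b
  one_mem' := Eventually.of_forall fun q => smN_const _ q
  add_mem' h h' := by
    filter_upwards [h, h'] with q a b using a.add b
  zero_mem' := Eventually.of_forall fun q => smN_const _ q
  neg_mem' h := by
    filter_upwards [h] with q a using a.neg

/-- transport of a representation to another chart -/
theorem Rep.change {w : Sec (BB A)} {i j : A.ι} {g : Fin (m + 1) → X × X → (BB A).κ → ℂ}
    (hp : p ∈ (A.e i).source ∩ (A.e j).source) (h : Rep (A := A) m (w.1 (dI j)) j p g) :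
    ∃ G : Fin (m + 1) → X × X → (BB A).κ → ℂ, Rep (A := A) m (w.1 (dI i)) i p G ∧
      ∀ᶠ x in 𝓝 p, ∀ d, G d (x, x) = ∑ c, sym m ((coc A).g i j x) d c •
        ((BB A).τ (dI i) (dI j) (x, x) *ᵥ g c (x, x)) := by
  obtain ⟨H, h1, h2, h3⟩ := ud_change hp
  let Gm : X × X → Matrix (Fin 2) (Fin 2) ℂ := fun q => Matrix.of fun a b => H b a q
  have hsym : ∀ d c : Fin (m + 1), ∀ᶠ q in 𝓝 (p, p), SmN (A.prod A) (fun q => sym m (Gm q) d c) q :=
    fun d c => sym_mem (smDiag A p) (g := Gm) (fun a b => h1 b a) m d c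
  have hτ : ∀ k l, ∀ᶠ q in 𝓝 (p, p), SmN (A.prod A) (fun q => (BB A).τ (dI i) (dI j) q k l) q :=
    fun k l => tau_smN hp.1 hp.2 k l
  refine ⟨fun d q => ∑ c, sym m (Gm q) d c • ((BB A).τ (dI i) (dI j) q *ᵥ g c q), ⟨fun d => ?_, ?_⟩,
    ?_⟩
  · filter_upwards [eventually_all.2 fun c => hsym d c, eventually_all.2 h.1,
      eventually_all.2 fun k => eventually_all.2 fun l => hτ k l] with q a b e
    exact SmN.sum fun c _ => (a c).csmul (smN_mulVec e (b c))
  · have hs : ((A.prod A).e (dI i)).source ∩ ((A.prod A).e (dI j)).source ∈ 𝓝 (p, p) :=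
      (((A.prod A).e (dI i)).open_source.inter ((A.prod A).e (dI j)).open_source).mem_nhds
        ⟨diag_mem_dI hp.1, diag_mem_dI hp.2⟩
    filter_upwards [h.2, h2, hs] with q a b e
    rw [Sec.tr (BB A) w.2 e, a, Matrix.mulVec_sum]
    simp only [Finset.smul_sum, smul_smul]
    rw [Finset.sum_comm]
    refine Finset.sum_congr rfl fun c _ => ?_
    rw [Matrix.mulVec_smul, ← Finset.sum_smul]
    congr 1
    have hrow := sym_row (RingHom.id ℂ) (ud A i 0 q) (ud A i 1 q) m (Gm q) c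
    simp only [RingHom.id_apply] at hrow
    unfold mon
    rw [hrow, b 0, b 1, Fin.sum_univ_two, Fin.sum_univ_two]
    rfl
  · filter_upwards [h3] with x hx d
    have hG : Gm (x, x) = (coc A).g i j x := by
      ext a b
      exact hx b a
    simp only [hG]

theorem rhoF_tr {w : Sec (BB A)} (hw : w ∈ Fm (BB A) m) {i j : A.ι} {x : X}
    (hx : x ∈ (A.e i).source ∩ (A.e j).source) :
    rhoF m w i x = ((CC A m).τ i j x) *ᵥ (rhoF m w j x) := by
  obtain ⟨g, hg⟩ := exists_rep ((hw x).lv hx.2)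
  obtain ⟨G, hG, hG2⟩ := hg.change hx
  refine funext fun (k : Fin 4 × Fin (m + 1)) => ?_
  obtain ⟨k, d⟩ := k
  have hR : ((CC A m).τ i j x *ᵥ rhoF m w j x) (k, d) = ∑ lc : Fin 4 × Fin (m + 1),
    (tauM (Jm A i j x) ⊗ₖ sym m ((coc A).g i j x)) (k, d) lc * rhoF m w j x lc := rfl
  refine Eq.trans ?_ hR.symm
  refine (rhoF_eq hx.1 hG k d).trans ?_
  rw [hG2.self_of_nhds d, map_sum, Finset.sum_apply]
  have h1 : ∀ c, ResL A (sym m ((coc A).g i j x) d c •
      ((BB A).τ (dI i) (dI j) (x, x) *ᵥ g c (x, x))) k =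
      sym m ((coc A).g i j x) d c * ∑ l, tauM (Jm A i j x) k l * rhoF m w j x (l, c) := by
    intro c
    rw [map_smul, ResL_tau, Pi.smul_apply, smul_eq_mul]
    congr 1
    have h5 : (tauM (Jm A i j x) *ᵥ ResL A (g c (x, x))) k =
      ∑ l, tauM (Jm A i j x) k l * ResL A (g c (x, x)) l := rfl
    rw [h5]
    refine Finset.sum_congr rfl fun l _ => ?_
    rw [rhoF_eq hx.2 hg]
  simp only [h1]
  rw [Fintype.sum_prod_type, Finset.sum_comm]
  refine Finset.sum_congr rfl fun c _ => ?_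
  rw [Finset.mul_sum]
  refine Finset.sum_congr rfl fun l _ => ?_
  rw [Matrix.kroneckerMap_apply]
  exact (by intro a b c; ring : ∀ a b c : ℂ, a * (b * c) = b * a * c) _ _ _

theorem rhoF_mem {w : Sec (BB A)} (hw : w ∈ Fm (BB A) m) : rhoF m w ∈ Sec (CC A m) := by
  refine ⟨fun i k => ?_, fun i x hx => rhoF_off hx, fun i j x hx => rhoF_tr hw hx⟩
  obtain ⟨k, c⟩ := k
  refine smAt_of_smN fun p hp => ?_
  obtain ⟨g, hg⟩ := exists_rep ((hw p).lv hp)
  exact rhoF_smN hp hg k c

variable (A) in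
/-- **restriction of order `m` to the diagonal** -/
def rho (m : ℕ) : Fm (BB A) m →ₗ[ℂ] Sec (CC A m) where
  toFun w := ⟨rhoF m w.1, rhoF_mem w.2⟩
  map_add' w w' := sec_ext fun i x => by
    by_cases hx : x ∈ (A.e i).source
    · obtain ⟨g, hg⟩ := exists_rep ((w.2 x).lv hx)
      obtain ⟨g', hg'⟩ := exists_rep ((w'.2 x).lv hx)
      have h := hg.add hg'
      funext k
      obtain ⟨k, c⟩ := k
      rw [sec_add_apply, Pi.add_apply]
      show rhoF m (w + w').1 i x (k, c) = rhoF m w.1 i x (k, c) + rhoF m w'.1 i x (k, c)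
      rw [rhoF_eq hx hg, rhoF_eq hx hg']
      have h2 : Rep (A := A) m ((w + w').1.1 (dI i)) i x (fun c q => g c q + g' c q) :=
        h.congr (Eventually.of_forall fun q => rfl)
      rw [rhoF_eq hx h2, map_add, Pi.add_apply]
    · rw [sec_add_apply]
      show rhoF m (w + w').1 i x = rhoF m w.1 i x + rhoF m w'.1 i x
      rw [rhoF_off hx, rhoF_off hx, rhoF_off hx, add_zero]
  map_smul' a w := sec_ext fun i x => by
    by_cases hx : x ∈ (A.e i).source
    · obtain ⟨g, hg⟩ := exists_rep ((w.2 x).lv hx)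
      have h := hg.smul (f := fun _ => a) (Eventually.of_forall fun q => smN_const a q)
      funext k
      obtain ⟨k, c⟩ := k
      show rhoF m (a • w).1 i x (k, c) = a • rhoF m w.1 i x (k, c)
      have h2 : Rep (A := A) m ((a • w).1.1 (dI i)) i x (fun c q => a • g c q) :=
        h.congr (Eventually.of_forall fun q => rfl)
      rw [rhoF_eq hx hg, rhoF_eq hx h2, map_smul, Pi.smul_apply]
    · show rhoF m (a • w).1 i x = a • rhoF m w.1 i x
      rw [rhoF_off hx, rhoF_off hx, smul_zero]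

theorem rho_coe (w : Fm (BB A) m) (i : A.ι) (x : X) (k : (CC A m).κ) :
    (rho A m w).1 i x k = rhoF m w.1 i x k := rfl

/-- the value of `rho` from a local representation -/
theorem rho_apply (w : Fm (BB A) m) {i : A.ι} {x : X} (hx : x ∈ (A.e i).source)
    {g : Fin (m + 1) → X × X → (BB A).κ → ℂ} (h : Rep (A := A) m (w.1.1 (dI i)) i x g)
    (k : Fin 4) (c : Fin (m + 1)) : (rho A m w).1 i x (k, c) = ResL A (g c (x, x)) k :=
  rhoF_eq hx h k c

theorem exists_rep_sec (w : Fm (BB A) m) {i : A.ι} {x : X} (hx : x ∈ (A.e i).source) :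
    ∃ g, Rep (A := A) m (w.1.1 (dI i)) i x g := exists_rep ((w.2 x).lv hx)

/-- `rho` over the ring: functions restrict to the diagonal -/
theorem rho_smul (f : smf (A.prod A)) (w : Fm (BB A) m) {i : A.ι} {x : X}
    (k : (CC A m).κ) : (rho A m (f • w)).1 i x k = f.1 (x, x) * (rho A m w).1 i x k := by
  by_cases hx : x ∈ (A.e i).source
  · obtain ⟨g, hg⟩ := exists_rep_sec w hx
    obtain ⟨k, c⟩ := k
    have h := hg.smul (f := f.1) (Eventually.of_forall fun q => smN_of_mem f q)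
    have h2 : Rep (A := A) m ((f • w).1.1 (dI i)) i x (fun c q => f.1 q • g c q) :=
      h.congr (Eventually.of_forall fun q => rfl)
    rw [rho_apply _ hx h2, rho_apply _ hx hg, map_smul, Pi.smul_apply, smul_eq_mul]
  · rw [rho_coe, rho_coe, rhoF_off hx, rhoF_off hx]
    simp

/-- order `m + 1` is in the kernel of `rho m` -/
theorem rho_succ (w : Fm (BB A) m) (hw : w.1 ∈ Fm (BB A) (m + 1)) : rho A m w = 0 := by
  refine sec_ext fun i x => ?_
  by_cases hx : x ∈ (A.e i).source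
  · obtain ⟨g, hg, hg0⟩ := exists_rep_succ hx ((hw x).lv hx)
    funext k
    obtain ⟨k, c⟩ := k
    rw [rho_apply w hx hg, hg0, map_zero]
    rfl
  · funext k
    rw [rho_coe, rhoF_off hx]
    rfl


end

end

end Crest.Agent.R275.NA4783
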