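import Crest.Agent.R275.NA13b_425
import Crest.Agent.R275.DolG_763
import Crest.Agent.R275.ProdC_363
import Crest.Agent.R275.NA8c_759
import Crest.Agent.R275.SmRP_425
import Crest.Agent.R275.SymRel_585
import Crest.Agent.R275.ChiM_825
import Crest.Agent.R275.TorE_812
import Crest.Agent.R275.ProdB_363
import Crest.Agent.R275.C1c_193
import Crest.Agent.R275.ScaleB_685
import Crest.Agent.R275.QN2b_734
import Crest.Agent.R275.Kun1_570
import Crest.Agent.R275.LnkP3_476
import Crest.Agent.R275.NA4h_783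

-- ▼ part R275/NA13c_425
section

/-!
# R275, PART I', leaf NA13, part 3 (helper425): the swap and the diagonal ideal

* `swLift B : Lift (B.prod B)` : the graded swap of 363 as an involution in the sense of 763,
  over `(dgS A).τ`;
* `dg_cond`, `dg_stable` : the hypotheses of 763's `exists_super_sec` for `J^m`.
-/

set_option autoImplicit false
set_option linter.unusedSectionVars false

open Set Filter Topology Complex
open scoped ContDiff Matrix ComplexConjugate

namespace Crest.Agent.R275.NA13425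

open Crest.Agent.R275.Geo Crest.Agent.R275.NA3m425 Crest.Agent.R275.Smf798
  Crest.Agent.R275.SmR425 Crest.Agent.R275.Con425 Crest.Agent.R275.Dg199
  Crest.Agent.R275.Prod363 Crest.Agent.R275.DolG763

noncomputable section

variable {M : Type} [TopologicalSpace M] [T2Space M] {A : Atl 2 M}

/-- **the swap** as a lifted involution -/
def swLift (B : FBun A) : Lift (B.prod B) where
  s := ((dgS A).τ : smf (A.prod A) →+* smf (A.prod A))
  σ := swpL B
  ss f := (dgS A).τ_τ f
  σσ u := swpL_swpL B u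
  σs f u := by
    refine sec_ext fun i x => ?_
    obtain ⟨i, j⟩ := i
    obtain ⟨x, y⟩ := x
    funext k
    obtain ⟨k, l⟩ := k
    show (-1 : ℂ) ^ (B.deg k * B.deg l) * (f.1 (y, x) * u.1 (j, i) (y, x) (l, k)) =
      f.1 (y, x) * ((-1 : ℂ) ^ (B.deg k * B.deg l) * u.1 (j, i) (y, x) (l, k))
    ring
  σn u := (nabL_swpL B u).symm
  σd c u := by
    refine sec_ext fun i x => ?_
    obtain ⟨i, j⟩ := i
    obtain ⟨x, y⟩ := x
    funext k
    obtain ⟨k, l⟩ := k
    show (-1 : ℂ) ^ (B.deg k * B.deg l) * (c (B.deg l + B.deg k) * u.1 (j, i) (y, x) (l, k)) =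
      c (B.deg k + B.deg l) * ((-1 : ℂ) ^ (B.deg k * B.deg l) * u.1 (j, i) (y, x) (l, k))
    rw [add_comm (B.deg l) (B.deg k)]
    ring



section compact
variable [CompactSpace M] (A)

variable {A}

/-- the connection condition for the powers of the ideal of the diagonal -/
theorem dg_cond (P : Part (A.prod A)) (B : FBun (A.prod A))
    (hB : ∀ u : Sec B, nabL B (nabL B u) = 0) (L : Lift B) (m : ℕ) :
    (dolL hB L).Cond ((dgA A).reg.J ^ m) :=
  dolL_cond hB L P _ fun _ hf i b => dg_DD_mem A P i b hf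




end compact

end

end Crest.Agent.R275.NA13425
end

-- ▼ part R275/NA8e_759
section

/-!
R275, PART I', NA8 (helper759), part e: Noether's formula for a compact surface in the form of
helper825's `CMData.noether`, from the remaining inputs (I4), (I5), index theorems, Serre.
-/

set_option autoImplicit false
set_option linter.unusedSectionVars false

noncomputable section

namespace Crest.Agent.R275.NA8759

open Set Filter Complex
open Crest.Agent.R275.Geo Crest.Agent.R275.Smf798 Crest.Agent.R275.Prod363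
open Crest.Agent.R275.Dg199 Crest.Agent.R275.SB798 Crest.Agent.R275.KR798
open Crest.Agent.R275.NA7763 Crest.Agent.R275.NA6763 Crest.Agent.R275.NA3m425
open Crest.Agent.R275.NA6b763 Crest.Agent.R275.NA3a759 Crest.Agent.R275.SmR425
open Crest.Agent.R275.DolG763 Crest.Agent.R275.SymBun585 Crest.Agent.R275.SymIso585
open Crest.Agent.R275.SymRel585 Crest.Agent.R275.ChiM825 Crest.Agent.R275.Core144
open Crest.Agent.R275.GC293

variable {M : Type} [TopologicalSpace M] [T2Space M] [CompactSpace M] {A : Atl 2 M}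

section

variable (P : Part A) (PP : Part (A.prod A)) (B : FBun A)
  (hBB : ∀ u : Sec (B.prod B), nabL (B.prod B) (nabL (B.prod B) u) = 0)

/-- the Dolbeault complex of `M × M` with the swap -/
def EE : Dol ℂ (smf (A.prod A)) (Sec (B.prod B)) := dolL hBB (NA13425.swLift B)

theorem EE_s (a : smf (A.prod A)) : (EE B hBB).s a = (dgS A).τ a := rfl

include PP in
theorem EE_cond : (EE B hBB).Cond (dgA A).reg.J := by
  have h := NA13425.dg_cond PP (B.prod B) hBB (NA13425.swLift B) 1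
  rwa [pow_one] at h

/-- the complexes `J^m Ω` -/
def SS (m : ℕ) := dcx A (EE B hBB) (EE_s B hBB) (EE_cond PP B hBB) m

end

/-- **Noether's formula**, in terms of `indE`. -/
theorem noether_ind (P : Part A) (PP : Part (A.prod A)) (I : KIndex (smf A))
    (B : FBun A) (hBB : ∀ u : Sec (B.prod B), nabL (B.prod B) (nabL (B.prod B) u) = 0)
    (Ix : SInd (EE B hBB)) (gr : ℕ → ℂ)
    (h0 : (EE B hBB).sc.st = (indE P I (SB.one A) : ℂ))
    (h4 : ∀ m, FiniteDimensional ℂ (SS PP B hBB m).H → FiniteDimensional ℂ (SS PP B hBB (m + 1)).H →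
      (SS PP B hBB m).st - (SS PP B hBB (m + 1)).st = (-1) ^ m * gr m)
    (hE : ∀ m, gr m = (indE P I (symV A m).sb : ℂ))
    (hK : indE P I (KV A).sb = indE P I (SB.one A)) :
    12 * indE P I (SB.one A) =
      (indE P I ((KV A).sb.mul (KV A).sb) - indE P I (SB.one A)) +
        (2 * indE P I (SB.one A) - indE P I (baseSB (coc A))) := by
  have hflat : Module.Flat (smf (A.prod A)) (Sec (B.prod B)) := flat_sec PP (B.prod B)
  refine noether_dg A (EE B hBB) Ix (EE_s B hBB) (EE_cond PP B hBB)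
    (indE P I (SB.one A)) _ _ (fun m => indE P I (symV A m).sb) h0 (fun m => ?_)
    (fun m => indE_symV (coc A) P I hK m)
  have h1 := h4 m (finite_dcx A (EE B hBB) Ix (EE_s B hBB) (EE_cond PP B hBB) m)
    (finite_dcx A (EE B hBB) Ix (EE_s B hBB) (EE_cond PP B hBB) (m + 1))
  rw [hE] at h1
  push_cast
  exact h1

/-- the canonical bundle of 144 and the determinant bundle of 585 -/
def isoKV : SB.Iso (toSB (slb (KB A))) (KV A).sb :=
  have : Unique (KV A).sb.ρ := inferInstanceAs (Unique Unit)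
  isoOfFun _ _ (fun _ _ => 1) (fun _ => contDiffOn_const) (fun _ _ _ => one_ne_zero)
    (fun i j x hx => by
      rw [one_mul, mul_one]
      show (KB A).g i j x = ((Jm A i j x).transpose).det
      rw [KB_g hx, Matrix.det_transpose])

/-- **Noether's formula** in the form of `CMData.noether`. -/
theorem noether_cm (P : Part A) (PP : Part (A.prod A)) (I : KIndex (smf A))
    (B : FBun A) (hBB : ∀ u : Sec (B.prod B), nabL (B.prod B) (nabL (B.prod B) u) = 0)
    (Ix : SInd (EE B hBB)) (gr : ℕ → ℂ)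
    (h0 : (EE B hBB).sc.st = (indE P I (SB.one A) : ℂ))
    (h4 : ∀ m, FiniteDimensional ℂ (SS PP B hBB m).H → FiniteDimensional ℂ (SS PP B hBB (m + 1)).H →
      (SS PP B hBB m).st - (SS PP B hBB (m + 1)).st = (-1) ^ m * gr m)
    (hE : ∀ m, gr m = (indE P I (symV A m).sb : ℂ))
    (hK : chiL P I (slb (KB A)) = chiL P I (SLB.triv A)) (e : ℤ)
    (he : e = chiL P I (SLB.triv A) - indE P I (OmT75.Om1 A).sb + chiL P I (slb (KB A))) :
    12 * chiL P I (SLB.triv A) = bL P I (slb (KB A)) (slb (KB A)) + e := by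
  have e1 : chiL P I (SLB.triv A) = indE P I (SB.one A) := by
    rw [chiL_def, indE, indE, cE_congr isoOne]
  have e2 : chiL P I (slb (KB A)) = indE P I (KV A).sb := by
    rw [chiL_def, indE, indE, cE_congr isoKV]
  have e3 : chiL P I ((slb (KB A)).tmul (slb (KB A))) = indE P I ((KV A).sb.mul (KV A).sb) := by
    rw [chiL, cl_tmul, indE, cE_mul, ChiM825.cl, cE_congr isoKV]
  have hK' : indE P I (KV A).sb = indE P I (SB.one A) := by rw [← e1, ← e2, hK]
  have h := noether_ind P PP I B hBB Ix gr h0 h4 hE hK'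
  have e4 : indE P I (OmT75.Om1 A).sb = indE P I (baseSB (coc A)) := rfl
  rw [he, bL, e3, hK, e1, e4]
  linarith

end Crest.Agent.R275.NA8759
end
end

-- ▼ part R275/Kun2_570
section

/-!
R275, PART I', leaf NA9a (helper570), torus part: Fourier series in the second group of variables.

* `sl k F`   : the `k`-th Fourier coefficient of `F ∈ SPer (d ⊕ e)` in the second variable.
* `atl y F`, `atr x F` : partial functions.
* `syn2 g`   : synthesis of `∑ₖ g k (x) ch k y` for rapidly decreasing `g : (e → ℤ) → SPer d`.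
-/

set_option autoImplicit false

open Filter Topology Set Complex
open scoped ContDiff Real

namespace Crest.Agent.R275.Kun570

open Crest.Agent.R275.Tor812 Crest.Agent.R275.TorE812

noncomputable section

variable {d e : Type} [Fintype d] [Fintype e]

theorem wt_elim (m : d → ℤ) (k : e → ℤ) : wt (Sum.elim m k) = wt m + wt k - 1 := by
  unfold wt
  rw [Fintype.sum_sum_type]
  simp only [Sum.elim_inl, Sum.elim_inr]
  ring

theorem wt_le_left (m : d → ℤ) (k : e → ℤ) : wt m ≤ wt (Sum.elim m k) := by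
  rw [wt_elim]; linarith [one_le_wt k]

theorem wt_le_right (m : d → ℤ) (k : e → ℤ) : wt k ≤ wt (Sum.elim m k) := by
  rw [wt_elim]; linarith [one_le_wt m]

theorem wt_elim_le (m : d → ℤ) (k : e → ℤ) : wt (Sum.elim m k) ≤ wt m * wt k := by
  rw [wt_elim]
  nlinarith [one_le_wt m, one_le_wt k]

theorem ch_elim (m : d → ℤ) (k : e → ℤ) (x : d → ℝ) (y : e → ℝ) :
    ch (Sum.elim m k) (Sum.elim x y) = ch m x * ch k y := by
  unfold ch
  rw [← Complex.exp_add, Fintype.sum_sum_type]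
  simp only [Sum.elim_inl, Sum.elim_inr]
  congr 1
  ring

/-! ### slices of Fourier coefficients -/

theorem rapid_sl {a : (d ⊕ e → ℤ) → ℂ} (h : Rapid a) (k : e → ℤ) :
    Rapid (fun m : d → ℤ => a (Sum.elim m k)) := by
  intro N
  obtain ⟨C, hC⟩ := h N
  refine ⟨C, fun m => le_trans ?_ (hC (Sum.elim m k))⟩
  exact mul_le_mul_of_nonneg_right (pow_le_pow_left₀ (wt_pos m).le (wt_le_left m k) N)
    (norm_nonneg _)

/-- the `k`-th Fourier coefficient in the second variable -/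
def sl (k : e → ℤ) (F : SPer (d ⊕ e)) : SPer d :=
  syn (fun m => fc F (Sum.elim m k)) (rapid_sl (rapid_fc F) k)

theorem fc_sl (k : e → ℤ) (F : SPer (d ⊕ e)) (m : d → ℤ) :
    fc (sl k F) m = fc F (Sum.elim m k) := fc_syn _ _ _

theorem nrm_sl_le (s N : ℕ) (k : e → ℤ) (F : SPer (d ⊕ e)) :
    wt k ^ N * nrm s (sl k F) ≤ nrm (s + 2 * N) F := by
  have h0 : 0 ≤ wt k ^ N := pow_nonneg (wt_pos k).le _
  refine (pow_le_pow_iff_left₀ (mul_nonneg h0 (nrm_nonneg _ _)) (nrm_nonneg _ _) two_ne_zero).1 ?_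
  have h1 := (hasSum_nrm_sq s (sl k F)).mul_left ((wt k ^ N) ^ 2)
  rw [← mul_pow] at h1
  have h2 := hasSum_nrm_sq (s + 2 * N) F
  have hinj : Function.Injective (fun m : d → ℤ => (Sum.elim m k : d ⊕ e → ℤ)) := by
    intro m m' h
    have h' : (Sum.elim m k : d ⊕ e → ℤ) = Sum.elim m' k := h
    funext i
    exact congrFun h' (Sum.inl i)
  refine (hasSum_le_inj _ hinj (fun c _ => ?_) (fun m => ?_) h1 h2)
  · exact mul_nonneg (pow_nonneg (wt_pos c).le _) (sq_nonneg _)
  · rw [fc_sl, pow_add, pow_mul]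
    have h3 : (wt k ^ N) ^ 2 ≤ (wt (Sum.elim m k : d ⊕ e → ℤ) ^ 2) ^ N := by
      rw [← pow_mul, ← pow_mul, mul_comm N 2]
      exact pow_le_pow_left₀ (wt_pos k).le (wt_le_right m k) _
    have h4 : wt m ^ s ≤ wt (Sum.elim m k : d ⊕ e → ℤ) ^ s :=
      pow_le_pow_left₀ (wt_pos m).le (wt_le_left m k) s
    have h5 : 0 ≤ ‖fc F (Sum.elim m k)‖ ^ 2 := sq_nonneg _
    calc (wt k ^ N) ^ 2 * (wt m ^ s * ‖fc F (Sum.elim m k)‖ ^ 2)
        = wt m ^ s * (wt k ^ N) ^ 2 * ‖fc F (Sum.elim m k)‖ ^ 2 := by ring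
      _ ≤ wt (Sum.elim m k : d ⊕ e → ℤ) ^ s * (wt (Sum.elim m k : d ⊕ e → ℤ) ^ 2) ^ N *
          ‖fc F (Sum.elim m k)‖ ^ 2 :=
        mul_le_mul_of_nonneg_right (mul_le_mul h4 h3 (sq_nonneg _)
          (pow_nonneg (wt_pos _).le _)) h5

/-! ### partial functions -/

/-- `F (x, ·)` -/
def atr (x : d → ℝ) (F : SPer (d ⊕ e)) : SPer e :=
  ⟨fun y => F (Sum.elim x y), by
    refine (sm F).comp ?_
    rw [contDiff_pi]
    rintro (i | j)
    · exact contDiff_const
    · exact contDiff_apply ℝ ℝ j, fun k y => by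
    have h : (Sum.elim x (y + fun i => (k i : ℝ)) : d ⊕ e → ℝ) =
        Sum.elim x y + fun i => (((Sum.elim 0 k : d ⊕ e → ℤ) i : ℤ) : ℝ) := by
      funext i
      rcases i with i | i <;> simp
    show F (Sum.elim x (y + fun i => (k i : ℝ))) = F (Sum.elim x y)
    rw [h, per F]⟩

theorem atr_apply (x : d → ℝ) (F : SPer (d ⊕ e)) (y : e → ℝ) : atr x F y = F (Sum.elim x y) := rfl

/-- `F (·, y)` -/
def atl (y : e → ℝ) (F : SPer (d ⊕ e)) : SPer d :=
  ⟨fun x => F (Sum.elim x y), by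
    refine (sm F).comp ?_
    rw [contDiff_pi]
    rintro (i | j)
    · exact contDiff_apply ℝ ℝ i
    · exact contDiff_const, fun k x => by
    have h : (Sum.elim (x + fun i => (k i : ℝ)) y : d ⊕ e → ℝ) =
        Sum.elim x y + fun i => (((Sum.elim k 0 : d ⊕ e → ℤ) i : ℤ) : ℝ) := by
      funext i
      rcases i with i | i <;> simp
    show F (Sum.elim (x + fun i => (k i : ℝ)) y) = F (Sum.elim x y)
    rw [h, per F]⟩

theorem atl_apply (y : e → ℝ) (F : SPer (d ⊕ e)) (x : d → ℝ) : atl y F x = F (Sum.elim x y) := rfl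

/-- the index equivalence -/
def sumE : (d ⊕ e → ℤ) ≃ (e → ℤ) × (d → ℤ) :=
  (Equiv.sumArrowEquivProdArrow d e ℤ).trans (Equiv.prodComm _ _)

omit [Fintype d] [Fintype e] in
theorem sumE_symm (k : e → ℤ) (m : d → ℤ) : (sumE (d := d) (e := e)).symm (k, m) = Sum.elim m k :=
  rfl

theorem hasSum_double (F : SPer (d ⊕ e)) (x : d → ℝ) (y : e → ℝ) :
    HasSum (fun p : (e → ℤ) × (d → ℤ) => fc F (Sum.elim p.2 p.1) * (ch p.2 x * ch p.1 y))
      (F (Sum.elim x y)) := by
  have h := hasSum_ch F (Sum.elim x y)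
  rw [← (sumE (d := d) (e := e)).symm.hasSum_iff] at h
  convert h using 1
  funext p
  obtain ⟨k, m⟩ := p
  simp only [Function.comp_apply, sumE_symm, ch_elim]

/-- Fourier expansion in the second variable. -/
theorem hasSum_sl (F : SPer (d ⊕ e)) (x : d → ℝ) (y : e → ℝ) :
    HasSum (fun k : e → ℤ => sl k F x * ch k y) (F (Sum.elim x y)) := by
  refine (hasSum_double F x y).prod_fiberwise fun k => ?_
  have h := (syn_hasSum (fun m => fc F (Sum.elim m k)) (rapid_sl (rapid_fc F) k) x).mul_right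
    (ch k y)
  simp only [mul_assoc] at h
  exact h

theorem rapid_sl_apply (F : SPer (d ⊕ e)) (x : d → ℝ) : Rapid fun k : e → ℤ => sl k F x := by
  intro N
  obtain ⟨C, hC0, hC⟩ := sup_le (d := d) (s := Fintype.card d + 1) (by omega)
  refine ⟨C * nrm (Fintype.card d + 1 + 2 * N) F, fun k => ?_⟩
  have h1 := hC (sl k F) x
  have h2 := nrm_sl_le (Fintype.card d + 1) N k F
  calc wt k ^ N * ‖sl k F x‖ ≤ wt k ^ N * (C * nrm (Fintype.card d + 1) (sl k F)) :=
        mul_le_mul_of_nonneg_left h1 (pow_nonneg (wt_pos k).le _)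
    _ = C * (wt k ^ N * nrm (Fintype.card d + 1) (sl k F)) := by ring
    _ ≤ C * nrm (Fintype.card d + 1 + 2 * N) F := mul_le_mul_of_nonneg_left h2 hC0

/-- for fixed `x` the Fourier coefficients of `y ↦ F (x, y)` are the `sl k F x` -/
theorem fc_atr (x : d → ℝ) (F : SPer (d ⊕ e)) (k : e → ℤ) : fc (atr x F) k = sl k F x := by
  have h : atr x F = syn _ (rapid_sl_apply F x) := by
    refine SPer.ext fun y => ?_
    exact (hasSum_sl F x y).unique (syn_hasSum _ (rapid_sl_apply F x) y)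
  rw [h, fc_syn]

/-! ### synthesis -/

/-- rapidly decreasing families of smooth periodic functions -/
def Rapid2 (g : (e → ℤ) → SPer d) : Prop :=
  ∀ s N : ℕ, ∃ C, ∀ k, wt k ^ N * nrm s (g k) ≤ C

theorem rapid2_sl (F : SPer (d ⊕ e)) : Rapid2 fun k : e → ℤ => sl k F := fun s N =>
  ⟨nrm (s + 2 * N) F, fun k => nrm_sl_le s N k F⟩

theorem Rapid2.rapid {g : (e → ℤ) → SPer d} (h : Rapid2 g) :
    Rapid (fun K : d ⊕ e → ℤ => fc (g (K ∘ Sum.inr)) (K ∘ Sum.inl)) := by
  intro N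
  obtain ⟨C, hC⟩ := h (2 * N) N
  refine ⟨C, fun K => le_trans ?_ (hC (K ∘ Sum.inr))⟩
  have hK : K = Sum.elim (K ∘ Sum.inl) (K ∘ Sum.inr) := (Sum.elim_comp_inl_inr K).symm
  have h1 : wt K ^ N ≤ wt (K ∘ Sum.inl) ^ N * wt (K ∘ Sum.inr) ^ N := by
    rw [← mul_pow]
    refine pow_le_pow_left₀ (wt_pos K).le ?_ N
    conv_lhs => rw [hK]
    exact wt_elim_le _ _
  have h2 := norm_fc_le_nrm (2 * N) (g (K ∘ Sum.inr)) (K ∘ Sum.inl)
  rw [pow_mul, br_sq] at h2
  calc wt K ^ N * ‖fc (g (K ∘ Sum.inr)) (K ∘ Sum.inl)‖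
      ≤ wt (K ∘ Sum.inl) ^ N * wt (K ∘ Sum.inr) ^ N *
        ‖fc (g (K ∘ Sum.inr)) (K ∘ Sum.inl)‖ := mul_le_mul_of_nonneg_right h1 (norm_nonneg _)
    _ = wt (K ∘ Sum.inr) ^ N *
        (wt (K ∘ Sum.inl) ^ N * ‖fc (g (K ∘ Sum.inr)) (K ∘ Sum.inl)‖) := by ring
    _ ≤ wt (K ∘ Sum.inr) ^ N * nrm (2 * N) (g (K ∘ Sum.inr)) :=
        mul_le_mul_of_nonneg_left h2 (pow_nonneg (wt_pos _).le _)

/-- synthesis -/
def syn2 (g : (e → ℤ) → SPer d) (h : Rapid2 g) : SPer (d ⊕ e) := syn _ h.rapid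

theorem sl_syn2 (g : (e → ℤ) → SPer d) (h : Rapid2 g) (k : e → ℤ) : sl k (syn2 g h) = g k := by
  refine fc_inj fun m => ?_
  rw [fc_sl, syn2, fc_syn]
  rfl

theorem syn2_hasSum (g : (e → ℤ) → SPer d) (h : Rapid2 g) (x : d → ℝ) (y : e → ℝ) :
    HasSum (fun k : e → ℤ => g k x * ch k y) (syn2 g h (Sum.elim x y)) := by
  have h1 := hasSum_sl (syn2 g h) x y
  simpa only [sl_syn2] using h1

/-- summability of all norms -/
theorem Rapid2.summable {g : (e → ℤ) → SPer d} (h : Rapid2 g) (s : ℕ) :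
    Summable fun k => nrm s (g k) := by
  obtain ⟨C, hC⟩ := h s (Fintype.card e)
  refine Summable.of_nonneg_of_le (fun k => nrm_nonneg _ _) (fun k => ?_)
    ((summable_wt (d := e) le_rfl).mul_left C)
  have h2 := pow_pos (wt_pos k) (Fintype.card e)
  rw [← div_eq_mul_inv, le_div_iff₀ h2, mul_comm]
  exact hC k

/-- convergence of a series in the norm `nrm s`, from convergence of Fourier coefficients -/
theorem hasSum_emb {ι : Type*} (s : ℕ) {g : ι → SPer d} {f : SPer d}
    (hs : Summable fun k => nrm s (g k)) (hfc : ∀ m, HasSum (fun k => fc (g k) m) (fc f m)) :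
    HasSum (fun k => emb s (g k)) (emb s f) := by
  have h14 : Summable fun k => emb s (g k) := Summable.of_norm hs
  obtain ⟨w, hw⟩ := h14
  have h15 : w = emb s f := by
    refine Subtype.ext (funext fun m => ?_)
    have h16 := (lp.evalCLM ℂ (fun _ : d → ℤ => ℂ) 2 m).hasSum hw
    have h17 : HasSum (fun k => ((br m ^ s : ℝ) : ℂ) * fc (g k) m)
        (((br m ^ s : ℝ) : ℂ) * fc f m) := (hfc m).mul_left _
    exact h16.unique h17
  rwa [← h15]

/-- partial sums converge in the norm `nrm s` -/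
theorem tendsto_nrm {ι : Type*} (s : ℕ) {g : ι → SPer d} {f : SPer d}
    (hs : Summable fun k => nrm s (g k)) (hfc : ∀ m, HasSum (fun k => fc (g k) m) (fc f m)) :
    Tendsto (fun S : Finset ι => nrm s (∑ k ∈ S, g k - f)) atTop (𝓝 0) := by
  have h1 := hasSum_emb s hs hfc
  have h2 : Tendsto (fun S : Finset ι => ∑ k ∈ S, emb s (g k) - emb s f) atTop (𝓝 0) := by
    have := h1.sub_const (emb s f)
    rwa [sub_self] at this
  have h3 := h2.norm
  rw [norm_zero] at h3
  refine h3.congr fun S => ?_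
  rw [nrm, map_sub, map_sum]

/-- for fixed `y` the Fourier coefficients of `x ↦ F (x, y)` -/
theorem hasSum_fc_atl (y : e → ℝ) (F : SPer (d ⊕ e)) (m : d → ℤ) :
    HasSum (fun k : e → ℤ => fc (sl k F) m * ch k y) (fc (atl y F) m) := by
  -- the candidate
  have hsum : ∀ m : d → ℤ, Summable fun k : e → ℤ => fc F (Sum.elim m k) * ch k y := by
    intro m
    refine Summable.of_norm ?_
    simp only [norm_mul, norm_ch, mul_one]
    have h := ((rapid_fc F).summable_norm.comp_injective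
      (i := fun k : e → ℤ => (Sum.elim m k : d ⊕ e → ℤ)) ?_)
    · exact h
    · intro k k' h
      have h' : (Sum.elim m k : d ⊕ e → ℤ) = Sum.elim m k' := h
      funext i
      exact congrFun h' (Sum.inr i)
  have hr : Rapid fun m : d → ℤ => ∑' k : e → ℤ, fc F (Sum.elim m k) * ch k y := by
    intro N
    obtain ⟨C, hC⟩ := (rapid_fc F) (N + Fintype.card e)
    refine ⟨C * ∑' k : e → ℤ, (wt k ^ Fintype.card e)⁻¹, fun m => ?_⟩
    have h1 : ∀ k : e → ℤ, wt m ^ N * ‖fc F (Sum.elim m k)‖ ≤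
        C * (wt k ^ Fintype.card e)⁻¹ := by
      intro k
      rw [← div_eq_mul_inv, le_div_iff₀ (pow_pos (wt_pos k) _)]
      refine le_trans ?_ (hC (Sum.elim m k))
      rw [pow_add]
      have h2 : wt m ^ N * wt k ^ Fintype.card e ≤
          wt (Sum.elim m k : d ⊕ e → ℤ) ^ N * wt (Sum.elim m k : d ⊕ e → ℤ) ^ Fintype.card e :=
        mul_le_mul (pow_le_pow_left₀ (wt_pos m).le (wt_le_left m k) _)
          (pow_le_pow_left₀ (wt_pos k).le (wt_le_right m k) _) (pow_nonneg (wt_pos k).le _)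
          (pow_nonneg (wt_pos _).le _)
      calc wt m ^ N * ‖fc F (Sum.elim m k)‖ * wt k ^ Fintype.card e
          = wt m ^ N * wt k ^ Fintype.card e * ‖fc F (Sum.elim m k)‖ := by ring
        _ ≤ _ := mul_le_mul_of_nonneg_right h2 (norm_nonneg _)
    have h3 : Summable fun k : e → ℤ => ‖fc F (Sum.elim m k) * ch k y‖ := (hsum m).norm
    refine (mul_le_mul_of_nonneg_left (norm_tsum_le_tsum_norm h3)
      (pow_nonneg (wt_pos m).le _)).trans ?_
    rw [← tsum_mul_left, ← tsum_mul_left]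
    refine Summable.tsum_le_tsum (fun k => ?_) (h3.mul_left _)
      ((summable_wt (d := e) le_rfl).mul_left _)
    rw [norm_mul, norm_ch, mul_one]
    exact h1 k
  have h4 : atl y F = syn _ hr := by
    refine SPer.ext fun x => ?_
    have h5 := (Equiv.prodComm (d → ℤ) (e → ℤ)).hasSum_iff.2 (hasSum_double F x y)
    have h6 : HasSum (fun m : d → ℤ => (∑' k : e → ℤ, fc F (Sum.elim m k) * ch k y) * ch m x)
        (F (Sum.elim x y)) := by
      refine h5.prod_fiberwise fun m => ?_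
      have h7 := (hsum m).hasSum.mul_right (ch m x)
      refine (funext fun k => ?_ : (fun k : e → ℤ => fc F (Sum.elim m k) * ch k y * ch m x) =
        fun k => ((fun p : (e → ℤ) × (d → ℤ) => fc F (Sum.elim p.2 p.1) * (ch p.2 x * ch p.1 y)) ∘
          (Equiv.prodComm (d → ℤ) (e → ℤ))) (m, k)) ▸ h7
      simp only [Function.comp_apply, Equiv.prodComm_apply, Prod.swap_prod_mk]
      ring
    exact h6.unique (syn_hasSum _ hr x)
  rw [h4, fc_syn]
  simp only [fc_sl]
  exact (hsum m).hasSum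

/-- `F (·, y) = ∑ₖ ch k y • sl k F` in every norm. -/
theorem tendsto_atl (s : ℕ) (y : e → ℝ) (F : SPer (d ⊕ e)) :
    Tendsto (fun S : Finset (e → ℤ) => nrm s (∑ k ∈ S, ch k y • sl k F - atl y F)) atTop (𝓝 0) := by
  refine tendsto_nrm s ?_ fun m => ?_
  · have := (rapid2_sl F).summable s
    refine this.congr fun k => ?_
    rw [nrm_smul, norm_ch, one_mul]
  · have h := hasSum_fc_atl y F m
    refine (funext fun k => ?_ : (fun k : e → ℤ => fc (sl k F) m * ch k y) =
      fun k => fc (ch k y • sl k F) m) ▸ h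
    rw [fc_smul, mul_comm]

end

end Crest.Agent.R275.Kun570
end

-- ▼ part R275/Kun3_570
section

/-!
R275, PART I', leaf NA9a (helper570), geometric part: operators acting on the first variable.

* `reix`  : `SPer (RI (n + m)) → SPer (RI n ⊕ RI m)`.
* `pf2`   : a compactly supported function on a product chart as a periodic function of two
            groups of variables.
* `CFam`  : compactly supported smooth families `N → Sec B` in a chart `j` of `N`; Fourier
            coefficients `co k ∈ Sec B`.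
-/

set_option autoImplicit false
set_option linter.unusedSectionVars false

open Filter Topology Set Complex
open scoped ContDiff Real Matrix Kronecker

namespace Crest.Agent.R275.Kun570

open Crest.Agent.R275.Tor812 Crest.Agent.R275.TorE812 Crest.Agent.R275.TorS666
open Crest.Agent.R275.Geo Crest.Agent.R275.Prod363 Crest.Agent.R275.C1c193
open Crest.Agent.R275.Fred685

noncomputable section

/-! ### reindexing -/

section reix

variable {n m : ℕ}

/-- real coordinates of `Cn (n + m)` -/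
def ixp (n m : ℕ) (p : RI (n + m)) : RI n ⊕ RI m :=
  Fin.addCases (motive := fun _ => RI n ⊕ RI m) (fun a => Sum.inl (a, p.2))
    (fun b => Sum.inr (b, p.2)) p.1

@[simp] theorem ixp_castAdd (a : Fin n) (c : Fin 2) :
    ixp n m (Fin.castAdd m a, c) = Sum.inl (a, c) := by
  unfold ixp
  exact Fin.addCases_left _

@[simp] theorem ixp_natAdd (b : Fin m) (c : Fin 2) :
    ixp n m (Fin.natAdd n b, c) = Sum.inr (b, c) := by
  unfold ixp
  exact Fin.addCases_right _

theorem rc_app (z : Cn n) (w : Cn m) :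
    rc (app z w) = fun p => Sum.elim (rc z) (rc w) (ixp n m p) := by
  funext p
  obtain ⟨a, c⟩ := p
  induction a using Fin.addCases with
  | left a =>
    rw [ixp_castAdd, Sum.elim_inl]
    unfold rc
    simp only [app_castAdd]
  | right b =>
    rw [ixp_natAdd, Sum.elim_inr]
    unfold rc
    simp only [app_natAdd]

theorem cc_ixp (x : RI n → ℝ) (y : RI m → ℝ) :
    cc (fun p => Sum.elim x y (ixp n m p)) = app (cc x) (cc y) := by
  have h := rc_app (cc x) (cc y)
  rw [rc_cc, rc_cc] at h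
  rw [← h, cc_rc]

/-- a periodic function on the product -/
def reix (G : SPer (RI (n + m))) : SPer (RI n ⊕ RI m) :=
  ⟨fun w => G (fun p => w (ixp n m p)), by
    refine (sm G).comp ?_
    rw [contDiff_pi]
    intro p
    exact contDiff_apply ℝ ℝ (ixp n m p), fun k w => by
    have h := per G (fun p => k (ixp n m p)) (fun p => w (ixp n m p))
    exact h⟩

theorem reix_apply (G : SPer (RI (n + m))) (w : RI n ⊕ RI m → ℝ) :
    reix G w = G (fun p => w (ixp n m p)) := rfl

theorem reix_rc (G : SPer (RI (n + m))) (z : Cn n) (w : Cn m) :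
    reix G (Sum.elim (rc z) (rc w)) = G (rc (app z w)) := by
  rw [reix_apply, rc_app]

end reix

variable {n m : ℕ} {M N : Type} [TopologicalSpace M] [TopologicalSpace N]
variable {A : Atl n M} {A' : Atl m N}

/-! ### functions on product charts -/

section pf2

variable {i : A.ι} {j : A'.ι} {F : M × N → ℂ}

theorem mem_rdU_prod {x : RI n → ℝ} {y : RI m → ℝ} :
    (fun p => Sum.elim x y (ixp n m p)) ∈ rdU (A.prod A') (i, j) ↔
      x ∈ rdU A i ∧ y ∈ rdU A' j := by
  show cc (fun p => Sum.elim x y (ixp n m p)) ∈ ((A.prod A').e (i, j)).target ↔ _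
  rw [cc_ixp, mem_prod_target, fstL_app, sndL_app]
  exact Iff.rfl

theorem mem_Qo_prod {x : RI n → ℝ} {y : RI m → ℝ} (hx : x ∈ Qo (RI n)) (hy : y ∈ Qo (RI m)) :
    (fun p => Sum.elim x y (ixp n m p)) ∈ Qo (RI (n + m)) := by
  rintro ⟨a, c⟩
  induction a using Fin.addCases with
  | left a =>
    simp only [ixp_castAdd, Sum.elim_inl]
    exact hx _
  | right b =>
    simp only [ixp_natAdd, Sum.elim_inr]
    exact hy _

/-- `F` as a periodic function of two groups of variables -/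
def pf2 (A : Atl n M) (A' : Atl m N) (i : A.ι) (j : A'.ι) (F : M × N → ℂ)
    (hF : (A.prod A').SmAt (i, j) F) (hc : CptIn (A.prod A') (i, j) F) : SPer (RI n ⊕ RI m) :=
  reix (pf (A.prod A') (i, j) F hF hc)

theorem pf2_rc (hF : (A.prod A').SmAt (i, j) F) (hc : CptIn (A.prod A') (i, j) F) {x : M} {y : N}
    (hx : x ∈ (A.e i).source) (hy : y ∈ (A'.e j).source) :
    pf2 A A' i j F hF hc (Sum.elim (rc (A.e i x)) (rc (A'.e j y))) = F (x, y) := by
  rw [pf2, reix_rc]
  exact pf_rc hF hc (x := (x, y)) ⟨hx, hy⟩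

theorem pf2_off (hF : (A.prod A').SmAt (i, j) F) (hc : CptIn (A.prod A') (i, j) F)
    {x : RI n → ℝ} {y : RI m → ℝ} (hx : x ∈ Qo (RI n)) (hy : y ∈ Qo (RI m))
    (h : ¬ (x ∈ rdU A i ∧ y ∈ rdU A' j)) : pf2 A A' i j F hF hc (Sum.elim x y) = 0 := by
  rw [pf2, reix_apply]
  exact pf_off hF hc (mem_Qo_prod hx hy) (fun h' => h (mem_rdU_prod.1 h'))

theorem exists_of_rdU {i : A.ι} {x : RI n → ℝ} (hx : x ∈ rdU A i) :
    ∃ p ∈ (A.e i).source, rc (A.e i p) = x := by
  refine ⟨(A.e i).symm (cc x), (A.e i).map_target hx, ?_⟩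
  rw [(A.e i).right_inv hx, rc_cc]

theorem CptIn.slice_left (hc : CptIn (A.prod A') (i, j) F) {y : N} (hy : y ∈ (A'.e j).source) :
    CptIn A i (fun x => F (x, y)) := by
  obtain ⟨K, hK, hs, h0⟩ := hc
  refine ⟨Prod.fst '' K, hK.image continuous_fst, ?_, fun x hx hn => ?_⟩
  · rintro _ ⟨p, hp, rfl⟩
    exact (hs hp).1
  · exact h0 (x, y) ⟨hx, hy⟩ (fun h => hn ⟨_, h, rfl⟩)

theorem CptIn.slice_right (hc : CptIn (A.prod A') (i, j) F) {x : M} (hx : x ∈ (A.e i).source) :
    CptIn A' j (fun y => F (x, y)) := by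
  obtain ⟨K, hK, hs, h0⟩ := hc
  refine ⟨Prod.snd '' K, hK.image continuous_snd, ?_, fun y hy hn => ?_⟩
  · rintro _ ⟨p, hp, rfl⟩
    exact (hs hp).2
  · exact h0 (x, y) ⟨hx, hy⟩ (fun h => hn ⟨_, h, rfl⟩)

theorem atl_pf2 (hF : (A.prod A').SmAt (i, j) F) (hc : CptIn (A.prod A') (i, j) F) {y : N}
    (hy : y ∈ (A'.e j).source) :
    atl (rc (A'.e j y)) (pf2 A A' i j F hF hc) =
      pf A i (fun x => F (x, y)) (smAt_slice_left A A' hF hy) (CptIn.slice_left hc hy) := by
  refine eq_of_values (A := A) (i := i) (fun x hx => ?_) (fun x hx hx' => ?_) fun x hx hx' => ?_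
  · obtain ⟨p, hp, rfl⟩ := exists_of_rdU hx
    rw [atl_apply, pf2_rc hF hc hp hy, pf_rc _ _ hp]
  · rw [atl_apply]
    exact pf2_off hF hc hx (rc_mem_Qo hy) (fun h => hx' h.1)
  · exact pf_off _ _ hx hx'

theorem atr_pf2 (hF : (A.prod A').SmAt (i, j) F) (hc : CptIn (A.prod A') (i, j) F) {x : M}
    (hx : x ∈ (A.e i).source) :
    atr (rc (A.e i x)) (pf2 A A' i j F hF hc) =
      pf A' j (fun y => F (x, y)) (smAt_slice_right A A' hF hx) (CptIn.slice_right hc hx) := by
  refine eq_of_values (A := A') (i := j) (fun y hy => ?_) (fun y hy hy' => ?_) fun y hy hy' => ?_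
  · obtain ⟨q, hq, rfl⟩ := exists_of_rdU hy
    rw [atr_apply, pf2_rc hF hc hx hq, pf_rc _ _ hq]
  · rw [atr_apply]
    exact pf2_off hF hc (rc_mem_Qo hx) hy (fun h => hy' h.2)
  · exact pf_off _ _ hy hy'

theorem sl_pf2_rc (hF : (A.prod A').SmAt (i, j) F) (hc : CptIn (A.prod A') (i, j) F) {x : M}
    (hx : x ∈ (A.e i).source) (k : RI m → ℤ) :
    sl k (pf2 A A' i j F hF hc) (rc (A.e i x)) =
      fc (pf A' j (fun y => F (x, y)) (smAt_slice_right A A' hF hx) (CptIn.slice_right hc hx)) k := by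
  rw [← fc_atr, atr_pf2 hF hc hx]

theorem sl_pf2_off (hF : (A.prod A').SmAt (i, j) F) (hc : CptIn (A.prod A') (i, j) F)
    {x : RI n → ℝ} (hx : x ∈ Qo (RI n)) (hx' : x ∉ rdU A i) (k : RI m → ℤ) :
    sl k (pf2 A A' i j F hF hc) x = 0 := by
  have h : atr x (pf2 A A' i j F hF hc) = 0 := by
    refine eq_of_values (A := A') (i := j) (fun y hy => ?_) (fun y hy hy' => ?_) fun y hy hy' => rfl
    · rw [atr_apply]
      exact pf2_off hF hc hx (rdU_sub j hy) (fun h => hx' h.1)
    · rw [atr_apply]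
      exact pf2_off hF hc hx hy (fun h => hx' h.1)
  rw [← fc_atr, h]
  have h2 := fc_smul (0 : ℂ) (0 : SPer (RI m)) k
  rwa [zero_smul, zero_mul] at h2

end pf2

/-! ### cut-offs -/

/-- scalar cut-off in the chart `i` -/
structure Cut (A : Atl n M) (i : A.ι) (a : M → ℂ) : Prop where
  sm : A.SmAt i a
  cpt : IsCompact (tsupport a)
  sub : tsupport a ⊆ (A.e i).source

theorem Cut.cptIn {i : A.ι} {a : M → ℂ} (h : Cut A i a) : CptIn A i a :=
  CptIn.of_tsupport h.cpt h.sub

theorem exists_cut [T2Space M] {i : A.ι} {x : M} (hx : x ∈ (A.e i).source) :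
    ∃ a : M → ℂ, Cut A i a ∧ ∀ᶠ y in 𝓝 x, a y = 1 := by
  obtain ⟨φ, h1, -, h3, h4, h5⟩ :=
    QN2b734.exists_bump_point A ((A.e i).open_source.mem_nhds hx)
  have hs : tsupport (fun y => (φ y : ℂ)) ⊆ tsupport φ := by
    refine closure_mono fun y hy hy' => hy ?_
    show (φ y : ℂ) = 0
    rw [hy', Complex.ofReal_zero]
  refine ⟨fun y => (φ y : ℂ), ⟨?_, h4.of_isClosed_subset (isClosed_tsupport _) hs,
    hs.trans h5⟩, ?_⟩
  · have h6 : A.SmAt i φ := QN2b734.smAt_iff.2 fun y _ => h1 y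
    exact Complex.ofRealCLM.contDiff.comp_contDiffOn h6
  · filter_upwards [h3] with y hy
    rw [hy, Complex.ofReal_one]

variable {B : FBun A}

theorem sec_sm (w : Sec B) (i : A.ι) (κ : B.κ) : A.SmAt i (fun x => w.1 i x κ) := w.2.1 i κ

theorem sec_off (w : Sec B) {i : A.ι} {x : M} (hx : x ∉ (A.e i).source) : w.1 i x = 0 :=
  w.2.2.1 i x hx

theorem sec_tr (w : Sec B) {i j : A.ι} {x : M} (hx : x ∈ (A.e i).source ∩ (A.e j).source) (κ : B.κ) :
    w.1 i x κ = ∑ κ', B.τ i j x κ κ' * w.1 j x κ' := by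
  rw [w.2.2.2 i j x hx]
  rfl

/-- localisation of a component -/
def La (B : FBun A) {i : A.ι} {a : M → ℂ} (ha : Cut A i a) (κ : B.κ) :
    Sec B →ₗ[ℂ] SPer (RI n) where
  toFun w := pf A i (fun x => a x * w.1 i x κ) (smAt_mul ha.sm (sec_sm w i κ))
    (ha.cptIn.mul_right _)
  map_add' w w' := by
    rw [← pf_add]
    refine pf_congr _ _ _ _ fun x _ => ?_
    show a x * (w.1 i x κ + w'.1 i x κ) = _
    ring
  map_smul' c w := by
    rw [RingHom.id_apply, ← pf_smul]
    refine pf_congr _ _ _ _ fun x _ => ?_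
    show a x * (c * w.1 i x κ) = _
    ring

theorem La_rc {i : A.ι} {a : M → ℂ} (ha : Cut A i a) (κ : B.κ) (w : Sec B) {x : M}
    (hx : x ∈ (A.e i).source) : La B ha κ w (rc (A.e i x)) = a x * w.1 i x κ :=
  pf_rc (smAt_mul ha.sm (sec_sm w i κ)) (ha.cptIn.mul_right _) hx

theorem La_off {i : A.ι} {a : M → ℂ} (ha : Cut A i a) (κ : B.κ) (w : Sec B) {x : RI n → ℝ}
    (hx : x ∈ Qo (RI n)) (hx' : x ∉ rdU A i) : La B ha κ w x = 0 :=
  pf_off (smAt_mul ha.sm (sec_sm w i κ)) (ha.cptIn.mul_right _) hx hx'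

/-! ### families -/

/-- smooth family over the chart `j` -/
def SmF (j : A'.ι) (v : N → Sec B) : Prop :=
  ∀ (i : A.ι) (κ : B.κ), (A.prod A').SmAt (i, j) (fun p => (v p.2).1 i p.1 κ)

/-- family with compact support in the chart `j` -/
def CSupp (j : A'.ι) (v : N → Sec B) : Prop :=
  ∃ K : Set N, IsCompact K ∧ K ⊆ (A'.e j).source ∧ ∀ y ∉ K, v y = 0

section fam

variable {j : A'.ι} {v : N → Sec B}

theorem SmF.smS (hv : SmF j v) (i : A.ι) (x : M) (κ : B.κ) :
    A'.SmAt j (fun y => (v y).1 i x κ) := by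
  by_cases hx : x ∈ (A.e i).source
  · exact smAt_slice_right A A' (hv i κ) hx
  · have h : (fun y => (v y).1 i x κ) = fun _ => (0 : ℂ) := by
      funext y
      rw [sec_off (v y) hx]
      rfl
    rw [h]
    exact smAt_const 0

theorem CSupp.cptS (hc : CSupp j v) (i : A.ι) (x : M) (κ : B.κ) :
    CptIn A' j (fun y => (v y).1 i x κ) := by
  obtain ⟨K, hK, hs, h0⟩ := hc
  exact ⟨K, hK, hs, fun y _ hn => by
    show (v y).1 i x κ = 0
    rw [h0 y hn]; rfl⟩

variable {i : A.ι} {a : M → ℂ}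

theorem smFa (hv : SmF j v) (ha : Cut A i a) (κ : B.κ) :
    (A.prod A').SmAt (i, j) (fun p => a p.1 * (v p.2).1 i p.1 κ) :=
  smAt_mul (smAt_fst A A' ha.sm j) (hv i κ)

theorem cptFa (hc : CSupp j v) (ha : Cut A i a) (κ : B.κ) :
    CptIn (A.prod A') (i, j) (fun p => a p.1 * (v p.2).1 i p.1 κ) := by
  obtain ⟨K, hK, hs, h0⟩ := hc
  refine ⟨tsupport a ×ˢ K, ha.cpt.prod hK, fun p hp => ⟨ha.sub hp.1, hs hp.2⟩, fun p _ hp => ?_⟩
  show a p.1 * (v p.2).1 i p.1 κ = 0
  by_cases h : p.1 ∈ tsupport a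
  · rw [h0 p.2 fun h' => hp ⟨h, h'⟩]
    exact mul_zero _
  · rw [image_eq_zero_of_notMem_tsupport h, zero_mul]

/-- the periodic function of `a (x) v (y) (x)` -/
def Ga (hv : SmF j v) (hc : CSupp j v) (ha : Cut A i a) (κ : B.κ) : SPer (RI n ⊕ RI m) :=
  pf2 A A' i j _ (smFa hv ha κ) (cptFa hc ha κ)

/-- Fourier coefficients of a family -/
def co (hv : SmF j v) (hc : CSupp j v) (k : RI m → ℤ) : A.ι → M → B.κ → ℂ := fun i x κ =>
  fc (pf A' j (fun y => (v y).1 i x κ) (hv.smS i x κ) (hc.cptS i x κ)) k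

theorem sl_Ga (hv : SmF j v) (hc : CSupp j v) (ha : Cut A i a) (κ : B.κ) (k : RI m → ℤ) {x : M}
    (hx : x ∈ (A.e i).source) :
    sl k (Ga hv hc ha κ) (rc (A.e i x)) = a x * co hv hc k i x κ := by
  rw [Ga, sl_pf2_rc _ _ hx, co, ← fc_smul, ← pf_smul]

theorem fc_zero_fun {d : Type} [Fintype d] (k : d → ℤ) : fc (0 : SPer d) k = 0 := by
  have h2 := fc_smul (0 : ℂ) (0 : SPer d) k
  rwa [zero_smul, zero_mul] at h2

theorem fc_sum {d : Type} [Fintype d] {ι : Type*} (s : Finset ι) (f : ι → SPer d) (k : d → ℤ) :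
    fc (∑ i ∈ s, f i) k = ∑ i ∈ s, fc (f i) k := by
  classical
  induction s using Finset.induction_on with
  | empty => simp [fc_zero_fun]
  | insert i s hi ih => rw [Finset.sum_insert hi, Finset.sum_insert hi, fc_add, ih]

theorem pf_zero_of {F : M → ℂ} (hF : A.SmAt i F) (hc : CptIn A i F) (h : ∀ x, F x = 0) :
    pf A i F hF hc = 0 := by
  refine SPer.ext fun x => ?_
  rw [pf_apply]
  have : F = fun _ => 0 := funext h
  rw [this]
  unfold rd
  split_ifs <;> rfl

variable [T2Space M]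

theorem co_mem (hv : SmF j v) (hc : CSupp j v) (k : RI m → ℤ) : co hv hc k ∈ Sec B := by
  refine ⟨fun i κ => ?_, fun i x hx => ?_, fun i i' x hx => ?_⟩
  · rw [QN2b734.smAt_iff]
    intro x0 hx0
    obtain ⟨a, ha, h1⟩ := exists_cut hx0
    refine QN2b734.smP_of hx0 ?_
    have h2 : ContDiff ℝ ∞ (fun z : Cn n => sl k (Ga hv hc ha κ) (rc z)) :=
      (sm _).comp contDiff_rc
    refine h2.contDiffAt.congr_of_eventuallyEq ?_
    have h3 : ∀ᶠ z in 𝓝 (A.e i x0), a ((A.e i).symm z) = 1 ∧ z ∈ (A.e i).target := by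
      refine Filter.Eventually.and ?_ ((A.e i).open_target.mem_nhds ((A.e i).map_source hx0))
      have h4 := (A.e i).continuousAt_symm ((A.e i).map_source hx0)
      rw [ContinuousAt, (A.e i).left_inv hx0] at h4
      exact h4.eventually h1
    filter_upwards [h3] with z hz
    have h5 := sl_Ga hv hc ha κ k ((A.e i).map_target hz.2)
    rw [hz.1, one_mul, (A.e i).right_inv hz.2] at h5
    exact h5.symm
  · funext κ
    show fc _ k = 0
    rw [pf_zero_of, fc_zero_fun]
    intro y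
    rw [sec_off (v y) hx]
    rfl
  · funext κ
    show fc _ k = ∑ κ', B.τ i i' x κ κ' * fc _ k
    simp only [← fc_smul, ← fc_sum, ← pf_smul]
    congr 1
    rw [← pf_sum]
    refine pf_congr _ _ _ _ fun y _ => ?_
    exact sec_tr (v y) hx κ

/-- Fourier coefficients as sections -/
def coS (hv : SmF j v) (hc : CSupp j v) (k : RI m → ℤ) : Sec B := ⟨co hv hc k, co_mem hv hc k⟩

theorem coS_apply (hv : SmF j v) (hc : CSupp j v) (k : RI m → ℤ) (i : A.ι) (x : M) (κ : B.κ) :
    (coS hv hc k).1 i x κ =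
      fc (pf A' j (fun y => (v y).1 i x κ) (hv.smS i x κ) (hc.cptS i x κ)) k := rfl

theorem La_coS (hv : SmF j v) (hc : CSupp j v) (k : RI m → ℤ) (ha : Cut A i a) (κ : B.κ) :
    La B ha κ (coS hv hc k) = sl k (Ga hv hc ha κ) := by
  refine eq_of_values (A := A) (i := i) (fun x hx => ?_) (fun x hx hx' => ?_) fun x hx hx' => ?_
  · obtain ⟨p, hp, rfl⟩ := exists_of_rdU hx
    rw [La_rc ha κ _ hp, sl_Ga hv hc ha κ k hp]
    rfl
  · exact La_off ha κ _ hx hx'
  · exact sl_pf2_off _ _ hx hx' k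

theorem La_v (hv : SmF j v) (hc : CSupp j v) (ha : Cut A i a) (κ : B.κ) {y : N}
    (hy : y ∈ (A'.e j).source) :
    La B ha κ (v y) = atl (rc (A'.e j y)) (Ga hv hc ha κ) := by
  rw [Ga, atl_pf2 _ _ hy]
  rfl

theorem atl_Ga_off (hv : SmF j v) (hc : CSupp j v) (ha : Cut A i a) (κ : B.κ) {y : RI m → ℝ}
    (hy : y ∈ Qo (RI m)) (hy' : y ∉ rdU A' j) : atl y (Ga hv hc ha κ) = 0 := by
  refine eq_of_values (A := A) (i := i) (fun x hx => ?_) (fun x hx hx' => ?_) fun x hx hx' => rfl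
  · rw [atl_apply]
    exact pf2_off _ _ (rdU_sub i hx) hy (fun h => hy' h.2)
  · rw [atl_apply]
    exact pf2_off _ _ hx hy (fun h => hy' h.2)

end fam

/-! ### continuous operators on families -/

/-- continuity with respect to the chart norms -/
def ContA (B : FBun A) (T : Sec B →ₗ[ℂ] Sec B) : Prop :=
  ∀ (i : A.ι) (a : M → ℂ) (ha : Cut A i a) (κ : B.κ) (s : ℕ),
    ∃ (F : Finset A.ι) (ψ : A.ι → M → ℂ) (hψ : ∀ i, Cut A i (ψ i)) (s' : ℕ) (C : ℝ), 0 ≤ C ∧
      ∀ w : Sec B, nrm s (La B ha κ (T w)) ≤ C * ∑ i' ∈ F, ∑ κ' : B.κ, nrm s' (La B (hψ i') κ' w)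

section op

variable {j : A'.ι} {v : N → Sec B} {T : Sec B →ₗ[ℂ] Sec B} [T2Space M]

theorem tendsto_La (hT : ContA B T) (hv : SmF j v) (hc : CSupp j v) {y : RI m → ℝ} {w' : Sec B}
    (hw' : ∀ (i : A.ι) (a : M → ℂ) (ha : Cut A i a) (κ : B.κ), La B ha κ w' = atl y (Ga hv hc ha κ))
    {i : A.ι} {a : M → ℂ} (ha : Cut A i a) (κ : B.κ) (s : ℕ) :
    Tendsto (fun S : Finset (RI m → ℤ) =>
      nrm s (La B ha κ (T (∑ k ∈ S, ch k y • coS hv hc k - w')))) atTop (𝓝 0) := by
  obtain ⟨F, ψ, hψ, s', C, hC0, hC⟩ := hT i a ha κ s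
  have h1 : Tendsto (fun S : Finset (RI m → ℤ) => C * ∑ i' ∈ F, ∑ κ' : B.κ,
      nrm s' (La B (hψ i') κ' (∑ k ∈ S, ch k y • coS hv hc k - w'))) atTop (𝓝 0) := by
    have h2 : Tendsto (fun S : Finset (RI m → ℤ) => C * ∑ i' ∈ F, ∑ κ' : B.κ,
        nrm s' (La B (hψ i') κ' (∑ k ∈ S, ch k y • coS hv hc k - w'))) atTop
        (𝓝 (C * ∑ i' ∈ F, ∑ κ' : B.κ, (0 : ℝ))) := by
      refine Tendsto.const_mul _ (tendsto_finsetSum _ fun i' _ => tendsto_finsetSum _
        fun κ' _ => ?_)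
      refine (tendsto_atl s' y (Ga hv hc (hψ i') κ')).congr fun S => ?_
      rw [map_sub, map_sum, hw']
      simp only [map_smul, La_coS]
    simpa using h2
  exact squeeze_zero (fun S => nrm_nonneg _ _) (fun S => hC _) h1

theorem hasSum_T (hT : ContA B T) (hv : SmF j v) (hc : CSupp j v) {y : RI m → ℝ} {w' : Sec B}
    (hw' : ∀ (i : A.ι) (a : M → ℂ) (ha : Cut A i a) (κ : B.κ), La B ha κ w' = atl y (Ga hv hc ha κ))
    {i : A.ι} {x : M} (hx : x ∈ (A.e i).source) (κ : B.κ) :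
    HasSum (fun k => (T (coS hv hc k)).1 i x κ * ch k y) ((T w').1 i x κ) := by
  obtain ⟨a, ha, h1⟩ := exists_cut hx
  obtain ⟨C, hC0, hC⟩ := sup_le (d := RI n) (s := Fintype.card (RI n) + 1) (by omega)
  have h2 := (tendsto_La hT hv hc hw' ha κ (Fintype.card (RI n) + 1)).const_mul C
  rw [mul_zero] at h2
  have h3 : Tendsto (fun S : Finset (RI m → ℤ) =>
      (∑ k ∈ S, (T (coS hv hc k)).1 i x κ * ch k y) - (T w').1 i x κ) atTop (𝓝 0) := by
    refine squeeze_zero_norm (fun S => ?_) h2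
    refine le_trans (le_of_eq ?_) (hC _ (rc (A.e i x)))
    rw [La_rc ha κ _ hx, h1.self_of_nhds, one_mul, map_sub, map_sum]
    congr 1
    have h4 : (∑ k ∈ S, T (ch k y • coS hv hc k) - T w' : Sec B).1 =
        ∑ k ∈ S, (T (ch k y • coS hv hc k)).1 - (T w').1 := by
      rw [Submodule.coe_sub, Submodule.coe_sum]
    rw [h4]
    simp only [Pi.sub_apply, Finset.sum_apply, map_smul]
    congr 1
    refine Finset.sum_congr rfl fun k _ => ?_
    show _ = ch k y * (T (coS hv hc k)).1 i x κ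
    ring
  have h5 := h3.add_const ((T w').1 i x κ)
  rw [zero_add] at h5
  exact h5.congr fun S => by ring

theorem rapid2_T (hT : ContA B T) (hv : SmF j v) (hc : CSupp j v) {i : A.ι} {a : M → ℂ}
    (ha : Cut A i a) (κ : B.κ) : Rapid2 fun k => La B ha κ (T (coS hv hc k)) := by
  intro s P
  obtain ⟨F, ψ, hψ, s', C, hC0, hC⟩ := hT i a ha κ s
  refine ⟨C * ∑ i' ∈ F, ∑ κ' : B.κ, nrm (s' + 2 * P) (Ga hv hc (hψ i') κ'), fun k => ?_⟩
  have h0 : 0 ≤ wt k ^ P := pow_nonneg (wt_pos k).le _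
  calc wt k ^ P * nrm s (La B ha κ (T (coS hv hc k)))
      ≤ wt k ^ P * (C * ∑ i' ∈ F, ∑ κ' : B.κ, nrm s' (La B (hψ i') κ' (coS hv hc k))) :=
        mul_le_mul_of_nonneg_left (hC _) h0
    _ = C * ∑ i' ∈ F, ∑ κ' : B.κ, wt k ^ P * nrm s' (La B (hψ i') κ' (coS hv hc k)) := by
        simp only [Finset.mul_sum]
        refine Finset.sum_congr rfl fun i' _ => Finset.sum_congr rfl fun κ' _ => ?_
        ring
    _ ≤ _ := by
        refine mul_le_mul_of_nonneg_left (Finset.sum_le_sum fun i' _ =>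
          Finset.sum_le_sum fun κ' _ => ?_) hC0
        rw [La_coS]
        exact nrm_sl_le s' P k _

theorem hasSum_Tv (hT : ContA B T) (hv : SmF j v) (hc : CSupp j v) {y : N}
    (hy : y ∈ (A'.e j).source) {i : A.ι} {x : M} (hx : x ∈ (A.e i).source) (κ : B.κ) :
    HasSum (fun k => (T (coS hv hc k)).1 i x κ * ch k (rc (A'.e j y))) ((T (v y)).1 i x κ) :=
  hasSum_T hT hv hc (fun _ _ ha κ => La_v hv hc ha κ hy) hx κ

theorem syn2_Tv (hT : ContA B T) (hv : SmF j v) (hc : CSupp j v) {i : A.ι} {a : M → ℂ}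
    (ha : Cut A i a) (κ : B.κ) {x : M} (hx : x ∈ (A.e i).source) {y : N}
    (hy : y ∈ (A'.e j).source) :
    syn2 _ (rapid2_T hT hv hc ha κ) (Sum.elim (rc (A.e i x)) (rc (A'.e j y))) =
      a x * (T (v y)).1 i x κ := by
  have h1 := syn2_hasSum _ (rapid2_T hT hv hc ha κ) (rc (A.e i x)) (rc (A'.e j y))
  have h2 := (hasSum_Tv hT hv hc hy hx κ).mul_left (a x)
  simp only [La_rc ha κ _ hx] at h1
  simp only [← mul_assoc] at h2
  exact h1.unique h2

theorem CSupp.map (hc : CSupp j v) (T : Sec B →ₗ[ℂ] Sec B) : CSupp j fun y => T (v y) := by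
  obtain ⟨K, hK, hs, h0⟩ := hc
  exact ⟨K, hK, hs, fun y hy => by
    show T (v y) = 0
    rw [h0 y hy, map_zero]⟩

variable [T2Space N]

theorem SmF.map_of_cpt (hv : SmF j v) (hc : CSupp j v) (hT : ContA B T) :
    SmF j fun y => T (v y) := by
  intro i κ
  refine (QN2b734.smAt_iff (A := A.prod A') (i := (i, j))).2 ?_
  rintro ⟨x0, y0⟩ ⟨hx0, hy0⟩
  change x0 ∈ (A.e i).source at hx0
  change y0 ∈ (A'.e j).source at hy0
  obtain ⟨a, ha, h1⟩ := exists_cut hx0
  have hp : (x0, y0) ∈ ((A.prod A').e (i, j)).source := ⟨hx0, hy0⟩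
  refine QN2b734.smP_of hp ?_
  have h2 : ContDiff ℝ ∞ (fun z : Cn (n + m) => syn2 _ (rapid2_T hT hv hc ha κ)
      (Sum.elim (rc (fstL n m z)) (rc (sndL n m z)))) := by
    refine (sm _).comp ?_
    rw [contDiff_pi]
    rintro (p | p)
    · exact (contDiff_apply ℝ ℝ p).comp (contDiff_rc.comp
        ((fstL n m).restrictScalars ℝ).contDiff)
    · exact (contDiff_apply ℝ ℝ p).comp (contDiff_rc.comp
        ((sndL n m).restrictScalars ℝ).contDiff)
  refine h2.contDiffAt.congr_of_eventuallyEq ?_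
  have h3 : ∀ᶠ z in 𝓝 ((A.prod A').e (i, j) (x0, y0)),
      a (((A.prod A').e (i, j)).symm z).1 = 1 ∧ z ∈ ((A.prod A').e (i, j)).target := by
    refine Filter.Eventually.and ?_ (((A.prod A').e (i, j)).open_target.mem_nhds
      (((A.prod A').e (i, j)).map_source hp))
    have h4 := ((A.prod A').e (i, j)).continuousAt_symm (((A.prod A').e (i, j)).map_source hp)
    rw [ContinuousAt, ((A.prod A').e (i, j)).left_inv hp] at h4
    have h5 : ∀ᶠ q in 𝓝 (x0, y0), a q.1 = 1 := (continuous_fst.tendsto (x0, y0)).eventually h1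
    exact h4.eventually h5
  filter_upwards [h3] with z hz
  have hz1 := hz.1
  have hz2 := hz.2
  rw [mem_prod_target] at hz2
  have hm1 := (A.e i).map_target hz2.1
  have hm2 := (A'.e j).map_target hz2.2
  have h5 := syn2_Tv hT hv hc ha κ hm1 hm2
  rw [prod_e_symm_apply] at hz1 ⊢
  rw [hz1, one_mul, (A.e i).right_inv hz2.1, (A'.e j).right_inv hz2.2] at h5
  exact h5.symm

end op

section op2

variable {j : A'.ι} {v : N → Sec B} {T : Sec B →ₗ[ℂ] Sec B} [T2Space M] [T2Space N]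

theorem rapid_T (hT : ContA B T) (hv : SmF j v) (hc : CSupp j v) {i : A.ι} {x : M}
    (hx : x ∈ (A.e i).source) (κ : B.κ) : Rapid fun k => (T (coS hv hc k)).1 i x κ := by
  obtain ⟨a, ha, h1⟩ := exists_cut hx
  have h2 := rapid_sl_apply (syn2 _ (rapid2_T hT hv hc ha κ)) (rc (A.e i x))
  simp only [sl_syn2, La_rc ha κ _ hx, h1.self_of_nhds, one_mul] at h2
  exact h2

/-- **Fourier coefficients commute with continuous operators.** -/
theorem coS_map (hT : ContA B T) (hv : SmF j v) (hc : CSupp j v) (k : RI m → ℤ) :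
    coS (hv.map_of_cpt hc hT) (hc.map T) k = T (coS hv hc k) := by
  refine Subtype.ext (funext fun i => funext fun x => ?_)
  by_cases hx : x ∈ (A.e i).source
  swap
  · rw [sec_off _ hx, sec_off _ hx]
  funext κ
  rw [coS_apply]
  have h : pf A' j (fun y => (T (v y)).1 i x κ) ((hv.map_of_cpt hc hT).smS i x κ)
      ((hc.map T).cptS i x κ) = syn _ (rapid_T hT hv hc hx κ) := by
    refine eq_of_values (A := A') (i := j) (fun y hy => ?_) (fun y hy hy' => ?_)
      fun y hy hy' => ?_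
    · obtain ⟨q, hq, rfl⟩ := exists_of_rdU hy
      rw [pf_rc _ _ hq]
      exact (hasSum_Tv hT hv hc hq hx κ).unique (syn_hasSum _ (rapid_T hT hv hc hx κ) _)
    · exact pf_off _ _ hy hy'
    · have h1 := hasSum_T hT hv hc (w' := 0) (y := y) (fun i a ha κ => by
        rw [map_zero, atl_Ga_off hv hc ha κ hy hy']) hx κ
      rw [map_zero] at h1
      exact (syn_hasSum _ (rapid_T hT hv hc hx κ) _).unique h1
  rw [h, fc_syn]

/-- uniqueness: a family is determined by its Fourier coefficients -/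
theorem eq_of_coS {v' : N → Sec B} (hv : SmF j v) (hc : CSupp j v) (hv' : SmF j v')
    (hc' : CSupp j v') (h : ∀ k, coS hv hc k = coS hv' hc' k) {y : N}
    (hy : y ∈ (A'.e j).source) : v y = v' y := by
  refine Subtype.ext (funext fun i => funext fun x => funext fun κ => ?_)
  have h1 : pf A' j (fun y => (v y).1 i x κ) (hv.smS i x κ) (hc.cptS i x κ) =
      pf A' j (fun y => (v' y).1 i x κ) (hv'.smS i x κ) (hc'.cptS i x κ) := by
    refine fc_inj fun k => ?_
    have h2 := congrArg (fun w : Sec B => w.1 i x κ) (h k)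
    exact h2
  have h3 := congrArg (fun f : SPer (RI m) => f (rc (A'.e j y))) h1
  simp only [pf_rc _ _ hy] at h3
  exact h3

/-! ### cut-off of a family -/

theorem SmF.smul {f : N → ℂ} (hf : A'.SmAt j f) (hv : SmF j v) : SmF j fun y => f y • v y :=
  fun i κ => smAt_mul (smAt_snd A A' hf i) (hv i κ)

theorem CSupp.of_cut {f : N → ℂ} (hf : Cut A' j f) (v : N → Sec B) :
    CSupp j fun y => f y • v y :=
  ⟨tsupport f, hf.cpt, hf.sub, fun y hy => by
    show f y • v y = 0
    rw [image_eq_zero_of_notMem_tsupport hy, zero_smul]⟩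

/-- a family is smooth over the chart if it is so near every point -/
theorem smF_of_local {v : N → Sec B}
    (h : ∀ y ∈ (A'.e j).source, ∃ v' : N → Sec B, SmF j v' ∧ ∀ᶠ y' in 𝓝 y, v y' = v' y') :
    SmF j v := by
  intro i κ
  refine (QN2b734.smAt_iff (A := A.prod A') (i := (i, j))).2 ?_
  rintro ⟨x0, y0⟩ hp
  have hy0 : y0 ∈ (A'.e j).source := hp.2
  obtain ⟨v', hv', he⟩ := h y0 hy0
  have h1 := (QN2b734.smAt_iff (A := A.prod A') (i := (i, j))).1 (hv' i κ) (x0, y0) hp
  refine QN2b734.smP_of hp ?_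
  refine (h1 (i, j) hp).congr_of_eventuallyEq ?_
  have h4 := ((A.prod A').e (i, j)).continuousAt_symm (((A.prod A').e (i, j)).map_source hp)
  rw [ContinuousAt, ((A.prod A').e (i, j)).left_inv hp] at h4
  have h5 : ∀ᶠ q in 𝓝 (x0, y0), v q.2 = v' q.2 := (continuous_snd.tendsto (x0, y0)).eventually he
  filter_upwards [h4.eventually h5] with z hz
  rw [hz]

theorem SmF.map (hv : SmF j v) (hT : ContA B T) : SmF j fun y => T (v y) := by
  refine smF_of_local fun y hy => ?_
  obtain ⟨f, hf, h1⟩ := exists_cut hy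
  refine ⟨fun y => T (f y • v y), SmF.map_of_cpt (hv.smul hf.sm) (CSupp.of_cut hf v) hT, ?_⟩
  filter_upwards [h1] with y' hy'
  rw [hy', one_smul]

end op2

/-! ### `∂̄` in the second variable -/

section dbF

variable {j : A'.ι} {v : N → Sec B}

theorem dbF_mem (hv : SmF j v) (b : Fin m) {y : N} (hy : y ∈ (A'.e j).source) :
    (fun (i : A.ι) (x : M) (κ : B.κ) => A'.db j b (fun y' => (v y').1 i x κ) y) ∈ Sec B := by
  refine ⟨fun i κ => ?_, fun i x hx => ?_, fun i i' x hx => ?_⟩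
  · have h1 := smAt_slice_left A A' ((hv i κ).db (Fin.natAdd n b)) hy
    refine smAt_congr h1 fun x hx => ?_
    exact (db_natAdd (f := fun p : M × N => (v p.2).1 i p.1 κ) A A' hx
      ((hv i κ).diffAt (x := (x, y)) ⟨hx, hy⟩) b).symm
  · funext κ
    have h : (fun y' => (v y').1 i x κ) = fun _ => (0 : ℂ) := by
      funext y'
      rw [sec_off (v y') hx]
      rfl
    show A'.db j b (fun y' => (v y').1 i x κ) y = 0
    rw [h]
    exact dbj_const _ _ _
  · funext κ
    have h1 := db_const_mulVec (A := A') (i := j) (B.τ i i' x) (v := fun y' => (v y').1 i' x)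
      (x := y) (fun l => (hv.smS i' x l).diffAt hy) hy b
    have h2 := congrFun h1 κ
    have h3 : (fun y' => B.τ i i' x *ᵥ (v y').1 i' x) = fun y' => (v y').1 i x := by
      funext y'
      exact ((v y').2.2.2 i i' x hx).symm
    rw [h3, Atl.db_pi (f := fun y' => (v y').1 i x) (fun k => hv.smS i x k) hy b κ] at h2
    show A'.db j b (fun y' => (v y').1 i x κ) y = _
    rw [h2]
    show (B.τ i i' x *ᵥ _) κ = (B.τ i i' x *ᵥ _) κ
    congr 2
    funext l
    exact Atl.db_pi (f := fun y' => (v y').1 i' x) (fun k => hv.smS i' x k) hy b l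

open Classical in
/-- `∂̄_b` of a family -/
def dbF (hv : SmF j v) (b : Fin m) (y : N) : Sec B :=
  if hy : y ∈ (A'.e j).source then
    ⟨fun i x κ => A'.db j b (fun y' => (v y').1 i x κ) y, dbF_mem hv b hy⟩ else 0

theorem dbF_apply (hv : SmF j v) (b : Fin m) {y : N} (hy : y ∈ (A'.e j).source) (i : A.ι) (x : M)
    (κ : B.κ) : (dbF hv b y).1 i x κ = A'.db j b (fun y' => (v y').1 i x κ) y := by
  rw [dbF, dif_pos hy]

theorem dbF_smF (hv : SmF j v) (b : Fin m) : SmF j (dbF hv b) := by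
  intro i κ
  refine smAt_congr ((hv i κ).db (Fin.natAdd n b)) ?_
  rintro ⟨x, y⟩ ⟨hx, hy⟩
  change x ∈ (A.e i).source at hx
  change y ∈ (A'.e j).source at hy
  rw [dbF_apply hv b hy]
  exact (db_natAdd (f := fun p : M × N => (v p.2).1 i p.1 κ) A A' hx
      ((hv i κ).diffAt (x := (x, y)) ⟨hx, hy⟩) b).symm

theorem dbF_congr {v' : N → Sec B} (hv : SmF j v) (hv' : SmF j v') (b : Fin m) {y : N}
    (hy : y ∈ (A'.e j).source) (h : ∀ᶠ y' in 𝓝 y, v y' = v' y') : dbF hv b y = dbF hv' b y := by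
  refine Subtype.ext (funext fun i => funext fun x => funext fun κ => ?_)
  rw [dbF_apply hv b hy, dbF_apply hv' b hy]
  refine Atl.db_congr hy ?_ b
  filter_upwards [h] with y' hy'
  rw [hy']

theorem dbF_cpt [T2Space N] (hv : SmF j v) (hc : CSupp j v) (b : Fin m) :
    CSupp j (dbF hv b) := by
  obtain ⟨K, hK, hs, h0⟩ := hc
  refine ⟨K, hK, hs, fun y hy => ?_⟩
  by_cases hyj : y ∈ (A'.e j).source
  · refine Subtype.ext (funext fun i => funext fun x => funext fun κ => ?_)
    rw [dbF_apply hv b hyj]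
    have h : (fun y' => (v y').1 i x κ) =ᶠ[𝓝 y] fun _ => (0 : ℂ) := by
      filter_upwards [hK.isClosed.isOpen_compl.mem_nhds hy] with y' hy'
      rw [h0 y' hy']
      rfl
    rw [Atl.db_congr hyj h b]
    exact dbj_const _ _ _
  · rw [dbF, dif_neg hyj]

/-- symbol of `∂̄_b` -/
def lam (k : RI m → ℤ) (b : Fin m) : ℂ :=
  (1 / 2 : ℂ) * (2 * π * I * (k (b, 0) : ℂ) + I * (2 * π * I * (k (b, 1) : ℂ)))

theorem fc_dbT (b : Fin m) (f : SPer (RI m)) (k : RI m → ℤ) :
    fc (dbT b f) k = lam k b * fc f k := by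
  have h : dbT b f = (1 / 2 : ℂ) • (pd (b, 0) f + I • pd (b, 1) f) := rfl
  rw [h, fc_smul, fc_add, fc_smul, fc_pd, fc_pd, lam]
  ring

variable [T2Space M] [T2Space N]

theorem coS_dbF (hv : SmF j v) (hc : CSupp j v) (b : Fin m) (k : RI m → ℤ) :
    coS (dbF_smF hv b) (dbF_cpt hv hc b) k = lam k b • coS hv hc k := by
  refine Subtype.ext (funext fun i => funext fun x => funext fun κ => ?_)
  show _ = lam k b * (coS hv hc k).1 i x κ
  rw [coS_apply, coS_apply, ← fc_dbT, dbT_pf]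
  congr 1
  exact pf_congr _ _ _ _ fun y hy => dbF_apply hv b hy i x κ

theorem lam_smul_coS {T : Sec B →ₗ[ℂ] Sec B} (hT : ContA B T) (hv : SmF j v) (hc : CSupp j v)
    (b : Fin m) {y : N} (hy : y ∈ (A'.e j).source) :
    dbF (hv.map_of_cpt hc hT) b y = T (dbF hv b y) := by
  refine eq_of_coS (dbF_smF _ b) (dbF_cpt _ (hc.map T) b)
    ((dbF_smF hv b).map_of_cpt (dbF_cpt hv hc b) hT) ((dbF_cpt hv hc b).map T) (fun k => ?_) hy
  rw [coS_dbF (hv.map_of_cpt hc hT) (hc.map T), coS_map hT hv hc,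
    coS_map hT (dbF_smF hv b) (dbF_cpt hv hc b), coS_dbF hv hc, map_smul]

/-- **`∂̄` in the second variable commutes with operators in the first variable.** -/
theorem dbF_map {T : Sec B →ₗ[ℂ] Sec B} (hT : ContA B T) (hv : SmF j v) (b : Fin m) {y : N}
    (hy : y ∈ (A'.e j).source) : dbF (hv.map hT) b y = T (dbF hv b y) := by
  obtain ⟨f, hf, h1⟩ := exists_cut hy
  have h2 := lam_smul_coS hT (hv.smul hf.sm) (CSupp.of_cut hf v) b hy
  have h3 : ∀ᶠ y' in 𝓝 y, v y' = f y' • v y' := by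
    filter_upwards [h1] with y' hy'
    rw [hy', one_smul]
  rw [dbF_congr hv (hv.smul hf.sm) b hy h3, ← h2]
  refine dbF_congr _ _ b hy ?_
  filter_upwards [h3] with y' hy'
  rw [← hy']

end dbF

end

end Crest.Agent.R275.Kun570
end

-- ▼ part R275/ProdD_363
section

/-!
# R275: the two partial operators on a product (helper363)

* `D1 w (i,j) (x,y) (k,l) = nab B (sl1 w j y l) i x k`,
* `D2 w (i,j) (x,y) (k,l) = (-1)^deg k * nab C (sl2 w i x k) j y l`,
* `nab = D1 + D2` on sections, both preserve sections, `sl1 (D1 w) = nab (sl1 w)`,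
  `swp (D1 w) = D2 (swp w)`.
-/

set_option autoImplicit false
set_option linter.unusedSectionVars false

open Set Filter Topology Complex
open scoped ContDiff Matrix ComplexConjugate Kronecker

namespace Crest.Agent.R275.Prod363

open Geo

noncomputable section

variable {n m : ℕ} {M N : Type} [TopologicalSpace M] [TopologicalSpace N]
variable {A : Atl n M} {A' : Atl m N}

theorem nab_zero (B : FBun A) : nab B (0 : A.ι → M → B.κ → ℂ) = 0 := by
  have := nab_smul B (0 : ℂ) (Sec B).zero_mem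
  simpa using this

theorem nab_sum (B : FBun A) {T : Type} (s : Finset T) (c : T → ℂ)
    (u : T → A.ι → M → B.κ → ℂ) (hu : ∀ t, u t ∈ Sec B) :
    nab B (∑ t ∈ s, c t • u t) = ∑ t ∈ s, c t • nab B (u t) := by
  classical
  induction s using Finset.induction_on with
  | empty => simp [nab_zero]
  | insert a s ha ih =>
    rw [Finset.sum_insert ha, Finset.sum_insert ha, nab_add B ((Sec B).smul_mem _ (hu a))
      ((Sec B).sum_mem fun t _ => (Sec B).smul_mem _ (hu t)), ih, nab_smul B _ (hu a)]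

variable (B : FBun A) (C : FBun A')

/-- partial operator in the first variable -/
def D1 (w : (A.prod A').ι → M × N → B.κ × C.κ → ℂ) : (A.prod A').ι → M × N → B.κ × C.κ → ℂ :=
  fun i p k => nab B (sl1 w i.2 p.2 k.2) i.1 p.1 k.1

/-- partial operator in the second variable -/
def D2 (w : (A.prod A').ι → M × N → B.κ × C.κ → ℂ) : (A.prod A').ι → M × N → B.κ × C.κ → ℂ :=
  fun i p k => (-1 : ℂ) ^ B.deg k.1 * nab C (sl2 w i.1 p.1 k.1) i.2 p.2 k.2

theorem D1_apply (w : (A.prod A').ι → M × N → B.κ × C.κ → ℂ) (i : A.ι) (j : A'.ι) (x : M) (y : N)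
    (k : B.κ) (l : C.κ) : D1 B C w (i, j) (x, y) (k, l) = nab B (sl1 w j y l) i x k := rfl

theorem D2_apply (w : (A.prod A').ι → M × N → B.κ × C.κ → ℂ) (i : A.ι) (j : A'.ι) (x : M) (y : N)
    (k : B.κ) (l : C.κ) :
    D2 B C w (i, j) (x, y) (k, l) = (-1 : ℂ) ^ B.deg k * nab C (sl2 w i x k) j y l := rfl

theorem sl1_D1 (w : (A.prod A').ι → M × N → B.κ × C.κ → ℂ) (j : A'.ι) (y : N) (l : C.κ) :
    sl1 (D1 B C w) j y l = nab B (sl1 w j y l) := rfl


theorem nab_eq_D {w : (A.prod A').ι → M × N → B.κ × C.κ → ℂ} (hw : w ∈ Sec (B.prod C)) :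
    nab (B.prod C) w = D1 B C w + D2 B C w := by
  funext i p k
  exact nab_slice B C hw i.1 i.2 p.1 p.2 k.1 k.2

theorem D1_eq {w : (A.prod A').ι → M × N → B.κ × C.κ → ℂ} (hw : w ∈ Sec (B.prod C))
    {i : A.ι} {j : A'.ι} {x : M} {y : N} (hx : x ∈ (A.e i).source) (hy : y ∈ (A'.e j).source)
    (k : B.κ) (l : C.κ) :
    D1 B C w (i, j) (x, y) (k, l) = (∑ a : Fin n, ∑ k', B.e a k k' *
        (A.prod A').db (i, j) (Fin.castAdd m a) (fun q => w (i, j) q (k', l)) (x, y))
        + ∑ k', B.α i x k k' * w (i, j) (x, y) (k', l) := by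
  have hxy : (x, y) ∈ ((A.prod A').e (i, j)).source := ⟨hx, hy⟩
  have hS := sl1_mem B C hw j y l
  rw [D1_apply, nab_apply B hx]
  simp only [Pi.add_apply, Finset.sum_apply, Matrix.mulVec, dotProduct]
  congr 1
  refine Finset.sum_congr rfl fun a _ => Finset.sum_congr rfl fun k' _ => ?_
  rw [Atl.db_pi (hS.1 i) hx]
  congr 1
  exact (db_castAdd A A' (f := fun q => w (i, j) q (k', l)) hy
    (Atl.SmAt.diffAt (hw.1 (i, j) (k', l)) hxy) a).symm

theorem D1_mem {w : (A.prod A').ι → M × N → B.κ × C.κ → ℂ} (hw : w ∈ Sec (B.prod C)) :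
    D1 B C w ∈ Sec (B.prod C) := by
  refine ⟨?_, ?_, ?_⟩
  · rintro ⟨i, j⟩ ⟨k, l⟩
    have h1 : (A.prod A').SmAt (i, j) (fun p => (∑ a : Fin n, ∑ k', B.e a k k' *
        (A.prod A').db (i, j) (Fin.castAdd m a) (fun q => w (i, j) q (k', l)) p)
        + ∑ k', B.α i p.1 k k' * w (i, j) p (k', l)) := by
      refine ContDiffOn.add (ContDiffOn.sum fun a _ => ContDiffOn.sum fun k' _ => ?_)
        (ContDiffOn.sum fun k' _ => ?_)
      · exact contDiffOn_const.mul (Atl.SmAt.db (hw.1 (i, j) (k', l)) _)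
      · exact (smAt_fst A A' (f := fun x => B.α i x k k') (B.α_smooth i k k') j).mul
          (hw.1 (i, j) (k', l))
    refine ContDiffOn.congr h1 fun z hz => ?_
    have hz' := ((A.prod A').e (i, j)).map_target hz
    exact D1_eq B C hw hz'.1 hz'.2 k l
  · rintro ⟨i, j⟩ ⟨x, y⟩ h
    funext p
    obtain ⟨k, l⟩ := p
    rw [D1_apply]
    by_cases hx : x ∈ (A.e i).source
    · have hy : y ∉ (A'.e j).source := fun hy => h ⟨hx, hy⟩
      have h0 : sl1 w j y l = 0 := by
        funext i x k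
        exact congrFun (Sec.off (B.prod C) hw (i := (i, j)) (x := (x, y)) (fun h => hy h.2)) (k, l)
      rw [h0, nab_zero]
      rfl
    · rw [nab_off B hx]
      rfl
  · rintro ⟨i, j⟩ ⟨i', j'⟩ ⟨x, y⟩ h
    funext p
    obtain ⟨k, l⟩ := p
    have hx : x ∈ (A.e i).source ∩ (A.e i').source := ⟨h.1.1, h.2.1⟩
    have hy : y ∈ (A'.e j).source ∩ (A'.e j').source := ⟨h.1.2, h.2.2⟩
    rw [D1_apply, sl1_tr B C hw hy l, nab_sum B _ _ _ (fun l' => sl1_mem B C hw j' y l')]
    have e2 : (((B.prod C).τ (i, j) (i', j') (x, y)) *ᵥ D1 B C w (i', j') (x, y)) (k, l)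
        = ∑ k', ∑ l', B.τ i i' x k k' * C.τ j j' y l l' * D1 B C w (i', j') (x, y) (k', l') :=
      kron_mulVec _ _ _ k l
    rw [e2, Finset.sum_comm]
    simp only [Finset.sum_apply, Pi.smul_apply, smul_eq_mul]
    refine Finset.sum_congr rfl fun l' _ => ?_
    rw [nab_tr B (sl1_mem B C hw j' y l') hx, Matrix.mulVec, dotProduct, Finset.mul_sum]
    refine Finset.sum_congr rfl fun k' _ => ?_
    rw [D1_apply]
    ring


/-- `D1` as a linear map -/
def D1L : Sec (B.prod C) →ₗ[ℂ] Sec (B.prod C) where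
  toFun w := ⟨D1 B C w.1, D1_mem B C w.2⟩
  map_add' u v := Subtype.ext (by
    funext i p k
    have h := nab_add B (sl1_mem B C u.2 i.2 p.2 k.2) (sl1_mem B C v.2 i.2 p.2 k.2)
    exact congrFun (congrFun (congrFun h i.1) p.1) k.1)
  map_smul' c u := Subtype.ext (by
    funext i p k
    have h := nab_smul B c (sl1_mem B C u.2 i.2 p.2 k.2)
    exact congrFun (congrFun (congrFun h i.1) p.1) k.1)

/-- `D2` as a linear map -/
def D2L : Sec (B.prod C) →ₗ[ℂ] Sec (B.prod C) := nabL (B.prod C) - D1L B C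

theorem D2L_coe (w : Sec (B.prod C)) : (D2L B C w).1 = D2 B C w.1 := by
  show nab (B.prod C) w.1 - D1 B C w.1 = D2 B C w.1
  rw [nab_eq_D B C w.2]
  simp


theorem nabL_eq_D : nabL (B.prod C) = D1L B C + D2L B C := by
  refine LinearMap.ext fun w => ?_
  show nabL (B.prod C) w = D1L B C w + (nabL (B.prod C) w - D1L B C w)
  exact (add_sub_cancel (D1L B C w) (nabL (B.prod C) w)).symm





/-! ### the two partial operators anticommute -/


end

end Crest.Agent.R275.Prod363
end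

-- ▼ part R275/Kun4_570
section

/-!
R275, PART I', leaf NA0 (helper570): the Kunneth theorem for the Dolbeault bundle on `M × M`.

* `T1 hT`    : a continuous operator `T : Sec B → Sec B` acting in the first variable on
               `Sec (B.prod C)`; `sl1_T1`, `T1_comp` ...
* `D2_T1`    : `D2 ∘ T1 = T1' ∘ D2`.
* `exists_par` : abstract construction of a homotopy and a finite rank operator from a parametrix.
* `kunneth_geo` : `H(M × M)` is finite-dimensional and the supertrace of the swap is `χ(M)`.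
-/

set_option autoImplicit false
set_option linter.unusedSectionVars false

open Filter Topology Set Complex
open scoped ContDiff Real Matrix Kronecker

namespace Crest.Agent.R275.Kun570

open Crest.Agent.R275.Tor812 Crest.Agent.R275.TorE812 Crest.Agent.R275.TorS666
open Crest.Agent.R275.Geo Crest.Agent.R275.Prod363 Crest.Agent.R275.C1c193
open Crest.Agent.R275.Fred685

noncomputable section

variable {n m : ℕ} {M N : Type} [TopologicalSpace M] [TopologicalSpace N]
variable {A : Atl n M} {A' : Atl m N}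

/-! ### slices -/

section slices

variable (B : FBun A) (C : FBun A')

/-- slice as a linear map -/
def sl1L (j : A'.ι) (y : N) (l : C.κ) : Sec (B.prod C) →ₗ[ℂ] Sec B where
  toFun w := ⟨sl1 w.1 j y l, sl1_mem B C w.2 j y l⟩
  map_add' _ _ := rfl
  map_smul' _ _ := rfl

theorem sl1L_apply (j : A'.ι) (y : N) (l : C.κ) (w : Sec (B.prod C)) (i : A.ι) (x : M) (k : B.κ) :
    (sl1L B C j y l w).1 i x k = w.1 (i, j) (x, y) (k, l) := rfl

theorem sl1L_off {j : A'.ι} {y : N} (hy : y ∉ (A'.e j).source) (l : C.κ) (w : Sec (B.prod C)) :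
    sl1L B C j y l w = 0 := by
  refine Subtype.ext (funext fun i => funext fun x => funext fun k => ?_)
  rw [sl1L_apply, sec_off (B := B.prod C) w (i := (i, j)) (x := (x, y)) (fun h => hy h.2)]
  rfl

theorem sl1L_tr {j j' : A'.ι} {y : N} (hy : y ∈ (A'.e j).source ∩ (A'.e j').source) (l : C.κ)
    (w : Sec (B.prod C)) : sl1L B C j y l w = ∑ l', C.τ j j' y l l' • sl1L B C j' y l' w := by
  refine Subtype.ext ?_
  rw [Submodule.coe_sum]
  exact sl1_tr B C w.2 hy l

theorem sl1L_smF (j : A'.ι) (l : C.κ) (w : Sec (B.prod C)) :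
    SmF j fun y => sl1L B C j y l w := fun i κ => w.2.1 (i, j) (κ, l)

theorem ext_sl1 {w w' : Sec (B.prod C)}
    (h : ∀ (j : A'.ι) (y : N) (l : C.κ), y ∈ (A'.e j).source →
      sl1L B C j y l w = sl1L B C j y l w') : w = w' := by
  refine Subtype.ext (funext fun p => funext fun q => funext fun r => ?_)
  obtain ⟨i, j⟩ := p
  obtain ⟨x, y⟩ := q
  obtain ⟨k, l⟩ := r
  by_cases hy : y ∈ (A'.e j).source
  · have h1 := congrArg (fun u : Sec B => u.1 i x k) (h j y l hy)
    exact h1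
  · have h1 := sl1L_off B C hy l w
    have h2 := sl1L_off B C hy l w'
    have h3 := congrArg (fun u : Sec B => u.1 i x k) (h1.trans h2.symm)
    exact h3

variable {B C}

/-- a section of the product from its slices -/
def mk1 (v : A'.ι → C.κ → N → Sec B) (hs : ∀ j l, SmF j (v j l))
    (ho : ∀ j l y, y ∉ (A'.e j).source → v j l y = 0)
    (ht : ∀ j j' y, y ∈ (A'.e j).source ∩ (A'.e j').source → ∀ l,
      v j l y = ∑ l', C.τ j j' y l l' • v j' l' y) : Sec (B.prod C) :=
  ⟨fun i p k => (v i.2 k.2 p.2).1 i.1 p.1 k.1, by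
    refine ⟨?_, ?_, ?_⟩
    · rintro ⟨i, j⟩ ⟨k, l⟩
      exact hs j l i k
    · rintro ⟨i, j⟩ ⟨x, y⟩ h
      funext p
      obtain ⟨k, l⟩ := p
      by_cases hy : y ∈ (A'.e j).source
      · have hx : x ∉ (A.e i).source := fun hx => h ⟨hx, hy⟩
        show (v j l y).1 i x k = 0
        rw [sec_off _ hx]
        rfl
      · show (v j l y).1 i x k = 0
        rw [ho j l y hy]
        rfl
    · rintro ⟨i, j⟩ ⟨i', j'⟩ ⟨x, y⟩ h
      funext p
      obtain ⟨k, l⟩ := p
      have hx : x ∈ (A.e i).source ∩ (A.e i').source := ⟨h.1.1, h.2.1⟩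
      have hy : y ∈ (A'.e j).source ∩ (A'.e j').source := ⟨h.1.2, h.2.2⟩
      have e2 : (((B.prod C).τ (i, j) (i', j') (x, y)) *ᵥ
          fun p : B.κ × C.κ => (v j' p.2 y).1 i' x p.1) (k, l)
          = ∑ k', ∑ l', B.τ i i' x k k' * C.τ j j' y l l' * (v j' l' y).1 i' x k' :=
        kron_mulVec _ _ _ k l
      show (v j l y).1 i x k = (((B.prod C).τ (i, j) (i', j') (x, y)) *ᵥ
          fun p : B.κ × C.κ => (v j' p.2 y).1 i' x p.1) (k, l)
      rw [e2, ht j j' y hy l]
      have e3 : (∑ l', C.τ j j' y l l' • v j' l' y : Sec B).1 i x k =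
          ∑ l', C.τ j j' y l l' * (v j' l' y).1 i x k := by
        rw [Submodule.coe_sum]
        simp only [Finset.sum_apply]
        rfl
      rw [e3, Finset.sum_comm]
      refine Finset.sum_congr rfl fun l' _ => ?_
      rw [sec_tr (v j' l' y) hx k, Finset.mul_sum]
      refine Finset.sum_congr rfl fun k' _ => ?_
      ring⟩

theorem sl1L_mk1 (v : A'.ι → C.κ → N → Sec B) (hs : ∀ j l, SmF j (v j l))
    (ho : ∀ j l y, y ∉ (A'.e j).source → v j l y = 0)
    (ht : ∀ j j' y, y ∈ (A'.e j).source ∩ (A'.e j').source → ∀ l,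
      v j l y = ∑ l', C.τ j j' y l l' • v j' l' y) (j : A'.ι) (y : N) (l : C.κ) :
    sl1L B C j y l (mk1 v hs ho ht) = v j l y := rfl

end slices

/-! ### operators in the first variable -/

section T1

variable [T2Space M] [T2Space N] {B : FBun A} (C : FBun A')

/-- `T` acting in the first variable -/
def T1 {T : Sec B →ₗ[ℂ] Sec B} (hT : ContA B T) : Sec (B.prod C) →ₗ[ℂ] Sec (B.prod C) where
  toFun w := mk1 (fun j l y => T (sl1L B C j y l w)) (fun j l => (sl1L_smF B C j l w).map hT)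
    (fun j l y hy => by
      show T (sl1L B C j y l w) = 0
      rw [sl1L_off B C hy l w, map_zero])
    (fun j j' y hy l => by
      show T (sl1L B C j y l w) = _
      rw [sl1L_tr B C hy l w, map_sum]
      simp only [map_smul])
  map_add' w w' := by
    refine ext_sl1 B C fun j y l _ => ?_
    rw [map_add, sl1L_mk1, sl1L_mk1, sl1L_mk1, map_add, map_add]
  map_smul' c w := by
    refine ext_sl1 B C fun j y l _ => ?_
    rw [RingHom.id_apply, map_smul, sl1L_mk1, sl1L_mk1, map_smul, map_smul]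

@[simp] theorem sl1_T1 {T : Sec B →ₗ[ℂ] Sec B} (hT : ContA B T) (j : A'.ι) (y : N) (l : C.κ)
    (w : Sec (B.prod C)) : sl1L B C j y l (T1 C hT w) = T (sl1L B C j y l w) := rfl

theorem sl1_box (a : Sec B) (b : Sec C) (j : A'.ι) (y : N) (l : C.κ) :
    sl1L B C j y l (boxL B C a b) = b.1 j y l • a := by
  refine Subtype.ext (funext fun i => funext fun x => funext fun k => ?_)
  show a.1 i x k * b.1 j y l = b.1 j y l * a.1 i x k
  ring

theorem T1_box {T : Sec B →ₗ[ℂ] Sec B} (hT : ContA B T) (a : Sec B) (b : Sec C) :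
    T1 C hT (boxL B C a b) = boxL B C (T a) b := by
  refine ext_sl1 B C fun j y l _ => ?_
  rw [sl1_T1, sl1_box, sl1_box, map_smul]

/-- the sign operator -/
def gam (B : FBun A) : Sec B →ₗ[ℂ] Sec B where
  toFun u := ⟨sgc B.deg (-1) u.1, sgc_mem B (-1) u.2⟩
  map_add' u v := Subtype.ext (by funext i x k; simp [sgc, mul_add])
  map_smul' c u := Subtype.ext (by funext i x k; simp [sgc]; ring)

theorem gam_apply (B : FBun A) (u : Sec B) (i : A.ι) (x : M) (k : B.κ) :
    (gam B u).1 i x k = (-1 : ℂ) ^ B.deg k * u.1 i x k := rfl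

theorem gam_gam (B : FBun A) (u : Sec B) : gam B (gam B u) = u := by
  refine Subtype.ext (funext fun i => funext fun x => funext fun k => ?_)
  rw [gam_apply, gam_apply, ← mul_assoc, neg_one_pow_mul_self, one_mul]


/-- the operator of the second variable on slices, without the sign -/
def D2c (j : A'.ι) (y : N) (l : C.κ) (w : Sec (B.prod C)) : Sec B :=
  (∑ b : Fin m, ∑ l', C.e b l l' • dbF (sl1L_smF B C j l' w) b y) +
    ∑ l', C.α j y l l' • sl1L B C j y l' w

theorem sl1_D2 {j : A'.ι} {y : N} (hy : y ∈ (A'.e j).source) (l : C.κ) (w : Sec (B.prod C)) :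
    sl1L B C j y l (D2L B C w) = gam B (D2c C j y l w) := by
  refine Subtype.ext (funext fun i => funext fun x => funext fun k => ?_)
  rw [sl1L_apply, D2L_coe, gam_apply, D2_apply, nab_apply C hy]
  congr 1
  have e1 : (D2c C j y l w).1 i x k = (∑ b : Fin m, ∑ l', C.e b l l' *
      (dbF (sl1L_smF B C j l' w) b y).1 i x k) +
      ∑ l', C.α j y l l' * (sl1L B C j y l' w).1 i x k := by
    rw [D2c, Submodule.coe_add, Submodule.coe_sum]
    simp only [Submodule.coe_sum, Pi.add_apply, Finset.sum_apply]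
    rfl
  rw [e1]
  simp only [Pi.add_apply, Finset.sum_apply, Matrix.mulVec, dotProduct]
  congr 1
  refine Finset.sum_congr rfl fun b _ => Finset.sum_congr rfl fun l' _ => ?_
  rw [dbF_apply _ b hy, Atl.db_pi (fun k' => (sl2_mem B C w.2 i x k).1 j k') hy]
  rfl

theorem D2c_T1 {T : Sec B →ₗ[ℂ] Sec B} (hT : ContA B T) {j : A'.ι} {y : N}
    (hy : y ∈ (A'.e j).source) (l : C.κ) (w : Sec (B.prod C)) :
    D2c C j y l (T1 C hT w) = T (D2c C j y l w) := by
  rw [D2c, D2c, map_add, map_sum, map_sum]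
  congr 1
  · refine Finset.sum_congr rfl fun b _ => ?_
    rw [map_sum]
    refine Finset.sum_congr rfl fun l' _ => ?_
    rw [map_smul, ← dbF_map hT (sl1L_smF B C j l' w) b hy]
    rfl
  · refine Finset.sum_congr rfl fun l' _ => ?_
    rw [map_smul]
    rfl

/-- **an odd operator in the first variable anticommutes with `D2`** -/
theorem D2_T1_odd {T : Sec B →ₗ[ℂ] Sec B} (hT : ContA B T)
    (hodd : ∀ a, T (gam B a) = - gam B (T a)) (w : Sec (B.prod C)) :
    D2L B C (T1 C hT w) + T1 C hT (D2L B C w) = 0 := by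
  refine ext_sl1 B C fun j y l hy => ?_
  rw [map_add, sl1_T1, sl1_D2 C hy, sl1_D2 C hy, D2c_T1 C hT hy, hodd, map_zero, add_neg_cancel]

theorem sl1_D1 (j : A'.ι) (y : N) (l : C.κ) (w : Sec (B.prod C)) :
    sl1L B C j y l (D1L B C w) = nabL B (sl1L B C j y l w) := rfl

/-- homotopy formula on the product -/
theorem hom_T1 {h Q : Sec B →ₗ[ℂ] Sec B} (hh : ContA B h) (hQ : ContA B Q)
    (hodd : ∀ a, h (gam B a) = - gam B (h a))
    (hom : ∀ a, nabL B (h a) + h (nabL B a) = a - Q a) (w : Sec (B.prod C)) :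
    nabL (B.prod C) (T1 C hh w) + T1 C hh (nabL (B.prod C) w) = w - T1 C hQ w := by
  have e1 : nabL (B.prod C) (T1 C hh w) = D1L B C (T1 C hh w) + D2L B C (T1 C hh w) := by
    rw [nabL_eq_D, LinearMap.add_apply]
  have e2 : nabL (B.prod C) w = D1L B C w + D2L B C w := by
    rw [nabL_eq_D, LinearMap.add_apply]
  have e3 := D2_T1_odd C hh hodd w
  have e4 : D1L B C (T1 C hh w) + T1 C hh (D1L B C w) = w - T1 C hQ w := by
    refine ext_sl1 B C fun j y l _ => ?_
    rw [map_add, map_sub, sl1_D1, sl1_T1, sl1_T1, sl1_T1, sl1_D1]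
    exact hom _
  rw [e1, e2, map_add]
  calc D1L B C (T1 C hh w) + D2L B C (T1 C hh w) + (T1 C hh (D1L B C w) + T1 C hh (D2L B C w))
      = (D1L B C (T1 C hh w) + T1 C hh (D1L B C w)) +
        (D2L B C (T1 C hh w) + T1 C hh (D2L B C w)) := by abel
    _ = w - T1 C hQ w := by rw [e3, e4, add_zero]

end T1

/-! ### range of a finite rank operator in the first variable -/

theorem span_top_of_sep {k E : Type*} [Field k] [AddCommGroup E] [Module k E]
    [FiniteDimensional k E] (s : Set (Module.Dual k E)) (h : ∀ z : E, (∀ f ∈ s, f z = 0) → z = 0) :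
    Submodule.span k s = ⊤ := by
  refine Submodule.span_eq_top_of_ne_zero fun z hz => ?_
  by_contra hcon
  push Not at hcon
  exact hz (h z hcon)

theorem exists_dual_basis {k E : Type*} [Field k] [AddCommGroup E] [Module k E]
    [FiniteDimensional k E] : ∃ (r : ℕ) (v : Fin r → E) (φ : Fin r → Module.Dual k E),
      ∀ e : E, ∑ i, φ i e • v i = e :=
  ⟨_, Module.finBasis k E, fun i => (Module.finBasis k E).coord i,
    fun e => (Module.finBasis k E).sum_repr e⟩

section range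

variable [T2Space M] [T2Space N] {B : FBun A} (C : FBun A')

theorem exists_coeff {Q : Sec B →ₗ[ℂ] Sec B} (hQ : ContA B Q)
    [FiniteDimensional ℂ (LinearMap.range Q)] (w : Sec (B.prod C))
    (φ : Module.Dual ℂ (LinearMap.range Q)) :
    ∃ β : Sec C, ∀ (j : A'.ι) (y : N) (l : C.κ),
      β.1 j y l = φ (Q.rangeRestrict (sl1L B C j y l w)) := by
  let p : Submodule ℂ (Module.Dual ℂ (LinearMap.range Q)) :=
    { carrier := {φ | ∃ β : Sec C, ∀ (j : A'.ι) (y : N) (l : C.κ),
        β.1 j y l = φ (Q.rangeRestrict (sl1L B C j y l w))}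
      add_mem' := by
        rintro φ ψ ⟨β, hβ⟩ ⟨β', hβ'⟩
        refine ⟨β + β', fun j y l => ?_⟩
        rw [LinearMap.add_apply, ← hβ, ← hβ']
        rfl
      zero_mem' := ⟨0, fun j y l => rfl⟩
      smul_mem' := by
        rintro c φ ⟨β, hβ⟩
        refine ⟨c • β, fun j y l => ?_⟩
        rw [LinearMap.smul_apply, ← hβ]
        rfl }
  let ev : A.ι × M × B.κ → Module.Dual ℂ (LinearMap.range Q) := fun t =>
    { toFun := fun e => (e : Sec B).1 t.1 t.2.1 t.2.2
      map_add' := fun _ _ => rfl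
      map_smul' := fun _ _ => rfl }
  have h1 : Submodule.span ℂ (Set.range ev) ≤ p := by
    rw [Submodule.span_le]
    rintro _ ⟨t, rfl⟩
    refine ⟨⟨sl2 (T1 C hQ w).1 t.1 t.2.1 t.2.2, sl2_mem B C (T1 C hQ w).2 _ _ _⟩,
      fun j y l => ?_⟩
    rfl
  have h2 : Submodule.span ℂ (Set.range ev) = ⊤ := by
    refine span_top_of_sep (k := ℂ) (E := LinearMap.range Q) (Set.range ev) fun z hz => ?_
    refine Subtype.ext (Subtype.ext (funext fun i => funext fun x => funext fun k => ?_))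
    exact hz (ev (i, x, k)) ⟨_, rfl⟩
  have h3 : φ ∈ p := h1 (h2 ▸ Submodule.mem_top)
  exact h3

theorem T1_mem_span {Q : Sec B →ₗ[ℂ] Sec B} (hQ : ContA B Q)
    [FiniteDimensional ℂ (LinearMap.range Q)] (w : Sec (B.prod C)) :
    T1 C hQ w ∈ Submodule.span ℂ {y | ∃ a b, y = boxL B C (Q a) b} := by
  obtain ⟨r, v, φ, hv⟩ := exists_dual_basis (k := ℂ) (E := LinearMap.range Q)
  choose β hβ using fun i => exists_coeff C hQ w (φ i)
  have h1 : T1 C hQ w = ∑ i, boxL B C (v i : Sec B) (β i) := by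
    refine ext_sl1 B C fun j y l _ => ?_
    rw [map_sum, sl1_T1]
    have h3 : ∀ i, sl1L B C j y l (boxL B C (v i : Sec B) (β i)) =
        φ i (Q.rangeRestrict (sl1L B C j y l w)) • (v i : Sec B) := by
      intro i
      rw [sl1_box C (v i : Sec B) (β i) j y l, hβ]
    simp only [h3]
    have h2 := congrArg Subtype.val (hv (Q.rangeRestrict (sl1L B C j y l w)))
    rw [Submodule.coe_sum] at h2
    exact h2.symm
  rw [h1]
  refine Submodule.sum_mem _ fun i _ => Submodule.subset_span ?_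
  obtain ⟨a, ha⟩ := (v i).2
  exact ⟨a, β i, by rw [ha]⟩

theorem box_independent {r : ℕ} (a : Fin r → Sec B) (b : Fin r → Sec C)
    (ha : LinearIndependent ℂ a) (h : ∑ j, boxL B C (a j) (b j) = 0) (j : Fin r) : b j = 0 := by
  refine Subtype.ext (funext fun i' => funext fun y => funext fun l => ?_)
  have h1 := congrArg (sl1L B C i' y l) h
  rw [map_sum, map_zero] at h1
  have h2 : ∀ x, sl1L B C i' y l (boxL B C (a x) (b x)) = (b x).1 i' y l • a x := by
    intro x
    rw [sl1_box C (a x) (b x) i' y l]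
  simp only [h2] at h1
  exact Fintype.linearIndependent_iff.1 ha _ h1 j

end range

/-! ### the abstract parametrix construction -/

section par

variable {V : Type*} [AddCommGroup V] [Module ℂ V] {S : Scale ℂ V}

/-- from a parametrix to an exact homotopy modulo a finite rank operator -/
theorem exists_par {d K : V →ₗ[ℂ] V} (hd : Op0 S S d) (hK : Op0 S S K) (dd : ∀ x, d (d x) = 0)
    (hR : Neg S S (LinearMap.id - d ∘ₗ K - K ∘ₗ d)) :
    ∃ h Q : V →ₗ[ℂ] V, Op0 S S h ∧ Op0 S S Q ∧ FiniteDimensional ℂ (LinearMap.range Q) ∧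
      ∀ a, d (h a) + h (d a) = a - Q a := by
  obtain ⟨F, hF, hF'⟩ := hR.2 (1 / 2) (by norm_num)
  set R : V →ₗ[ℂ] V := LinearMap.id - d ∘ₗ K - K ∘ₗ d with hRdef
  obtain ⟨e, he, he'⟩ := exists_inverse (S := S) (M := R - F) (hR.sub hF.neg_mem).1 hF'
  have hRd : ∀ x, R (d x) = d (R x) := by
    intro x
    show d x - d (K (d x)) - K (d (d x)) = d (x - d (K x) - K (d x))
    rw [dd, map_zero, map_sub, map_sub, dd]
    abel
  have hRe : ∀ x, d (K x) + K (d x) = x - R x := by
    intro x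
    show _ = x - (x - d (K x) - K (d x))
    abel
  let G : V →ₗ[ℂ] V := F - K ∘ₗ (e.symm : V →ₗ[ℂ] V) ∘ₗ (d ∘ₗ F - F ∘ₗ d)
  have hFd : FiniteDimensional ℂ (LinearMap.range F) := hF.1
  have hG0 : Op0 S S G :=
    hF.op0.sub (hK.comp (he'.comp ((hd.comp hF.op0).sub (hF.op0.comp hd))))
  have hGf : FiniteDimensional ℂ (LinearMap.range G) := by
    have hle : LinearMap.range G ≤ LinearMap.range F ⊔
        ((LinearMap.range F).map (K ∘ₗ (e.symm : V →ₗ[ℂ] V) ∘ₗ d) ⊔
          (LinearMap.range F).map (K ∘ₗ (e.symm : V →ₗ[ℂ] V))) := by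
      rintro _ ⟨x, rfl⟩
      have hx : G x = F x + (-(K (e.symm (d (F x)))) + K (e.symm (F (d x)))) := by
        show F x - K (e.symm (d (F x) - F (d x))) = _
        rw [map_sub, map_sub]
        abel
      rw [hx]
      refine Submodule.add_mem_sup ⟨x, rfl⟩ (Submodule.add_mem_sup (Submodule.neg_mem _ ?_) ?_)
      · exact ⟨F x, ⟨x, rfl⟩, rfl⟩
      · exact ⟨F (d x), ⟨d x, rfl⟩, rfl⟩
    exact Submodule.finiteDimensional_of_le hle
  refine ⟨K ∘ₗ (e.symm : V →ₗ[ℂ] V), G ∘ₗ (e.symm : V →ₗ[ℂ] V), hK.comp he', hG0.comp he', ?_, ?_⟩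
  · exact Submodule.finiteDimensional_of_le (LinearMap.range_comp_le_range _ _)
  · intro a
    obtain ⟨b, rfl⟩ := e.surjective a
    show d (K (e.symm (e b))) + K (e.symm (d (e b))) = e b - G (e.symm (e b))
    rw [e.symm_apply_apply]
    have h1 : d (e b) = e (d b) + (d (F b) - F (d b)) := by
      rw [he, he]
      show d (b - (R b - F b)) = d b - (R (d b) - F (d b)) + (d (F b) - F (d b))
      rw [hRd, map_sub, map_sub]
      abel
    have h2 : e.symm (d (e b)) = d b + e.symm (d (F b) - F (d b)) := by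
      rw [h1, map_add, e.symm_apply_apply]
    rw [h2, map_add, ← add_assoc, hRe, he]
    show b - R b + K (e.symm (d (F b) - F (d b))) =
      b - (R b - F b) - (F b - K (e.symm (d (F b) - F (d b))))
    abel

end par

/-! ### from a scale to `ContA` -/

section nice

variable {B : FBun A}

/-- the norms of the scale are equivalent to the chart norms -/
structure Nice (S : Scale ℂ (Sec B)) : Prop where
  ub : ∀ s : ℕ, ∃ (F : Finset A.ι) (ψ : A.ι → M → ℂ) (hψ : ∀ i, Cut A i (ψ i)) (s' : ℕ) (C : ℝ),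
    0 ≤ C ∧ ∀ w : Sec B, S.nrm s w ≤ C * ∑ i' ∈ F, ∑ κ' : B.κ, nrm s' (La B (hψ i') κ' w)
  lb : ∀ (i : A.ι) (a : M → ℂ) (ha : Cut A i a) (κ : B.κ) (s : ℕ), ∃ (s' : ℕ) (C : ℝ),
    0 ≤ C ∧ ∀ w : Sec B, nrm s (La B ha κ w) ≤ C * S.nrm s' w

theorem Nice.contA {S : Scale ℂ (Sec B)} (hS : Nice S) {T : Sec B →ₗ[ℂ] Sec B}
    (hT : Op0 S S T) : ContA B T := by
  intro i a ha κ s
  obtain ⟨s', C, hC0, hC⟩ := hS.lb i a ha κ s
  obtain ⟨D, hD0, hD⟩ := exists_nonneg_const (hT s')
  obtain ⟨F, ψ, hψ, s'', E, hE0, hE⟩ := hS.ub s'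
  refine ⟨F, ψ, hψ, s'', C * (D * E), mul_nonneg hC0 (mul_nonneg hD0 hE0), fun w => ?_⟩
  calc nrm s (La B ha κ (T w)) ≤ C * S.nrm s' (T w) := hC _
    _ ≤ C * (D * S.nrm s' w) := mul_le_mul_of_nonneg_left (hD w) hC0
    _ ≤ C * (D * (E * ∑ i' ∈ F, ∑ κ' : B.κ, nrm s'' (La B (hψ i') κ' w))) :=
        mul_le_mul_of_nonneg_left (mul_le_mul_of_nonneg_left (hE w) hD0) hC0
    _ = _ := by ring

end nice

/-! ### the Kunneth theorem -/

section final

open Crest.Agent.R275.NA7763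

theorem neg_one_pow_mul (a b : ℕ) : (2 : ℂ) * (-1) ^ (a * b) =
    1 + (-1) ^ a + (-1) ^ b - (-1) ^ a * (-1) ^ b := by
  rcases Nat.even_or_odd a with ha | ha <;> rcases Nat.even_or_odd b with hb | hb
  · rw [(ha.mul_right b).neg_one_pow, ha.neg_one_pow, hb.neg_one_pow]; norm_num
  · rw [(ha.mul_right b).neg_one_pow, ha.neg_one_pow, hb.neg_one_pow]; norm_num
  · rw [(hb.mul_left a).neg_one_pow, ha.neg_one_pow, hb.neg_one_pow]; norm_num
  · rw [(ha.mul hb).neg_one_pow, ha.neg_one_pow, hb.neg_one_pow]; norm_num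

variable [T2Space M] {B : FBun A}

theorem gam_swp_sq (u : Sec (B.prod B)) :
    gam (B.prod B) (swpL B (gam (B.prod B) (swpL B u))) = u := by
  refine Subtype.ext (funext fun p => funext fun q => funext fun r => ?_)
  obtain ⟨i, j⟩ := p
  obtain ⟨x, y⟩ := q
  obtain ⟨k, l⟩ := r
  have h1 : (gam (B.prod B) (swpL B (gam (B.prod B) (swpL B u)))).1 (i, j) (x, y) (k, l) =
      (-1 : ℂ) ^ (B.deg k + B.deg l) * ((-1 : ℂ) ^ (B.deg k * B.deg l) *
        ((-1 : ℂ) ^ (B.deg l + B.deg k) * ((-1 : ℂ) ^ (B.deg l * B.deg k) *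
          u.1 (i, j) (x, y) (k, l)))) := rfl
  rw [h1, add_comm (B.deg l), mul_comm (B.deg l)]
  have h2 := neg_one_pow_mul_self (B.deg k + B.deg l)
  have h3 := neg_one_pow_mul_self (B.deg k * B.deg l)
  linear_combination ((-1 : ℂ) ^ (B.deg k * B.deg l) * (-1 : ℂ) ^ (B.deg k * B.deg l) *
    u.1 (i, j) (x, y) (k, l)) * h2 + u.1 (i, j) (x, y) (k, l) * h3

theorem nabL_box (a b : Sec B) : nabL (B.prod B) (boxL B B a b) =
    boxL B B (nabL B a) b + boxL B B (gam B a) (nabL B b) :=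
  Subtype.ext (nab_box B B a.2 b.2)

theorem gam_swp_box (a b : Sec B) : (2 : ℂ) • gam (B.prod B) (swpL B (boxL B B a b)) =
    boxL B B (gam B b) (gam B a) + boxL B B b (gam B a) + boxL B B (gam B b) a -
      boxL B B b a := by
  refine Subtype.ext (funext fun p => funext fun q => funext fun r => ?_)
  obtain ⟨i, j⟩ := p
  obtain ⟨x, y⟩ := q
  obtain ⟨k, l⟩ := r
  show (2 : ℂ) * ((-1 : ℂ) ^ (B.deg k + B.deg l) * ((-1 : ℂ) ^ (B.deg k * B.deg l) *
      (a.1 j y l * b.1 i x k))) =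
    (-1 : ℂ) ^ B.deg k * b.1 i x k * ((-1 : ℂ) ^ B.deg l * a.1 j y l) +
      b.1 i x k * ((-1 : ℂ) ^ B.deg l * a.1 j y l) +
      (-1 : ℂ) ^ B.deg k * b.1 i x k * a.1 j y l - b.1 i x k * a.1 j y l
  have h1 := neg_one_pow_mul (B.deg k) (B.deg l)
  have h2 := neg_one_pow_mul_self (B.deg k)
  have h3 := neg_one_pow_mul_self (B.deg l)
  rw [pow_add]
  set s := (-1 : ℂ) ^ B.deg k
  set t := (-1 : ℂ) ^ B.deg l
  set c := a.1 j y l * b.1 i x k with hc
  have e1 : s * b.1 i x k * (t * a.1 j y l) + b.1 i x k * (t * a.1 j y l) +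
      s * b.1 i x k * a.1 j y l - b.1 i x k * a.1 j y l = (s * t + t + s - 1) * c := by
    rw [hc]; ring
  rw [e1]
  linear_combination (s * t * c) * h1 + (c * t) * h2 + (c * s) * h3 - (c * t * t) * h2 - c * h3

/-- **Kunneth for the Dolbeault bundle**: the supertrace of the (graded) swap on `H(M × M)` is the
Euler characteristic. -/
theorem kunneth_geo {S : Scale ℂ (Sec B)} (hS : Nice S) (hn : Op0 S S (nabL B))
    (hg : Op0 S S (gam B)) {K : Sec B →ₗ[ℂ] Sec B} (hK : Op0 S S K)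
    (hR : Neg S S (LinearMap.id - nabL B ∘ₗ K - K ∘ₗ nabL B))
    (A0 : SC ℂ (Sec B)) (h0d : A0.d = nabL B) (h0T : A0.T = gam B)
    (AA : SC ℂ (Sec (B.prod B))) (hd : AA.d = nabL (B.prod B))
    (hT : AA.T = gam (B.prod B) ∘ₗ swpL B) :
    FiniteDimensional ℂ AA.H ∧ AA.st = A0.st := by
  have dd : ∀ x, nabL B (nabL B x) = 0 := fun x => by
    rw [← h0d]; exact A0.dd x
  obtain ⟨h, Q, hh0, hQ0, hQf, hhom⟩ := exists_par hn hK dd hR
  have hhom' : ∀ a, A0.d (h a) + h (A0.d a) = a - Q a := fun a => by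
    rw [h0d]; exact hhom a
  have hγ : ∀ a, A0.T (A0.T a) = a := fun a => by rw [h0T]; exact gam_gam B a
  obtain ⟨h', Q', rfl, rfl, e3, hQf', e5, e6⟩ :=
    exists_even A0 two_ne_zero hγ h Q hhom'
  set h' : Sec B →ₗ[ℂ] Sec B := (2 : ℂ)⁻¹ • (h - A0.T ∘ₗ h ∘ₗ A0.T) with hh'
  set Q' : Sec B →ₗ[ℂ] Sec B := (2 : ℂ)⁻¹ • (Q + A0.T ∘ₗ Q ∘ₗ A0.T) with hQ'
  have hT0 : Op0 S S A0.T := by rw [h0T]; exact hg
  have ch : ContA B h' := hS.contA ((hh0.sub (hT0.comp (hh0.comp hT0))).smul _)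
  have cQ : ContA B Q' := hS.contA ((hQ0.add (hT0.comp (hQ0.comp hT0))).smul _)
  refine kunneth two_ne_zero A0 AA (boxL B B) hγ ?_ ?_ ?_ h' Q' e3 e5 (T1 B ch) (T1 B cQ) ?_ ?_ ?_
    ?_
  · intro x
    rw [hT]
    exact gam_swp_sq x
  · intro a b
    rw [hd, h0d, h0T]
    exact nabL_box a b
  · intro a b
    rw [hT, h0T]
    exact gam_swp_box a b
  · intro x
    rw [hd]
    refine hom_T1 B ch cQ (fun a => ?_) (fun a => ?_) x
    · rw [← h0T]; exact e6 a
    · rw [← h0d]; exact e3 a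
  · intro a b
    exact T1_box B cQ a b
  · intro x
    exact T1_mem_span B cQ x
  · exact lift_injective (boxL B B) _ fun r a b ha hab => box_independent B a b ha hab

end final

end

end Crest.Agent.R275.Kun570
end

-- ▼ part R275/NA4h_476
section

/-!
R275, PART I', leaf NA4 (helper476): the supertrace of one step of the filtration by powers of the
ideal of the diagonal, pure algebra.

`SC.step`: `i : A' → A` injective, `p : A → C` surjective, `p ∘ i = 0`, and "acyclicity of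
`ker p / A'`": then `A.st = A'.st + C.st`.
-/

set_option autoImplicit false

namespace Crest.Agent.R275.NA4h476

open Crest.Agent.R275.NA7763

noncomputable section

variable {k : Type*} [Field k] {VA VB VC : Type*} [AddCommGroup VA] [Module k VA]
  [AddCommGroup VB] [Module k VB] [AddCommGroup VC] [Module k VC]

/-- acyclicity of `ker p / im i`, written out -/
def Acyc {A' : SC k VB} {A : SC k VA} {C : SC k VC} (i : SC.Hom A' A) (p : SC.Hom A C) : Prop :=
  ∀ x, p.f x = 0 → (∃ y, i.f y = A.d x) → ∃ v y, p.f v = 0 ∧ i.f y = x - A.d v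

/-- **one step of a filtration** -/
theorem step {A' : SC k VB} {A : SC k VA} {C : SC k VC} (i : SC.Hom A' A) (p : SC.Hom A C)
    (hi : Function.Injective i.f) (hp : Function.Surjective p.f) (hpi : ∀ y, p.f (i.f y) = 0)
    (ha : Acyc i p) [FiniteDimensional k A.H] [FiniteDimensional k A'.H] :
    FiniteDimensional k C.H ∧ A.st = A'.st + C.st := by
  -- the quotient
  set F : Submodule k VA := LinearMap.range i.f with hF
  have hd : ∀ x ∈ F, A.d x ∈ F := by
    rintro _ ⟨y, rfl⟩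
    exact ⟨A'.d y, (i.d y).symm⟩
  have hT : ∀ x ∈ F, A.T x ∈ F := by
    rintro _ ⟨y, rfl⟩
    exact ⟨A'.T y, (i.T y).symm⟩
  let Q := LnkP3476.quot A F hd hT
  let S : SC.SES A' A Q :=
    { i := i
      p := { f := F.mkQ, d := fun _ => rfl, T := fun _ => rfl }
      inj := hi
      surj := F.mkQ_surjective
      exact := fun y hy => (Submodule.Quotient.mk_eq_zero F).1 hy
      zero := fun x => (Submodule.Quotient.mk_eq_zero F).2 ⟨x, rfl⟩ }
  have hFp : F ≤ LinearMap.ker p.f := by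
    rintro _ ⟨y, rfl⟩
    exact hpi y
  let φ : SC.Hom Q C :=
    { f := F.liftQ p.f hFp
      d := fun x => by
        obtain ⟨x, rfl⟩ := F.mkQ_surjective x
        exact p.d x
      T := fun x => by
        obtain ⟨x, rfl⟩ := F.mkQ_surjective x
        exact p.T x }
  have hφ : φ.Quasi := by
    constructor
    · rw [injective_iff_map_eq_zero]
      refine Q.ind fun x hx => ?_
      intro h
      obtain ⟨x, rfl⟩ := F.mkQ_surjective x
      rw [SC.Hom.mapH_cls, SC.cls_eq_zero] at h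
      obtain ⟨y, hy⟩ := h
      obtain ⟨z, rfl⟩ := hp y
      have hy' : p.f (A.d z) = p.f x := by rw [← p.d]; exact hy
      have h1 : p.f (x - A.d z) = 0 := by rw [map_sub, hy', sub_self]
      have h2 : A.d x ∈ F := (Submodule.Quotient.mk_eq_zero F).1 hx
      obtain ⟨w, hw⟩ := h2
      obtain ⟨v, y, hv, hvy⟩ := ha (x - A.d z) h1 ⟨w, by rw [map_sub, A.dd, sub_zero, hw]⟩
      rw [SC.cls_eq_zero]
      refine ⟨F.mkQ (z + v), ?_⟩
      show F.mkQ (A.d (z + v)) = F.mkQ x
      rw [← sub_eq_zero, ← map_sub]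
      refine (Submodule.Quotient.mk_eq_zero F).2 ⟨-y, ?_⟩
      rw [map_neg, hvy, map_add]
      abel
    · refine C.ind fun y hy => ?_
      obtain ⟨x, rfl⟩ := hp y
      have h1 : p.f (A.d x) = 0 := by rw [← p.d, hy]
      obtain ⟨v, y, hv, hvy⟩ := ha (A.d x) h1 ⟨0, by rw [map_zero, A.dd]⟩
      have h2 : Q.d (F.mkQ (x - v)) = 0 := by
        show F.mkQ (A.d (x - v)) = 0
        refine (Submodule.Quotient.mk_eq_zero F).2 ⟨y, ?_⟩
        rw [hvy, map_sub]
      refine ⟨Q.cls (F.mkQ (x - v)) h2, ?_⟩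
      rw [SC.Hom.mapH_cls]
      refine SC.cls_congr C ?_ _
      show p.f (x - v) = p.f x
      rw [map_sub, hv, sub_zero]
  have h1 : FiniteDimensional k Q.H := S.finite_right
  refine ⟨hφ.finite, ?_⟩
  rw [← hφ.st_eq]
  exact S.st_eq

/-- the form with a sign: `p` commutes with the involutions up to the factor `c` -/
theorem step_sign {A' : SC k VB} {A : SC k VA} (C : SC k VC) (i : SC.Hom A' A)
    (p : VA →ₗ[k] VC) (c : k) (hpd : ∀ x, C.d (p x) = p (A.d x))
    (hpT : ∀ x, p (A.T x) = c • C.T (p x))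
    (hi : Function.Injective i.f) (hp : Function.Surjective p) (hpi : ∀ y, p (i.f y) = 0)
    (ha : ∀ x, p x = 0 → (∃ y, i.f y = A.d x) → ∃ v y, p v = 0 ∧ i.f y = x - A.d v)
    [FiniteDimensional k A.H] [FiniteDimensional k A'.H] :
    FiniteDimensional k C.H ∧ A.st - A'.st = c * C.st := by
  let p' : SC.Hom A (C.scaleT c) :=
    { f := p
      d := hpd
      T := fun x => (hpT x).symm }
  obtain ⟨h1, h2⟩ := step i p' hi hp hpi ha
  refine ⟨h1, ?_⟩
  rw [h2, SC.scaleT_st]
  ring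


end

end Crest.Agent.R275.NA4h476
end

-- ▼ part R275/NA4U_476
section

/-!
# R275, PART I', NA4, part U (helper476): the graded pieces of the filtration by the diagonal

783's restriction `rho A m : Fm (BB A) m → Sec (CC A m)` (surjective, `∂̄`-compatible, acyclic
kernel modulo `Fm (BB A) (m+1)`) gives 759's hypothesis
`(dcx m).st - (dcx (m+1)).st = (-1)^m * st (Sec (CC A m))`.
-/

set_option autoImplicit false
set_option linter.unusedSectionVars false

open Set Filter Topology Complex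
open scoped ContDiff Matrix ComplexConjugate

namespace Crest.Agent.R275.NA4U476

open Crest.Agent.R275.Geo Crest.Agent.R275.NA3m425 Crest.Agent.R275.Smf798
  Crest.Agent.R275.SmR425 Crest.Agent.R275.Con425 Crest.Agent.R275.Dg199
  Crest.Agent.R275.Prod363 Crest.Agent.R275.DolG763 Crest.Agent.R275.NA13425
  Crest.Agent.R275.Lam2130 Crest.Agent.R275.NA8759 Crest.Agent.R275.NA7763
  Crest.Agent.R275.NA6b763 Crest.Agent.R275.SymBun585

noncomputable section

section general

variable {X : Type} [TopologicalSpace X] {A : Atl 2 X} {B : FBun (A.prod A)}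

/-- multiplication of the homogeneous parts by constants preserves the filtration -/
theorem degW_mem {m : ℕ} {w : Sec B} (hw : w ∈ NA4783.Fm B m) (c : ℕ → ℂ) :
    degW B c w ∈ NA4783.Fm B m := by
  rw [NA4783.mem_Fm_iff] at hw ⊢
  intro i p hp k
  exact (hw i p hp k).mul_left (G := fun _ => c (B.deg k))
    (Eventually.of_forall fun q => smN_const _ q)

/-- 783's filtration is the filtration by the powers of the ideal of the diagonal -/
theorem Fm_eq [T2Space X] [CompactSpace X] (P : Part (A.prod A)) (m : ℕ) :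
    NA4783.Fm B m = (dgA A).reg.J ^ m • (⊤ : Submodule (smf (A.prod A)) (Sec B)) := by
  ext w
  rw [dg_mem_iff A P m w]
  exact NA4783.mem_Fm_iff

end general

section rho

variable {X : Type} [TopologicalSpace X] {A : Atl 2 X} {m : ℕ}

open NA4783 (BB CC Fm rho Rep ResL)

/-- `rho` commutes with the operators `degW` -/
theorem rho_degW (w : Fm (BB A) m) (c : ℕ → ℂ) :
    rho A m ⟨degW (BB A) c w.1, degW_mem w.2 c⟩ = degW (CC A m) c (rho A m w) := by
  classical
  refine sec_ext fun i x => ?_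
  by_cases hx : x ∈ (A.e i).source
  · obtain ⟨g, hg⟩ := NA4783.exists_rep_sec w hx
    let T : X × X → Matrix (BB A).κ (BB A).κ ℂ := fun _ => Matrix.diagonal fun k => c ((BB A).deg k)
    have h := hg.mulVec (T := T) (fun k l => Eventually.of_forall fun q => smN_const _ q)
    have hT : ∀ (q : X × X) (v : (BB A).κ → ℂ) (k : (BB A).κ),
        (T q *ᵥ v) k = c ((BB A).deg k) * v k := fun q v k => Matrix.mulVec_diagonal _ _ k
    have h2 : Rep (A := A) m ((degW (BB A) c w.1).1 (NA4783.dI i)) i x (fun c' q => T q *ᵥ g c' q) :=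
      h.congr (Eventually.of_forall fun q => funext fun k => (hT q _ k).symm)
    refine funext fun k => ?_
    obtain ⟨k, d⟩ := k
    have e1 := NA4783.rho_apply ⟨degW (BB A) c w.1, degW_mem w.2 c⟩ hx h2 k d
    have e2 := NA4783.rho_apply w hx hg k d
    have e3 : (degW (CC A m) c (rho A m w)).1 i x (k, d) = c (dg k) * (rho A m w).1 i x (k, d) :=
      rfl
    refine e1.trans (Eq.trans ?_ e3.symm)
    rw [e2]
    have h3 : ∀ v : (BB A).κ → ℂ, ResL A v k = ∑ p : Fin 4 × Fin 4, NA4783.Res k p * v p :=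
      fun v => rfl
    rw [h3, h3, Finset.mul_sum]
    refine Finset.sum_congr rfl fun p _ => ?_
    have h5 : (T (x, x) *ᵥ g d (x, x)) p = c ((BB A).deg p) * g d (x, x) p :=
      hT (x, x) (g d (x, x)) p
    refine (congrArg (fun z => NA4783.Res k p * z) h5).trans ?_
    by_cases h0 : NA4783.Res k p = 0
    · have h6 : ∀ a b : ℂ, NA4783.Res k p * a = c (dg k) * (NA4783.Res k p * b) := fun a b => by
        rw [h0, zero_mul, zero_mul, mul_zero]
      exact h6 _ _
    · have h4 : (BB A).deg p = dg k := (NA4783.Res_deg h0).symm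
      have h6 : ∀ r b : ℂ, r * (c ((BB A).deg p) * b) = c (dg k) * (r * b) := fun r b => by
        rw [h4]; ring
      exact h6 _ _
  · funext k
    rw [NA4783.rho_coe, NA4783.rhoF_off hx,
      Sec.off (CC A m) (degW (CC A m) c (rho A m w)).2 hx]

/-- the ungraded form of the acyclicity -/
theorem acyc_all
    (hac : ∀ (q : ℕ) (w : Fm (BB A) m), IsDeg (BB A) q w.1.1 → rho A m w = 0 →
      nabL (BB A) w.1 ∈ Fm (BB A) (m + 1) → ∃ v : Fm (BB A) m, rho A m v = 0 ∧
        w.1 - nabL (BB A) v.1 ∈ Fm (BB A) (m + 1))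
    (w : Fm (BB A) m) (h0 : rho A m w = 0) (hn : nabL (BB A) w.1 ∈ Fm (BB A) (m + 1)) :
    ∃ v : Fm (BB A) m, rho A m v = 0 ∧ w.1 - nabL (BB A) v.1 ∈ Fm (BB A) (m + 1) := by
  classical
  let wq : ℕ → Fm (BB A) m := fun q => ⟨prZ (BB A) (q : ℤ) w.1, degW_mem w.2 _⟩
  have h1 : ∀ q : ℕ, ∃ v : Fm (BB A) m, rho A m v = 0 ∧
      (wq q).1 - nabL (BB A) v.1 ∈ Fm (BB A) (m + 1) := by
    intro q
    refine hac q (wq q) ?_ ?_ ?_
    · intro i x k hk
      by_contra h
      apply hk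
      show (if ((BB A).deg k : ℤ) = (q : ℤ) then (1 : ℂ) else 0) * w.1.1 i x k = 0
      rw [if_neg (fun h' => h (by exact_mod_cast h')), zero_mul]
    · have := rho_degW w fun j => if (j : ℤ) = (q : ℤ) then (1 : ℂ) else 0
      refine this.trans ?_
      rw [h0, map_zero]
    · show nabL (BB A) (prZ (BB A) (q : ℤ) w.1) ∈ Fm (BB A) (m + 1)
      rw [nabL_prZ]
      exact degW_mem hn _
  choose v hv1 hv2 using h1
  refine ⟨∑ q ∈ Finset.range (topd (BB A) + 1), v q, ?_, ?_⟩
  · rw [map_sum]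
    exact Finset.sum_eq_zero fun q _ => hv1 q
  · have e1 : w.1 = ∑ q ∈ Finset.range (topd (BB A) + 1), (wq q).1 :=
      (sum_prZ (BB A) (topd (BB A)) le_rfl w.1).symm
    have e2 : ((∑ q ∈ Finset.range (topd (BB A) + 1), v q : Fm (BB A) m) : Sec (BB A)) =
        ∑ q ∈ Finset.range (topd (BB A) + 1), (v q).1 := by
      rw [Submodule.coe_sum]
    rw [e2, map_sum]
    have e3 : w.1 - ∑ q ∈ Finset.range (topd (BB A) + 1), nabL (BB A) (v q).1 =
        ∑ q ∈ Finset.range (topd (BB A) + 1), ((wq q).1 - nabL (BB A) (v q).1) := by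
      rw [Finset.sum_sub_distrib, ← e1]
    rw [e3]
    exact Submodule.sum_mem _ fun q _ => hv2 q

end rho

section glue

variable {X : Type} [TopologicalSpace X] [T2Space X] [CompactSpace X] {A : Atl 2 X} {m : ℕ}

open NA4783 (BB CC Fm rho)

/-- **(I4)** in 759's form -/
theorem graded_piece (P : Part (A.prod A))
    (hBB : ∀ u : Sec ((lam2 A).prod (lam2 A)), nabL _ (nabL _ u) = 0)
    (hT : ∀ u : Sec (CC A m), nabL (CC A m) (nabL (CC A m) u) = 0)
    (hs : ∀ a, (dolL hBB (swLift (lam2 A))).s a = (dgS A).τ a)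
    (hc : (dolL hBB (swLift (lam2 A))).Cond (dgA A).reg.J)
    (hac : ∀ (q : ℕ) (w : Fm (BB A) m), IsDeg (BB A) q w.1.1 → rho A m w = 0 →
      nabL (BB A) w.1 ∈ Fm (BB A) (m + 1) → ∃ v : Fm (BB A) m, rho A m v = 0 ∧
        w.1 - nabL (BB A) v.1 ∈ Fm (BB A) (m + 1))
    (hsur : Function.Surjective (rho A m))
    (hsw : ∀ (w : Fm (BB A) m) (hw : (swpL (lam2 A) w.1 : Sec (BB A)) ∈ Fm (BB A) m),
      rho A m ⟨swpL (lam2 A) w.1, hw⟩ = ((-1 : ℂ) ^ m) • rho A m w)
    [FiniteDimensional ℂ (dcx A (dolL hBB (swLift (lam2 A))) hs hc m).H]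
    [FiniteDimensional ℂ (dcx A (dolL hBB (swLift (lam2 A))) hs hc (m + 1)).H] :
    FiniteDimensional ℂ (dolP hT).sc.H ∧
      (dcx A (dolL hBB (swLift (lam2 A))) hs hc m).st -
        (dcx A (dolL hBB (swLift (lam2 A))) hs hc (m + 1)).st =
          (-1) ^ m * (dolP hT).sc.st := by
  have hF : ∀ m, Fm (BB A) m =
      (dgA A).reg.J ^ m • (⊤ : Submodule (smf (A.prod A)) (Sec (BB A))) := fun m => Fm_eq P m
  have hmem : ∀ {m : ℕ} {w : Sec (BB A)}, w ∈ Fm (BB A) m ↔
      w ∈ (dgA A).reg.J ^ m • (⊤ : Submodule (smf (A.prod A)) (Sec (BB A))) := by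
    intro m w
    rw [hF m]
  have hle : (dgA A).reg.J ^ (m + 1) • (⊤ : Submodule (smf (A.prod A)) (Sec (BB A))) ≤
      (dgA A).reg.J ^ m • (⊤ : Submodule (smf (A.prod A)) (Sec (BB A))) := by
    rw [← hF, ← hF]
    exact NA4783.Fm_succ_le m
  -- the inclusion
  let i : SC.Hom (dcx A (dolL hBB (swLift (lam2 A))) hs hc (m + 1))
      (dcx A (dolL hBB (swLift (lam2 A))) hs hc m) :=
    { f := (Submodule.inclusion hle).restrictScalars ℂ
      d := fun _ => rfl
      T := fun _ => rfl }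
  -- the restriction
  let p : ((dgA A).reg.J ^ m • (⊤ : Submodule (smf (A.prod A)) (Sec ((lam2 A).prod (lam2 A)))) :
      Submodule (smf (A.prod A)) (Sec ((lam2 A).prod (lam2 A)))) →ₗ[ℂ] Sec (CC A m) :=
    { toFun := fun w => rho A m ⟨w.1, hmem.2 w.2⟩
      map_add' := fun w w' => (rho A m).map_add ⟨w.1, hmem.2 w.2⟩ ⟨w'.1, hmem.2 w'.2⟩
      map_smul' := fun c w => (rho A m).map_smul c ⟨w.1, hmem.2 w.2⟩ }
  refine NA4h476.step_sign (dolP hT).sc i p ((-1) ^ m) (fun x => ?_) (fun x => ?_) ?_ ?_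
    (fun y => ?_) ?_
  · exact (NA4783.rho_nab (⟨x.1, hmem.2 x.2⟩ : Fm (BB A) m)).symm
  · have hsx : (swpL (lam2 A) x.1 : Sec (BB A)) ∈ Fm (BB A) m := by
      have h1 := ((dolL hBB (swLift (lam2 A))).T_mem (J := (dgA A).reg.J ^ m)
        (s_mem_dg A _ hs hc m) x.2)
      have h2 := degW_mem (hmem.2 h1) fun j => (-1) ^ j
      have h3 : degW (BB A) (fun j => (-1) ^ j) (sg (BB A) (swpL (lam2 A) x.1)) =
          swpL (lam2 A) x.1 := sg_sg (BB A) _
      have h4 : degW (BB A) (fun j => (-1) ^ j) (sg (BB A) (swpL (lam2 A) x.1)) ∈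
        Fm (BB A) m := h2
      rwa [h3] at h4
    have e1 := rho_degW (⟨swpL (lam2 A) x.1, hsx⟩ : Fm (BB A) m) fun j => (-1) ^ j
    rw [hsw ⟨x.1, hmem.2 x.2⟩ hsx] at e1
    exact e1.trans (((degW (CC A m) fun j => (-1) ^ j).restrictScalars ℂ).map_smul _ _)
  · exact Submodule.inclusion_injective hle
  · intro s
    obtain ⟨w, hw⟩ := hsur s
    exact ⟨⟨w.1, hmem.1 w.2⟩, hw⟩
  · exact NA4783.rho_succ _ (hmem.2 y.2)
  · intro x hx hy
    obtain ⟨y, hy⟩ := hy
    have hn : nabL (BB A) (x.1 : Sec (BB A)) ∈ Fm (BB A) (m + 1) := by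
      have h1 : (y : Sec ((lam2 A).prod (lam2 A))) = nabL _ x.1 := congrArg Subtype.val hy
      have h2 := hmem.2 y.2
      rw [h1] at h2
      exact h2
    obtain ⟨v, hv1, hv2⟩ := acyc_all hac ⟨x.1, hmem.2 x.2⟩ hx hn
    exact ⟨⟨v.1, hmem.1 v.2⟩, ⟨_, hmem.1 hv2⟩, hv1, Subtype.ext rfl⟩

/-- **(I4)** for all orders, the finiteness from the equivariant index -/
theorem graded_all (P : Part (A.prod A))
    (hBB : ∀ u : Sec ((lam2 A).prod (lam2 A)), nabL _ (nabL _ u) = 0)
    (hT : ∀ m, ∀ u : Sec (CC A m), nabL (CC A m) (nabL (CC A m) u) = 0)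
    (hs : ∀ a, (dolL hBB (swLift (lam2 A))).s a = (dgS A).τ a)
    (hc : (dolL hBB (swLift (lam2 A))).Cond (dgA A).reg.J)
    (Ix : SInd (dolL hBB (swLift (lam2 A))))
    (hac : ∀ (m q : ℕ) (w : Fm (BB A) m), IsDeg (BB A) q w.1.1 → rho A m w = 0 →
      nabL (BB A) w.1 ∈ Fm (BB A) (m + 1) → ∃ v : Fm (BB A) m, rho A m v = 0 ∧
        w.1 - nabL (BB A) v.1 ∈ Fm (BB A) (m + 1))
    (hsur : ∀ m, Function.Surjective (rho A m))
    (hsw : ∀ (m : ℕ) (w : Fm (BB A) m) (hw : (swpL (lam2 A) w.1 : Sec (BB A)) ∈ Fm (BB A) m),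
      rho A m ⟨swpL (lam2 A) w.1, hw⟩ = ((-1 : ℂ) ^ m) • rho A m w) (m : ℕ) :
    FiniteDimensional ℂ (dolP (hT m)).sc.H ∧
      (dcx A (dolL hBB (swLift (lam2 A))) hs hc m).st -
        (dcx A (dolL hBB (swLift (lam2 A))) hs hc (m + 1)).st =
          (-1) ^ m * (dolP (hT m)).sc.st := by
  have := flat_sec P ((lam2 A).prod (lam2 A))
  have h1 := finite_dcx A (dolL hBB (swLift (lam2 A))) Ix hs hc m
  have h2 := finite_dcx A (dolL hBB (swLift (lam2 A))) Ix hs hc (m + 1)
  exact graded_piece P hBB (hT m) hs hc (hac m) (hsur m) (hsw m)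

end glue

end

end Crest.Agent.R275.NA4U476
end

-- ▼ part R275/NA4j_412

/-!
# R275, NA4 (helper412): surjectivity of the restriction to the diagonal

`rho_surj` : for compact `X` every section of `CC A m = Λ^{0,*} ⊗ Sym^m Ω¹` is `rho A m w` for
some `w ∈ Fm (BB A) m`, of the same degree.
-/

set_option autoImplicit false
set_option linter.unusedSectionVars false
set_option linter.unusedSimpArgs false

open Set Filter Topology Complex
open scoped ContDiff Matrix ComplexConjugate Kronecker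
open Crest.Agent.R275.Geo Crest.Agent.R275.Smf798 Crest.Agent.R275.Dg199 Crest.Agent.R275.Prod363
open Crest.Agent.R275.SmR425 Crest.Agent.R275.Lam2130 Crest.Agent.R275.Sym585
open Crest.Agent.R275.SymBun585 Crest.Agent.R275.NA4783

namespace Crest.Agent.R275.NA4j412

noncomputable section

variable {X : Type} [TopologicalSpace X] {A : Atl 2 X} {m : ℕ}

/-- the coefficients of the lift of a section in the chart `i` -/
def cf (s : Sec (CC A m)) (i : A.ι) (c : Fin (m + 1)) (q : X × X) : (BB A).κ → ℂ :=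
  LiftL A (fun k => s.1 i q.1 (k, c))

/-- the lift of a section in the chart `i` -/
def FF (s : Sec (CC A m)) (i : A.ι) (q : X × X) : (BB A).κ → ℂ :=
  ∑ c, mon A m i c q • cf s i c q

theorem smN_sec (s : Sec (CC A m)) {i : A.ι} {p : X} (hp : p ∈ (A.e i).source)
    (k : (CC A m).κ) : SmN A (fun x => s.1 i x k) p :=
  ⟨i, hp, (s.2.1 i k).contDiffAt ((A.e i).open_target.mem_nhds ((A.e i).map_source hp))⟩

theorem smN_cf (s : Sec (CC A m)) {i : A.ι} {q : X × X} (hq : q.1 ∈ (A.e i).source)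
    (c : Fin (m + 1)) : SmN (A.prod A) (cf s i c) q := by
  have h1 : SmN (A.prod A) (fun q : X × X => (fun k : Fin 4 => s.1 i q.1 (k, c))) q := by
    rw [smN_pi]
    intro k
    exact smN_fst (f := fun x => s.1 i x (k, c)) (smN_sec s hq (k, c))
  exact smN_clm (LiftL A) h1

theorem smN_mon {i : A.ι} {q : X × X} (h1 : q.1 ∈ (A.e i).source) (h2 : q.2 ∈ (A.e i).source)
    (c : Fin (m + 1)) : SmN (A.prod A) (mon A m i c) q :=
  ((ud_smN h1 h2 0).pow _).mul ((ud_smN h1 h2 1).pow _)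

theorem smN_FF (s : Sec (CC A m)) {i : A.ι} {q : X × X} (h1 : q.1 ∈ (A.e i).source)
    (h2 : q.2 ∈ (A.e i).source) : SmN (A.prod A) (FF s i) q :=
  SmN.sum (s := Finset.univ) (f := fun c q => mon A m i c q • cf s i c q)
    fun c _ => (smN_mon h1 h2 c).csmul (smN_cf s h1 c)

/-- the piece of the lift with cut-off `ζ` -/
def WW (s : Sec (CC A m)) (i : A.ι) (ζ : X × X → ℂ) : (A.prod A).ι → X × X → (BB A).κ → ℂ :=
  extS (BB A) (dI i) ζ (FF s i)

section piece

variable (s : Sec (CC A m)) {i : A.ι} {ζ : X × X → ℂ}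

theorem WW_mem (hζ : ∀ q, SmN (A.prod A) ζ q)
    (hs : tsupport ζ ⊆ ((A.prod A).e (dI i)).source) : WW s i ζ ∈ Sec (BB A) :=
  extS_mem hζ hs fun _ hq => smN_FF s (hs hq).1 (hs hq).2

theorem WW_rep (hζ : ∀ q, SmN (A.prod A) ζ q) {p : X} (hp : p ∈ (A.e i).source) :
    Rep (A := A) m (WW s i ζ (dI i)) i p (fun c q => ζ q • cf s i c q) := by
  have hs : ((A.prod A).e (dI i)).source ∈ 𝓝 (p, p) :=
    ((A.prod A).e (dI i)).open_source.mem_nhds (diag_mem_dI hp)
  refine ⟨fun c => ?_, ?_⟩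
  · filter_upwards [hs] with q hq
    exact (hζ q).csmul (smN_cf s hq.1 c)
  · filter_upwards [hs] with q hq
    unfold WW
    rw [extS_self hq, FF, Finset.smul_sum]
    exact Finset.sum_congr rfl fun c _ => smul_comm _ _ _

theorem WW_zero {p : X} (hp : (p, p) ∉ tsupport ζ) (j : (A.prod A).ι) :
    ∀ᶠ q in 𝓝 (p, p), WW s i ζ j q = 0 := by
  filter_upwards [(isClosed_tsupport ζ).isOpen_compl.mem_nhds hp] with q hq
  exact extS_zero (image_eq_zero_of_notMem_tsupport hq)

theorem WW_Fm (hζ : ∀ q, SmN (A.prod A) ζ q)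
    (hs : tsupport ζ ⊆ ((A.prod A).e (dI i)).source) :
    (⟨WW s i ζ, WW_mem s hζ hs⟩ : Sec (BB A)) ∈ Fm (BB A) m := by
  intro p
  by_cases hp : p ∈ (A.e i).source
  · exact FAt.of_chart hp (WW_rep s hζ hp).lv
  · obtain ⟨j, hj⟩ := A.cover p
    exact FAt.of_ev_zero hj (WW_zero s (fun h => hp (hs h).1) (dI j))

/-- the piece as an element of `Fm` -/
def WF (hζ : ∀ q, SmN (A.prod A) ζ q)
    (hs : tsupport ζ ⊆ ((A.prod A).e (dI i)).source) : Fm (BB A) m :=
  ⟨⟨WW s i ζ, WW_mem s hζ hs⟩, WW_Fm s hζ hs⟩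

theorem rho_WF (hζ : ∀ q, SmN (A.prod A) ζ q)
    (hs : tsupport ζ ⊆ ((A.prod A).e (dI i)).source) (j : A.ι) (x : X) :
    (rho A m (WF s hζ hs)).1 j x = ζ (x, x) • s.1 j x := by
  by_cases hj : x ∈ (A.e j).source
  · by_cases hi : x ∈ (A.e i).source
    · have h1 : (rho A m (WF s hζ hs)).1 i x = ζ (x, x) • s.1 i x := by
        refine funext fun (k : Fin 4 × Fin (m + 1)) => ?_
        obtain ⟨k, c⟩ := k
        refine (rho_apply (WF s hζ hs) hi (WW_rep s hζ hi) k c).trans ?_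
        rw [map_smul, cf, ResL_LiftL]
        rfl
      rw [Sec.tr (CC A m) (rho A m (WF s hζ hs)).2 ⟨hj, hi⟩, h1, Matrix.mulVec_smul,
        ← Sec.tr (CC A m) s.2 ⟨hj, hi⟩]
    · have hx : (x, x) ∉ tsupport ζ := fun h => hi (hs h).1
      rw [image_eq_zero_of_notMem_tsupport hx, zero_smul]
      have hR : Rep (A := A) m ((WF s hζ hs).1.1 (dI j)) j x (fun _ _ => 0) :=
        Rep.zero.congr (WW_zero s hx (dI j))
      refine funext fun (k : Fin 4 × Fin (m + 1)) => ?_
      obtain ⟨k, c⟩ := k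
      refine (rho_apply (WF s hζ hs) hj hR k c).trans ?_
      rw [map_zero]
      rfl
  · rw [Sec.off (CC A m) (rho A m (WF s hζ hs)).2 hj, Sec.off (CC A m) s.2 hj, smul_zero]

theorem FF_deg {d : ℕ} (hd : IsDeg (CC A m) d s.1) {q : X × X} {k : (BB A).κ}
    (hk : FF s i q k ≠ 0) : (BB A).deg k = d := by
  unfold FF at hk
  rw [Finset.sum_apply] at hk
  obtain ⟨c, -, hc⟩ := Finset.exists_ne_zero_of_sum_ne_zero hk
  have h1 : cf s i c q k ≠ 0 := by
    intro h0
    apply hc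
    rw [Pi.smul_apply, h0, smul_zero]
  exact LiftL_deg (q := d) (fun l hl => hd i q.1 (l, c) hl) h1

theorem WF_deg (hζ : ∀ q, SmN (A.prod A) ζ q)
    (hs : tsupport ζ ⊆ ((A.prod A).e (dI i)).source) {d : ℕ} (hd : IsDeg (CC A m) d s.1) :
    IsDeg (BB A) d (WF s hζ hs).1.1 := by
  intro j x k hk
  have hk' : extS (BB A) (dI i) ζ (FF s i) j x k ≠ 0 := hk
  unfold extS at hk'
  split_ifs at hk' with h
  · have h1 : ((BB A).τ j (dI i) x *ᵥ FF s i x) k ≠ 0 := by
      intro h0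
      apply hk'
      rw [Pi.smul_apply, h0, smul_zero]
    have h2 : ((BB A).τ j (dI i) x *ᵥ FF s i x) k =
      ∑ l, (BB A).τ j (dI i) x k l * FF s i x l := rfl
    rw [h2] at h1
    obtain ⟨l, -, hl⟩ := Finset.exists_ne_zero_of_sum_ne_zero h1
    rw [(BB A).τ_deg j (dI i) x k l (left_ne_zero_of_mul hl)]
    exact FF_deg s hd (right_ne_zero_of_mul hl)
  · exact absurd rfl hk'

end piece

theorem tsupport_ofReal {M : Type} [TopologicalSpace M] (φ : M → ℝ) :
    tsupport (fun x => (φ x : ℂ)) ⊆ tsupport φ := by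
  refine closure_mono fun y hy h0 => hy ?_
  show (φ y : ℂ) = 0
  rw [h0]; rfl

/-- a finite smooth partition of unity of a neighbourhood of the diagonal -/
theorem exists_part_diag [T2Space X] [CompactSpace X] (A : Atl 2 X) :
    ∃ (t : Finset (X × X)) (ix : X × X → A.ι) (ζ : X × X → X × X → ℂ),
      (∀ p ∈ t, ∀ q, SmN (A.prod A) (ζ p) q) ∧
      (∀ p ∈ t, tsupport (ζ p) ⊆ ((A.prod A).e (dI (ix p))).source) ∧
      ∀ x, ∑ p ∈ t, ζ p (x, x) = 1 := by
  classical
  choose ch hch using A.cover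
  let U : X × X → Set (X × X) := fun p =>
    if p.1 = p.2 then ((A.prod A).e (dI (ch p.1))).source else {q | q.1 ≠ q.2}
  have hU : ∀ p, U p ∈ 𝓝 p := by
    intro p
    by_cases h : p.1 = p.2
    · simp only [U, h, if_true]
      refine ((A.prod A).e (dI (ch p.2))).open_source.mem_nhds ?_
      have : p = (p.2, p.2) := Prod.ext h rfl
      rw [this]
      exact diag_mem_dI (hch p.2)
    · simp only [U, h, if_false]
      have : IsOpen {q : X × X | q.1 ≠ q.2} := isClosed_diagonal.isOpen_compl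
      exact this.mem_nhds h
  obtain ⟨t, φ, h1, h2, -, h4⟩ := exists_partition (A.prod A) U hU
  refine ⟨t.filter fun p => p.1 = p.2, fun p => ch p.1, fun p q => (φ p q : ℂ), ?_, ?_, ?_⟩
  · intro p hp q
    exact (h1 p (Finset.mem_filter.1 hp).1 q).ofReal
  · intro p hp
    rw [Finset.mem_filter] at hp
    have h3 := h2 p hp.1
    simp only [U, hp.2, if_true] at h3
    show tsupport (fun q => (φ p q : ℂ)) ⊆ ((A.prod A).e (dI (ch p.1))).source
    rw [hp.2]
    exact (tsupport_ofReal _).trans h3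
  · intro x
    have h5 : ∑ p ∈ t, ((φ p (x, x) : ℝ) : ℂ) = 1 := by
      have := h4 (x, x)
      exact_mod_cast congrArg (fun r : ℝ => (r : ℂ)) this
    rw [← h5, Finset.sum_filter]
    refine Finset.sum_congr rfl fun p hp => ?_
    split_ifs with h
    · rfl
    · have h3 := h2 p hp
      simp only [U, h, if_false] at h3
      have : (x, x) ∉ tsupport (φ p) := fun hx => h3 hx rfl
      rw [image_eq_zero_of_notMem_tsupport this]
      rfl

/-- **surjectivity of the restriction of order `m` to the diagonal** -/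
theorem exists_rho [T2Space X] [CompactSpace X] (s : Sec (CC A m)) :
    ∃ w : Fm (BB A) m, rho A m w = s ∧ ∀ d, IsDeg (CC A m) d s.1 → IsDeg (BB A) d w.1.1 := by
  classical
  obtain ⟨t, ix, ζ, h1, h2, h3⟩ := exists_part_diag A
  refine ⟨∑ p ∈ t.attach, WF s (h1 p.1 p.2) (h2 p.1 p.2), ?_, fun d hd => ?_⟩
  · rw [map_sum]
    refine sec_ext fun j x => ?_
    have e1 : (∑ p ∈ t.attach, rho A m (WF s (h1 p.1 p.2) (h2 p.1 p.2))).1 j x =
        ∑ p ∈ t.attach, (rho A m (WF s (h1 p.1 p.2) (h2 p.1 p.2))).1 j x := by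
      rw [AddSubmonoidClass.coe_finsetSum, Finset.sum_apply, Finset.sum_apply]
    rw [e1, Finset.sum_congr rfl fun p _ => rho_WF s (h1 p.1 p.2) (h2 p.1 p.2) j x,
      Finset.sum_attach t fun p => ζ p (x, x) • s.1 j x, ← Finset.sum_smul, h3, one_smul]
  · intro j x k hk
    have e1 : (∑ p ∈ t.attach, WF s (h1 p.1 p.2) (h2 p.1 p.2)).1.1 j x k =
        ∑ p ∈ t.attach, (WF s (h1 p.1 p.2) (h2 p.1 p.2)).1.1 j x k := by
      rw [AddSubmonoidClass.coe_finsetSum, AddSubmonoidClass.coe_finsetSum, Finset.sum_apply,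
        Finset.sum_apply, Finset.sum_apply]
    rw [e1] at hk
    obtain ⟨p, -, hp⟩ := Finset.exists_ne_zero_of_sum_ne_zero hk
    exact WF_deg s (h1 p.1 p.2) (h2 p.1 p.2) hd j x k hp

theorem rho_surj [T2Space X] [CompactSpace X] : Function.Surjective (rho A m) := fun s => by
  obtain ⟨w, hw, -⟩ := exists_rho s
  exact ⟨w, hw⟩

end

end Crest.Agent.R275.NA4j412
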