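import Crest.Agent.R275.NA4h_783
import Crest.Agent.R275.ProdC_363
import Crest.Agent.R275.Con_425

-- ▼ part R275/NA4i_783
section

/-!
# R275, NA4 (helper783), part i: acyclicity of `ker (rho m) / Fm (m + 1)`, local part

* `Kop_proj`, `Kop_G` : the homotopy and projections of the fibre;
* `rho_rep` : `Rho` from a representation;
* `Ps s` : projection on the components with less than `s` base covectors, `GAt`;
* `loc_acyc` : the local statement.
-/

set_option autoImplicit false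
set_option linter.unusedSectionVars false
set_option linter.unusedSimpArgs false

open Set Filter Topology Complex MeasureTheory
open scoped ContDiff Matrix ComplexConjugate Kronecker
open Crest.Agent.R275.Geo Crest.Agent.R275.Smf798 Crest.Agent.R275.Dg199 Crest.Agent.R275.Prod363
open Crest.Agent.R275.SmR425 Crest.Agent.R275.Lam2130 Crest.Agent.R275.Sym585
open Crest.Agent.R275.SymBun585

namespace Crest.Agent.R275.NA4783

noncomputable section

section abs

variable {Z V V' : Type} [NormedAddCommGroup Z] [NormedSpace ℂ Z] [NormedAddCommGroup V]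
  [NormedSpace ℂ V] [NormedAddCommGroup V'] [NormedSpace ℂ V'] {r d : ℕ}
  [CompleteSpace V] [CompleteSpace V'] {D : Vert r d Z} {F : Fib r d V}

/-- the homotopy of a function whose contractions are killed by `P` is killed by `P` -/
theorem Kop_proj (P : V →L[ℂ] V') {O : Set Z} (hst : D.Star O) {m : ℕ} {f : Z → V}
    (hf : JP D O m f) {k : ℤ} (hk : k ≤ m)
    (hP : ∀ s j x, x ∈ O → P (F.S s (F.io j (f x))) = 0) {p : Z} (hp : p ∈ O) :
    P (Kop D F k f p) = 0 := by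
  unfold Kop
  rw [map_sum]
  refine Finset.sum_eq_zero fun j _ => ?_
  rw [map_smul]
  have h1 : P (Iop D F.S k (fun x => F.io j (f x)) p) = 0 := by
    have hint : IntInt D F.S k (fun x => F.io j (f x)) p :=
      intInt_JP F.S_smooth hst (hf.const_clm (F.io j)) hk hp
    unfold Iop
    rw [← ContinuousLinearMap.intervalIntegral_comp_comm P hint]
    have h2 : ∫ s in (0 : ℝ)..1, P ((s ^ (-k) : ℝ) • F.S s (F.io j (f (D.ms s p)))) =
        ∫ s in (0 : ℝ)..1, (0 : V') := by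
      refine intervalIntegral.integral_congr fun s hs => ?_
      rw [uIcc_of_le zero_le_one] at hs
      have h3 : P ((s ^ (-k) : ℝ) • F.S s (F.io j (f (D.ms s p)))) =
          (s ^ (-k) : ℝ) • P (F.S s (F.io j (f (D.ms s p)))) :=
        (P.restrictScalars ℝ).map_smul _ _
      show P ((s ^ (-k) : ℝ) • F.S s (F.io j (f (D.ms s p)))) = 0
      rw [h3, hP s j _ (hst p hp s hs), smul_zero]
    rw [h2]
    simp
  rw [h1, smul_zero]

theorem Kop_add {O : Set Z} (hst : D.Star O) {m : ℕ} {f g : Z → V}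
    (hf : JP D O m f) (hg : JP D O m g) {k : ℤ} (hk : k ≤ m) {p : Z} (hp : p ∈ O) :
    Kop D F k (fun x => f x + g x) p = Kop D F k f p + Kop D F k g p := by
  unfold Kop
  rw [← Finset.sum_add_distrib]
  refine Finset.sum_congr rfl fun j _ => ?_
  rw [← smul_add, ← Iop_add (intInt_JP F.S_smooth hst (hf.const_clm (F.io j)) hk hp)
    (intInt_JP F.S_smooth hst (hg.const_clm (F.io j)) hk hp)]
  simp only [map_add]

/-- the homotopy preserves subspaces of the fibre, modulo higher order -/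
theorem Kop_G (P : V →L[ℂ] V) (hPP : ∀ v, P (P v) = P v)
    (hP : ∀ s j v, P v = 0 → P (F.S s (F.io j v)) = 0) {O : Set Z} (hO : IsOpen O)
    (hst : D.Star O) {m : ℕ} {f : Z → V} (hf : JP D O m f)
    (hPf : JP D O (m + 1) (fun x => P (f x))) :
    JP D O (m + 1) (fun x => P (Kop D F m f x)) := by
  have h1 : JP D O (m + 1) (fun x => P (Kop D F m (fun x => P (f x)) x)) :=
    (Kop_JP hO hst hPf (by push_cast; omega)).const_clm P
  refine h1.congr fun x hx => ?_
  have h2 : Kop D F m f x = Kop D F m (fun x => P (f x)) x +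
      Kop D F m (fun x => f x - P (f x)) x := by
    rw [← Kop_add hst hPf.pred (hf.sub hPf.pred) le_rfl hx]
    exact Kop_congr hst (fun y _ => by abel) hx _
  have h3 : P (Kop D F m (fun x => f x - P (f x)) x) = 0 :=
    Kop_proj P hst (hf.sub hPf.pred) le_rfl
      (fun s j y _ => hP s j _ (by rw [map_sub, hPP, sub_self])) hx
  rw [h2, map_add, h3, add_zero]

end abs

section rhorep

variable {Z V : Type} [NormedAddCommGroup Z] [NormedSpace ℂ Z] [NormedAddCommGroup V]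
  [NormedSpace ℂ V] {d : ℕ} [CompleteSpace V] {D : Vert 2 d Z} {F : Fib 2 d V}

/-- `Rho` from a representation -/
theorem rho_rep {O : Set Z} (hO : IsOpen O) (hst : D.Star O) {m : ℕ}
    {g : Fin (m + 1) → Z → V} (hg : ∀ c, ContDiffOn ℝ ∞ (g c) O) {f : Z → V}
    (hf : ∀ z ∈ O, f z = ∑ c : Fin (m + 1), ((D.u 0 z) ^ (m - c : ℕ) * (D.u 1 z) ^ (c : ℕ)) • g c z)
    {z : Z} (hz : z ∈ O) :
    Rho D F m f z = ∑ c : Fin (m + 1), ((D.u 0 z) ^ (m - c : ℕ) * (D.u 1 z) ^ (c : ℕ)) •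
      F.S 0 (g c (D.ms 0 z)) := by
  refine rho_eq ?_
  have h1 : ∀ c, Tendsto (fun s : ℝ => F.S s (g c (D.ms s z))) (𝓝[>] (0 : ℝ))
      (𝓝 (F.S 0 (g c (D.ms 0 z)))) := by
    intro c
    have h := tendsto_zero_order (F := F) hst hO (hg c) hz
    simpa using h
  have h2 : Tendsto (fun s : ℝ => ∑ c : Fin (m + 1),
      ((D.u 0 z) ^ (m - c : ℕ) * (D.u 1 z) ^ (c : ℕ)) • F.S s (g c (D.ms s z))) (𝓝[>] (0 : ℝ))
      (𝓝 (∑ c : Fin (m + 1), ((D.u 0 z) ^ (m - c : ℕ) * (D.u 1 z) ^ (c : ℕ)) •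
        F.S 0 (g c (D.ms 0 z)))) :=
    tendsto_finsetSum _ fun c _ => (h1 c).const_smul _
  refine h2.congr' ?_
  filter_upwards [ev_mem] with s hs
  rw [hf _ (hst z hz s (Ioc_subset_Icc_self hs)), map_sum, Finset.smul_sum]
  refine Finset.sum_congr rfl fun c _ => ?_
  rw [map_smul, D.u_ms, D.u_ms]
  have h3 : ((s : ℂ) * D.u 0 z) ^ (m - c : ℕ) * ((s : ℂ) * D.u 1 z) ^ (c : ℕ) =
      (s : ℂ) ^ m * ((D.u 0 z) ^ (m - c : ℕ) * (D.u 1 z) ^ (c : ℕ)) := by
    have h4 : (s : ℂ) ^ m = (s : ℂ) ^ (m - c : ℕ) * (s : ℂ) ^ (c : ℕ) := by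
      rw [← pow_add, Nat.sub_add_cancel (Nat.lt_succ_iff.1 c.2)]
    rw [mul_pow, mul_pow, h4]
    ring
  rw [h3, mul_smul ((s : ℂ) ^ m)]
  have h5 : ∀ v : V, (s ^ (-(m : ℤ)) : ℝ) • ((s : ℂ) ^ m • v) = v := by
    intro v
    have h6 : ((s : ℂ) ^ m • v) = (s ^ m : ℝ) • v := by
      rw [← Complex.ofReal_pow]
      rfl
    rw [h6, smul_smul, zpow_neg, zpow_natCast, inv_mul_cancel₀ (pow_ne_zero _ hs.1.ne'), one_smul]
  rw [h5]

end rhorep

variable {X : Type} [TopologicalSpace X] {A : Atl 2 X}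

/-! ### the filtration by the number of base covectors -/

section base

variable (A) in
/-- projection on the components with less than `s` base covectors -/
def Ps (s : ℕ) : ((BB A).κ → ℂ) →L[ℂ] ((BB A).κ → ℂ) :=
  mvL (κ := Fin 4 × Fin 4) (κ' := Fin 4 × Fin 4)
    (Matrix.diagonal fun p : Fin 4 × Fin 4 => if dg p.1 < s then 1 else 0)

theorem Ps_apply (s : ℕ) (v : (BB A).κ → ℂ) (p : Fin 4 × Fin 4) :
    Ps A s v p = if dg p.1 < s then v p else 0 := by
  have h : Ps A s v p = ((Matrix.diagonal fun p : Fin 4 × Fin 4 => if dg p.1 < s then (1 : ℂ)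
    else 0) *ᵥ v) p := rfl
  rw [h, Matrix.mulVec_diagonal]
  split_ifs
  · rw [one_mul]
  · rw [zero_mul]

theorem Ps_Ps (s : ℕ) (v : (BB A).κ → ℂ) : Ps A s (Ps A s v) = Ps A s v := by
  refine funext fun (p : Fin 4 × Fin 4) => ?_
  rw [Ps_apply, Ps_apply]
  split_ifs <;> rfl

theorem Ps_eq_zero {s : ℕ} {v : (BB A).κ → ℂ} :
    Ps A s v = 0 ↔ ∀ p : Fin 4 × Fin 4, dg p.1 < s → v p = 0 := by
  constructor
  · intro h p hp
    have := congrFun h p
    rw [Ps_apply, if_pos hp] at this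
    exact this
  · intro h
    refine funext fun (p : Fin 4 × Fin 4) => ?_
    rw [Ps_apply]
    split_ifs with hp
    · exact h p hp
    · rfl

theorem dg_le (k : Fin 4) : dg k ≤ 2 := by
  fin_cases k <;> simp [dg]

theorem Ps_three (v : (BB A).κ → ℂ) : Ps A 3 v = v := by
  refine funext fun (p : Fin 4 × Fin 4) => ?_
  rw [Ps_apply, if_pos (by have := dg_le p.1; omega)]

theorem Ps_zero (v : (BB A).κ → ℂ) : Ps A 0 v = 0 := by
  refine funext fun (p : Fin 4 × Fin 4) => ?_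
  rw [Ps_apply, if_neg (by omega)]
  rfl

theorem tauM_deg (m : Matrix (Fin 2) (Fin 2) ℂ) (k l : Fin 4) (h : tauM m k l ≠ 0) :
    dg k = dg l := by
  fin_cases k <;> fin_cases l <;> simp_all [tauM, dg]

theorem aux_e_cast {s : ℕ} {v : Fin 4 × Fin 4 → ℂ} (h : ∀ p : Fin 4 × Fin 4, dg p.1 < s → v p = 0)
    (a : Fin 2) (p : Fin 4 × Fin 4) (hp : dg p.1 < s + 1) :
    ((eM a ⊗ₖ (1 : Matrix (Fin 4) (Fin 4) ℂ)) *ᵥ v) p = 0 := by
  obtain ⟨k, l⟩ := p
  have h1 : (eM a *ᵥ fun k' => v (k', l)) k = ∑ k', eM a k k' * v (k', l) := rfl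
  rw [kron_one_mulVec, h1]
  refine Finset.sum_eq_zero fun k' _ => ?_
  by_cases h0 : eM a k k' = 0
  · rw [h0, zero_mul]
  · have h1 := eM_deg a k k' h0
    have hp' : dg k < s + 1 := hp
    rw [h (k', l) (by show dg k' < s; omega), mul_zero]

theorem aux_sg {s : ℕ} {v : Fin 4 × Fin 4 → ℂ} (h : ∀ p : Fin 4 × Fin 4, dg p.1 < s → v p = 0)
    (T : Matrix (Fin 4) (Fin 4) ℂ) (p : Fin 4 × Fin 4) (hp : dg p.1 < s) :
    ((sg dg ⊗ₖ T) *ᵥ v) p = 0 := by
  obtain ⟨k, l⟩ := p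
  rw [sg_kron_mulVec]
  have h1 : (fun l' => v (k, l')) = 0 := funext fun l' => h (k, l') hp
  rw [h1, Matrix.mulVec_zero, Pi.zero_apply, mul_zero]

theorem aux_tau {s : ℕ} {v : Fin 4 × Fin 4 → ℂ} (h : ∀ p : Fin 4 × Fin 4, dg p.1 < s → v p = 0)
    (m m' : Matrix (Fin 2) (Fin 2) ℂ) (p : Fin 4 × Fin 4) (hp : dg p.1 < s) :
    ((tauM m ⊗ₖ tauM m') *ᵥ v) p = 0 := by
  obtain ⟨k, l⟩ := p
  rw [kron_mulVec]
  refine Finset.sum_eq_zero fun k' _ => Finset.sum_eq_zero fun l' _ => ?_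
  by_cases h0 : tauM m k k' = 0
  · rw [h0, zero_mul, zero_mul]
  · have h1 := tauM_deg _ k k' h0
    have hp' : dg k < s := hp
    rw [h (k', l') (by show dg k' < s; omega), mul_zero]

theorem Ps_e_cast {s : ℕ} {v : (BB A).κ → ℂ} (h : Ps A s v = 0) (a : Fin 2) :
    Ps A (s + 1) ((BB A).e (Fin.castAdd 2 a) *ᵥ v) = 0 := by
  rw [Ps_eq_zero] at h ⊢
  intro p hp
  rw [BB_e_cast]
  exact aux_e_cast h a p hp

theorem Ps_mono {s s' : ℕ} (hs : s ≤ s') {v : (BB A).κ → ℂ} (h : Ps A s' v = 0) :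
    Ps A s v = 0 := by
  rw [Ps_eq_zero] at h ⊢
  exact fun p hp => h p (lt_of_lt_of_le hp hs)

theorem Ps_sg_kron {s : ℕ} {v : (BB A).κ → ℂ} (h : Ps A s v = 0)
    (T : Matrix (Fin 4) (Fin 4) ℂ) :
    Ps A s ((sg dg ⊗ₖ T : Matrix (Fin 4 × Fin 4) (Fin 4 × Fin 4) ℂ) *ᵥ v) = 0 := by
  rw [Ps_eq_zero] at h ⊢
  exact fun p hp => aux_sg h T p hp

theorem Ps_car_e {s : ℕ} {v : (BB A).κ → ℂ} (h : Ps A s v = 0) (j : Fin 2) :
    Ps A s ((carD (BB A)).e j v) = 0 := by
  have h1 : (carD (BB A)).e j v = (BB A).e (Fin.castAdd 2 j) *ᵥ v -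
      (BB A).e (Fin.natAdd 2 j) *ᵥ v := by
    show ((BB A).e (Fin.castAdd 2 j) - (BB A).e (Fin.natAdd 2 j)) *ᵥ v = _
    exact Matrix.sub_mulVec _ _ _
  rw [h1, map_sub, Ps_mono (Nat.le_succ s) (Ps_e_cast h j), zero_sub, neg_eq_zero]
  rw [BB_e_nat]
  exact Ps_sg_kron h _

theorem Ps_car_io {s : ℕ} {v : (BB A).κ → ℂ} (h : Ps A s v = 0) (j : Fin 2) :
    Ps A s ((carD (BB A)).io j v) = 0 := by
  have h1 : (carD (BB A)).io j v = - ((BB A).io (Fin.natAdd 2 j) *ᵥ v) := by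
    show (-(BB A).io (Fin.natAdd 2 j)) *ᵥ v = _
    exact Matrix.neg_mulVec _ _
  rw [h1, map_neg, neg_eq_zero, BB_io_nat]
  exact Ps_sg_kron h _

theorem Ps_car_T {s : ℕ} {v : (BB A).κ → ℂ} (h : Ps A s v = 0) (j : Fin 2) (t : ℝ) :
    Ps A s ((carD (BB A)).T j t v) = 0 := by
  have h1 : (carD (BB A)).T j t v = v + ((t - 1 : ℝ) : ℂ) •
    ((carD (BB A)).e j ((carD (BB A)).io j v)) := rfl
  rw [h1, map_add, h, zero_add, map_smul, Ps_car_e (Ps_car_io h j) j, smul_zero]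

theorem Ps_car_S {s : ℕ} {v : (BB A).κ → ℂ} (h : Ps A s v = 0) (t : ℝ) :
    Ps A s ((carD (BB A)).toFib.S t v) = 0 := by
  have h1 : (carD (BB A)).toFib.S t v = (carD (BB A)).T 0 t ((carD (BB A)).T 1 t v) := rfl
  rw [h1]
  exact Ps_car_T (Ps_car_T h 1 t) 0 t

theorem Ps_tau {s : ℕ} {v : (BB A).κ → ℂ} (h : Ps A s v = 0) (i j : (A.prod A).ι) (q : X × X) :
    Ps A s ((BB A).τ i j q *ᵥ v) = 0 := by
  rw [Ps_eq_zero] at h ⊢
  intro p hp
  rw [BB_tau]
  exact aux_tau h _ _ p hp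

/-- components with less than `s` base covectors vanish to order `m` -/
def GAt (m s : ℕ) (w : Sec (BB A)) (p : X) : Prop :=
  ∀ i : A.ι, p ∈ (A.e i).source →
    LV (A.prod A) (Dg199.mono m (ud A i)) (fun q => Ps A s (w.1 (dI i) q)) (p, p)

theorem LV.clm {κ κ' : Type} [Fintype κ] [Fintype κ'] {n : ℕ} {M : Type} [TopologicalSpace M]
    {A : Atl n M} {ι : Type} [Fintype ι] {v : ι → M → ℂ} {F : M → κ → ℂ} {q : M}
    (T : (κ → ℂ) →L[ℂ] (κ' → ℂ)) (h : LV A v F q) : LV A v (fun x => T (F x)) q := by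
  obtain ⟨c, h1, h2⟩ := h
  refine ⟨fun a x => T (c a x), fun a => ?_, ?_⟩
  · filter_upwards [h1 a] with x hx using smN_clm T hx
  · filter_upwards [h2] with x hx
    rw [hx, map_sum]
    simp only [map_smul]

theorem GAt.of_chart {m s : ℕ} {w : Sec (BB A)} {p : X} {j : A.ι} (hj : p ∈ (A.e j).source)
    (h : LV (A.prod A) (Dg199.mono m (ud A j)) (fun q => Ps A s (w.1 (dI j) q)) (p, p)) :
    GAt m s w p := by
  intro i hi
  have h1 := h.mono_change fun b => ud_lspan hi hj b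
  have h2 := (h1.mulVec (T := fun q => (BB A).τ (dI i) (dI j) q)
    fun k l => tau_smN hi hj k l).clm (Ps A s)
  refine h2.congr ?_
  have h3 : ((A.prod A).e (dI i)).source ∩ ((A.prod A).e (dI j)).source ∈ 𝓝 (p, p) :=
    (((A.prod A).e (dI i)).open_source.inter ((A.prod A).e (dI j)).open_source).mem_nhds
      ⟨diag_mem_dI hi, diag_mem_dI hj⟩
  filter_upwards [h3] with q hq
  rw [Sec.tr (BB A) w.2 hq]
  have h4 : Ps A s ((BB A).τ (dI i) (dI j) q *ᵥ (w.1 (dI j) q - Ps A s (w.1 (dI j) q))) = 0 :=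
    Ps_tau (by rw [map_sub, Ps_Ps, sub_self]) _ _ _
  rw [Matrix.mulVec_sub, map_sub, sub_eq_zero] at h4
  exact h4

theorem GAt.of_FAt {m s : ℕ} {w : Sec (BB A)} {p : X} (h : FAt m w p) : GAt m s w p :=
  fun _ hi => (h.lv hi).clm (Ps A s)

theorem GAt.toFAt {m : ℕ} {w : Sec (BB A)} {p : X} (h : GAt m 3 w p) : FAt m w p := by
  obtain ⟨i, hi⟩ := A.cover p
  refine FAt.of_chart hi ((h i hi).congr ?_)
  exact Eventually.of_forall fun q => (Ps_three _).symm

theorem GAt.zero (m : ℕ) (w : Sec (BB A)) (p : X) : GAt m 0 w p := fun _ _ =>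
  LV.of_ev_zero (Eventually.of_forall fun _ => Ps_zero _)

theorem GAt.add {m s : ℕ} {w w' : Sec (BB A)} {p : X} (h : GAt m s w p) (h' : GAt m s w' p) :
    GAt m s (w + w') p := by
  intro i hi
  refine ((h i hi).add (h' i hi)).congr (Eventually.of_forall fun q => ?_)
  show Ps A s (w.1 (dI i) q + w'.1 (dI i) q) = _
  rw [map_add]

theorem GAt.neg {m s : ℕ} {w : Sec (BB A)} {p : X} (h : GAt m s w p) :
    GAt m s (-w) p := by
  intro i hi
  refine (h i hi).neg.congr (Eventually.of_forall fun q => ?_)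
  show Ps A s (-(w.1 (dI i) q)) = _
  rw [map_neg]

theorem GAt.sub {m s : ℕ} {w w' : Sec (BB A)} {p : X} (h : GAt m s w p) (h' : GAt m s w' p) :
    GAt m s (w - w') p := by
  rw [sub_eq_add_neg]
  exact h.add h'.neg

theorem GAt.sum {m s : ℕ} {τ : Type} {t : Finset τ} {w : τ → Sec (BB A)} {p : X}
    (h : ∀ a ∈ t, GAt m s (w a) p) : GAt m s (∑ a ∈ t, w a) p := by
  classical
  induction t using Finset.induction_on with
  | empty =>
    rw [Finset.sum_empty]
    exact GAt.of_FAt (FAt.zero m p)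
  | insert a t ha ih =>
    rw [Finset.sum_insert ha]
    exact (h a (Finset.mem_insert_self a t)).add
      (ih fun b hb => h b (Finset.mem_insert_of_mem hb))

end base

end

end Crest.Agent.R275.NA4783
end

-- ▼ part R275/NA4j_783
section

/-!
# R275, NA4 (helper783), part j: acyclicity of `ker (rho m) / Fm (m + 1)`, local statement
-/

set_option autoImplicit false
set_option linter.unusedSectionVars false
set_option linter.unusedSimpArgs false

open Set Filter Topology Complex MeasureTheory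
open scoped ContDiff Matrix ComplexConjugate Kronecker
open Crest.Agent.R275.Geo Crest.Agent.R275.Smf798 Crest.Agent.R275.Dg199 Crest.Agent.R275.Prod363
open Crest.Agent.R275.SmR425 Crest.Agent.R275.Lam2130 Crest.Agent.R275.Sym585
open Crest.Agent.R275.SymBun585

namespace Crest.Agent.R275.NA4783

noncomputable section

variable {X : Type} [TopologicalSpace X] {A : Atl 2 X}

/-! ### degrees in the fibre -/

section deg

variable {κ : Type} [Fintype κ] [DecidableEq κ] (dg' : κ → ℕ)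

/-- homogeneous of degree `n` -/
def Hd (n : ℤ) (v : κ → ℂ) : Prop := ∀ k, v k ≠ 0 → (dg' k : ℤ) = n

/-- projection on the other degrees -/
def Pd (n : ℤ) : (κ → ℂ) →L[ℂ] (κ → ℂ) :=
  mvL (Matrix.diagonal fun k => if (dg' k : ℤ) = n then 0 else 1)

variable {dg'}

theorem Pd_eq_zero {n : ℤ} {v : κ → ℂ} : Pd dg' n v = 0 ↔ Hd dg' n v := by
  have h : ∀ k, Pd dg' n v k = (if (dg' k : ℤ) = n then (0 : ℂ) else 1) * v k := fun k =>
    Matrix.mulVec_diagonal _ _ _
  constructor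
  · intro h0 k hk
    by_contra hne
    have := congrFun h0 k
    rw [h, if_neg hne, one_mul] at this
    exact hk this
  · intro h0
    funext k
    rw [h]
    split_ifs with h1
    · rw [zero_mul]; rfl
    · rw [one_mul]
      by_contra hne
      exact h1 (h0 k hne)

theorem Hd.add {n : ℤ} {v w : κ → ℂ} (h : Hd dg' n v) (h' : Hd dg' n w) : Hd dg' n (v + w) := by
  intro k hk
  by_cases h0 : v k = 0
  · rw [Pi.add_apply, h0, zero_add] at hk
    exact h' k hk
  · exact h k h0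

theorem Hd.smul {n : ℤ} {v : κ → ℂ} (h : Hd dg' n v) (c : ℂ) : Hd dg' n (c • v) := fun k hk =>
  h k (right_ne_zero_of_mul hk)

theorem Hd.neg {n : ℤ} {v : κ → ℂ} (h : Hd dg' n v) : Hd dg' n (-v) := fun k hk =>
  h k (neg_ne_zero.1 hk)

theorem Hd.mulVec {n d : ℤ} {v : κ → ℂ} (h : Hd dg' n v) {T : Matrix κ κ ℂ}
    (hT : ∀ k l, T k l ≠ 0 → (dg' k : ℤ) = dg' l + d) : Hd dg' (n + d) (T *ᵥ v) := by
  intro k hk
  obtain ⟨l, -, hl⟩ := Finset.exists_ne_zero_of_sum_ne_zero hk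
  rw [hT k l (left_ne_zero_of_mul hl), h l (right_ne_zero_of_mul hl)]

end deg

section car

variable (B : FBun (A.prod A))

theorem Hd_e {n : ℤ} {v : B.κ → ℂ} (h : Hd B.deg n v) (a : Fin (2 + 2)) :
    Hd B.deg (n + 1) (B.e a *ᵥ v) :=
  h.mulVec fun k l hkl => by rw [B.e_deg a k l hkl]; push_cast; ring

theorem Hd_io {n : ℤ} {v : B.κ → ℂ} (h : Hd B.deg n v) (a : Fin (2 + 2)) :
    Hd B.deg (n - 1) (B.io a *ᵥ v) := by
  rw [sub_eq_add_neg]
  exact h.mulVec fun k l hkl => by rw [B.io_deg a k l hkl]; push_cast; ring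

theorem Hd_car_e {n : ℤ} {v : B.κ → ℂ} (h : Hd B.deg n v) (j : Fin 2) :
    Hd B.deg (n + 1) ((carD B).e j v) := by
  have h1 : (carD B).e j v = B.e (Fin.castAdd 2 j) *ᵥ v + -(B.e (Fin.natAdd 2 j) *ᵥ v) := by
    show (B.e (Fin.castAdd 2 j) - B.e (Fin.natAdd 2 j)) *ᵥ v = _
    rw [Matrix.sub_mulVec, sub_eq_add_neg]
  rw [h1]
  exact (Hd_e B h _).add (Hd_e B h _).neg

theorem Hd_car_io {n : ℤ} {v : B.κ → ℂ} (h : Hd B.deg n v) (j : Fin 2) :
    Hd B.deg (n - 1) ((carD B).io j v) := by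
  have h1 : (carD B).io j v = - (B.io (Fin.natAdd 2 j) *ᵥ v) := by
    show (-B.io (Fin.natAdd 2 j)) *ᵥ v = _
    exact Matrix.neg_mulVec _ _
  rw [h1]
  exact (Hd_io B h _).neg

theorem Hd_car_T {n : ℤ} {v : B.κ → ℂ} (h : Hd B.deg n v) (j : Fin 2) (t : ℝ) :
    Hd B.deg n ((carD B).T j t v) := by
  have h1 : (carD B).T j t v = v + ((t - 1 : ℝ) : ℂ) • ((carD B).e j ((carD B).io j v)) := rfl
  rw [h1]
  have h2 := Hd_car_e B (Hd_car_io B h j) j
  rw [sub_add_cancel] at h2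
  exact h.add (h2.smul _)

theorem Hd_car_S {n : ℤ} {v : B.κ → ℂ} (h : Hd B.deg n v) (t : ℝ) :
    Hd B.deg n ((carD B).toFib.S t v) := by
  have h1 : (carD B).toFib.S t v = (carD B).T 0 t ((carD B).T 1 t v) := rfl
  rw [h1]
  exact Hd_car_T B (Hd_car_T B h 1 t) 0 t

/-- the homotopy lowers the degree -/
theorem Kop_deg {O : Set (Cn (2 + 2))} (hst : VD.Star O) {m : ℕ} {f : Cn (2 + 2) → B.κ → ℂ}
    (hf : JP VD O m f) {n : ℤ} (hn : ∀ z ∈ O, Hd B.deg n (f z)) {z : Cn (2 + 2)} (hz : z ∈ O) :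
    Hd B.deg (n - 1) (Kop VD (carD B).toFib m f z) := by
  rw [← Pd_eq_zero]
  refine Kop_proj (F := (carD B).toFib) (Pd B.deg (n - 1)) hst hf le_rfl (fun s j x hx => ?_) hz
  rw [Pd_eq_zero]
  exact Hd_car_S B (Hd_car_io B (hn x hx) j) s

end car

theorem smN_comp_chart {n : ℕ} {M : Type} [TopologicalSpace M] {A : Atl n M} {W : Type}
    [NormedAddCommGroup W] [NormedSpace ℝ W] {i : A.ι} {q : M} (hq : q ∈ (A.e i).source)
    {O : Set (Cn n)} (hO : IsOpen O) (hqO : A.e i q ∈ O) {G : Cn n → W}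
    (hG : ContDiffOn ℝ ∞ G O) : SmN A (fun x => G (A.e i x)) q := by
  refine ⟨i, hq, ?_⟩
  refine (hG.contDiffAt (hO.mem_nhds hqO)).congr_of_eventuallyEq ?_
  filter_upwards [(A.e i).open_target.mem_nhds ((A.e i).map_source hq)] with z hz
  rw [(A.e i).right_inv hz]

/-- the leading coefficients of the homotopy vanish -/
theorem Kop_lead {i : A.ι} {x : X} (hx : x ∈ (A.e i).source) {m : ℕ}
    {O : Set (Cn (2 + 2))} (hO : IsOpen O) (hst : VD.Star O) (hxO : app (A.e i x) (A.e i x) ∈ O)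
    {f : Cn (2 + 2) → (BB A).κ → ℂ} (hf : JP VD O m f)
    {G : Fin (m + 1) → X × X → (BB A).κ → ℂ}
    (hG : Rep (A := A) m (fun q => Kop VD (carD (BB A)).toFib m f ((A.prod A).e (dI i) q)) i x G)
    (c : Fin (m + 1)) : ResL A (G c (x, x)) = 0 := by
  set K := Kop VD (carD (BB A)).toFib m f with hK
  have h1 : ∀ᶠ q in 𝓝 (x, x), ∑ c, mon A m i c q • LiftL A (ResL A (G c (q.1, q.1))) = 0 := by
    -- a box on which the representation holds
    have e1 : ∀ᶠ z in 𝓝 (app (A.e i x) (A.e i x)), (∀ c, z ∈ ((A.prod A).e (dI i)).target ∧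
        ContDiffAt ℝ ∞ (fun z => G c (((A.prod A).e (dI i)).symm z)) z) ∧
        K ((A.prod A).e (dI i) (((A.prod A).e (dI i)).symm z)) =
          ∑ c, mon A m i c (((A.prod A).e (dI i)).symm z) • G c (((A.prod A).e (dI i)).symm z) ∧
        z ∈ O := by
      have h2 := eventually_all.2 fun c => ev_smN_chart (A := A.prod A) (i := dI i) (q := (x, x))
        (diag_mem_dI hx) (hG.1 c)
      have h3 := ev_symm (A := A.prod A) (i := dI i) (p := (x, x)) (diag_mem_dI hx) hG.2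
      have h4 : ∀ᶠ z in 𝓝 ((A.prod A).e (dI i) (x, x)), z ∈ O := hO.mem_nhds hxO
      filter_upwards [h2, h3, h4] with z a b c using ⟨a, b, c⟩
    obtain ⟨r, hr, hbox⟩ := exists_bx e1
    have hrep : ∀ z ∈ bx (A.e i x) r, K z = ∑ c : Fin (m + 1),
        ((VD.u 0 z) ^ (m - c : ℕ) * (VD.u 1 z) ^ (c : ℕ)) •
          G c (((A.prod A).e (dI i)).symm z) := by
      intro z hz
      obtain ⟨a, b, -⟩ := hbox z hz
      rw [((A.prod A).e (dI i)).right_inv (a 0).1] at b
      rw [b]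
      exact Finset.sum_congr rfl fun c _ => by rw [mon_symm c (a 0).1]
    have hsm : ∀ c, ContDiffOn ℝ ∞ (fun z => G c (((A.prod A).e (dI i)).symm z))
        (bx (A.e i x) r) := fun c z hz => ((hbox z hz).1 c).2.contDiffWithinAt
    have e2 : ∀ᶠ q in 𝓝 (x, x), (A.prod A).e (dI i) q ∈ bx (A.e i x) r :=
      ev_chart (A := A.prod A) (i := dI i) (p := (x, x)) (diag_mem_dI hx)
        ((isOpen_bx _ _).mem_nhds (diag_mem_bx _ hr))
    have e3 : ∀ᶠ q in 𝓝 (x, x), q ∈ ((A.prod A).e (dI i)).source :=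
      ((A.prod A).e (dI i)).open_source.mem_nhds (diag_mem_dI hx)
    filter_upwards [e2, e3] with q hq hqs
    have h5 := rho_rep (F := (carD (BB A)).toFib) (isOpen_bx _ _) (star_bx _ _) hsm hrep hq
    have h6 : Rho VD (carD (BB A)).toFib m K ((A.prod A).e (dI i) q) = 0 :=
      rho_Kop hO hst hf (hbox _ hq).2.2
    rw [h6] at h5
    rw [h5]
    refine Finset.sum_congr rfl fun c _ => ?_
    have h7 : ((A.prod A).e (dI i)).symm (VD.ms 0 ((A.prod A).e (dI i) q)) = (q.1, q.1) := by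
      rw [VD_ms_zero, dI_apply, fstL_app, dI_symm_app, (A.e i).left_inv hqs.1]
    rw [h7, S_zero_apply, ← ud_eq_VD, ← ud_eq_VD]
    rfl
  have h2 := lead_zero hx (g := fun c q => LiftL A (ResL A (G c (q.1, q.1)))) (fun c => by
    have e1 : ContinuousAt (fun q : X × X => (q.1, q.1)) (x, x) := by fun_prop
    have e2 : ContinuousAt (G c) ((fun q : X × X => (q.1, q.1)) (x, x)) := hG.contAt c
    exact ((LiftL A).continuous.comp (ResL A).continuous).continuousAt.comp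
      (ContinuousAt.comp (f := fun q : X × X => (q.1, q.1)) e2 e1)) h1 c
  have h3 := congrArg (ResL A) h2
  rw [map_zero] at h3
  rw [← h3]
  exact (ResL_LiftL _).symm

end

end Crest.Agent.R275.NA4783
end

-- ▼ part R275/NA4k_783
section

/-!
# R275, NA4 (helper783), part k: acyclicity of `ker (rho m) / Fm (m + 1)`, local statement
-/

set_option autoImplicit false
set_option linter.unusedSectionVars false
set_option linter.unusedSimpArgs false

open Set Filter Topology Complex MeasureTheory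
open scoped ContDiff Matrix ComplexConjugate Kronecker
open Crest.Agent.R275.Geo Crest.Agent.R275.Smf798 Crest.Agent.R275.Dg199 Crest.Agent.R275.Prod363
open Crest.Agent.R275.SmR425 Crest.Agent.R275.Lam2130 Crest.Agent.R275.Sym585
open Crest.Agent.R275.SymBun585

namespace Crest.Agent.R275.NA4783

noncomputable section

variable {X : Type} [TopologicalSpace X] {A : Atl 2 X}

/-! ### a local section `K` of the chart `dI i`, cut off by `ζ` -/

section cut

/-- the part of the chart `dI i` over `O` -/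
def UO (A : Atl 2 X) (i : A.ι) (O : Set (Cn (2 + 2))) : Set (X × X) :=
  ((A.prod A).e (dI i)).source ∩ (A.prod A).e (dI i) ⁻¹' O

variable {i : A.ι} {O : Set (Cn (2 + 2))}

theorem isOpen_UO (hO : IsOpen O) : IsOpen (UO A i O) :=
  ((A.prod A).e (dI i)).isOpen_inter_preimage hO

variable (A) in
/-- cut-off data -/
structure CutD (i : A.ι) (O : Set (Cn (2 + 2))) where
  ζ : X × X → ℂ
  sm : ∀ q, SmN (A.prod A) ζ q
  sub : tsupport ζ ⊆ UO A i O
  K : Cn (2 + 2) → (BB A).κ → ℂ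
  smK : ContDiffOn ℝ ∞ K O

theorem CutD.mem (C : CutD A i O) (hO : IsOpen O) :
    extS (BB A) (dI i) C.ζ (fun q => C.K ((A.prod A).e (dI i) q)) ∈ Sec (BB A) := by
  refine extS_mem C.sm (fun q hq => (C.sub hq).1) fun q hq => ?_
  exact smN_comp_chart (C.sub hq).1 hO (C.sub hq).2 C.smK

/-- the global section -/
def CutD.sec (C : CutD A i O) (hO : IsOpen O) : Sec (BB A) := ⟨_, C.mem hO⟩

theorem CutD.val (C : CutD A i O) (hO : IsOpen O) : (C.sec hO).1 =
    extS (BB A) (dI i) C.ζ (fun q => C.K ((A.prod A).e (dI i) q)) := rfl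

theorem CutD.self (C : CutD A i O) (hO : IsOpen O) {q : X × X}
    (hq : q ∈ ((A.prod A).e (dI i)).source) :
    (C.sec hO).1 (dI i) q = C.ζ q • C.K ((A.prod A).e (dI i) q) := by
  rw [C.val, extS_self hq]

theorem CutD.ev_self (C : CutD A i O) (hO : IsOpen O) {q : X × X}
    (hq : q ∈ ((A.prod A).e (dI i)).source) :
    ∀ᶠ q' in 𝓝 q, (C.sec hO).1 (dI i) q' = C.ζ q' • C.K ((A.prod A).e (dI i) q') := by
  filter_upwards [((A.prod A).e (dI i)).open_source.mem_nhds hq] with q' hq'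
  exact C.self hO hq'

theorem CutD.off (C : CutD A i O) (hO : IsOpen O) {q : X × X} (hq : q ∉ tsupport C.ζ)
    (j : (A.prod A).ι) : ∀ᶠ q' in 𝓝 q, (C.sec hO).1 j q' = 0 := by
  filter_upwards [(isClosed_tsupport C.ζ).isOpen_compl.mem_nhds hq] with q' hq'
  rw [C.val, extS_zero (image_eq_zero_of_notMem_tsupport hq')]

theorem CutD.lv (C : CutD A i O) (hO : IsOpen O) {m : ℕ} (hK : JP VD O m C.K) {p' : X}
    (hp' : (p', p') ∈ UO A i O) : LV (A.prod A) (Dg199.mono m (ud A i))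
      (fun q => C.K ((A.prod A).e (dI i) q)) (p', p') :=
  JP.toLV VD hp'.1 (fun a => Eventually.of_forall fun q => ud_eq_VD i a q) hO hp'.2 hK
    (Eventually.of_forall fun q => rfl)

theorem CutD.mem_Fm (C : CutD A i O) (hO : IsOpen O) {m : ℕ} (hK : JP VD O m C.K) :
    C.sec hO ∈ Fm (BB A) m := by
  intro p'
  by_cases hp' : (p', p') ∈ tsupport C.ζ
  · have hU' := C.sub hp'
    refine FAt.of_chart (j := i) hU'.1.1 ?_
    exact ((C.lv hO hK hU').smul (f := C.ζ) (Eventually.of_forall fun q => C.sm q)).congr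
      (C.ev_self hO hU'.1)
  · obtain ⟨j, hj⟩ := A.cover p'
    exact FAt.of_ev_zero hj (C.off hO hp' (dI j))

theorem CutD.rho (C : CutD A i O) (hO : IsOpen O) {m : ℕ} (hK : JP VD O m C.K)
    (hlead : ∀ x, (x, x) ∈ UO A i O → ∀ G : Fin (m + 1) → X × X → (BB A).κ → ℂ,
      Rep (A := A) m (fun q => C.K ((A.prod A).e (dI i) q)) i x G →
      ∀ c, ResL A (G c (x, x)) = 0) :
    rho A m ⟨C.sec hO, C.mem_Fm hO hK⟩ = 0 := by
  have key : ∀ x, (x, x) ∈ UO A i O → ∀ hx : x ∈ (A.e i).source,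
      (NA4783.rho A m ⟨C.sec hO, C.mem_Fm hO hK⟩).1 i x = 0 := by
    intro x hxU hx
    obtain ⟨G, hG⟩ := exists_rep (C.lv hO hK hxU)
    have hG' : Rep (A := A) m ((C.sec hO).1 (dI i)) i x (fun c q => C.ζ q • G c q) :=
      (hG.smul (f := C.ζ) (Eventually.of_forall fun q => C.sm q)).congr (C.ev_self hO hxU.1)
    funext k
    obtain ⟨k, c⟩ := k
    rw [rho_apply ⟨C.sec hO, C.mem_Fm hO hK⟩ hx hG', map_smul, hlead x hxU G hG c, smul_zero]
    rfl
  refine sec_ext fun j x => ?_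
  by_cases hx : x ∈ (A.e j).source
  · by_cases hxs : (x, x) ∈ tsupport C.ζ
    · have hxU := C.sub hxs
      have hxi : x ∈ (A.e i).source := hxU.1.1
      have h1 := Sec.tr (CC A m) (NA4783.rho A m ⟨C.sec hO, C.mem_Fm hO hK⟩).2
        (i := j) (j := i) ⟨hx, hxi⟩
      rw [key x hxU hxi, Matrix.mulVec_zero] at h1
      exact h1
    · have hG' : Rep (A := A) m ((C.sec hO).1 (dI j)) j x (fun _ _ => 0) :=
        Rep.zero.congr (C.off hO hxs (dI j))
      funext k
      obtain ⟨k, c⟩ := k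
      rw [rho_apply ⟨C.sec hO, C.mem_Fm hO hK⟩ hx hG', map_zero]
      rfl
  · exact Sec.off (CC A m) (NA4783.rho A m ⟨C.sec hO, C.mem_Fm hO hK⟩).2 hx

theorem CutD.gat (C : CutD A i O) (hO : IsOpen O) {m s : ℕ}
    (hG : JP VD O m (fun z => Ps A s (C.K z))) (p' : X) : GAt m s (C.sec hO) p' := by
  by_cases hp' : (p', p') ∈ tsupport C.ζ
  · have hU' := C.sub hp'
    refine GAt.of_chart (j := i) hU'.1.1 ?_
    have h1 : LV (A.prod A) (Dg199.mono m (ud A i))
        (fun q => Ps A s (C.K ((A.prod A).e (dI i) q))) (p', p') :=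
      JP.toLV VD hU'.1 (fun a => Eventually.of_forall fun q => ud_eq_VD i a q) hO hU'.2 hG
        (Eventually.of_forall fun q => rfl)
    refine (h1.smul (f := C.ζ) (Eventually.of_forall fun q => C.sm q)).congr ?_
    filter_upwards [C.ev_self hO hU'.1] with q hq
    rw [hq, map_smul]
  · refine GAt.of_FAt ?_
    obtain ⟨j, hj⟩ := A.cover p'
    exact FAt.of_ev_zero hj (C.off hO hp' (dI j))

theorem CutD.nab (C : CutD A i O) (hO : IsOpen O) {q : X × X} (hq : q ∈ UO A i O)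
    (h1 : ∀ᶠ q' in 𝓝 q, C.ζ q' = 1) :
    Geo.nab (BB A) (C.sec hO).1 (dI i) q =
      Dbar VD (carD (BB A)).toFib C.K ((A.prod A).e (dI i) q) := by
  have hqs : q ∈ ((A.prod A).e (dI i)).source := hq.1
  have h2 := nab_chart (BB A) BB_alpha (C.sec hO).1 i (((A.prod A).e (dI i)).map_source hqs)
  rw [((A.prod A).e (dI i)).left_inv hqs] at h2
  rw [h2]
  refine Dbar_congr ?_
  have h3 := ev_symm (A := A.prod A) (i := dI i) hqs h1
  filter_upwards [h3, ((A.prod A).e (dI i)).open_target.mem_nhds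
    (((A.prod A).e (dI i)).map_source hqs)] with z hz1 hz2
  rw [C.self hO (((A.prod A).e (dI i)).map_target hz2), ((A.prod A).e (dI i)).right_inv hz2,
    hz1, one_smul]

theorem CutD.fat (C : CutD A i O) (hO : IsOpen O) {m : ℕ} (w : Sec (BB A))
    (hH : JP VD O m (fun z => w.1 (dI i) (((A.prod A).e (dI i)).symm z) -
      Dbar VD (carD (BB A)).toFib C.K z)) {p' : X} (hp' : (p', p') ∈ UO A i O)
    (h1 : ∀ᶠ q in 𝓝 (p', p'), C.ζ q = 1) : FAt m (w - nabL (BB A) (C.sec hO)) p' := by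
  refine FAt.of_chart (j := i) hp'.1.1 ?_
  refine JP.toLV VD hp'.1 (fun a => Eventually.of_forall fun q => ud_eq_VD i a q) hO hp'.2 hH ?_
  filter_upwards [eventually_eventually_nhds.2 h1, (isOpen_UO hO).mem_nhds hp'] with q hq hqU
  have e2 := C.nab hO hqU hq
  have e3 : (w - nabL (BB A) (C.sec hO)).1 (dI i) q =
    w.1 (dI i) q - Geo.nab (BB A) (C.sec hO).1 (dI i) q := rfl
  rw [e3, e2, ((A.prod A).e (dI i)).left_inv hqU.1]

theorem CutD.deg (C : CutD A i O) (hO : IsOpen O) {q : ℤ}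
    (hK : ∀ z ∈ O, Hd (BB A).deg q (C.K z)) (j : (A.prod A).ι) (x : X × X) :
    Hd (BB A).deg q ((C.sec hO).1 j x) := by
  have e1 : (C.sec hO).1 j x =
    extS (BB A) (dI i) C.ζ (fun q => C.K ((A.prod A).e (dI i) q)) j x := rfl
  by_cases h2 : C.ζ x = 0
  · rw [e1, extS_zero h2]
    exact fun k hk => absurd rfl hk
  have hxU : x ∈ UO A i O := C.sub (subset_tsupport _ h2)
  by_cases hc : x ∈ ((A.prod A).e j).source
  · rw [e1, extS_pos hc hxU.1]
    have h1 := (hK _ hxU.2).mulVec (T := (BB A).τ j (dI i) x) (d := 0) (fun k l hkl => by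
      rw [(BB A).τ_deg j (dI i) x k l hkl, add_zero])
    rw [add_zero] at h1
    exact h1.smul _
  · rw [e1, extS_off hc]
    exact fun k hk => absurd rfl hk

end cut

end

end Crest.Agent.R275.NA4783
end

-- ▼ part R275/NA4l_783
section

/-!
# R275, NA4 (helper783), part l: acyclicity of `ker (rho m) / Fm (m + 1)`, local statement
-/

set_option autoImplicit false
set_option linter.unusedSectionVars false
set_option linter.unusedSimpArgs false
set_option maxHeartbeats 400000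

open Set Filter Topology Complex MeasureTheory
open scoped ContDiff Matrix ComplexConjugate Kronecker
open Crest.Agent.R275.Geo Crest.Agent.R275.Smf798 Crest.Agent.R275.Dg199 Crest.Agent.R275.Prod363
open Crest.Agent.R275.SmR425 Crest.Agent.R275.Lam2130 Crest.Agent.R275.Sym585
open Crest.Agent.R275.SymBun585

namespace Crest.Agent.R275.NA4783

noncomputable section

variable {X : Type} [TopologicalSpace X] {A : Atl 2 X}

section loc

variable {i : A.ι}

/-- the coordinate expression of a section in the chart `dI i` -/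
def lx (i : A.ι) (w : Sec (BB A)) : Cn (2 + 2) → (BB A).κ → ℂ := fun z =>
  w.1 (dI i) (((A.prod A).e (dI i)).symm z)

/-- a box with all local representations -/
theorem loc_data {m s : ℕ} (w : Sec (BB A)) {p : X} (hi : p ∈ (A.e i).source)
    (hw : FAt m w p) (hn : FAt (m + 1) (nabL (BB A) w) p) (hs : GAt (m + 1) s w p) :
    ∃ r > 0, bx (A.e i p) r ⊆ ((A.prod A).e (dI i)).target ∧
      (∃ g : Fin (m + 1) → Cn (2 + 2) → (BB A).κ → ℂ,
        (∀ c, ContDiffOn ℝ ∞ (g c) (bx (A.e i p) r)) ∧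
        ∀ z ∈ bx (A.e i p) r, lx i w z = ∑ c : Fin (m + 1),
          ((VD.u 0 z) ^ (m - c : ℕ) * (VD.u 1 z) ^ (c : ℕ)) • g c z) ∧
      JP VD (bx (A.e i p) r) (m + 1) (lx i (nabL (BB A) w)) ∧
      JP VD (bx (A.e i p) r) (m + 1) (fun z => Ps A s (lx i w z)) := by
  have hu : ∀ p' : X, ∀ a, ∀ᶠ q in 𝓝 (p', p'), ud A i a q = VD.u a ((A.prod A).e (dI i) q) :=
    fun p' a => Eventually.of_forall fun q => ud_eq_VD i a q
  obtain ⟨O1, hO1, hp1, ht1, g, hg, hfg⟩ := LV.toJP VD (diag_mem_dI hi) (hu p) (hw.lv hi)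
  obtain ⟨O2, hO2, hp2, ht2, g2, hg2, hfg2⟩ := LV.toJP VD (diag_mem_dI hi) (hu p) (hn.lv hi)
  obtain ⟨O3, hO3, hp3, ht3, g3, hg3, hfg3⟩ := LV.toJP VD (diag_mem_dI hi) (hu p) (hs i hi)
  obtain ⟨r, hr, hbox⟩ : ∃ r > 0, ∀ z ∈ bx (A.e i p) r, z ∈ O1 ∧ z ∈ O2 ∧ z ∈ O3 := by
    refine exists_bx ?_
    filter_upwards [hO1.mem_nhds hp1, hO2.mem_nhds hp2, hO3.mem_nhds hp3] with z a b c
      using ⟨a, b, c⟩
  refine ⟨r, hr, fun z hz => ht1 (hbox z hz).1, ⟨g, fun c => (hg c).mono fun z hz =>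
    (hbox z hz).1, fun z hz => hfg z (hbox z hz).1⟩, ?_, ?_⟩
  · exact JP.of_rep (fun c => (hg2 c).mono fun z hz => (hbox z hz).2.1) fun z hz =>
      hfg2 z (hbox z hz).2.1
  · exact JP.of_rep (fun c => (hg3 c).mono fun z hz => (hbox z hz).2.2) fun z hz =>
      hfg3 z (hbox z hz).2.2

/-- a representation on a set of the chart gives `Rep` -/
theorem rep_of_box {m : ℕ} {x : X} (hxs : x ∈ (A.e i).source) {O : Set (Cn (2 + 2))}
    (hO : IsOpen O) (hxO : (A.prod A).e (dI i) (x, x) ∈ O) {W : X × X → (BB A).κ → ℂ}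
    {g : Fin (m + 1) → Cn (2 + 2) → (BB A).κ → ℂ} (hg : ∀ c, ContDiffOn ℝ ∞ (g c) O)
    (h : ∀ q ∈ ((A.prod A).e (dI i)).source, (A.prod A).e (dI i) q ∈ O →
      W q = ∑ c : Fin (m + 1), ((VD.u 0 ((A.prod A).e (dI i) q)) ^ (m - c : ℕ) *
        (VD.u 1 ((A.prod A).e (dI i) q)) ^ (c : ℕ)) • g c ((A.prod A).e (dI i) q)) :
    Rep (A := A) m W i x (fun c q => g c ((A.prod A).e (dI i) q)) := by
  have hev : ∀ᶠ q in 𝓝 (x, x), q ∈ ((A.prod A).e (dI i)).source ∧
      (A.prod A).e (dI i) q ∈ O := by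
    have h1 : (x, x) ∈ ((A.prod A).e (dI i)).source := diag_mem_dI hxs
    have h3 : ∀ᶠ q in 𝓝 (x, x), (A.prod A).e (dI i) q ∈ O :=
      ev_chart (A := A.prod A) (i := dI i) (p := (x, x)) h1 (hO.mem_nhds hxO)
    have h4 : ∀ᶠ q in 𝓝 (x, x), q ∈ ((A.prod A).e (dI i)).source :=
      ((A.prod A).e (dI i)).open_source.mem_nhds h1
    exact h4.and h3
  refine ⟨fun c => ?_, ?_⟩
  · filter_upwards [hev] with q hq
    exact smN_comp_chart hq.1 hO hq.2 (hg c)
  · filter_upwards [hev] with q hq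
    rw [h q hq.1 hq.2]
    refine Finset.sum_congr rfl fun c _ => ?_
    rw [← ud_eq_VD, ← ud_eq_VD]
    rfl

/-- `Rho` of the coordinate expression vanishes -/
theorem loc_Rho {m : ℕ} (w : Fm (BB A) m) (h0 : rho A m w = 0) {p : X} {r : ℝ}
    (hOt : bx (A.e i p) r ⊆ ((A.prod A).e (dI i)).target)
    {g : Fin (m + 1) → Cn (2 + 2) → (BB A).κ → ℂ}
    (hg : ∀ c, ContDiffOn ℝ ∞ (g c) (bx (A.e i p) r))
    (hfg : ∀ z ∈ bx (A.e i p) r, lx i w.1 z = ∑ c : Fin (m + 1),
          ((VD.u 0 z) ^ (m - c : ℕ) * (VD.u 1 z) ^ (c : ℕ)) • g c z)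
    {z : Cn (2 + 2)} (hz : z ∈ bx (A.e i p) r) :
    Rho VD (carD (BB A)).toFib m (lx i w.1) z = 0 := by
  have hO : IsOpen (bx (A.e i p) r) := isOpen_bx _ _
  rw [rho_rep (F := (carD (BB A)).toFib) hO (star_bx _ _) hg hfg hz]
  refine Finset.sum_eq_zero fun c _ => ?_
  obtain ⟨x, hxs, hex⟩ : ∃ x ∈ (A.e i).source, A.e i x = fstL 2 2 z :=
    ⟨(A.e i).symm (fstL 2 2 z), (A.e i).map_target (hOt hz).1, (A.e i).right_inv (hOt hz).1⟩
  have hz0 : VD.ms 0 z = (A.prod A).e (dI i) (x, x) := by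
    rw [VD_ms_zero z, dI_diag, hex]
  have hdO : (A.prod A).e (dI i) (x, x) ∈ bx (A.e i p) r := by
    rw [dI_diag, hex]
    exact app_mem_bx.2 ⟨hz.1, hz.1⟩
  have hRx : Rep (A := A) m (w.1.1 (dI i)) i x (fun c q => g c ((A.prod A).e (dI i) q)) := by
    refine rep_of_box hxs hO hdO hg fun q hq hqO => ?_
    have h4 : lx i w.1 ((A.prod A).e (dI i) q) = w.1.1 (dI i) q := by
      unfold lx
      rw [((A.prod A).e (dI i)).left_inv hq]
    rw [← h4, hfg _ hqO]
  have h1 : ResL A (g c ((A.prod A).e (dI i) (x, x))) = 0 := by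
    funext k
    have h2 := rho_apply w hxs hRx k c
    rw [h0] at h2
    exact h2.symm
  rw [hz0, S_zero_apply, h1, map_zero, smul_zero]

/-- the homotopy formula -/
theorem loc_hom {m : ℕ} {O : Set (Cn (2 + 2))} (hO : IsOpen O) (hst : VD.Star O)
    {f : Cn (2 + 2) → (BB A).κ → ℂ} (hf : JP VD O m f)
    (hnf : JP VD O (m + 1) (Dbar VD (carD (BB A)).toFib f))
    (hRho : ∀ z ∈ O, Rho VD (carD (BB A)).toFib m f z = 0) :
    JP VD O (m + 1) (fun z => f z -
      Dbar VD (carD (BB A)).toFib (Kop VD (carD (BB A)).toFib m f) z) := by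
  obtain ⟨R, hR, hR2⟩ := hom (F := (carD (BB A)).toFib) hO hst hf
  have h1 : JP VD O (m + 1) (fun z => R z + Kop VD (carD (BB A)).toFib m
      (Dbar VD (carD (BB A)).toFib f) z) :=
    hR.add (Kop_JP hO hst hnf (by push_cast; omega))
  refine h1.congr fun z hz => ?_
  have h2 := hR2 z hz
  rw [hRho z hz, sub_zero] at h2
  have h3 : Dbar VD (carD (BB A)).toFib (Kop VD (carD (BB A)).toFib m f) z =
      f z - R z - Kop VD (carD (BB A)).toFib m (Dbar VD (carD (BB A)).toFib f) z :=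
    eq_sub_of_add_eq h2
  rw [h3]
  abel

/-- **local acyclicity** -/
theorem loc_acyc [T2Space X] {m s : ℕ} (w : Fm (BB A) m) (h0 : rho A m w = 0) {p : X}
    (hn : FAt (m + 1) (nabL (BB A) w.1) p) (hs : GAt (m + 1) s w.1 p) :
    ∃ v : Fm (BB A) m, rho A m v = 0 ∧ (∀ p', GAt (m + 1) s v.1 p') ∧
      (∀ᶠ p' in 𝓝 p, FAt (m + 1) (w.1 - nabL (BB A) v.1) p') ∧
      (∀ q : ℤ, (∀ j x, Hd (BB A).deg q (w.1.1 j x)) →
        ∀ j x, Hd (BB A).deg (q - 1) (v.1.1 j x)) := by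
  classical
  obtain ⟨i, hi⟩ := A.cover p
  obtain ⟨r, hr, hOt, ⟨g, hg, hfg⟩, hnf, hPf⟩ := loc_data (i := i) w.1 hi (w.2 p) hn hs
  have hO : IsOpen (bx (A.e i p) r) := isOpen_bx _ _
  have hst : VD.Star (bx (A.e i p) r) := star_bx _ _
  have hf : JP VD (bx (A.e i p) r) m (lx i w.1) := JP.of_rep hg hfg
  have hKJ := Kop_JP (F := (carD (BB A)).toFib) hO hst hf le_rfl
  have hpU : (p, p) ∈ UO A i (bx (A.e i p) r) := ⟨diag_mem_dI hi, diag_mem_bx _ hr⟩
  obtain ⟨φ, hφ1, hφ2, hφ3, -, -, -⟩ := exists_bump (A.prod A) ((isOpen_UO hO).mem_nhds hpU)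
  have hζs : tsupport (fun q => (φ q : ℂ)) ⊆ tsupport φ := by
    refine closure_mono fun y hy h0 => hy ?_
    show (φ y : ℂ) = 0
    rw [h0]; rfl
  obtain ⟨C, hCζ, hCK⟩ : ∃ C : CutD A i (bx (A.e i p) r), C.ζ = (fun q => (φ q : ℂ)) ∧
      C.K = Kop VD (carD (BB A)).toFib m (lx i w.1) :=
    ⟨⟨fun q => (φ q : ℂ), fun q => (hφ1 q).ofReal, hζs.trans hφ3,
      Kop VD (carD (BB A)).toFib m (lx i w.1), hKJ.smooth⟩, rfl, rfl⟩
  have hKJ' : JP VD (bx (A.e i p) r) m C.K := by rw [hCK]; exact hKJ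
  refine ⟨⟨C.sec hO, C.mem_Fm hO hKJ'⟩, ?_, ?_, ?_, ?_⟩
  · refine C.rho hO hKJ' fun x hxU G hG c => ?_
    rw [hCK] at hG
    exact Kop_lead hxU.1.1 hO hst (by have := hxU.2; rwa [mem_preimage, dI_diag] at this) hf hG c
  · intro p'
    refine C.gat hO ?_ p'
    rw [hCK]
    exact Kop_G (F := (carD (BB A)).toFib) (Ps A s) (Ps_Ps s)
      (fun t j v hv => Ps_car_S (Ps_car_io hv j) t) hO hst hf hPf
  · have hev : ∀ᶠ q in 𝓝 (p, p), (∀ᶠ q' in 𝓝 q, φ q' = 1) ∧ q ∈ UO A i (bx (A.e i p) r) := by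
      filter_upwards [eventually_eventually_nhds.2 hφ2, (isOpen_UO hO).mem_nhds hpU] with q a b
        using ⟨a, b⟩
    filter_upwards [(tendsto_diag p).eventually hev] with p' hp'
    refine C.fat hO w.1 ?_ hp'.2 ?_
    · rw [hCK]
      refine loc_hom hO hst hf ?_ fun z hz => loc_Rho w h0 hOt hg hfg hz
      refine hnf.congr fun z hz => ?_
      exact (nab_chart (BB A) BB_alpha w.1.1 i (hOt hz)).symm
    · rw [hCζ]
      filter_upwards [hp'.1] with q hq
      rw [hq, ofReal_one]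
  · intro q hq j x
    refine C.deg hO (fun z hz => ?_) j x
    rw [hCK]
    exact Kop_deg (BB A) hst hf (fun y _ => hq (dI i) _) hz

end loc

end

end Crest.Agent.R275.NA4783
end

-- ▼ part R275/NA4m_783

/-!
# R275, NA4 (helper783), part m: acyclicity of `ker (rho m) / Fm (m + 1)`

* `pf φ` : a function of the first variable;
* `GAt.cL` : the commutator with `pf φ` raises the base degree;
* `step` : one step;
* `acyc` : the statement.
-/

set_option autoImplicit false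
set_option linter.unusedSectionVars false
set_option linter.unusedSimpArgs false
set_option maxHeartbeats 400000

open Set Filter Topology Complex MeasureTheory
open scoped ContDiff Matrix ComplexConjugate Kronecker
open Crest.Agent.R275.Geo Crest.Agent.R275.Smf798 Crest.Agent.R275.Dg199 Crest.Agent.R275.Prod363
open Crest.Agent.R275.SmR425 Crest.Agent.R275.Lam2130 Crest.Agent.R275.Sym585
open Crest.Agent.R275.SymBun585 Crest.Agent.R275.Con425

namespace Crest.Agent.R275.NA4783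

noncomputable section

variable {X : Type} [TopologicalSpace X] {A : Atl 2 X}

section pf

/-- a function of the first variable -/
def pf (φ : X → ℝ) (hφ : ∀ q, SmN A φ q) : smf (A.prod A) :=
  ⟨fun q => (φ q.1 : ℂ), sm_iff.2 fun q => smN_fst (f := fun x => (φ x : ℂ)) (hφ q.1).ofReal⟩

theorem pf_apply (φ : X → ℝ) (hφ : ∀ q, SmN A φ q) (q : X × X) :
    (pf φ hφ).1 q = (φ q.1 : ℂ) := rfl

theorem db_pf_nat (φ : X → ℝ) (hφ : ∀ q, SmN A φ q) {i : A.ι} {q : X × X}
    (hq : q ∈ ((A.prod A).e (dI i)).source) (b : Fin 2) :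
    (A.prod A).db (dI i) (Fin.natAdd 2 b) (pf φ hφ).1 q = 0 := by
  obtain ⟨x, y⟩ := q
  have h1 : DifferentiableAt ℝ (fun z => (pf φ hφ).1 (((A.prod A).e (i, i)).symm z))
      ((A.prod A).e (i, i) (x, y)) := SmN.diffAt hq (smN_of_mem (pf φ hφ) (x, y))
  have h2 := db_natAdd A A (i := i) (j := i) hq.1 h1 b
  refine Eq.trans h2 ?_
  exact dbj_const (W := ℂ) (n := 2) (φ x : ℂ) _ b

theorem GAt.cL {m s : ℕ} {w : Sec (BB A)} {p : X} (h : GAt m s w p) (φ : X → ℝ)
    (hφ : ∀ q, SmN A φ q) : GAt m (s + 1) (Con425.cL (BB A) (pf φ hφ) w) p := by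
  intro i hi
  have hf : ∀ᶠ x in 𝓝 (p, p), SmN (A.prod A) (pf φ hφ).1 x :=
    Eventually.of_forall fun q => smN_of_mem (pf φ hφ) q
  have h1 : LV (A.prod A) (Dg199.mono m (ud A i)) (fun q => ∑ a : Fin 2,
      (A.prod A).db (dI i) (Fin.castAdd 2 a) (pf φ hφ).1 q •
        ((Ps A (s + 1)).comp (mvL ((BB A).e (Fin.castAdd 2 a)))) (Ps A s (w.1 (dI i) q)))
      (p, p) :=
    LV.sum fun a _ => LV.smul (smN_db (diag_mem_dI hi) hf (Fin.castAdd 2 a)) ((h i hi).clm _)
  refine h1.congr ?_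
  filter_upwards [((A.prod A).e (dI i)).open_source.mem_nhds (diag_mem_dI hi)] with q hq
  have h2 : ∀ a : Fin 2, Ps A (s + 1) ((BB A).e (Fin.castAdd 2 a) *ᵥ w.1 (dI i) q) =
      ((Ps A (s + 1)).comp (mvL ((BB A).e (Fin.castAdd 2 a)))) (Ps A s (w.1 (dI i) q)) := by
    intro a
    have h3 : Ps A (s + 1) ((BB A).e (Fin.castAdd 2 a) *ᵥ
        (w.1 (dI i) q - Ps A s (w.1 (dI i) q))) = 0 :=
      Ps_e_cast (by rw [map_sub, Ps_Ps, sub_self]) a
    rw [Matrix.mulVec_sub, map_sub, sub_eq_zero] at h3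
    exact h3
  have h4 : cdC (BB A) (dI i) (pf φ hφ).1 q = ∑ a : Fin 2,
      (A.prod A).db (dI i) (Fin.castAdd 2 a) (pf φ hφ).1 q • (BB A).e (Fin.castAdd 2 a) := by
    unfold cdC
    rw [Fin.sum_univ_add]
    have h5 : ∑ b : Fin 2, (A.prod A).db (dI i) (Fin.natAdd 2 b) (pf φ hφ).1 q •
        (BB A).e (Fin.natAdd 2 b) = 0 :=
      Finset.sum_eq_zero fun b _ => by rw [db_pf_nat φ hφ hq b, zero_smul]
    rw [h5, add_zero]
  rw [cL_apply, h4, Matrix.sum_mulVec, map_sum]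
  refine Finset.sum_congr rfl fun a _ => ?_
  rw [Matrix.smul_mulVec, map_smul, h2 a]

end pf

section step

/-- multiplication by a bump function -/
theorem FAt.pf_smul {m : ℕ} {w : Sec (BB A)} (φ : X → ℝ) (hφ : ∀ q, SmN A φ q)
    (h : ∀ p ∈ tsupport φ, FAt m w p) (p : X) : FAt m (pf φ hφ • w) p := by
  by_cases hp : p ∈ tsupport φ
  · exact (h p hp).smul _
  · obtain ⟨j, hj⟩ := A.cover p
    refine FAt.of_ev_zero hj ?_
    have h1 : ∀ᶠ x in 𝓝 p, φ x = 0 := by
      filter_upwards [(isClosed_tsupport φ).isOpen_compl.mem_nhds hp] with x hx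
      exact image_eq_zero_of_notMem_tsupport hx
    have h2 : ∀ᶠ q : X × X in 𝓝 (p, p), φ q.1 = 0 :=
      (continuous_fst.tendsto (p, p)).eventually h1
    filter_upwards [h2] with q hq
    rw [sec_smul_apply, pf_apply, hq, ofReal_zero, zero_smul]

theorem GAt.smul {m s : ℕ} {w : Sec (BB A)} {p : X} (h : GAt m s w p) (f : smf (A.prod A)) :
    GAt m s (f • w) p := by
  intro i hi
  refine ((h i hi).smul (f := f.1) (Eventually.of_forall fun q => smN_of_mem f q)).congr ?_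
  refine Eventually.of_forall fun q => ?_
  show Ps A s (f.1 q • w.1 (dI i) q) = f.1 q • Ps A s (w.1 (dI i) q)
  exact map_smul _ _ _

/-- **one step** -/
theorem step [T2Space X] [CompactSpace X] {m s : ℕ} (w : Fm (BB A) m) (h0 : rho A m w = 0)
    (hn : nabL (BB A) w.1 ∈ Fm (BB A) (m + 1)) (hs : ∀ p, GAt (m + 1) s w.1 p) :
    ∃ v : Fm (BB A) m, rho A m v = 0 ∧ 
      (∀ p, GAt (m + 1) (s + 1) (w.1 - nabL (BB A) v.1) p) ∧
      (∀ q : ℤ, (∀ j x, Hd (BB A).deg q (w.1.1 j x)) →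
        ∀ j x, Hd (BB A).deg (q - 1) (v.1.1 j x)) := by
  classical
  choose v hv0 hvG hvF hvd using fun p => loc_acyc w h0 (hn p) (hs p)
  obtain ⟨t, φ, hφ1, hφ2, -, hφ4⟩ := exists_partition A
    (fun p => {p' | FAt (m + 1) (w.1 - nabL (BB A) (v p).1) p'}) hvF
  let f : t → smf (A.prod A) := fun p => pf (φ p.1) (hφ1 p.1 p.2)
  have hf1 : ∑ p : t, f p = 1 := by
    refine Subtype.ext (funext fun q => ?_)
    have h1 : (∑ p : t, f p : smf (A.prod A)).1 q = ∑ p : t, (f p).1 q := by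
      rw [AddSubmonoidClass.coe_finset_sum, Finset.sum_apply]
    rw [h1]
    have h2 : ∑ p : t, (f p).1 q = ((∑ p ∈ t, φ p q.1 : ℝ) : ℂ) := by
      rw [← Finset.sum_coe_sort t, ofReal_sum]
      rfl
    rw [h2, hφ4, ofReal_one]
    rfl
  refine ⟨∑ p : t, f p • v p.1, ?_, ?_, ?_⟩
  · rw [map_sum]
    refine Finset.sum_eq_zero fun p _ => ?_
    refine sec_ext fun i x => funext fun k => ?_
    rw [rho_smul, hv0]
    exact mul_zero _
  · intro p'
    have h1 : w.1 - nabL (BB A) (∑ p : t, f p • v p.1 : Fm (BB A) m).1 =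
        ∑ p : t, f p • (w.1 - nabL (BB A) (v p.1).1) -
          ∑ p : t, Con425.cL (BB A) (f p) (v p.1).1 := by
      have h2 : (∑ p : t, f p • v p.1 : Fm (BB A) m).1 = ∑ p : t, f p • (v p.1).1 := by
        rw [AddSubmonoidClass.coe_finset_sum]
        rfl
      have h3 : ∀ p : t, nabL (BB A) (f p • (v p.1).1) =
          Con425.cL (BB A) (f p) (v p.1).1 + f p • nabL (BB A) (v p.1).1 := fun p =>
        Con425.nabL_smul (BB A) (f p) _
      rw [h2, map_sum, Finset.sum_congr rfl fun p _ => h3 p, Finset.sum_add_distrib]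
      simp only [smul_sub, Finset.sum_sub_distrib]
      rw [← Finset.sum_smul, hf1, one_smul]
      abel
    rw [h1]
    refine GAt.sub (GAt.of_FAt (FAt.sum fun p _ => ?_)) (GAt.sum fun p _ => ?_)
    · exact FAt.pf_smul _ _ (fun p'' hp'' => hφ2 p.1 p.2 hp'') p'
    · exact (hvG p.1 p').cL _ _
  · intro q hq j x
    have h2 : (∑ p : t, f p • v p.1 : Fm (BB A) m).1.1 j x =
        ∑ p : t, (f p).1 x • (v p.1).1.1 j x := by
      rw [AddSubmonoidClass.coe_finset_sum, sec_sum_apply]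
      rfl
    rw [h2]
    have h3 : ∀ T : Finset t, Hd (BB A).deg (q - 1) (∑ p ∈ T, (f p).1 x • (v p.1).1.1 j x) := by
      intro T
      induction T using Finset.induction_on with
      | empty =>
        rw [Finset.sum_empty]
        exact fun k hk => absurd rfl hk
      | insert a T ha ih =>
        rw [Finset.sum_insert ha]
        exact ((hvd a.1 q hq j x).smul _).add ih
    exact h3 Finset.univ

end step

section fin

/-- `nabL` raises the degree -/
theorem nabL_Hd {q : ℤ} {u : Sec (BB A)} (h : ∀ j x, Hd (BB A).deg q (u.1 j x))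
    (j : (A.prod A).ι) (x : X × X) : Hd (BB A).deg (q + 1) ((nabL (BB A) u).1 j x) := by
  by_cases hq : 0 ≤ q
  · obtain ⟨n, rfl⟩ := Int.eq_ofNat_of_zero_le hq
    intro k hk
    have h1 : IsDeg (BB A) n u.1 := fun j x k hk => by exact_mod_cast h j x k hk
    have h2 := nab_deg (BB A) u.2 h1 j x k hk
    rw [h2]
    push_cast
    ring
  · have h1 : u = 0 := by
      refine sec_ext fun j x => funext fun k => ?_
      by_contra h0
      have := h j x k h0
      omega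
    rw [h1, map_zero]
    exact fun k hk => absurd rfl hk

theorem Hd_sub {q : ℤ} {u v : Sec (BB A)} (h : ∀ j x, Hd (BB A).deg q (u.1 j x))
    (h' : ∀ j x, Hd (BB A).deg q (v.1 j x)) (j : (A.prod A).ι) (x : X × X) :
    Hd (BB A).deg q ((u - v).1 j x) := by
  have h1 : (u - v).1 j x = u.1 j x + -(v.1 j x) := sub_eq_add_neg _ _
  rw [h1]
  exact (h j x).add (h' j x).neg

/-- three steps -/
theorem step_all [T2Space X] [CompactSpace X]
    (hB : ∀ u : Sec (BB A), nabL (BB A) (nabL (BB A) u) = 0) {m : ℕ} (w : Fm (BB A) m)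
    (h0 : rho A m w = 0) (hn : nabL (BB A) w.1 ∈ Fm (BB A) (m + 1)) (s : ℕ) :
    ∃ v : Fm (BB A) m, rho A m v = 0 ∧
      (∀ p, GAt (m + 1) s (w.1 - nabL (BB A) v.1) p) ∧
      (∀ q : ℤ, (∀ j x, Hd (BB A).deg q (w.1.1 j x)) →
        ∀ j x, Hd (BB A).deg (q - 1) (v.1.1 j x)) := by
  induction s with
  | zero =>
    refine ⟨0, map_zero _, fun p => GAt.zero _ _ _, fun q _ j x => ?_⟩
    exact fun k hk => absurd rfl hk
  | succ s ih =>
    obtain ⟨v, hv0, hvG, hvd⟩ := ih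
    let w' : Fm (BB A) m := w - ⟨nabL (BB A) v.1, Fm_nab v.2⟩
    have hw' : w'.1 = w.1 - nabL (BB A) v.1 := rfl
    have h0' : rho A m w' = 0 := by
      have h1 := (rho A m).map_sub w ⟨nabL (BB A) v.1, Fm_nab v.2⟩
      refine h1.trans ?_
      rw [h0, rho_nab, hv0, map_zero, sub_zero]
    have hn' : nabL (BB A) w'.1 ∈ Fm (BB A) (m + 1) := by
      rw [hw', map_sub, hB, sub_zero]
      exact hn
    obtain ⟨v', hv0', hvG', hvd'⟩ := step w' h0' hn' (s := s) (by rw [hw']; exact hvG)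
    refine ⟨v + v', ?_, ?_, ?_⟩
    · rw [map_add, hv0, hv0', add_zero]
    · intro p
      have h1 : w.1 - nabL (BB A) (v + v').1 = w'.1 - nabL (BB A) v'.1 := by
        have h2 : (v + v').1 = v.1 + v'.1 := rfl
        rw [h2, map_add, hw']
        abel
      rw [h1]
      exact hvG' p
    · intro q hq j x
      have h3 : (v + v').1.1 j x = v.1.1 j x + v'.1.1 j x := rfl
      rw [h3]
      refine (hvd q hq j x).add (hvd' q (fun j x => ?_) j x)
      rw [hw']
      refine Hd_sub hq (fun j x => ?_) j x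
      have h4 := nabL_Hd (hvd q hq) j x
      rwa [sub_add_cancel] at h4

/-- **acyclicity of `ker (rho m) / Fm (m + 1)`** -/
theorem acyc [T2Space X] [CompactSpace X] {q m : ℕ}
    (hB : ∀ u : Sec (BB A), nabL (BB A) (nabL (BB A) u) = 0) (w : Fm (BB A) m)
    (hd : IsDeg (BB A) q w.1.1) (h0 : rho A m w = 0)
    (hn : nabL (BB A) w.1 ∈ Fm (BB A) (m + 1)) :
    ∃ v : Fm (BB A) m, (∀ q', q' + 1 = q → IsDeg (BB A) q' v.1.1) ∧ (q = 0 → v = 0) ∧
      rho A m v = 0 ∧ w.1 - nabL (BB A) v.1 ∈ Fm (BB A) (m + 1) := by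
  obtain ⟨v, hv0, hvG, hvd⟩ := step_all hB w h0 hn 3
  have hd' := hvd q fun j x k hk => by exact_mod_cast hd j x k hk
  refine ⟨v, ?_, ?_, hv0, fun p => (hvG p).toFAt⟩
  · rintro q' rfl j x k hk
    have := hd' j x k hk
    push_cast at this
    omega
  · intro hq
    refine Subtype.ext (sec_ext fun j x => funext fun k => ?_)
    by_contra hne
    have := hd' j x k hne
    omega

end fin

end

end Crest.Agent.R275.NA4783
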