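import Crest.Agent.R275.Fm_96
import Crest.Agent.R275.TopK_106
import Crest.Agent.R275.NAtl_938
import Crest.Agent.R275.DolB_511
import Crest.Agent.R275.QN2b_734
import Crest.Agent.R275.Core_144
import Crest.Agent.R275.WBHt_658
import Crest.Agent.R275.BdcB_96

-- ▼ part R275/PCech_646
section

/-!
# R275, block P (helper646): smooth Čech–Dolbeault calculus with a locally finite partition of unity

* `PU A ψ`      : smooth locally finite partition of unity subordinate to the charts of `A`.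
* `psum ψ f`    : `x ↦ ∑ᶠ l, ψ l x * f l x` (only the values of `f l` on the chart `l` matter),
                  smoothness `psum_smP`, `∂̄` : `db_psum`.
-/

set_option autoImplicit false
set_option linter.unusedSectionVars false

open Set Filter Topology Complex
open scoped ContDiff ComplexConjugate

namespace Crest.Agent.R275.PCech646

open Geo Fm96

noncomputable section

variable {n : ℕ} {M : Type} [TopologicalSpace M] {A : Atl n M}

/-- smooth locally finite partition of unity subordinate to the charts of `A` -/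
structure PU (A : Atl n M) (ψ : A.ι → M → ℝ) : Prop where
  sm : ∀ l, A.Sm (ψ l)
  sub : ∀ l, tsupport (ψ l) ⊆ (A.e l).source
  lf : LocallyFinite fun l => tsupport (ψ l)
  one : ∀ x, ∑ᶠ l, ψ l x = 1

variable {ψ : A.ι → M → ℝ}

/-- real smooth functions are smooth as complex functions, in every chart -/
theorem smP_ofReal {f : M → ℝ} {i : A.ι} (hf : A.SmAt i f) {x : M} (hx : x ∈ (A.e i).source) :
    SmP A i (fun y => (f y : ℂ)) x := by
  have h1 : A.SmAt i (fun y => (f y : ℂ)) := Complex.ofRealCLM.contDiff.comp_contDiffOn hf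
  exact smAt_iff.1 h1 x hx

theorem PU.smP (hψ : PU A ψ) (l : A.ι) {i : A.ι} {x : M} (hx : x ∈ (A.e i).source) :
    SmP A i (fun y => (ψ l y : ℂ)) x := smP_ofReal (hψ.sm l i) hx

theorem PU.zero_off (l : A.ι) {x : M} (hx : x ∉ tsupport (ψ l)) : ψ l x = 0 :=
  image_eq_zero_of_notMem_tsupport hx

/-- the partition sum of a family of functions -/
def psum {ι : Type} (ψ : ι → M → ℝ) (f : ι → M → ℂ) : M → ℂ := fun x => ∑ᶠ l, (ψ l x : ℂ) * f l x

/-- near each point the partition sum is a finite sum over indices active at the point -/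
theorem PU.exists_finset (hψ : PU A ψ) (x : M) :
    ∃ s : Finset A.ι, (∀ l ∈ s, x ∈ (A.e l).source) ∧
      ∀ᶠ y in 𝓝 x, ∀ l, l ∉ s → ψ l y = 0 := by
  obtain ⟨V, hV, hfin⟩ := hψ.lf x
  classical
  refine ⟨hfin.toFinset.filter (fun l => x ∈ tsupport (ψ l)), fun l hl => ?_, ?_⟩
  · exact hψ.sub l (Finset.mem_filter.1 hl).2
  · have h1 : ∀ᶠ y in 𝓝 x, ∀ l ∈ hfin.toFinset, x ∉ tsupport (ψ l) → y ∉ tsupport (ψ l) := by
      rw [Filter.eventually_all_finset]
      intro l _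
      by_cases hx : x ∈ tsupport (ψ l)
      · exact Eventually.of_forall fun y h => absurd hx h
      · filter_upwards [(isClosed_tsupport (ψ l)).isOpen_compl.mem_nhds hx] with y hy _ using hy
    filter_upwards [hV, h1] with y hy1 hy2 l hl
    by_cases hlf : l ∈ hfin.toFinset
    · refine PU.zero_off l (hy2 l hlf fun hx => hl ?_)
      exact Finset.mem_filter.2 ⟨hlf, hx⟩
    · refine PU.zero_off l fun hx => hlf ?_
      exact hfin.mem_toFinset.2 ⟨y, hx, hy1⟩

theorem psum_eq_sum {s : Finset A.ι} {y : M} (h : ∀ l, l ∉ s → ψ l y = 0) (f : A.ι → M → ℂ) :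
    psum ψ f y = ∑ l ∈ s, (ψ l y : ℂ) * f l y := by
  refine finsum_eq_sum_of_support_subset _ fun l hl => ?_
  by_contra hls
  exact hl (by simp [h l (by simpa using hls)])

theorem psum_smP (hψ : PU A ψ) {f : A.ι → M → ℂ} {i : A.ι} {x : M} (hx : x ∈ (A.e i).source)
    (hf : ∀ l, x ∈ (A.e l).source → SmP A i (f l) x) : SmP A i (psum ψ f) x := by
  obtain ⟨s, hs, he⟩ := hψ.exists_finset x
  have h1 : SmP A i (fun y => ∑ l ∈ s, (ψ l y : ℂ) * f l y) x :=
    SmP.sum fun l hl => (hψ.smP l hx).mul (hf l (hs l hl))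
  exact h1.congr hx (he.mono fun y hy => psum_eq_sum hy f)




theorem PU.oneC (hψ : PU A ψ) (x : M) : ∑ᶠ l, (ψ l x : ℂ) = 1 := by
  obtain ⟨s, hs, he⟩ := hψ.exists_finset x
  have h0 := he.self_of_nhds
  have h1 : ∑ᶠ l, (ψ l x : ℂ) = ∑ l ∈ s, (ψ l x : ℂ) :=
    finsum_eq_sum_of_support_subset _ fun l hl => by
      by_contra hls
      exact hl (by simp [h0 l (by simpa using hls)])
  have h2 : ∑ᶠ l, ψ l x = ∑ l ∈ s, ψ l x :=
    finsum_eq_sum_of_support_subset _ fun l hl => by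
      by_contra hls
      exact hl (by simp [h0 l (by simpa using hls)])
  rw [h1, ← Complex.ofReal_sum, ← h2, hψ.one x, Complex.ofReal_one]

/-! ### linearity of `psum` at a point -/

theorem psum_congr (hψ : PU A ψ) {f g : A.ι → M → ℂ} {x : M}
    (h : ∀ l, x ∈ (A.e l).source → f l x = g l x) : psum ψ f x = psum ψ g x := by
  refine finsum_congr fun l => ?_
  by_cases hx : x ∈ tsupport (ψ l)
  · rw [h l (hψ.sub l hx)]
  · rw [PU.zero_off l hx]; simp

theorem psum_add (hψ : PU A ψ) (f g : A.ι → M → ℂ) (x : M) :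
    psum ψ (fun l y => f l y + g l y) x = psum ψ f x + psum ψ g x := by
  obtain ⟨s, hs, he⟩ := hψ.exists_finset x
  have h0 := he.self_of_nhds
  rw [psum_eq_sum h0, psum_eq_sum h0, psum_eq_sum h0, ← Finset.sum_add_distrib]
  exact Finset.sum_congr rfl fun l _ => by ring

theorem psum_sub (hψ : PU A ψ) (f g : A.ι → M → ℂ) (x : M) :
    psum ψ (fun l y => f l y - g l y) x = psum ψ f x - psum ψ g x := by
  obtain ⟨s, hs, he⟩ := hψ.exists_finset x
  have h0 := he.self_of_nhds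
  rw [psum_eq_sum h0, psum_eq_sum h0, psum_eq_sum h0, ← Finset.sum_sub_distrib]
  exact Finset.sum_congr rfl fun l _ => by ring

theorem psum_mul (hψ : PU A ψ) (a : M → ℂ) (f : A.ι → M → ℂ) (x : M) :
    psum ψ (fun l y => a y * f l y) x = a x * psum ψ f x := by
  obtain ⟨s, hs, he⟩ := hψ.exists_finset x
  have h0 := he.self_of_nhds
  rw [psum_eq_sum h0, psum_eq_sum h0, Finset.mul_sum]
  exact Finset.sum_congr rfl fun l _ => by ring

theorem psum_sum (hψ : PU A ψ) {J : Type*} (t : Finset J) (f : J → A.ι → M → ℂ) (x : M) :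
    psum ψ (fun l y => ∑ b ∈ t, f b l y) x = ∑ b ∈ t, psum ψ (f b) x := by
  obtain ⟨s, hs, he⟩ := hψ.exists_finset x
  have h0 := he.self_of_nhds
  rw [psum_eq_sum h0]
  simp only [psum_eq_sum h0]
  rw [Finset.sum_comm]
  exact Finset.sum_congr rfl fun l _ => by rw [Finset.mul_sum]

theorem psum_const (hψ : PU A ψ) {f : A.ι → M → ℂ} {x : M} {c : ℂ}
    (h : ∀ l, x ∈ (A.e l).source → f l x = c) : psum ψ f x = c := by
  rw [psum_congr hψ (g := fun _ _ => c) h]
  have h1 : psum ψ (fun _ _ => c) x = c * ∑ᶠ l, (ψ l x : ℂ) := by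
    have h2 := psum_mul hψ (fun _ => c) (fun _ _ => (1 : ℂ)) x
    simp only [mul_one] at h2
    rw [h2]
    congr 1
    simp [psum]
  rw [h1, hψ.oneC, mul_one]

/-! ### the form part -/

/-- a `(0,1)`-form `w`, given in the chart `j`, read in the chart `i` -/
def pl (A : Atl n M) (i j : A.ι) (w : M → Fin n → ℂ) : M → Fin n → ℂ := fun x b =>
  ∑ c, conj (A.J i j x c b) * w x c

/-- `∂̄` of a function in the chart `i` -/
def dbf (A : Atl n M) (i : A.ι) (f : M → ℂ) : M → Fin n → ℂ := fun x b => A.db i b f x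

theorem dbf_pl {i j : A.ι} {f : M → ℂ} {x : M} (hf : SmP A j f x)
    (hx : x ∈ (A.e i).source ∩ (A.e j).source) : pl A i j (dbf A j f) x = dbf A i f x := by
  funext b
  exact (db_chain b hf hx).symm

/-- the partition sum of `(0,1)`-forms, all read in the same chart -/
def psumF {ι : Type} (ψ : ι → M → ℝ) (w : ι → M → Fin n → ℂ) : M → Fin n → ℂ := fun x b =>
  psum ψ (fun l y => w l y b) x



theorem psumF_sub (hψ : PU A ψ) (f g : A.ι → M → Fin n → ℂ) (x : M) :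
    psumF ψ (fun l y => f l y - g l y) x = psumF ψ f x - psumF ψ g x := by
  funext b
  exact psum_sub hψ _ _ x

theorem psumF_const (hψ : PU A ψ) {f : A.ι → M → Fin n → ℂ} {x : M} {c : Fin n → ℂ}
    (h : ∀ l, x ∈ (A.e l).source → f l x = c) : psumF ψ f x = c := by
  funext b
  exact psum_const hψ fun l hl => by rw [h l hl]

theorem pl_psumF (hψ : PU A ψ) (i j : A.ι) (w : A.ι → M → Fin n → ℂ) (x : M) :
    pl A i j (psumF ψ w) x = psumF ψ (fun l => pl A i j (w l)) x := by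
  funext b
  simp only [pl, psumF]
  rw [psum_sum hψ]
  refine Finset.sum_congr rfl fun c _ => ?_
  rw [psum_mul hψ (fun y => conj (A.J i j y c b))]

theorem psumF_smP (hψ : PU A ψ) {w : A.ι → M → Fin n → ℂ} {i : A.ι} {x : M}
    (hx : x ∈ (A.e i).source) (b : Fin n)
    (hf : ∀ l, x ∈ (A.e l).source → SmP A i (fun y => w l y b) x) :
    SmP A i (fun y => psumF ψ w y b) x := psum_smP hψ hx hf

/-! ### one-cochains of functions whose coboundary is locally constant -/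

/-- smooth one-cochains `φ i j` on the overlaps whose coboundary is locally constant -/
structure SC1 (A : Atl n M) (φ : A.ι → A.ι → M → ℂ) : Prop where
  sm : ∀ i j, ∀ x ∈ (A.e i).source ∩ (A.e j).source, SmP A i (φ i j) x
  cc : ∀ i j k, ∀ x ∈ (A.e i).source ∩ (A.e j).source ∩ (A.e k).source,
    dbf A i (φ j k) x - dbf A i (φ i k) x + dbf A i (φ i j) x = 0

variable {φ : A.ι → A.ι → M → ℂ}

theorem SC1.sm' (h : SC1 A φ) (k : A.ι) {i j : A.ι} {x : M}
    (hx : x ∈ (A.e i).source ∩ (A.e j).source) (hk : x ∈ (A.e k).source) :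
    SmP A k (φ i j) x := (h.sm i j x hx).change ⟨hk, hx.1⟩

/-- cocycle identity for the forms, in any chart -/
theorem SC1.cc' (h : SC1 A φ) {m i j k : A.ι} {x : M} (hm : x ∈ (A.e m).source)
    (hi : x ∈ (A.e i).source) (hj : x ∈ (A.e j).source) (hk : x ∈ (A.e k).source) :
    dbf A m (φ j k) x - dbf A m (φ i k) x + dbf A m (φ i j) x = 0 := by
  have h0 := h.cc i j k x ⟨⟨hi, hj⟩, hk⟩
  rw [← dbf_pl (h.sm' i ⟨hj, hk⟩ hi) ⟨hm, hi⟩, ← dbf_pl (h.sm' i ⟨hi, hk⟩ hi) ⟨hm, hi⟩,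
    ← dbf_pl (h.sm' i ⟨hi, hj⟩ hi) ⟨hm, hi⟩]
  funext b
  have h1 : ∀ c, dbf A i (φ j k) x c - dbf A i (φ i k) x c + dbf A i (φ i j) x c = 0 :=
    fun c => congrFun h0 c
  simp only [Pi.add_apply, Pi.sub_apply, Pi.zero_apply, pl]
  rw [← Finset.sum_sub_distrib, ← Finset.sum_add_distrib]
  refine Finset.sum_eq_zero fun c _ => ?_
  linear_combination conj (A.J m i x c b) * h1 c

/-- the zero-cochain of forms `v i = ∑ l, ψ l ∂̄ φ l i` (read in the chart `i`) -/
def vf (A : Atl n M) (ψ : A.ι → M → ℝ) (φ : A.ι → A.ι → M → ℂ) (i : A.ι) : M → Fin n → ℂ :=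
  psumF ψ fun l => dbf A i (φ l i)

theorem vf_smP (hψ : PU A ψ) (h : SC1 A φ) {i : A.ι} {x : M} (hx : x ∈ (A.e i).source)
    (b : Fin n) : SmP A i (fun y => vf A ψ φ i y b) x :=
  psumF_smP hψ hx b fun _ hl => SmP.db b (h.sm' i ⟨hl, hx⟩ hx) hx

/-- `v j - v i = ∂̄ φ i j` -/
theorem vf_sub (hψ : PU A ψ) (h : SC1 A φ) {i j : A.ι} {x : M}
    (hx : x ∈ (A.e i).source ∩ (A.e j).source) :
    pl A i j (vf A ψ φ j) x - vf A ψ φ i x = dbf A i (φ i j) x := by
  unfold vf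
  rw [pl_psumF hψ, ← psumF_sub hψ]
  refine psumF_const hψ fun l hl => ?_
  rw [dbf_pl (h.sm' j ⟨hl, hx.2⟩ hx.2) hx]
  have h1 := h.cc' (m := i) (i := l) (j := i) (k := j) hx.1 hl hx.1 hx.2
  rw [← sub_eq_zero]
  rw [← neg_eq_zero, ← h1]
  abel

/-! ### the theta construction -/

/-- EX, algebraic part: if `∂̄ (f i) = v i - α i` near the points of `W i` with `α` a global form
then `θ i j = φ i j - f j + f i` is holomorphic on `W i ∩ W j`. -/
theorem theta_holP (hψ : PU A ψ) (h : SC1 A φ) {α : A.ι → M → Fin n → ℂ}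
    (hα : ∀ i j, ∀ x ∈ (A.e i).source ∩ (A.e j).source, α i x = pl A i j (α j) x)
    {W : A.ι → Set M} (hWo : ∀ i, IsOpen (W i)) (hW : ∀ i, W i ⊆ (A.e i).source)
    {f : A.ι → M → ℂ} (hf : ∀ i, ∀ x ∈ W i, SmP A i (f i) x)
    (hdf : ∀ i, ∀ x ∈ W i, dbf A i (f i) x = vf A ψ φ i x - α i x) {i j : A.ι} {x : M}
    (hx : x ∈ W i ∩ W j) : HolP A i (fun y => φ i j y - f j y + f i y) x := by
  have hfj : ∀ y ∈ W i ∩ W j, SmP A i (f j) y := fun y hy =>
    (hf j y hy.2).change ⟨hW i hy.1, hW j hy.2⟩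
  have hφ : ∀ y ∈ W i ∩ W j, SmP A i (φ i j) y := fun y hy =>
    h.sm i j y ⟨hW i hy.1, hW j hy.2⟩
  refine holP_of_db (hW i hx.1) (((hφ x hx).sub (hfj x hx)).add (hf i x hx.1)) ?_
  filter_upwards [((hWo i).inter (hWo j)).mem_nhds hx] with y hy a
  have hy' : y ∈ (A.e i).source ∩ (A.e j).source := ⟨hW i hy.1, hW j hy.2⟩
  rw [db_addP (f := fun y => φ i j y - f j y) (g := f i) a ((hφ y hy).sub (hfj y hy)) (hf i y hy.1),
    db_subP a (hφ y hy) (hfj y hy)]
  have e1 : A.db i a (f i) y = vf A ψ φ i y a - α i y a := congrFun (hdf i y hy.1) a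
  have e2 : A.db i a (f j) y = pl A i j (vf A ψ φ j) y a - α i y a := by
    have h1 : A.db i a (f j) y = dbf A i (f j) y a := rfl
    rw [h1, ← dbf_pl (hf j y hy.2) hy', hα i j y hy']
    simp only [pl]
    rw [← Finset.sum_sub_distrib]
    refine Finset.sum_congr rfl fun c _ => ?_
    rw [hdf j y hy.2]
    simp only [Pi.sub_apply]
    ring
  have e3 := congrFun (vf_sub hψ h hy') a
  simp only [Pi.sub_apply, dbf] at e3
  rw [e1, e2]
  linear_combination -e3

/-! ### integral cocycles -/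

section integral

variable {c : A.ι → A.ι → A.ι → ℤ}

open TopK106

/-- the sets of the cover given by the charts -/
abbrev src (A : Atl n M) : A.ι → Set M := fun i => (A.e i).source

/-- `φ i j = ∑ l, ψ l c l i j` -/
def ph {ι : Type} (ψ : ι → M → ℝ) (c : ι → ι → ι → ℤ) (i j : ι) : M → ℂ :=
  psum ψ fun l _ => (c l i j : ℂ)

theorem ph_smP (hψ : PU A ψ) (c : A.ι → A.ι → A.ι → ℤ) (i j : A.ι) {k : A.ι} {x : M}
    (hx : x ∈ (A.e k).source) : SmP A k (ph ψ c i j) x :=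
  psum_smP hψ hx fun _ _ => SmP.const _

theorem ph_coc (hψ : PU A ψ) (hc : IsZ2 (src A) c) {i j k : A.ι} {x : M}
    (hx : x ∈ (A.e i).source ∩ (A.e j).source ∩ (A.e k).source) :
    ph ψ c j k x - ph ψ c i k x + ph ψ c i j x = c i j k := by
  unfold ph
  rw [← psum_sub hψ, ← psum_add hψ]
  refine psum_const hψ fun l hl => ?_
  have h1 := hc l i j k ⟨x, ⟨⟨hl, hx.1.1⟩, hx.1.2⟩, hx.2⟩
  have h2 : ((c i j k - c l j k + c l i k - c l i j : ℤ) : ℂ) = 0 := by rw [h1]; simp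
  push_cast at h2
  linear_combination -h2

theorem sc1_ph (hψ : PU A ψ) (hc : IsZ2 (src A) c) : SC1 A (ph ψ c) where
  sm i j x hx := ph_smP hψ c i j hx.1
  cc i j k x hx := by
    have hU : (A.e i).source ∩ (A.e j).source ∩ (A.e k).source ∈ 𝓝 x :=
      (((A.e i).open_source.inter (A.e j).open_source).inter (A.e k).open_source).mem_nhds hx
    funext b
    simp only [Pi.add_apply, Pi.sub_apply, Pi.zero_apply, dbf]
    rw [← db_subP b (ph_smP hψ c j k hx.1.1) (ph_smP hψ c i k hx.1.1),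
      ← db_addP (f := fun y => ph ψ c j k y - ph ψ c i k y) b
        ((ph_smP hψ c j k hx.1.1).sub (ph_smP hψ c i k hx.1.1)) (ph_smP hψ c i j hx.1.1)]
    rw [db_congr (g := fun _ => ((c i j k : ℤ) : ℂ)) hx.1.1
      (by filter_upwards [hU] with y hy using ph_coc hψ hc hy)]
    exact db_constP b _

/-- `δ θ = c` -/
theorem theta_coc (hψ : PU A ψ) (hc : IsZ2 (src A) c) (f : A.ι → M → ℂ) {i j k : A.ι} {x : M}
    (hx : x ∈ (A.e i).source ∩ (A.e j).source ∩ (A.e k).source) :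
    (ph ψ c j k x - f k x + f j x) - (ph ψ c i k x - f k x + f i x)
      + (ph ψ c i j x - f j x + f i x) = c i j k := by
  linear_combination ph_coc hψ hc hx

end integral

/-! ### dimension two: `∂̄` on `(0,1)`-forms -/

section two

variable {A : Atl 2 M} {ψ : A.ι → M → ℝ} {φ : A.ι → A.ι → M → ℂ}

/-- coefficient of `dz̄₀ ∧ dz̄₁` of `∂̄ w` in the chart `i` -/
def Df (A : Atl 2 M) (i : A.ι) (w : M → Fin 2 → ℂ) (x : M) : ℂ :=
  A.db i 0 (fun y => w y 1) x - A.db i 1 (fun y => w y 0) x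

theorem d1_eq_Df {u : A.ι → M → Fin 2 → ℂ} {i : A.ι} {x : M} (hx : x ∈ (A.e i).source) :
    d1 A u i x = Df A i (u i) x := d1_of_mem hx


theorem pl_smP {i j : A.ι} {w : M → Fin 2 → ℂ} {x : M}
    (hw : ∀ c, SmP A j (fun y => w y c) x) (hx : x ∈ (A.e i).source ∩ (A.e j).source) (b : Fin 2) :
    SmP A i (fun y => pl A i j w y b) x :=
  SmP.sum fun c _ => ((J_holP hx c b).smP.conj).mul ((hw c).change hx)

theorem Df_pl {i j : A.ι} {w : M → Fin 2 → ℂ} {x : M} (hw : ∀ c, SmP A j (fun y => w y c) x)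
    (hx : x ∈ (A.e i).source ∩ (A.e j).source) :
    Df A i (pl A i j w) x = dJ A i j x * Df A j w x := by
  have hJ : ∀ c b, SmP A i (fun y => conj (A.J i j y c b)) x := fun c b => (J_holP hx c b).smP.conj
  have hwi : ∀ c, SmP A i (fun y => w y c) x := fun c => (hw c).change hx
  have h1 : ∀ a b : Fin 2, A.db i a (fun y => pl A i j w y b) x =
      ∑ c, (A.db i a (fun y => conj (A.J i j y c b)) x * w x c
        + conj (A.J i j x c b) * A.db i a (fun y => w y c) x) := by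
    intro a b
    unfold pl
    rw [db_sumP a (fun c _ => (hJ c b).mul (hwi c))]
    exact Finset.sum_congr rfl fun c _ => db_mulP a (hJ c b) (hwi c) hx.1
  have h2 : ∀ (a c : Fin 2), A.db i a (fun y => w y c) x =
      ∑ d, conj (A.J i j x d a) * A.db j d (fun y => w y c) x := fun a c => db_chain a (hw c) hx
  unfold Df dJ
  rw [h1 0 1, h1 1 0]
  simp only [h2, Fin.sum_univ_two, db_conjJ_symm hx 0 0 1, db_conjJ_symm hx 1 0 1]
  ring

theorem Df_congr {i : A.ι} {w w' : M → Fin 2 → ℂ} {x : M} (hx : x ∈ (A.e i).source)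
    (h : w =ᶠ[𝓝 x] w') : Df A i w x = Df A i w' x := by
  unfold Df
  rw [db_congr (f := fun y => w y 1) (g := fun y => w' y 1) hx (h.mono fun y hy => by simp [hy]),
    db_congr (f := fun y => w y 0) (g := fun y => w' y 0) hx (h.mono fun y hy => by simp [hy])]

theorem Df_add {i : A.ι} {w w' : M → Fin 2 → ℂ} {x : M} (hw : ∀ c, SmP A i (fun y => w y c) x)
    (hw' : ∀ c, SmP A i (fun y => w' y c) x) :
    Df A i (fun y => w y + w' y) x = Df A i w x + Df A i w' x := by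
  unfold Df
  simp only [Pi.add_apply]
  rw [db_addP 0 (hw 1) (hw' 1), db_addP 1 (hw 0) (hw' 0)]
  ring

theorem Df_sub {i : A.ι} {w w' : M → Fin 2 → ℂ} {x : M} (hw : ∀ c, SmP A i (fun y => w y c) x)
    (hw' : ∀ c, SmP A i (fun y => w' y c) x) :
    Df A i (fun y => w y - w' y) x = Df A i w x - Df A i w' x := by
  unfold Df
  simp only [Pi.sub_apply]
  rw [db_subP 0 (hw 1) (hw' 1), db_subP 1 (hw 0) (hw' 0)]
  ring

theorem Df_dbf {i : A.ι} {f : M → ℂ} {x : M} (hx : x ∈ (A.e i).source) (hf : SmP A i f x) :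
    Df A i (dbf A i f) x = 0 := by
  unfold Df dbf
  have h := db_comm (0 : Fin 2) 1 hf hx
  rw [sub_eq_zero]
  exact h

/-- the curvature form `ω = ∂̄ v`, `ω i = ∂̄ (v i)` -/
def om (A : Atl 2 M) (ψ : A.ι → M → ℝ) (φ : A.ι → A.ι → M → ℂ) : A.ι → M → ℂ :=
  d1 A (vf A ψ φ)

/-- `ω` is a global `(0,2)`-form -/
theorem isZ2_om (hψ : PU A ψ) (h : SC1 A φ) : Fm96.IsZ2 A 1 univ (om A ψ φ) where
  sm i x hx _ := by
    refine (((vf_smP hψ h hx 1).db 0 hx).sub ((vf_smP hψ h hx 0).db 1 hx)).congr hx ?_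
    filter_upwards [src_nhds hx] with y hy
    exact d1_of_mem hy
  off i x hx := d1_of_not_mem hx
  tr i j x hx _ := by
    unfold om
    rw [d1_eq_Df hx.1, d1_eq_Df hx.2]
    simp only [Pi.one_apply, one_mul]
    have h1 : Df A i (pl A i j (vf A ψ φ j)) x = dJ A i j x * Df A j (vf A ψ φ j) x :=
      Df_pl (fun c => vf_smP hψ h hx.2 c) hx
    rw [← h1]
    have h2 : pl A i j (vf A ψ φ j) =ᶠ[𝓝 x] fun y => vf A ψ φ i y + dbf A i (φ i j) y := by
      filter_upwards [ov_nhds hx] with y hy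
      rw [← vf_sub hψ h hy]
      abel
    rw [Df_congr hx.1 h2, Df_add (w' := dbf A i (φ i j)) (fun c => vf_smP hψ h hx.1 c)
      (fun c => (h.sm i j x hx).db c hx.1), Df_dbf hx.1 (h.sm i j x hx), add_zero]

/-- `v i - α i` is closed when `∂̄ α = ω` -/
theorem Df_vf_sub (hψ : PU A ψ) (h : SC1 A φ) {α : A.ι → M → Fin 2 → ℂ} {i : A.ι} {x : M}
    (hx : x ∈ (A.e i).source) (hα : ∀ c, SmP A i (fun y => α i y c) x)
    (hd : d1 A α i x = om A ψ φ i x) :
    Df A i (fun y => vf A ψ φ i y - α i y) x = 0 := by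
  rw [d1_eq_Df hx] at hd
  rw [Df_sub (fun c => vf_smP hψ h hx c) hα, hd]
  unfold om
  rw [d1_eq_Df hx, sub_self]

/-! ### one-cocycles of functions -/



/-- smooth one-cocycles of functions -/
structure ZC1 (A : Atl 2 M) (τ : A.ι → A.ι → M → ℂ) : Prop where
  sm : ∀ i j, ∀ x ∈ (A.e i).source ∩ (A.e j).source, SmP A i (τ i j) x
  coc : ∀ i j k, ∀ x ∈ (A.e i).source ∩ (A.e j).source ∩ (A.e k).source,
    τ j k x - τ i k x + τ i j x = 0






end two

end

end Crest.Agent.R275.PCech646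
end

-- ▼ part R275/PEx_646
section

/-!
# R275, block P (helper646): EX — existence of the logarithms `θ` of the end line bundle `E_c`

`N : NAtl 2 Y`, `c` an integral 2-cocycle with finite support on the nerve of the big balls,
`ψ` a partition of unity subordinate to the small balls, `φ i j = ∑ ψ_l c_lij`,
`v i = ∑ ψ_l ∂̄ φ_li`, `ω = ∂̄ v` (compactly supported global `(0,2)`-form), `α` a global
`(0,1)`-form with `∂̄ α = ω`, `|α| ≤ C exp (-R |h|)` on the balls of radius `8 r`.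
Then there are `θ i j` holomorphic on the small overlaps with `δ θ = c` and
`|θ i j| ≤ C' exp (-R |h|)`.
-/

set_option autoImplicit false
set_option linter.unusedSectionVars false

open Set Filter Topology Complex Metric
open scoped ContDiff ComplexConjugate

namespace Crest.Agent.R275.PEx646

open Geo Fm96 PCech646 NAtl938

noncomputable section

variable {Y : Type} [TopologicalSpace Y] {N : NAtl 2 Y}

/-- 509's partitions of unity -/
theorem pu_of_part {n : ℕ} {M : Type} [TopologicalSpace M] {A : Atl n M} (P : Part A) :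
    PU A P.ψ where
  sm := P.ψ_sm
  sub l := GC293.tsupport_psi_source P l
  lf x := by
    obtain ⟨K, hK, hKx⟩ := GC293.exists_compact_nhds A x
    refine ⟨K, hKx, (P.lf K hK).subset ?_⟩
    rintro l ⟨y, hy, hyK⟩
    exact ⟨y, GC293.tsupport_psi_sub P l hy, hyK⟩
  one := P.sum_one

/-! ### comparison of the atlases of different radii -/

section radii

variable {ρ σ : ℝ} {hρ : N.r ≤ ρ} {hσ : N.r ≤ σ}


theorem holP_iff {i : N.ι} {f : Y → ℂ} {x : Y} :
    HolP (N.at' ρ hρ) i f x ↔ HolP (N.at' σ hσ) i f x := Iff.rfl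


theorem sm_src (i : N.ι) : (N.sm.e i).source = N.B N.r i := N.at'_source _ i

theorem mem_big {m : N.ι} {x : Y} (hx : x ∈ (N.E m).source) : x ∈ (N.big.e m).source := by
  rw [N.big_source]; exact hx

theorem mem_at (hρ : N.r ≤ ρ) {m : N.ι} {x : Y} (hx : x ∈ N.B ρ m) :
    x ∈ ((N.at' ρ hρ).e m).source := by
  rw [N.at'_source]; exact hx

theorem of_mem_at (hρ : N.r ≤ ρ) {m : N.ι} {x : Y} (hx : x ∈ ((N.at' ρ hρ).e m).source) :
    x ∈ N.B ρ m := by
  rwa [N.at'_source] at hx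

theorem at_src (hρ : N.r ≤ ρ) (i : N.ι) : ((N.at' ρ hρ).e i).source = N.B ρ i := N.at'_source _ i

/-- a partition of unity subordinate to the small balls, seen in the atlas of radius `ρ` -/
theorem pu_at {ψ : N.ι → Y → ℝ} (hψ : PU N.sm ψ) (hρ : N.r ≤ ρ) : PU (N.at' ρ hρ) ψ where
  sm l := by
    refine (QN2b734.sm_iff (A := N.at' ρ hρ)).2 fun x => ?_
    obtain ⟨j, hj⟩ := N.sm.cover x
    have h1 : QN2b734.SmP N.sm (ψ l) x := QN2b734.sm_iff.1 (hψ.sm l) x
    refine QN2b734.smP_of (A := N.at' ρ hρ) (i := j) ?_ (h1 j hj)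
    have h2 : x ∈ N.B N.r j := (sm_src j) ▸ hj
    exact (at_src hρ j) ▸ (N.B_mono hρ j h2)
  sub l := by
    have h1 : tsupport (ψ l) ⊆ N.B N.r l := (sm_src l) ▸ (hψ.sub l)
    exact (at_src hρ l) ▸ (h1.trans (N.B_mono hρ l))
  lf := hψ.lf
  one := hψ.one


end radii

/-! ### bounds -/

theorem bdd_on_B {i : N.ι} {f : Y → ℂ} (hf : ∀ x ∈ (N.E i).source, SmP N.big i f x) {ρ : ℝ}
    (hρ : ρ < N.R) : ∃ C : ℝ, ∀ x ∈ N.B ρ i, ‖f x‖ ≤ C := by
  have h1 : ContinuousOn (fun z => f ((N.E i).symm z)) (closedBall N.z₀ ρ) := by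
    intro z hz
    have hzR : z ∈ ball N.z₀ N.R := closedBall_subset_ball hρ hz
    have h2 := N.symm_mem_B le_rfl (i := i) hzR
    have h3 := (hf _ h2.1.1).self.continuousAt
    have h4 : N.big.e i ((N.E i).symm z) = z := h2.2
    rw [h4] at h3
    exact h3.continuousWithinAt
  obtain ⟨C, hC⟩ := (isCompact_closedBall N.z₀ ρ).exists_bound_of_continuousOn h1
  refine ⟨C, fun x hx => ?_⟩
  have := hC (N.E i x) (ball_subset_closedBall hx.2)
  rwa [(N.E i).left_inv hx.1] at this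

theorem exp_comp {g : Y ≃ₜ Y} {h : Y → ℝ} (Pr : N.Per g h) {R : ℝ} (hR : 0 ≤ R) {i : N.ι}
    {x y : Y} (hx : x ∈ (N.E i).source) (hy : y ∈ (N.E i).source) :
    Real.exp (-R * |h y|) ≤ Real.exp (R * Pr.W) * Real.exp (-R * |h x|) := by
  rw [← Real.exp_add]
  apply Real.exp_le_exp.2
  have h1 := Pr.osc i x hx y hy
  have h2 : |h x| - |h y| ≤ |h x - h y| := abs_sub_abs_le_abs_sub _ _
  nlinarith

/-- functions on finitely many balls are bounded by any weight -/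
theorem bdd_weight {g : Y ≃ₜ Y} {h : Y → ℝ} (Pr : N.Per g h) {R : ℝ} (hR : 0 ≤ R) {ρ : ℝ}
    {T : Type*} (S : Finset T) (ix : T → N.ι) (f : T → Y → ℂ)
    (hb : ∀ t ∈ S, ∃ C : ℝ, ∀ x ∈ N.B ρ (ix t), ‖f t x‖ ≤ C) :
    ∃ C : ℝ, 0 ≤ C ∧ ∀ t ∈ S, ∀ x ∈ N.B ρ (ix t), ‖f t x‖ ≤ C * Real.exp (-R * |h x|) := by
  have h1 : ∀ t ∈ S, ∃ C : ℝ, 0 ≤ C ∧ ∀ x ∈ N.B ρ (ix t), ‖f t x‖ ≤ C * Real.exp (-R * |h x|) := by
    intro t ht
    by_cases hne : (N.B ρ (ix t)).Nonempty
    · obtain ⟨x₀, hx₀⟩ := hne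
      obtain ⟨C, hC⟩ := hb t ht
      refine ⟨max C 0 * (Real.exp (R * Pr.W) / Real.exp (-R * |h x₀|)), by positivity,
        fun x hx => ?_⟩
      have h2 := exp_comp Pr hR hx.1 hx₀.1
      have h3 : (1 : ℝ) ≤ Real.exp (R * Pr.W) / Real.exp (-R * |h x₀|) * Real.exp (-R * |h x|) := by
        rw [div_mul_eq_mul_div, le_div_iff₀ (Real.exp_pos _), one_mul]
        exact h2
      calc ‖f t x‖ ≤ max C 0 * 1 := by rw [mul_one]; exact (hC x hx).trans (le_max_left _ _)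
        _ ≤ max C 0 * (Real.exp (R * Pr.W) / Real.exp (-R * |h x₀|) * Real.exp (-R * |h x|)) :=
          mul_le_mul_of_nonneg_left h3 (le_max_right _ _)
        _ = _ := by ring
    · exact ⟨0, le_rfl, fun x hx => absurd ⟨x, hx⟩ hne⟩
  choose! C hC0 hC using h1
  refine ⟨∑ t ∈ S, C t, Finset.sum_nonneg hC0, fun t ht x hx => (hC t ht x hx).trans ?_⟩
  exact mul_le_mul_of_nonneg_right (Finset.single_le_sum (f := C) hC0 ht) (Real.exp_pos _).le

/-! ### the local solution -/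

theorem r8_lt : 8 * N.r < N.R := N.r_lt

/-- the middle atlas: balls of radius `8 r` -/
abbrev mid (N : NAtl 2 Y) : Atl 2 Y := N.at' (8 * N.r) (by have := N.r_pos; linarith)

theorem solve_chart (N : NAtl 2 Y) : ∃ K : ℝ, 0 ≤ K ∧ ∀ (i : N.ι) (u : Y → Fin 2 → ℂ) (M : ℝ),
    (∀ x ∈ N.B (8 * N.r) i, ∀ b, SmP (mid N) i (fun y => u y b) x) →
    (∀ x ∈ N.B (8 * N.r) i, Df (mid N) i u x = 0) →
    (∀ x ∈ N.B (8 * N.r) i, ∀ b, ‖u x b‖ ≤ M) →
    ∃ f : Y → ℂ, (∀ x ∈ N.B N.r i, SmP (mid N) i f x) ∧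
      (∀ x ∈ N.B N.r i, dbf (mid N) i f x = u x) ∧ ∀ x, ‖f x‖ ≤ K * M := by
  obtain ⟨K, hK, hsol⟩ := DolB511.solve_ball_bdd N.z₀ N.r_pos
  refine ⟨K, hK, fun i u M hsm hcl hM => ?_⟩
  have hpt : ∀ z ∈ ball N.z₀ (8 * N.r), (N.E i).symm z ∈ N.B (8 * N.r) i ∧
      N.E i ((N.E i).symm z) = z := fun z hz => N.symm_mem_B r8_lt.le hz
  obtain ⟨f, hf, hdf, hbf⟩ := hsol (fun a z => u ((N.E i).symm z) a) M
    (fun a z hz => by
      have h1 := (hsm _ (hpt z hz).1 a).self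
      have h2 : (mid N).e i ((N.E i).symm z) = z := (hpt z hz).2
      rw [h2] at h1
      exact h1.contDiffWithinAt)
    (fun z hz => by
      have h1 := hcl _ (hpt z hz).1
      have h2 : (mid N).e i ((N.E i).symm z) = z := (hpt z hz).2
      unfold Df Atl.db at h1
      rw [h2] at h1
      exact (sub_eq_zero.1 h1).symm)
    (fun a z hz => hM _ (hpt z hz).1 a)
  have hev : ∀ x ∈ N.B N.r i, ∀ᶠ z in 𝓝 (N.E i x), f (N.E i ((N.E i).symm z)) = f z := by
    intro x hx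
    filter_upwards [(N.E i).open_target.mem_nhds ((N.E i).map_source hx.1)] with z hz
    rw [(N.E i).right_inv hz]
  refine ⟨fun x => f (N.E i x), fun x hx => ?_, fun x hx => ?_, fun x => hbf _⟩
  · filter_upwards [(hev x hx).eventually_nhds] with z hz
    exact hf.contDiffAt.congr_of_eventuallyEq hz
  · funext b
    have h1 : (mid N).db i b (fun x => f (N.E i x)) x = dbj b f (N.E i x) :=
      Fm96.dbj_congr (hev x hx)
    have h2 := hdf b (N.E i x) hx.2
    rw [(N.E i).left_inv hx.1] at h2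
    exact h1.trans h2

/-! ### finite supports -/

theorem ph_eq_zero {ι : Type} {ψ : ι → Y → ℝ} {c : ι → ι → ι → ℤ} {i j : ι}
    (h : ∀ l, c l i j = 0) : ph ψ c i j = fun _ => 0 := by
  funext x
  simp [ph, psum, h]

theorem vf_eq_zero {A : Atl 2 Y} {ψ : A.ι → Y → ℝ} {c : A.ι → A.ι → A.ι → ℤ} {i : A.ι}
    (h : ∀ l k, c l k i = 0) (x : Y) : vf A ψ (ph ψ c) i x = 0 := by
  funext b
  have h1 : ∀ l, ph ψ c l i = fun _ => 0 := fun l => ph_eq_zero fun k => h k l
  simp [vf, psumF, psum, dbf, h1, db_constP]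

theorem vf_at {ρ σ : ℝ} (hρ : N.r ≤ ρ) (hσ : N.r ≤ σ) (ψ : N.ι → Y → ℝ)
    (φ : N.ι → N.ι → Y → ℂ) (i : N.ι) : vf (N.at' ρ hρ) ψ φ i = vf (N.at' σ hσ) ψ φ i := rfl

/-- bounds for `φ` and `v` -/
theorem bounds {g : Y ≃ₜ Y} {h : Y → ℝ} (Pr : N.Per g h)
    {ψ : N.ι → Y → ℝ} (hψ : PU N.sm ψ) {c : N.ι → N.ι → N.ι → ℤ}
    (hc : c ∈ GC293.Z2 N.big ℤ) (hfin : Fin3 c) {R : ℝ} (hR : 0 ≤ R) {ρ : ℝ} (hρr : N.r ≤ ρ)
    (hρ : ρ < N.R) :
    ∃ D : ℝ, 0 ≤ D ∧ (∀ i j, ∀ x ∈ N.B ρ i, ‖ph ψ c i j x‖ ≤ D * Real.exp (-R * |h x|)) ∧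
      ∀ i, ∀ x ∈ N.B ρ i, ∀ b,
        ‖vf (N.at' ρ hρr) ψ (ph ψ c) i x b‖ ≤ D * Real.exp (-R * |h x|) := by
  classical
  have hψb : PU N.big ψ := pu_at hψ N.r_le_R
  have hcb : TopK106.IsZ2 (src N.big) c := hc
  have hSb : SC1 N.big (ph ψ c) := sc1_ph hψb hcb
  obtain ⟨Cv, hCv0, hCv⟩ := bdd_weight Pr hR (ρ := ρ)
    ((hfin.toFinset.image fun p => p.2.2) ×ˢ (Finset.univ : Finset (Fin 2)))
    (fun t : N.ι × Fin 2 => t.1) (fun t x => vf N.big ψ (ph ψ c) t.1 x t.2)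
    (fun t _ => bdd_on_B (fun x hx => vf_smP hψb hSb (mem_big hx) t.2) hρ)
  obtain ⟨Cp, hCp0, hCp⟩ := bdd_weight Pr hR (ρ := ρ)
    (hfin.toFinset.image fun p => (p.2.1, p.2.2))
    (fun t : N.ι × N.ι => t.1) (fun t x => ph ψ c t.1 t.2 x)
    (fun t _ => bdd_on_B (i := t.1) (f := ph ψ c t.1 t.2)
      (fun x hx => ph_smP hψb c t.1 t.2 (mem_big hx)) hρ)
  refine ⟨Cv + Cp, by positivity, fun i j x hx => ?_, fun i x hx b => ?_⟩
  · by_cases hi : (i, j) ∈ hfin.toFinset.image fun p => (p.2.1, p.2.2)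
    · refine (hCp (i, j) hi x hx).trans ?_
      exact mul_le_mul_of_nonneg_right (by linarith) (Real.exp_pos _).le
    · have h0 : ‖ph ψ c i j x‖ = 0 := by
        refine norm_eq_zero.2 (congrFun (ph_eq_zero fun l => ?_) x)
        by_contra hne
        exact hi (Finset.mem_image.2 ⟨(l, i, j), hfin.mem_toFinset.2 hne, rfl⟩)
      exact h0.le.trans (by positivity)
  · by_cases hi : i ∈ hfin.toFinset.image fun p => p.2.2
    · have e0 : vf (N.at' ρ hρr) ψ (ph ψ c) i = vf N.big ψ (ph ψ c) i :=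
        vf_at hρr N.r_le_R ψ (ph ψ c) i
      refine (congrArg (fun w : Y → Fin 2 → ℂ => ‖w x b‖) e0).le.trans ?_
      refine (hCv (i, b) (Finset.mem_product.2 ⟨hi, Finset.mem_univ _⟩) x hx).trans ?_
      exact mul_le_mul_of_nonneg_right (by linarith) (Real.exp_pos _).le
    · have h0 : ‖vf (N.at' ρ hρr) ψ (ph ψ c) i x b‖ = 0 := by
        refine norm_eq_zero.2 (congrFun (vf_eq_zero (A := N.at' ρ hρr) (fun l k => ?_) x) b)
        by_contra hne
        exact hi (Finset.mem_image.2 ⟨(l, k, i), hfin.mem_toFinset.2 hne, rfl⟩)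
      exact h0.le.trans (by positivity)

/-! ### EX -/

theorem coc_at {ρ : ℝ} (hρr : N.r ≤ ρ) {c : N.ι → N.ι → N.ι → ℤ}
    (hc : c ∈ GC293.Z2 N.big ℤ) : TopK106.IsZ2 (src (N.at' ρ hρr)) c := by
  rintro i j k l ⟨x, ⟨⟨h1, h2⟩, h3⟩, h4⟩
  have e : ∀ m : N.ι, x ∈ src (N.at' ρ hρr) m → x ∈ src N.big m := fun m hm =>
    mem_big (of_mem_at hρr hm).1
  exact hc i j k l ⟨x, ⟨⟨e i h1, e j h2⟩, e k h3⟩, e l h4⟩

theorem exists_theta (N : NAtl 2 Y) {g : Y ≃ₜ Y} {h : Y → ℝ} (Pr : N.Per g h)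
    {ψ : N.ι → Y → ℝ} (hψ : PU N.sm ψ) {c : N.ι → N.ι → N.ι → ℤ}
    (hc : c ∈ GC293.Z2 N.big ℤ) (hfin : Fin3 c) {R C : ℝ} (hR : 0 ≤ R)
    {α : N.ι → Y → Fin 2 → ℂ} (hα : IsZ1 (mid N) 1 univ α)
    (hd : d1 (mid N) α = om (mid N) ψ (ph ψ c))
    (hb : ∀ i, ∀ x ∈ N.B (8 * N.r) i, ‖α i x‖ ≤ C * Real.exp (-R * |h x|)) :
    ∃ θ : N.ι → N.ι → Y → ℂ,
      (∀ i j, ∀ x ∈ N.B N.r i ∩ N.B N.r j, HolP N.sm i (θ i j) x) ∧
      (∀ i j k, ∀ x ∈ N.B N.r i ∩ N.B N.r j ∩ N.B N.r k, θ j k x - θ i k x + θ i j x = c i j k) ∧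
      ∃ C', ∀ i j, ∀ x ∈ N.B N.r i ∩ N.B N.r j, ‖θ i j x‖ ≤ C' * Real.exp (-R * |h x|) := by
  have hr8 : N.r ≤ 8 * N.r := by have := N.r_pos; linarith
  have hψ8 : PU (mid N) ψ := pu_at hψ hr8
  have hsub8 : ∀ i, N.B (8 * N.r) i ⊆ (N.E i).source := N.B_sub _
  have hc8 : TopK106.IsZ2 (src (mid N)) c := coc_at hr8 hc
  have hS8 : SC1 (mid N) (ph ψ c) := sc1_ph hψ8 hc8
  have hmsrc : ∀ i, ∀ x ∈ N.B (8 * N.r) i, x ∈ ((mid N).e i).source := fun i x hx =>
    mem_at hr8 hx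
  obtain ⟨D, hD0, hp, hv⟩ := bounds Pr hψ hc hfin hR hr8 r8_lt
  -- the local solutions
  obtain ⟨K, hK0, hK⟩ := solve_chart N
  have hC0 : 0 ≤ max C 0 := le_max_right _ _
  have hsol : ∀ i, ∃ f : Y → ℂ, (∀ x ∈ N.B N.r i, SmP (mid N) i f x) ∧
      (∀ x ∈ N.B N.r i, dbf (mid N) i f x = vf (mid N) ψ (ph ψ c) i x - α i x) ∧
      ∀ x ∈ N.B N.r i, ‖f x‖ ≤ K * ((D + max C 0) * (Real.exp (R * Pr.W) *
        Real.exp (R * Pr.W))) * Real.exp (-R * |h x|) := by
    intro i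
    have hx₀ : (N.E i).symm N.z₀ ∈ N.B N.r i := (N.symm_mem_B N.r_le_R (mem_ball_self N.r_pos)).1
    set x₀ := (N.E i).symm N.z₀ with hx₀def
    obtain ⟨f, h1, h2, h3⟩ := hK i (fun y => vf (mid N) ψ (ph ψ c) i y - α i y)
      ((D + max C 0) * (Real.exp (R * Pr.W) * Real.exp (-R * |h x₀|)))
      (fun x hx b => (vf_smP hψ8 hS8 (hmsrc i x hx) b).sub
        (hα.sm i b x (hmsrc i x hx) (mem_univ x)))
      (fun x hx => Df_vf_sub (A := mid N) hψ8 hS8 (hmsrc i x hx)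
        (fun b => hα.sm i b x (hmsrc i x hx) (mem_univ x)) (by rw [hd]))
      (fun x hx b => by
        have e1 := hv i x hx b
        have e2 : ‖α i x b‖ ≤ max C 0 * Real.exp (-R * |h x|) :=
          (norm_le_pi_norm (α i x) b).trans ((hb i x hx).trans
            (mul_le_mul_of_nonneg_right (le_max_left _ _) (Real.exp_pos _).le))
        have e3 := exp_comp Pr hR hx₀.1 (hsub8 i hx)
        calc _ ≤ ‖vf (mid N) ψ (ph ψ c) i x b‖ + ‖α i x b‖ := norm_sub_le _ _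
          _ ≤ (D + max C 0) * Real.exp (-R * |h x|) := by linarith
          _ ≤ _ := mul_le_mul_of_nonneg_left e3 (by positivity))
    refine ⟨f, h1, h2, fun x hx => (h3 x).trans ?_⟩
    have e3 := exp_comp Pr hR hx.1 hx₀.1
    calc _ ≤ K * ((D + max C 0) * (Real.exp (R * Pr.W) *
          (Real.exp (R * Pr.W) * Real.exp (-R * |h x|)))) := by gcongr
      _ = _ := by ring
  choose f hf1 hf2 hf3 using hsol
  generalize K * ((D + max C 0) * (Real.exp (R * Pr.W) * Real.exp (R * Pr.W))) = D' at hf3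
  have hW : ∀ m, N.B N.r m ⊆ ((mid N).e m).source := fun m y hy => hmsrc m y (N.B_mono hr8 m hy)
  refine ⟨fun i j y => ph ψ c i j y - f j y + f i y, fun i j x hx => ?_,
    fun i j k x hx => ?_, ?_⟩
  · have h1 : HolP (mid N) i (fun y => ph ψ c i j y - f j y + f i y) x :=
      theta_holP (A := mid N) hψ8 hS8 (α := α)
        (fun i j x hx => funext fun b => by simpa [pl] using hα.tr i j x hx (mem_univ x) b)
        (W := fun m => N.B N.r m) (fun m => N.isOpen_B _ m) hW (f := f)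
        (fun m y hy => hf1 m y hy) (fun m y hy => hf2 m y hy) hx
    exact holP_iff.1 h1
  · exact theta_coc (A := mid N) hψ8 hc8 f ⟨⟨hW _ hx.1.1, hW _ hx.1.2⟩, hW _ hx.2⟩
  · refine ⟨D + (D' + D'), fun i j x hx => ?_⟩
    have e1 := hp i j x (N.B_mono hr8 i hx.1)
    have e2 := hf3 i x hx.1
    have e3 := hf3 j x hx.2
    have e4 : ‖ph ψ c i j x - f j x + f i x‖ ≤ ‖ph ψ c i j x‖ + ‖f j x‖ + ‖f i x‖ :=
      (norm_add_le _ _).trans (add_le_add (norm_sub_le _ _) le_rfl)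
    have e5 : ‖ph ψ c i j x - f j x + f i x‖ ≤ (D + (D' + D')) * Real.exp (-R * |h x|) := by
      rw [add_mul, add_mul]; linarith
    exact e5

/-! ### the line bundle -/

/-- the line bundle `exp (2 π i θ)` -/
theorem exists_LB {A : Atl 2 Y} {h : Y → ℝ} {c : A.ι → A.ι → A.ι → ℤ} {θ : A.ι → A.ι → Y → ℂ}
    (hol : ∀ i j, ∀ x ∈ (A.e i).source ∩ (A.e j).source, HolP A i (θ i j) x)
    (coc : ∀ i j k, ∀ x ∈ (A.e i).source ∩ (A.e j).source ∩ (A.e k).source,
      θ j k x - θ i k x + θ i j x = c i j k) {C R : ℝ} (hb : Dec2 A h θ C R) :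
    ∃ L : Core144.LB A, HasClsR A h L.g c R := by
  classical
  have hself : ∀ i, ∀ x ∈ (A.e i).source, Complex.exp (2 * Real.pi * I * θ i i x) = 1 := by
    intro i x hx
    have h1 := coc i i i x ⟨⟨hx, hx⟩, hx⟩
    have h2 : θ i i x = (c i i i : ℂ) := by linear_combination h1
    rw [h2, mul_comm]
    exact Complex.exp_int_mul_two_pi_mul_I _
  let L : Core144.LB A := {
    g := fun i j x => if x ∈ (A.e i).source ∩ (A.e j).source then
      Complex.exp (2 * Real.pi * I * θ i j x) else 1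
    hol := fun i j z hz => by
      have hx : (A.e i).symm z ∈ (A.e i).source ∩ (A.e j).source :=
        ⟨(A.e i).map_target hz.1, hz.2⟩
      have h1 := (hol i j _ hx).self
      rw [(A.e i).right_inv hz.1] at h1
      have h2 : DifferentiableAt ℂ
          (fun w => Complex.exp (2 * Real.pi * I * θ i j ((A.e i).symm w))) z :=
        (h1.const_mul _).cexp
      refine (h2.congr_of_eventuallyEq ?_).differentiableWithinAt
      filter_upwards [(isOpen_ov (A := A) i j).mem_nhds hz] with w hw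
      rw [if_pos ⟨(A.e i).map_target hw.1, hw.2⟩]
    off := fun i j x hx => if_neg hx
    self := fun i x => by
      split_ifs with hx
      · exact hself i x hx.1
      · rfl
    mul := fun i j k x hx => by
      rw [if_pos hx.1, if_pos ⟨hx.1.2, hx.2⟩, if_pos ⟨hx.1.1, hx.2⟩, ← Complex.exp_add]
      have h1 := coc i j k x hx
      have h2 : 2 * Real.pi * I * θ i j x + 2 * Real.pi * I * θ j k x =
          2 * Real.pi * I * θ i k x + (c i j k : ℂ) * (2 * Real.pi * I) := by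
        linear_combination (2 * Real.pi * I) * h1
      rw [h2, Complex.exp_add, Complex.exp_int_mul_two_pi_mul_I, mul_one] }
  exact ⟨L, θ, ⟨hol, fun i j x hx => (if_pos hx).symm, coc⟩, C, hb⟩

/-- the curvature form has compact support -/
theorem om_cpt {ψ : N.ι → Y → ℝ} (hψ : PU N.sm ψ) {c : N.ι → N.ι → N.ι → ℤ}
    (hc : c ∈ GC293.Z2 N.big ℤ) (hfin : Fin3 c) :
    ∃ K : Set Y, IsCompact K ∧ ∀ i, ∀ x ∉ K, om N.sm ψ (ph ψ c) i x = 0 := by
  classical
  set S := hfin.toFinset.image fun p => p.2.2 with hS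
  refine ⟨⋃ j ∈ S, (N.E j).symm '' closedBall N.z₀ N.r, ?_, ?_⟩
  · refine S.isCompact_biUnion fun j _ => ?_
    refine (isCompact_closedBall _ _).image_of_continuousOn ((N.E j).continuousOn_symm.mono ?_)
    rw [N.tgt]
    exact closedBall_subset_ball (by have := N.r_pos; have := N.r_lt; linarith)
  · intro i x hx
    have hc' : TopK106.IsZ2 (src N.sm) c := coc_at le_rfl hc
    have hS1 : SC1 N.sm (ph ψ c) := sc1_ph hψ hc'
    by_cases hxi : x ∈ (N.sm.e i).source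
    · obtain ⟨j, hj⟩ := N.sm.cover x
      have hj' : x ∈ N.B N.r j := of_mem_at le_rfl hj
      have hjS : j ∉ S := fun h => hx (mem_iUnion₂.2 ⟨j, h, N.E j x, ball_subset_closedBall hj'.2,
        (N.E j).left_inv hj'.1⟩)
      have h0 : om N.sm ψ (ph ψ c) j x = 0 := by
        have h1 : vf N.sm ψ (ph ψ c) j = fun _ => 0 := by
          funext y
          refine vf_eq_zero (A := N.sm) (fun l k => ?_) y
          by_contra hne
          exact hjS (Finset.mem_image.2 ⟨(l, k, j), hfin.mem_toFinset.2 hne, rfl⟩)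
        have h2 : om N.sm ψ (ph ψ c) j x = Df N.sm j (vf N.sm ψ (ph ψ c) j) x := d1_eq_Df hj
        rw [h2, h1]
        simp [Df, db_constP]
      have h3 := (isZ2_om hψ hS1).tr i j x ⟨hxi, hj⟩ (mem_univ x)
      rw [h3, h0, mul_zero, mul_zero]
    · exact d1_of_not_mem hxi

/-- **EX**: existence of end line bundles with a given class -/
theorem exists_LB_of_form (N : NAtl 2 Y) {g : Y ≃ₜ Y} {h : Y → ℝ} (Pr : N.Per g h)
    {ψ : N.ι → Y → ℝ} (hψ : PU N.sm ψ) {c : N.ι → N.ι → N.ι → ℤ}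
    (hc : c ∈ GC293.Z2 N.big ℤ) (hfin : Fin3 c) {R C : ℝ} (hR : 0 ≤ R)
    {α : N.ι → Y → Fin 2 → ℂ} (hα : IsZ1 (mid N) 1 univ α)
    (hd : d1 (mid N) α = om (mid N) ψ (ph ψ c))
    (hb : ∀ i, ∀ x ∈ N.B (8 * N.r) i, ‖α i x‖ ≤ C * Real.exp (-R * |h x|)) :
    ∃ L : Core144.LB N.sm, HasClsR N.sm h L.g c R := by
  obtain ⟨θ, h1, h2, C', h3⟩ := exists_theta N Pr hψ hc hfin hR hα hd hb
  exact exists_LB (A := N.sm) (θ := θ)
    (fun i j x hx => h1 i j x ⟨of_mem_at le_rfl hx.1, of_mem_at le_rfl hx.2⟩)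
    (fun i j k x hx => h2 i j k x ⟨⟨of_mem_at le_rfl hx.1.1, of_mem_at le_rfl hx.1.2⟩,
      of_mem_at le_rfl hx.2⟩)
    (C := C') (R := R) (fun i j x hx => h3 i j x ⟨of_mem_at le_rfl hx.1, of_mem_at le_rfl hx.2⟩)

end

end Crest.Agent.R275.PEx646
end

-- ▼ part R275/PUn_646
section

/-!
# R275, block P (helper646): UN — end line bundles with the same class are isomorphic

`G`, `G'` with logarithms `θ`, `θ'` of classes `c`, `c'`, `c' - c = δ b`; `τ = θ' - θ - b` is a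
holomorphic additive one-cocycle, decaying at the ends; `β = ∂̄ K τ` is a closed global
`(0,1)`-form.  If `β = ∂̄ u` with `u → cs`, `u → cl` at the ends then
`s i = exp (-2 π i (K τ i - u))` is an isomorphism `G ≅ G'`.
-/

set_option autoImplicit false
set_option linter.unusedSectionVars false

open Set Filter Topology Complex Metric
open scoped ContDiff ComplexConjugate

namespace Crest.Agent.R275.PUn646

open Geo Fm96 PCech646 NAtl938 PEx646

noncomputable section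

variable {Y : Type} [TopologicalSpace Y] {A : Atl 2 Y} {h : Y → ℝ} {ψ : A.ι → Y → ℝ}







variable {G G' θ θ' : A.ι → A.ι → Y → ℂ} {c c' : A.ι → A.ι → A.ι → ℤ} {b : A.ι → A.ι → ℤ}




/-! ### version for `HasCls` on a periodic nested atlas -/

section cls

variable {N : NAtl 2 Y} {g : Y ≃ₜ Y}


theorem Dec2.mono {A : Atl 2 Y} {θ : A.ι → A.ι → Y → ℂ} {C ρ C' ρ' : ℝ} (H : Dec2 A h θ C ρ)
    (hC : C ≤ C') (hC' : 0 ≤ C') (hρ : ρ' ≤ ρ) : Dec2 A h θ C' ρ' := by
  intro i j x hx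
  refine (H i j x hx).trans ?_
  have h1 : Real.exp (-ρ * |h x|) ≤ Real.exp (-ρ' * |h x|) := by
    apply Real.exp_le_exp.2
    have := mul_le_mul_of_nonneg_right hρ (abs_nonneg (h x))
    linarith
  exact mul_le_mul hC h1 (Real.exp_pos _).le hC'



end cls

end

end Crest.Agent.R275.PUn646
end

-- ▼ part R275/PSol_646

/-!
# R275, block P (helper646): `Solv` and OUT1 from the solution statements of block D

* `solv_of`  : `Solv N.sm h ψ` (input of UN) from `SolZ1` at mixed rates and `ConstZ`;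
* `ext1`     : extension of global `(0,1)`-forms from the small balls to the balls of radius `8 r`;
* `exists_LB_of_solZ2` (OUT1): existence of end line bundles from `SolZ2`.
-/

set_option autoImplicit false
set_option linter.unusedSectionVars false

open Set Filter Topology Complex Metric
open scoped ContDiff ComplexConjugate

namespace Crest.Agent.R275.PSol646

open Geo Fm96 PCech646 NAtl938 PEx646 PUn646
open Crest.Agent.R275.WB658 (EPart cau slow_exp_abs slow_wgt wb_of_finite finite_charts wb_J wb_glue)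
open Crest.Agent.R275.Core144 (LB wgt wgt_pos wgt_gg Jm J_mul)

noncomputable section

variable {Y : Type} [TopologicalSpace Y] {N : NAtl 2 Y} {g : Y ≃ₜ Y} {h : Y → ℝ}
  {P : N.Per g h}

/-- cores: subsets of the balls of radius `σ < r` which cover `Y` -/
structure Core (N : NAtl 2 Y) (K : N.ι → Set Y) (σ : ℝ) : Prop where
  lt : σ < N.r
  sub : ∀ i, K i ⊆ N.B σ i
  cov : ∀ x, ∃ i, x ∈ K i

variable {K : N.ι → Set Y} {σ : ℝ}

theorem Core.src (C : Core N K σ) (i : N.ι) : K i ⊆ (N.sm.e i).source := fun _ hx =>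
  mem_at le_rfl (N.B_mono C.lt.le i (C.sub i hx))


theorem core_psi (Q : EPart N P) : Core N (fun i => tsupport (Q.ψ i)) Q.ρ :=
  ⟨Q.ρ_lt, fun i => (Q.tsupport_psi_sub i).trans (Q.core_sub i), Q.cover_psi⟩


/-- 658's `WB` on balls gives 96's `BD` on cores -/
theorem bd_of_wb (C : Core N K σ) {a b : ℝ} {u : N.ι → Y → ℂ}
    (H : WB658.WB N.big (σ := N.ι) (fun i => i) (N.B σ) (fun x => wgt a b (h x)) u) :
    BD N.sm K h a b u := by
  have h1 := H.sub_dom (O' := K) C.sub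
  exact Fm96.WB.mk' (A := N.sm) (fun i x hx => h1.sm (s := i) hx) fun k => by
    obtain ⟨D, hD, hb⟩ := h1.bd k
    exact ⟨D, hD, fun i x hx => hb i x hx⟩





/-! ### extension of global `(0,1)`-forms to the balls of radius `8 r` -/

theorem pl_pl {A : Atl 2 Y} (i j k : A.ι) (w : Y → Fin 2 → ℂ) {x : Y}
    (hx : x ∈ (A.e i).source ∩ (A.e j).source ∩ (A.e k).source) :
    pl A i j (pl A j k w) x = pl A i k w x := by
  have hJ := J_mul (A := A) i j k hx
  funext b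
  have e : ∀ d, A.J i k x d b = ∑ c, A.J j k x d c * A.J i j x c b := by
    intro d
    have := congrFun (congrFun hJ d) b
    rw [Matrix.mul_apply] at this
    exact this.symm
  simp only [pl, e, map_add, map_mul, Fin.sum_univ_two]
  ring

theorem pl_congr {A : Atl 2 Y} (i j : A.ι) {w w' : Y → Fin 2 → ℂ} {x : Y} (hw : w x = w' x) :
    pl A i j w x = pl A i j w' x := by
  funext b
  simp only [pl, hw]


theorem IsZ1.pl_eq {A : Atl 2 Y} {β : A.ι → Y → Fin 2 → ℂ} (hβ : IsZ1 A 1 univ β) {i j : A.ι}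
    {x : Y} (hx : x ∈ (A.e i).source ∩ (A.e j).source) : pl A i j (β j) x = β i x := by
  funext b
  have := hβ.tr i j x hx (mem_univ x) b
  simp only [Pi.one_apply, one_mul] at this
  exact this.symm

/-- a chart whose small ball contains `x` -/
def kx (N : NAtl 2 Y) (x : Y) : N.ι := (N.sm.cover x).choose

theorem kx_mem (N : NAtl 2 Y) (x : Y) : x ∈ (N.sm.e (kx N x)).source := (N.sm.cover x).choose_spec

open Classical in
/-- the extension to the balls of radius `8 r` -/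
def ext1 (N : NAtl 2 Y) (β : N.ι → Y → Fin 2 → ℂ) : N.ι → Y → Fin 2 → ℂ := fun i x =>
  if x ∈ ((mid N).e i).source then pl (mid N) i (kx N x) (β (kx N x)) x else 0

theorem sm_sub_mid {i : N.ι} {x : Y} (hx : x ∈ (N.sm.e i).source) : x ∈ ((mid N).e i).source :=
  mem_at (by have := N.r_pos; linarith)
    (N.B_mono (by have := N.r_pos; linarith) i (of_mem_at le_rfl hx))

theorem ext1_eq {β : N.ι → Y → Fin 2 → ℂ} (hβ : IsZ1 N.sm 1 univ β) {i j : N.ι} {x : Y}
    (hi : x ∈ ((mid N).e i).source) (hj : x ∈ (N.sm.e j).source) :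
    ext1 N β i x = pl (mid N) i j (β j) x := by
  have h1 : ext1 N β i x = pl (mid N) i (kx N x) (β (kx N x)) x := if_pos hi
  have h2 : β (kx N x) x = pl (mid N) (kx N x) j (β j) x :=
    (IsZ1.pl_eq hβ ⟨kx_mem N x, hj⟩).symm
  have h3 : pl (mid N) i (kx N x) (β (kx N x)) x =
      pl (mid N) i (kx N x) (pl (mid N) (kx N x) j (β j)) x := pl_congr (A := mid N) _ _ h2
  exact (h1.trans h3).trans
    (pl_pl (A := mid N) i (kx N x) j (β j) ⟨⟨hi, sm_sub_mid (kx_mem N x)⟩, sm_sub_mid hj⟩)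

theorem ext1_ev {β : N.ι → Y → Fin 2 → ℂ} (hβ : IsZ1 N.sm 1 univ β) {i j : N.ι} {x : Y}
    (hi : x ∈ ((mid N).e i).source) (hj : x ∈ (N.sm.e j).source) :
    ext1 N β i =ᶠ[𝓝 x] pl (mid N) i j (β j) := by
  filter_upwards [((mid N).e i).open_source.mem_nhds hi, (N.sm.e j).open_source.mem_nhds hj]
    with y hy1 hy2
  exact ext1_eq hβ hy1 hy2

theorem isZ1_ext1 {β : N.ι → Y → Fin 2 → ℂ} (hβ : IsZ1 N.sm 1 univ β) :
    IsZ1 (mid N) 1 univ (ext1 N β) where
  sm i b x hx _ := by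
    have hj := kx_mem N x
    have hs : ∀ c, SmP (mid N) (kx N x) (fun y => β (kx N x) y c) x := fun c =>
      hβ.sm _ c x hj (mem_univ x)
    refine (pl_smP (A := mid N) hs ⟨hx, sm_sub_mid hj⟩ b).congr hx ?_
    filter_upwards [ext1_ev hβ hx hj] with y hy
    rw [hy]
  off i x hx := if_neg hx
  tr i i' x hx _ b := by
    have hj := kx_mem N x
    have h1 : ext1 N β i x = pl (mid N) i (kx N x) (β (kx N x)) x := ext1_eq hβ hx.1 hj
    have h2 : ext1 N β i' x = pl (mid N) i' (kx N x) (β (kx N x)) x := ext1_eq hβ hx.2 hj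
    have h3 := pl_pl (A := mid N) i i' (kx N x) (β (kx N x)) ⟨hx, sm_sub_mid hj⟩
    have h4 : pl (mid N) i i' (pl (mid N) i' (kx N x) (β (kx N x))) x =
        pl (mid N) i i' (ext1 N β i') x := pl_congr (A := mid N) _ _ h2.symm
    have h5 : ext1 N β i x = pl (mid N) i i' (ext1 N β i') x := (h1.trans h3.symm).trans h4
    exact (congrFun h5 b).trans (one_mul _).symm

theorem d1_ext1 {β : N.ι → Y → Fin 2 → ℂ} (hβ : IsZ1 N.sm 1 univ β) {ψ : N.ι → Y → ℝ}
    {φ : N.ι → N.ι → Y → ℂ} (hψ : PU N.sm ψ) (hφ : SC1 (mid N) φ)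
    (hd : d1 N.sm β = om N.sm ψ φ) : d1 (mid N) (ext1 N β) = om (mid N) ψ φ := by
  have hψ8 : PU (mid N) ψ := pu_at hψ (by have := N.r_pos; linarith)
  funext i x
  by_cases hx : x ∈ ((mid N).e i).source
  · have hj := kx_mem N x
    have hs : ∀ c, SmP (mid N) (kx N x) (fun y => β (kx N x) y c) x := fun c =>
      hβ.sm _ c x hj (mem_univ x)
    have h1 : d1 (mid N) (ext1 N β) i x =
        dJ (mid N) i (kx N x) x * Df (mid N) (kx N x) (β (kx N x)) x :=
      ((d1_eq_Df (A := mid N) hx).trans (Df_congr (A := mid N) hx (ext1_ev hβ hx hj))).trans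
        (Df_pl (A := mid N) hs ⟨hx, sm_sub_mid hj⟩)
    have h2 : Df (mid N) (kx N x) (β (kx N x)) x = om (mid N) ψ φ (kx N x) x := by
      have e1 : Df (mid N) (kx N x) (β (kx N x)) x = d1 N.sm β (kx N x) x := (d1_eq_Df hj).symm
      have e2 : om N.sm ψ φ (kx N x) x = Df N.sm (kx N x) (vf N.sm ψ φ (kx N x)) x := d1_eq_Df hj
      have e3 : om (mid N) ψ φ (kx N x) x = Df (mid N) (kx N x) (vf (mid N) ψ φ (kx N x)) x :=
        d1_eq_Df (sm_sub_mid hj)
      rw [e1, hd, e2, e3]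
      rfl
    have h3 : om (mid N) ψ φ i x = dJ (mid N) i (kx N x) x * om (mid N) ψ φ (kx N x) x :=
      ((isZ2_om hψ8 hφ).tr i (kx N x) x ⟨hx, sm_sub_mid hj⟩ (mem_univ x)).trans (one_mul _)
    exact (h1.trans (congrArg (fun t => dJ (mid N) i (kx N x) x * t) h2)).trans h3.symm
  · have e1 : d1 (mid N) (ext1 N β) i x = 0 := d1_of_not_mem hx
    have e2 : om (mid N) ψ φ i x = 0 := d1_of_not_mem hx
    rw [e1, e2]

/-- sup bound of the extension -/
theorem ext1_bound [T2Space Y] (P : N.Per g h) (C : Core N K σ) {β : N.ι → Y → Fin 2 → ℂ}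
    (hβ : IsZ1 N.sm 1 univ β) {w : ℝ → ℝ} (hw : ∀ t, 0 ≤ w t) {D : ℝ} (hD0 : 0 ≤ D)
    (hD : ∀ i, ∀ x ∈ K i, ∀ b, ‖β i x b‖ ≤ D * w (h x)) :
    ∃ D' : ℝ, ∀ i, ∀ x ∈ N.B (8 * N.r) i, ‖ext1 N β i x‖ ≤ D' * w (h x) := by
  have hσR : σ < N.R := C.lt.trans_le N.r_le_R
  have hJ : ∀ b a : Fin 2, ∃ CJ : ℝ, 0 ≤ CJ ∧ ∀ p : N.ι × N.ι,
      ∀ x ∈ N.B (8 * N.r) p.1 ∩ N.B σ p.2, ‖N.big.J p.1 p.2 x b a‖ ≤ CJ := by
    intro b a
    obtain ⟨CJ, h0, h1⟩ := (wb_J P r8_lt hσR b a).bound fun s x hx => mem_big hx.1.1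
    exact ⟨CJ, h0, fun p x hx => by simpa using h1 p x hx⟩
  choose CJ hCJ0 hCJ using hJ
  refine ⟨(∑ b, ∑ a, CJ b a) * D, fun i x hx => ?_⟩
  have hS0 : 0 ≤ (∑ b, ∑ a, CJ b a) := Finset.sum_nonneg fun b _ => Finset.sum_nonneg fun a _ =>
    hCJ0 b a
  rw [pi_norm_le_iff_of_nonneg (by have := hw (h x); positivity)]
  intro b
  obtain ⟨j, hj⟩ := C.cov x
  have hmid : x ∈ ((mid N).e i).source := mem_at (by have := N.r_pos; linarith) hx
  rw [ext1_eq hβ hmid (C.src j hj)]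
  have e1 : ∀ c, ‖conj ((mid N).J i j x c b) * β j x c‖ ≤ CJ c b * (D * w (h x)) := by
    intro c
    rw [norm_mul, RCLike.norm_conj]
    exact mul_le_mul (hCJ c b (i, j) x ⟨hx, C.sub j hj⟩) (hD j x hj c) (norm_nonneg _) (hCJ0 c b)
  calc ‖pl (mid N) i j (β j) x b‖ ≤ ∑ c, ‖conj ((mid N).J i j x c b) * β j x c‖ := norm_sum_le _ _
    _ ≤ ∑ c, CJ c b * (D * w (h x)) := Finset.sum_le_sum fun c _ => e1 c
    _ = (∑ c, CJ c b) * (D * w (h x)) := by rw [Finset.sum_mul]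
    _ ≤ (∑ b, ∑ a, CJ b a) * (D * w (h x)) := by
        refine mul_le_mul_of_nonneg_right ?_ (mul_nonneg hD0 (hw _))
        refine Finset.sum_le_sum fun c _ => ?_
        exact Finset.single_le_sum (f := fun a => CJ c a) (fun a _ => hCJ0 c a) (Finset.mem_univ b)
    _ = _ := by ring

/-- the curvature form has compact support, hence all rates -/
theorem bd_om [T2Space Y] (P : N.Per g h) (C : Core N K σ) {ψ : N.ι → Y → ℝ} (hψ : PU N.sm ψ)
    {c : N.ι → N.ι → N.ι → ℤ} (hc : c ∈ GC293.Z2 N.big ℤ) (hfin : Fin3 c) (a b : ℝ) :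
    BD N.sm K h a b (om N.sm ψ (ph ψ c)) := by
  obtain ⟨K0, hK0, h0⟩ := om_cpt hψ hc hfin
  have hS1 : SC1 N.sm (ph ψ c) := sc1_ph hψ (coc_at le_rfl hc)
  refine bd_of_wb C (wb_of_finite P (slow_wgt a b) (fun t => wgt_pos a b t) C.lt N.r_le_R
    (fun i x hx => ?_) (finite_charts P hK0) fun i hi x hx => ?_)
  · exact ((isZ2_om hψ hS1).sm i x (mem_at le_rfl hx) (mem_univ x)).self
  · filter_upwards [(N.E i).open_source.mem_nhds hx.1] with y hy
    exact h0 i y fun hyK => hi ⟨y, hy, hyK⟩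

/-- **OUT1**: existence of end line bundles with given class and decay `R` -/
theorem exists_LB_of_solZ2 [T2Space Y] (P : N.Per g h) (C : Core N K σ) {ψ : N.ι → Y → ℝ}
    (hψ : PU N.sm ψ) {R a b : ℝ} (hR : 0 ≤ R) (S : SolZ2 N.sm K h 1 a b (-R) (-R))
    {c : N.ι → N.ι → N.ι → ℤ} (hc : c ∈ GC293.Z2 N.big ℤ) (hfin : Fin3 c) :
    ∃ L : LB N.sm, HasClsR N.sm h L.g c R := by
  have hS1 : SC1 N.sm (ph ψ c) := sc1_ph hψ (coc_at le_rfl hc)
  have hr8 : N.r ≤ 8 * N.r := by have := N.r_pos; linarith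
  have hS8 : SC1 (mid N) (ph ψ c) := sc1_ph (pu_at hψ hr8) (coc_at hr8 hc)
  obtain ⟨β, hβ, hb, hd⟩ := S _ (isZ2_om hψ hS1) (bd_om P C hψ hc hfin a b)
  have hd' : d1 N.sm β = om N.sm ψ (ph ψ c) := funext fun i => funext fun x => hd i x
  have h0 := BD.sup C.src (hb 0)
  have h1 := BD.sup C.src (hb 1)
  obtain ⟨D0, hD0, hB0⟩ := h0
  obtain ⟨D1, hD1, hB1⟩ := h1
  obtain ⟨D', hD'⟩ := ext1_bound (K := K) P C hβ (w := wgt (-R) (-R)) (fun t => (wgt_pos _ _ t).le)
    (D := D0 + D1) (by positivity) (fun i x hx b => by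
      have hw := (wgt_pos (-R) (-R) (h x)).le
      fin_cases b
      · exact (hB0 i x hx).trans (mul_le_mul_of_nonneg_right (by linarith) hw)
      · exact (hB1 i x hx).trans (mul_le_mul_of_nonneg_right (by linarith) hw))
  refine exists_LB_of_form N P hψ hc hfin (R := R) (C := D') hR (isZ1_ext1 hβ)
    (d1_ext1 hβ hψ hS8 hd') fun i x hx => ?_
  have := hD' i x hx
  rwa [wgt_gg] at this

end

end Crest.Agent.R275.PSol646
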