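import Crest.Agent.R275.Tr5B_468
import Crest.Agent.R275.S5In_95

-- ▼ part R275/Tr5C_468
section

/-!
R275 (S0418), helper468: section 5 in holomorphic cocycle form.  Part C: the limit theorem for deep
indices: `E k` has a frame over `N` for all `k < M0`.
-/

set_option autoImplicit false
set_option linter.unusedSectionVars false

open Set Filter Topology Complex
open scoped ENNReal

noncomputable section

namespace Crest.Agent.R275.Tr5

open Crest.Agent.R275.Geo Crest.Agent.R275.Core144 Crest.Agent.R275.Sec495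

section Deep

variable {n : ℕ} {M : Type} [TopologicalSpace M] {A : Atl n M} {h : M → ℝ} {N : Set M}
variable {B : Type*} [DecidableEq B] {S : Data495 B} (O : Ord495 S)

theorem exists_r_bound : ∃ R0 : ℕ, ∀ k, O.r k ≤ R0 := by
  have hper : Function.Periodic O.r (O.b : ℤ) := O.r_per
  have hb : (0 : ℤ) < O.b := by exact_mod_cast O.hb
  refine ⟨(Finset.range O.b).sup (fun j : ℕ => O.r j), fun k => ?_⟩
  have h1 : O.r k = O.r (k % O.b) := by
    have h2 : k = k % O.b + (k / O.b) * O.b := by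
      rw [mul_comm]; exact (Int.emod_add_mul_ediv k O.b).symm
    have h3 := (hper.int_mul (k / O.b)) (k % O.b)
    rw [← h3]
    congr 1
  have h4 : 0 ≤ k % O.b := Int.emod_nonneg _ hb.ne'
  have h5 : k % O.b < O.b := Int.emod_lt_of_pos _ hb
  obtain ⟨j, hj⟩ := Int.eq_ofNat_of_zero_le h4
  rw [h1, hj]
  exact Finset.le_sup (f := fun j : ℕ => O.r j) (Finset.mem_range.2 (by omega))

/-- bounded functions as elements of `ℓ^∞` -/
def mkL {α : Type*} (f : α → ℂ) (C : ℝ) (hf : ∀ a, ‖f a‖ ≤ C) : lp (fun _ : α => ℂ) ∞ :=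
  ⟨f, memℓp_infty ⟨C, by rintro _ ⟨a, rfl⟩; exact hf a⟩⟩

@[simp] lemma mkL_apply {α : Type*} (f : α → ℂ) (C : ℝ) (hf : ∀ a, ‖f a‖ ≤ C) (a : α) :
    mkL f C hf a = f a := rfl

lemma norm_mkL_le {α : Type*} (f : α → ℂ) (C : ℝ) (hf : ∀ a, ‖f a‖ ≤ C) {c : ℝ} (hc : 0 ≤ c)
    (hfc : ∀ a, ‖f a‖ ≤ c) : ‖mkL f C hf‖ ≤ c :=
  lp.norm_le_of_forall_le hc hfc

open Classical in
/-- **deep indices**: if `E k → 1` and `sec k → 1` geometrically, then all `E k`, `k < M0`, have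
bounded frames over `N`. -/
theorem frames_deep (hN : IsOpen N) (E : ℤ → LB A) (sec : ℤ → A.ι → M → ℂ) {m : ℤ} {x0 : ℝ}
    (hx0 : 0 < x0) (hx1 : x0 < 1)
    (hm : O.OneParent m ∨ ((∀ K ≤ m, ∃ i < K - 1, O.IsParent i K) ∧
      ∃ R : ℕ, (∀ k, O.r k ≤ R) ∧ (1 + R) * x0 < 1))
    {C : ℝ} (hC0 : 0 ≤ C)
    (hE : ∀ k ≤ m, ∀ i j, ∀ x ∈ (A.e i).source ∩ (A.e j).source, x ∈ N →
      ‖(E k).g i j x - 1‖ ≤ C * x0 ^ (m - k).toNat)
    (hsec : ∀ k, k + O.r k < m →
      IsHS (E k * (∏ l ∈ Finset.Ioc k (k + O.r k), E l)⁻¹) N (sec k))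
    (hS : ∀ k, k + O.r k < m → ∀ i, ∀ x ∈ (A.e i).source, x ∈ N →
      ‖sec k i x - 1‖ ≤ C * x0 ^ (m - k).toNat)
    (hl : ∀ k, k + O.r k < m → ∀ ε > 0, ∃ T : ℝ, ∀ i, ∀ x ∈ (A.e i).source, x ∈ N → h x < T →
      ‖sec k i x - 1‖ < ε) :
    ∃ t : ℕ, ∀ k < m - t * O.b, E k ∈ FrG A h N := by
  obtain ⟨R0, hR0⟩ := exists_r_bound O
  set δ : ℝ := 1 / (2 * (R0 + 3)) with hδ
  have hδ0 : 0 < δ := by positivity
  have hδ2 : δ ≤ 1 / 2 := by
    rw [hδ]
    apply one_div_le_one_div_of_le (by norm_num)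
    have : (0 : ℝ) ≤ R0 := Nat.cast_nonneg _
    linarith
  have hb : 1 ≤ O.b := O.hb
  obtain ⟨t, ht⟩ : ∃ t : ℕ, C * x0 ^ (t * O.b) ≤ δ := by
    have h1 : Tendsto (fun t : ℕ => C * x0 ^ t) atTop (𝓝 (C * 0)) :=
      (tendsto_pow_atTop_nhds_zero_of_lt_one hx0.le hx1).const_mul C
    rw [mul_zero] at h1
    obtain ⟨t, ht⟩ := (h1.eventually (gt_mem_nhds hδ0)).exists
    refine ⟨t, le_trans ?_ ht.le⟩
    gcongr C * ?_
    exact pow_le_pow_of_le_one hx0.le hx1.le (Nat.le_mul_of_pos_right t hb)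
  refine ⟨t, ?_⟩
  set M0 : ℤ := m - t * O.b with hM0
  have hM0m : M0 ≤ m := by
    have : (0 : ℤ) ≤ t * O.b := by positivity
    omega
  -- the geometric bound below `M0`
  have hgeo : ∀ k < M0, C * x0 ^ (m - k).toNat ≤ δ * x0 ^ (M0 - k).toNat := by
    intro k hk
    have h1 : (m - k).toNat = t * O.b + (M0 - k).toNat := by
      have h2 : m - k = ((t * O.b : ℕ) : ℤ) + (M0 - k) := by rw [hM0]; push_cast; ring
      rw [h2]
      generalize (t * O.b : ℕ) = z
      omega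
    rw [h1, pow_add, ← mul_assoc]
    gcongr
  have hgeo1 : ∀ k < M0, C * x0 ^ (m - k).toNat ≤ δ := fun k hk =>
    (hgeo k hk).trans (mul_le_of_le_one_right hδ0.le (pow_le_one₀ hx0.le hx1.le))
  -- cochains
  let wf : ℤ → (A.ι × A.ι) × M → ℂ := fun k p =>
    if k < M0 ∧ p.2 ∈ (A.e p.1.1).source ∩ (A.e p.1.2).source ∧ p.2 ∈ N then
      log ((E k).g p.1.1 p.1.2 p.2) else 0
  let vf : ℤ → A.ι × M → ℂ := fun k p =>
    if k + O.r k < M0 ∧ p.2 ∈ (A.e p.1).source ∧ p.2 ∈ N then log (sec k p.1 p.2) else 0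
  have hwf : ∀ k, ∀ p, ‖wf k p‖ ≤ 3 / 2 * (δ * x0 ^ (M0 - k).toNat) := by
    intro k p
    simp only [wf]
    split_ifs with hp
    · exact (norm_log_le (δ := C * x0 ^ (m - k).toNat) ((hgeo1 k hp.1).trans hδ2)
        (hE k (hp.1.le.trans hM0m) _ _ _ hp.2.1 hp.2.2)).trans
        (mul_le_mul_of_nonneg_left (hgeo k hp.1) (by norm_num))
    · rw [norm_zero]; positivity
  have hvf : ∀ k, ∀ p, ‖vf k p‖ ≤ 3 / 2 * (δ * x0 ^ (M0 - k).toNat) := by
    intro k p
    simp only [vf]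
    split_ifs with hp
    · have hk : k < M0 := by have := O.r_pos k; omega
      exact (norm_log_le (δ := C * x0 ^ (m - k).toNat) ((hgeo1 k hk).trans hδ2)
        (hS k (hp.1.trans_le hM0m) _ _ hp.2.1 hp.2.2)).trans
        (mul_le_mul_of_nonneg_left (hgeo k hk) (by norm_num))
    · rw [norm_zero]; positivity
  have hx1' : ∀ q : ℕ, δ * x0 ^ q ≤ δ := fun q =>
    mul_le_of_le_one_right hδ0.le (pow_le_one₀ hx0.le hx1.le)
  let a : ℤ → WW A := fun k => mkL (wf k) (3 / 2 * δ) (fun p => (hwf k p).trans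
    (mul_le_mul_of_nonneg_left (hx1' _) (by norm_num)))
  let lam : ℤ → VV A := fun k => mkL (vf k) (3 / 2 * δ) (fun p => (hvf k p).trans
    (mul_le_mul_of_nonneg_left (hx1' _) (by norm_num)))
  have hM : O.OneParent M0 ∨ ((∀ K ≤ M0, ∃ i < K - 1, O.IsParent i K) ∧
      ∃ R : ℕ, (∀ k, O.r k ≤ R) ∧ (1 + R) * x0 < 1) := by
    rcases hm with h1 | ⟨h1, h2⟩
    · exact Or.inl ((O.oneParent_shift_nat t).2 h1)
    · exact Or.inr ⟨fun K hK => h1 K (hK.trans hM0m), h2⟩
  have key := O.primitives (TT A h N) (fun _ : Unit => normSeminorm ℝ (VV A))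
    (fun _ : Unit => normSeminorm ℝ (WW A)) (closed_TT hN) hx0 hx1 hM a lam ?_ ?_ ?_
  · obtain ⟨f, hf, -⟩ := key
    intro k hk
    obtain ⟨h1, h2, h3⟩ := hf k hk
    refine ⟨fun i x => if x ∈ (A.e i).source then exp (f k (i, x)) else 0, ⟨?_, ?_, ?_⟩, ?_, ?_, ?_⟩
    · intro i
      refine HolAt.congr (f := fun x => exp (f k (i, x))) ?_ (fun x hx _ => by rw [if_pos hx])
      exact DifferentiableOn.cexp (h1 i)
    · intro i x hx
      rw [if_neg hx]
    · intro i j x hx hxN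
      have h4 := h3 i j x hx hxN
      have h5 : a k ((i, j), x) = log ((E k).g i j x) := by
        simp only [a, mkL_apply, wf]
        rw [if_pos ⟨hk, hx, hxN⟩]
      change a k ((i, j), x) = f k (i, x) - f k (j, x) at h4
      rw [if_pos hx.1, if_pos hx.2]
      have h6 : f k (i, x) = log ((E k).g i j x) + f k (j, x) := by rw [← h5, h4]; ring
      rw [h6, Complex.exp_add, Complex.exp_log ((E k).ne_zero i j x)]
    · intro i x hx _
      rw [if_pos hx]
      exact Complex.exp_ne_zero _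
    · refine ⟨Real.exp ‖f k‖, fun i x hx _ => ?_⟩
      rw [if_pos hx]
      have h4 : ‖f k (i, x)‖ ≤ ‖f k‖ := lp.norm_apply_le_norm (by simp) (f k) (i, x)
      constructor
      · rw [Complex.norm_exp]
        exact Real.exp_le_exp.2 ((Complex.re_le_norm _).trans h4)
      · rw [← Complex.exp_neg, Complex.norm_exp]
        refine Real.exp_le_exp.2 ((Complex.re_le_norm _).trans ?_)
        rwa [norm_neg]
    · refine ⟨1, one_ne_zero, fun ε hε => ?_⟩
      obtain ⟨T, hT⟩ := h2 (min 1 (ε / 2)) (by positivity)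
      refine ⟨T, fun i x hx hxN hxT => ?_⟩
      have h4 := hT i x hx hxN hxT
      change ‖f k (i, x)‖ < min 1 (ε / 2) at h4
      rw [if_pos hx]
      have h5 := Complex.norm_exp_sub_one_le (x := f k (i, x)) (h4.le.trans (min_le_left _ _))
      have h6 := h4.trans_le (min_le_right _ _)
      linarith
  · -- the recursion
    intro k hk
    have hr0 := O.r_pos k
    have hkM : k < M0 := by omega
    have hsk := hsec k (hk.trans_le hM0m)
    have hnear : ∀ i, ∀ x ∈ (A.e i).source, x ∈ N → ‖sec k i x - 1‖ ≤ δ := fun i x hx hxN =>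
      (hS k (hk.trans_le hM0m) i x hx hxN).trans (hgeo1 k hkM)
    have hlam : ∀ i, ∀ x ∈ (A.e i).source, x ∈ N → lam k (i, x) = log (sec k i x) := by
      intro i x hx hxN
      simp only [lam, mkL_apply, vf]
      rw [if_pos ⟨hk, hx, hxN⟩]
    have ha : ∀ l < M0, ∀ i j, ∀ x ∈ (A.e i).source ∩ (A.e j).source, x ∈ N →
        a l ((i, j), x) = log ((E l).g i j x) := by
      intro l hl' i j x hx hxN
      simp only [a, mkL_apply, wf]
      rw [if_pos ⟨hl', hx, hxN⟩]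
    have hEn : ∀ l < M0, ∀ i j, ∀ x ∈ (A.e i).source ∩ (A.e j).source, x ∈ N →
        ‖(E l).g i j x - 1‖ ≤ δ := fun l hl' i j x hx hxN =>
      (hE l (hl'.le.trans hM0m) i j x hx hxN).trans (hgeo1 l hl')
    refine ⟨fun i => ?_, ?_, ?_⟩
    · refine HolAt.congr (f := fun x => log (sec k i x)) ?_ (fun x hx hxN => (hlam i x hx hxN).symm)
      refine DifferentiableOn.clog (hsk.hol i) (fun z hz => ?_)
      exact mem_slitPlane_of_near ((hnear i _ ((A.e i).map_target hz.1) hz.2).trans hδ2)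
    · intro ε hε
      obtain ⟨T, hT⟩ := hl k (hk.trans_le hM0m) (min (1 / 2) (ε / 2)) (by positivity)
      refine ⟨T, fun i x hx hxN hxT => ?_⟩
      have h4 := hT i x hx hxN hxT
      change ‖lam k (i, x)‖ < ε
      rw [hlam i x hx hxN]
      have h5 := norm_log_le (δ := min (1 / 2) (ε / 2)) (min_le_left _ _) h4.le
      have h6 : min (1 / 2 : ℝ) (ε / 2) ≤ ε / 2 := min_le_right _ _
      linarith
    · intro i j x hx hxN
      have hsum : (a k - ∑ l ∈ Finset.Ioc k (k + O.r k), a l : WW A) ((i, j), x) =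
          log ((E k).g i j x) - ∑ l ∈ Finset.Ioc k (k + O.r k), log ((E l).g i j x) := by
        rw [lp.coeFn_sub, Pi.sub_apply, lp.coeFn_sum, Finset.sum_apply, ha k hkM i j x hx hxN]
        congr 1
        refine Finset.sum_congr rfl (fun l hl' => ?_)
        rw [Finset.mem_Ioc] at hl'
        exact ha l (by omega) i j x hx hxN
      change (a k - ∑ l ∈ Finset.Ioc k (k + O.r k), a l : WW A) ((i, j), x) =
        lam k (i, x) - lam k (j, x)
      rw [hsum, hlam i x hx.1 hxN, hlam j x hx.2 hxN]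
      set σ := ∑ l ∈ Finset.Ioc k (k + O.r k), log ((E l).g i j x) with hσ
      have hne : ∀ l, (E l).g i j x ≠ 0 := fun l => (E l).ne_zero i j x
      have hsi : sec k i x ≠ 0 := by
        intro h0
        have := hnear i x hx.1 hxN
        rw [h0, zero_sub, norm_neg, norm_one] at this
        linarith
      have hsj : sec k j x ≠ 0 := by
        intro h0
        have := hnear j x hx.2 hxN
        rw [h0, zero_sub, norm_neg, norm_one] at this
        linarith
      have hexpσ : exp σ = ∏ l ∈ Finset.Ioc k (k + O.r k), (E l).g i j x := by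
        rw [hσ, Complex.exp_sum]
        exact Finset.prod_congr rfl (fun l _ => Complex.exp_log (hne l))
      have htr := hsk.tr i j x hx hxN
      have hg : (E k * (∏ l ∈ Finset.Ioc k (k + O.r k), E l)⁻¹).g i j x =
          (E k).g i j x * (∏ l ∈ Finset.Ioc k (k + O.r k), (E l).g i j x)⁻¹ := by
        rw [LB.mul_g, LB.inv_g]
        congr 2
        have : ∀ s : Finset ℤ, (∏ l ∈ s, E l).g i j x = ∏ l ∈ s, (E l).g i j x := by
          intro s
          induction s using Finset.induction_on with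
          | empty => simp
          | insert b s hb' ih => rw [Finset.prod_insert hb', Finset.prod_insert hb', LB.mul_g, ih]
        exact this _
      rw [hg] at htr
      have hexp : exp (log ((E k).g i j x) - σ - (log (sec k i x) - log (sec k j x))) = 1 := by
        rw [Complex.exp_sub, Complex.exp_sub, Complex.exp_sub, Complex.exp_log (hne k), hexpσ,
          Complex.exp_log hsi, Complex.exp_log hsj]
        have hpne : ∏ l ∈ Finset.Ioc k (k + O.r k), (E l).g i j x ≠ 0 :=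
          Finset.prod_ne_zero_iff.2 (fun l _ => hne l)
        have hgk := hne k
        rw [htr]
        field_simp
      have hsmall : ‖log ((E k).g i j x) - σ - (log (sec k i x) - log (sec k j x))‖ <
          2 * Real.pi := by
        have b1 := norm_log_le hδ2 (hEn k hkM i j x hx hxN)
        have b2 := norm_log_le hδ2 (hnear i x hx.1 hxN)
        have b3 := norm_log_le hδ2 (hnear j x hx.2 hxN)
        have b4 : ‖σ‖ ≤ R0 * (3 / 2 * δ) := by
          rw [hσ]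
          refine (norm_sum_le _ _).trans ?_
          refine (Finset.sum_le_card_nsmul _ _ (3 / 2 * δ) (fun l hl' => ?_)).trans ?_
          · rw [Finset.mem_Ioc] at hl'
            exact norm_log_le hδ2 (hEn l (by omega) i j x hx hxN)
          · rw [nsmul_eq_mul]
            have : (Finset.Ioc k (k + O.r k)).card ≤ R0 := by
              rw [Int.card_Ioc]
              have := hR0 k
              omega
            gcongr
        have b5 : (R0 + 3 : ℝ) * (3 / 2 * δ) = 3 / 4 := by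
          rw [hδ]
          field_simp
          norm_num
        have b6 : ‖log ((E k).g i j x) - σ - (log (sec k i x) - log (sec k j x))‖ ≤
            ‖log ((E k).g i j x)‖ + ‖σ‖ + (‖log (sec k i x)‖ + ‖log (sec k j x)‖) :=
          (norm_sub_le _ _).trans (add_le_add (norm_sub_le _ _) (norm_sub_le _ _))
        have := Real.pi_gt_three
        nlinarith
      have := eq_zero_of_exp_eq_one hexp hsmall
      linear_combination this
  · -- bounds for lam
    intro _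
    refine ⟨3 / 2 * δ, fun q => ?_⟩
    change ‖lam (M0 - q)‖ ≤ _
    refine norm_mkL_le _ _ _ (by positivity) (fun p => ?_)
    have h1 := hvf (M0 - q) p
    have h2 : (M0 - (M0 - (q : ℤ))).toNat = q := by omega
    rw [h2] at h1
    linarith
  · intro _
    refine ⟨3 / 2 * δ, fun q => ?_⟩
    change ‖a (M0 - q)‖ ≤ _
    refine norm_mkL_le _ _ _ (by positivity) (fun p => ?_)
    have h1 := hwf (M0 - q) p
    have h2 : (M0 - (M0 - (q : ℤ))).toNat = q := by omega
    rw [h2] at h1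
    linarith

end Deep

end Crest.Agent.R275.Tr5
end
end

-- ▼ part R275/Tr5D_468
section

/-!
R275 (S0418), helper468: section 5 in holomorphic cocycle form.  Part D: from deep indices to `m`
(group theory) and extraction of roots.
-/

set_option autoImplicit false
set_option linter.unusedSectionVars false

open Set Filter Topology Complex
open scoped ENNReal

noncomputable section

namespace Crest.Agent.R275.Tr5

open Crest.Agent.R275.Geo Crest.Agent.R275.Core144 Crest.Agent.R275.Sec495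

section Comb

variable {B : Type*} [DecidableEq B] {S : Data495 B} (O : Ord495 S)

/-- if `l` and `l + 1` have two parents, some index `k` ends exactly at `l` -/
theorem exists_end {l i i' : ℤ} (hi : O.IsParent i (l + 1)) (h1 : i < l)
    (hi' : O.IsParent i' l) (h1' : i' < l - 1) : ∃ k < l, k + O.r k = l := by
  obtain ⟨a1, a2⟩ := hi
  obtain ⟨b1, b2⟩ := hi'
  by_cases h : i' = i
  · -- then `l - 1` ends at `l`
    subst h
    refine ⟨l - 1, by omega, ?_⟩
    by_contra hne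
    have hr := O.r_pos (l - 1)
    have hp : O.IsParent (l - 1) (l + 1) := ⟨by omega, by omega⟩
    have := O.parent_unique (m := l + 1) ⟨a1, a2⟩ hp (by omega) (by omega)
    omega
  · -- `i'` ends at `l`
    refine ⟨i', by omega, ?_⟩
    by_contra hne
    have hp : O.IsParent i' (l + 1) := ⟨by omega, by omega⟩
    exact h (O.parent_unique (m := l + 1) hp ⟨a1, a2⟩ (by omega) (by omega))

/-- two parents: all `E l`, `l < m`, lie in `G` -/
theorem two_parent_up {P : Type*} [CommGroup P] (G : Subgroup P) (E : ℤ → P) {m M0 : ℤ}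
    (hpar : ∀ K ≤ m, ∃ i < K - 1, O.IsParent i K) (h0 : ∀ k < M0, E k ∈ G)
    (h1 : ∀ k, k + O.r k < m → E k * (∏ l ∈ Finset.Ioc k (k + O.r k), E l)⁻¹ ∈ G) :
    ∀ l < m, E l ∈ G := by
  intro l hl
  induction hN : (l - M0).toNat using Nat.strong_induction_on generalizing l with
  | _ N ih =>
    have ih' : ∀ l' < l, E l' ∈ G := by
      intro l' hl'
      rcases lt_or_ge l' M0 with h | h
      · exact h0 l' h
      · exact ih (l' - M0).toNat (by omega) l' (by omega) rfl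
    rcases lt_or_ge l M0 with h | h
    · exact h0 l h
    · obtain ⟨i, hi1, hi2⟩ := hpar (l + 1) (by omega)
      obtain ⟨i', hi1', hi2'⟩ := hpar l (by omega)
      obtain ⟨k, hk, hkl⟩ := exists_end O hi2 (by omega) hi2' hi1'
      have h2 := h1 k (by omega)
      rw [hkl] at h2
      have h3 : Finset.Ioc k l = insert l (Finset.Ioc k (l - 1)) := by
        ext z
        simp only [Finset.mem_Ioc, Finset.mem_insert]
        omega
      rw [h3, Finset.prod_insert (by simp)] at h2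
      have h4 : ∏ z ∈ Finset.Ioc k (l - 1), E z ∈ G :=
        Subgroup.prod_mem _ (fun z hz => ih' z (by rw [Finset.mem_Ioc] at hz; omega))
      have h5 : E l = (E k * (E l * ∏ z ∈ Finset.Ioc k (l - 1), E z)⁻¹)⁻¹ * E k *
          (∏ z ∈ Finset.Ioc k (l - 1), E z)⁻¹ := by
        generalize ∏ z ∈ Finset.Ioc k (l - 1), E z = q
        rw [mul_inv_rev, inv_inv]
        have : E l * q * (E k)⁻¹ * E k * q⁻¹ = E l := by group
        rw [this]
      rw [h5]
      exact G.mul_mem (G.mul_mem (G.inv_mem h2) (ih' k hk)) (G.inv_mem h4)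

/-- one parent: a power of `E (m - 1)` lies in `G` -/
theorem one_parent_pow {P : Type*} [CommGroup P] (G : Subgroup P) (E : ℤ → P) {m M0 : ℤ}
    (hm : O.OneParent m) (hM : M0 ≤ m) (h0 : ∀ k < M0, E k ∈ G)
    (h1 : ∀ k, k + O.r k < m → E k * (∏ l ∈ Finset.Ioc k (k + O.r k), E l)⁻¹ ∈ G) :
    ∃ c : ℕ, 1 ≤ c ∧ E (m - 1) ^ c ∈ G := by
  refine ⟨O.M (M0 - 1) (m - 1), O.M_pos_iff.2 (by omega), ?_⟩
  let u : ℤ → Additive (P ⧸ G) := fun k => Additive.ofMul (QuotientGroup.mk (E k))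
  have hrec : ∀ k < m - 1, u k = (∑ l ∈ Finset.Ioc k (k + O.r k), u l) + (fun _ => 0 : ℤ → _) k := by
    intro k hk
    have h2 := h1 k (by have := hm.le O hk; omega)
    have h3 : (QuotientGroup.mk (E k) : P ⧸ G) =
        QuotientGroup.mk (∏ l ∈ Finset.Ioc k (k + O.r k), E l) := by
      rw [eq_comm, QuotientGroup.eq, mul_comm]
      exact h2
    have h4 : u k = Additive.ofMul (∏ l ∈ Finset.Ioc k (k + O.r k),
        (QuotientGroup.mk (E l) : P ⧸ G)) := by
      change Additive.ofMul (QuotientGroup.mk (E k) : P ⧸ G) = _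
      rw [h3]
      congr 1
      exact map_prod (QuotientGroup.mk' G) _ _
    rw [h4, add_zero, ofMul_prod]
  have h5 := O.rec_solve (m - 1) (fun k hk => hm.le O hk) u (fun _ => 0) hrec
    (k := M0 - 1) (by omega)
  have h6 : u (M0 - 1) = 0 := by
    change Additive.ofMul (QuotientGroup.mk (E (M0 - 1)) : P ⧸ G) = 0
    rw [(QuotientGroup.eq_one_iff _).2 (h0 _ (by omega))]
    rfl
  rw [h6] at h5
  simp only [smul_zero, Finset.sum_const_zero, add_zero] at h5
  have h7 : (QuotientGroup.mk (E (m - 1) ^ O.M (M0 - 1) (m - 1)) : P ⧸ G) = 1 := by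
    have h8 : Additive.ofMul ((QuotientGroup.mk (E (m - 1)) : P ⧸ G) ^ O.M (M0 - 1) (m - 1)) = 0 := by
      rw [ofMul_pow]
      exact h5.symm
    rw [QuotientGroup.mk_pow]
    exact h8
  exact (QuotientGroup.eq_one_iff _).1 h7

end Comb

/-! ### roots -/

section Root


end Root

end Crest.Agent.R275.Tr5
end
end

-- ▼ part R275/Tr5E_468
section

/-!
R275 (S0418), helper468: section 5 in holomorphic cocycle form.  Part E: the periodic family
`E k`, `Sg k = s_{C_k}`; frames over `N` for all `E k`, `k < m` (two parents), resp. for a power of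
`E (m - 1)` (one parent).
-/

set_option autoImplicit false
set_option linter.unusedSectionVars false

open Set Filter Topology Complex
open scoped ENNReal

noncomputable section

namespace Crest.Agent.R275.Tr5

open Crest.Agent.R275.Geo Crest.Agent.R275.Core144 Crest.Agent.R275.Sec495

section FrameOf

variable {n : ℕ} {M : Type} [TopologicalSpace M] {A : Atl n M} {h : M → ℝ}

/-- continuity of the components of a section -/
theorem IsHS.continuousAt {L : LB A} {U : Set M} {s : A.ι → M → ℂ} (hs : IsHS L U s)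
    (hU : IsOpen U) {i : A.ι} {x : M} (hx : x ∈ (A.e i).source) (hxU : x ∈ U) :
    ContinuousAt (s i) x := by
  have h1 : ContinuousAt (fun z => s i ((A.e i).symm z)) (A.e i x) :=
    ((hs.hol i).continuousOn).continuousAt ((isOpen_ti hU).mem_nhds
      ⟨(A.e i).map_source hx, by rw [mem_preimage, (A.e i).left_inv hx]; exact hxU⟩)
  have h2 : ContinuousAt (fun y => s i ((A.e i).symm (A.e i y))) x :=
    ContinuousAt.comp (g := fun z => s i ((A.e i).symm z)) h1 ((A.e i).continuousAt hx)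
  refine h2.congr ?_
  filter_upwards [(A.e i).open_source.mem_nhds hx] with y hy
  rw [(A.e i).left_inv hy]

/-- two-sided bound for nowhere vanishing sections over a compact set -/
theorem exists_bound_compact {L : LB A} {s : A.ι → M → ℂ} (hs : IsHS L univ s) {K : Set M}
    (hK : IsCompact K) {C : ℝ} (hL : ∀ i j, ∀ x ∈ (A.e i).source ∩ (A.e j).source, x ∈ K →
      ‖L.g i j x‖ ≤ C)
    (hne : ∀ i, ∀ x ∈ (A.e i).source, x ∈ K → s i x ≠ 0) :
    ∃ C', ∀ i, ∀ x ∈ (A.e i).source, x ∈ K → ‖s i x‖ ≤ C' ∧ ‖(s i x)⁻¹‖ ≤ C' := by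
  -- local bounds
  have hloc : ∀ x ∈ K, ∃ V ∈ 𝓝[K] x, ∃ C', 0 ≤ C' ∧ ∀ i, ∀ y ∈ (A.e i).source, y ∈ V → y ∈ K →
      ‖s i y‖ ≤ C' ∧ ‖(s i y)⁻¹‖ ≤ C' := by
    intro x hx
    obtain ⟨j, hj⟩ := A.cover x
    have h1 : ContinuousAt (s j) x := IsHS.continuousAt hs isOpen_univ hj (mem_univ x)
    have h2 : ContinuousAt (fun y => (s j y)⁻¹) x := h1.inv₀ (hne j x hj hx)
    have h3 : ∀ᶠ y in 𝓝 x, ‖s j y‖ < ‖s j x‖ + 1 :=
      h1.norm.eventually (gt_mem_nhds (by linarith))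
    have h4 : ∀ᶠ y in 𝓝 x, ‖(s j y)⁻¹‖ < ‖(s j x)⁻¹‖ + 1 :=
      h2.norm.eventually (gt_mem_nhds (by linarith))
    set c1 := ‖s j x‖ + 1
    set c2 := ‖(s j x)⁻¹‖ + 1
    have hc1 : 0 ≤ c1 := by positivity
    have hc2 : 0 ≤ c2 := by positivity
    refine ⟨{y | ‖s j y‖ < c1 ∧ ‖(s j y)⁻¹‖ < c2 ∧ y ∈ (A.e j).source}, ?_, |C| * (c1 + c2),
      by positivity, ?_⟩
    · refine mem_nhdsWithin_of_mem_nhds ?_
      filter_upwards [h3, h4, (A.e j).open_source.mem_nhds hj] with y a1 a2 a3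
      exact ⟨a1, a2, a3⟩
    · rintro i y hy ⟨a1, a2, a3⟩ hyK
      have e1 := hs.tr i j y ⟨hy, a3⟩ (mem_univ y)
      have b1 := hL i j y ⟨hy, a3⟩ hyK
      have b2 := hL j i y ⟨a3, hy⟩ hyK
      have hC : C ≤ |C| := le_abs_self C
      constructor
      · rw [e1, norm_mul]
        exact mul_le_mul (b1.trans hC) (a1.le.trans (by linarith)) (norm_nonneg _) (abs_nonneg _)
      · rw [e1, mul_inv, L.inv_eq, norm_mul]
        exact mul_le_mul (b2.trans hC) (a2.le.trans (by linarith)) (norm_nonneg _) (abs_nonneg _)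
  refine hK.induction_on (p := fun K' => ∃ C', ∀ i, ∀ x ∈ (A.e i).source, x ∈ K' → x ∈ K →
      ‖s i x‖ ≤ C' ∧ ‖(s i x)⁻¹‖ ≤ C') ?_ ?_ ?_ ?_ |>.imp (fun C' hC' i x hx hxK =>
        hC' i x hx hxK hxK)
  · exact ⟨0, fun i x _ hx => absurd hx (notMem_empty x)⟩
  · rintro s' t' hst ⟨C', hC'⟩
    exact ⟨C', fun i x hx hxs => hC' i x hx (hst hxs)⟩
  · rintro s' t' ⟨C1, h1⟩ ⟨C2, h2⟩
    refine ⟨max C1 C2, fun i x hx hxs hxK => ?_⟩
    rcases hxs with hxs | hxs
    · obtain ⟨a1, a2⟩ := h1 i x hx hxs hxK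
      exact ⟨a1.trans (le_max_left _ _), a2.trans (le_max_left _ _)⟩
    · obtain ⟨a1, a2⟩ := h2 i x hx hxs hxK
      exact ⟨a1.trans (le_max_right _ _), a2.trans (le_max_right _ _)⟩
  · intro x hx
    obtain ⟨V, hV, C', -, hC'⟩ := hloc x hx
    exact ⟨V, hV, C', fun i y hy hyV hyK => hC' i y hy hyV hyK⟩

/-- a section which does not vanish on `closure N` and has a nonzero limit at the small end is a
frame -/
theorem frame_of_ne {N : Set M} {L : LB A} {s : A.ι → M → ℂ} (hs : IsHS L univ s)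
    (hh : Continuous h) (hcpt : ∀ a b : ℝ, IsCompact {y | a ≤ h y ∧ h y ≤ b}) {H C : ℝ}
    (hNH : ∀ x ∈ N, h x ≤ H)
    (hL : ∀ i j, ∀ x ∈ (A.e i).source ∩ (A.e j).source, ‖L.g i j x‖ ≤ C)
    (hne : ∀ i, ∀ x ∈ (A.e i).source, x ∈ closure N → s i x ≠ 0) {c : ℂ} (hc : c ≠ 0)
    (hlim : LimS h s c) : Frame h N L s := by
  have hcl : ∀ x ∈ closure N, h x ≤ H := by
    intro x hx
    exact closure_minimal (t := {x | h x ≤ H}) hNH (isClosed_le hh continuous_const) hx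
  refine ⟨hs.mono (subset_univ _), fun i x hx hxN => hne i x hx (subset_closure hxN), ?_,
    ⟨c, hc, fun ε hε => ?_⟩⟩
  · obtain ⟨T, hT⟩ := hlim (‖c‖ / 2) (by positivity)
    obtain ⟨C', hC'⟩ := exists_bound_compact hs
      (K := {y | T ≤ h y ∧ h y ≤ H} ∩ closure N) ((hcpt T H).inter_right isClosed_closure)
      (fun i j x hx _ => hL i j x hx) (fun i x hx hxK => hne i x hx hxK.2)
    refine ⟨max C' (‖c‖ + ‖c‖ / 2 + 2 / ‖c‖), fun i x hx hxN => ?_⟩
    have hc0 : 0 < ‖c‖ := norm_pos_iff.2 hc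
    rcases lt_or_ge (h x) T with hxT | hxT
    · have h1 := hT i x hx hxT
      have h2 : ‖s i x‖ ≤ ‖c‖ + ‖c‖ / 2 := by
        have : ‖s i x‖ ≤ ‖s i x - c‖ + ‖c‖ := by simpa using norm_add_le (s i x - c) c
        linarith
      have h3 : ‖c‖ / 2 ≤ ‖s i x‖ := by
        have : ‖c‖ ≤ ‖c - s i x‖ + ‖s i x‖ := by simpa using norm_add_le (c - s i x) (s i x)
        rw [norm_sub_rev] at this
        linarith
      have h4 : 0 < 2 / ‖c‖ := by positivity
      constructor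
      · exact h2.trans ((by linarith : ‖c‖ + ‖c‖ / 2 ≤ ‖c‖ + ‖c‖ / 2 + 2 / ‖c‖).trans
          (le_max_right _ _))
      · rw [norm_inv]
        have h5 : ‖s i x‖⁻¹ ≤ (‖c‖ / 2)⁻¹ := inv_anti₀ (by positivity) h3
        have h6 : (‖c‖ / 2)⁻¹ = 2 / ‖c‖ := by field_simp
        rw [h6] at h5
        exact h5.trans ((by linarith : 2 / ‖c‖ ≤ ‖c‖ + ‖c‖ / 2 + 2 / ‖c‖).trans (le_max_right _ _))
    · obtain ⟨a1, a2⟩ := hC' i x hx ⟨⟨hxT, hNH x hxN⟩, subset_closure hxN⟩
      exact ⟨a1.trans (le_max_left _ _), a2.trans (le_max_left _ _)⟩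
  · obtain ⟨T, hT⟩ := hlim ε hε
    exact ⟨T, fun i x hx _ hxT => hT i x hx hxT⟩

end FrameOf

section Periodic

variable {n : ℕ} {M : Type} [TopologicalSpace M] {A : Atl n M} {g : M ≃ₜ M} {h : M → ℝ}
variable {B : Type*} [DecidableEq B] {S : Data495 B}

/-- the periodic family of section 5: the line bundles `E k` and the sections
`Sg k = s_k / ∏_{k < l ≤ k + r k} s_l` with divisor the compact curve `C_k` -/
structure Per5 (Q : Equi A g) (h : M → ℝ) (O : Ord495 S) (ρ : ℝ) (E : ℤ → LB A)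
    (Sg : ℤ → A.ι → M → ℂ) (c : ℤ → ℂ) : Prop where
  ρ_pos : 0 < ρ
  shift : ∀ x, h (g x) = h x - 1
  E_per : ∀ k, pullL Q (E (k + O.b)) = E k
  S_per : ∀ k, pullS Q (Sg (k + O.b)) = Sg k
  c_per : ∀ k, c (k + O.b) = c k
  c_ne : ∀ k, c k ≠ 0
  hs : ∀ k, IsHS (E k * (∏ l ∈ Finset.Ioc k (k + O.r k), E l)⁻¹) univ (Sg k)
  E_bd : ∀ k, ∃ C, ∀ i j, ∀ x ∈ (A.e i).source ∩ (A.e j).source,
    ‖(E k).g i j x - 1‖ ≤ C * Real.exp (-ρ * |h x|)
  S_bd : ∀ k, ∀ H : ℝ, ∃ C, ∀ i, ∀ x ∈ (A.e i).source, h x ≤ H →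
    ‖Sg k i x - c k‖ ≤ C * Real.exp (ρ * h x)

namespace Per5

variable {Q : Equi A g} {O : Ord495 S} {ρ : ℝ} {E : ℤ → LB A} {Sg : ℤ → A.ι → M → ℂ} {c : ℤ → ℂ}

/-- a bound depending on `k` and periodic under the shift is geometric -/
theorem geom (hb : 1 ≤ O.b) (m : ℤ) (P : ℤ → ℝ → ℝ → Prop)
    (hmono : ∀ k t C C', C ≤ C' → P k t C → P k t C')
    (hone : ∀ k, ∃ C, P k 0 C)
    (hshift : ∀ k t C, P (k + O.b) t C → P k (t + 1) C) :
    ∃ C, 0 ≤ C ∧ ∀ k ≤ m, ∃ t : ℕ, (m - k : ℝ) ≤ (t + 1) * O.b ∧ P k t C := by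
  classical
  choose C0 hC0 using hone
  obtain ⟨C, hC, hCle⟩ : ∃ C, 0 ≤ C ∧ ∀ j ∈ Finset.Ioc (m - O.b) m, C0 j ≤ C := by
    refine ⟨∑ j ∈ Finset.Ioc (m - O.b) m, |C0 j|, Finset.sum_nonneg (fun _ _ => abs_nonneg _),
      fun j hj => ?_⟩
    exact (le_abs_self _).trans
      (Finset.single_le_sum (f := fun j => |C0 j|) (fun _ _ => abs_nonneg _) hj)
  refine ⟨C, hC, fun k hk => ?_⟩
  -- number of steps
  have key : ∀ t : ℕ, ∀ k : ℤ, m - O.b < k + t * O.b → k + t * O.b ≤ m → P k t C := by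
    intro t
    induction t with
    | zero =>
      intro k h1 h2
      simp only [Nat.cast_zero, zero_mul, add_zero] at h1 h2
      simpa using hmono k 0 _ _ (hCle k (Finset.mem_Ioc.2 ⟨h1, h2⟩)) (hC0 k)
    | succ t ih =>
      intro k h1 h2
      have h3 := ih (k + O.b) (by push_cast at h1; linarith) (by push_cast at h2; linarith)
      have := hshift k t C h3
      simpa using this
  obtain ⟨t, ht1, ht2⟩ : ∃ t : ℕ, m - O.b < k + t * O.b ∧ k + t * O.b ≤ m := by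
    refine ⟨((m - k) / O.b).toNat, ?_, ?_⟩
    · have h1 : 0 ≤ (m - k) / (O.b : ℤ) := Int.ediv_nonneg (by omega) (by omega)
      rw [Int.toNat_of_nonneg h1]
      have h2 := Int.lt_ediv_add_one_mul_self (m - k) (by omega : (0 : ℤ) < O.b)
      linarith
    · have h1 : 0 ≤ (m - k) / (O.b : ℤ) := Int.ediv_nonneg (by omega) (by omega)
      rw [Int.toNat_of_nonneg h1]
      have h2 := Int.ediv_mul_le (m - k) (by omega : (O.b : ℤ) ≠ 0)
      linarith
  refine ⟨t, ?_, key t k ht1 ht2⟩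
  have h3 : (m - k : ℤ) ≤ (t + 1) * O.b := by linarith
  exact_mod_cast h3

variable (F : Per5 Q h O ρ E Sg c)

include F

/-- `x0 = exp (-ρ / b)` -/
theorem x0_pow {m k : ℤ} {t : ℕ} (hk : k ≤ m) (ht : (m - k : ℝ) ≤ (t + 1) * O.b) :
    Real.exp (-ρ * t) ≤ Real.exp ρ * Real.exp (-ρ / O.b) ^ (m - k).toNat := by
  have hb : (0 : ℝ) < O.b := by exact_mod_cast O.hb
  have h1 : (((m - k).toNat : ℕ) : ℝ) = m - k := by
    have : (((m - k).toNat : ℕ) : ℤ) = m - k := Int.toNat_of_nonneg (by omega)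
    exact_mod_cast this
  rw [← Real.exp_nat_mul, ← Real.exp_add, h1]
  apply Real.exp_le_exp.2
  have h2 : ((m : ℝ) - k) / O.b ≤ t + 1 := by
    rw [div_le_iff₀ hb]
    exact ht
  have h3 := mul_le_mul_of_nonneg_left h2 F.ρ_pos.le
  have h4 : ((m : ℝ) - k) * (-ρ / O.b) = -(ρ * (((m : ℝ) - k) / O.b)) := by ring
  rw [h4]
  linarith

theorem E_geom (m : ℤ) (H : ℝ) : ∃ C, 0 ≤ C ∧ ∀ k ≤ m, ∀ i j,
    ∀ x ∈ (A.e i).source ∩ (A.e j).source, h x ≤ H →
      ‖(E k).g i j x - 1‖ ≤ C * Real.exp (-ρ / O.b) ^ (m - k).toNat := by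
  have key := geom (O := O) O.hb m
    (fun k t C => ∀ i j, ∀ x ∈ (A.e i).source ∩ (A.e j).source,
      ‖(E k).g i j x - 1‖ ≤ C * Real.exp (-ρ * |h x - t|))
    ?_ ?_ ?_
  · obtain ⟨C, hC, hP⟩ := key
    refine ⟨C * Real.exp (ρ * H) * Real.exp ρ, by positivity, fun k hk i j x hx hxH => ?_⟩
    obtain ⟨t, ht, hPt⟩ := hP k hk
    refine (hPt i j x hx).trans ?_
    have h1 : Real.exp (-ρ * |h x - t|) ≤ Real.exp (ρ * H) * Real.exp (-ρ * t) := by
      rw [← Real.exp_add]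
      apply Real.exp_le_exp.2
      have h2 : t - H ≤ |h x - t| := by
        have := neg_le_abs (h x - t)
        linarith
      have := mul_le_mul_of_nonneg_left h2 F.ρ_pos.le
      linarith
    calc C * Real.exp (-ρ * |h x - t|) ≤ C * (Real.exp (ρ * H) * Real.exp (-ρ * t)) := by gcongr
      _ ≤ C * (Real.exp (ρ * H) * (Real.exp ρ * Real.exp (-ρ / O.b) ^ (m - k).toNat)) := by
          have := F.x0_pow hk ht
          gcongr
      _ = _ := by ring
  · intro k t C C' hCC' hP i j x hx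
    refine (hP i j x hx).trans ?_
    gcongr
  · intro k
    obtain ⟨C, hC⟩ := F.E_bd k
    exact ⟨C, fun i j x hx => by simpa using hC i j x hx⟩
  · intro k t C hP i j x hx
    have h1 : (E k).g i j x = (E (k + O.b)).g (Q.sh i) (Q.sh j) (g x) := by
      rw [← F.E_per k, pullL_g]
    rw [h1]
    have h2 := hP (Q.sh i) (Q.sh j) (g x) ⟨(Q.src' i x).2 hx.1, (Q.src' j x).2 hx.2⟩
    rw [F.shift] at h2
    have h3 : h x - 1 - t = h x - (t + 1) := by ring
    rwa [h3] at h2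

theorem S_geom (m : ℤ) (H : ℝ) : ∃ C, 0 ≤ C ∧ ∀ k ≤ m, ∀ i, ∀ x ∈ (A.e i).source, h x ≤ H →
      ‖Sg k i x - c k‖ ≤ C * Real.exp (-ρ / O.b) ^ (m - k).toNat := by
  have key := geom (O := O) O.hb m
    (fun k t C => ∀ i, ∀ x ∈ (A.e i).source, h x ≤ H + t →
      ‖Sg k i x - c k‖ ≤ C * Real.exp (ρ * (h x - t)))
    ?_ ?_ ?_
  · obtain ⟨C, hC, hP⟩ := key
    refine ⟨C * Real.exp (ρ * H) * Real.exp ρ, by positivity, fun k hk i x hx hxH => ?_⟩
    obtain ⟨t, ht, hPt⟩ := hP k hk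
    refine (hPt i x hx (hxH.trans (by simp))).trans ?_
    have h1 : Real.exp (ρ * (h x - t)) ≤ Real.exp (ρ * H) * Real.exp (-ρ * t) := by
      rw [← Real.exp_add]
      apply Real.exp_le_exp.2
      have := mul_le_mul_of_nonneg_left hxH F.ρ_pos.le
      linarith
    calc C * Real.exp (ρ * (h x - t)) ≤ C * (Real.exp (ρ * H) * Real.exp (-ρ * t)) := by gcongr
      _ ≤ C * (Real.exp (ρ * H) * (Real.exp ρ * Real.exp (-ρ / O.b) ^ (m - k).toNat)) := by
          have := F.x0_pow hk ht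
          gcongr
      _ = _ := by ring
  · intro k t C C' hCC' hP i x hx hxH
    refine (hP i x hx hxH).trans ?_
    gcongr
  · intro k
    obtain ⟨C, hC⟩ := F.S_bd k H
    exact ⟨C, fun i x hx hxH => by simpa using hC i x hx (by simpa using hxH)⟩
  · intro k t C hP i x hx hxH
    have h1 : Sg k i x = Sg (k + O.b) (Q.sh i) (g x) := by
      rw [← F.S_per k, pullS_apply]
    rw [h1, ← F.c_per k]
    have h2 := hP (Q.sh i) (g x) ((Q.src' i x).2 hx) (by rw [F.shift]; linarith)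
    rw [F.shift] at h2
    have h3 : h x - 1 - t = h x - (t + 1) := by ring
    rwa [h3] at h2

theorem c_bound (m : ℤ) : ∃ C, 0 < C ∧ ∀ k ≤ m, ‖(c k)⁻¹‖ ≤ C := by
  obtain ⟨C, hC, hP⟩ := geom (O := O) O.hb m (fun k _ C => ‖(c k)⁻¹‖ ≤ C)
    (fun k _ C C' h1 h2 => h2.trans h1) (fun k => ⟨_, le_rfl⟩)
    (fun k _ C h1 => by rwa [F.c_per] at h1)
  refine ⟨C + 1, by linarith, fun k hk => ?_⟩
  obtain ⟨_, _, h1⟩ := hP k hk
  linarith

theorem g_bound (k : ℤ) : ∃ C, ∀ i j, ∀ x ∈ (A.e i).source ∩ (A.e j).source,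
    ‖(E k).g i j x‖ ≤ C ∧ ‖((E k).g i j x)⁻¹‖ ≤ C := by
  obtain ⟨C, hC⟩ := F.E_bd k
  have h1 : ∀ i j, ∀ x ∈ (A.e i).source ∩ (A.e j).source, ‖(E k).g i j x‖ ≤ 1 + |C| := by
    intro i j x hx
    have h2 := hC i j x hx
    have h3 : Real.exp (-ρ * |h x|) ≤ 1 := by
      rw [Real.exp_le_one_iff]
      have := mul_nonneg F.ρ_pos.le (abs_nonneg (h x))
      linarith
    have h4 : C * Real.exp (-ρ * |h x|) ≤ |C| := by
      calc C * Real.exp (-ρ * |h x|) ≤ |C| * Real.exp (-ρ * |h x|) := by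
            gcongr
            exact le_abs_self C
        _ ≤ |C| * 1 := by gcongr
        _ = |C| := mul_one _
    have h5 : ‖(E k).g i j x‖ ≤ ‖(E k).g i j x - 1‖ + 1 := by
      simpa using norm_add_le ((E k).g i j x - 1) 1
    linarith
  refine ⟨1 + |C|, fun i j x hx => ⟨h1 i j x hx, ?_⟩⟩
  rw [LB.inv_eq]
  exact h1 j i x ⟨hx.2, hx.1⟩

/-- bound for the cocycle of the bundle of `Sg k` -/
theorem gS_bound (k : ℤ) : ∃ C, ∀ i j, ∀ x ∈ (A.e i).source ∩ (A.e j).source,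
    ‖(E k * (∏ l ∈ Finset.Ioc k (k + O.r k), E l)⁻¹).g i j x‖ ≤ C := by
  have h1 : ∀ s : Finset ℤ, ∃ C, 0 ≤ C ∧ ∀ i j, ∀ x ∈ (A.e i).source ∩ (A.e j).source,
      ‖((∏ l ∈ s, E l)⁻¹).g i j x‖ ≤ C := by
    intro s
    induction s using Finset.induction_on with
    | empty => exact ⟨1, zero_le_one, fun i j x _ => by simp⟩
    | insert a s ha ih =>
      obtain ⟨C, hC0, hC⟩ := ih
      obtain ⟨C', hC'⟩ := F.g_bound a
      refine ⟨|C'| * C, by positivity, fun i j x hx => ?_⟩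
      rw [Finset.prod_insert ha, LB.inv_g, LB.mul_g, mul_inv, norm_mul]
      have a1 := (hC' i j x hx).2.trans (le_abs_self C')
      have a2 := hC i j x hx
      rw [LB.inv_g] at a2
      exact mul_le_mul a1 a2 (norm_nonneg _) (abs_nonneg _)
  obtain ⟨C, hC0, hC⟩ := h1 (Finset.Ioc k (k + O.r k))
  obtain ⟨C', hC'⟩ := F.g_bound k
  refine ⟨|C'| * C, fun i j x hx => ?_⟩
  rw [LB.mul_g, norm_mul]
  exact mul_le_mul ((hC' i j x hx).1.trans (le_abs_self C')) (hC i j x hx) (norm_nonneg _)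
    (abs_nonneg _)

/-- the limit of `Sg k` at the small end -/
theorem limS (k : ℤ) : LimS h (Sg k) (c k) := by
  intro ε hε
  obtain ⟨C, hC⟩ := F.S_bd k 0
  have h1 : Tendsto (fun T : ℝ => |C| * Real.exp (ρ * T)) atBot (𝓝 (|C| * 0)) := by
    refine Tendsto.const_mul _ ?_
    exact Real.tendsto_exp_atBot.comp (tendsto_id.const_mul_atBot F.ρ_pos)
  rw [mul_zero] at h1
  obtain ⟨T, hT⟩ := ((h1.eventually (gt_mem_nhds hε)).and (eventually_le_atBot 0)).exists
  refine ⟨T, fun i x hx hxT => ?_⟩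
  refine (hC i x hx (hxT.le.trans hT.2)).trans_lt (lt_of_le_of_lt ?_ hT.1)
  have h2 : Real.exp (ρ * h x) ≤ Real.exp (ρ * T) := by
    apply Real.exp_le_exp.2
    exact mul_le_mul_of_nonneg_left hxT.le F.ρ_pos.le
  calc C * Real.exp (ρ * h x) ≤ |C| * Real.exp (ρ * h x) := by
        gcongr
        exact le_abs_self C
    _ ≤ |C| * Real.exp (ρ * T) := by gcongr

/-- `Sg k` is a frame over `N` if it does not vanish on `closure N` -/
theorem frame_S {N : Set M} (hh : Continuous h)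
    (hcpt : ∀ a b : ℝ, IsCompact {y | a ≤ h y ∧ h y ≤ b}) {H : ℝ} (hNH : ∀ x ∈ N, h x ≤ H) {k : ℤ}
    (hne : ∀ i, ∀ x ∈ (A.e i).source, x ∈ closure N → Sg k i x ≠ 0) :
    Frame h N (E k * (∏ l ∈ Finset.Ioc k (k + O.r k), E l)⁻¹) (Sg k) := by
  obtain ⟨C, hC⟩ := F.gS_bound k
  exact frame_of_ne (F.hs k) hh hcpt hNH hC hne (F.c_ne k) (F.limS k)

/-- deep indices of the periodic family -/
theorem exists_deep {N : Set M} (hN : IsOpen N) {H : ℝ} (hNH : ∀ x ∈ N, h x ≤ H) {m : ℤ}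
    (hm : O.OneParent m ∨ ((∀ K ≤ m, ∃ i < K - 1, O.IsParent i K) ∧
      ∃ R : ℕ, (∀ k, O.r k ≤ R) ∧ (1 + R) * Real.exp (-ρ / O.b) < 1)) :
    ∃ t : ℕ, ∀ k < m - t * O.b, E k ∈ FrG A h N := by
  obtain ⟨C1, hC1, h1⟩ := F.E_geom m H
  obtain ⟨C2, hC2, h2⟩ := F.S_geom m H
  obtain ⟨C3, hC3, h3⟩ := F.c_bound m
  have hb : (0 : ℝ) < O.b := by exact_mod_cast O.hb
  have hx1 : Real.exp (-ρ / O.b) < 1 := by
    rw [Real.exp_lt_one_iff]
    exact div_neg_of_neg_of_pos (neg_lt_zero.2 F.ρ_pos) hb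
  refine frames_deep O hN E (fun k i x => (c k)⁻¹ * Sg k i x) (Real.exp_pos _) hx1 hm
    (C := max C1 (C3 * C2)) (hC1.trans (le_max_left _ _)) ?_ ?_ ?_ ?_
  · intro k hk i j x hx hxN
    refine (h1 k hk i j x hx (hNH x hxN)).trans ?_
    gcongr
    exact le_max_left _ _
  · intro k _
    exact ((F.hs k).smul (c k)⁻¹).mono (subset_univ _)
  · intro k hk i x hx hxN
    have hkm : k ≤ m := by have := O.r_pos k; omega
    have e : (c k)⁻¹ * Sg k i x - 1 = (c k)⁻¹ * (Sg k i x - c k) := by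
      rw [mul_sub, inv_mul_cancel₀ (F.c_ne k)]
    rw [e, norm_mul]
    calc ‖(c k)⁻¹‖ * ‖Sg k i x - c k‖
        ≤ C3 * (C2 * Real.exp (-ρ / O.b) ^ (m - k).toNat) :=
          mul_le_mul (h3 k hkm) (h2 k hkm i x hx (hNH x hxN)) (norm_nonneg _) hC3.le
      _ = (C3 * C2) * Real.exp (-ρ / O.b) ^ (m - k).toNat := by ring
      _ ≤ max C1 (C3 * C2) * Real.exp (-ρ / O.b) ^ (m - k).toNat := by
          gcongr
          exact le_max_right _ _
  · intro k _ ε hε
    obtain ⟨T, hT⟩ := F.limS k (ε * ‖c k‖) (by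
      have := norm_pos_iff.2 (F.c_ne k)
      positivity)
    refine ⟨T, fun i x hx _ hxT => ?_⟩
    have e : (c k)⁻¹ * Sg k i x - 1 = (c k)⁻¹ * (Sg k i x - c k) := by
      rw [mul_sub, inv_mul_cancel₀ (F.c_ne k)]
    have hc0 := norm_pos_iff.2 (F.c_ne k)
    rw [e, norm_mul, norm_inv]
    calc ‖c k‖⁻¹ * ‖Sg k i x - c k‖ < ‖c k‖⁻¹ * (ε * ‖c k‖) := by
          have := hT i x hx hxT
          gcongr
      _ = ε := by field_simp

/-- **two parents**: all `E k`, `k < m`, have frames over `N` -/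
theorem two_parents {N : Set M} (hN : IsOpen N) (hh : Continuous h)
    (hcpt : ∀ a b : ℝ, IsCompact {y | a ≤ h y ∧ h y ≤ b}) {H : ℝ} (hNH : ∀ x ∈ N, h x ≤ H) {m : ℤ}
    (hm : ∀ K ≤ m, ∃ i < K - 1, O.IsParent i K) {R : ℕ} (hR : ∀ k, O.r k ≤ R)
    (hρ : (1 + R) * Real.exp (-ρ / O.b) < 1)
    (hne : ∀ k, k + O.r k < m → ∀ i, ∀ x ∈ (A.e i).source, x ∈ closure N → Sg k i x ≠ 0) :
    ∀ k < m, E k ∈ FrG A h N := by
  obtain ⟨t, ht⟩ := F.exists_deep hN hNH (Or.inr ⟨hm, R, hR, hρ⟩)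
  exact two_parent_up O (FrG A h N) E hm ht
    (fun k hk => ⟨_, F.frame_S hh hcpt hNH (hne k hk)⟩)

/-- **one parent**: a positive power of `E (m - 1)` has a frame over `N` -/
theorem one_parent {N : Set M} (hN : IsOpen N) (hh : Continuous h)
    (hcpt : ∀ a b : ℝ, IsCompact {y | a ≤ h y ∧ h y ≤ b}) {H : ℝ} (hNH : ∀ x ∈ N, h x ≤ H) {m : ℤ}
    (hm : O.OneParent m)
    (hne : ∀ k, k + O.r k < m → ∀ i, ∀ x ∈ (A.e i).source, x ∈ closure N → Sg k i x ≠ 0) :
    ∃ q : ℕ, 1 ≤ q ∧ E (m - 1) ^ q ∈ FrG A h N := by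
  obtain ⟨t, ht⟩ := F.exists_deep hN hNH (Or.inl hm)
  have hb : (0 : ℤ) ≤ t * O.b := by positivity
  exact one_parent_pow O (FrG A h N) E hm (by omega) ht
    (fun k hk => ⟨_, F.frame_S hh hcpt hNH (hne k hk)⟩)

end Per5

end Periodic

end Crest.Agent.R275.Tr5
end
end

-- ▼ part R275/S5Per_95

/-!
# R275, helper95: the periodic family of section 5 (`Tr5.Per5` of helper468)

* `limS_ne`  : a section of `V_L` with compact divisor has nonzero limit at the small end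
* `Sk H O k` : the canonical section with `s_k = Sk k * ∏ s_l`; `Sk_per`; `ck`, `ck_ne`, `ck_per`
* `Rate h ρ L` : every `σ ∈ V_L` tends to its limit at the small end with rate `ρ`
* `per5`     : `Tr5.Per5 Q h O ρ (fun k => E (φ k)) (Sk H O) (ck ..)`
-/

set_option autoImplicit false
set_option linter.unusedSectionVars false

open Set Filter Topology
open scoped Manifold ContDiff

namespace Crest.Agent.R275.S5In95

open Crest.AlgGeometry.Surface Crest.Agent.R275.Geo Crest.Agent.R275.Core144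
open Crest.Agent.R275.Dv69 (HolN LEq EffDiv gt LocFact DivFin)
open Crest.Agent.R275.Dv69.EffDiv (CPr)
open Crest.Agent.R275.HolY631 (Deck)
open Crest.Agent.R275.GeoP572
open Crest.Agent.R275.Sec495

noncomputable section

variable {Y : Type} [TopologicalSpace Y] [ChartedSpace C2 Y] [IsManifold 𝓘(ℂ, C2) 1 Y]
variable [LocFact Y] [DivFin Y] [PreconnectedSpace Y] [Nonempty Y]
variable {A : Atl 2 Y} {h : Y → ℝ} {γ : Y ≃ₜ Y} {Q : Equi A γ} {P : Subgroup (LB A)}
  {B : Type} [DecidableEq B] {g : Equiv.Perm B} {lev : B → ℤ} {E : B → LB A} {q : LB A → ℤ}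
  {s : B → A.ι → Y → ℂ} (H : TIn A h γ Q P g lev E q s)

/-- limits at the small end exist -/
def HasS (h : Y → ℝ) (P : Subgroup (LB A)) : Prop := ∀ L ∈ P, ∀ σ ∈ VL h L, ∃ c, LimS h σ c

include H in
theorem unbdd_below (T : ℝ) : ∃ y : Y, h y < T := by
  obtain ⟨y⟩ := ‹Nonempty Y›
  obtain ⟨n, hn⟩ := exists_nat_gt (h y - T)
  refine ⟨(γ ^ (n : ℤ)) y, ?_⟩
  rw [H.deck.shift_zpow]
  push_cast
  linarith

include H in
/-- a section which is bounded below near the small end has nonzero limit -/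
theorem ne_of_low {σ : A.ι → Y → ℂ} (hl : BR4672.LowE A h σ) {c : ℂ} (hc : LimS h σ c) :
    c ≠ 0 := by
  rintro rfl
  obtain ⟨T, δ, hδ, hT⟩ := hl
  obtain ⟨T', hT'⟩ := hc δ hδ
  obtain ⟨y, hy⟩ := unbdd_below H (min T' (-|T|))
  obtain ⟨i, hi⟩ := A.cover y
  have h1 := hT' i y hi (hy.trans_le (min_le_left _ _))
  have h2 : h y < -|T| := hy.trans_le (min_le_right _ _)
  have h3 : T < |h y| := by
    have h5 : -h y ≤ |h y| := neg_le_abs (h y)
    have h6 := le_abs_self T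
    linarith
  have h5 := hT i y hi h3
  rw [sub_zero] at h1
  linarith

include H in
/-- a section with compact divisor has nonzero limit at the small end -/
theorem limS_ne (hS : HasS h P) {L : LB A} (hL : L ∈ P) {σ : A.ι → Y → ℂ} (hσ : σ ∈ VL h L)
    (h0 : σ ≠ 0) (hc : IsCompact (dvs A σ).supp) {c : ℂ} (hlim : LimS h σ c) : c ≠ 0 := by
  obtain ⟨M, hM, μ, hμ, hμ0, hμd, hlow⟩ := H.odiv _ hc
  obtain ⟨v, hv, e'⟩ := H.quot_low hM hL hμ hμ0 hlow hσ h0 hμd.le
  have hv0 : v ≠ 0 := by rintro rfl; rw [mul_zero] at e'; exact h0 e'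
  have h1 : dvs A v = 0 := by
    have := dvs_mul H.adm hμ.1 hμ0 hv.1 hv0
    rw [← e', hμd] at this
    exact (left_eq_add.1 this)
  have h2 := (dvs_eq_zero_iff H.adm hv.1 hv0).1 h1
  have hP' := P.mul_mem hL (P.inv_mem hM)
  obtain ⟨u, hu, hu0, hu'⟩ := H.triv_of_nowhere hP' hv h2
  obtain ⟨a, ha⟩ := H.dim1 _ hP' v hv u hu (ne_zero_of_nowhere hu0)
  have ha0 : a ≠ 0 := by rintro rfl; rw [zero_smul] at ha; exact hv0 ha
  obtain ⟨b, hb⟩ := hS _ hP' u hu
  obtain ⟨b', hb'⟩ := hS _ (P.inv_mem hP') _ hu'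
  obtain ⟨m, hm⟩ := hS M hM μ hμ
  have hm0 := ne_of_low H hlow hm
  have huu : u * u⁻¹ = oneS A := by
    ext i x
    by_cases hx : x ∈ (A.e i).source
    · simp [oneS, hx, hu0 i x hx]
    · simp [oneS, hx, hu.1.off i x hx]
  have hb0 : b ≠ 0 := by
    rintro rfl
    have h3 := LimS.mul hb hb'
    rw [huu, zero_mul] at h3
    exact zero_ne_one (BR4672.LimS.unique (unbdd_below H) h3 BR4672.limS_const_one)
  have h4 : LimS h σ (m * (a * b)) := by
    rw [e', ha]
    exact LimS.mul hm (BR4672.LimS.smul a hb)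
  rw [BR4672.LimS.unique (unbdd_below H) hlim h4]
  exact mul_ne_zero hm0 (mul_ne_zero ha0 hb0)

variable (O : Ord495 H.toDivData.toData)

/-- the canonical section of `LCk k` with divisor `C_k` -/
def Sk (k : ℤ) : A.ι → Y → ℂ := (exists_Sk H O k).choose

theorem Sk_mem (k : ℤ) : Sk H O k ∈ VL h (LCk H O k) := (exists_Sk H O k).choose_spec.1

theorem Sk_ne (k : ℤ) : Sk H O k ≠ 0 := (exists_Sk H O k).choose_spec.2.1

theorem dvs_Sk (k : ℤ) : dvs A (Sk H O k) = (Ck H O k).1 := (exists_Sk H O k).choose_spec.2.2.1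

/-- `s_k = S_k ∏ s_l` -/
theorem s_eq (k : ℤ) : s (O.φ k) =
    Sk H O k * prodS A (Finset.Ioc k (k + O.r k)) fun l => s (O.φ l) :=
  (exists_Sk H O k).choose_spec.2.2.2

theorem mem_supp_Ck {k : ℤ} {i : A.ι} {x : Y} (hx : x ∈ (A.e i).source) :
    x ∈ (Ck H O k).1.supp ↔ Sk H O k i x = 0 := by
  rw [← dvs_Sk H O k]
  exact mem_supp_dvs H.adm (Sk_mem H O k).1 (Sk_ne H O k) hx

/-- uniqueness of the canonical section -/
theorem Sk_unique {k : ℤ} {t : A.ι → Y → ℂ} (ht : IsHS (LCk H O k) univ t)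
    (he : s (O.φ k) = t * prodS A (Finset.Ioc k (k + O.r k)) fun l => s (O.φ l)) :
    t = Sk H O k := by
  have hp : prodS A (Finset.Ioc k (k + O.r k)) (fun l => s (O.φ l)) ∈
      VL h (∏ l ∈ Finset.Ioc k (k + O.r k), E (O.φ l)) := prodS_mem_VL fun l _ => H.s_mem _
  have hp0 := prodS_ne (F := Finset.Ioc k (k + O.r k)) H.adm (fun l _ => H.s_mem (O.φ l))
    fun l _ => H.s_ne _
  refine BR4672.sec_cancel H.adm hp.1 ht (Sk_mem H O k).1 (BR4672.nz_of_ne H.adm hp.1 hp0) ?_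
  rw [mul_comm, ← he, mul_comm]
  exact s_eq H O k

theorem Sk_per (hE : ∀ β, pullL Q (E (g β)) = E β) (hs : ∀ β, pullS Q (s (g β)) = s β) (k : ℤ) :
    pullS Q (Sk H O (k + O.b)) = Sk H O k := by
  have hφ : ∀ l, O.φ (l + O.b) = g (O.φ l) := fun l => O.shift l
  have hI : Finset.Ioc (k + O.b) (k + O.b + O.r (k + O.b)) =
      (Finset.Ioc k (k + O.r k)).map (addRightEmbedding (O.b : ℤ)) := by
    rw [O.r_per, Finset.map_add_right_Ioc]
    congr 1
    ring
  have hL : pullL Q (LCk H O (k + O.b)) = LCk H O k := by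
    unfold LCk
    have h1 : pullL Q (E (O.φ (k + O.b)) * (∏ l ∈ Finset.Ioc (k + O.b)
        (k + O.b + O.r (k + O.b)), E (O.φ l))⁻¹) = pullHom Q (E (O.φ (k + O.b)) *
        (∏ l ∈ Finset.Ioc (k + O.b) (k + O.b + O.r (k + O.b)), E (O.φ l))⁻¹) := rfl
    rw [h1, map_mul, map_inv, map_prod, hI, Finset.prod_map]
    congr 1
    · show pullL Q (E (O.φ (k + O.b))) = _
      rw [hφ, hE]
    · congr 1
      refine Finset.prod_congr rfl fun l _ => ?_
      show pullL Q (E (O.φ (l + O.b))) = _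
      rw [hφ, hE]
  refine Sk_unique H O ?_ ?_
  · rw [← hL]
    exact isHS_pull' Q (Sk_mem H O _).1
  · have h1 := congrArg (pullS Q) (s_eq H O (k + O.b))
    rw [hφ, hs] at h1
    rw [h1]
    funext i x
    show Sk H O (k + O.b) (Q.sh i) (γ x) * prodS A _ (fun l => s (O.φ l)) (Q.sh i) (γ x) =
      Sk H O (k + O.b) (Q.sh i) (γ x) * prodS A _ (fun l => s (O.φ l)) i x
    congr 1
    by_cases hx : x ∈ (A.e i).source
    · rw [prodS_apply _ _ hx, prodS_apply _ _ ((Q.src' i x).2 hx), hI, Finset.prod_map]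
      refine Finset.prod_congr rfl fun l _ => ?_
      show s (O.φ (l + O.b)) (Q.sh i) (γ x) = _
      rw [hφ]
      exact congrFun (congrFun (hs (O.φ l)) i) x
    · have hx' : γ x ∉ (A.e (Q.sh i)).source := fun h' => hx ((Q.src' i x).1 h')
      unfold prodS
      simp [oneS, hx, hx']

variable (hS : HasS h P)

/-- the limit of `S_k` at the small end -/
def ck (k : ℤ) : ℂ := (hS _ (LCk_mem H O k) _ (Sk_mem H O k)).choose

theorem limS_Sk (k : ℤ) : LimS h (Sk H O k) (ck H O hS k) :=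
  (hS _ (LCk_mem H O k) _ (Sk_mem H O k)).choose_spec

theorem ck_ne (k : ℤ) : ck H O hS k ≠ 0 :=
  limS_ne H hS (LCk_mem H O k) (Sk_mem H O k) (Sk_ne H O k)
    (by rw [dvs_Sk]; exact (Ck H O k).2.2) (limS_Sk H O hS k)

theorem ck_per (hE : ∀ β, pullL Q (E (g β)) = E β) (hs : ∀ β, pullS Q (s (g β)) = s β) (k : ℤ) :
    ck H O hS (k + O.b) = ck H O hS k := by
  refine BR4672.LimS.unique (unbdd_below H) ?_ (limS_Sk H O hS k)
  rw [← Sk_per H O hE hs k]
  intro ε hε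
  obtain ⟨T, hT⟩ := limS_Sk H O hS (k + O.b) ε hε
  refine ⟨T, fun i x hx hxT => hT _ _ ((Q.src' i x).2 hx) ?_⟩
  rw [H.deck.shift]
  linarith

/-- every section of `V_L` tends to its limit at the small end with rate `ρ` -/
def Rate (h : Y → ℝ) (ρ : ℝ) (L : LB A) : Prop :=
  ∀ σ ∈ VL h L, ∀ c, LimS h σ c → ∃ C, ∀ i, ∀ x ∈ (A.e i).source, h x ≤ 0 →
    ‖σ i x - c‖ ≤ C * Real.exp (ρ * h x)

include H in
/-- extension of the rate estimate to `{h ≤ H0}` -/
theorem rate_bd {ρ : ℝ} (hρ : 0 < ρ) {L : LB A} (hL : L ∈ P) (hR : Rate h ρ L)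
    {σ : A.ι → Y → ℂ} (hσ : σ ∈ VL h L) {c : ℂ} (hc : LimS h σ c) (H0 : ℝ) :
    ∃ C, ∀ i, ∀ x ∈ (A.e i).source, h x ≤ H0 → ‖σ i x - c‖ ≤ C * Real.exp (ρ * h x) := by
  obtain ⟨C, hC⟩ := hR σ hσ c hc
  obtain ⟨M, hM0, hM⟩ := BR4672.bd_on_compact H.adm (H.bdg L hL) hσ.1 (H.deck.slab 0 H0)
  refine ⟨max C (M + ‖c‖), fun i x hx hxH => ?_⟩
  rcases le_total (h x) 0 with h0 | h0
  · refine (hC i x hx h0).trans ?_
    gcongr
    exact le_max_left _ _
  · have h1 : ‖σ i x - c‖ ≤ M + ‖c‖ := (norm_sub_le _ _).trans (by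
      have := hM i x hx ⟨h0, hxH⟩
      linarith)
    have h2 : 1 ≤ Real.exp (ρ * h x) := Real.one_le_exp (by positivity)
    have h3 : 0 ≤ max C (M + ‖c‖) := le_trans (by positivity) (le_max_right _ _)
    calc ‖σ i x - c‖ ≤ M + ‖c‖ := h1
      _ ≤ max C (M + ‖c‖) := le_max_right _ _
      _ = max C (M + ‖c‖) * 1 := (mul_one _).symm
      _ ≤ max C (M + ‖c‖) * Real.exp (ρ * h x) := by gcongr

/-- **the periodic family of section 5** -/
theorem per5 (hE : ∀ β, pullL Q (E (g β)) = E β) (hs : ∀ β, pullS Q (s (g β)) = s β)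
    {ρ : ℝ} (hρ : 0 < ρ)
    (hEb : ∀ β, ∃ C, ∀ i j, ∀ x ∈ (A.e i).source ∩ (A.e j).source,
      ‖(E β).g i j x - 1‖ ≤ C * Real.exp (-ρ * |h x|))
    (hR : ∀ k, Rate h ρ (LCk H O k)) :
    Tr5.Per5 Q h O ρ (fun k => E (O.φ k)) (Sk H O) (ck H O hS) where
  ρ_pos := hρ
  shift := H.deck.shift
  E_per k := by
    show pullL Q (E (O.φ (k + O.b))) = E (O.φ k)
    rw [show O.φ (k + O.b) = g (O.φ k) from O.shift k, hE]
  S_per := Sk_per H O hE hs
  c_per := ck_per H O hS hE hs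
  c_ne := ck_ne H O hS
  hs k := (Sk_mem H O k).1
  E_bd k := hEb _
  S_bd k H0 := rate_bd H hρ (LCk_mem H O k) (hR k) (Sk_mem H O k) (limS_Sk H O hS k) H0

end

end Crest.Agent.R275.S5In95
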