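import Mathlib
import Crest.Agent.R251.Pr963b
import Crest.Agent.R251.Sm82C
import Crest.Agent.R251.PC752
import Crest.Agent.R251.Orb679b
import Crest.Agent.R275.ZC0_352

-- ▼ part R251/CZ470
section

/-!
# Row 251, line B block (d) (helper470): the Čech–singular zigzag, abstract (semisimplicial) form

`Sim G` = semisimplicial set with an action of (the set) `G`; `U i` = subcomplexes (`In i σ`), `G`-invariant,
indexed by a finite linear order.  `Dom S σ`: `σ` is small (lies in some `U i`) and lies in `U i` for all `i ∈ S`.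
`zigzag`: if `H^{n+1-|S|}(U_S) = 0` for `1 ≤ |S| ≤ n` and every `D`-closed family of 0-cocycles on the
`U_S`, `|S| = n+1`, is `D` of a family of 0-cocycles on the `U_S`, `|S| = n`, then every `n`-cocycle on the small
simplices (`n ≥ 1`) is the coboundary of a cochain (on the small simplices).
-/

set_option autoImplicit false
set_option linter.unusedSectionVars false

open Finset

namespace Crest.Agent.R251.CZ

/-- semisimplicial sets with operators -/
structure Sim (G : Type) where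
  X : ℕ → Type
  fc : ∀ {n : ℕ}, Fin (n + 2) → X (n + 1) → X n
  act : G → ∀ {n : ℕ}, X n → X n
  act_fc : ∀ (g : G) {n : ℕ} (i : Fin (n + 2)) (σ : X (n + 1)), fc i (act g σ) = act g (fc i σ)
  fc_fc : ∀ {n : ℕ} (i j : Fin (n + 2)) (_ : i ≤ j) (σ : X (n + 2)),
    fc i (fc j.succ σ) = fc j (fc i.castSucc σ)

variable {G : Type} (K : Sim G) {M : Type} [AddCommGroup M]

/-- coboundary -/
def cb {n : ℕ} (φ : K.X n → M) : K.X (n + 1) → M :=
  fun σ => ∑ i : Fin (n + 2), ((-1 : ℤ) ^ (i : ℕ)) • φ (K.fc i σ)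

variable {K}

theorem cb_sub {n : ℕ} (φ ψ : K.X n → M) : cb K (fun σ => φ σ - ψ σ) = fun σ => cb K φ σ - cb K ψ σ := by
  funext σ
  simp only [cb, smul_sub, Finset.sum_sub_distrib]


theorem cb_congr {n : ℕ} {φ ψ : K.X n → M} {σ : K.X (n + 1)} (h : ∀ i, φ (K.fc i σ) = ψ (K.fc i σ)) :
    cb K φ σ = cb K ψ σ := by
  simp only [cb, h]


theorem cb_cb {n : ℕ} (φ : K.X n → M) (σ : K.X (n + 2)) : cb K (cb K φ) σ = 0 := by
  unfold cb
  simp only [Finset.smul_sum, smul_smul]
  rw [← Finset.sum_product']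
  let P := Fin (n + 3) × Fin (n + 2)
  let S : Finset P := {ij : P | (ij.1 : ℕ) ≤ (ij.2 : ℕ)}
  rw [Finset.univ_product_univ, ← Finset.sum_add_sum_compl S, ← eq_neg_iff_add_eq_zero,
    ← Finset.sum_neg_distrib]
  let e : ∀ ij : P, ij ∈ S → P := fun ij hij =>
    (ij.2.succ, Fin.castLT ij.1 (lt_of_le_of_lt (Finset.mem_filter.mp hij).right (Fin.is_lt ij.2)))
  apply Finset.sum_bij e
  · intro ij hij
    simp only [e, S, Finset.mem_univ, Finset.compl_filter, Finset.mem_filter, true_and,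
      Fin.val_succ, Fin.val_castLT] at hij ⊢
    omega
  · rintro ⟨i, j⟩ hij ⟨i', j'⟩ hij' h
    rw [Prod.mk_inj] at h
    simp only [Fin.succ_inj] at h
    obtain ⟨h1, h2⟩ := h
    have h3 : (i : ℕ) = i' := by
      have := congrArg (fun x : Fin (n + 2) => (x : ℕ)) h2
      simpa using this
    exact Prod.ext (Fin.ext h3) h1
  · rintro ⟨i', j'⟩ hij'
    simp only [S, Finset.mem_compl, Finset.mem_filter, Finset.mem_univ, true_and, not_le] at hij'
    have hi' : i' ≠ 0 := by
      rintro rfl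
      simp at hij'
    refine ⟨(j'.castSucc, i'.pred hi'), ?_, ?_⟩
    · simp only [S, Finset.mem_filter, Finset.mem_univ, true_and, Fin.val_castSucc, Fin.val_pred]
      omega
    · simp only [e]
      ext <;> simp
  · rintro ⟨i, j⟩ hij
    simp only [S, Finset.mem_filter, Finset.mem_univ, true_and] at hij
    simp only [e]
    have h := K.fc_fc (Fin.castLT i (lt_of_le_of_lt hij (Fin.is_lt j))) j (by
      rw [Fin.le_def]; simpa using hij) σ
    rw [h]
    have h2 : (Fin.castLT i (lt_of_le_of_lt hij (Fin.is_lt j))).castSucc = i := by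
      ext; simp
    rw [h2]
    simp only [Fin.val_succ, Fin.val_castLT]
    rw [← neg_smul]
    congr 1
    ring

variable {ι : Type} [LinearOrder ι] [Fintype ι]

/-- position sign -/
def sg (i : ι) (S : Finset ι) : ℤ := (-1) ^ #(S.filter (· < i))

/-- Čech differential (pointwise) -/
def DD {T : Type} (c : Finset ι → T → M) (S : Finset ι) (σ : T) : M :=
  ∑ i ∈ S, sg i S • c (S.erase i) σ

theorem sg_erase_of_lt {i j : ι} {S : Finset ι} (hij : i < j) (hi : i ∈ S) :
    sg j (S.erase i) = - sg j S := by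
  unfold sg
  have h : (S.filter (· < j)) = insert i ((S.erase i).filter (· < j)) := by
    ext x
    simp only [Finset.mem_filter, Finset.mem_insert, Finset.mem_erase]
    by_cases hx : x = i
    · subst hx; simp [hi, hij]
    · simp [hx]
  rw [h, Finset.card_insert_of_notMem (by simp), pow_succ]
  ring

theorem sg_erase_of_gt {i j : ι} {S : Finset ι} (hij : i < j) :
    sg i (S.erase j) = sg i S := by
  unfold sg
  have h : ((S.erase j).filter (· < i)) = S.filter (· < i) := by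
    ext x
    simp only [Finset.mem_filter, Finset.mem_erase]
    constructor
    · rintro ⟨⟨h1, h2⟩, h3⟩; exact ⟨h2, h3⟩
    · rintro ⟨h2, h3⟩; exact ⟨⟨(lt_trans h3 hij).ne, h2⟩, h3⟩
  rw [h]

theorem DD_DD {T : Type} (c : Finset ι → T → M) (S : Finset ι) (σ : T) : DD (DD c) S σ = 0 := by
  unfold DD
  simp only [Finset.smul_sum, smul_smul]
  rw [Finset.sum_sigma']
  refine Finset.sum_involution (fun x _ => ⟨x.2, x.1⟩) ?_ ?_ ?_ ?_
  · rintro ⟨i, j⟩ hij
    simp only [Finset.mem_sigma, Finset.mem_erase] at hij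
    obtain ⟨hi, hji, hj⟩ := hij
    simp only
    rw [Finset.erase_right_comm (a := j) (b := i)]
    rw [← add_smul]
    have : sg i S * sg j (S.erase i) + sg j S * sg i (S.erase j) = 0 := by
      rcases lt_or_gt_of_ne hji with h | h
      · rw [sg_erase_of_lt h hj, sg_erase_of_gt h]; ring
      · rw [sg_erase_of_lt h hi, sg_erase_of_gt h]; ring
    rw [this, zero_smul]
  · rintro ⟨i, j⟩ hij hne h
    simp only [Finset.mem_sigma, Finset.mem_erase] at hij
    have := congrArg Sigma.fst h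
    exact hij.2.1 this
  · rintro ⟨i, j⟩ hij
    simp only [Finset.mem_sigma, Finset.mem_erase] at hij ⊢
    exact ⟨hij.2.2, fun h => hij.2.1 h.symm, hij.1⟩
  · rintro ⟨i, j⟩ hij
    rfl

theorem cb_DD {n : ℕ} (c : Finset ι → K.X n → M) (S : Finset ι) (σ : K.X (n + 1)) :
    cb K (DD c S) σ = DD (fun S => cb K (c S)) S σ := by
  unfold cb DD
  simp only [Finset.smul_sum, smul_smul]
  rw [Finset.sum_comm]
  refine Finset.sum_congr rfl fun i _ => Finset.sum_congr rfl fun j _ => ?_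
  rw [mul_comm]

theorem DD_sub {T : Type} (c d : Finset ι → T → M) (S : Finset ι) (σ : T) :
    DD (fun S σ => c S σ - d S σ) S σ = DD c S σ - DD d S σ := by
  simp only [DD, smul_sub, Finset.sum_sub_distrib]

theorem DD_congr {T : Type} {c d : Finset ι → T → M} {S : Finset ι} {σ : T}
    (h : ∀ i ∈ S, c (S.erase i) σ = d (S.erase i) σ) : DD c S σ = DD d S σ := by
  unfold DD
  exact Finset.sum_congr rfl fun i hi => by rw [h i hi]

theorem DD_zero' {T : Type} {c : Finset ι → T → M} {S : Finset ι} {σ : T}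
    (h : ∀ i ∈ S, c (S.erase i) σ = 0) : DD c S σ = 0 := by
  unfold DD
  exact Finset.sum_eq_zero fun i hi => by rw [h i hi, smul_zero]

/-! ### the cover -/

variable (K) (ι)

/-- an invariant cover by subcomplexes -/
structure Cov where
  In : ι → ∀ {n : ℕ}, K.X n → Prop
  fc : ∀ (i : ι) {n : ℕ} (j : Fin (n + 2)) (σ : K.X (n + 1)), In i σ → In i (K.fc j σ)
  act : ∀ (i : ι) (g : G) {n : ℕ} (σ : K.X n), In i (K.act g σ) ↔ In i σ

variable {K ι}

namespace Cov

variable (U : Cov K ι)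

/-- small simplices -/
def Sm {n : ℕ} (σ : K.X n) : Prop := ∃ i, U.In i σ

/-- small simplices in `U_S` -/
def Dom (S : Finset ι) {n : ℕ} (σ : K.X n) : Prop := U.Sm σ ∧ ∀ i ∈ S, U.In i σ

variable {U}

theorem Sm.fc {n : ℕ} {σ : K.X (n + 1)} (h : U.Sm σ) (j : Fin (n + 2)) : U.Sm (K.fc j σ) := by
  obtain ⟨i, hi⟩ := h
  exact ⟨i, U.fc i j σ hi⟩

theorem Dom.fc {S : Finset ι} {n : ℕ} {σ : K.X (n + 1)} (h : U.Dom S σ) (j : Fin (n + 2)) :
    U.Dom S (K.fc j σ) := ⟨h.1.fc j, fun i hi => U.fc i j σ (h.2 i hi)⟩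

theorem Dom.erase {S : Finset ι} {n : ℕ} {σ : K.X n} (h : U.Dom S σ) (j : ι) :
    U.Dom (S.erase j) σ := ⟨h.1, fun i hi => h.2 i (Finset.mem_of_mem_erase hi)⟩

theorem sm_act {n : ℕ} (g : G) (σ : K.X n) : U.Sm (K.act g σ) ↔ U.Sm σ := by
  unfold Sm
  simp only [U.act]

open Classical in
/-- the first open set containing a small simplex -/
noncomputable def mn {n : ℕ} (σ : K.X n) (h : U.Sm σ) : ι :=
  (Finset.univ.filter (fun i => U.In i σ)).min' (by
    obtain ⟨i, hi⟩ := h
    exact ⟨i, by simp [hi]⟩)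

theorem mn_in {n : ℕ} (σ : K.X n) (h : U.Sm σ) : U.In (mn σ h) σ := by
  classical
  have := Finset.min'_mem (Finset.univ.filter (fun i => U.In i σ)) (by
    obtain ⟨i, hi⟩ := h
    exact ⟨i, by simp [hi]⟩)
  exact (Finset.mem_filter.1 this).2

theorem mn_le {n : ℕ} (σ : K.X n) (h : U.Sm σ) {i : ι} (hi : U.In i σ) : mn σ h ≤ i := by
  classical
  exact Finset.min'_le _ _ (by simp [hi])

theorem mn_act {n : ℕ} (g : G) (σ : K.X n) (h : U.Sm σ) (h' : U.Sm (K.act g σ)) :
    mn (K.act g σ) h' = mn σ h := by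
  apply le_antisymm
  · exact mn_le _ _ ((U.act _ g σ).2 (mn_in σ h))
  · exact mn_le _ _ ((U.act _ g σ).1 (mn_in _ h'))

variable (U)

open Classical in
/-- contraction of the Čech complex -/
noncomputable def hh {n : ℕ} (c : Finset ι → K.X n → M) (S : Finset ι) (σ : K.X n) : M :=
  if h : U.Sm σ then (if mn σ h ∈ S then 0 else c (insert (mn σ h) S) σ) else 0

variable {U}

theorem sg_min {m : ι} {S : Finset ι} (h : ∀ i ∈ S, m ≤ i) : sg m S = 1 := by
  unfold sg
  have : S.filter (· < m) = ∅ := by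
    ext x
    simp only [Finset.mem_filter, Finset.notMem_empty, iff_false, not_and, not_lt]
    exact fun hx => h x hx
  rw [this]; simp

theorem hh_DD {n : ℕ} (c : Finset ι → K.X n → M) {S : Finset ι} {σ : K.X n} (hσ : U.Dom S σ) :
    DD (U.hh c) S σ + U.hh (DD c) S σ = c S σ := by
  classical
  obtain ⟨h, hS⟩ := hσ
  have hle : ∀ i ∈ S, mn σ h ≤ i := fun i hi => mn_le σ h (hS i hi)
  by_cases hm : mn σ h ∈ S
  · have h1 : U.hh (DD c) S σ = 0 := by simp [hh, h, hm]
    have h2 : DD (U.hh c) S σ = sg (mn σ h) S • U.hh c (S.erase (mn σ h)) σ := by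
      unfold DD
      refine Finset.sum_eq_single_of_mem _ hm fun i hi hne => ?_
      have : mn σ h ∈ S.erase i := Finset.mem_erase.2 ⟨fun e => hne e.symm, hm⟩
      simp [hh, h, this]
    rw [h1, h2, sg_min hle, one_smul, add_zero]
    simp [hh, h, Finset.insert_erase hm]
  · have h1 : U.hh (DD c) S σ = c S σ - DD (U.hh c) S σ := by
      have e1 : U.hh (DD c) S σ = DD c (insert (mn σ h) S) σ := by simp [hh, h, hm]
      rw [e1]
      unfold DD
      rw [Finset.sum_insert hm, Finset.erase_insert hm]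
      rw [sg_min (m := mn σ h) (S := insert (mn σ h) S) (by
        intro i hi
        rcases Finset.mem_insert.1 hi with rfl | hi
        · exact le_rfl
        · exact hle i hi), one_smul, sub_eq_add_neg, ← Finset.sum_neg_distrib]
      congr 1
      refine Finset.sum_congr rfl fun i hi => ?_
      have hlt : mn σ h < i := lt_of_le_of_ne (hle i hi) (fun e => hm (e ▸ hi))
      have e2 : sg i (insert (mn σ h) S) = - sg i S := by
        have := sg_erase_of_lt (S := insert (mn σ h) S) hlt (Finset.mem_insert_self _ _)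
        rw [Finset.erase_insert hm] at this
        rw [this]; ring
      have e3 : (insert (mn σ h) S).erase i = insert (mn σ h) (S.erase i) :=
        Finset.erase_insert_of_ne hlt.ne
      have e4 : mn σ h ∉ S.erase i := fun e => hm (Finset.mem_of_mem_erase e)
      rw [e2, e3, neg_smul]
      simp [hh, h, e4]
    rw [h1]; abel

/-! ### equivariance -/

variable [Group G] [DistribMulAction G M]

/-- equivariant cochains -/
def Eqv {n : ℕ} (φ : K.X n → M) : Prop := ∀ (g : G) (σ : K.X n), φ (K.act g σ) = g • φ σ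

theorem Eqv.cb {n : ℕ} {φ : K.X n → M} (h : Eqv φ) : Eqv (CZ.cb K φ) := by
  intro g σ
  unfold CZ.cb
  simp only [K.act_fc, Finset.smul_sum]
  refine Finset.sum_congr rfl fun i _ => ?_
  rw [h g]
  rw [smul_comm]

theorem Eqv.sub {n : ℕ} {φ ψ : K.X n → M} (h : Eqv φ) (h' : Eqv ψ) : Eqv (fun σ => φ σ - ψ σ) := by
  intro g σ
  simp only [h g, h' g, smul_sub]

theorem Eqv.add {n : ℕ} {φ ψ : K.X n → M} (h : Eqv φ) (h' : Eqv ψ) : Eqv (fun σ => φ σ + ψ σ) := by
  intro g σ
  simp only [h g, h' g, smul_add]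

theorem Eqv.zero {n : ℕ} : Eqv (fun _ : K.X n => (0 : M)) := fun g σ => (smul_zero g).symm

theorem Eqv.DD {n : ℕ} {c : Finset ι → K.X n → M} (h : ∀ S, Eqv (c S)) (S : Finset ι) :
    Eqv (CZ.DD c S) := by
  intro g σ
  unfold CZ.DD
  simp only [Finset.smul_sum]
  refine Finset.sum_congr rfl fun i _ => ?_
  rw [h _ g, smul_comm]

theorem Eqv.hh {n : ℕ} {c : Finset ι → K.X n → M} (h : ∀ S, Eqv (c S)) (S : Finset ι) :
    Eqv (U.hh c S) := by
  classical
  intro g σ
  unfold Cov.hh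
  by_cases hs : U.Sm σ
  · have hs' : U.Sm (K.act g σ) := (sm_act g σ).2 hs
    rw [dif_pos hs, dif_pos hs', mn_act g σ hs hs']
    split_ifs
    · exact (smul_zero g).symm
    · exact h _ g σ
  · have hs' : ¬ U.Sm (K.act g σ) := fun h' => hs ((sm_act g σ).1 h')
    rw [dif_neg hs, dif_neg hs']
    exact (smul_zero g).symm

variable (U M)

/-- `H^{k+1}(U_S; M) = 0` (small simplices) -/
def Ac (S : Finset ι) (k : ℕ) : Prop :=
  ∀ φ : K.X (k + 1) → M, Eqv φ → (∀ σ : K.X (k + 2), U.Dom S σ → CZ.cb K φ σ = 0) →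
    ∃ ψ : K.X k → M, Eqv ψ ∧ ∀ σ : K.X (k + 1), U.Dom S σ → CZ.cb K ψ σ = φ σ

/-- the Čech complex of the 0-cocycles is exact at level `p + 1` -/
def H0 (p : ℕ) : Prop :=
  ∀ c : Finset ι → K.X 0 → M, (∀ S, Eqv (c S)) →
    (∀ S : Finset ι, #S = p + 1 → ∀ σ : K.X 1, U.Dom S σ → CZ.cb K (c S) σ = 0) →
    (∀ S : Finset ι, #S = p + 2 → ∀ σ : K.X 0, U.Dom S σ → CZ.DD c S σ = 0) →
    ∃ e : Finset ι → K.X 0 → M, (∀ S, Eqv (e S)) ∧
      (∀ S : Finset ι, #S = p → ∀ σ : K.X 1, U.Dom S σ → CZ.cb K (e S) σ = 0) ∧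
      (∀ S : Finset ι, #S = p + 1 → ∀ σ : K.X 0, U.Dom S σ → CZ.DD e S σ = c S σ)

variable {U M}

theorem tic (q : ℕ) : ∀ (p : ℕ), 1 ≤ p → (∀ (S : Finset ι) (k : ℕ), 1 ≤ #S → #S + k = p + q → U.Ac M S k) →
    U.H0 M (p + q) → ∀ c : Finset ι → K.X (q + 1) → M, (∀ S, Eqv (c S)) →
    (∀ S : Finset ι, #S = p → ∀ σ : K.X (q + 2), U.Dom S σ → CZ.cb K (c S) σ = 0) →
    (∀ S : Finset ι, #S = p + 1 → ∀ σ : K.X (q + 1), U.Dom S σ → CZ.DD c S σ = 0) →
    ∃ b : Finset ι → K.X q → M, (∀ S, Eqv (b S)) ∧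
      (∀ S : Finset ι, #S = p → ∀ σ : K.X (q + 1), U.Dom S σ → CZ.cb K (b S) σ = c S σ) ∧
      (∀ S : Finset ι, #S = p + 1 → ∀ σ : K.X q, U.Dom S σ → CZ.DD b S σ = 0) := by
  classical
  induction q with
  | zero =>
    intro p hp hAc h0 c hc hcb hcD
    have step : ∀ S : Finset ι, ∃ ψ : K.X 0 → M, Eqv ψ ∧
        (#S = p → ∀ σ : K.X 1, U.Dom S σ → CZ.cb K ψ σ = c S σ) := by
      intro S
      by_cases hS : #S = p
      · obtain ⟨ψ, h1, h2⟩ := hAc S 0 (by omega) (by omega) (c S) (hc S) (hcb S hS)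
        exact ⟨ψ, h1, fun _ => h2⟩
      · exact ⟨fun _ => 0, Eqv.zero, fun h => absurd h hS⟩
    choose b0 hb0 hb1 using step
    have hcard : ∀ (S : Finset ι) (n : ℕ), #S = n + 1 → ∀ i ∈ S, #(S.erase i) = n := by
      intro S n hS i hi
      rw [Finset.card_erase_of_mem hi, hS]; rfl
    obtain ⟨e, he, he0, he1⟩ := h0 (CZ.DD b0) (fun S => Eqv.DD hb0 S) (by
        intro S hS σ hσ
        rw [cb_DD]
        have : CZ.DD (fun S => CZ.cb K (b0 S)) S σ = CZ.DD c S σ :=
          DD_congr fun i hi => hb1 _ (hcard S p hS i hi) σ (hσ.erase i)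
        rw [this]
        exact hcD S hS σ hσ) (by
        intro S hS σ hσ
        exact DD_DD b0 S σ)
    refine ⟨fun S σ => b0 S σ - e S σ, fun S => (hb0 S).sub (he S), ?_, ?_⟩
    · intro S hS σ hσ
      rw [cb_sub]
      show CZ.cb K (b0 S) σ - CZ.cb K (e S) σ = c S σ
      rw [hb1 S hS σ hσ, he0 S (by omega) σ hσ, sub_zero]
    · intro S hS σ hσ
      rw [DD_sub, he1 S (by omega) σ hσ, sub_self]
  | succ q ih =>
    intro p hp hAc h0 c hc hcb hcD
    have step : ∀ S : Finset ι, ∃ ψ : K.X (q + 1) → M, Eqv ψ ∧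
        (#S = p → ∀ σ : K.X (q + 2), U.Dom S σ → CZ.cb K ψ σ = c S σ) := by
      intro S
      by_cases hS : #S = p
      · obtain ⟨ψ, h1, h2⟩ := hAc S (q + 1) (by omega) (by omega) (c S) (hc S) (hcb S hS)
        exact ⟨ψ, h1, fun _ => h2⟩
      · exact ⟨fun _ => 0, Eqv.zero, fun h => absurd h hS⟩
    choose b0 hb0 hb1 using step
    have hcard : ∀ (S : Finset ι) (n : ℕ), #S = n + 1 → ∀ i ∈ S, #(S.erase i) = n := by
      intro S n hS i hi
      rw [Finset.card_erase_of_mem hi, hS]; rfl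
    obtain ⟨b', hb', hb'1, hb'2⟩ := ih (p + 1) (by omega)
      (fun S k h1 h2 => hAc S k h1 (by omega)) (by
        have : p + 1 + q = p + (q + 1) := by omega
        rw [this]; exact h0) (CZ.DD b0) (fun S => Eqv.DD hb0 S) (by
        intro S hS σ hσ
        rw [cb_DD]
        have : CZ.DD (fun S => CZ.cb K (b0 S)) S σ = CZ.DD c S σ :=
          DD_congr fun i hi => hb1 _ (hcard S p hS i hi) σ (hσ.erase i)
        rw [this]
        exact hcD S hS σ hσ) (by
        intro S hS σ hσ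
        exact DD_DD b0 S σ)
    have hh0 : ∀ S : Finset ι, #S = p + 1 → ∀ σ : K.X q, U.Dom S σ → CZ.DD (U.hh b') S σ = b' S σ := by
      intro S hS σ hσ
      have h1 := hh_DD b' hσ
      have h2 : U.hh (CZ.DD b') S σ = 0 := by
        have hs : U.Sm σ := hσ.1
        unfold Cov.hh
        rw [dif_pos hs]
        split_ifs with hm
        · rfl
        · refine hb'2 _ ?_ σ ⟨hs, ?_⟩
          · rw [Finset.card_insert_of_notMem hm, hS]
          · intro i hi
            rcases Finset.mem_insert.1 hi with rfl | hi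
            · exact mn_in σ hs
            · exact hσ.2 i hi
      rw [h2, add_zero] at h1
      exact h1
    refine ⟨fun S σ => b0 S σ - CZ.cb K (U.hh b' S) σ, fun S => (hb0 S).sub (Eqv.hh hb' S).cb, ?_, ?_⟩
    · intro S hS σ hσ
      rw [cb_sub]
      show CZ.cb K (b0 S) σ - CZ.cb K (CZ.cb K (U.hh b' S)) σ = c S σ
      rw [hb1 S hS σ hσ, cb_cb, sub_zero]
    · intro S hS σ hσ
      rw [DD_sub, ← cb_DD]
      have h1 : CZ.cb K (CZ.DD (U.hh b') S) σ = CZ.cb K (b' S) σ :=
        cb_congr fun j => hh0 S hS _ (hσ.fc j)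
      rw [h1, hb'1 S hS σ hσ, sub_self]

/-- **The zigzag.** -/
theorem zigzag (q : ℕ) (hAc : ∀ (S : Finset ι) (k : ℕ), 1 ≤ #S → #S + k = 1 + q → U.Ac M S k)
    (h0 : U.H0 M (1 + q)) (φ : K.X (q + 1) → M) (hφ : Eqv φ)
    (hcl : ∀ σ : K.X (q + 2), U.Sm σ → CZ.cb K φ σ = 0) :
    ∃ ψ : K.X q → M, Eqv ψ ∧ ∀ σ : K.X (q + 1), U.Sm σ → CZ.cb K ψ σ = φ σ := by
  classical
  obtain ⟨b, hb, hb1, hb2⟩ := tic q 1 le_rfl hAc h0 (CZ.DD (fun _ => φ)) (fun S => Eqv.DD (fun _ => hφ) S)
    (by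
      intro S hS σ hσ
      rw [cb_DD]
      exact DD_zero' fun i hi => hcl σ hσ.1)
    (fun S hS σ hσ => DD_DD _ S σ)
  refine ⟨U.hh b ∅, Eqv.hh hb ∅, ?_⟩
  intro σ hσ
  obtain ⟨i, hi⟩ := hσ
  have hdom : ∀ {n : ℕ} {τ : K.X n}, U.In i τ → U.Dom {i} τ := by
    intro n τ hτ
    refine ⟨⟨i, hτ⟩, ?_⟩
    intro j hj
    rw [Finset.mem_singleton] at hj
    subst hj; exact hτ
  have hsing : ∀ {T : Type} (c : Finset ι → T → M) (τ : T), CZ.DD c {i} τ = c ∅ τ := by
    intro T c τ
    unfold CZ.DD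
    rw [Finset.sum_singleton]
    have : sg i {i} = 1 := sg_min (by intro j hj; rw [Finset.mem_singleton] at hj; exact hj.ge)
    rw [this, one_smul, Finset.erase_singleton]
  have key : ∀ j, U.hh b ∅ (K.fc j σ) = b {i} (K.fc j σ) := by
    intro j
    have hτ : U.In i (K.fc j σ) := U.fc i j σ hi
    have hs : U.Sm (K.fc j σ) := ⟨i, hτ⟩
    have h1 := hh_DD b (hdom hτ)
    have h2 : U.hh (CZ.DD b) {i} (K.fc j σ) = 0 := by
      unfold Cov.hh
      rw [dif_pos hs]
      split_ifs with hm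
      · rfl
      · refine hb2 _ ?_ _ ⟨hs, ?_⟩
        · rw [Finset.card_insert_of_notMem hm, Finset.card_singleton]
        · intro l hl
          rcases Finset.mem_insert.1 hl with rfl | hl
          · exact mn_in _ hs
          · exact (hdom hτ).2 l hl
    rw [h2, add_zero, hsing] at h1
    exact h1
  rw [cb_congr key, hb1 {i} (Finset.card_singleton i) σ (hdom hi)]
  exact hsing (fun _ => φ) σ



end Cov

end Crest.Agent.R251.CZ
end

-- ▼ part R251/CZ470b
section

/-!
# Row 251, line B block (d) (helper470): the Čech–singular zigzag for a `G`-space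

`HV_of_cech`: `E` a `G`-space, `U : ι → Set E` a finite open invariant cover (ι linearly ordered).
-/

set_option autoImplicit false
set_option linter.unusedSectionVars false
set_option linter.unusedVariables false

open Finset CategoryTheory Simplicial Opposite
open Crest.GeometryTopology.DeckCochains
open Crest.Agent.R251.Pr (Dl sx us push EqC HV act)
open scoped unitInterval

namespace Crest.Agent.R251.CZ

noncomputable section

variable {G : Type} [Group G] {E : Type} [TopologicalSpace E] [MulAction G E]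
  [ContinuousConstSMul G E] {M : Type} [AddCommGroup M] [DistribMulAction G M]



/-- image in a set -/
def InS (A : Set E) {n : ℕ} (s : SingSimplex E n) : Prop := ∀ t, us s t ∈ A

theorem InS.face {A : Set E} {n : ℕ} {s : SingSimplex E (n + 1)} (h : InS A s) (i : Fin (n + 2)) :
    InS A (simplexFace i s) := by
  intro t
  rw [Pr.us_face]
  exact h _



variable {ι : Type} [LinearOrder ι] [Fintype ι] (U : ι → Set E)


variable {U}


variable (G M U)



variable {G M U}


/-! ### 0-simplices -/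

/-- a point as a 0-simplex -/
def p0 (x : E) : SingSimplex E 0 := sx (ContinuousMap.const _ x)

/-- the vertex of the 0-dimensional simplex -/
def v0 : Dl 0 := stdSimplex.vertex 0

theorem Dl0_eq (t : Dl 0) : t = v0 := by
  apply Subtype.ext
  funext i
  have h1 := stdSimplex.sum_eq_one t
  have h2 := stdSimplex.sum_eq_one v0
  rw [Fin.sum_univ_one] at h1 h2
  fin_cases i
  exact h1.trans h2.symm

/-- the point of a 0-simplex -/
def ev0 (s : SingSimplex E 0) : E := us s v0

theorem p0_ev0 (s : SingSimplex E 0) : p0 (ev0 s) = s := by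
  rw [← Pr.sx_us s, p0, ev0, Pr.us_sx]
  congr 1
  ext t
  rw [Dl0_eq t]; rfl

@[simp] theorem ev0_p0 (x : E) : ev0 (p0 x) = x := by
  rw [ev0, p0, Pr.us_sx]; rfl


theorem inS_p0 {A : Set E} {x : E} : InS A (p0 x) ↔ x ∈ A := by
  constructor
  · intro h
    have := h v0
    rw [p0, Pr.us_sx] at this
    exact this
  · intro h t
    rw [p0, Pr.us_sx]
    exact h

theorem cobdry_ps (c : SingSimplex E 0 → M) (γ : C(I, E)) :
    cochainCobdry c (PC.ps γ) = c (p0 (γ 1)) - c (p0 (γ 0)) := by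
  have h : ∀ a : I, PC.lin γ ![a] = p0 (γ a) := by
    intro a
    rw [← p0_ev0 (PC.lin γ ![a])]
    congr 1
    rw [ev0, PC.us_lin]
    show γ (PC.aff ![a] v0) = γ a
    congr 1
    exact PC.aff_vertex ![a] 0
  rw [Pr.cobdry_apply, Fin.sum_univ_two]
  have f0 : simplexFace (0 : Fin 2) (PC.ps γ) = p0 (γ 1) := by
    rw [← h 1]
    show simplexFace (0 : Fin 2) (PC.lin γ ![0, 1]) = _
    rw [PC.face_lin]
    congr 1
  have f1 : simplexFace (1 : Fin 2) (PC.ps γ) = p0 (γ 0) := by
    rw [← h 0]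
    show simplexFace (1 : Fin 2) (PC.lin γ ![0, 1]) = _
    rw [PC.face_lin]
    congr 1
    funext i; fin_cases i; rfl
  rw [f0, f1]
  simp [sub_eq_add_neg]

theorem inS_ps {A : Set E} {γ : C(I, E)} (h : ∀ t, γ t ∈ A) : InS A (PC.ps γ) := by
  intro t
  show us (PC.lin γ ![0, 1]) t ∈ A
  rw [PC.us_lin]
  exact h _


end

end Crest.Agent.R251.CZ
end

-- ▼ part R275/SNerve_865

/-!
# R275 (S0418), block K (helper865): singular cohomology and the nerve in degrees one and two

`Cv X ι` : an open cover `U` of `X` whose members, double and triple intersections are empty or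
contractible.  Ordered Čech cochains with values in an abelian group `M`:
`Coc1, Cob1, Coc2, Cob2`.  `Rel1 φ c`, `Rel2 φ c`: the singular cocycle `φ` corresponds to the Čech
cocycle `c`.
-/

set_option autoImplicit false

open Set CategoryTheory Simplicial Opposite Topology
open Crest.GeometryTopology.DeckCochains
open Crest.Agent.R251.Pr (Dl sx us push pull cobdry_pull sx_us us_sx cobdry_apply)
open Crest.Agent.R251.Orb (Van0 SIn incl ext0 pull_incl_eq_iff pull_ext0 van0_contractible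
  sin_push_incl)
open Crest.Agent.R251.CZ (p0 ev0 p0_ev0 ev0_p0 cobdry_ps)

namespace Crest.Agent.R275.SNerve865

noncomputable section

variable {X : Type} [TopologicalSpace X] {M : Type} [AddCommGroup M]

/-- empty or contractible -/
def EC (W : Set X) : Prop := W.Nonempty → ContractibleSpace W

theorem SIn.nonempty {W : Set X} {n : ℕ} {s : SingSimplex X n} (h : SIn W s) : W.Nonempty :=
  ⟨_, h (stdSimplex.vertex 0)⟩

/-- closed cochains on a contractible subset are exact -/
theorem exact_on {W : Set X} (hW : EC W) {n : ℕ} (φ : SingSimplex X (n + 1) → M)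
    (h : ∀ s : SingSimplex X (n + 2), SIn W s → cochainCobdry φ s = 0) :
    ∃ ψ : SingSimplex X n → M, ∀ s : SingSimplex X (n + 1), SIn W s → cochainCobdry ψ s = φ s := by
  by_cases hne : W.Nonempty
  · have := hW hne
    obtain ⟨b, hb⟩ := van0_contractible (F := W) (M := M) n (pull (incl W) φ) (by
      rw [cobdry_pull]
      funext s
      exact h _ (sin_push_incl s))
    refine ⟨ext0 b, ?_⟩
    rw [← pull_incl_eq_iff, ← cobdry_pull, pull_ext0, hb]
  · exact ⟨fun _ => 0, fun s hs => absurd (SIn.nonempty hs) hne⟩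

theorem cobdry_sub' {n : ℕ} (φ ψ : SingSimplex X n → M) (s : SingSimplex X (n + 1)) :
    cochainCobdry (fun t => φ t - ψ t) s = cochainCobdry φ s - cochainCobdry ψ s := by
  simp only [cobdry_apply, smul_sub, Finset.sum_sub_distrib]

theorem cobdry_add' {n : ℕ} (φ ψ : SingSimplex X n → M) (s : SingSimplex X (n + 1)) :
    cochainCobdry (fun t => φ t + ψ t) s = cochainCobdry φ s + cochainCobdry ψ s := by
  simp only [cobdry_apply, smul_add, Finset.sum_add_distrib]

theorem cobdry_congr' {n : ℕ} {φ ψ : SingSimplex X n → M} {s : SingSimplex X (n + 1)}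
    (h : ∀ i, φ (simplexFace i s) = ψ (simplexFace i s)) : cochainCobdry φ s = cochainCobdry ψ s := by
  simp only [cobdry_apply, h]

theorem cobdry_const0 (m : M) (s : SingSimplex X 1) : cochainCobdry (fun _ => m) s = 0 := by
  rw [cobdry_apply, Fin.sum_univ_two]
  simp

theorem cobdry_cobdry {n : ℕ} (φ : SingSimplex X n → M) :
    cochainCobdry (cochainCobdry φ) = 0 := by
  funext s
  have h := Crest.Agent.R251.Sm.B_B (Crest.Agent.R251.Sm.lc φ s)
    (Crest.Agent.R251.Sm.vs (n + 1 + 1))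
  rw [Crest.Agent.R251.Sm.B_lc, Crest.Agent.R251.Sm.B_lc, Crest.Agent.R251.Sm.lc_vs] at h
  exact h

/-- closed 0-cochains on a contractible subset are constant -/
theorem const_on {W : Set X} (hW : EC W) (g : SingSimplex X 0 → M)
    (h : ∀ s : SingSimplex X 1, SIn W s → cochainCobdry g s = 0) {s t : SingSimplex X 0}
    (hs : SIn W s) (ht : SIn W t) : g s = g t := by
  have := hW (SIn.nonempty hs)
  have key : ∀ x ∈ W, ∀ y ∈ W, g (p0 x) = g (p0 y) := by
    intro x hx y hy
    obtain ⟨γ⟩ : Nonempty (Path (⟨y, hy⟩ : W) ⟨x, hx⟩) := ⟨PathConnectedSpace.somePath _ _⟩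
    let δ : C(unitInterval, X) := (incl W).comp γ.toContinuousMap
    have h1 := h (Crest.Agent.R251.PC.ps δ) (Crest.Agent.R251.CZ.inS_ps (fun u => (γ u).2))
    rw [cobdry_ps] at h1
    have e1 : δ 1 = x := by
      show ((γ 1 : W) : X) = x
      rw [γ.target]
    have e0 : δ 0 = y := by
      show ((γ 0 : W) : X) = y
      rw [γ.source]
    rw [e1, e0] at h1
    exact sub_eq_zero.1 h1
  have := key _ (hs (Crest.Agent.R251.CZ.v0)) _ (ht (Crest.Agent.R251.CZ.v0))
  change g (p0 (ev0 s)) = g (p0 (ev0 t)) at this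
  rwa [p0_ev0, p0_ev0] at this

theorem exists_const {α β : Type*} (F : α → β → M) (P : α → β → Prop)
    (h : ∀ a s t, P a s → P a t → F a s = F a t) :
    ∃ c : α → M, ∀ a s, P a s → F a s = c a := by
  classical
  refine ⟨fun a => if h' : ∃ s, P a s then F a h'.choose else 0, ?_⟩
  intro a s hs
  have h' : ∃ s, P a s := ⟨s, hs⟩
  simp only [dif_pos h']
  exact h a _ _ hs h'.choose_spec

/-- covers with contractible members, double and triple intersections -/
structure Cv (X : Type) [TopologicalSpace X] (ι : Type) where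
  U : ι → Set X
  isOpen : ∀ i, IsOpen (U i)
  cover : ∀ x, ∃ i, x ∈ U i
  e1 : ∀ i, EC (U i)
  e2 : ∀ i j, EC (U i ∩ U j)
  e3 : ∀ i j l, EC (U i ∩ U j ∩ U l)

variable {ι : Type} (C : Cv X ι)

namespace Cv

/-- Čech 1-cocycles -/
def Coc1 (c : ι → ι → M) : Prop :=
  ∀ i j l, (C.U i ∩ C.U j ∩ C.U l).Nonempty → c j l - c i l + c i j = 0

/-- Čech 1-coboundaries -/
def Cob1 (c : ι → ι → M) : Prop :=
  ∃ b : ι → M, ∀ i j, (C.U i ∩ C.U j).Nonempty → c i j = b j - b i

/-- Čech 2-cocycles -/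
def Coc2 (c : ι → ι → ι → M) : Prop :=
  ∀ i j l m, (C.U i ∩ C.U j ∩ C.U l ∩ C.U m).Nonempty →
    c j l m - c i l m + c i j m - c i j l = 0

/-- Čech 2-coboundaries -/
def Cob2 (c : ι → ι → ι → M) : Prop :=
  ∃ b : ι → ι → M, ∀ i j l, (C.U i ∩ C.U j ∩ C.U l).Nonempty →
    c i j l = b j l - b i l + b i j

/-- correspondence in degree one -/
def Rel1 (φ : SingSimplex X 1 → M) (c : ι → ι → M) : Prop :=
  ∃ f : ι → SingSimplex X 0 → M,
    (∀ i (s : SingSimplex X 1), SIn (C.U i) s → cochainCobdry (f i) s = φ s) ∧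
    ∀ i j (s : SingSimplex X 0), SIn (C.U i) s → SIn (C.U j) s → f j s - f i s = c i j

/-- correspondence in degree two -/
def Rel2 (φ : SingSimplex X 2 → M) (c : ι → ι → ι → M) : Prop :=
  ∃ (a : ι → SingSimplex X 1 → M) (b : ι → ι → SingSimplex X 0 → M),
    (∀ i (s : SingSimplex X 2), SIn (C.U i) s → cochainCobdry (a i) s = φ s) ∧
    (∀ i j (s : SingSimplex X 1), SIn (C.U i) s → SIn (C.U j) s →
      cochainCobdry (b i j) s = a j s - a i s) ∧
    ∀ i j l (s : SingSimplex X 0), SIn (C.U i) s → SIn (C.U j) s → SIn (C.U l) s →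
      b j l s - b i l s + b i j s = c i j l

/-- a point in an intersection as a simplex -/
theorem sIn_p0 {W : Set X} {x : X} (h : x ∈ W) : SIn W (p0 x) :=
  Crest.Agent.R251.CZ.inS_p0.2 h

theorem sIn_zero_iff {W : Set X} {s : SingSimplex X 0} : SIn W s ↔ ev0 s ∈ W := by
  constructor
  · intro h; exact h _
  · intro h
    rw [← p0_ev0 s]
    exact sIn_p0 h

/-- smallness in the sense of `Sm82C` -/
theorem isSmall_iff {n : ℕ} {s : SingSimplex X n} :
    Crest.Agent.R251.Sm.IsSmall (Set.range C.U) s ↔ ∃ i, SIn (C.U i) s := by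
  constructor
  · rintro ⟨_, ⟨i, rfl⟩, h⟩
    exact ⟨i, fun t => h ⟨t, rfl⟩⟩
  · rintro ⟨i, h⟩
    refine ⟨_, ⟨i, rfl⟩, ?_⟩
    rintro _ ⟨t, rfl⟩
    exact h t

/-- a cocycle vanishing on the small simplices is exact -/
theorem exact_of_small {n : ℕ} (φ : SingSimplex X (n + 1) → M) (hφ : cochainCobdry φ = 0)
    (h : ∀ i (s : SingSimplex X (n + 1)), SIn (C.U i) s → φ s = 0) :
    ∃ ψ : SingSimplex X n → M, cochainCobdry ψ = φ := by
  obtain ⟨ψ, h1, -⟩ := Crest.Agent.R251.Sm.small_vanish (Set.range C.U) (by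
      rintro _ ⟨i, rfl⟩; exact C.isOpen i) (by
      intro x
      obtain ⟨i, hi⟩ := C.cover x
      exact ⟨_, ⟨i, rfl⟩, hi⟩) φ hφ (by
      intro s hs
      obtain ⟨i, hi⟩ := (C.isSmall_iff).1 hs
      exact h i s hi)
  exact ⟨ψ, h1⟩

/-- a cocycle which is exact on the small simplices is exact -/
theorem exact_of_small' {n : ℕ} (φ : SingSimplex X (n + 1) → M) (hφ : cochainCobdry φ = 0)
    (g : SingSimplex X n → M)
    (h : ∀ i (s : SingSimplex X (n + 1)), SIn (C.U i) s → cochainCobdry g s = φ s) :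
    ∃ ψ : SingSimplex X n → M, cochainCobdry ψ = φ := by
  obtain ⟨ψ, hψ⟩ := C.exact_of_small (fun s => φ s - cochainCobdry g s) (by
      funext s
      rw [cobdry_sub', hφ, cobdry_cobdry]
      exact sub_self _) (by
      intro i s hs
      rw [h i s hs, sub_self])
  refine ⟨fun s => ψ s + g s, ?_⟩
  funext s
  rw [cobdry_add', hψ]
  simp

/-- a cochain closed on the small simplices agrees on them with a cocycle -/
theorem extend {n : ℕ} (φ₀ : SingSimplex X n → M)
    (h : ∀ i (s : SingSimplex X (n + 1)), SIn (C.U i) s → cochainCobdry φ₀ s = 0) :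
    ∃ φ : SingSimplex X n → M, cochainCobdry φ = 0 ∧
      ∀ i (s : SingSimplex X n), SIn (C.U i) s → φ s = φ₀ s := by
  obtain ⟨φ, h1, -, h2, -⟩ := Crest.Agent.R251.Sm.extend_small (Set.range C.U) (by
      rintro _ ⟨i, rfl⟩; exact C.isOpen i) (by
      intro x
      obtain ⟨i, hi⟩ := C.cover x
      exact ⟨_, ⟨i, rfl⟩, hi⟩) φ₀ (by
      intro s hs
      obtain ⟨i, hi⟩ := (C.isSmall_iff).1 hs
      exact h i s hi)
  exact ⟨φ, h1, fun i s hs => h2 s ((C.isSmall_iff).2 ⟨i, hs⟩)⟩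

/-! ### gluing functions -/

/-- index of a simplex -/
def idx {n : ℕ} (s : SingSimplex X n) : ι := by
  classical
  exact if h : ∃ i, SIn (C.U i) s then h.choose else (C.cover (us s (stdSimplex.vertex 0))).choose

theorem idx_spec {n : ℕ} {s : SingSimplex X n} {i : ι} (h : SIn (C.U i) s) :
    SIn (C.U (C.idx s)) s := by
  have h' : ∃ i, SIn (C.U i) s := ⟨i, h⟩
  unfold idx
  rw [dif_pos h']
  exact h'.choose_spec

/-- glue cochains on the members -/
def glue {n : ℕ} (a : ι → SingSimplex X n → M) (s : SingSimplex X n) : M := a (C.idx s) s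

omit [AddCommGroup M] in
theorem glue_eq {n : ℕ} {a : ι → SingSimplex X n → M}
    (h : ∀ i j (s : SingSimplex X n), SIn (C.U i) s → SIn (C.U j) s → a i s = a j s)
    {i : ι} {s : SingSimplex X n} (hs : SIn (C.U i) s) : C.glue a s = a i s :=
  h _ _ _ (C.idx_spec hs) hs

theorem cobdry_glue {n : ℕ} {a : ι → SingSimplex X n → M}
    (h : ∀ i j (s : SingSimplex X n), SIn (C.U i) s → SIn (C.U j) s → a i s = a j s)
    {i : ι} {s : SingSimplex X (n + 1)} (hs : SIn (C.U i) s) :
    cochainCobdry (C.glue a) s = cochainCobdry (a i) s :=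
  cobdry_congr' fun j => C.glue_eq h (hs.face j)

/-! ### degree one -/

theorem exists_coc1 (φ : SingSimplex X 1 → M) (hφ : cochainCobdry φ = 0) :
    ∃ c : ι → ι → M, C.Coc1 c ∧ C.Rel1 φ c := by
  classical
  have h1 : ∀ i, ∃ f : SingSimplex X 0 → M,
      ∀ s : SingSimplex X 1, SIn (C.U i) s → cochainCobdry f s = φ s := fun i =>
    exact_on (C.e1 i) φ (fun s _ => by rw [hφ]; rfl)
  choose f hf using h1
  have hc : ∀ i j (s t : SingSimplex X 0), SIn (C.U i) s → SIn (C.U j) s → SIn (C.U i) t →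
      SIn (C.U j) t → f j s - f i s = f j t - f i t := by
    intro i j s t h1 h2 h3 h4
    refine const_on (C.e2 i j) (fun s => f j s - f i s) ?_ (h1.inter h2) (h3.inter h4)
    intro s hs
    rw [cobdry_sub', hf i s (hs.mono inter_subset_left), hf j s (hs.mono inter_subset_right),
      sub_self]
  obtain ⟨c, hrel⟩ := exists_const (α := ι × ι) (fun a s => f a.2 s - f a.1 s)
    (fun a s => SIn (C.U a.1) s ∧ SIn (C.U a.2) s)
    (fun a s t hs ht => hc a.1 a.2 s t hs.1 hs.2 ht.1 ht.2)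
  refine ⟨fun i j => c (i, j), ?_, f, hf, fun i j s hi hj => hrel (i, j) s ⟨hi, hj⟩⟩
  rintro i j l ⟨x, ⟨hi, hj⟩, hl⟩
  have h1 := hrel (i, j) (p0 x) ⟨sIn_p0 hi, sIn_p0 hj⟩
  have h2 := hrel (i, l) (p0 x) ⟨sIn_p0 hi, sIn_p0 hl⟩
  have h3 := hrel (j, l) (p0 x) ⟨sIn_p0 hj, sIn_p0 hl⟩
  simp only at h1 h2 h3 ⊢
  rw [← h1, ← h2, ← h3]
  abel

theorem exists_sing1 (c : ι → ι → M) (hc : C.Coc1 c) :
    ∃ φ : SingSimplex X 1 → M, cochainCobdry φ = 0 ∧ C.Rel1 φ c := by
  let f : ι → SingSimplex X 0 → M := fun i s => c (C.idx s) i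
  have hf : ∀ i j (s : SingSimplex X 0), SIn (C.U i) s → SIn (C.U j) s →
      f j s - f i s = c i j := by
    intro i j s hi hj
    have h1 := C.idx_spec hi
    have := hc (C.idx s) i j ⟨ev0 s, ⟨sIn_zero_iff.1 h1, sIn_zero_iff.1 hi⟩, sIn_zero_iff.1 hj⟩
    show c (C.idx s) j - c (C.idx s) i = c i j
    rw [← sub_eq_zero, ← neg_eq_zero, ← this]
    abel
  have hg : ∀ i j (s : SingSimplex X 1), SIn (C.U i) s → SIn (C.U j) s →
      cochainCobdry (f i) s = cochainCobdry (f j) s := by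
    intro i j s hi hj
    rw [eq_comm, ← sub_eq_zero, ← cobdry_sub']
    rw [cobdry_congr' (ψ := fun _ => c i j) (fun a => hf i j _ (hi.face a) (hj.face a))]
    exact cobdry_const0 _ _
  obtain ⟨φ, h1, h2⟩ := C.extend (C.glue fun i => cochainCobdry (f i)) (by
    intro i s hs
    rw [C.cobdry_glue hg hs, cobdry_cobdry]; rfl)
  refine ⟨φ, h1, f, ?_, hf⟩
  intro i s hs
  rw [h2 i s hs, C.glue_eq hg hs]

theorem exact_of_cob1 {φ : SingSimplex X 1 → M} (hφ : cochainCobdry φ = 0) {c : ι → ι → M}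
    (hr : C.Rel1 φ c) (hc : C.Cob1 c) : ∃ ψ : SingSimplex X 0 → M, cochainCobdry ψ = φ := by
  obtain ⟨f, hf, hf'⟩ := hr
  obtain ⟨b, hb⟩ := hc
  have hg : ∀ i j (s : SingSimplex X 0), SIn (C.U i) s → SIn (C.U j) s →
      f i s - b i = f j s - b j := by
    intro i j s hi hj
    have h1 := hf' i j s hi hj
    rw [hb i j (SIn.nonempty (hi.inter hj))] at h1
    rw [sub_eq_sub_iff_sub_eq_sub]
    rw [← neg_sub (f j s), h1, neg_sub]
  refine C.exact_of_small' φ hφ (C.glue fun i s => f i s - b i) ?_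
  intro i s hs
  rw [C.cobdry_glue hg hs, cobdry_sub', cobdry_const0, sub_zero, hf i s hs]

theorem cob1_of_exact {φ : SingSimplex X 1 → M} {c : ι → ι → M}
    (hr : C.Rel1 φ c) (he : ∃ ψ : SingSimplex X 0 → M, cochainCobdry ψ = φ) : C.Cob1 c := by
  classical
  obtain ⟨f, hf, hf'⟩ := hr
  obtain ⟨ψ, rfl⟩ := he
  have hc : ∀ i (s t : SingSimplex X 0), SIn (C.U i) s → SIn (C.U i) t →
      f i s - ψ s = f i t - ψ t := by
    intro i s t h1 h2
    refine const_on (C.e1 i) (fun s => f i s - ψ s) ?_ h1 h2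
    intro s hs
    rw [cobdry_sub', hf i s hs, sub_self]
  obtain ⟨b, hb⟩ := exists_const (α := ι) (fun i s => f i s - ψ s) (fun i s => SIn (C.U i) s)
    (fun i s t hs ht => hc i s t hs ht)
  refine ⟨b, ?_⟩
  rintro i j ⟨x, hi, hj⟩
  rw [← hf' i j (p0 x) (sIn_p0 hi) (sIn_p0 hj), ← hb i (p0 x) (sIn_p0 hi),
    ← hb j (p0 x) (sIn_p0 hj)]
  abel

/-! ### degree two -/

/-- alternating functions of three indices -/
def Alt3 (c : ι → ι → ι → M) : Prop :=
  (∀ i j l, c j i l = -c i j l) ∧ (∀ i j l, c i l j = -c i j l) ∧ ∀ i l, c i i l = 0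

theorem exists_coc2_alt (φ : SingSimplex X 2 → M) (hφ : cochainCobdry φ = 0) :
    ∃ c : ι → ι → ι → M, C.Coc2 c ∧ Alt3 c ∧ C.Rel2 φ c := by
  classical
  let _ : LinearOrder ι := linearOrderOfSTO (WellOrderingRel (α := ι))
  have h1 : ∀ i, ∃ a : SingSimplex X 1 → M,
      ∀ s : SingSimplex X 2, SIn (C.U i) s → cochainCobdry a s = φ s := fun i =>
    exact_on (C.e1 i) φ (fun s _ => by rw [hφ]; rfl)
  choose a ha using h1
  have h2 : ∀ i j, ∃ b : SingSimplex X 0 → M,
      ∀ s : SingSimplex X 1, SIn (C.U i ∩ C.U j) s → cochainCobdry b s = a j s - a i s := by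
    intro i j
    refine exact_on (C.e2 i j) (fun s => a j s - a i s) (fun s hs => ?_)
    rw [cobdry_sub', ha i s (hs.mono inter_subset_left), ha j s (hs.mono inter_subset_right),
      sub_self]
  choose b₀ hb₀ using h2
  let b : ι → ι → SingSimplex X 0 → M := fun i j s =>
    if i < j then b₀ i j s else if j < i then -b₀ j i s else 0
  have bself : ∀ i s, b i i s = 0 := by
    intro i s
    simp [b]
  have bswap : ∀ i j s, b j i s = -b i j s := by
    intro i j s
    rcases lt_trichotomy i j with h | h | h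
    · simp [b, h, not_lt.2 h.le]
    · subst h
      rw [bself, neg_zero]
    · simp [b, h, not_lt.2 h.le]
  have hb' : ∀ i j (s : SingSimplex X 1), SIn (C.U i) s → SIn (C.U j) s →
      cochainCobdry (b i j) s = a j s - a i s := by
    have hlt : ∀ i j (s : SingSimplex X 1), i < j → SIn (C.U i) s → SIn (C.U j) s →
        cochainCobdry (b i j) s = a j s - a i s := by
      intro i j s h hi hj
      rw [← hb₀ i j s (hi.inter hj)]
      exact cobdry_congr' fun k => by simp [b, h]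
    intro i j s hi hj
    rcases lt_trichotomy i j with h | h | h
    · exact hlt i j s h hi hj
    · subst h
      rw [sub_self, cobdry_congr' (ψ := fun _ => (0 : M)) (fun k => bself i _)]
      exact cobdry_const0 _ _
    · have h1 := hlt j i s h hj hi
      have h2 : cochainCobdry (b i j) s = cochainCobdry (fun t => (0 : M) - b j i t) s :=
        cobdry_congr' fun k => by rw [bswap j i, zero_sub]
      rw [h2, cobdry_sub', cobdry_const0, zero_sub, h1, neg_sub]
  have hc : ∀ i j l (s t : SingSimplex X 0), SIn (C.U i) s → SIn (C.U j) s → SIn (C.U l) s →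
      SIn (C.U i) t → SIn (C.U j) t → SIn (C.U l) t →
      b j l s - b i l s + b i j s = b j l t - b i l t + b i j t := by
    intro i j l s t h1 h2 h3 h4 h5 h6
    refine const_on (C.e3 i j l) (fun s => b j l s - b i l s + b i j s) ?_
      ((h1.inter h2).inter h3) ((h4.inter h5).inter h6)
    intro s hs
    have hi : SIn (C.U i) s := hs.mono fun _ h => h.1.1
    have hj : SIn (C.U j) s := hs.mono fun _ h => h.1.2
    have hl : SIn (C.U l) s := hs.mono fun _ h => h.2
    rw [cobdry_add', cobdry_sub', hb' j l s hj hl, hb' i l s hi hl, hb' i j s hi hj]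
    abel
  obtain ⟨c, hrel⟩ := exists_const (α := ι × ι × ι)
    (fun a s => b a.2.1 a.2.2 s - b a.1 a.2.2 s + b a.1 a.2.1 s)
    (fun a s => SIn (C.U a.1) s ∧ SIn (C.U a.2.1) s ∧ SIn (C.U a.2.2) s)
    (fun a s t hs ht => hc a.1 a.2.1 a.2.2 s t hs.1 hs.2.1 hs.2.2 ht.1 ht.2.1 ht.2.2)
  let c' : ι → ι → ι → M := fun i j l =>
    if (C.U i ∩ C.U j ∩ C.U l).Nonempty then c (i, j, l) else 0
  have hrel' : ∀ i j l (s : SingSimplex X 0), SIn (C.U i) s → SIn (C.U j) s → SIn (C.U l) s →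
      b j l s - b i l s + b i j s = c' i j l := by
    intro i j l s hi hj hl
    have h : (C.U i ∩ C.U j ∩ C.U l).Nonempty := SIn.nonempty ((hi.inter hj).inter hl)
    simp only [c', if_pos h]
    exact hrel (i, j, l) s ⟨hi, hj, hl⟩
  have hval : ∀ i j l, (C.U i ∩ C.U j ∩ C.U l).Nonempty → ∃ s : SingSimplex X 0,
      SIn (C.U i) s ∧ SIn (C.U j) s ∧ SIn (C.U l) s := by
    rintro i j l ⟨x, ⟨hi, hj⟩, hl⟩
    exact ⟨p0 x, sIn_p0 hi, sIn_p0 hj, sIn_p0 hl⟩
  refine ⟨c', ?_, ⟨?_, ?_, ?_⟩, a, b, ha, hb', hrel'⟩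
  · rintro i j l m ⟨x, ⟨⟨hi, hj⟩, hl⟩, hm⟩
    rw [← hrel' i j l (p0 x) (sIn_p0 hi) (sIn_p0 hj) (sIn_p0 hl),
      ← hrel' i j m (p0 x) (sIn_p0 hi) (sIn_p0 hj) (sIn_p0 hm),
      ← hrel' i l m (p0 x) (sIn_p0 hi) (sIn_p0 hl) (sIn_p0 hm),
      ← hrel' j l m (p0 x) (sIn_p0 hj) (sIn_p0 hl) (sIn_p0 hm)]
    abel
  · intro i j l
    by_cases h : (C.U i ∩ C.U j ∩ C.U l).Nonempty
    · obtain ⟨s, hi, hj, hl⟩ := hval i j l h
      rw [← hrel' i j l s hi hj hl, ← hrel' j i l s hj hi hl, bswap i j]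
      abel
    · have h' : ¬ (C.U j ∩ C.U i ∩ C.U l).Nonempty := by rwa [inter_comm (C.U j)]
      simp only [c', if_neg h, if_neg h', neg_zero]
  · intro i j l
    by_cases h : (C.U i ∩ C.U j ∩ C.U l).Nonempty
    · obtain ⟨s, hi, hj, hl⟩ := hval i j l h
      rw [← hrel' i j l s hi hj hl, ← hrel' i l j s hi hl hj, bswap j l]
      abel
    · have h' : ¬ (C.U i ∩ C.U l ∩ C.U j).Nonempty := by rwa [inter_right_comm]
      simp only [c', if_neg h, if_neg h', neg_zero]
  · intro i l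
    by_cases h : (C.U i ∩ C.U i ∩ C.U l).Nonempty
    · obtain ⟨s, hi, -, hl⟩ := hval i i l h
      rw [← hrel' i i l s hi hi hl, bself]
      abel
    · simp only [c', if_neg h]


theorem exists_sing2 (c : ι → ι → ι → M) (hc : C.Coc2 c) :
    ∃ φ : SingSimplex X 2 → M, cochainCobdry φ = 0 ∧ C.Rel2 φ c := by
  let b : ι → ι → SingSimplex X 0 → M := fun i j s => c (C.idx s) i j
  have hb : ∀ i j l (s : SingSimplex X 0), SIn (C.U i) s → SIn (C.U j) s → SIn (C.U l) s →
      b j l s - b i l s + b i j s = c i j l := by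
    intro i j l s hi hj hl
    have h1 := C.idx_spec hi
    have := hc (C.idx s) i j l ⟨ev0 s, ⟨⟨sIn_zero_iff.1 h1, sIn_zero_iff.1 hi⟩,
      sIn_zero_iff.1 hj⟩, sIn_zero_iff.1 hl⟩
    show c (C.idx s) j l - c (C.idx s) i l + c (C.idx s) i j = c i j l
    rw [← sub_eq_zero, ← neg_eq_zero, ← this]
    abel
  have hcob : ∀ i j l (s : SingSimplex X 1), SIn (C.U i) s → SIn (C.U j) s → SIn (C.U l) s →
      cochainCobdry (b j l) s - cochainCobdry (b i l) s + cochainCobdry (b i j) s = 0 := by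
    intro i j l s hi hj hl
    rw [← cobdry_sub', ← cobdry_add']
    rw [cobdry_congr' (ψ := fun _ => c i j l)
      (fun k => hb i j l _ (hi.face k) (hj.face k) (hl.face k))]
    exact cobdry_const0 _ _
  let a : ι → SingSimplex X 1 → M := fun i s => cochainCobdry (b (C.idx s) i) s
  have ha : ∀ i j (s : SingSimplex X 1), SIn (C.U i) s → SIn (C.U j) s →
      cochainCobdry (b i j) s = a j s - a i s := by
    intro i j s hi hj
    have h1 := C.idx_spec hi
    have := hcob (C.idx s) i j s h1 hi hj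
    show _ = cochainCobdry (b (C.idx s) j) s - cochainCobdry (b (C.idx s) i) s
    rw [← sub_eq_zero, ← this]
    abel
  have hg : ∀ i j (s : SingSimplex X 2), SIn (C.U i) s → SIn (C.U j) s →
      cochainCobdry (a i) s = cochainCobdry (a j) s := by
    intro i j s hi hj
    rw [eq_comm, ← sub_eq_zero, ← cobdry_sub']
    rw [cobdry_congr' (ψ := cochainCobdry (b i j)) (fun k => (ha i j _ (hi.face k) (hj.face k)).symm)]
    rw [cobdry_cobdry]; rfl
  obtain ⟨φ, h1, h2⟩ := C.extend (C.glue fun i => cochainCobdry (a i)) (by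
    intro i s hs
    rw [C.cobdry_glue hg hs, cobdry_cobdry]; rfl)
  refine ⟨φ, h1, a, b, ?_, ha, hb⟩
  intro i s hs
  rw [h2 i s hs, C.glue_eq hg hs]

theorem exact_of_cob2 {φ : SingSimplex X 2 → M} (hφ : cochainCobdry φ = 0) {c : ι → ι → ι → M}
    (hr : C.Rel2 φ c) (hc : C.Cob2 c) : ∃ ψ : SingSimplex X 1 → M, cochainCobdry ψ = φ := by
  obtain ⟨a, b, ha, hb, hbc⟩ := hr
  obtain ⟨m, hm⟩ := hc
  -- correct `b` by the constants `m`
  let b' : ι → ι → SingSimplex X 0 → M := fun i j s => b i j s - m i j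
  have hb' : ∀ i j l (s : SingSimplex X 0), SIn (C.U i) s → SIn (C.U j) s → SIn (C.U l) s →
      b' j l s - b' i l s + b' i j s = 0 := by
    intro i j l s hi hj hl
    have h1 := hbc i j l s hi hj hl
    rw [hm i j l (SIn.nonempty ((hi.inter hj).inter hl))] at h1
    show b j l s - m j l - (b i l s - m i l) + (b i j s - m i j) = 0
    rw [← sub_eq_zero] at h1
    rw [← h1]
    abel
  let f : ι → SingSimplex X 0 → M := fun i s => b' (C.idx s) i s
  have hf : ∀ i j (s : SingSimplex X 0), SIn (C.U i) s → SIn (C.U j) s →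
      f j s - f i s = b' i j s := by
    intro i j s hi hj
    have h1 := hb' (C.idx s) i j s (C.idx_spec hi) hi hj
    show b' (C.idx s) j s - b' (C.idx s) i s = b' i j s
    rw [← sub_eq_zero, ← neg_eq_zero, ← h1]
    abel
  have hg : ∀ i j (s : SingSimplex X 1), SIn (C.U i) s → SIn (C.U j) s →
      a i s - cochainCobdry (f i) s = a j s - cochainCobdry (f j) s := by
    intro i j s hi hj
    have h1 : cochainCobdry (f j) s - cochainCobdry (f i) s = a j s - a i s := by
      rw [← cobdry_sub', cobdry_congr' (ψ := b' i j) (fun k => hf i j _ (hi.face k) (hj.face k)),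
        ← hb i j s hi hj]
      show cochainCobdry (fun t => b i j t - m i j) s = _
      rw [cobdry_sub', cobdry_const0, sub_zero]
    rw [sub_eq_sub_iff_sub_eq_sub, ← neg_sub (a j s), ← h1, neg_sub]
  refine C.exact_of_small' φ hφ (C.glue fun i s => a i s - cochainCobdry (f i) s) ?_
  intro i s hs
  rw [C.cobdry_glue hg hs, cobdry_sub', cobdry_cobdry, ha i s hs]
  exact sub_zero _

theorem cob2_of_exact {φ : SingSimplex X 2 → M} {c : ι → ι → ι → M}
    (hr : C.Rel2 φ c) (he : ∃ ψ : SingSimplex X 1 → M, cochainCobdry ψ = φ) : C.Cob2 c := by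
  classical
  obtain ⟨a, b, ha, hb, hbc⟩ := hr
  obtain ⟨ψ, rfl⟩ := he
  have h1 : ∀ i, ∃ e : SingSimplex X 0 → M,
      ∀ s : SingSimplex X 1, SIn (C.U i) s → cochainCobdry e s = a i s - ψ s := by
    intro i
    refine exact_on (C.e1 i) (fun s => a i s - ψ s) (fun s hs => ?_)
    rw [cobdry_sub', ha i s hs, sub_self]
  choose e he using h1
  have hc : ∀ i j (s t : SingSimplex X 0), SIn (C.U i) s → SIn (C.U j) s → SIn (C.U i) t →
      SIn (C.U j) t → b i j s - (e j s - e i s) = b i j t - (e j t - e i t) := by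
    intro i j s t h1 h2 h3 h4
    refine const_on (C.e2 i j) (fun s => b i j s - (e j s - e i s)) ?_ (h1.inter h2) (h3.inter h4)
    intro s hs
    have hi : SIn (C.U i) s := hs.mono inter_subset_left
    have hj : SIn (C.U j) s := hs.mono inter_subset_right
    rw [cobdry_sub', cobdry_sub', hb i j s hi hj, he i s hi, he j s hj]
    abel
  obtain ⟨m, hm⟩ := exists_const (α := ι × ι) (fun a s => b a.1 a.2 s - (e a.2 s - e a.1 s))
    (fun a s => SIn (C.U a.1) s ∧ SIn (C.U a.2) s)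
    (fun a s t hs ht => hc a.1 a.2 s t hs.1 hs.2 ht.1 ht.2)
  refine ⟨fun i j => m (i, j), ?_⟩
  rintro i j l ⟨x, ⟨hi, hj⟩, hl⟩
  have h1 := hm (i, j) (p0 x) ⟨sIn_p0 hi, sIn_p0 hj⟩
  have h2 := hm (i, l) (p0 x) ⟨sIn_p0 hi, sIn_p0 hl⟩
  have h3 := hm (j, l) (p0 x) ⟨sIn_p0 hj, sIn_p0 hl⟩
  simp only at h1 h2 h3 ⊢
  rw [← h1, ← h2, ← h3, ← hbc i j l (p0 x) (sIn_p0 hi) (sIn_p0 hj) (sIn_p0 hl)]
  abel

end Cv

end

end Crest.Agent.R275.SNerve865
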