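import Crest.Agent.R275.SerK_398
import Crest.Agent.R275.ScaleB_685
import Mathlib
import Crest.Agent.R275.SerG1_398
import Crest.Agent.R275.Lam2_130
import Crest.Agent.R275.VCalB_131

-- ▼ part R275/SerS_398
section

/-!
# R275, block C6 (Serre duality), Stokes (helper398)

* `lint_db` : `∫_j ∂̄_a F = 0` for `F` smooth with compact support in the chart `j`.
* `pr_nab`  : `⟨∇ u, w⟩ = ⟨u, ∇' w⟩` for every pairing satisfying the local formula.
-/

set_option autoImplicit false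
set_option linter.unusedSectionVars false

open Set Filter Topology Complex MeasureTheory
open scoped ContDiff Matrix ComplexConjugate Kronecker

namespace Crest.Agent.R275.SerG398

open Geo Tor812 C1d194 TorS666

noncomputable section

section torus
variable {d : Type} [Fintype d]

/-- integral of a partial derivative of a compactly supported function on the cube -/
theorem integral_fderiv_isCC {F : (d → ℝ) → ℂ} (h : IsCC (Qo d) F) (j : d) :
    ∫ x, fderiv ℝ F x (ev j) = 0 := by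
  have h1 : ip (1 : SPer d) (pd j (perz F h)) = 0 := by
    rw [ip, one_mul, fc_pd]; simp
  rw [pd_perz, ip_perz] at h1
  simpa using h1

theorem integrable_isCC {U : Set (d → ℝ)} {F : (d → ℝ) → ℂ} (h : IsCC U F) : Integrable F :=
  h.smooth.continuous.integrable_of_hasCompactSupport h.hasCompactSupport

end torus

variable {n : ℕ} {M : Type} [TopologicalSpace M] {A : Atl n M}

/-- `cc` as a continuous linear map -/
def ccL (n : ℕ) : (RI n → ℝ) →L[ℝ] Cn n := ((rcE n).symm.toContinuousLinearEquiv : _ →L[ℝ] _)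

theorem ccL_apply (x : RI n → ℝ) : ccL n x = cc x := rfl

theorem cc_ev0 (a : Fin n) : cc (ev (a, (0 : Fin 2)) : RI n → ℝ) = EuclideanSpace.single a 1 := by
  ext b
  rw [cc_apply, PiLp.single_apply]
  by_cases hb : b = a
  · subst hb
    rw [ev_same, ev_ne (by simp)]
    simp
  · rw [ev_ne (by simp [hb]), ev_ne (by simp)]
    simp [hb]

theorem cc_ev1 (a : Fin n) : cc (ev (a, (1 : Fin 2)) : RI n → ℝ) = EuclideanSpace.single a I := by
  ext b
  rw [cc_apply, PiLp.single_apply]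
  by_cases hb : b = a
  · subst hb
    rw [ev_same, ev_ne (by simp)]
    simp
  · rw [ev_ne (by simp), ev_ne (by simp [hb])]
    simp [hb]

/-- `∂̄_a` in the chart in terms of the real coordinates -/
theorem rd_db {j : A.ι} {F : M → ℂ} (hF : A.SmAt j F) (a : Fin n) {x : RI n → ℝ}
    (hx : x ∈ Ui A j) :
    rd A j (A.db j a F) x = (1 / 2 : ℂ) * (fderiv ℝ (rd A j F) x (ev (a, 0)) +
      I * fderiv ℝ (rd A j F) x (ev (a, 1))) := by
  rw [rd_of_mem hx, Atl.db_symm hx]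
  have h1 : rd A j F =ᶠ[𝓝 x] (fun z => F ((A.e j).symm z)) ∘ ccL n := by
    filter_upwards [(isOpen_Ui j).mem_nhds hx] with y hy
    exact rd_of_mem hy
  have h2 : DifferentiableAt ℝ (fun z => F ((A.e j).symm z)) (ccL n x) :=
    (hF.contDiffAt ((A.e j).open_target.mem_nhds hx)).differentiableAt (by simp)
  have h3 : fderiv ℝ (rd A j F) x =
      (fderiv ℝ (fun z => F ((A.e j).symm z)) (ccL n x)).comp (ccL n) := by
    rw [h1.fderiv_eq, fderiv_comp x h2 (ccL n).differentiableAt, ContinuousLinearMap.fderiv]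
  rw [h3]
  simp only [ContinuousLinearMap.comp_apply, ccL_apply, cc_ev0, cc_ev1]
  rfl

theorem rd_isCC_Q {j : A.ι} {F : M → ℂ} (hF : A.SmAt j F) {K : Set M} (hK : IsCompact K)
    (hKc : IsClosed K) (hKj : K ⊆ (A.e j).source) (h0 : ∀ x ∉ K, F x = 0) :
    IsCC (Ui A j) (rd A j F) := by
  have h1 : tsupport F ⊆ K := by
    refine closure_minimal ?_ hKc
    intro x hx
    by_contra hx'
    exact hx (h0 x hx')
  exact rd_isCC hF (hK.of_isClosed_subset (isClosed_tsupport _) h1) (h1.trans hKj)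

theorem rd_db_all {j : A.ι} {F : M → ℂ} (hF : A.SmAt j F) {K : Set M} (hK : IsCompact K)
    (hKc : IsClosed K) (hKj : K ⊆ (A.e j).source) (h0 : ∀ x ∉ K, F x = 0) (a : Fin n)
    (x : RI n → ℝ) :
    rd A j (A.db j a F) x = (1 / 2 : ℂ) * (fderiv ℝ (rd A j F) x (ev (a, 0)) +
      I * fderiv ℝ (rd A j F) x (ev (a, 1))) := by
  have hcc := rd_isCC_Q hF hK hKc hKj h0
  by_cases hx : x ∈ Ui A j
  · exact rd_db hF a hx
  · rw [rd_off hx, (hcc.fderiv_apply _).eq_zero hx, (hcc.fderiv_apply _).eq_zero hx]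
    simp

theorem integrable_rd_db {j : A.ι} {F : M → ℂ} (hF : A.SmAt j F) {K : Set M} (hK : IsCompact K)
    (hKc : IsClosed K) (hKj : K ⊆ (A.e j).source) (h0 : ∀ x ∉ K, F x = 0) (a : Fin n) :
    Integrable (rd A j (A.db j a F)) := by
  have hcc := rd_isCC_Q hF hK hKc hKj h0
  have h1 : rd A j (A.db j a F) = fun x => (1 / 2 : ℂ) * (fderiv ℝ (rd A j F) x (ev (a, 0)) +
      I * fderiv ℝ (rd A j F) x (ev (a, 1))) := funext (rd_db_all hF hK hKc hKj h0 a)
  rw [h1]
  exact (((integrable_isCC (hcc.fderiv_apply _))).add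
    ((integrable_isCC (hcc.fderiv_apply _)).const_mul _)).const_mul _

theorem lint_db {j : A.ι} {F : M → ℂ} (hF : A.SmAt j F) {K : Set M} (hK : IsCompact K)
    (hKc : IsClosed K) (hKj : K ⊆ (A.e j).source) (h0 : ∀ x ∉ K, F x = 0) (a : Fin n) :
    lint A j (A.db j a F) = 0 := by
  have hcc := rd_isCC_Q hF hK hKc hKj h0
  unfold lint
  simp_rw [rd_db_all hF hK hKc hKj h0 a]
  rw [integral_const_mul, integral_add (integrable_isCC (hcc.fderiv_apply _))
    ((integrable_isCC (hcc.fderiv_apply _)).const_mul _), integral_const_mul,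
    integral_fderiv_isCC (hcc.mono (Ui_sub j)), integral_fderiv_isCC (hcc.mono (Ui_sub j))]
  simp

theorem lint_congr {j : A.ι} {F G : M → ℂ} (h : ∀ x ∈ (A.e j).source, F x = G x) :
    lint A j F = lint A j G := by
  unfold lint
  refine integral_congr_ae (Eventually.of_forall fun x => ?_)
  show rd A j F x = rd A j G x
  by_cases hx : x ∈ Ui A j
  · rw [rd_of_mem hx, rd_of_mem hx, h _ ((A.e j).map_target hx)]
  · rw [rd_off hx, rd_off hx]

theorem rd_add (j : A.ι) (F G : M → ℂ) : rd A j (fun x => F x + G x) =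
    fun x => rd A j F x + rd A j G x := by
  funext x
  by_cases hx : x ∈ Ui A j
  · simp only [rd_of_mem hx]
  · simp only [rd_off hx, add_zero]

theorem rd_sum (j : A.ι) {σ : Type*} (s : Finset σ) (F : σ → M → ℂ) :
    rd A j (fun x => ∑ t ∈ s, F t x) = fun x => ∑ t ∈ s, rd A j (F t) x := by
  funext x
  by_cases hx : x ∈ Ui A j
  · simp only [rd_of_mem hx]
  · simp only [rd_off hx, Finset.sum_const_zero]

/-- Leibniz rule for the dot product -/
theorem db_dot {κ : Type} [Fintype κ] {j : A.ι} {p q : M → κ → ℂ}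
    (hp : ∀ k, A.SmAt j (fun x => p x k)) (hq : ∀ k, A.SmAt j (fun x => q x k)) {x : M}
    (hx : x ∈ (A.e j).source) (a : Fin n) :
    A.db j a (fun y => p y ⬝ᵥ q y) x = (A.db j a p x) ⬝ᵥ q x + p x ⬝ᵥ (A.db j a q x) := by
  have h1 := db_mulVec (i := j) (m := fun y => (Matrix.of fun (_ : Unit) l => p y l)) (v := q)
    (x := x) (fun k l => (hp l).diffAt hx) (fun l => (hq l).diffAt hx) hx a
  have h2 : ∀ k : Unit, A.SmAt j (fun y => ((Matrix.of fun (_ : Unit) l => p y l) *ᵥ q y) k) := by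
    intro k
    show ContDiffOn ℝ ∞ (fun z => ∑ l, p ((A.e j).symm z) l * q ((A.e j).symm z) l) _
    exact ContDiffOn.sum fun l _ => (hp l).mul (hq l)
  have h3 := congrFun h1 ()
  rw [Atl.db_pi h2 hx a ()] at h3
  have h4 : ∀ l, A.db j a p x l = A.db j a (fun y => p y l) x := fun l => Atl.db_pi hp hx a l
  simp only [Pi.add_apply, Matrix.mulVec, dotProduct, Matrix.of_apply] at h3 ⊢
  rw [h3]
  simp only [h4]

variable {m : A.ι → A.ι → M → ℂ} {B B' : FBun A}

theorem smAt_mulVec {κ κ' : Type} [Fintype κ'] {j : A.ι} (c : Matrix κ κ' ℂ) {v : M → κ' → ℂ}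
    (hv : ∀ l, A.SmAt j (fun x => v x l)) (k : κ) : A.SmAt j (fun x => (c *ᵥ v x) k) := by
  show ContDiffOn ℝ ∞ (fun z => ∑ l, c k l * v ((A.e j).symm z) l) _
  exact ContDiffOn.sum fun l _ => contDiffOn_const.mul (hv l)

/-- pointwise Stokes identity in the chart `j` -/
theorem nab_dot (D : FPair m B B') {j : A.ι} {u : A.ι → M → B.κ → ℂ} (hu : u ∈ Sec B)
    {w : A.ι → M → B'.κ → ℂ} (hw : w ∈ Sec B') {x : M} (hx : x ∈ (A.e j).source) :
    nab B u j x ⬝ᵥ (D.S *ᵥ w j x) = u j x ⬝ᵥ (D.S *ᵥ nab B' w j x) +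
      ∑ a, A.db j a (fun y => (B.e a *ᵥ u j y) ⬝ᵥ (D.S *ᵥ w j y)) x := by
  have hdb : ∀ a, A.db j a (fun y => (B.e a *ᵥ u j y) ⬝ᵥ (D.S *ᵥ w j y)) x =
      (B.e a *ᵥ A.db j a (u j) x) ⬝ᵥ (D.S *ᵥ w j x) +
        (B.e a *ᵥ u j x) ⬝ᵥ (D.S *ᵥ A.db j a (w j) x) := by
    intro a
    rw [db_dot (smAt_mulVec _ (hu.1 j)) (smAt_mulVec _ (hw.1 j)) hx a,
      db_const_mulVec _ (fun l => (hu.1 j l).diffAt hx) hx a,
      db_const_mulVec _ (fun l => (hw.1 j l).diffAt hx) hx a]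
  have htr : ∀ (c : Matrix B.κ B.κ ℂ) (c' : Matrix B'.κ B'.κ ℂ) (p : B.κ → ℂ) (q : B'.κ → ℂ),
      cᵀ * D.S = D.S * c' → (c *ᵥ p) ⬝ᵥ (D.S *ᵥ q) = p ⬝ᵥ (D.S *ᵥ (c' *ᵥ q)) := by
    intro c c' p q h
    rw [Matrix.mulVec_mulVec, ← h, ← Matrix.mulVec_mulVec, Matrix.dotProduct_mulVec p cᵀ,
      Matrix.vecMul_transpose]
  have hsk : ∀ (a : Fin n) (p : B.κ → ℂ) (q : B'.κ → ℂ),
      (B.e a *ᵥ p) ⬝ᵥ (D.S *ᵥ q) = - (p ⬝ᵥ (D.S *ᵥ (B'.e a *ᵥ q))) := by
    intro a p q
    have h := htr (B.e a) (-(B'.e a)) p q (by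
      rw [Matrix.mul_neg]; exact eq_neg_of_add_eq_zero_left (D.e_skew a))
    rw [h, Matrix.neg_mulVec, Matrix.mulVec_neg, dotProduct_neg]
  rw [nab_apply B hx, nab_apply B' hx, add_dotProduct, Matrix.mulVec_add, dotProduct_add,
    htr _ _ _ _ (D.al j x hx)]
  simp only [hdb, Finset.sum_add_distrib]
  have e1 : (∑ a, B.e a *ᵥ A.db j a (u j) x) ⬝ᵥ (D.S *ᵥ w j x) =
      ∑ a, (B.e a *ᵥ A.db j a (u j) x) ⬝ᵥ (D.S *ᵥ w j x) := by
    rw [sum_dotProduct]
  have e2 : u j x ⬝ᵥ (D.S *ᵥ ∑ a, B'.e a *ᵥ A.db j a (w j) x) =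
      ∑ a, u j x ⬝ᵥ (D.S *ᵥ (B'.e a *ᵥ A.db j a (w j) x)) := by
    rw [Matrix.mulVec_sum, dotProduct_sum]
  have e3 : ∑ a, (B.e a *ᵥ u j x) ⬝ᵥ (D.S *ᵥ A.db j a (w j) x) =
      - ∑ a, u j x ⬝ᵥ (D.S *ᵥ (B'.e a *ᵥ A.db j a (w j) x)) := by
    rw [← Finset.sum_neg_distrib]
    exact Finset.sum_congr rfl fun a _ => hsk a _ _
  rw [e1, e2, e3]
  ring

theorem offZ_nab (B : FBun A) {u : A.ι → M → B.κ → ℂ} {K : Set M} (hK : IsClosed K)
    (h : OffZ u K) : OffZ (nab B u) K := by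
  intro i x hx
  have hev : u i =ᶠ[𝓝 x] (0 : A.ι → M → B.κ → ℂ) i := by
    filter_upwards [hK.isOpen_compl.mem_nhds hx] with y hy
    exact h i y hy
  rw [nab_congr B hev]
  by_cases hx' : x ∈ (A.e i).source
  · rw [nab_apply B hx']
    have : ∀ a, A.db i a (0 : M → B.κ → ℂ) x = 0 := fun a => dbj_const _ _ _
    simp [this]
  · exact nab_off B hx'

/-- **Stokes**, local version -/
theorem pr_nab_loc {D : FPair m B B'} {pr : Sec B →ₗ[ℂ] Sec B' →ₗ[ℂ] ℂ} (h : IsPr D pr) {j : A.ι}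
    {K : Set M} (hK : IsCompact K) (hKc : IsClosed K) (hKj : K ⊆ (A.e j).source) (u : Sec B)
    (w : Sec B') (hu : OffZ u.1 K) : pr (nabL B u) w = pr u (nabL B' w) := by
  have hsm : ∀ a, A.SmAt j (fun y => (B.e a *ᵥ u.1 j y) ⬝ᵥ (D.S *ᵥ w.1 j y)) := by
    intro a
    show ContDiffOn ℝ ∞ (fun z => ∑ l, (B.e a *ᵥ u.1 j ((A.e j).symm z)) l *
      (D.S *ᵥ w.1 j ((A.e j).symm z)) l) _
    exact ContDiffOn.sum fun l _ => (smAt_mulVec _ (u.2.1 j) l).mul (smAt_mulVec _ (w.2.1 j) l)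
  have h0 : ∀ a, ∀ x ∉ K, (B.e a *ᵥ u.1 j x) ⬝ᵥ (D.S *ᵥ w.1 j x) = 0 := by
    intro a x hx
    rw [hu j x hx, Matrix.mulVec_zero, zero_dotProduct]
  rw [h.locL j K hK hKc hKj (nabL B u) w (offZ_nab B hKc hu), h.locL j K hK hKc hKj u _ hu]
  have e1 : lint A j (fun y => (nabL B u).1 j y ⬝ᵥ (D.S *ᵥ w.1 j y)) =
      lint A j (fun y => u.1 j y ⬝ᵥ (D.S *ᵥ (nabL B' w).1 j y) +
        ∑ a, A.db j a (fun y => (B.e a *ᵥ u.1 j y) ⬝ᵥ (D.S *ᵥ w.1 j y)) y) :=
    lint_congr fun x hx => nab_dot D u.2 w.2 hx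
  have hs2 : A.SmAt j (fun y => u.1 j y ⬝ᵥ (D.S *ᵥ (nabL B' w).1 j y)) := by
    show ContDiffOn ℝ ∞ (fun z => ∑ l, u.1 j ((A.e j).symm z) l *
      (D.S *ᵥ (nabL B' w).1 j ((A.e j).symm z)) l) _
    exact ContDiffOn.sum fun l _ => (u.2.1 j l).mul (smAt_mulVec _ ((nabL B' w).2.1 j) l)
  have i1 : Integrable (rd A j (fun y => u.1 j y ⬝ᵥ (D.S *ᵥ (nabL B' w).1 j y))) :=
    integrable_isCC (rd_isCC_Q hs2 hK hKc hKj fun x hx => by rw [hu j x hx, zero_dotProduct])
  have i2 : ∀ a ∈ (Finset.univ : Finset (Fin n)),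
      Integrable (rd A j (A.db j a (fun y => (B.e a *ᵥ u.1 j y) ⬝ᵥ (D.S *ᵥ w.1 j y)))) :=
    fun a _ => integrable_rd_db (hsm a) hK hKc hKj (h0 a) a
  rw [e1]
  unfold lint
  rw [rd_add, integral_add i1 (by rw [rd_sum]; exact integrable_finsetSum _ i2), rd_sum,
    integral_finsetSum _ i2]
  have e2 : ∀ a ∈ (Finset.univ : Finset (Fin n)),
      ∫ x, rd A j (A.db j a (fun y => (B.e a *ᵥ u.1 j y) ⬝ᵥ (D.S *ᵥ w.1 j y))) x = 0 :=
    fun a _ => lint_db (hsm a) hK hKc hKj (h0 a) a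
  rw [Finset.sum_eq_zero e2, add_zero]

/-- the section `ψ u` -/
def mulSec (B : FBun A) {f : M → ℂ} (hf : A.Sm f) (u : Sec B) : Sec B := ⟨fmul f u.1, fmul_mem B hf u.2⟩

theorem sm_ofReal' {f : M → ℝ} (hf : A.Sm f) : A.Sm (fun x => (f x : ℂ)) := fun i =>
  Complex.ofRealCLM.contDiff.comp_contDiffOn (hf i)

/-- the support of `ψ_i` is a compact subset of the chart -/
theorem tsupport_psi_sub (P : Part A) (i : A.ι) : tsupport (P.ψ i) ⊆ tsupport (P.χ i) := by
  intro x hx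
  have h1 := (P.χ_one i x hx).self_of_nhds
  exact subset_tsupport _ (by rw [Function.mem_support, h1]; exact one_ne_zero)

theorem isCompact_psi (P : Part A) (i : A.ι) : IsCompact (tsupport (P.ψ i)) :=
  (P.χ_cpt i).of_isClosed_subset (isClosed_tsupport _) (tsupport_psi_sub P i)

theorem psi_sub (P : Part A) (i : A.ι) : tsupport (P.ψ i) ⊆ (A.e i).source :=
  (tsupport_psi_sub P i).trans (P.χ_sub i)

/-- **Stokes** : `⟨∇ u, w⟩ = ⟨u, ∇' w⟩` on a compact manifold -/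
theorem pr_nab [CompactSpace M] (P : Part A) {D : FPair m B B'}
    {pr : Sec B →ₗ[ℂ] Sec B' →ₗ[ℂ] ℂ} (h : IsPr D pr) (u : Sec B) (w : Sec B') :
    pr (nabL B u) w = pr u (nabL B' w) := by
  classical
  have hfin : {i | (tsupport (P.χ i) ∩ (univ : Set M)).Nonempty}.Finite := P.lf univ isCompact_univ
  set J : Finset A.ι := hfin.toFinset with hJ
  have hoff : ∀ i ∉ J, ∀ x, P.ψ i x = 0 := by
    intro i hi x
    by_contra hne
    apply hi
    rw [hJ, Set.Finite.mem_toFinset]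
    exact ⟨x, tsupport_psi_sub P i (subset_tsupport _ hne), trivial⟩
  have hsum : ∀ x, ∑ i ∈ J, P.ψ i x = 1 := by
    intro x
    rw [← P.sum_one x]
    symm
    refine finsum_eq_sum_of_support_subset _ ?_
    intro i hi
    by_contra hiJ
    exact hi (hoff i (by simpa using hiJ) x)
  have hu : u = ∑ i ∈ J, mulSec B (sm_ofReal' (P.ψ_sm i)) u := by
    apply Subtype.ext
    rw [AddSubmonoidClass.coe_finsetSum]
    funext i x
    rw [Finset.sum_apply, Finset.sum_apply]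
    show u.1 i x = ∑ c ∈ J, ((P.ψ c x : ℝ) : ℂ) • u.1 i x
    rw [← Finset.sum_smul, ← Complex.ofReal_sum, hsum x]
    simp
  have key : ∀ i ∈ J, pr (nabL B (mulSec B (sm_ofReal' (P.ψ_sm i)) u)) w =
      pr (mulSec B (sm_ofReal' (P.ψ_sm i)) u) (nabL B' w) := by
    intro i _
    refine pr_nab_loc h (isCompact_psi P i) (isClosed_tsupport _) (psi_sub P i) _ w ?_
    intro c x hx
    show ((P.ψ i x : ℝ) : ℂ) • u.1 c x = 0
    rw [image_eq_zero_of_notMem_tsupport hx]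
    simp
  calc pr (nabL B u) w = ∑ i ∈ J, pr (nabL B (mulSec B (sm_ofReal' (P.ψ_sm i)) u)) w := by
        conv_lhs => rw [hu]
        rw [map_sum, map_sum, LinearMap.sum_apply]
    _ = ∑ i ∈ J, pr (mulSec B (sm_ofReal' (P.ψ_sm i)) u) (nabL B' w) := Finset.sum_congr rfl key
    _ = pr u (nabL B' w) := by
        conv_rhs => rw [hu]
        rw [map_sum, LinearMap.sum_apply]

end

end Crest.Agent.R275.SerG398
end

-- ▼ part R275/SerN_398
section

/-!
# R275, block C6 (Serre duality), nondegeneracy (helper398)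

Every pairing satisfying the local formula separates smooth sections on both sides.
-/

set_option autoImplicit false
set_option linter.unusedSectionVars false

open Set Filter Topology Complex MeasureTheory
open scoped ContDiff Matrix ComplexConjugate Kronecker

namespace Crest.Agent.R275.SerG398

open Geo Tor812 C1d194 TorS666

noncomputable section

variable {n : ℕ} {M : Type} [TopologicalSpace M] {A : Atl n M}
variable {m : A.ι → A.ι → M → ℂ} {B B' : FBun A}

theorem IsPr.flip {D : FPair m B B'} {pr : Sec B →ₗ[ℂ] Sec B' →ₗ[ℂ] ℂ} (h : IsPr D pr) :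
    IsPr D.symm pr.flip where
  locL j K hK hKc hKj w u hw := by
    rw [LinearMap.flip_apply, h.locR j K hK hKc hKj u w hw]
    exact lint_congr fun x _ => dot_symm _ _ _
  locR j K hK hKc hKj w u hu := by
    rw [LinearMap.flip_apply, h.locL j K hK hKc hKj u w hu]
    exact lint_congr fun x _ => dot_symm _ _ _

/-- the test section `χ² Si ū` in the chart `i` -/
def tst (P : Part A) (D : FPair m B B') (i : A.ι) (u : Sec B) : M → Matrix B'.κ Unit ℂ :=
  fun y => ((P.χ i y : ℂ) ^ 2) • (Matrix.of fun k _ => (D.Si *ᵥ fun l => conj (u.1 i y l)) k)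

theorem tst_amp (P : Part A) (D : FPair m B B') (i : A.ι) (u : Sec B) :
    IsAmp A i (tst P D i u) := by
  refine isAmp_of (fun k l => ?_) (P.χ_cpt i) (isClosed_tsupport _) (P.χ_sub i) ?_
  · have h1 : A.SmAt i (fun y => (P.χ i y : ℂ)) := smAt_ofReal (P.χ_sm i i)
    have h2 : ∀ l, A.SmAt i (fun y => conj (u.1 i y l)) := fun l =>
      Complex.conjCLE.contDiff.comp_contDiffOn (u.2.1 i l)
    exact (h1.pow 2).mul (smAt_mulVec D.Si h2 k)
  · intro x hx
    unfold tst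
    rw [image_eq_zero_of_notMem_tsupport hx]
    simp

theorem tst_dot (P : Part A) (D : FPair m B B') (i : A.ι) (u : Sec B) {y : M}
    (hy : y ∈ (A.e i).source) :
    u.1 i y ⬝ᵥ (D.S *ᵥ ext B' i (tst P D i u) (fun _ => 1) i y) =
      ((P.χ i y ^ 2 * ∑ k, ‖u.1 i y k‖ ^ 2 : ℝ) : ℂ) := by
  have h1 : ext B' i (tst P D i u) (fun _ => 1) i y =
      ((P.χ i y : ℂ) ^ 2) • (D.Si *ᵥ fun l => conj (u.1 i y l)) := by
    rw [ext_self B' i hy]
    funext k
    simp [tst, Matrix.mulVec, dotProduct]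
  rw [h1, Matrix.mulVec_smul, Matrix.mulVec_mulVec, D.S_Si, Matrix.one_mulVec, dotProduct_smul]
  simp only [dotProduct, Complex.mul_conj, Complex.normSq_eq_norm_sq, smul_eq_mul]
  push_cast
  ring

/-- **separation** on the left -/
theorem sep_left (P : Part A) {D : FPair m B B'} {pr : Sec B →ₗ[ℂ] Sec B' →ₗ[ℂ] ℂ}
    (h : IsPr D pr) {u : Sec B} (hu : ∀ w, pr u w = 0) : u = 0 := by
  -- vanishing at all points where `χ i ≠ 0`
  have key : ∀ i, ∀ y ∈ (A.e i).source, P.χ i y ≠ 0 → u.1 i y = 0 := by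
    intro i y hy hχ
    have h1 := hu ⟨ext B' i (tst P D i u) (fun _ => 1), ext_mem_Sec B' i (tst_amp P D i u) _⟩
    rw [h.locR i (tsupport (tst P D i u)) (tst_amp P D i u).cpt (isClosed_tsupport _)
      (tst_amp P D i u).sub u _ (fun c x hx => ext_zero_off B' i hx _)] at h1
    set G : M → ℂ := fun y => ((P.χ i y ^ 2 * ∑ k, ‖u.1 i y k‖ ^ 2 : ℝ) : ℂ) with hG
    rw [lint_congr (G := G) fun x hx => tst_dot P D i u hx] at h1
    have hsm : A.SmAt i G := by
      have h2 : A.SmAt i (fun y => u.1 i y ⬝ᵥ (D.S *ᵥ ext B' i (tst P D i u) (fun _ => 1) i y)) := by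
        show ContDiffOn ℝ ∞ (fun z => ∑ l, u.1 i ((A.e i).symm z) l *
          (D.S *ᵥ ext B' i (tst P D i u) (fun _ => 1) i ((A.e i).symm z)) l) _
        exact ContDiffOn.sum fun l _ => (u.2.1 i l).mul
          (smAt_mulVec _ (fun l => ext_smAt B' i (tst_amp P D i u) _ i l) l)
      exact h2.congr fun z hz => (tst_dot P D i u ((A.e i).map_target hz)).symm
    have hcc : IsCC (Ui A i) (rd A i G) := by
      refine rd_isCC_Q hsm (P.χ_cpt i) (isClosed_tsupport _) (P.χ_sub i) ?_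
      intro x hx
      rw [hG]
      simp [image_eq_zero_of_notMem_tsupport hx]
    have hreal : ∀ x, rd A i G x = (((rd A i G x).re : ℝ) : ℂ) := by
      intro x
      by_cases hx : x ∈ Ui A i
      · rw [rd_of_mem hx, hG]
        simp only [Complex.ofReal_re]
      · rw [rd_off hx]; simp
    have hnn : ∀ x, 0 ≤ (rd A i G x).re := by
      intro x
      by_cases hx : x ∈ Ui A i
      · rw [rd_of_mem hx, hG]
        simp only [Complex.ofReal_re]
        positivity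
      · rw [rd_off hx]; simp
    have hint : Integrable (fun x => (rd A i G x).re) := (integrable_isCC hcc).re
    have hcont : Continuous (fun x => (rd A i G x).re) :=
      Complex.continuous_re.comp hcc.smooth.continuous
    have h3 : ∫ x, (rd A i G x).re = 0 := by
      have h4 : (((∫ x, (rd A i G x).re) : ℝ) : ℂ) = 0 := by
        rw [← integral_complex_ofReal, ← h1]
        unfold lint
        exact integral_congr_ae (Eventually.of_forall fun x => (hreal x).symm)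
      exact_mod_cast h4
    have h5 : (fun x => (rd A i G x).re) =ᵐ[volume] 0 :=
      (integral_eq_zero_iff_of_nonneg hnn hint).1 h3
    have h6 : (fun x => (rd A i G x).re) = 0 := hcont.ae_eq_iff_eq volume continuous_zero |>.1 h5
    have h7 := congrFun h6 (rc (A.e i y))
    have h8 : rc (A.e i y) ∈ Ui A i := by
      show cc (rc (A.e i y)) ∈ (A.e i).target
      rw [cc_rc]; exact (A.e i).map_source hy
    simp only [rd_of_mem h8, cc_rc, (A.e i).left_inv hy, hG, Complex.ofReal_re,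
      Pi.zero_apply] at h7
    have h9 : ∑ k, ‖u.1 i y k‖ ^ 2 = 0 := by
      rcases mul_eq_zero.1 h7 with h | h
      · exact absurd (pow_eq_zero_iff (two_ne_zero) |>.1 h) hχ
      · exact h
    funext k
    have h10 := (Finset.sum_eq_zero_iff_of_nonneg (fun k _ => sq_nonneg ‖u.1 i y k‖)).1 h9 k
      (Finset.mem_univ k)
    simpa using h10
  apply Subtype.ext
  funext i x
  by_cases hx : x ∈ (A.e i).source
  · have h1 : ∃ j, P.ψ j x ≠ 0 := by
      by_contra hne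
      push Not at hne
      have := P.sum_one x
      rw [finsum_congr hne, finsum_zero] at this
      exact zero_ne_one this
    obtain ⟨j, hj⟩ := h1
    have h2 : x ∈ tsupport (P.ψ j) := subset_tsupport _ hj
    have h3 : x ∈ (A.e j).source := psi_sub P j h2
    have h4 : P.χ j x ≠ 0 := by
      rw [(P.χ_one j x h2).self_of_nhds]; exact one_ne_zero
    rw [u.2.2.2 i j x ⟨hx, h3⟩, key j x h3 h4, Matrix.mulVec_zero]
    rfl
  · rw [u.2.2.1 i x hx]; rfl

/-- **separation** on the right -/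
theorem sep_right (P : Part A) {D : FPair m B B'} {pr : Sec B →ₗ[ℂ] Sec B' →ₗ[ℂ] ℂ}
    (h : IsPr D pr) {w : Sec B'} (hw : ∀ u, pr u w = 0) : w = 0 :=
  sep_left P h.flip (u := w) fun u => hw u

end

end Crest.Agent.R275.SerG398
end

-- ▼ part R275/Ser2_940
section

/-!
# R275, C6 = Serre duality, part 2 (helper940): Riesz property on a scale

`RieszP N` : for `S = 1 - N` there is `p ≥ 1` with `ker S^p` finite dimensional,
`ker S^(p+j) = ker S^p` and `V = ker S^p ⊕ range S^p`.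
`rieszP_of_neg` : negligible operators on a scale have the Riesz property.
-/

set_option autoImplicit false

namespace Crest.Agent.R275.Ser940

open Module LinearMap Submodule Topology
open Crest.Agent.R275.Fred685

section alg

variable {𝕜 V : Type*} [Field 𝕜] [AddCommGroup V] [Module 𝕜 V]

/-- the Riesz property of `N` at the eigenvalue `1` -/
def RieszP (N : End 𝕜 V) : Prop :=
  ∃ p : ℕ, 1 ≤ p ∧ FiniteDimensional 𝕜 (ker ((1 - N) ^ p)) ∧
    (∀ j, ker ((1 - N) ^ (p + j)) = ker ((1 - N) ^ p)) ∧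
    (∀ j, range ((1 - N) ^ (p + j)) = range ((1 - N) ^ p)) ∧
    IsCompl (ker ((1 - N) ^ p)) (range ((1 - N) ^ p))

theorem ker_pow_mono (S : End 𝕜 V) {j k : ℕ} (h : j ≤ k) : ker (S ^ j) ≤ ker (S ^ k) := by
  intro x hx
  rw [LinearMap.mem_ker] at hx ⊢
  obtain ⟨i, rfl⟩ := Nat.exists_eq_add_of_le' h
  rw [pow_add, Module.End.mul_apply, hx, map_zero]

theorem range_pow_anti (S : End 𝕜 V) {j k : ℕ} (h : j ≤ k) : range (S ^ k) ≤ range (S ^ j) := by
  obtain ⟨i, rfl⟩ := Nat.exists_eq_add_of_le h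
  rintro _ ⟨x, rfl⟩
  exact ⟨(S ^ i) x, by rw [← Module.End.mul_apply, ← pow_add]⟩

theorem ker_pow_stable (S : End 𝕜 V) {p : ℕ}
    (h : ker (S ^ p) = ker (S ^ (p + 1))) (j : ℕ) : ker (S ^ (p + j)) = ker (S ^ p) := by
  induction j with
  | zero => rfl
  | succ j ih =>
    refine le_antisymm ?_ (ker_pow_mono S (by omega))
    intro x hx
    have h1 : S x ∈ ker (S ^ (p + j)) := by
      rw [LinearMap.mem_ker] at hx ⊢
      rw [← add_assoc, pow_succ, Module.End.mul_apply] at hx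
      exact hx
    rw [ih] at h1
    have h2 : x ∈ ker (S ^ (p + 1)) := by
      rw [LinearMap.mem_ker] at h1 ⊢
      rw [pow_succ, Module.End.mul_apply]
      exact h1
    rwa [← h] at h2

/-- stable kernel and index zero give the decomposition -/
theorem isCompl_of_idx {S : End 𝕜 V} {p : ℕ}
    (hst : ∀ j, ker (S ^ (p + j)) = ker (S ^ p))
    (hf : FinIdx (S ^ p : V →ₗ[𝕜] V)) (hi : idx (S ^ p : V →ₗ[𝕜] V) = 0) :
    IsCompl (ker (S ^ p)) (range (S ^ p)) := by
  have hfd : FiniteDimensional 𝕜 (ker (S ^ p)) := hf.1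
  have hfc : FiniteDimensional 𝕜 (V ⧸ range (S ^ p)) := hf.2
  have hdis : ker (S ^ p) ⊓ range (S ^ p) = ⊥ := by
    rw [eq_bot_iff]
    rintro x ⟨hx, y, rfl⟩
    have h1 : y ∈ ker (S ^ (p + p)) := by
      rw [LinearMap.mem_ker, pow_add, Module.End.mul_apply]
      exact hx
    rw [hst p] at h1
    exact h1
  have hi' : finrank 𝕜 (ker (S ^ p)) = finrank 𝕜 (V ⧸ range (S ^ p)) := by
    unfold idx at hi
    omega
  refine ⟨disjoint_iff.2 hdis, codisjoint_iff.2 ?_⟩
  let φ : ker (S ^ p) →ₗ[𝕜] (V ⧸ range (S ^ p)) :=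
    (range (S ^ p)).mkQ ∘ₗ (ker (S ^ p)).subtype
  have hφ : Function.Injective φ := by
    rw [← LinearMap.ker_eq_bot, LinearMap.ker_eq_bot']
    intro x hx
    have h1 : (x : V) ∈ range (S ^ p) := by
      rw [← Submodule.Quotient.mk_eq_zero]
      exact hx
    have h2 : (x : V) ∈ ker (S ^ p) ⊓ range (S ^ p) := ⟨x.2, h1⟩
    rw [hdis] at h2
    exact Subtype.ext h2
  have hφs : Function.Surjective φ :=
    (LinearMap.injective_iff_surjective_of_finrank_eq_finrank hi').1 hφ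
  rw [eq_top_iff]
  intro x _
  obtain ⟨y, hy⟩ := hφs (Submodule.Quotient.mk x)
  have h1 : x - y ∈ range (S ^ p) := by
    have h2 : (Submodule.Quotient.mk (y : V) : V ⧸ range (S ^ p)) = Submodule.Quotient.mk x := hy
    rw [Submodule.Quotient.eq] at h2
    have h3 := Submodule.neg_mem _ h2
    rwa [neg_sub] at h3
  exact Submodule.mem_sup.2 ⟨y, y.2, x - y, h1, by abel⟩

/-- two nested complements of the same subspace are equal -/
theorem eq_of_compl {A B C : Submodule 𝕜 V} (hB : IsCompl A B) (hC : IsCompl A C) (h : B ≤ C) :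
    B = C := by
  refine le_antisymm h ?_
  intro x hx
  obtain ⟨a, ha, b, hb, rfl⟩ := Submodule.mem_sup.1
    (show x ∈ A ⊔ B by rw [hB.sup_eq_top]; trivial)
  have h1 : a ∈ C := by
    have := C.sub_mem hx (h hb)
    simpa using this
  have h2 : a ∈ A ⊓ C := ⟨ha, h1⟩
  rw [hC.inf_eq_bot, Submodule.mem_bot] at h2
  rw [h2, zero_add]
  exact hb

theorem rieszP_of_idx {N : End 𝕜 V} (hst : ∃ p, ker ((1 - N) ^ p) = ker ((1 - N) ^ (p + 1)))
    (hidx : ∀ k : ℕ, FinIdx ((1 - N) ^ k : V →ₗ[𝕜] V) ∧ idx ((1 - N) ^ k : V →ₗ[𝕜] V) = 0) :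
    RieszP N := by
  obtain ⟨p, hp⟩ := hst
  have h0 := ker_pow_stable (1 - N) hp
  have h1 : ∀ j, ker ((1 - N) ^ (p + 1 + j)) = ker ((1 - N) ^ (p + 1)) := by
    intro j
    rw [add_assoc, h0, h0]
  have h2 : ∀ j, IsCompl (ker ((1 - N) ^ (p + 1 + j))) (range ((1 - N) ^ (p + 1 + j))) := by
    intro j
    refine isCompl_of_idx (fun i => ?_) (hidx _).1 (hidx _).2
    rw [add_assoc, h1, h1]
  refine ⟨p + 1, by omega, (hidx (p + 1)).1.1, h1, fun j => ?_, h2 0⟩
  refine eq_of_compl (A := ker ((1 - N) ^ (p + 1))) ?_ (h2 0) (range_pow_anti _ (by omega))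
  have := h2 j
  rwa [h1 j] at this

end alg

section scale

variable {𝕜 V : Type*} [RCLike 𝕜] [AddCommGroup V] [Module 𝕜 V] {S : Scale 𝕜 V}

theorem exists_pow_neg {N : V →ₗ[𝕜] V} (hN : Neg S S N) (k : ℕ) :
    ∃ K : V →ₗ[𝕜] V, Neg S S K ∧ ((1 - N : End 𝕜 V)) ^ k = 1 - K := by
  induction k with
  | zero => exact ⟨0, Neg.zero, by simp⟩
  | succ k ih =>
    obtain ⟨K, hK, h⟩ := ih
    refine ⟨N + (K - K ∘ₗ N), hN.add (hK.sub (hK.comp_right hN.op0)), ?_⟩
    rw [pow_succ, h]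
    change (1 - K) * (1 - N) = 1 - (N + (K - K * N))
    noncomm_ring

/-- the ascent is finite -/
theorem exists_ker_stable_neg {N : V →ₗ[𝕜] V} (hN : Neg S S N) :
    ∃ p : ℕ, ker ((1 - N : End 𝕜 V) ^ p) = ker ((1 - N : End 𝕜 V) ^ (p + 1)) := by
  by_contra hcon
  push Not at hcon
  let i1 : NormedAddCommGroup V := AddGroupNorm.toNormedAddCommGroup
    { toFun := S.nrm 0
      map_zero' := map_zero _
      add_le' := map_add_le_add _
      neg' := map_neg_eq_map _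
      eq_zero_of_map_eq_zero' := fun v hv => S.eq_zero v hv }
  have hnorm : ∀ v : V, ‖v‖ = S.nrm 0 v := fun v => rfl
  let i2 : NormedSpace 𝕜 V := ⟨fun c v => by
    rw [hnorm, hnorm]; exact (map_smul_eq_mul (S.nrm 0) c v).le⟩
  obtain ⟨c, hc⟩ := NormedField.exists_one_lt_norm 𝕜
  have hfd : ∀ k : ℕ, FiniteDimensional 𝕜 (ker ((1 - N : End 𝕜 V) ^ k)) := by
    intro k
    obtain ⟨K, hK, h⟩ := exists_pow_neg hN k
    rw [h]
    exact (finIdx_one_sub_neg hK).1.1
  have hx : ∀ n : ℕ, ∃ x ∈ ker ((1 - N : End 𝕜 V) ^ (n + 1)), ‖x‖ ≤ ‖c‖ + 1 ∧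
      ∀ y ∈ ker ((1 - N : End 𝕜 V) ^ n), 1 ≤ ‖x - y‖ := by
    intro n
    have hcl : IsClosed (ker ((1 - N : End 𝕜 V) ^ n) : Set V) := by
      have := hfd n
      exact Submodule.closed_of_finiteDimensional _
    have h₁ : IsClosed ((ker ((1 - N : End 𝕜 V) ^ n)).comap
        (ker ((1 - N : End 𝕜 V) ^ (n + 1))).subtype :
        Set (ker ((1 - N : End 𝕜 V) ^ (n + 1)))) := by
      simpa using! hcl.preimage_val
    have h₂ : ∃ x : ker ((1 - N : End 𝕜 V) ^ (n + 1)), x ∉ (ker ((1 - N : End 𝕜 V) ^ n)).comap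
        (ker ((1 - N : End 𝕜 V) ^ (n + 1))).subtype := by
      by_contra h
      push Not at h
      apply hcon n
      refine le_antisymm (ker_pow_mono _ (Nat.le_succ n)) ?_
      intro x hx
      exact h ⟨x, hx⟩
    obtain ⟨⟨x, hx⟩, hxn, hxy⟩ := riesz_lemma_of_norm_lt hc (R := ‖c‖ + 1) (by simp) h₁ h₂
    simp only [Submodule.mem_comap, Submodule.subtype_apply, Subtype.forall] at hxy
    refine ⟨x, hx, by simpa using! hxn, fun y hy => ?_⟩
    simpa using! hxy y (ker_pow_mono _ (Nat.le_succ n) hy) hy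
  choose f hf_mem hf_norm hf_far using hx
  have hS : ∀ n, (1 - N : End 𝕜 V) (f n) ∈ ker ((1 - N : End 𝕜 V) ^ n) := by
    intro n
    rw [LinearMap.mem_ker, ← Module.End.mul_apply, ← pow_succ]
    exact hf_mem n
  have hT' : ∀ x : V, N x = x - (1 - N : End 𝕜 V) x := by
    intro x
    simp
  have hp : ∀ m n : ℕ, m < n → 1 ≤ ‖N (f n) - N (f m)‖ := by
    intro m n hmn
    have h1 : N (f n) - N (f m)
        = f n - ((1 - N : End 𝕜 V) (f n) + (f m - (1 - N : End 𝕜 V) (f m))) := by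
      rw [hT', hT']
      abel
    rw [h1]
    apply hf_far
    refine Submodule.add_mem _ (hS n) (Submodule.sub_mem _ ?_ ?_)
    · exact ker_pow_mono _ (by omega) (hf_mem m)
    · exact ker_pow_mono _ (by omega) (hS m)
  -- finite rank approximation
  have hR : 0 < ‖c‖ + 1 := by positivity
  obtain ⟨F, hF, hF'⟩ := hN.2 (1 / (4 * (‖c‖ + 1))) (by positivity)
  obtain ⟨D, hD0, hD⟩ := exists_nonneg_const (hF.2 0)
  have := hF.1
  have hprop : ProperSpace (range F) := FiniteDimensional.proper_rclike 𝕜 (range F)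
  have hfar : ∀ m n : ℕ, m < n → 1 / 2 ≤ ‖F (f n) - F (f m)‖ := by
    intro m n hmn
    have h1 := hp m n hmn
    have h2 : N (f n) - N (f m) = (F (f n) - F (f m)) + (N (f n - f m) - F (f n - f m)) := by
      rw [map_sub, map_sub]; abel
    have h3 : ‖N (f n - f m) - F (f n - f m)‖ ≤ 1 / 2 := by
      rw [hnorm]
      refine (hF' _).trans ?_
      have h4 : S.nrm 0 (f n - f m) ≤ 2 * (‖c‖ + 1) := by
        refine (map_sub_le_add _ _ _).trans ?_
        have h5 := hf_norm n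
        have h6 := hf_norm m
        rw [hnorm] at h5 h6
        linarith
      calc 1 / (4 * (‖c‖ + 1)) * S.nrm 0 (f n - f m)
          ≤ 1 / (4 * (‖c‖ + 1)) * (2 * (‖c‖ + 1)) :=
            mul_le_mul_of_nonneg_left h4 (by positivity)
        _ = 1 / 2 := by field_simp; norm_num
    have h4 : ‖N (f n) - N (f m)‖ ≤ ‖F (f n) - F (f m)‖ + ‖N (f n - f m) - F (f n - f m)‖ := by
      rw [h2]; exact norm_add_le _ _
    linarith
  let g : ℕ → range F := fun n => ⟨F (f n), ⟨f n, rfl⟩⟩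
  have hg : ∀ n, g n ∈ Metric.closedBall (0 : range F) (D * (‖c‖ + 1)) := by
    intro n
    rw [mem_closedBall_zero_iff]
    change ‖F (f n)‖ ≤ _
    rw [hnorm]
    refine (hD _).trans (mul_le_mul_of_nonneg_left ?_ hD0)
    have := hf_norm n
    rwa [hnorm] at this
  obtain ⟨y, _, ψ, hψ, hψy⟩ := (isCompact_closedBall (0 : range F) _).tendsto_subseq hg
  replace hψy := hψy.cauchySeq
  rw [Metric.cauchySeq_iff'] at hψy
  obtain ⟨M, hM⟩ := hψy (1 / 2) (by norm_num)
  have h1 : ‖g (ψ (M + 1)) - g (ψ M)‖ < 1 / 2 := by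
    simpa [dist_eq_norm_sub] using hM (M + 1) (Nat.le_succ M)
  have h2 : ‖F (f (ψ (M + 1))) - F (f (ψ M))‖ < 1 / 2 := h1
  exact absurd (hfar (ψ M) (ψ (M + 1)) (hψ (Nat.lt_succ_self M))) (not_le.2 h2)

/-- **Riesz property on a scale** -/
theorem rieszP_of_neg {N : V →ₗ[𝕜] V} (hN : Neg S S N) : RieszP (N : End 𝕜 V) := by
  refine rieszP_of_idx (exists_ker_stable_neg hN) (fun k => ?_)
  obtain ⟨K, hK, h⟩ := exists_pow_neg hN k
  rw [h]
  exact finIdx_one_sub_neg hK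

end scale

end Crest.Agent.R275.Ser940
end

-- ▼ part R275/Ser3_940
section

/-!
# R275, C6 = Serre duality, part 3 (helper940): the abstract duality theorem

`SD 𝕜 V W` : total spaces `V`, `W` of smooth sections (all degrees), differentials `d`, `e`,
homotopies `K`, `M`, a separating pairing `b`, with `b (d v) w = b v (e w)`,
`b (K v) w = b v (M w)`, and the Riesz property of `1 - (d K + K d)` and `1 - (e M + M e)`.

* `SD.mem_range_d_iff` : `z ∈ range d ↔ ∀ w ∈ ker e, b z w = 0`;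
* `SD.finite_H` : `ker d / range d` is finite dimensional;
* `SD.finrank_H` : `dim ker d / range d = dim ker e / range e`;
* `Gr` : gradings by commuting projections, and the same statements degree by degree.
-/

set_option autoImplicit false

namespace Crest.Agent.R275.Ser940

open Module LinearMap Submodule Topology

/-- duality data -/
structure SD (𝕜 V W : Type*) [Field 𝕜] [AddCommGroup V] [Module 𝕜 V] [AddCommGroup W]
    [Module 𝕜 W] where
  d : End 𝕜 V
  K : End 𝕜 V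
  e : End 𝕜 W
  M : End 𝕜 W
  b : V →ₗ[𝕜] W →ₗ[𝕜] 𝕜
  dd : ∀ v, d (d v) = 0
  sepV : ∀ v, (∀ w, b v w = 0) → v = 0
  sepW : ∀ w, (∀ v, b v w = 0) → w = 0
  bd : ∀ v w, b (d v) w = b v (e w)
  bK : ∀ v w, b (K v) w = b v (M w)
  rV : RieszP (1 - (d * K + K * d))
  rW : RieszP (1 - (e * M + M * e))

namespace SD

variable {𝕜 V W : Type*} [Field 𝕜] [AddCommGroup V] [Module 𝕜 V] [AddCommGroup W] [Module 𝕜 W]
  (D : SD 𝕜 V W)

theorem ee (w : W) : D.e (D.e w) = 0 := by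
  apply D.sepW
  intro v
  rw [← D.bd, ← D.bd, D.dd, map_zero, LinearMap.zero_apply]

/-- the roles of the two sides exchanged -/
def swap : SD 𝕜 W V where
  d := D.e
  K := D.M
  e := D.d
  M := D.K
  b := D.b.flip
  dd := D.ee
  sepV := fun w h => D.sepW w fun v => h v
  sepW := fun v h => D.sepV v fun w => h w
  bd := fun w v => (D.bd v w).symm
  bK := fun w v => (D.bK v w).symm
  rV := D.rW
  rW := D.rV

/-- `S = d K + K d` -/
def S : End 𝕜 V := D.d * D.K + D.K * D.d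

/-- `S' = e M + M e` -/
def S' : End 𝕜 W := D.e * D.M + D.M * D.e

theorem S_apply (v : V) : D.S v = D.d (D.K v) + D.K (D.d v) := rfl

theorem S'_apply (w : W) : D.S' w = D.e (D.M w) + D.M (D.e w) := rfl

theorem b_S (v : V) (w : W) : D.b (D.S v) w = D.b v (D.S' w) := by
  rw [S_apply, S'_apply, map_add, LinearMap.add_apply, map_add, D.bd, D.bK, D.bK, D.bd]
  ring

theorem b_S_pow (k : ℕ) (v : V) (w : W) : D.b ((D.S ^ k) v) w = D.b v ((D.S' ^ k) w) := by
  induction k generalizing v w with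
  | zero => rfl
  | succ k ih =>
    rw [pow_succ, Module.End.mul_apply, ih, pow_succ', Module.End.mul_apply, b_S]

theorem d_S (v : V) : D.d (D.S v) = D.S (D.d v) := by
  rw [S_apply, S_apply, map_add, D.dd, D.dd, map_zero, zero_add, add_zero]

theorem d_S_pow (k : ℕ) (v : V) : D.d ((D.S ^ k) v) = (D.S ^ k) (D.d v) := by
  induction k generalizing v with
  | zero => rfl
  | succ k ih => rw [pow_succ, Module.End.mul_apply, ih, d_S, ← Module.End.mul_apply, ← pow_succ]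

theorem one_sub : (1 : End 𝕜 V) - (1 - (D.d * D.K + D.K * D.d)) = D.S := by
  unfold S; abel

theorem one_sub' : (1 : End 𝕜 W) - (1 - (D.e * D.M + D.M * D.e)) = D.S' := by
  unfold S'; abel

/-- a common exponent -/
theorem exists_p : ∃ p : ℕ, 1 ≤ p ∧ FiniteDimensional 𝕜 (ker (D.S ^ p)) ∧
    FiniteDimensional 𝕜 (ker (D.S' ^ p)) ∧
    IsCompl (ker (D.S ^ p)) (range (D.S ^ p)) ∧ IsCompl (ker (D.S' ^ p)) (range (D.S' ^ p)) := by
  obtain ⟨p, hp1, hpf, hpk, hpr, hpc⟩ := D.rV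
  obtain ⟨q, hq1, hqf, hqk, hqr, hqc⟩ := D.rW
  rw [one_sub] at hpf hpc
  rw [one_sub'] at hqf hqc
  simp only [one_sub] at hpk hpr
  simp only [one_sub'] at hqk hqr
  refine ⟨p + q, by omega, ?_, ?_, ?_, ?_⟩
  · rw [hpk]; exact hpf
  · rw [add_comm, hqk]; exact hqf
  · rw [hpk, hpr]; exact hpc
  · rw [add_comm, hqk, hqr]; exact hqc

variable {D}

/-- closed elements in `range S^p` are exact -/
theorem exact_of_range {p : ℕ} (hp1 : 1 ≤ p) (hpc : IsCompl (ker (D.S ^ p)) (range (D.S ^ p)))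
    {y : V} (hy : y ∈ range (D.S ^ p)) (hdy : D.d y = 0) : y ∈ range D.d := by
  obtain ⟨g, rfl⟩ := hy
  obtain ⟨a, ha, c, hc, rfl⟩ := Submodule.mem_sup.1
    (show g ∈ ker (D.S ^ p) ⊔ range (D.S ^ p) by rw [hpc.sup_eq_top]; trivial)
  rw [map_add, LinearMap.mem_ker.1 ha, zero_add] at hdy ⊢
  have hdc : D.d c = 0 := by
    have h1 : D.d c ∈ range (D.S ^ p) := by
      obtain ⟨h, rfl⟩ := hc
      exact ⟨D.d h, (D.d_S_pow p h).symm⟩
    have h2 : D.d c ∈ ker (D.S ^ p) := by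
      rw [LinearMap.mem_ker, ← d_S_pow]; exact hdy
    have h3 : D.d c ∈ ker (D.S ^ p) ⊓ range (D.S ^ p) := ⟨h2, h1⟩
    rwa [hpc.inf_eq_bot, Submodule.mem_bot] at h3
  obtain ⟨q, rfl⟩ := Nat.exists_eq_add_of_le' hp1
  set u := (D.S ^ q) c with hu
  have hdu : D.d u = 0 := by rw [hu, d_S_pow, hdc, map_zero]
  have h1 : (D.S ^ (q + 1)) c = D.S u := by
    rw [pow_succ', Module.End.mul_apply]
  rw [h1, S_apply, hdu, map_zero, add_zero]
  exact ⟨D.K u, rfl⟩

/-- decomposition of a closed element -/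
theorem closed_decomp {p : ℕ} (hp1 : 1 ≤ p) (hpc : IsCompl (ker (D.S ^ p)) (range (D.S ^ p)))
    {z : V} (hz : D.d z = 0) : ∃ x ∈ ker (D.S ^ p), ∃ y ∈ range (D.S ^ p), x + y = z ∧
      D.d x = 0 ∧ D.d y = 0 ∧ y ∈ range D.d := by
  obtain ⟨x, hx, y, hy, rfl⟩ := Submodule.mem_sup.1
    (show z ∈ ker (D.S ^ p) ⊔ range (D.S ^ p) by rw [hpc.sup_eq_top]; trivial)
  have h1 : D.d x ∈ ker (D.S ^ p) := by
    rw [LinearMap.mem_ker, ← d_S_pow, LinearMap.mem_ker.1 hx, map_zero]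
  have h2 : D.d y ∈ range (D.S ^ p) := by
    obtain ⟨h, rfl⟩ := hy
    exact ⟨D.d h, (D.d_S_pow p h).symm⟩
  rw [map_add] at hz
  have h3 : D.d x ∈ range (D.S ^ p) := by
    rw [eq_neg_of_add_eq_zero_left hz]; exact Submodule.neg_mem _ h2
  have h4 : D.d x = 0 := by
    have : D.d x ∈ ker (D.S ^ p) ⊓ range (D.S ^ p) := ⟨h1, h3⟩
    rwa [hpc.inf_eq_bot, Submodule.mem_bot] at this
  have h5 : D.d y = 0 := by rw [h4, zero_add] at hz; exact hz
  exact ⟨x, hx, y, hy, rfl, h4, h5, exact_of_range hp1 hpc hy h5⟩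

/-- separation on a finite dimensional subspace gives representation of functionals -/
theorem exists_rep {E : Submodule 𝕜 W} [FiniteDimensional 𝕜 E] (φ : E →ₗ[𝕜] 𝕜) :
    ∃ v : V, ∀ w : E, D.b v w = φ w := by
  let r : V →ₗ[𝕜] Dual 𝕜 E := (Submodule.subtype E).dualMap ∘ₗ D.b
  have hr : range r = ⊤ := by
    by_contra hne
    obtain ⟨ψ, hψ, hψ0⟩ := Submodule.exists_le_ker_of_lt_top (range r)
      (lt_of_le_of_ne le_top hne)
    -- ψ : Dual (Dual E), comes from `w : E`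
    obtain ⟨w, rfl⟩ := (Module.evalEquiv 𝕜 E).surjective ψ
    have h1 : (w : W) = 0 := by
      apply D.sepW
      intro v
      have h2 : r v ∈ range r := ⟨v, rfl⟩
      have h3 := hψ0 h2
      rw [LinearMap.mem_ker] at h3
      exact h3
    have h2 : w = 0 := Subtype.ext h1
    rw [h2, map_zero] at hψ
    exact hψ rfl
  obtain ⟨v, hv⟩ := LinearMap.range_eq_top.1 hr φ
  exact ⟨v, fun w => by rw [← hv]; rfl⟩

variable (D)

/-- **duality**: `z` is exact iff it is orthogonal to all closed elements of the other side -/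
theorem mem_range_d_iff (z : V) : z ∈ range D.d ↔ ∀ w, D.e w = 0 → D.b z w = 0 := by
  constructor
  · rintro ⟨v, rfl⟩ w hw
    rw [D.bd, hw, map_zero]
  intro h
  obtain ⟨p, hp1, hfV, hfW, hcV, hcW⟩ := D.exists_p
  have hdz : D.d z = 0 := by
    apply D.sepV
    intro w
    rw [D.bd]
    exact h _ (D.ee w)
  -- the functional `b z` on `E' = ker S'^p` factors through `e`
  let E' := ker (D.S' ^ p)
  let F : Submodule 𝕜 W := E'.map D.e
  have hfF : FiniteDimensional 𝕜 F := inferInstance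
  let eE : E' →ₗ[𝕜] F := (D.e.domRestrict E').codRestrict F
    (fun w => Submodule.mem_map_of_mem w.2)
  have heE : Function.Surjective eE := by
    rintro ⟨_, w, hw, rfl⟩
    exact ⟨⟨w, hw⟩, rfl⟩
  have hker : ker eE ≤ ker ((D.b z).domRestrict E') := by
    intro w hw
    have h1 : D.e (w : W) = 0 := congrArg Subtype.val (LinearMap.mem_ker.1 hw)
    exact h _ h1
  obtain ⟨g, hg⟩ := eE.exists_rightInverse_of_surjective (LinearMap.range_eq_top.2 heE)
  let φ : F →ₗ[𝕜] 𝕜 := ((D.b z).domRestrict E') ∘ₗ g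
  have hφ : ∀ w : E', φ (eE w) = D.b z w := by
    intro w
    have h1 : g (eE w) - w ∈ ker eE := by
      rw [LinearMap.mem_ker, map_sub, sub_eq_zero]
      exact LinearMap.congr_fun hg (eE w)
    have h2 := hker h1
    rw [LinearMap.mem_ker, map_sub, sub_eq_zero] at h2
    exact h2
  obtain ⟨v0, hv0⟩ := exists_rep (D := D) φ
  -- replace `z`
  have hz'1 : ∀ w ∈ E', D.b (z - D.d v0) w = 0 := by
    intro w hw
    rw [map_sub, LinearMap.sub_apply, D.bd]
    have h1 := hv0 (eE ⟨w, hw⟩)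
    rw [hφ] at h1
    have h2 : ((eE ⟨w, hw⟩ : F) : W) = D.e w := rfl
    rw [h2] at h1
    rw [h1, sub_self]
  have hz'2 : D.d (z - D.d v0) = 0 := by rw [map_sub, hdz, D.dd, sub_zero]
  obtain ⟨x, hx, y, hy, hxy, -, -, hyd⟩ := closed_decomp hp1 hcV hz'2
  have hx0 : x = 0 := by
    apply D.sepV
    intro w
    obtain ⟨a, ha, c, ⟨c', rfl⟩, rfl⟩ := Submodule.mem_sup.1
      (show w ∈ ker (D.S' ^ p) ⊔ range (D.S' ^ p) by rw [hcW.sup_eq_top]; trivial)
    rw [map_add]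
    have h1 : D.b x ((D.S' ^ p) c') = 0 := by
      rw [← b_S_pow, LinearMap.mem_ker.1 hx, map_zero, LinearMap.zero_apply]
    have h2 : D.b y a = 0 := by
      obtain ⟨y', rfl⟩ := hy
      rw [b_S_pow, LinearMap.mem_ker.1 ha, map_zero]
    have h3 : D.b x a = 0 := by
      have := hz'1 a ha
      rw [← hxy, map_add, LinearMap.add_apply, h2, add_zero] at this
      exact this
    rw [h1, h3, add_zero]
  rw [hx0, zero_add] at hxy
  obtain ⟨u, hu⟩ := hyd
  refine ⟨u + v0, ?_⟩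
  rw [map_add, hu, hxy]
  abel

/-- `ker d` is spanned by a finite dimensional space and `range d` -/
theorem exists_fin : ∃ E : Submodule 𝕜 V, FiniteDimensional 𝕜 E ∧ ker D.d ≤ E ⊔ range D.d := by
  obtain ⟨p, hp1, hfV, hfW, hcV, hcW⟩ := D.exists_p
  refine ⟨ker (D.S ^ p), hfV, fun z hz => ?_⟩
  obtain ⟨x, hx, y, _, hxy, -, -, hyd⟩ := closed_decomp hp1 hcV (LinearMap.mem_ker.1 hz)
  exact Submodule.mem_sup.2 ⟨x, hx, y, hyd, hxy⟩

/-- cohomology of the total complex -/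
abbrev H : Type _ := (ker D.d) ⧸ (range D.d).submoduleOf (ker D.d)

theorem range_le_ker : range D.d ≤ ker D.d := by
  rintro _ ⟨v, rfl⟩
  exact D.dd v

end SD

/-- gradings by projections -/
structure Gr {𝕜 V W : Type*} [Field 𝕜] [AddCommGroup V] [Module 𝕜 V] [AddCommGroup W]
    [Module 𝕜 W] (D : SD 𝕜 V W) where
  π : ℕ → End 𝕜 V
  ρ : ℕ → End 𝕜 W
  idem : ∀ q v, π q (π q v) = π q v
  dπ : ∀ q v, D.d (π q v) = π (q + 1) (D.d v)
  π0 : ∀ v, π 0 (D.d v) = 0
  bπ : ∀ q v w, D.b (π q v) w = D.b v (ρ q w)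

namespace Gr

variable {𝕜 V W : Type*} [Field 𝕜] [AddCommGroup V] [Module 𝕜 V] [AddCommGroup W] [Module 𝕜 W]
  {D : SD 𝕜 V W} (G : Gr D)

theorem idem' (q : ℕ) (w : W) : G.ρ q (G.ρ q w) = G.ρ q w := by
  rw [← sub_eq_zero]
  apply D.sepW
  intro v
  rw [map_sub, ← G.bπ, ← G.bπ, G.idem, G.bπ, sub_self]

theorem eρ (q : ℕ) (w : W) : D.e (G.ρ (q + 1) w) = G.ρ q (D.e w) := by
  rw [← sub_eq_zero]
  apply D.sepW
  intro v
  rw [map_sub, ← D.bd, ← G.bπ, ← G.dπ, D.bd, G.bπ, sub_self]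

theorem eρ0 (w : W) : D.e (G.ρ 0 w) = 0 := by
  apply D.sepW
  intro v
  rw [← D.bd, ← G.bπ, G.π0, map_zero, LinearMap.zero_apply]

theorem d_of_mem {q : ℕ} {z : V} (hz : D.d z = 0) : D.d (G.π q z) = 0 := by
  rw [G.dπ, hz, map_zero]

theorem e_of_mem (q : ℕ) {w : W} (hw : D.e w = 0) : D.e (G.ρ q w) = 0 := by
  cases q with
  | zero => exact G.eρ0 w
  | succ q => rw [G.eρ, hw, map_zero]

/-- **duality in degree `q`** -/
theorem mem_range_d_iff {q : ℕ} {z : V} (hz : G.π q z = z) :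
    z ∈ range D.d ↔ ∀ w, D.e w = 0 → G.ρ q w = w → D.b z w = 0 := by
  rw [D.mem_range_d_iff]
  constructor
  · intro h w hw _
    exact h w hw
  · intro h w hw
    rw [← hz, G.bπ]
    exact h (G.ρ q w) (G.e_of_mem q hw) (G.idem' q w)

theorem mem_range_e_iff {q : ℕ} {w : W} (hw : G.ρ q w = w) :
    w ∈ range D.e ↔ ∀ z, D.d z = 0 → G.π q z = z → D.b z w = 0 := by
  have h0 : w ∈ range D.e ↔ ∀ z, D.d z = 0 → D.b z w = 0 := D.swap.mem_range_d_iff w
  rw [h0]
  constructor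
  · intro h z hz _
    exact h z hz
  · intro h z hz
    rw [← hw, ← G.bπ]
    exact h (G.π q z) (G.d_of_mem hz) (G.idem q z)



theorem exists_e {q : ℕ} {w : W} (hw : G.ρ q w = w) (h : w ∈ range D.e) :
    ∃ v, G.ρ (q + 1) v = v ∧ D.e v = w := by
  obtain ⟨v, rfl⟩ := h
  exact ⟨G.ρ (q + 1) v, G.idem' _ v, by rw [G.eρ, hw]⟩

/-- closed elements of degree `q` -/
def Z (q : ℕ) : Submodule 𝕜 V := ker D.d ⊓ ker (G.π q - 1)

/-- exact elements of degree `q` -/
def B (q : ℕ) : Submodule 𝕜 V := range D.d ⊓ ker (G.π q - 1)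

/-- closed elements of degree `q`, other side -/
def Z' (q : ℕ) : Submodule 𝕜 W := ker D.e ⊓ ker (G.ρ q - 1)

/-- exact elements of degree `q`, other side -/
def B' (q : ℕ) : Submodule 𝕜 W := range D.e ⊓ ker (G.ρ q - 1)

theorem mem_Z {q : ℕ} {z : V} : z ∈ G.Z q ↔ D.d z = 0 ∧ G.π q z = z := by
  unfold Z
  rw [Submodule.mem_inf, LinearMap.mem_ker, LinearMap.mem_ker, LinearMap.sub_apply,
    Module.End.one_apply, sub_eq_zero]

theorem mem_B {q : ℕ} {z : V} : z ∈ G.B q ↔ z ∈ range D.d ∧ G.π q z = z := by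
  unfold B
  rw [Submodule.mem_inf, LinearMap.mem_ker, LinearMap.sub_apply,
    Module.End.one_apply, sub_eq_zero]

theorem mem_Z' {q : ℕ} {z : W} : z ∈ G.Z' q ↔ D.e z = 0 ∧ G.ρ q z = z := by
  unfold Z'
  rw [Submodule.mem_inf, LinearMap.mem_ker, LinearMap.mem_ker, LinearMap.sub_apply,
    Module.End.one_apply, sub_eq_zero]

theorem mem_B' {q : ℕ} {z : W} : z ∈ G.B' q ↔ z ∈ range D.e ∧ G.ρ q z = z := by
  unfold B'
  rw [Submodule.mem_inf, LinearMap.mem_ker, LinearMap.sub_apply,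
    Module.End.one_apply, sub_eq_zero]

theorem B_le_Z (q : ℕ) : G.B q ≤ G.Z q := by
  intro z hz
  rw [mem_B] at hz
  rw [mem_Z]
  exact ⟨D.range_le_ker hz.1, hz.2⟩

theorem B'_le_Z' (q : ℕ) : G.B' q ≤ G.Z' q := by
  intro z hz
  rw [mem_B'] at hz
  rw [mem_Z']
  exact ⟨D.swap.range_le_ker hz.1, hz.2⟩

/-- cohomology in degree `q` -/
abbrev H (q : ℕ) : Type _ := (G.Z q) ⧸ (G.B q).submoduleOf (G.Z q)

/-- cohomology in degree `q`, other side -/
abbrev H' (q : ℕ) : Type _ := (G.Z' q) ⧸ (G.B' q).submoduleOf (G.Z' q)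

/-- if `Z ≤ E + B`, `E` finite dimensional, `B ≤ Z` then `Z / B` is finite dimensional -/
theorem finite_quot {U : Type*} [AddCommGroup U] [Module 𝕜 U] {Z B E : Submodule 𝕜 U}
    [FiniteDimensional 𝕜 E] (hB : B ≤ Z) (h : Z ≤ E ⊔ B) :
    FiniteDimensional 𝕜 (Z ⧸ B.submoduleOf Z) := by
  have hfin : FiniteDimensional 𝕜 (E ⊓ Z : Submodule 𝕜 U) :=
    Submodule.finiteDimensional_of_le (inf_le_left : E ⊓ Z ≤ E)
  let f : (E ⊓ Z : Submodule 𝕜 U) →ₗ[𝕜] (Z ⧸ B.submoduleOf Z) :=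
    (B.submoduleOf Z).mkQ ∘ₗ Submodule.inclusion inf_le_right
  have hf : Function.Surjective f := by
    intro y
    obtain ⟨⟨z, hz⟩, rfl⟩ := Submodule.mkQ_surjective _ y
    obtain ⟨x, hx, b, hb, rfl⟩ := Submodule.mem_sup.1 (h hz)
    have hxZ : x ∈ Z := by
      have := Z.sub_mem hz (hB hb)
      simpa using this
    refine ⟨⟨x, hx, hxZ⟩, ?_⟩
    change Submodule.Quotient.mk _ = Submodule.Quotient.mk _
    rw [Submodule.Quotient.eq]
    change x - (x + b) ∈ B
    have : x - (x + b) = -b := by abel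
    rw [this]
    exact B.neg_mem hb
  exact Module.Finite.of_surjective f hf

instance finite_H (q : ℕ) : FiniteDimensional 𝕜 (G.H q) := by
  obtain ⟨E, hE, h⟩ := D.exists_fin
  -- project `E` to degree `q`
  have hE' : FiniteDimensional 𝕜 (E.map (G.π q)) := inferInstance
  refine finite_quot (E := E.map (G.π q)) (G.B_le_Z q) ?_
  intro z hz
  rw [mem_Z] at hz
  obtain ⟨x, hx, b, hb, hxb⟩ := Submodule.mem_sup.1 (h (LinearMap.mem_ker.2 hz.1))
  refine Submodule.mem_sup.2 ⟨G.π q x, Submodule.mem_map_of_mem hx, G.π q b, ?_, ?_⟩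
  · rw [mem_B]
    refine ⟨?_, G.idem q b⟩
    obtain ⟨v, rfl⟩ := hb
    cases q with
    | zero => rw [G.π0]; exact Submodule.zero_mem _
    | succ q => exact ⟨G.π q v, G.dπ q v⟩
  · rw [← map_add, hxb, hz.2]

instance finite_H' (q : ℕ) : FiniteDimensional 𝕜 (G.H' q) := by
  obtain ⟨E, hE, h⟩ := D.swap.exists_fin
  have hE' : FiniteDimensional 𝕜 (E.map (G.ρ q)) := inferInstance
  refine finite_quot (E := E.map (G.ρ q)) (G.B'_le_Z' q) ?_
  intro z hz
  rw [mem_Z'] at hz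
  obtain ⟨x, hx, b, hb, hxb⟩ := Submodule.mem_sup.1 (h (LinearMap.mem_ker.2 hz.1))
  refine Submodule.mem_sup.2 ⟨G.ρ q x, Submodule.mem_map_of_mem hx, G.ρ q b, ?_, ?_⟩
  · rw [mem_B']
    refine ⟨?_, G.idem' q b⟩
    obtain ⟨v, rfl⟩ := hb
    exact ⟨G.ρ (q + 1) v, G.eρ q v⟩
  · rw [← map_add, hxb, hz.2]

/-- a pairing with kernels `B`, `B'` gives `dim Z / B ≤ dim Z' / B'` -/
theorem finrank_le_of_pairing {U U' : Type*} [AddCommGroup U] [Module 𝕜 U] [AddCommGroup U']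
    [Module 𝕜 U'] (β : U →ₗ[𝕜] U' →ₗ[𝕜] 𝕜) {Z B : Submodule 𝕜 U} {Z' B' : Submodule 𝕜 U'}
    (h1 : ∀ z ∈ Z, (∀ w ∈ Z', β z w = 0) → z ∈ B)
    (h2 : ∀ z ∈ Z, ∀ w ∈ B', β z w = 0) (h3 : ∀ z ∈ B, ∀ w ∈ Z', β z w = 0)
    [FiniteDimensional 𝕜 (Z' ⧸ B'.submoduleOf Z')] :
    finrank 𝕜 (Z ⧸ B.submoduleOf Z) ≤ finrank 𝕜 (Z' ⧸ B'.submoduleOf Z') := by
  -- the map `Z → Dual (Z' / B')`
  let g : Z →ₗ[𝕜] Dual 𝕜 (Z' ⧸ B'.submoduleOf Z') :=
    { toFun := fun z => (B'.submoduleOf Z').liftQ ((β z).domRestrict Z') (by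
        intro w hw
        rw [LinearMap.mem_ker]
        exact h2 z z.2 w hw)
      map_add' := fun x y => by
        apply LinearMap.ext
        intro w
        obtain ⟨w, rfl⟩ := Submodule.mkQ_surjective _ w
        simp
      map_smul' := fun c x => by
        apply LinearMap.ext
        intro w
        obtain ⟨w, rfl⟩ := Submodule.mkQ_surjective _ w
        simp }
  have hg : ∀ (z : Z) (w : Z'), g z (Submodule.Quotient.mk w) = β z w := fun z w => rfl
  let f : (Z ⧸ B.submoduleOf Z) →ₗ[𝕜] Dual 𝕜 (Z' ⧸ B'.submoduleOf Z') :=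
    (B.submoduleOf Z).liftQ g (by
      intro z hz
      rw [LinearMap.mem_ker]
      apply LinearMap.ext
      intro w
      obtain ⟨w, rfl⟩ := Submodule.mkQ_surjective _ w
      exact h3 z hz w w.2)
  have hf : Function.Injective f := by
    rw [← LinearMap.ker_eq_bot, LinearMap.ker_eq_bot']
    intro z hz
    obtain ⟨z, rfl⟩ := Submodule.mkQ_surjective _ z
    rw [Submodule.mkQ_apply, Submodule.Quotient.mk_eq_zero]
    refine h1 z z.2 fun w hw => ?_
    have := LinearMap.congr_fun hz (Submodule.Quotient.mk ⟨w, hw⟩)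
    exact this
  have h4 := LinearMap.finrank_le_finrank_of_injective hf
  rwa [Subspace.dual_finrank_eq] at h4

/-- **Serre duality, dimensions** -/
theorem finrank_H (q : ℕ) : finrank 𝕜 (G.H q) = finrank 𝕜 (G.H' q) := by
  refine le_antisymm ?_ ?_
  · refine finrank_le_of_pairing D.b ?_ ?_ ?_
    · intro z hz h
      rw [mem_Z] at hz
      rw [mem_B]
      refine ⟨(G.mem_range_d_iff hz.2).2 fun w hw hw' => h w ?_, hz.2⟩
      rw [mem_Z']; exact ⟨hw, hw'⟩
    · intro z hz w hw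
      rw [mem_Z] at hz
      rw [mem_B'] at hw
      exact (G.mem_range_e_iff hw.2).1 hw.1 z hz.1 hz.2
    · intro z hz w hw
      rw [mem_B] at hz
      rw [mem_Z'] at hw
      exact (G.mem_range_d_iff hz.2).1 hz.1 w hw.1 hw.2
  · refine finrank_le_of_pairing D.b.flip ?_ ?_ ?_
    · intro w hw h
      rw [mem_Z'] at hw
      rw [mem_B']
      refine ⟨(G.mem_range_e_iff hw.2).2 fun z hz hz' => h z ?_, hw.2⟩
      rw [mem_Z]; exact ⟨hz, hz'⟩
    · intro w hw z hz
      rw [mem_Z'] at hw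
      rw [mem_B] at hz
      exact (G.mem_range_d_iff hz.2).1 hz.1 w hw.1 hw.2
    · intro w hw z hz
      rw [mem_B'] at hw
      rw [mem_Z] at hz
      exact (G.mem_range_e_iff hw.2).1 hw.1 z hz.1 hz.2



end Gr


end Crest.Agent.R275.Ser940
end

-- ▼ part R275/SerB_398

/-!
# R275, block C6 (Serre duality): the base pairs (helper398)

* `pairLam A : FPair (conj det J) (lam2 A) (lam2 A)` : the wedge pairing of `Λ^{0,*}` in dimension 2;
* `pairV E : VPair (det J) E (K ⊗ E*)`;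
* `dualB E`, `pairE E : DPair (tw (lam2 A) E) (tw (lam2 A) (K ⊗ E*))`.
-/

set_option autoImplicit false
set_option linter.unusedSectionVars false
set_option linter.unusedSimpArgs false

open Set Filter Topology Complex MeasureTheory
open scoped ContDiff Matrix ComplexConjugate Kronecker

namespace Crest.Agent.R275.SerG398

open Geo Tor812 Lam2130

noncomputable section

/-- the wedge pairing on `Λ^{0,*}` (with the sign of the parity operator) -/
def S0 : Matrix (Fin 4) (Fin 4) ℂ := !![0, 0, 0, 1; 0, 0, -1, 0; 0, 1, 0, 0; -1, 0, 0, 0]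

theorem S0_mul_tr : S0 * S0ᵀ = 1 := by
  ext k l
  fin_cases k <;> fin_cases l <;>
    simp [S0, Matrix.mul_apply, Fin.sum_univ_four, Matrix.transpose_apply]

theorem tr_mul_S0 : S0ᵀ * S0 = 1 := by
  ext k l
  fin_cases k <;> fin_cases l <;>
    simp [S0, Matrix.mul_apply, Fin.sum_univ_four, Matrix.transpose_apply]

theorem S0_mult (m : Matrix (Fin 2) (Fin 2) ℂ) :
    (tauM m)ᵀ * S0 * tauM m = conj m.det • S0 := by
  ext k l
  fin_cases k <;> fin_cases l <;>
    simp [S0, tauM, Matrix.mul_apply, Fin.sum_univ_four, Matrix.transpose_apply,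
      Matrix.det_fin_two] <;> ring

theorem S0_e (a : Fin 2) : (eM a)ᵀ * S0 + S0 * eM a = 0 := by
  ext k l
  fin_cases a <;> fin_cases k <;> fin_cases l <;>
    simp [S0, eM, Matrix.mul_apply, Fin.sum_univ_four, Matrix.transpose_apply]

theorem S0_io (a : Fin 2) : (ioM a)ᵀ * S0 + S0 * ioM a = 0 := by
  ext k l
  fin_cases a <;> fin_cases k <;> fin_cases l <;>
    simp [S0, ioM, Matrix.mul_apply, Fin.sum_univ_four, Matrix.transpose_apply]

theorem S0_deg (k l : Fin 4) (h : S0 k l ≠ 0) : dg k + dg l = 2 := by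
  fin_cases k <;> fin_cases l <;> simp_all [S0, dg]

/-- the base pair on `Λ^{0,*}` in dimension `2` -/
def pairLam {M : Type} [TopologicalSpace M] (A : Atl 2 M) :
    FPair (fun i j x => conj (detJ A i j x)) (lam2 A) (lam2 A) where
  N := 2
  S := S0
  Si := S0ᵀ
  S_Si := S0_mul_tr
  Si_S := tr_mul_S0
  degree := S0_deg
  mult i j x _ := S0_mult (Jm A i j x)
  e_skew := S0_e
  io_skew := S0_io
  al i x _ := by
    show (0 : Matrix (Fin 4) (Fin 4) ℂ)ᵀ * S0 = S0 * (0 : Matrix (Fin 4) (Fin 4) ℂ)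
    rw [Matrix.transpose_zero, Matrix.zero_mul, Matrix.mul_zero]

variable {n : ℕ} {M : Type} [TopologicalSpace M] {A : Atl n M}

/-- the Serre dual `K ⊗ E*` -/
def KE (E : VBun A) : VBun A := VCal131.tensor (Kp A 1) (VCal131.dual E)

section kS

variable (ρ : Type) [Fintype ρ] [DecidableEq ρ]

/-- the pairing matrix `ρ × (Unit × ρ)` -/
def kS : Matrix ρ (Unit × ρ) ℂ := Matrix.of fun r s => if r = s.2 then 1 else 0

/-- its inverse -/
def kSi : Matrix (Unit × ρ) ρ ℂ := Matrix.of fun s r => if r = s.2 then 1 else 0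

theorem kS_kSi : kS ρ * kSi ρ = 1 := by
  ext r s
  by_cases h : r = s
  · subst h
    simp [kS, kSi, Matrix.mul_apply, Fintype.sum_prod_type, Matrix.one_apply]
  · simp [kS, kSi, Matrix.mul_apply, Fintype.sum_prod_type, Matrix.one_apply, h]

theorem kSi_kS : kSi ρ * kS ρ = 1 := by
  ext ⟨⟨⟩, r⟩ ⟨⟨⟩, s⟩
  by_cases h : s = r
  · subst h
    simp [kS, kSi, Matrix.mul_apply, Matrix.one_apply]
  · simp [kS, kSi, Matrix.mul_apply, Matrix.one_apply, h, Ne.symm h]

variable {ρ}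

theorem kS_mult {g h : Matrix ρ ρ ℂ} (hgh : h * g = 1) (c : ℂ) :
    gᵀ * kS ρ * ((Matrix.of fun _ _ => c : Matrix Unit Unit ℂ) ⊗ₖ hᵀ) = c • kS ρ := by
  ext r ⟨⟨⟩, s⟩
  have h1 := congrFun (congrFun hgh s) r
  rw [Matrix.mul_apply, Matrix.one_apply] at h1
  simp only [kS, Matrix.mul_apply, Fintype.sum_prod_type, Matrix.transpose_apply, Matrix.of_apply,
    mul_ite, mul_one, mul_zero, Finset.sum_ite_eq', Finset.sum_ite_eq, Finset.mem_univ, if_true,
    Finset.univ_unique,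
    Finset.sum_singleton, Matrix.kroneckerMap_apply, Matrix.smul_apply, smul_eq_mul]
  have h2 : ∑ t, g t r * (c * h s t) = c * ∑ t, h s t * g t r := by
    rw [Finset.mul_sum]
    exact Finset.sum_congr rfl fun t _ => by ring
  rw [h2, h1]
  by_cases hrs : r = s
  · simp [hrs]
  · simp [hrs, Ne.symm hrs]

theorem kS_skew (a : Matrix ρ ρ ℂ) : aᵀ * kS ρ
    + kS ρ * ((0 : Matrix Unit Unit ℂ) ⊗ₖ (1 : Matrix ρ ρ ℂ) + (1 : Matrix Unit Unit ℂ) ⊗ₖ (-aᵀ))
      = 0 := by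
  ext r ⟨⟨⟩, s⟩
  simp [kS, Matrix.mul_apply, Fintype.sum_prod_type]

end kS

/-- the canonical pairing of `E` and `K ⊗ E*` -/
def pairV (E : VBun A) : VPair (detJ A) E (KE E) where
  S := kS E.ρ
  Si := kSi E.ρ
  S_Si := kS_kSi E.ρ
  Si_S := kSi_kS E.ρ
  mult i j x hx := by
    have h := kS_mult (VCal131.g_mul_symm E (i := j) (j := i) (x := x) hx.symm) (detJ A i j x)
    have h2 : (Matrix.of fun _ _ => detJ A i j x : Matrix Unit Unit ℂ)
        = Matrix.of fun _ _ => (Lam2130.Jm A i j x).det ^ (1 : ℤ) := by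
      simp only [zpow_one]
      rfl
    rw [h2] at h
    exact h
  a_skew i b x _ := kS_skew (E.a i b x)

/-- Serre duality pair in dimension two -/
def pairE {M : Type} [TopologicalSpace M] {A : Atl 2 M} (E : VBun A) :
    DPair (Geo.tw (lam2 A) E) (Geo.tw (lam2 A) (KE E)) :=
  ((pairLam A).tw (pairV E)).congr fun i j x _ => by
    rw [dens_eq, mul_comm]

@[simp] theorem pairE_N {M : Type} [TopologicalSpace M] {A : Atl 2 M} (E : VBun A) :
    (pairE E).N = 2 := rfl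

end

end Crest.Agent.R275.SerG398
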