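import Crest.Agent.R275.TorD_812
import Crest.Agent.R275.SerG1_398
import Crest.Agent.R275.C1d_194
import Crest.Agent.R275.C1a_509

-- ▼ part R275/SerT_398
section

/-!
# R275, block C6 (Serre duality), torus part (helper398)

* `ip f g = ∫ f g` on the torus, `pT f g = ∑ k, ip (f k) (g k)` on vectors.
* transposes of `pd`, `dbar`, `ddp`, `G`, `Kop`, `opv`, `DT`, `KT`, `Gv`, `mT`, `mulS`, `smS`.
* `‖ip f g‖ ≤ nrm 0 f * nrm 0 g`, `‖pT f g‖ ≤ nrmv 0 f * nrmv 0 g`.
-/

set_option autoImplicit false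
set_option linter.unusedSectionVars false

open Set Filter Topology Complex MeasureTheory
open scoped ContDiff Matrix

namespace Crest.Agent.R275.SerG398

open Geo Tor812

noncomputable section

variable {d : Type} [Fintype d]

/-- the bilinear integral on the torus -/
def ip (f g : SPer d) : ℂ := fc (f * g) 0

theorem ip_eq_integral (f g : SPer d) : ip f g = ∫ x in box (0 : d → ℝ), f x * g x := by
  rw [ip, fc_eq_integral _ _ 0]
  refine integral_congr_ae (Eventually.of_forall fun x => ?_)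
  simp [ch]

theorem ip_comm (f g : SPer d) : ip f g = ip g f := by rw [ip, ip, mul_comm]

theorem ip_add_left (f g h : SPer d) : ip (f + g) h = ip f h + ip g h := by
  rw [ip, add_mul, fc_add]; rfl

theorem ip_add_right (f g h : SPer d) : ip f (g + h) = ip f g + ip f h := by
  rw [ip, mul_add, fc_add]; rfl

theorem ip_smul_left (c : ℂ) (f g : SPer d) : ip (c • f) g = c * ip f g := by
  rw [ip, smul_mul_assoc, fc_smul]; rfl

theorem ip_smul_right (c : ℂ) (f g : SPer d) : ip f (c • g) = c * ip f g := by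
  rw [ip, mul_smul_comm, fc_smul]; rfl

/-- `ip` as a bilinear map -/
def ipB : SPer d →ₗ[ℂ] SPer d →ₗ[ℂ] ℂ :=
  LinearMap.mk₂ ℂ ip ip_add_left (fun c f g => ip_smul_left c f g) ip_add_right
    (fun c f g => ip_smul_right c f g)

@[simp] theorem ipB_apply (f g : SPer d) : ipB f g = ip f g := rfl

theorem ip_neg_left (f g : SPer d) : ip (-f) g = - ip f g := by
  have := ip_smul_left (-1) f g
  simpa using this

theorem ip_neg_right (f g : SPer d) : ip f (-g) = - ip f g := by
  have := ip_smul_right (-1) f g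
  simpa using this

theorem ip_sub_left (f g h : SPer d) : ip (f - g) h = ip f h - ip g h := by
  rw [sub_eq_add_neg, ip_add_left, ip_neg_left, sub_eq_add_neg]

theorem ip_sub_right (f g h : SPer d) : ip f (g - h) = ip f g - ip f h := by
  rw [sub_eq_add_neg, ip_add_right, ip_neg_right, sub_eq_add_neg]

theorem ip_zero_left (g : SPer d) : ip (0 : SPer d) g = 0 := by
  have := ip_smul_left 0 (0 : SPer d) g
  simpa using this


theorem ip_sum_left {σ : Type*} (s : Finset σ) (f : σ → SPer d) (g : SPer d) :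
    ip (∑ t ∈ s, f t) g = ∑ t ∈ s, ip (f t) g := by
  classical
  induction s using Finset.induction_on with
  | empty => simp [ip_zero_left]
  | insert t s ht ih => rw [Finset.sum_insert ht, Finset.sum_insert ht, ip_add_left, ih]

theorem ip_sum_right {σ : Type*} (s : Finset σ) (f : SPer d) (g : σ → SPer d) :
    ip f (∑ t ∈ s, g t) = ∑ t ∈ s, ip f (g t) := by
  rw [ip_comm, ip_sum_left]
  exact Finset.sum_congr rfl fun t _ => ip_comm _ _


/-- integration by parts -/
theorem ip_pd (j : d) (f g : SPer d) : ip (pd j f) g = - ip f (pd j g) := by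
  have h : fc (pd j (f * g)) 0 = 0 := by rw [fc_pd]; simp
  rw [pd_mul, fc_add] at h
  exact eq_neg_of_add_eq_zero_left h

variable {n : ℕ}

theorem ip_dbar (a : Fin n) (f g : SPer (CI n)) : ip (dbar a f) g = - ip f (dbar a g) := by
  rw [dbar_apply, dbar_apply, ip_smul_left, ip_smul_right, ip_add_left, ip_add_right,
    ip_smul_left, ip_smul_right, ip_pd, ip_pd]
  ring

theorem ip_ddp (a : Fin n) (f g : SPer (CI n)) : ip (ddp a f) g = - ip f (ddp a g) := by
  rw [ddp_apply, ddp_apply, ip_smul_left, ip_smul_right, ip_sub_left, ip_sub_right,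
    ip_smul_left, ip_smul_right, ip_pd, ip_pd]
  ring

theorem ip_box' (f g : SPer (CI n)) : ip (box' f) g = ip f (box' g) := by
  rw [box'_apply, box'_apply, ip_neg_left, ip_neg_right, ip_sum_left, ip_sum_right]
  congr 1
  refine Finset.sum_congr rfl fun a _ => ?_
  rw [ip_ddp, ip_dbar, neg_neg, dbar_ddp]

theorem ip_G (f g : SPer (CI n)) : ip (G f) g = ip f (G g) := by
  conv_lhs => rw [← box'_G g]
  conv_rhs => rw [← box'_G f]
  rw [ip_add_left, ip_add_right, ip_box']

theorem ip_Kop (a : Fin n) (f g : SPer (CI n)) : ip (Kop a f) g = - ip f (Kop a g) := by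
  rw [Kop_apply, Kop_apply, ip_neg_left, ip_neg_right, ip_ddp, ip_G, ddp_G]

/-! ### Cauchy-Schwarz -/

theorem norm_ip_le (f g : SPer d) : ‖ip f g‖ ≤ nrm 0 f * nrm 0 g := by
  have hint : ∀ f : SPer d, Integrable (fun x => ‖f x‖ ^ 2) (volume.restrict (box (0 : d → ℝ))) := by
    intro f
    refine Integrable.of_bound ((ct f).norm.pow 2).aestronglyMeasurable (‖desc f‖ ^ 2)
      (Eventually.of_forall fun x => ?_)
    rw [Real.norm_of_nonneg (sq_nonneg _)]
    exact pow_le_pow_left₀ (norm_nonneg _) (bdd f x) 2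
  have hfg : Integrable (fun x => ‖f x‖ * ‖g x‖) (volume.restrict (box (0 : d → ℝ))) := by
    refine Integrable.of_bound ((ct f).norm.mul (ct g).norm).aestronglyMeasurable
      (‖desc f‖ * ‖desc g‖) (Eventually.of_forall fun x => ?_)
    rw [Real.norm_of_nonneg (mul_nonneg (norm_nonneg _) (norm_nonneg _))]
    exact mul_le_mul (bdd f x) (bdd g x) (norm_nonneg _) (norm_nonneg _)
  have h1 : ‖ip f g‖ ≤ ∫ x in box (0 : d → ℝ), ‖f x‖ * ‖g x‖ := by
    rw [ip_eq_integral]
    refine (norm_integral_le_integral_norm _).trans (le_of_eq ?_)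
    simp only [norm_mul]
  -- discriminant argument
  have h2 : ∀ t : ℝ, 0 ≤ nrm 0 g ^ 2 * (t * t) +
      (-(2 * ∫ x in box (0 : d → ℝ), ‖f x‖ * ‖g x‖)) * t + nrm 0 f ^ 2 := by
    intro t
    have h3 : 0 ≤ ∫ x in box (0 : d → ℝ), (‖f x‖ - t * ‖g x‖) ^ 2 :=
      integral_nonneg fun x => sq_nonneg _
    have h4 : (∫ x in box (0 : d → ℝ), (‖f x‖ - t * ‖g x‖) ^ 2) =
        nrm 0 g ^ 2 * (t * t) + (-(2 * ∫ x in box (0 : d → ℝ), ‖f x‖ * ‖g x‖)) * t
          + nrm 0 f ^ 2 := by
      rw [nrm_zero_sq, nrm_zero_sq, l2, l2]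
      have e : ∀ x : d → ℝ, (‖f x‖ - t * ‖g x‖) ^ 2 =
          (‖f x‖ ^ 2 + t ^ 2 * ‖g x‖ ^ 2) - 2 * t * (‖f x‖ * ‖g x‖) := fun x => by ring
      simp_rw [e]
      have i1 : Integrable (fun x => ‖f x‖ ^ 2 + t ^ 2 * ‖g x‖ ^ 2)
          (volume.restrict (box (0 : d → ℝ))) := (hint f).add ((hint g).const_mul _)
      have i2 : Integrable (fun x => 2 * t * (‖f x‖ * ‖g x‖))
          (volume.restrict (box (0 : d → ℝ))) := hfg.const_mul _
      rw [integral_sub i1 i2, integral_add (hint f) ((hint g).const_mul _), integral_const_mul,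
        integral_const_mul]
      ring
    rw [h4] at h3
    exact h3
  have h5 := discrim_le_zero h2
  rw [discrim] at h5
  have h6 : (∫ x in box (0 : d → ℝ), ‖f x‖ * ‖g x‖) ^ 2 ≤ (nrm 0 f * nrm 0 g) ^ 2 := by
    nlinarith
  have h7 : 0 ≤ nrm 0 f * nrm 0 g := mul_nonneg (nrm_nonneg _ _) (nrm_nonneg _ _)
  exact h1.trans (abs_le_of_sq_le_sq' h6 h7).2

/-! ### vectors -/

variable {κ κ' : Type} [Fintype κ] [Fintype κ']

/-- pairing of vectors of periodic functions -/
def pT (f g : κ → SPer d) : ℂ := ∑ k, ip (f k) (g k)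

theorem pT_comm (f g : κ → SPer d) : pT f g = pT g f :=
  Finset.sum_congr rfl fun _ _ => ip_comm _ _






/-- transposition of `∑ₐ mₐ ⊗ Pₐ` when the `Pₐ` are skew -/
theorem pT_opv_skew {α : Type} [Fintype α] (m : α → Matrix κ κ' ℂ)
    {P P' : α → SPer d →ₗ[ℂ] SPer d} (h : ∀ a f g, ip (P a f) g = - ip f (P' a g))
    (f : κ' → SPer d) (g : κ → SPer d) :
    pT (opv m P f) g = pT f (opv (fun a => -(m a)ᵀ) P' g) := by
  unfold pT
  simp only [opv_apply, ip_sum_left, ip_sum_right, ip_smul_left, ip_smul_right]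
  rw [Finset.sum_comm' (t' := Finset.univ) (s' := fun _ => Finset.univ) (by simp)]
  rw [Finset.sum_comm]
  simp only [Matrix.neg_apply, Matrix.transpose_apply]
  have e : ∀ k l a, m a k l * ip (P a (f l)) (g k) = -m a k l * ip (f l) (P' a (g k)) := by
    intro k l a
    rw [h]; ring
  simp only [e]
  calc ∑ y : κ, ∑ x : α, ∑ i : κ', -m x y i * ip (f i) (P' x (g y))
      = ∑ y : κ, ∑ i : κ', ∑ x : α, -m x y i * ip (f i) (P' x (g y)) :=
        Finset.sum_congr rfl fun y _ => Finset.sum_comm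
    _ = ∑ i : κ', ∑ y : κ, ∑ x : α, -m x y i * ip (f i) (P' x (g y)) := Finset.sum_comm
    _ = ∑ i : κ', ∑ x : α, ∑ y : κ, -m x y i * ip (f i) (P' x (g y)) :=
        Finset.sum_congr rfl fun i _ => Finset.sum_comm

theorem pT_KT (io : Fin n → Matrix κ κ ℂ) (f g : κ → SPer (RI n)) :
    pT (KT io f) g = pT f (KT (fun a => -(io a)ᵀ) g) :=
  pT_opv_skew io (fun a f g => ip_Kop a f g) f g





theorem pT_mT (m : Matrix κ κ' ℂ) (f : κ' → SPer (RI n)) (g : κ → SPer (RI n)) :
    pT (mT m f) g = pT f (mT mᵀ g) := by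
  unfold pT mT
  simp only [ip_sum_left, ip_sum_right, ip_smul_left, ip_smul_right, Matrix.transpose_apply]
  exact Finset.sum_comm

/-- constant matrices commute with `KT` when they intertwine -/
theorem mT_KT {io : Fin n → Matrix κ κ ℂ} {io' : Fin n → Matrix κ' κ' ℂ} {S : Matrix κ κ' ℂ}
    (h : ∀ a, io a * S = S * io' a) (f : κ' → SPer (RI n)) :
    KT io (mT S f) = mT S (KT io' f) := by
  funext k
  have h1 : ∀ a, (∑ l, io a k l • Kop a (mT S f l)) = ∑ j, (io a * S) k j • Kop a (f j) := by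
    intro a
    unfold mT
    simp only [map_sum, map_smul, Finset.smul_sum, smul_smul, Matrix.mul_apply, Finset.sum_smul]
    exact Finset.sum_comm
  have h2 : ∀ a, (∑ l, S k l • ∑ j, io' a l j • Kop a (f j))
      = ∑ j, (S * io' a) k j • Kop a (f j) := by
    intro a
    simp only [Finset.smul_sum, smul_smul, Matrix.mul_apply, Finset.sum_smul]
    exact Finset.sum_comm
  show ∑ a, (∑ l, io a k l • Kop a (mT S f l)) = ∑ l, S k l • ∑ a, ∑ j, io' a l j • Kop a (f j)
  simp only [h1, h, ← h2]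
  simp only [Finset.smul_sum]
  rw [Finset.sum_comm]

end

end Crest.Agent.R275.SerG398
end

-- ▼ part R275/SerL_398
section

/-!
# R275, block C6 (Serre duality), G4 (helper398): transposes of `loc` and `ext`

`lint A j F = ∫ F` over the chart `j` in real coordinates.

* `lint_ext_left`  : `∫_j ⟨ext_j (b, f), w⟩ = pT f (loc_j (bᵀ S, w))`.
* `lint_ext_right` : `∫_j ⟨u, ext_j (b', g)⟩ = pT (loc_j (b'ᵀ Sᵀ, u)) g`.
* `loc_mT`, `ext_mT`.
-/

set_option autoImplicit false
set_option linter.unusedSectionVars false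

open Set Filter Topology Complex MeasureTheory
open scoped ContDiff Matrix ComplexConjugate Kronecker

namespace Crest.Agent.R275.SerG398

open Geo Tor812 C1d194 TorS666

noncomputable section

variable {n : ℕ} {M : Type} [TopologicalSpace M] {A : Atl n M}

/-- integral over the chart `j` of a density component -/
def lint (A : Atl n M) (j : A.ι) (F : M → ℂ) : ℂ := ∫ x : RI n → ℝ, rd A j F x

/-- `ip f (perz F) = ∫ f F` -/
theorem ip_perz {d : Type} [Fintype d] (f : SPer d) {F : (d → ℝ) → ℂ} (h : IsCC (Qo d) F) :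
    ip f (perz F h) = ∫ x, f x * F x := by
  rw [ip_eq_integral]
  rw [setIntegral_congr_fun (g := fun x => f x * F x) (box_measurable _)
    (fun _ hx => by simp only [perz_of_box h hx])]
  refine setIntegral_eq_integral_of_forall_compl_eq_zero fun x hx => ?_
  rw [h.eq_zero fun hQ => hx (Qo_subset_box hQ), mul_zero]

theorem integrable_mul_isCC {d : Type} [Fintype d] (f : SPer d) {U : Set (d → ℝ)}
    {F : (d → ℝ) → ℂ} (h : IsCC U F) : Integrable (fun x => f x * F x) := by
  have h1 : IsCC U (fun x => F x * f x) := h.mul_SPer f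
  have h2 : Integrable (fun x => F x * f x) :=
    h1.smooth.continuous.integrable_of_hasCompactSupport h1.hasCompactSupport
  simpa [mul_comm] using h2

section
variable {κ κ' : Type} [Fintype κ] [Fintype κ']

theorem amp_mul_const {j : A.ι} {κ₀ : Type} {b : M → Matrix κ κ₀ ℂ} (hb : IsAmp A j b)
    (S : Matrix κ κ' ℂ) : IsAmp A j (fun x => (b x)ᵀ * S) := by
  have h1 : IsAmp A j (fun x => (b x)ᵀ) := by
    refine isAmp_of (fun k l => hb.sm l k) hb.cpt (isClosed_tsupport b) hb.sub ?_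
    intro x hx
    rw [amp_zero hx, Matrix.transpose_zero]
  exact isAmp_mul_right h1 (fun _ _ => contDiffOn_const)

end

variable {m : A.ι → A.ι → M → ℂ} {B B' : FBun A}

/-- transposition of `ext` -/
theorem lint_ext_left (D : FPair m B B') {j : A.ι} {κ₀ : Type} [Fintype κ₀]
    {b : M → Matrix B.κ κ₀ ℂ} (hb : IsAmp A j b) (f : κ₀ → SPer (RI n)) {w : M → B'.κ → ℂ}
    (hw : ∀ l, A.SmAt j (fun x => w x l)) :
    lint A j (fun y => ext B j b f j y ⬝ᵥ (D.S *ᵥ w y)) =
      pT f (loc A j (fun y => (b y)ᵀ * D.S) w) := by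
  have hamp := amp_mul_const hb D.S
  have h1 : ∀ l, ip (f l) (loc A j (fun y => (b y)ᵀ * D.S) w l) =
      ∫ x, f l x * rd A j (fun y => (((b y)ᵀ * D.S) *ᵥ w y) l) x := by
    intro l
    rw [loc_eq hamp hw, ip_perz]
  unfold pT
  simp only [h1]
  rw [← integral_finsetSum _ fun l _ => integrable_mul_isCC (f l) (amp_isCC hamp hw l)]
  unfold lint
  refine integral_congr_ae (Eventually.of_forall fun x => ?_)
  show rd A j _ x = ∑ l, f l x * rd A j _ x
  by_cases hx : x ∈ Ui A j
  · simp only [rd_of_mem hx]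
    rw [ext_self B j ((A.e j).map_target hx), (A.e j).right_inv hx, rc_cc]
    rw [← Matrix.mulVec_mulVec, ← Matrix.vecMul_transpose, ← Matrix.dotProduct_mulVec]
    rfl
  · simp only [rd_off hx, mul_zero, Finset.sum_const_zero]

theorem dot_symm {κ κ' : Type} [Fintype κ] [Fintype κ'] (S : Matrix κ κ' ℂ) (u : κ → ℂ)
    (w : κ' → ℂ) : u ⬝ᵥ (S *ᵥ w) = w ⬝ᵥ (Sᵀ *ᵥ u) := by
  rw [Matrix.dotProduct_mulVec, dotProduct_comm, Matrix.mulVec_transpose]

/-- transposition of `ext`, other side -/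
theorem lint_ext_right (D : FPair m B B') {j : A.ι} {κ₀ : Type} [Fintype κ₀]
    {b : M → Matrix B'.κ κ₀ ℂ} (hb : IsAmp A j b) (g : κ₀ → SPer (RI n)) {u : M → B.κ → ℂ}
    (hu : ∀ l, A.SmAt j (fun x => u x l)) :
    lint A j (fun y => u y ⬝ᵥ (D.S *ᵥ ext B' j b g j y)) =
      pT (loc A j (fun y => (b y)ᵀ * D.Sᵀ) u) g := by
  have h := lint_ext_left D.symm hb g hu
  rw [FPair.symm_S] at h
  rw [pT_comm, ← h]
  unfold lint
  refine integral_congr_ae (Eventually.of_forall fun x => ?_)
  show rd A j _ x = rd A j _ x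
  by_cases hx : x ∈ Ui A j
  · simp only [rd_of_mem hx]
    exact dot_symm _ _ _
  · simp only [rd_off hx]

/-- constant matrices and `loc` -/
theorem loc_mT {κ κ' κ'' : Type} [Fintype κ'] [Fintype κ] {j : A.ι} {a : M → Matrix κ κ' ℂ}
    (ha : IsAmp A j a) (c : Matrix κ'' κ ℂ) {v : M → κ' → ℂ} (hv : ∀ l, A.SmAt j (fun x => v x l)) :
    loc A j (fun x => c * a x) v = mT c (loc A j a v) := by
  have hca : IsAmp A j (fun x => c * a x) := isAmp_mul_left ha (fun _ _ => contDiffOn_const)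
  funext k
  apply SPer.ext
  intro x
  have hfr : fr (fr x) = fr x := by funext p; simp [fr]
  rw [SPer_fr, SPer_fr (mT c (loc A j a v) k)]
  unfold mT
  rw [sper_sum_apply]
  by_cases hx : fr x ∈ Ui A j
  · rw [loc_apply_mem hca hv k hx]
    simp only [SPer.smul_apply, loc_apply_mem ha hv _ hx]
    rw [← Matrix.mulVec_mulVec]
    rfl
  · rw [loc_apply_off hca hv k (by rwa [hfr])]
    symm
    refine Finset.sum_eq_zero fun l _ => ?_
    rw [SPer.smul_apply, loc_apply_off ha hv l (by rwa [hfr]), mul_zero]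

/-- **transposition of the elementary operators `ext_j (b, KT loc_j (a, u))`**, chartwise form -/
theorem lint_KT (D : FPair m B B') {j : A.ι} {a b : M → Matrix B.κ B.κ ℂ} (ha : IsAmp A j a)
    (hb : IsAmp A j b) {u : M → B.κ → ℂ} (hu : ∀ l, A.SmAt j (fun x => u x l))
    {w : M → B'.κ → ℂ} (hw : ∀ l, A.SmAt j (fun x => w x l)) :
    lint A j (fun y => ext B j b (KT B.io (loc A j a u)) j y ⬝ᵥ (D.S *ᵥ w y)) =
      lint A j (fun y => u y ⬝ᵥ (D.S *ᵥ
        ext B' j (fun x => D.tr (a x)) (KT B'.io (loc A j (fun x => D.tr (b x)) w)) j y)) := by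
  have hta : IsAmp A j (fun x => D.tr (a x)) := by
    have h1 := isAmp_mul_left (amp_mul_const ha D.S) (c := fun _ => D.Si) (fun _ _ => contDiffOn_const)
    simpa [FPair.tr, Matrix.mul_assoc] using h1
  have htb : IsAmp A j (fun x => D.tr (b x)) := by
    have h1 := isAmp_mul_left (amp_mul_const hb D.S) (c := fun _ => D.Si) (fun _ _ => contDiffOn_const)
    simpa [FPair.tr, Matrix.mul_assoc] using h1
  rw [lint_ext_left D hb _ hw, lint_ext_right D hta _ hu, pT_KT]
  have e1 : (fun y => (b y)ᵀ * D.S) = fun y => D.S * D.tr (b y) := by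
    funext y
    exact (D.S_tr (b y)).symm
  have e2 : (fun y => (D.tr (a y))ᵀ * D.Sᵀ) = fun y => D.Sᵀ * a y := by
    funext y
    rw [← Matrix.transpose_mul, D.S_tr, Matrix.transpose_mul, Matrix.transpose_transpose]
  rw [e1, e2, loc_mT htb D.S hw, loc_mT ha D.Sᵀ hu, pT_mT, Matrix.transpose_transpose]
  congr 1
  refine mT_KT (fun c => ?_) _
  rw [Matrix.neg_mul]
  exact neg_eq_of_add_eq_zero_right (D.io_skew c)

end

end Crest.Agent.R275.SerG398
end

-- ▼ part R275/SerK_398

/-!
# R275, block C6 (Serre duality), G4/G5 (helper398): transpose of the parametrix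

`IsPr D pr` : the bilinear pairing `pr : Sec B → Sec B' → ℂ` is given by the chart integral whenever
one of the two sections is supported in a compact subset of one chart (helper323's local formula).
-/

set_option autoImplicit false
set_option linter.unusedSectionVars false

open Set Filter Topology Complex MeasureTheory
open scoped ContDiff Matrix ComplexConjugate Kronecker

namespace Crest.Agent.R275.SerG398

open Geo Tor812 C1d194 TorS666

noncomputable section

variable {n : ℕ} {M : Type} [TopologicalSpace M] {A : Atl n M}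
variable {m : A.ι → A.ι → M → ℂ} {B B' : FBun A}

/-- `u` vanishes off `K` -/
def OffZ {κ : Type} (u : A.ι → M → κ → ℂ) (K : Set M) : Prop := ∀ i, ∀ x ∉ K, u i x = 0

/-- the local formula for a pairing -/
structure IsPr (D : FPair m B B') (pr : Sec B →ₗ[ℂ] Sec B' →ₗ[ℂ] ℂ) : Prop where
  locL : ∀ (j : A.ι) (K : Set M), IsCompact K → IsClosed K → K ⊆ (A.e j).source →
    ∀ (u : Sec B) (w : Sec B'), OffZ u.1 K → pr u w = lint A j (fun y => u.1 j y ⬝ᵥ (D.S *ᵥ w.1 j y))
  locR : ∀ (j : A.ι) (K : Set M), IsCompact K → IsClosed K → K ⊆ (A.e j).source →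
    ∀ (u : Sec B) (w : Sec B'), OffZ w.1 K → pr u w = lint A j (fun y => u.1 j y ⬝ᵥ (D.S *ᵥ w.1 j y))

theorem isAmp_tr (D : FPair m B B') {j : A.ι} {a : M → Matrix B.κ B.κ ℂ} (ha : IsAmp A j a) :
    IsAmp A j (fun x => D.tr (a x)) := by
  have h1 := isAmp_mul_left (amp_mul_const ha D.S) (c := fun _ => D.Si)
    (fun _ _ => contDiffOn_const)
  simpa [FPair.tr, Matrix.mul_assoc] using h1

/-- the elementary operator `u ↦ ext_j (b, KT loc_j (a, u_j))` on sections -/
def EK (B : FBun A) (j : A.ι) (a : M → Matrix B.κ B.κ ℂ) {b : M → Matrix B.κ B.κ ℂ}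
    (hb : IsAmp A j b) (u : Sec B) : Sec B :=
  ⟨ext B j b (KT B.io (loc A j a (u.1 j))), ext_mem_Sec B j hb _⟩

@[simp] theorem EK_coe (B : FBun A) (j : A.ι) (a : M → Matrix B.κ B.κ ℂ)
    {b : M → Matrix B.κ B.κ ℂ} (hb : IsAmp A j b) (u : Sec B) :
    (EK B j a hb u).1 = ext B j b (KT B.io (loc A j a (u.1 j))) := rfl

/-- transpose of the elementary operator -/
theorem pr_EK {D : FPair m B B'} {pr : Sec B →ₗ[ℂ] Sec B' →ₗ[ℂ] ℂ} (h : IsPr D pr) {j : A.ι}
    {a b : M → Matrix B.κ B.κ ℂ} (ha : IsAmp A j a) (hb : IsAmp A j b) (u : Sec B) (w : Sec B') :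
    pr (EK B j a hb u) w = pr u (EK B' j (fun x => D.tr (b x)) (isAmp_tr D ha) w) := by
  rw [h.locL j (tsupport b) hb.cpt (isClosed_tsupport b) hb.sub (EK B j a hb u) w
      (fun i x hx => ext_zero_off B j hx _),
    h.locR j (tsupport fun x => D.tr (a x)) (isAmp_tr D ha).cpt (isClosed_tsupport _)
      (isAmp_tr D ha).sub u _ (fun i x hx => ext_zero_off B' j hx _)]
  exact lint_KT D ha hb (fun l => u.2.1 j l) (fun l => w.2.1 j l)

/-- transpose of a finite sum of elementary operators -/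
theorem pr_sum_EK {D : FPair m B B'} {pr : Sec B →ₗ[ℂ] Sec B' →ₗ[ℂ] ℂ} (h : IsPr D pr)
    (J : Finset A.ι) {a b : A.ι → M → Matrix B.κ B.κ ℂ} (ha : ∀ j, IsAmp A j (a j))
    (hb : ∀ j, IsAmp A j (b j)) (u : Sec B) (w : Sec B') :
    pr (∑ j ∈ J, EK B j (a j) (hb j) u) w =
      pr u (∑ j ∈ J, EK B' j (fun x => D.tr (b j x)) (isAmp_tr D (ha j)) w) := by
  rw [map_sum, map_sum, LinearMap.sum_apply]
  exact Finset.sum_congr rfl fun j _ => pr_EK h (ha j) (hb j) u w

end

end Crest.Agent.R275.SerG398
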