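import Crest.Agent.R275.TrI_474
import Crest.Agent.R275.MulW_193
import Crest.Agent.R275.WCxY_89
import Crest.Agent.R275.WYd_681
import Crest.Agent.R275.DolGerm_967
import Mathlib.Analysis.Distribution.AEEqOfIntegralContDiff
import Mathlib.Geometry.Manifold.PartitionOfUnity
import Crest.Agent.R275.FmExt_861
import Mathlib.RingTheory.Norm.Transitivity
import Mathlib.MeasureTheory.Function.Jacobian
import Crest.Agent.R275.LauR_635
import Crest.Agent.R275.WYc_681
import Crest.Agent.R275.C10e_195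
import Crest.Agent.R275.SupA_912
import Crest.Agent.R275.ScaleC_685
import Crest.Agent.R275.Cau_658
import Crest.Agent.R275.BdcB_96
import Crest.Agent.R275.Sol_352

-- ▼ part R275/MulT_474
section

/-!
# R275, block D (helper474): the multiplication property `Mult` for the weighted complexes `WCxY`

`fb_of_bd` : 96's `BD A K h p q` on the cores `tsupport (ψ i)` gives 193's `FB` of size
`wgt p q (ht i)`; `mult_WCxY` : `Mult K h g (WCxY DB cB) (WCxY DC cC)`, exact rates.
-/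

set_option autoImplicit false
set_option linter.unusedSectionVars false

open Set Filter Topology Complex
open scoped ContDiff ComplexConjugate

namespace Crest.Agent.R275.Tri474

open Geo Core144 Fm96 GG89 Q74 Sol352 Lam2130 WY681 WY4193 WCxY89 LauB681 MulW193

noncomputable section

variable {M : Type} [TopologicalSpace M] {A : Atl 2 M} {P : Part A} {h : M → ℝ} {Q : PNb P}

/-- bounds on the cores with the weight `wgt p q ∘ h` are bounds of size `wgt p q (ht i)` -/
theorem fb_of_bd {K : A.ι → Set M} (hK : ∀ i, tsupport (P.ψ i) ⊆ K i) {ht : A.ι → ℝ} {R : ℝ}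
    (near : ∀ i, ∀ x ∈ tsupport (P.ψ i), |h x - ht i| ≤ R) {p q : ℝ} {s : A.ι → M → ℂ}
    (hs : BD A K h p q s) : FB P (fun i => wgt p q (ht i)) s := by
  have h1 : JB658.JB (fun t : Tp P => A.e t.i t.x) (fun t : Tp P => wgt p q (h t.x))
      (fun t z => s t.i ((A.e t.i).symm z)) :=
    JB658.JB.reindex hs (fun t : Tp P => (⟨t.1, hK _ t.2⟩ : Fm96.Co K))
  exact JB658.JB.mono h1 (Real.exp_pos _).le fun t => Wy5197.wgt_le_of_abs p q (near t.i t.x t.mem)

variable {g gB gC : A.ι → A.ι → M → ℂ}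

/-- **the multiplication property of the weighted complexes** -/
theorem mult_WCxY {K : A.ι → Set M} (hK : ∀ i, tsupport (P.ψ i) ⊆ K i) {H : Hts Q} {R : ℝ}
    (near : ∀ i, ∀ x ∈ tsupport (P.ψ i), |h x - H.ht i| ≤ R)
    {hgB : IsLC A gB} {hgC : IsLC A gC}
    {bB : BGeo P (tw (lam2 A) (LV hgB))} {bC : BGeo P (tw (lam2 A) (LV hgC))}
    {CB : Cx (wf bB H)} {CC : Cx (wf bC H)} (DB : DolF hgB CB) (DC : DolF hgC CC) (cB : LauB681.Cut CB)
    (cC : LauB681.Cut CC) (eq : EqOv A (g * gB) gC) : Mult K h g (WCxY DB cB) (WCxY DC cC) where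
  eq := eq
  m0 := by
    intro s hs p q hb a b u hu
    have hD : Dom (fun i => wgt p q (H.ht i)) (H.wt (-a) b) (H.wt (-(a - p)) (b + q)) :=
      H.dom_mul (by linarith) le_rfl
    exact mulW0 hgB hgC (fun i j x hx => eq i j x hx) hs (fun i => (wgt_pos _ _ _).le)
      (fb_of_bd hK near hb) hD u hu
  m1 := by
    intro s hs p q hb a b u hu
    have hD : Dom (fun i => wgt p q (H.ht i)) (H.wt (-a) b) (H.wt (-(a - p)) (b + q)) :=
      H.dom_mul (by linarith) le_rfl
    exact mulW1 hgB hgC (fun i j x hx => eq i j x hx) hs (fun i => (wgt_pos _ _ _).le)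
      (fb_of_bd hK near hb) hD u hu
  m2 := by
    intro s hs p q hb a b u hu
    have hD : Dom (fun i => wgt p q (H.ht i)) (H.wt (-a) b) (H.wt (-(a - p)) (b + q)) :=
      H.dom_mul (by linarith) le_rfl
    exact mulW2 hgB hgC (fun i j x hx => eq i j x hx) hs (fun i => (wgt_pos _ _ _).le)
      (fb_of_bd hK near hb) hD u hu
  f0 := by
    intro α hα p q hb a b u hu
    have hD : Dom (fun i => wgt p q (H.ht i)) (H.wt (-a) b) (H.wt (-(a - p)) (b + q)) :=
      H.dom_mul (by linarith) le_rfl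
    have h1 := wedL_mem hgB hgC (fun i j x hx => eq i j x hx) hα (fun i => (wgt_pos _ _ _).le)
      (fun e => fb_of_bd hK near (hb e)) hD hu
    have h2 : (eqv hgC).symm (0, mf0 eq hα u, 0) =
        wedL hgB hgC (fun i j x hx => eq i j x hx) hα ((eqv hgB).symm (u, 0, 0)) := by
      apply (eqv hgC).injective
      rw [(eqv hgC).apply_symm_apply]
      refine Prod.ext (Subtype.ext ?_) (Prod.ext (Subtype.ext ?_) (Subtype.ext ?_))
      · exact (p0_wedL hgB hgC (fun i j x hx => eq i j x hx) hα ((eqv hgB).symm (u, 0, 0))).symm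
      · refine Eq.trans ?_
          (p1_wedL hgB hgC (fun i j x hx => eq i j x hx) hα ((eqv hgB).symm (u, 0, 0))).symm
        funext i x e
        exact mul_comm _ _
      · refine Eq.trans ?_
          (p2_wedL hgB hgC (fun i j x hx => eq i j x hx) hα ((eqv hgB).symm (u, 0, 0))).symm
        funext i x
        show (0 : ℂ) = wd α (p1 (mk3 u.1 0 0)) i x
        rw [p1_mk3]
        simp [wd]
    show (eqv hgC).symm (0, mf0 eq hα u, 0) ∈ WSm (tw (lam2 A) (LV hgC)) (H.wt (-(a - p)) (b + q))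
    rw [h2]
    exact h1

/-- the cut-off of the weighted complex at `one` -/
theorem chiOne_of_isMul {hg1 : IsLC A g} {F : WF ℂ (SecL (LV hg1))} {C : Cx F} (D : DolF hg1 C)
    {c : LauB681.Cut C} {f : M → ℂ} (hc : IsMul c f) {S T : ℝ} (h0 : ∀ x, h x < S → f x = 0)
    (h1 : ∀ x, T < h x → f x = 1) (one : ZZ0 A g) : ChiOne h (WCxY D c) one := by
  refine ⟨S, T, fun i x hx => ?_, fun i x hx => ?_⟩
  · rw [χ₀_apply D hc, h0 x hx, zero_mul]
  · rw [χ₀_apply D hc, h1 x hx, one_mul]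

end

end Crest.Agent.R275.Tri474
end

-- ▼ part R275/SerYa_940
section

/-!
# R275, block C6 on `Y` (helper940): Weyl's lemma for `∂̄` on `ℂ²`, part 1

`Pk k a f z = ∫ k(w) f(z - w e_a) dw`; for the cut-off Cauchy kernel one has
`f = ∂̄_a (Pk kk a f) + Pk rho a f` with `rho` smooth, supported in a small disc.
-/

set_option autoImplicit false

open Set Filter Topology Complex MeasureTheory
open scoped ContDiff NNReal

namespace Crest.Agent.R275.SerY940

open Crest.Agent.R275.Geo Crest.Agent.R275.Dol967 Crest.Agent.R080 Crest.Agent.R080.CauchyP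

noncomputable section

/-! ### averaging along a coordinate line -/

/-- `∫ k(w) f(z - w e_a) dw` -/
def Pk (k : ℂ → ℂ) (a : Fin 2) (f : Cn 2 → ℂ) (z : Cn 2) : ℂ := ∫ w, k w * f (z - lin a w)

/-- `f` vanishes outside the closed polydisc of radii `s` -/
def Sup (f : Cn 2 → ℂ) (p : Cn 2) (s : Fin 2 → ℝ) : Prop :=
  ∀ z, f z ≠ 0 → ∀ b, ‖z b - p b‖ ≤ s b

/-- closed polydisc -/
def CPD (p : Cn 2) (s : Fin 2 → ℝ) : Set (Cn 2) := {z | ∀ b, ‖z b - p b‖ ≤ s b}

theorem isClosed_CPD (p : Cn 2) (s : Fin 2 → ℝ) : IsClosed (CPD p s) := by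
  have : CPD p s = ⋂ b, {z | ‖z b - p b‖ ≤ s b} := by ext z; simp [CPD]
  rw [this]
  exact isClosed_iInter fun b => isClosed_le (by fun_prop) continuous_const

theorem isCompact_CPD (p : Cn 2) (s : Fin 2 → ℝ) : IsCompact (CPD p s) := by
  refine (isCompact_closedBall p (√2 * (|s 0| + |s 1|))).of_isClosed_subset (isClosed_CPD p s) ?_
  intro z hz
  rw [mem_closedBall_iff_norm, EuclideanSpace.norm_eq]
  have h2 : (0 : ℝ) ≤ √2 := Real.sqrt_nonneg _
  have h0 := hz 0
  have h1 := hz 1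
  have h3 := le_abs_self (s 0)
  have h4 := le_abs_self (s 1)
  rw [Fin.sum_univ_two]
  have h5 : √2 * (|s 0| + |s 1|) = √(2 * (|s 0| + |s 1|) ^ 2) := by
    rw [Real.sqrt_mul (by norm_num), Real.sqrt_sq (by positivity)]
  rw [h5]
  apply Real.sqrt_le_sqrt
  have h6 : ‖(z - p) 0‖ ≤ |s 0| + |s 1| := by
    have : (0 : ℝ) ≤ |s 1| := abs_nonneg _
    calc ‖(z - p) 0‖ = ‖z 0 - p 0‖ := rfl
      _ ≤ _ := by linarith
  have h7 : ‖(z - p) 1‖ ≤ |s 0| + |s 1| := by
    have : (0 : ℝ) ≤ |s 0| := abs_nonneg _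
    calc ‖(z - p) 1‖ = ‖z 1 - p 1‖ := rfl
      _ ≤ _ := by linarith
  have h8 := pow_le_pow_left₀ (norm_nonneg _) h6 2
  have h9 := pow_le_pow_left₀ (norm_nonneg _) h7 2
  linarith

theorem Sup.tsupport_subset {f : Cn 2 → ℂ} {p : Cn 2} {s : Fin 2 → ℝ} (h : Sup f p s) :
    tsupport f ⊆ CPD p s := closure_minimal (fun z hz => h z hz) (isClosed_CPD p s)

theorem Sup.hasCompactSupport {f : Cn 2 → ℂ} {p : Cn 2} {s : Fin 2 → ℝ} (h : Sup f p s) :
    HasCompactSupport f :=
  (isCompact_CPD p s).of_isClosed_subset (isClosed_tsupport _) h.tsupport_subset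

theorem lin_self (a : Fin 2) (w : ℂ) : lin a w a = w := by simp

theorem lin_ne {a b : Fin 2} (h : b ≠ a) (w : ℂ) : lin a w b = 0 := by simp [h]

theorem Sup.pk {f : Cn 2 → ℂ} {p : Cn 2} {s : Fin 2 → ℝ} (h : Sup f p s) {k : ℂ → ℂ} {r : ℝ}
    (hk : ∀ w, k w ≠ 0 → ‖w‖ ≤ r) (a : Fin 2) :
    Sup (Pk k a f) p (fun b => if b = a then s b + r else s b) := by
  intro z hz b
  show ‖z b - p b‖ ≤ if b = a then s b + r else s b
  by_contra hb
  apply hz
  unfold Pk
  have : ∀ w, k w * f (z - lin a w) = 0 := by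
    intro w
    by_contra hne
    have h1 := left_ne_zero_of_mul hne
    have h2 := right_ne_zero_of_mul hne
    have h3 := h _ h2 b
    have h4 := hk w h1
    apply hb
    simp only [PiLp.sub_apply] at h3
    by_cases hba : b = a
    · subst hba
      rw [if_pos rfl]
      rw [lin_self] at h3
      calc ‖z b - p b‖ = ‖(z b - w - p b) + w‖ := by ring_nf
        _ ≤ ‖z b - w - p b‖ + ‖w‖ := norm_add_le _ _
        _ ≤ s b + r := by linarith
    · rw [if_neg hba]
      rw [lin_ne hba, sub_zero] at h3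
      exact h3
  simp only [this, integral_zero]

theorem contDiff_Pk {k : ℂ → ℂ} (hk : Integrable k) (a : Fin 2) {f : Cn 2 → ℂ}
    (hf : ContDiff ℝ ∞ f) (hc : HasCompactSupport f) : ContDiff ℝ ∞ (Pk k a f) := by
  obtain ⟨R, hR⟩ := exists_radius hc
  rw [contDiff_iff_contDiffAt]
  intro x₀
  set ρ : ℝ := ‖x₀‖ + 1
  have hs : IsOpen (Metric.ball (0 : Cn 2) ρ) := Metric.isOpen_ball
  have hcv : ContDiffOn ℝ ((⊤ : ℕ∞) : WithTop ℕ∞) (fun q : Cn 2 × ℂ =>
      (convolution k ((fun (p : Cn 2) (w : ℂ) => f (p + lin a w)) q.1)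
        (ContinuousLinearMap.mul ℝ ℂ) volume) q.2) (Metric.ball (0 : Cn 2) ρ ×ˢ univ) := by
    refine contDiffOn_convolution_right_with_param (n := (⊤ : ℕ∞))
      (g := fun (p : Cn 2) (w : ℂ) => f (p + lin a w)) (k := Metric.closedBall (0 : ℂ) ((R + ρ) / 1))
      (ContinuousLinearMap.mul ℝ ℂ) hs (isCompact_closedBall _ _) ?_
      hk.locallyIntegrable ?_
    · intro p w hp hw
      rw [mem_ball_zero_iff] at hp
      rw [mem_closedBall_zero_iff, not_le] at hw
      exact hR _ (lt_norm_add one_pos (lin_low a) hp.le hw).le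
    · apply ContDiff.contDiffOn
      exact hf.comp (contDiff_fst.add ((lin a).contDiff.comp contDiff_snd))
  have h1 : ContDiffOn ℝ ∞ (Pk k a f) (Metric.ball (0 : Cn 2) ρ) := by
    have h2 := hcv.comp (f := fun x : Cn 2 => (x, (0 : ℂ))) (s := Metric.ball (0 : Cn 2) ρ)
      (by fun_prop) (fun x hx => ⟨hx, mem_univ _⟩)
    refine h2.congr fun x hx => ?_
    simp only [Function.comp, Pk, convolution, ContinuousLinearMap.mul_apply', zero_add,
      map_neg, sub_eq_add_neg]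
  exact h1.contDiffAt (hs.mem_nhds (by simp [ρ]))

theorem hasFDerivAt_Pk {k : ℂ → ℂ} (hk : Integrable k) (a : Fin 2) {f : Cn 2 → ℂ}
    (hf : ContDiff ℝ ∞ f) (hc : HasCompactSupport f) (x : Cn 2) :
    Integrable (fun z => k z • fderiv ℝ f (x - lin a z)) ∧
    HasFDerivAt (Pk k a f) (∫ z, k z • fderiv ℝ f (x - lin a z)) x := by
  have hdc : Continuous (fderiv ℝ f) := hf.continuous_fderiv (by simp)
  obtain ⟨B, hB⟩ := hdc.bounded_above_of_compact_support (hc.fderiv ℝ)
  obtain ⟨B', hB'⟩ := hf.continuous.bounded_above_of_compact_support hc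
  have hmeas : ∀ y : Cn 2, AEStronglyMeasurable (fun z => k z * f (y - lin a z)) volume := fun y =>
    hk.aestronglyMeasurable.mul
      (hf.continuous.comp (by fun_prop : Continuous fun z => y - lin a z)).aestronglyMeasurable
  have hmeas' : ∀ y : Cn 2,
      AEStronglyMeasurable (fun z => k z • fderiv ℝ f (y - lin a z)) volume := fun y =>
    hk.aestronglyMeasurable.smul
      (hdc.comp (by fun_prop : Continuous fun z => y - lin a z)).aestronglyMeasurable
  have hbi : Integrable (fun z => B * ‖k z‖) := hk.norm.const_mul B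
  have hle : ∀ y : Cn 2, ∀ z : ℂ, ‖k z • fderiv ℝ f (y - lin a z)‖ ≤ B * ‖k z‖ := by
    intro y z
    rw [norm_smul, mul_comm]
    exact mul_le_mul_of_nonneg_right (hB _) (norm_nonneg _)
  have hint : Integrable (fun z => k z * f (x - lin a z)) := by
    refine (hk.norm.const_mul B').mono' (hmeas x) (Eventually.of_forall fun z => ?_)
    rw [norm_mul, mul_comm]
    exact mul_le_mul_of_nonneg_right (hB' _) (norm_nonneg _)
  refine ⟨hbi.mono' (hmeas' x) (Eventually.of_forall (hle x)), ?_⟩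
  refine hasFDerivAt_integral_of_dominated_of_fderiv_le (Metric.ball_mem_nhds x one_pos)
    (Eventually.of_forall hmeas) hint (hmeas' x)
    (Eventually.of_forall fun z y _ => hle y z) hbi (Eventually.of_forall fun z y hy => ?_)
  have h1 : HasFDerivAt f (fderiv ℝ f (y - lin a z)) (y - lin a z) :=
    (hf.differentiable (by simp) _).hasFDerivAt
  have h2 : HasFDerivAt (fun y : Cn 2 => f (y - lin a z)) (fderiv ℝ f (y - lin a z)) y :=
    h1.comp y ((hasFDerivAt_id y).sub_const (lin a z))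
  exact h2.const_mul (k z)

theorem dbj_Pk {k : ℂ → ℂ} (hk : Integrable k) (a b : Fin 2) {f : Cn 2 → ℂ}
    (hf : ContDiff ℝ ∞ f) (hc : HasCompactSupport f) (x : Cn 2) :
    dbj b (Pk k a f) x = Pk k a (dbj b f) x := by
  obtain ⟨hi, hd⟩ := hasFDerivAt_Pk hk a hf hc x
  simp only [dbj, Pk]
  rw [hd.fderiv, ContinuousLinearMap.integral_apply hi, ContinuousLinearMap.integral_apply hi,
    smul_eq_mul, smul_eq_mul, ← integral_const_mul]
  have hi1 : ∀ v, Integrable (fun z => (k z • fderiv ℝ f (x - lin a z)) v) := fun v =>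
    hi.apply_continuousLinearMap v
  rw [← integral_add (hi1 _) ((hi1 _).const_mul _), ← integral_const_mul]
  refine integral_congr_ae (Eventually.of_forall fun z => ?_)
  simp only [smul_apply, smul_eq_mul]
  ring

/-! ### the cut-off Cauchy kernel -/

variable {r : ℝ} (hr : 0 < r)

/-- bump function on `ℂ`, `1` for `‖w‖ ≤ r / 4`, `0` for `‖w‖ ≥ r / 2` -/
def bp : ContDiffBump (0 : ℂ) := ⟨r / 4, r / 2, by positivity, by linarith⟩

/-- the cut-off -/
def chi (w : ℂ) : ℂ := ((bp hr w : ℝ) : ℂ)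

/-- `∂/∂w̄` of a function on `ℂ` -/
def dbw (f : ℂ → ℂ) (w : ℂ) : ℂ := (1 / 2) * (fderiv ℝ f w 1 + I * fderiv ℝ f w I)

/-- the cut-off Cauchy kernel -/
def kk (w : ℂ) : ℂ := 2 * kc w * chi hr w

/-- the averaging kernel -/
def rho (w : ℂ) : ℂ := -(2 * kc w * dbw (chi hr) w)

theorem contDiff_chi : ContDiff ℝ ∞ (chi hr) := ofRealCLM.contDiff.comp (bp hr).contDiff

theorem chi_zero : chi hr 0 = 1 := by
  unfold chi
  rw [(bp hr).one_of_mem_closedBall (by simp [(bp hr).rIn_pos.le]), ofReal_one]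

theorem chi_ne {w : ℂ} (h : chi hr w ≠ 0) : ‖w‖ ≤ r / 2 := by
  by_contra hw
  apply h
  unfold chi
  rw [(bp hr).zero_of_le_dist (by rw [dist_zero_right]; exact (not_le.1 hw).le), ofReal_zero]

theorem chi_ev : chi hr =ᶠ[𝓝 0] fun _ => 1 := by
  filter_upwards [Metric.ball_mem_nhds (0 : ℂ) (show (0 : ℝ) < r / 4 by positivity)] with w hw
  unfold chi
  rw [(bp hr).one_of_mem_closedBall (Metric.ball_subset_closedBall hw), ofReal_one]

theorem chi_far {w : ℂ} (hw : r / 2 < ‖w‖) : chi hr =ᶠ[𝓝 w] fun _ => 0 := by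
  have : {y : ℂ | r / 2 < ‖y‖} ∈ 𝓝 w := (isOpen_lt continuous_const continuous_norm).mem_nhds hw
  filter_upwards [this] with y hy
  by_contra h
  exact absurd (chi_ne hr h) (not_le.2 hy)

theorem hcs_chi : HasCompactSupport (chi hr) := by
  apply HasCompactSupport.of_support_subset_isCompact (isCompact_closedBall (0 : ℂ) (r / 2))
  intro w hw
  rw [mem_closedBall_zero_iff]
  exact chi_ne hr hw

theorem dbw_congr {f g : ℂ → ℂ} {w : ℂ} (h : f =ᶠ[𝓝 w] g) : dbw f w = dbw g w := by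
  simp only [dbw, h.fderiv_eq]

theorem dbw_const (c : ℂ) (w : ℂ) : dbw (fun _ => c) w = 0 := by simp [dbw]

theorem contDiff_dbw {f : ℂ → ℂ} (hf : ContDiff ℝ ∞ f) : ContDiff ℝ ∞ (dbw f) := by
  have h1 : ContDiff ℝ ∞ (fderiv ℝ f) := hf.fderiv_right (by simp)
  exact contDiff_const.mul ((h1.clm_apply contDiff_const).add
    (contDiff_const.mul (h1.clm_apply contDiff_const)))

theorem rho_ne {w : ℂ} (h : rho hr w ≠ 0) : ‖w‖ ≤ r / 2 := by
  by_contra hw
  apply h
  unfold rho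
  rw [dbw_congr (chi_far hr (not_le.1 hw)), dbw_const]
  simp

theorem kk_ne {w : ℂ} (h : kk hr w ≠ 0) : ‖w‖ ≤ r / 2 := by
  by_contra hw
  apply h
  unfold kk
  rw [(chi_far hr (not_le.1 hw)).self_of_nhds]
  simp

theorem contDiff_rho : ContDiff ℝ ∞ (rho hr) := by
  rw [contDiff_iff_contDiffAt]
  intro w
  by_cases hw : w = 0
  · subst hw
    have h1 : rho hr =ᶠ[𝓝 0] fun _ => 0 := by
      filter_upwards [(chi_ev hr).eventually_nhds] with y hy
      unfold rho
      rw [dbw_congr hy, dbw_const]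
      simp
    exact contDiffAt_const.congr_of_eventuallyEq h1
  · have h1 : ContDiffAt ℝ ∞ kc w := by
      unfold kc
      have h2 : ContDiffAt ℝ ∞ (fun z : ℂ => 2 * (Real.pi : ℂ) * z) w :=
        contDiffAt_const.mul contDiffAt_id
      refine h2.inv ?_
      have := Real.pi_pos.ne'
      simp [hw]
    exact ((contDiffAt_const.mul h1).mul (contDiff_dbw (contDiff_chi hr)).contDiffAt).neg

theorem hcs_rho : HasCompactSupport (rho hr) := by
  apply HasCompactSupport.of_support_subset_isCompact (isCompact_closedBall (0 : ℂ) (r / 2))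
  intro w hw
  rw [mem_closedBall_zero_iff]
  exact rho_ne hr hw

theorem integrable_rho : Integrable (rho hr) :=
  (contDiff_rho hr).continuous.integrable_of_hasCompactSupport (hcs_rho hr)

theorem integrable_kk : Integrable (kk hr) := by
  have h1 := locallyIntegrable_kc.integrable_smul_right_of_hasCompactSupport
    (g := fun w => 2 * chi hr w) (continuous_const.mul (contDiff_chi hr).continuous)
    ((hcs_chi hr).mul_left)
  refine h1.congr (Eventually.of_forall fun w => ?_)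
  simp only [kk, smul_eq_mul]
  ring

/-- **cut-off Cauchy formula** -/
theorem pk_id (a : Fin 2) {f : Cn 2 → ℂ} (hf : ContDiff ℝ ∞ f) (hc : HasCompactSupport f)
    (z : Cn 2) : f z = dbj a (Pk (kk hr) a f) z + Pk (rho hr) a f z := by
  rw [dbj_Pk (integrable_kk hr) a a hf hc]
  set G : ℂ → ℂ := fun w => chi hr w * f (z - lin a w) with hG
  have hsl : ContDiff ℝ ∞ (fun w : ℂ => f (z - lin a w)) :=
    hf.comp (contDiff_const.sub (lin a).contDiff)
  have hGs : ContDiff ℝ ∞ G := (contDiff_chi hr).mul hsl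
  have hGc : HasCompactSupport G := (hcs_chi hr).mul_right
  have hp := pompeiu G (hGs.of_le (by simp)) hGc
  have hG0 : G 0 = f z := by
    simp only [hG, chi_zero, map_zero, sub_zero, one_mul]
  have hGd : ∀ w, fderiv ℝ G w 1 + I * fderiv ℝ G w I =
      2 * (dbw (chi hr) w * f (z - lin a w) - chi hr w * dbj a f (z - lin a w)) := by
    intro w
    have h1 : HasFDerivAt (chi hr) (fderiv ℝ (chi hr) w) w :=
      ((contDiff_chi hr).differentiable (by simp) w).hasFDerivAt
    have h2 : HasFDerivAt (fun w : ℂ => f (z - lin a w))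
        ((fderiv ℝ f (z - lin a w)).comp (-(lin a))) w :=
      ((hf.differentiable (by simp) _).hasFDerivAt).comp w ((lin a).hasFDerivAt.const_sub z)
    have h3 := h1.mul h2
    rw [show fderiv ℝ G w = _ from h3.fderiv]
    simp only [dbw, dbj, add_apply, smul_apply, ContinuousLinearMap.comp_apply, neg_apply,
      lin_apply, smul_eq_mul, map_neg]
    ring
  rw [hG0] at hp
  have hi1 : Integrable (fun w => kk hr w * dbj a f (z - lin a w)) := by
    obtain ⟨B, hB⟩ := (contDiff_dbj (a := a) hf).continuous.bounded_above_of_compact_support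
      (f := dbj a f) (by
        have h5 : HasCompactSupport (fderiv ℝ f) := hc.fderiv ℝ
        refine h5.mono' ?_
        intro x hx
        apply subset_tsupport
        intro h0
        apply hx
        simp [dbj, h0])
    refine ((integrable_kk hr).norm.const_mul B).mono' ((integrable_kk hr).aestronglyMeasurable.mul
      ((contDiff_dbj (a := a) hf).continuous.comp
        (by fun_prop : Continuous fun w => z - lin a w)).aestronglyMeasurable)
      (Eventually.of_forall fun w => ?_)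
    rw [norm_mul, mul_comm]
    exact mul_le_mul_of_nonneg_right (hB _) (norm_nonneg _)
  have hi2 : Integrable (fun w => rho hr w * f (z - lin a w)) := by
    obtain ⟨B, hB⟩ := hf.continuous.bounded_above_of_compact_support hc
    refine ((integrable_rho hr).norm.const_mul B).mono'
      ((integrable_rho hr).aestronglyMeasurable.mul
        (hsl.continuous).aestronglyMeasurable) (Eventually.of_forall fun w => ?_)
    rw [norm_mul, mul_comm]
    exact mul_le_mul_of_nonneg_right (hB _) (norm_nonneg _)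
  rw [eq_neg_iff_add_eq_zero, add_comm, ← eq_neg_iff_add_eq_zero] at hp
  rw [hp]
  unfold Pk
  rw [← integral_neg, ← integral_add hi1 hi2]
  refine integral_congr_ae (Eventually.of_forall fun w => ?_)
  simp only [hGd, kk, rho]
  ring

end

end Crest.Agent.R275.SerY940
end

-- ▼ part R275/SerYb_940
section

/-!
# R275, block C6 on `Y` (helper940): Weyl's lemma for `∂̄` on `ℂ²`, part 2

`Fnl U L C` : `L` is a linear functional on functions on `ℂ²`, bounded by `C * sup` on test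
functions supported in `U` and killing `∂̄_a f`.
`Fnl.weyl` : on a polydisc `L f = ∫ f h` with `h` holomorphic and `‖h‖ ≤ C c(r)`.
-/

set_option autoImplicit false

open Set Filter Topology Complex MeasureTheory
open scoped ContDiff NNReal

namespace Crest.Agent.R275.SerY940

open Crest.Agent.R275.Geo Crest.Agent.R275.Dol967 Crest.Agent.R080 Crest.Agent.R080.CauchyP

noncomputable section

/-- functionals bounded by the sup norm on test functions in `U`, killing `∂̄_a` of test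
functions -/
structure Fnl (U : Set (Cn 2)) (L : (Cn 2 → ℂ) →ₗ[ℂ] ℂ) (C : ℝ) : Prop where
  bd : ∀ f, ContDiff ℝ ∞ f → HasCompactSupport f → tsupport f ⊆ U → ∀ m : ℝ,
    (∀ z, ‖f z‖ ≤ m) → ‖L f‖ ≤ C * m
  db : ∀ a f, ContDiff ℝ ∞ f → HasCompactSupport f → tsupport f ⊆ U → L (dbj a f) = 0

theorem Fnl.mono {U V : Set (Cn 2)} {L : (Cn 2 → ℂ) →ₗ[ℂ] ℂ} {C : ℝ} (h : Fnl U L C)
    (hVU : V ⊆ U) : Fnl V L C :=
  ⟨fun f h1 h2 h3 => h.bd f h1 h2 (h3.trans hVU), fun a f h1 h2 h3 => h.db a f h1 h2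
    (h3.trans hVU)⟩

theorem Fnl.nonneg {U : Set (Cn 2)} {L : (Cn 2 → ℂ) →ₗ[ℂ] ℂ} {C : ℝ} (h : Fnl U L C) :
    0 ≤ C := by
  have h1 := h.bd (fun _ => 0) contDiff_const (by simp [HasCompactSupport])
    (by simp [tsupport]) 1 (fun z => by simp)
  have h2 : (0 : ℝ) ≤ ‖L fun _ => 0‖ := norm_nonneg _
  linarith

/-! ### exchange of the functional and an integral -/

open BoundedContinuousFunction in
/-- exchange of `L` with an integral -/
theorem Fnl.integral {U : Set (Cn 2)} {L : (Cn 2 → ℂ) →ₗ[ℂ] ℂ} {C : ℝ} (h : Fnl U L C)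
    {X : Type*} [MeasurableSpace X] {μ : Measure X} {K : Set (Cn 2)} (hK : IsCompact K)
    (hKU : K ⊆ U) {G : X → BoundedContinuousFunction (Cn 2) ℂ} (hG : Integrable G μ)
    (hs : ∀ x, ContDiff ℝ ∞ (G x)) (hsup : ∀ x, ∀ z ∉ K, G x z = 0)
    (hI : ContDiff ℝ ∞ (fun z => ∫ x, G x z ∂μ)) :
    L (fun z => ∫ x, G x z ∂μ) = ∫ x, L (G x) ∂μ := by
  let S : Submodule ℂ (BoundedContinuousFunction (Cn 2) ℂ) :=
    { carrier := {F | ContDiff ℝ ∞ F ∧ ∀ z ∉ K, F z = 0}
      add_mem' := by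
        rintro F F' ⟨h1, h2⟩ ⟨h3, h4⟩
        exact ⟨h1.add h3, fun z hz => by
          rw [BoundedContinuousFunction.add_apply, h2 z hz, h4 z hz, add_zero]⟩
      zero_mem' := ⟨contDiff_const, fun z _ => rfl⟩
      smul_mem' := by
        rintro c F ⟨h1, h2⟩
        exact ⟨h1.const_smul c, fun z hz => by
          rw [BoundedContinuousFunction.smul_apply, h2 z hz, smul_zero]⟩ }
  have hsub : ∀ F : Cn 2 → ℂ, (∀ z ∉ K, F z = 0) → tsupport F ⊆ K := fun F hF =>
    closure_minimal (fun z hz => by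
      by_contra hzK
      exact hz (hF z hzK)) hK.isClosed
  let φ : S →ₗ[ℂ] ℂ :=
    { toFun := fun F => L (fun z => F.1 z)
      map_add' := fun F F' => L.map_add _ _
      map_smul' := fun c F => L.map_smul c _ }
  have hφ : ∀ F : S, ‖φ F‖ ≤ C * ‖F‖ := by
    intro F
    refine h.bd _ F.2.1 (hK.of_isClosed_subset (isClosed_tsupport _) (hsub _ F.2.2))
      ((hsub _ F.2.2).trans hKU) _ fun z => ?_
    exact F.1.norm_coe_le_norm z
  obtain ⟨g, hg, -⟩ := exists_extension_norm_eq S (φ.mkContinuous C hφ)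
  have hgL : ∀ F : BoundedContinuousFunction (Cn 2) ℂ, ContDiff ℝ ∞ F → (∀ z ∉ K, F z = 0) →
      g F = L F := fun F h1 h2 => hg ⟨F, h1, h2⟩
  have hev : ∀ z, (∫ x, G x ∂μ) z = ∫ x, G x z ∂μ := by
    intro z
    have := (BoundedContinuousFunction.evalCLM ℂ z).integral_comp_comm hG
    exact this.symm
  have h1 : (fun z => ∫ x, G x z ∂μ) = ⇑(∫ x, G x ∂μ) := by
    funext z
    exact (hev z).symm
  rw [h1]
  rw [← hgL (∫ x, G x ∂μ) (by rw [← h1]; exact hI) (fun z hz => by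
    rw [hev z]
    simp only [hsup _ z hz, integral_zero])]
  rw [← g.integral_comp_comm hG]
  refine integral_congr_ae (Eventually.of_forall fun x => ?_)
  exact hgL _ (hs x) (hsup x)

/-! ### the mollifier -/

variable {r : ℝ} (hr : 0 < r)

/-- the product mollifier -/
def Phi (z : Cn 2) : ℂ := rho hr (z 0) * rho hr (z 1)

theorem contDiff_Phi : ContDiff ℝ ∞ (Phi hr) := by
  have h0 : ∀ b : Fin 2, ContDiff ℝ ∞ (fun z : Cn 2 => z b) := fun b => by fun_prop
  exact ((contDiff_rho hr).comp (h0 0)).mul ((contDiff_rho hr).comp (h0 1))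

theorem Phi_ne {z : Cn 2} (h : Phi hr z ≠ 0) (b : Fin 2) : ‖z b‖ ≤ r / 2 := by
  have h0 := rho_ne hr (left_ne_zero_of_mul h)
  have h1 := rho_ne hr (right_ne_zero_of_mul h)
  fin_cases b
  · exact h0
  · exact h1

theorem sup_Phi (ζ : Cn 2) : Sup (fun z => Phi hr (z - ζ)) ζ (fun _ => r / 2) := by
  intro z hz b
  have := Phi_ne hr hz b
  exact this

theorem hcs_Phi : HasCompactSupport (Phi hr) := by
  have h := (sup_Phi hr 0).hasCompactSupport
  simpa using h

theorem contDiff_Phi_sub (ζ : Cn 2) : ContDiff ℝ ∞ (fun z => Phi hr (z - ζ)) :=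
  (contDiff_Phi hr).comp (contDiff_id.sub contDiff_const)

/-- a bound for the mollifier -/
def cPhi : ℝ := ((contDiff_Phi hr).continuous.bounded_above_of_compact_support (hcs_Phi hr)).choose

theorem norm_Phi_le (z : Cn 2) : ‖Phi hr z‖ ≤ cPhi hr :=
  ((contDiff_Phi hr).continuous.bounded_above_of_compact_support
    (hcs_Phi hr)).choose_spec z

theorem cPhi_nonneg : 0 ≤ cPhi hr := (norm_nonneg _).trans (norm_Phi_le hr 0)

/-- coordinates `ℂ × ℂ ≃ ℂ²`, complex linear -/
def LEc : (ℂ × ℂ) ≃L[ℂ] Cn 2 :=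
  (ContinuousLinearEquiv.finTwoArrow ℂ ℂ).symm.trans (EuclideanSpace.equiv (Fin 2) ℂ).symm

/-- coordinates `ℂ × ℂ ≃ ℂ²` -/
def LE : (ℂ × ℂ) ≃L[ℝ] Cn 2 :=
  { LEc.toLinearEquiv.restrictScalars ℝ with
    continuous_toFun := LEc.continuous
    continuous_invFun := LEc.symm.continuous }

theorem LE_eq (p : ℂ × ℂ) : LE p = LEc p := rfl

theorem LE_apply (p : ℂ × ℂ) : LE p = lin 0 p.1 + lin 1 p.2 := by
  ext b
  rw [LE_eq]
  fin_cases b <;> simp [LEc]

theorem LE_zero (p : ℂ × ℂ) : (LE p) 0 = p.1 := by rw [LE_eq]; simp [LEc]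

theorem LE_one (p : ℂ × ℂ) : (LE p) 1 = p.2 := by rw [LE_eq]; simp [LEc]

instance instHaarC : (volume : Measure (ℂ × ℂ)).IsAddHaarMeasure := by
  rw [Measure.volume_eq_prod]
  infer_instance

instance instHaarLE : (Measure.map LE (volume : Measure (ℂ × ℂ))).IsAddHaarMeasure :=
  LE.isAddHaarMeasure_map volume

/-- the normalisation of the volume -/
def cv : ℝ≥0 := Measure.addHaarScalarFactor (Measure.map LE (volume : Measure (ℂ × ℂ)))
  (volume : Measure (Cn 2))

theorem map_LE : Measure.map LE (volume : Measure (ℂ × ℂ)) = cv • (volume : Measure (Cn 2)) :=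
  Measure.isAddLeftInvariant_eq_smul _ _

/-- the double average is a convolution with `Phi` -/
theorem pk_pk {f : Cn 2 → ℂ} (hf : ContDiff ℝ ∞ f) (hc : HasCompactSupport f) (z : Cn 2) :
    Pk (rho hr) 1 (Pk (rho hr) 0 f) z = (cv : ℝ) • ∫ ζ, Phi hr (z - ζ) * f ζ := by
  have hF : Continuous (fun y : Cn 2 => Phi hr y * f (z - y)) :=
    (contDiff_Phi hr).continuous.mul (hf.continuous.comp (by fun_prop))
  have hFc : HasCompactSupport (fun y : Cn 2 => Phi hr y * f (z - y)) := (hcs_Phi hr).mul_right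
  have h1 : ∫ ζ, Phi hr (z - ζ) * f ζ = ∫ y, Phi hr y * f (z - y) := by
    rw [← integral_sub_left_eq_self (fun y => Phi hr y * f (z - y)) volume z]
    simp only [sub_sub_cancel]
  have h2 : (cv : ℝ) • ∫ y, Phi hr y * f (z - y) =
      ∫ y, Phi hr y * f (z - y) ∂(Measure.map LE (volume : Measure (ℂ × ℂ))) := by
    rw [map_LE, integral_smul_nnreal_measure]
    rfl
  rw [h1, h2, integral_map LE.continuous.aemeasurable hF.aestronglyMeasurable]
  have hG : Integrable (fun p : ℂ × ℂ => Phi hr (LE p) * f (z - LE p)) := by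
    have h3 : Continuous (fun p : ℂ × ℂ => Phi hr (LE p) * f (z - LE p)) := hF.comp LE.continuous
    refine h3.integrable_of_hasCompactSupport ?_
    exact hFc.comp_homeomorph LE.toHomeomorph
  rw [Measure.volume_eq_prod] at hG ⊢
  rw [integral_prod_symm _ hG]
  unfold Pk
  refine integral_congr_ae (Eventually.of_forall fun w1 => ?_)
  simp only
  rw [← integral_const_mul]
  refine integral_congr_ae (Eventually.of_forall fun w0 => ?_)
  have h4 : z - LE (w0, w1) = z - lin 1 w1 - lin 0 w0 := by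
    rw [LE_apply]
    abel
  show rho hr w1 * (rho hr w0 * f (z - (lin 1) w1 - (lin 0) w0)) =
    Phi hr (LE (w0, w1)) * f (z - LE (w0, w1))
  rw [h4]
  simp only [Phi, LE_zero, LE_one]
  ring

/-! ### representation of the functional -/

/-- one averaging step -/
theorem Fnl.step {U : Set (Cn 2)} {L : (Cn 2 → ℂ) →ₗ[ℂ] ℂ} {C : ℝ} (h : Fnl U L C)
    {f : Cn 2 → ℂ} (hf : ContDiff ℝ ∞ f) {p : Cn 2} {s : Fin 2 → ℝ} (hs : Sup f p s) (a : Fin 2)
    (hU : CPD p (fun b => if b = a then s b + r / 2 else s b) ⊆ U) :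
    L f = L (Pk (rho hr) a f) := by
  have h1 : f = dbj a (Pk (kk hr) a f) + Pk (rho hr) a f := by
    funext z
    exact pk_id hr a hf hs.hasCompactSupport z
  have h2 : Sup (Pk (kk hr) a f) p _ := hs.pk (k := kk hr) (r := r / 2) (fun w hw => kk_ne hr hw) a
  have h3 := h.db a (Pk (kk hr) a f) (contDiff_Pk (integrable_kk hr) a hf hs.hasCompactSupport)
    h2.hasCompactSupport (h2.tsupport_subset.trans hU)
  conv_lhs => rw [h1]
  rw [map_add, h3, zero_add]

/-- the density -/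
def dens (L : (Cn 2 → ℂ) →ₗ[ℂ] ℂ) (ζ : Cn 2) : ℂ := (cv : ℝ) • L (fun z => Phi hr (z - ζ))

theorem CPD_subset_PD {p ζ : Cn 2} (hζ : ζ ∈ PD p r) :
    CPD ζ (fun _ => r / 2) ⊆ PD p (2 * r) := by
  intro z hz b
  have h1 : ‖z b - ζ b‖ ≤ r / 2 := hz b
  have h2 := hζ b
  have h3 : 0 ≤ ‖ζ b - p b‖ := norm_nonneg _
  calc ‖z b - p b‖ = ‖(z b - ζ b) + (ζ b - p b)‖ := by ring_nf
    _ ≤ ‖z b - ζ b‖ + ‖ζ b - p b‖ := norm_add_le _ _
    _ < 2 * r := by linarith

/-- the translates of the mollifier as bounded continuous functions -/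
def TB (ζ : Cn 2) : BoundedContinuousFunction (Cn 2) ℂ :=
  BoundedContinuousFunction.ofNormedAddCommGroup (fun z => Phi hr (z - ζ))
      (contDiff_Phi_sub hr ζ).continuous (cPhi hr) (fun z => norm_Phi_le hr _)

theorem TB_apply (ζ z : Cn 2) : TB hr ζ z = Phi hr (z - ζ) := rfl

theorem continuous_TB : Continuous (TB hr) := by
  obtain ⟨Kl, hKl⟩ := (contDiff_Phi hr).lipschitzWith_of_hasCompactSupport (hcs_Phi hr) (by simp)
  have : LipschitzWith Kl (TB hr) := by
    refine LipschitzWith.of_dist_le_mul fun ζ ζ' => ?_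
    rw [BoundedContinuousFunction.dist_le (by positivity)]
    intro z
    rw [TB_apply, TB_apply]
    have h1 := hKl.dist_le_mul (z - ζ) (z - ζ')
    refine h1.trans (le_of_eq ?_)
    rw [dist_eq_norm, dist_eq_norm, sub_sub_sub_cancel_left, norm_sub_rev]
  exact this.continuous

/-- the family `f ζ • Phi (· - ζ)` -/
def GB (f : Cn 2 → ℂ) (ζ : Cn 2) : BoundedContinuousFunction (Cn 2) ℂ := f ζ • TB hr ζ

theorem GB_apply (f : Cn 2 → ℂ) (ζ z : Cn 2) : GB hr f ζ z = Phi hr (z - ζ) * f ζ := by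
  show f ζ • Phi hr (z - ζ) = _
  rw [smul_eq_mul, mul_comm]

theorem GB_coe (f : Cn 2 → ℂ) (ζ : Cn 2) :
    (⇑(GB hr f ζ) : Cn 2 → ℂ) = f ζ • (fun z => Phi hr (z - ζ)) := rfl

theorem integrable_GB {f : Cn 2 → ℂ} (hf : Continuous f) (hc : HasCompactSupport f) :
    Integrable (GB hr f) :=
  Continuous.integrable_of_hasCompactSupport (hf.smul (continuous_TB hr)) hc.smul_right

theorem contDiff_GB (f : Cn 2 → ℂ) (ζ : Cn 2) : ContDiff ℝ ∞ (GB hr f ζ) := by
  rw [GB_coe]
  exact (contDiff_Phi_sub hr ζ).const_smul (f ζ)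

theorem cv_ne : (cv : ℝ) ≠ 0 := by
  have := Measure.addHaarScalarFactor_pos_of_isAddHaarMeasure
    (Measure.map LE (volume : Measure (ℂ × ℂ))) (volume : Measure (Cn 2))
  exact_mod_cast this.ne'

/-- `L f = ∫ f h` -/
theorem Fnl.rep {p : Cn 2} {L : (Cn 2 → ℂ) →ₗ[ℂ] ℂ} {C : ℝ} (h : Fnl (PD p (2 * r)) L C)
    {f : Cn 2 → ℂ} (hf : ContDiff ℝ ∞ f) (hfs : tsupport f ⊆ PD p r) :
    L f = ∫ ζ, f ζ * dens hr L ζ := by
  have hs : Sup f p (fun _ => r) := fun z hz b => (hfs (subset_tsupport _ hz) b).le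
  have hc := hs.hasCompactSupport
  have hU0 : CPD p (fun b => if b = 0 then r + r / 2 else r) ⊆ PD p (2 * r) := by
    intro z hz b
    have h0 : ‖z 0 - p 0‖ ≤ r + r / 2 := hz 0
    have h1 : ‖z 1 - p 1‖ ≤ r := hz 1
    fin_cases b
    · show ‖z 0 - p 0‖ < _
      linarith
    · show ‖z 1 - p 1‖ < _
      linarith
  have e1 := h.step hr hf hs 0 hU0
  have hs1 : Sup (Pk (rho hr) 0 f) p _ :=
    hs.pk (k := rho hr) (r := r / 2) (fun w hw => rho_ne hr hw) 0
  have hf1 := contDiff_Pk (integrable_rho hr) 0 hf hc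
  have hU1 : CPD p (fun b => if b = 1 then (if b = 0 then r + r / 2 else r) + r / 2
      else (if b = 0 then r + r / 2 else r)) ⊆ PD p (2 * r) := by
    intro z hz b
    have h0 : ‖z 0 - p 0‖ ≤ r + r / 2 := hz 0
    have h1 : ‖z 1 - p 1‖ ≤ r + r / 2 := hz 1
    fin_cases b
    · show ‖z 0 - p 0‖ < _
      linarith
    · show ‖z 1 - p 1‖ < _
      linarith
  have e2 := h.step hr hf1 hs1 1 hU1
  rw [e1, e2]
  have hKc : IsCompact (CPD p (fun _ => r + r / 2)) := isCompact_CPD _ _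
  have hKU : CPD p (fun _ => r + r / 2) ⊆ PD p (2 * r) := by
    intro z hz b
    have : ‖z b - p b‖ ≤ r + r / 2 := hz b
    linarith
  have hGK : ∀ ζ, ∀ z ∉ CPD p (fun _ => r + r / 2), GB hr f ζ z = 0 := by
    intro ζ z hz
    by_contra hne
    rw [GB_apply] at hne
    apply hz
    intro b
    have h1 : ‖z b - ζ b‖ ≤ r / 2 := sup_Phi hr ζ z (left_ne_zero_of_mul hne) b
    have h2 := hs ζ (right_ne_zero_of_mul hne) b
    calc ‖z b - p b‖ = ‖(z b - ζ b) + (ζ b - p b)‖ := by ring_nf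
      _ ≤ ‖z b - ζ b‖ + ‖ζ b - p b‖ := norm_add_le _ _
      _ ≤ r + r / 2 := by linarith
  have hpp : ∀ z, Pk (rho hr) 1 (Pk (rho hr) 0 f) z = (cv : ℝ) • ∫ ζ, GB hr f ζ z := by
    intro z
    rw [pk_pk hr hf hc]
    simp only [GB_apply]
  have hI : ContDiff ℝ ∞ (fun z => ∫ ζ, GB hr f ζ z) := by
    have h1 : (fun z => ∫ ζ, GB hr f ζ z) =
        fun z => (cv : ℝ)⁻¹ • Pk (rho hr) 1 (Pk (rho hr) 0 f) z := by
      funext z
      rw [hpp, smul_smul, inv_mul_cancel₀ cv_ne, one_smul]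
    rw [h1]
    exact (contDiff_Pk (integrable_rho hr) 1 hf1 hs1.hasCompactSupport).const_smul _
  have hex := h.integral hKc hKU (integrable_GB hr hf.continuous hc) (contDiff_GB hr f) hGK hI
  have h5 : Pk (rho hr) 1 (Pk (rho hr) 0 f) = ((cv : ℝ) : ℂ) • (fun z => ∫ ζ, GB hr f ζ z) := by
    funext z
    rw [hpp]
    simp
  rw [h5, map_smul, hex, smul_eq_mul, ← integral_const_mul]
  refine integral_congr_ae (Eventually.of_forall fun ζ => ?_)
  have h6 : L (GB hr f ζ) = f ζ * L (fun z => Phi hr (z - ζ)) := by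
    rw [GB_coe, map_smul, smul_eq_mul]
  simp only [dens, h6, Complex.real_smul]
  ring

/-- bound for the density -/
theorem Fnl.dens_le {p : Cn 2} {L : (Cn 2 → ℂ) →ₗ[ℂ] ℂ} {C : ℝ} (h : Fnl (PD p (2 * r)) L C)
    {ζ : Cn 2} (hζ : ζ ∈ PD p r) : ‖dens hr L ζ‖ ≤ C * (cv * cPhi hr) := by
  have h1 := h.bd _ (contDiff_Phi_sub hr ζ) (sup_Phi hr ζ).hasCompactSupport
    ((sup_Phi hr ζ).tsupport_subset.trans (CPD_subset_PD hζ)) (cPhi hr)
    (fun z => norm_Phi_le hr _)
  unfold dens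
  rw [norm_smul, Real.norm_of_nonneg (by positivity)]
  calc (cv : ℝ) * ‖L fun z => Phi hr (z - ζ)‖ ≤ cv * (C * cPhi hr) :=
        mul_le_mul_of_nonneg_left h1 (by positivity)
    _ = C * (cv * cPhi hr) := by ring

end

end Crest.Agent.R275.SerY940
end

-- ▼ part R275/SerYc_940
section

/-!
# R275, block C6 on `Y` (helper940): Weyl's lemma for `∂̄` on `ℂ²`, part 3

* `Fnl.dens_holo` : the density is holomorphic.
* `weyl` : a functional on test functions in an open set `Ω ⊆ ℂ²`, locally bounded by the sup norm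
  and killing `∂̄_a f`, is `f ↦ ∫ f h` with `h` holomorphic on `Ω`, with a bound for `h`.
-/

set_option autoImplicit false

open Set Filter Topology Complex MeasureTheory
open scoped ContDiff NNReal

namespace Crest.Agent.R275.SerY940

open Crest.Agent.R275.Geo Crest.Agent.R275.Dol967 Crest.Agent.R080 Crest.Agent.R080.CauchyP

noncomputable section

variable {r : ℝ} (hr : 0 < r)

/-- second order Taylor bound for the mollifier -/
theorem Phi_taylor : ∃ M : ℝ, 0 ≤ M ∧ ∀ x v : Cn 2,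
    ‖Phi hr (x + v) - Phi hr x - fderiv ℝ (Phi hr) x v‖ ≤ M * ‖v‖ * ‖v‖ := by
  have h1 : ContDiff ℝ ∞ (fderiv ℝ (Phi hr)) := (contDiff_Phi hr).fderiv_right (by simp)
  obtain ⟨K, hK⟩ := h1.lipschitzWith_of_hasCompactSupport ((hcs_Phi hr).fderiv ℝ) (by simp)
  refine ⟨K, K.coe_nonneg, fun x v => ?_⟩
  have h2 := (convex_segment (𝕜 := ℝ) x (x + v)).norm_image_sub_le_of_norm_hasFDerivWithin_le'
    (f := Phi hr) (f' := fderiv ℝ (Phi hr)) (φ := fderiv ℝ (Phi hr) x) (C := K * ‖v‖)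
    (x := x) (y := x + v)
    (fun y _ => ((contDiff_Phi hr).differentiable (by simp) y).hasFDerivAt.hasFDerivWithinAt)
    (fun y hy => by
      have h3 := hK.dist_le_mul y x
      rw [dist_eq_norm, dist_eq_norm] at h3
      refine h3.trans (mul_le_mul_of_nonneg_left ?_ K.coe_nonneg)
      rw [segment_eq_image'] at hy
      obtain ⟨t, ht, rfl⟩ := hy
      simp only [add_sub_cancel_left]
      rw [norm_smul, Real.norm_of_nonneg ht.1]
      exact mul_le_of_le_one_left (norm_nonneg _) ht.2)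
    (left_mem_segment ℝ _ _) (right_mem_segment ℝ _ _)
  simpa using h2

/-- the derivative of the translates -/
def dPhi (ζ v : Cn 2) : Cn 2 → ℂ := fun z => fderiv ℝ (Phi hr) (z - ζ) v

theorem contDiff_dPhi (ζ v : Cn 2) : ContDiff ℝ ∞ (dPhi hr ζ v) := by
  have h1 : ContDiff ℝ ∞ (fderiv ℝ (Phi hr)) := (contDiff_Phi hr).fderiv_right (by simp)
  exact (h1.comp (contDiff_id.sub contDiff_const)).clm_apply contDiff_const

theorem sup_dPhi (ζ v : Cn 2) : Sup (dPhi hr ζ v) ζ (fun _ => r / 2) := by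
  intro z hz
  have h1 : z - ζ ∈ tsupport (fderiv ℝ (Phi hr)) := by
    apply subset_tsupport
    intro h0
    apply hz
    simp [dPhi, h0]
  have h2 := tsupport_fderiv_subset ℝ h1
  have h3 : tsupport (Phi hr) ⊆ CPD 0 (fun _ => r / 2) := by
    refine closure_minimal (fun y hy b => ?_) (isClosed_CPD _ _)
    have := Phi_ne hr hy b
    simpa using this
  have h4 := h3 h2
  intro b
  have := h4 b
  simpa using this

/-- the derivative of the density -/
def DL (L : (Cn 2 → ℂ) →ₗ[ℂ] ℂ) (ζ : Cn 2) : Cn 2 →L[ℝ] ℂ :=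
  LinearMap.toContinuousLinearMap
    { toFun := fun v => -L (dPhi hr ζ v)
      map_add' := fun v w => by
        have : dPhi hr ζ (v + w) = dPhi hr ζ v + dPhi hr ζ w := by
          funext z
          simp [dPhi]
        rw [this, map_add]
        ring
      map_smul' := fun c v => by
        have : dPhi hr ζ (c • v) = (c : ℂ) • dPhi hr ζ v := by
          funext z
          simp [dPhi]
        rw [this, map_smul, RingHom.id_apply, Complex.real_smul, smul_eq_mul]
        ring }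

theorem DL_apply (L : (Cn 2 → ℂ) →ₗ[ℂ] ℂ) (ζ v : Cn 2) : DL hr L ζ v = -L (dPhi hr ζ v) := rfl

theorem Fnl.hasFDerivAt {p : Cn 2} {L : (Cn 2 → ℂ) →ₗ[ℂ] ℂ} {C : ℝ}
    (h : Fnl (PD p (2 * r)) L C) {ζ : Cn 2} (hζ : ζ ∈ PD p r) :
    HasFDerivAt (fun ζ => L (fun z => Phi hr (z - ζ))) (DL hr L ζ) ζ := by
  obtain ⟨M, hM0, hM⟩ := Phi_taylor hr
  have hC := h.nonneg
  rw [hasFDerivAt_iff_isLittleO_nhds_zero]
  refine Asymptotics.IsLittleO.of_bound fun c hc => ?_
  have e1 : ∀ᶠ v : Cn 2 in 𝓝 0, ζ + v ∈ PD p r := by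
    have : ContinuousAt (fun v : Cn 2 => ζ + v) 0 := by fun_prop
    refine this.eventually_mem ?_
    rw [add_zero]
    exact (isOpen_PD p r).mem_nhds hζ
  have e2 : ∀ᶠ v : Cn 2 in 𝓝 0, C * M * ‖v‖ ≤ c := by
    have : ContinuousAt (fun v : Cn 2 => C * M * ‖v‖) 0 := by fun_prop
    refine (this.eventually_lt continuousAt_const ?_).mono fun v hv => hv.le
    simpa using hc
  filter_upwards [e1, e2] with v hv1 hv2
  have h1 : L (fun z => Phi hr (z - (ζ + v))) - L (fun z => Phi hr (z - ζ)) - DL hr L ζ v =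
      L (fun z => Phi hr (z - (ζ + v)) - Phi hr (z - ζ) + dPhi hr ζ v z) := by
    rw [DL_apply, sub_neg_eq_add, ← map_sub, ← map_add]
    rfl
  rw [h1]
  have hsup : ∀ z, Phi hr (z - (ζ + v)) - Phi hr (z - ζ) + dPhi hr ζ v z ≠ 0 →
      ∀ b, ‖z b - p b‖ ≤ max (‖(ζ + v) b - p b‖ + r / 2) (‖ζ b - p b‖ + r / 2) := by
    intro z hz b
    by_cases hz1 : Phi hr (z - (ζ + v)) = 0
    · have h2 : ‖z b - ζ b‖ ≤ r / 2 := by
        by_cases hz2 : Phi hr (z - ζ) = 0
        · have hz3 : dPhi hr ζ v z ≠ 0 := by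
            intro h3
            apply hz
            rw [hz1, hz2, h3]
            simp
          exact sup_dPhi hr ζ v z hz3 b
        · exact sup_Phi hr ζ z hz2 b
      refine le_max_of_le_right ?_
      calc ‖z b - p b‖ = ‖(z b - ζ b) + (ζ b - p b)‖ := by ring_nf
        _ ≤ ‖z b - ζ b‖ + ‖ζ b - p b‖ := norm_add_le _ _
        _ ≤ _ := by linarith
    · have h2 : ‖z b - (ζ + v) b‖ ≤ r / 2 := sup_Phi hr (ζ + v) z hz1 b
      refine le_max_of_le_left ?_
      calc ‖z b - p b‖ = ‖(z b - (ζ + v) b) + ((ζ + v) b - p b)‖ := by ring_nf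
        _ ≤ ‖z b - (ζ + v) b‖ + ‖(ζ + v) b - p b‖ := norm_add_le _ _
        _ ≤ _ := by linarith
  have hsup' : Sup (fun z => Phi hr (z - (ζ + v)) - Phi hr (z - ζ) + dPhi hr ζ v z) p
      (fun b => max (‖(ζ + v) b - p b‖ + r / 2) (‖ζ b - p b‖ + r / 2)) := hsup
  have hU : CPD p (fun b => max (‖(ζ + v) b - p b‖ + r / 2) (‖ζ b - p b‖ + r / 2)) ⊆
      PD p (2 * r) := by
    intro z hz b
    have h2 : ‖z b - p b‖ ≤ max (‖(ζ + v) b - p b‖ + r / 2) (‖ζ b - p b‖ + r / 2) := hz b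
    have h3 := hv1 b
    have h4 := hζ b
    refine h2.trans_lt (max_lt ?_ ?_) <;> linarith
  have h5 := h.bd _ (((contDiff_Phi_sub hr (ζ + v)).sub (contDiff_Phi_sub hr ζ)).add
    (contDiff_dPhi hr ζ v)) hsup'.hasCompactSupport (hsup'.tsupport_subset.trans hU)
    (M * ‖v‖ * ‖v‖) (fun z => by
      have h6 := hM (z - (ζ + v)) v
      have h7 := hM (z - ζ) (-v)
      rw [norm_neg] at h7
      have e : Phi hr (z - (ζ + v)) - Phi hr (z - ζ) + dPhi hr ζ v z =
          Phi hr (z - ζ + -v) - Phi hr (z - ζ) - fderiv ℝ (Phi hr) (z - ζ) (-v) := by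
        rw [map_neg, sub_neg_eq_add, show z - ζ + -v = z - (ζ + v) by abel]
        rfl
      rw [e]
      exact h7)
  refine h5.trans ?_
  calc C * (M * ‖v‖ * ‖v‖) = (C * M * ‖v‖) * ‖v‖ := by ring
    _ ≤ c * ‖v‖ := mul_le_mul_of_nonneg_right hv2 (norm_nonneg _)

theorem dbj_Phi_sub (a : Fin 2) (ζ z : Cn 2) :
    dbj a (fun y => Phi hr (y - ζ)) z = dbj a (Phi hr) (z - ζ) := by
  have h : fderiv ℝ (fun y => Phi hr (y - ζ)) z = fderiv ℝ (Phi hr) (z - ζ) := by
    have h1 : HasFDerivAt (Phi hr) (fderiv ℝ (Phi hr) (z - ζ)) (z - ζ) :=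
      ((contDiff_Phi hr).differentiable (by simp) _).hasFDerivAt
    have h2 := h1.comp z ((hasFDerivAt_id z).sub_const ζ)
    rw [ContinuousLinearMap.comp_id] at h2
    exact h2.fderiv
  simp only [dbj, h]

/-- the density is holomorphic -/
theorem Fnl.dens_holo {p : Cn 2} {L : (Cn 2 → ℂ) →ₗ[ℂ] ℂ} {C : ℝ}
    (h : Fnl (PD p (2 * r)) L C) : DifferentiableOn ℂ (dens hr L) (PD p r) := by
  intro ζ hζ
  have h1 := h.hasFDerivAt hr hζ
  have h2 : DifferentiableAt ℂ (fun ζ => L (fun z => Phi hr (z - ζ))) ζ := by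
    refine differentiableAt_of_dbj h1.differentiableAt fun a => ?_
    simp only [dbj, h1.fderiv, DL_apply]
    have h3 := h.db a _ (contDiff_Phi_sub hr ζ) (sup_Phi hr ζ).hasCompactSupport
      ((sup_Phi hr ζ).tsupport_subset.trans (CPD_subset_PD hζ))
    have h4 : dbj a (fun z => Phi hr (z - ζ)) = (1 / 2 : ℂ) •
        (dPhi hr ζ (EuclideanSpace.single a 1) + I • dPhi hr ζ (EuclideanSpace.single a I)) := by
      funext z
      rw [dbj_Phi_sub]
      rfl
    rw [h4, map_smul, map_add, map_smul] at h3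
    rw [smul_neg, ← neg_add, smul_neg, h3, neg_zero]
  have h3 : DifferentiableAt ℂ (dens hr L) ζ := by
    have : dens hr L = fun ζ => ((cv : ℝ) : ℂ) • L (fun z => Phi hr (z - ζ)) := by
      funext ζ
      simp [dens]
    rw [this]
    exact h2.const_smul ((cv : ℝ) : ℂ)
  exact h3.differentiableWithinAt

/-! ### uniqueness -/

/-- two continuous densities of the same functional agree -/
theorem eq_of_integral {V : Set (Cn 2)} (hV : IsOpen V) {h1 h2 : Cn 2 → ℂ}
    (c1 : ContinuousOn h1 V) (c2 : ContinuousOn h2 V)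
    (h : ∀ f : Cn 2 → ℂ, ContDiff ℝ ∞ f → HasCompactSupport f → tsupport f ⊆ V →
      ∫ z, f z * h1 z = ∫ z, f z * h2 z) {z : Cn 2} (hz : z ∈ V) : h1 z = h2 z := by
  have key : ∀ k : Cn 2 → ℂ, ContinuousOn k V → ∀ f : Cn 2 → ℂ, Continuous f →
      HasCompactSupport f → tsupport f ⊆ V → Integrable (fun z => f z * k z) := by
    intro k hk f hf hfc hfV
    have h5 : Continuous fun z => f z * k z := by
      rw [continuous_iff_continuousAt]
      intro z
      by_cases hz : z ∈ V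
      · exact hf.continuousAt.mul (hk.continuousAt (hV.mem_nhds hz))
      · have h6 : (fun z => f z * k z) =ᶠ[𝓝 z] fun _ => 0 := by
          filter_upwards [(isClosed_tsupport f).isOpen_compl.mem_nhds (fun h => hz (hfV h))]
            with y hy
          rw [image_eq_zero_of_notMem_tsupport hy, zero_mul]
        exact continuousAt_const.congr h6.symm
    exact h5.integrable_of_hasCompactSupport hfc.mul_right
  have hae := hV.ae_eq_zero_of_integral_contDiff_smul_eq_zero (μ := (volume : Measure (Cn 2)))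
    (f := fun z => h1 z - h2 z) ((c1.sub c2).locallyIntegrableOn hV.measurableSet) (by
      intro g hg hgc hgV
      have hgs : ContDiff ℝ ∞ (fun z => (g z : ℂ)) := ofRealCLM.contDiff.comp hg
      have hts : tsupport (fun z => (g z : ℂ)) = tsupport g := by
        unfold tsupport
        congr 1
        ext z
        simp
      have hgc' : HasCompactSupport (fun z => (g z : ℂ)) := by
        unfold HasCompactSupport
        rw [hts]
        exact hgc
      have h3 := h _ hgs hgc' (by rw [hts]; exact hgV)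
      have i1 := key h1 c1 _ hgs.continuous hgc' (by rw [hts]; exact hgV)
      have i2 := key h2 c2 _ hgs.continuous hgc' (by rw [hts]; exact hgV)
      have h4 : ∫ z, g z • (h1 z - h2 z) = ∫ z, ((g z : ℂ) * h1 z - (g z : ℂ) * h2 z) := by
        refine integral_congr_ae (Eventually.of_forall fun z => ?_)
        simp only [Complex.real_smul]
        ring
      rw [h4, integral_sub i1 i2, h3, sub_self])
  by_contra hne
  have hne' : h1 z - h2 z ≠ 0 := sub_ne_zero.2 hne
  have hcz : ContinuousAt (fun z => h1 z - h2 z) z :=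
    (c1.sub c2).continuousAt (hV.mem_nhds hz)
  have hev : ∀ᶠ y in 𝓝 z, h1 y - h2 y ≠ 0 ∧ y ∈ V :=
    (hcz.eventually_ne hne').and (hV.mem_nhds hz)
  obtain ⟨W, hW, hWo, hzW⟩ := eventually_nhds_iff.1 hev
  have hpos : 0 < volume W := hWo.measure_pos volume ⟨z, hzW⟩
  have hnull : volume W = 0 := by
    refine measure_mono_null (fun y hy => ?_) (ae_iff.1 hae)
    simp only [mem_ofPred_eq, Classical.not_imp]
    exact ⟨(hW y hy).2, (hW y hy).1⟩
  exact absurd hnull hpos.ne'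

/-! ### localisation of test functions -/

/-- test functions in `U` -/
structure Tst (U : Set (Cn 2)) (f : Cn 2 → ℂ) : Prop where
  sm : ContDiff ℝ ∞ f
  cpt : HasCompactSupport f
  sub : tsupport f ⊆ U

theorem Tst.mono {U V : Set (Cn 2)} {f : Cn 2 → ℂ} (h : Tst U f) (hUV : U ⊆ V) : Tst V f :=
  ⟨h.sm, h.cpt, h.sub.trans hUV⟩

theorem Tst.zero (U : Set (Cn 2)) : Tst U (0 : Cn 2 → ℂ) :=
  ⟨contDiff_const, by simp [HasCompactSupport], by simp [tsupport]⟩

theorem Tst.add {U : Set (Cn 2)} {f f' : Cn 2 → ℂ} (h : Tst U f) (h' : Tst U f') :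
    Tst U (f + f') := by
  refine ⟨h.sm.add h'.sm, h.cpt.add h'.cpt, ?_⟩
  exact (tsupport_add f f').trans (union_subset h.sub h'.sub)

theorem local_induction {U : Set (Cn 2)} {P : (Cn 2 → ℂ) → Prop} (h0 : P 0)
    (hadd : ∀ f f', Tst U f → Tst U f' → P f → P f' → P (f + f')) (W : Cn 2 → Set (Cn 2))
    (hWo : ∀ p ∈ U, IsOpen (W p)) (hpW : ∀ p ∈ U, p ∈ W p) (hWU : ∀ p ∈ U, W p ⊆ U)
    (hW : ∀ p ∈ U, ∀ f, Tst (W p) f → P f) {φ : Cn 2 → ℂ} (hφ : Tst U φ) : P φ := by
  have hKc : IsCompact (tsupport φ) := hφ.cpt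
  obtain ⟨f, hf⟩ := SmoothPartitionOfUnity.exists_isSubordinate (modelWithCornersSelf ℝ (Cn 2))
    (isClosed_tsupport φ) (fun p : tsupport φ => W p) (fun p => hWo _ (hφ.sub p.2))
    (fun z hz => mem_iUnion.2 ⟨⟨z, hz⟩, hpW z (hφ.sub hz)⟩)
  have hfin : {i | (Function.support (f i) ∩ tsupport φ).Nonempty}.Finite :=
    f.locallyFinite.finite_nonempty_inter_compact hKc
  set F := hfin.toFinset with hF
  have hsum : φ = ∑ i ∈ F, fun z => ((f i z : ℝ) : ℂ) * φ z := by
    funext z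
    rw [Finset.sum_apply, ← Finset.sum_mul]
    by_cases hz : z ∈ tsupport φ
    · have h1 := f.sum_eq_one hz
      have h2 : ∑ᶠ i, f i z = ∑ i ∈ F, f i z := by
        apply finsum_eq_sum_of_support_subset
        intro i hi
        rw [hF, Finite.coe_toFinset]
        exact ⟨z, hi, hz⟩
      rw [h2] at h1
      have h3 : (∑ i ∈ F, ((f i z : ℝ) : ℂ)) = 1 := by exact_mod_cast h1
      rw [h3, one_mul]
    · rw [image_eq_zero_of_notMem_tsupport hz, mul_zero]
  have hT : ∀ i : tsupport φ, Tst (W i) (fun z => ((f i z : ℝ) : ℂ) * φ z) := by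
    intro i
    refine ⟨?_, hφ.cpt.mul_left, ?_⟩
    · have h1 : ContDiff ℝ ∞ (f i) := (f i).contMDiff.contDiff
      exact (Complex.ofRealCLM.contDiff.comp h1).mul hφ.sm
    · refine Subset.trans ?_ (hf i)
      apply closure_mono
      intro z hz
      have : ((f i z : ℝ) : ℂ) ≠ 0 := left_ne_zero_of_mul hz
      exact fun h => this (by rw [h, Complex.ofReal_zero])
  rw [hsum]
  have h9 : Tst U (∑ i ∈ F, fun z => ((f i z : ℝ) : ℂ) * φ z) ∧
      P (∑ i ∈ F, fun z => ((f i z : ℝ) : ℂ) * φ z) := by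
    refine Finset.sum_induction _ (fun g => Tst U g ∧ P g) (fun a b ha hb =>
      ⟨ha.1.add hb.1, hadd a b ha.1 hb.1 ha.2 hb.2⟩) ⟨Tst.zero U, h0⟩ ?_
    intro i _
    exact ⟨(hT i).mono (hWU i (hφ.sub i.2)), hW i (hφ.sub i.2) _ (hT i)⟩
  exact h9.2

theorem integrable_mul {U : Set (Cn 2)} (hU : IsOpen U) {f h : Cn 2 → ℂ} (hf : Tst U f)
    (hh : ContinuousOn h U) : Integrable (fun z => f z * h z) := by
  have h5 : Continuous fun z => f z * h z := by
    rw [continuous_iff_continuousAt]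
    intro z
    by_cases hz : z ∈ U
    · exact hf.sm.continuous.continuousAt.mul (hh.continuousAt (hU.mem_nhds hz))
    · have h6 : (fun z => f z * h z) =ᶠ[𝓝 z] fun _ => 0 := by
        filter_upwards [(isClosed_tsupport f).isOpen_compl.mem_nhds (fun h => hz (hf.sub h))]
          with y hy
        rw [image_eq_zero_of_notMem_tsupport hy, zero_mul]
      exact continuousAt_const.congr h6.symm
  exact h5.integrable_of_hasCompactSupport hf.cpt.mul_right

/-! ### Weyl's lemma -/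

/-- **Weyl's lemma for `∂̄`** (functionals of order zero) -/
theorem weyl {U : Set (Cn 2)} (hU : IsOpen U) {L : (Cn 2 → ℂ) →ₗ[ℂ] ℂ}
    (hL : ∀ p ∈ U, ∃ r > 0, ∃ C, PD p (2 * r) ⊆ U ∧ Fnl (PD p (2 * r)) L C) :
    ∃ h : Cn 2 → ℂ, DifferentiableOn ℂ h U ∧ (∀ f, Tst U f → L f = ∫ z, f z * h z) ∧
      ∀ (p : Cn 2) (r : ℝ) (hr : 0 < r) (C : ℝ), PD p (2 * r) ⊆ U → Fnl (PD p (2 * r)) L C →
        ∀ z ∈ PD p r, ‖h z‖ ≤ C * (cv * cPhi hr) := by
  classical
  choose! ρ hρ C hρU hF using hL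
  set h : Cn 2 → ℂ := fun z => if hz : z ∈ U then dens (hρ z hz) L z else 0 with hh
  -- the densities agree
  have hagree : ∀ (p : Cn 2) (r : ℝ) (hr : 0 < r) (C' : ℝ), PD p (2 * r) ⊆ U →
      Fnl (PD p (2 * r)) L C' → ∀ z ∈ PD p r, h z = dens hr L z := by
    intro p r hr C' hpU hFp z hz
    have hzU : z ∈ U := hpU (PD_mono (by linarith) hz)
    rw [hh]
    simp only [dif_pos hzU]
    have hV : IsOpen (PD p r ∩ PD z (ρ z)) := (isOpen_PD _ _).inter (isOpen_PD _ _)
    refine eq_of_integral hV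
      (((hF z hzU).dens_holo (hρ z hzU)).continuousOn.mono inter_subset_right)
      ((hFp.dens_holo hr).continuousOn.mono inter_subset_left) ?_
      ⟨hz, mem_PD_self (hρ z hzU)⟩
    intro f h1 h2 h3
    rw [← (hF z hzU).rep (hρ z hzU) h1 (h3.trans inter_subset_right),
      ← hFp.rep hr h1 (h3.trans inter_subset_left)]
  have hloc : ∀ p ∈ U, ∀ z ∈ PD p (ρ p), ∀ hp : p ∈ U, h z = dens (hρ p hp) L z :=
    fun p hp z hz _ => hagree p (ρ p) (hρ p hp) (C p) (hρU p hp) (hF p hp) z hz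
  have hhol : DifferentiableOn ℂ h U := by
    intro p hp
    have h1 := ((hF p hp).dens_holo (hρ p hp)).differentiableAt
      ((isOpen_PD p (ρ p)).mem_nhds (mem_PD_self (hρ p hp)))
    have h2 : h =ᶠ[𝓝 p] dens (hρ p hp) L := by
      filter_upwards [(isOpen_PD p (ρ p)).mem_nhds (mem_PD_self (hρ p hp))] with z hz
      exact hloc p hp z hz hp
    exact (h1.congr_of_eventuallyEq h2).differentiableWithinAt
  refine ⟨h, hhol, ?_, ?_⟩
  · intro f hf
    refine local_induction (U := U) (P := fun f => L f = ∫ z, f z * h z) ?_ ?_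
      (fun p => PD p (ρ p)) (fun p _ => isOpen_PD _ _) (fun p hp => mem_PD_self (hρ p hp))
      (fun p hp => (PD_mono (by have := hρ p hp; linarith)).trans (hρU p hp)) ?_ hf
    · simp
    · intro f f' tf tf' e e'
      rw [map_add, e, e', ← integral_add (integrable_mul hU tf hhol.continuousOn)
        (integrable_mul hU tf' hhol.continuousOn)]
      refine integral_congr_ae (Eventually.of_forall fun z => ?_)
      simp only [Pi.add_apply]
      ring
    · intro p hp f tf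
      rw [(hF p hp).rep (hρ p hp) tf.sm tf.sub]
      refine integral_congr_ae (Eventually.of_forall fun z => ?_)
      by_cases hz : z ∈ PD p (ρ p)
      · simp only [hloc p hp z hz hp]
      · have : f z = 0 := image_eq_zero_of_notMem_tsupport fun h => hz (tf.sub h)
        simp only [this, zero_mul]
  · intro p r hr C' hpU hFp z hz
    rw [hagree p r hr C' hpU hFp z hz]
    exact hFp.dens_le hr hz

end

end Crest.Agent.R275.SerY940
end

-- ▼ part R275/SerYd_940
section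

/-!
# R275, block C6 on `Y` (helper940): functionals on `(0,2)`-forms killing `∂̄` are holomorphic
sections of the dual bundle

`exists_section` : a linear functional `lam` on raw families, locally bounded by the sup norm on
compactly supported `(0,2)`-forms with values in `L`, with `lam (∂̄ α) = 0` for compactly supported
`(0,1)`-forms `α`, is given by a holomorphic section `w` of `K ⊗ L⁻¹`:
`lam (ext2 i f) = ∫ f w_i`, with bounds for `w_i`.
-/

set_option autoImplicit false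
set_option linter.unusedSectionVars false

open Set Filter Topology Complex MeasureTheory
open scoped ContDiff NNReal ComplexConjugate

namespace Crest.Agent.R275.SerY940

open Crest.Agent.R275.Geo Crest.Agent.R275.Dol967 Crest.Agent.R275.Fm96 Crest.Agent.R275.FmExt861

noncomputable section

variable {M : Type} [TopologicalSpace M] {A : Atl 2 M}

/-! ### change of variables -/

/-- the Jacobian determinant `det ∂z^j/∂z^i` -/
def dj (A : Atl 2 M) (i j : A.ι) (x : M) : ℂ := (Matrix.of (A.J i j x)).det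

theorem dj_eq (i j : A.ι) (x : M) :
    dj A i j x = A.J i j x 0 0 * A.J i j x 1 1 - A.J i j x 0 1 * A.J i j x 1 0 := by
  simp [dj, Matrix.det_fin_two]

theorem conj_dj (i j : A.ι) (x : M) : conj (dj A i j x) = dJ A i j x := by
  rw [dj_eq, dJ, map_sub, map_mul, map_mul]

theorem dj_mul {i j k : A.ι} {x : M}
    (hx : x ∈ (A.e i).source ∩ (A.e j).source ∩ (A.e k).source) :
    dj A i k x = dj A i j x * dj A j k x := by
  have h := dJ_mul hx
  rw [← conj_dj, ← conj_dj, ← conj_dj, ← map_mul] at h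
  exact (starRingEnd ℂ).injective h

theorem dj_self {i : A.ι} {x : M} (hx : x ∈ (A.e i).source) : dj A i i x = 1 := by
  have h := dJ_self hx
  rw [← conj_dj] at h
  have := congrArg conj h
  simpa using this

theorem isOpen_ov (A : Atl 2 M) (i j : A.ι) : IsOpen (A.ov i j) := by
  have : A.ov i j = (A.e i).symm.source ∩ (A.e i).symm ⁻¹' (A.e j).source := by
    ext z; simp [Atl.ov]
  rw [this]
  exact (A.e i).symm.isOpen_inter_preimage (A.e j).open_source

theorem det_dj (i j : A.ι) (x : M) :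
    dj A i j x =
      LinearMap.det ((fderiv ℂ (fun z => A.e j ((A.e i).symm z)) (A.e i x) : Cn 2 →L[ℂ] Cn 2) :
        Cn 2 →ₗ[ℂ] Cn 2) := by
  rw [dj, ← LinearMap.det_toMatrix (EuclideanSpace.basisFun (Fin 2) ℂ).toBasis]
  congr 1

theorem ov_mem {i j : A.ι} {z : Cn 2} (hz : z ∈ A.ov i j) :
    A.e j ((A.e i).symm z) ∈ A.ov j i := by
  refine ⟨(A.e j).map_source hz.2, ?_⟩
  rw [(A.e j).left_inv hz.2]
  exact (A.e i).map_target hz.1

theorem ov_inv {i j : A.ι} {z : Cn 2} (hz : z ∈ A.ov i j) :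
    A.e i ((A.e j).symm (A.e j ((A.e i).symm z))) = z := by
  rw [(A.e j).left_inv hz.2, (A.e i).right_inv hz.1]

theorem ov_image (i j : A.ι) : (fun z => A.e j ((A.e i).symm z)) '' A.ov i j = A.ov j i := by
  ext y
  constructor
  · rintro ⟨x, hx, rfl⟩
    exact ov_mem hx
  · intro hy
    exact ⟨A.e i ((A.e j).symm y), ov_mem hy, ov_inv hy⟩

theorem ov_injOn (i j : A.ι) : InjOn (fun z => A.e j ((A.e i).symm z)) (A.ov i j) := by
  intro x hx y hy h
  have h' : A.e j ((A.e i).symm x) = A.e j ((A.e i).symm y) := h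
  rw [← ov_inv hx, ← ov_inv hy, h']

/-- change of variables between two charts -/
theorem int_change (i j : A.ι) (F : Cn 2 → ℂ) :
    ∫ z in A.ov j i, F z =
      ∫ z in A.ov i j, ((‖dj A i j ((A.e i).symm z)‖ ^ 2 : ℝ) : ℂ) * F (A.e j ((A.e i).symm z)) := by
  rw [← ov_image i j]
  have hL : ∀ z ∈ A.ov i j, HasFDerivWithinAt (fun z => A.e j ((A.e i).symm z))
      ((fderiv ℂ (fun z => A.e j ((A.e i).symm z)) z).restrictScalars ℝ) (A.ov i j) z := by
    intro z hz
    have h1 : DifferentiableAt ℂ (fun z => A.e j ((A.e i).symm z)) z :=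
      (A.holo i j).differentiableAt ((isOpen_ov A i j).mem_nhds hz)
    exact (h1.hasFDerivAt.restrictScalars ℝ).hasFDerivWithinAt
  rw [integral_image_eq_integral_abs_det_fderiv_smul volume (isOpen_ov A i j).measurableSet
    hL (ov_injOn i j) F]
  apply setIntegral_congr_fun (isOpen_ov A i j).measurableSet
  intro z hz
  have h2 : ((fderiv ℂ (fun z => A.e j ((A.e i).symm z)) z).restrictScalars ℝ).det =
      ‖dj A i j ((A.e i).symm z)‖ ^ 2 := by
    rw [det_dj, (A.e i).right_inv hz.1]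
    show LinearMap.det (((fderiv ℂ (fun z => A.e j ((A.e i).symm z)) z : Cn 2 →L[ℂ] Cn 2) :
      Cn 2 →ₗ[ℂ] Cn 2).restrictScalars ℝ) = _
    rw [LinearMap.det_restrictScalars, Algebra.norm_complex_apply, Complex.normSq_eq_norm_sq]
  have h3 : |‖dj A i j ((A.e i).symm z)‖ ^ 2| = ‖dj A i j ((A.e i).symm z)‖ ^ 2 :=
    abs_of_nonneg (by positivity)
  simp only [h2, h3, Complex.real_smul]

/-! ### reading a compactly supported form in another chart -/

variable {g : A.ι → A.ι → M → ℂ}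

theorem Tst.cs {i : A.ι} {f : Cn 2 → ℂ} (h : Tst (A.e i).target f) : Cs A i f :=
  ⟨h.sm, h.cpt, h.sub⟩

open Classical in
/-- `ext2 i f` read in the chart `j` -/
def rdj (A : Atl 2 M) (g : A.ι → A.ι → M → ℂ) (i j : A.ι) (f : Cn 2 → ℂ) : Cn 2 → ℂ := fun z =>
  if z ∈ (A.e j).target then ext2 A g i f j ((A.e j).symm z) else 0

theorem rdj_of_mem {i j : A.ι} {f : Cn 2 → ℂ} {z : Cn 2} (hz : z ∈ (A.e j).target) :
    rdj A g i j f z = ext2 A g i f j ((A.e j).symm z) := if_pos hz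

theorem KK_sub {i j : A.ι} {f : Cn 2 → ℂ} (h : Tst (A.ov i j) f) : KK A i f ⊆ (A.e j).source := by
  rintro _ ⟨z, hz, rfl⟩
  exact (h.sub hz).2

theorem tst_ov {i j : A.ι} {f : Cn 2 → ℂ} (h : Tst (A.ov i j) f) : Tst (A.e i).target f :=
  h.mono fun _ hz => hz.1

theorem rdj_tst [T2Space M] (hg : IsLC A g) {i j : A.ι} {f : Cn 2 → ℂ} (h : Tst (A.ov i j) f) :
    Tst (A.e j).target (rdj A g i j f) := by
  have hcs := (tst_ov h).cs
  set K : Set (Cn 2) := (A.e j) '' (KK A i f) with hK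
  have hKc : IsCompact K := hcs.compact.image_of_continuousOn
    ((A.e j).continuousOn.mono (KK_sub h))
  have hKt : K ⊆ (A.e j).target := by
    rintro _ ⟨x, hx, rfl⟩
    exact (A.e j).map_source (KK_sub h hx)
  have hne : ∀ z, rdj A g i j f z ≠ 0 → z ∈ K := by
    intro z hz
    by_cases hzt : z ∈ (A.e j).target
    · rw [rdj_of_mem hzt] at hz
      refine ⟨(A.e j).symm z, ?_, (A.e j).right_inv hzt⟩
      by_contra hx
      exact hz (ext2_off hx)
    · exact absurd (if_neg hzt) hz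
  have hsup : tsupport (rdj A g i j f) ⊆ K := closure_minimal hne hKc.isClosed
  refine ⟨?_, hKc.of_isClosed_subset (isClosed_tsupport _) hsup, hsup.trans hKt⟩
  rw [contDiff_iff_contDiffAt]
  intro z
  by_cases hz : z ∈ (A.e j).target
  · have h1 := ((ext2_mem hg hcs univ).sm j ((A.e j).symm z) ((A.e j).map_target hz)
      (mem_univ _)).self
    rw [(A.e j).right_inv hz] at h1
    refine h1.congr_of_eventuallyEq ?_
    filter_upwards [(A.e j).open_target.mem_nhds hz] with y hy using rdj_of_mem hy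
  · have h1 : rdj A g i j f =ᶠ[𝓝 z] fun _ => 0 := by
      filter_upwards [hKc.isClosed.isOpen_compl.mem_nhds (fun h => hz (hKt h))] with y hy
      by_contra h
      exact hy (hne y h)
    exact contDiffAt_const.congr_of_eventuallyEq h1

theorem ext2_rdj [T2Space M] (hg : IsLC A g) {i j : A.ι} {f : Cn 2 → ℂ} (h : Tst (A.ov i j) f) :
    ext2 A g j (rdj A g i j f) = ext2 A g i f := by
  have hcs := (tst_ov h).cs
  have hcs' := (rdj_tst hg h).cs
  funext k x
  by_cases hx : x ∈ (A.e j).source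
  · refine IsZ2.eq_of (ext2_mem hg hcs' univ) (ext2_mem hg hcs univ) hx (mem_univ x) ?_ k
    rw [ext2_self hg hx, pull_of_mem hx, rdj_of_mem ((A.e j).map_source hx), (A.e j).left_inv hx]
  · rw [ext2_off (fun h' => hx (hcs'.sub_source h')), ext2_off (fun h' => hx (KK_sub h h'))]

/-! ### the functional in a chart -/

theorem ext2_add (i : A.ι) (c c' : Cn 2 → ℂ) :
    ext2 A g i (c + c') = ext2 A g i c + ext2 A g i c' := by
  funext j x
  simp only [ext2, pull, Pi.add_apply]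
  split_ifs <;> ring

theorem ext2_smul (i : A.ι) (t : ℂ) (c : Cn 2 → ℂ) :
    ext2 A g i (t • c) = t • ext2 A g i c := by
  funext j x
  simp only [ext2, pull, Pi.smul_apply, smul_eq_mul]
  split_ifs <;> ring

/-- the functional `f ↦ lam (ext2 i f)` -/
def chL (A : Atl 2 M) (g : A.ι → A.ι → M → ℂ) (lam : (A.ι → M → ℂ) →ₗ[ℂ] ℂ) (i : A.ι) :
    (Cn 2 → ℂ) →ₗ[ℂ] ℂ where
  toFun f := lam (ext2 A g i f)
  map_add' f f' := by rw [ext2_add, map_add]
  map_smul' t f := by rw [ext2_smul, map_smul, RingHom.id_apply]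

theorem chL_apply (lam : (A.ι → M → ℂ) →ₗ[ℂ] ℂ) (i : A.ι) (f : Cn 2 → ℂ) :
    chL A g lam i f = lam (ext2 A g i f) := rfl

/-- the bound of the functional in the chart `i` on test functions in `U` -/
def LBd (A : Atl 2 M) (g : A.ι → A.ι → M → ℂ) (lam : (A.ι → M → ℂ) →ₗ[ℂ] ℂ) (i : A.ι)
    (U : Set (Cn 2)) (C : ℝ) : Prop :=
  ∀ f, Tst U f → ∀ m : ℝ, (∀ z, ‖f z‖ ≤ m) → ‖lam (ext2 A g i f)‖ ≤ C * m

theorem LBd.mono {lam : (A.ι → M → ℂ) →ₗ[ℂ] ℂ} {i : A.ι} {U V : Set (Cn 2)} {C : ℝ}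
    (h : LBd A g lam i U C) (hVU : V ⊆ U) : LBd A g lam i V C :=
  fun f hf => h f (hf.mono hVU)

theorem zero_tst (i : A.ι) : Tst (A.e i).target (fun _ => (0 : ℂ)) := Tst.zero _

theorem fnl_of_lbd [T2Space M] (hg : IsLC A g) {lam : (A.ι → M → ℂ) →ₗ[ℂ] ℂ}
    (hd : ∀ i (c : Fin 2 → Cn 2 → ℂ), (∀ a, Cs A i (c a)) → lam (d1 A (ext1 A g i c)) = 0)
    {i : A.ι} {U : Set (Cn 2)} (hU : U ⊆ (A.e i).target) {C : ℝ} (h : LBd A g lam i U C) :
    Fnl U (chL A g lam i) C where
  bd f h1 h2 h3 m hm := h f ⟨h1, h2, h3⟩ m hm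
  db a f h1 h2 h3 := by
    have hcs : Cs A i f := ⟨h1, h2, h3.trans hU⟩
    have hcs0 : Cs A i (fun _ => (0 : ℂ)) := (zero_tst i).cs
    have h0 : ∀ b z, dbj b (fun _ : Cn 2 => (0 : ℂ)) z = 0 := fun b z => by simp [dbj]
    fin_cases a
    · have h4 := hd i ![fun _ => 0, f] (fun a => by fin_cases a; exacts [hcs0, hcs])
      have h5 : d1 A (ext1 A g i ![fun _ => 0, f]) = ext2 A g i (dbj 0 f) := by
        funext j x
        rw [d1_ext1 hg (fun a => by fin_cases a; exacts [hcs0, hcs])]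
        congr 1
        funext z
        simp [h0]
      rw [h5] at h4
      exact h4
    · have h4 := hd i ![f, fun _ => 0] (fun a => by fin_cases a; exacts [hcs, hcs0])
      have h5 : d1 A (ext1 A g i ![f, fun _ => 0]) = -ext2 A g i (dbj 1 f) := by
        funext j x
        rw [d1_ext1 hg (fun a => by fin_cases a; exacts [hcs, hcs0])]
        have h6 : (fun z => dbj 0 (![f, fun _ => 0] 1) z - dbj 1 (![f, fun _ => 0] 0) z) =
            (-1 : ℂ) • dbj 1 f := by
          funext z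
          simp [h0]
        rw [h6, ext2_smul]
        simp
      rw [h5, map_neg, neg_eq_zero] at h4
      exact h4

/-! ### the section -/

/-- the transformation law of `K ⊗ L⁻¹` -/
theorem density_tr [T2Space M] (hg : IsLC A g) {lam : (A.ι → M → ℂ) →ₗ[ℂ] ℂ}
    {h : A.ι → Cn 2 → ℂ} (hh : ∀ i, DifferentiableOn ℂ (h i) (A.e i).target)
    (hr : ∀ i f, Tst (A.e i).target f → lam (ext2 A g i f) = ∫ z, f z * h i z)
    {i j : A.ι} {x : M} (hx : x ∈ (A.e i).source ∩ (A.e j).source) :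
    h i (A.e i x) = dj A i j x * g j i x * h j (A.e j x) := by
  set k : Cn 2 → ℂ := fun z => dj A i j ((A.e i).symm z) * g j i ((A.e i).symm z) *
    h j (A.e j ((A.e i).symm z)) with hk
  have hz : A.e i x ∈ A.ov i j := by
    refine ⟨(A.e i).map_source hx.1, ?_⟩
    rw [(A.e i).left_inv hx.1]
    exact hx.2
  have hkc : ContinuousOn k (A.ov i j) := by
    intro z hz
    have hxz : (A.e i).symm z ∈ (A.e i).source ∩ (A.e j).source :=
      ⟨(A.e i).map_target hz.1, hz.2⟩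
    have h1 : ContinuousAt (fun z => dj A i j ((A.e i).symm z)) z := by
      have e : (fun z => dj A i j ((A.e i).symm z)) =
          fun z => A.J i j ((A.e i).symm z) 0 0 * A.J i j ((A.e i).symm z) 1 1 -
            A.J i j ((A.e i).symm z) 0 1 * A.J i j ((A.e i).symm z) 1 0 := by
        funext z; rw [dj_eq]
      rw [e]
      have hJ : ∀ b a, ContinuousAt (fun z => A.J i j ((A.e i).symm z) b a) z := by
        intro b a
        have := (J_holP hxz b a).self.continuousAt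
        rwa [(A.e i).right_inv hz.1] at this
      exact ((hJ 0 0).mul (hJ 1 1)).sub ((hJ 0 1).mul (hJ 1 0))
    have h2 : ContinuousAt (fun z => g j i ((A.e i).symm z)) z := by
      have := ((hg.hol j i _ hxz.symm).change hxz).self.continuousAt
      rwa [(A.e i).right_inv hz.1] at this
    have h3 : ContinuousAt (fun z => h j (A.e j ((A.e i).symm z))) z := by
      have h4 : ContinuousAt (h j) (A.e j ((A.e i).symm z)) :=
        ((hh j).differentiableAt ((A.e j).open_target.mem_nhds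
          ((A.e j).map_source hz.2))).continuousAt
      have h5 : ContinuousAt (fun z => A.e j ((A.e i).symm z)) z :=
        ((A.holo i j).differentiableAt ((isOpen_ov A i j).mem_nhds hz)).continuousAt
      exact ContinuousAt.comp (f := fun z => A.e j ((A.e i).symm z)) h4 h5
    exact ((h1.mul h2).mul h3).continuousWithinAt
  have key : h i (A.e i x) = k (A.e i x) := by
    refine eq_of_integral (isOpen_ov A i j) ((hh i).continuousOn.mono fun z hz => hz.1) hkc ?_ hz
    intro f h1 h2 h3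
    have hf : Tst (A.ov i j) f := ⟨h1, h2, h3⟩
    rw [← hr i f (tst_ov hf), ← ext2_rdj hg hf, hr j _ (rdj_tst hg hf)]
    have e1 : ∫ z, rdj A g i j f z * h j z = ∫ z in A.ov j i, rdj A g i j f z * h j z := by
      symm
      apply setIntegral_eq_integral_of_forall_compl_eq_zero
      intro z hz
      by_cases hzt : z ∈ (A.e j).target
      · rw [rdj_of_mem hzt, ext2_off, zero_mul]
        intro hK
        apply hz
        exact ⟨hzt, (tst_ov hf).cs.sub_source hK⟩
      · rw [show rdj A g i j f z = 0 from if_neg hzt, zero_mul]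
    have e2 : ∫ z, f z * k z = ∫ z in A.ov i j, f z * k z := by
      symm
      apply setIntegral_eq_integral_of_forall_compl_eq_zero
      intro z hz
      rw [image_eq_zero_of_notMem_tsupport (fun h => hz (h3 h)), zero_mul]
    rw [e1, e2, int_change]
    apply setIntegral_congr_fun (isOpen_ov A i j).measurableSet
    intro z hz
    have hxz : (A.e i).symm z ∈ (A.e i).source ∩ (A.e j).source :=
      ⟨(A.e i).map_target hz.1, hz.2⟩
    have e3 : rdj A g i j f (A.e j ((A.e i).symm z)) =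
        g j i ((A.e i).symm z) * (dJ A j i ((A.e i).symm z) * f z) := by
      rw [rdj_of_mem ((A.e j).map_source hz.2), (A.e j).left_inv hz.2]
      have hpull : pull A i f ((A.e i).symm z) = f z := pull_symm hz.1
      simp only [ext2, hz.2, if_true, hpull]
    have e4 : ((‖dj A i j ((A.e i).symm z)‖ ^ 2 : ℝ) : ℂ) * dJ A j i ((A.e i).symm z) =
        dj A i j ((A.e i).symm z) := by
      rw [← Complex.normSq_eq_norm_sq, ← Complex.mul_conj, ← conj_dj, mul_assoc, ← map_mul,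
        ← dj_mul ⟨hxz, hxz.1⟩, dj_self hxz.1, map_one, mul_one]
    simp only [e3, hk]
    rw [show ((‖dj A i j ((A.e i).symm z)‖ ^ 2 : ℝ) : ℂ) *
      (g j i ((A.e i).symm z) * (dJ A j i ((A.e i).symm z) * f z) *
        h j (A.e j ((A.e i).symm z))) =
      (((‖dj A i j ((A.e i).symm z)‖ ^ 2 : ℝ) : ℂ) * dJ A j i ((A.e i).symm z)) *
      (g j i ((A.e i).symm z) * f z * h j (A.e j ((A.e i).symm z))) by ring, e4]
    ring
  rw [key, hk]
  simp only [(A.e i).left_inv hx.1]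

/-- **functionals killing `∂̄` are holomorphic sections of `K ⊗ L⁻¹`** -/
theorem exists_section [T2Space M] (hg : IsLC A g) {lam : (A.ι → M → ℂ) →ₗ[ℂ] ℂ}
    (hd : ∀ i (c : Fin 2 → Cn 2 → ℂ), (∀ a, Cs A i (c a)) → lam (d1 A (ext1 A g i c)) = 0)
    (hb : ∀ i, ∀ p ∈ (A.e i).target, ∃ r > 0, ∃ C, PD p (2 * r) ⊆ (A.e i).target ∧
      LBd A g lam i (PD p (2 * r)) C) :
    ∃ w : A.ι → M → ℂ, (∀ i, ∀ x ∈ (A.e i).source, HolP A i (w i) x) ∧
      (∀ i, ∀ x ∉ (A.e i).source, w i x = 0) ∧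
      (∀ i j, ∀ x ∈ (A.e i).source ∩ (A.e j).source,
        w i x = dj A i j x * (g i j x)⁻¹ * w j x) ∧
      (∀ i f, Tst (A.e i).target f →
        lam (ext2 A g i f) = ∫ z, f z * w i ((A.e i).symm z)) ∧
      ∀ (i : A.ι) (x : M), x ∈ (A.e i).source → ∀ (r : ℝ) (hr : 0 < r) (C : ℝ),
        PD (A.e i x) (2 * r) ⊆ (A.e i).target → LBd A g lam i (PD (A.e i x) (2 * r)) C →
        ‖w i x‖ ≤ C * (cv * cPhi hr) := by
  classical
  have hw : ∀ i, ∃ h : Cn 2 → ℂ, DifferentiableOn ℂ h (A.e i).target ∧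
      (∀ f, Tst (A.e i).target f → chL A g lam i f = ∫ z, f z * h z) ∧
      ∀ (p : Cn 2) (r : ℝ) (hr : 0 < r) (C : ℝ), PD p (2 * r) ⊆ (A.e i).target →
        Fnl (PD p (2 * r)) (chL A g lam i) C → ∀ z ∈ PD p r, ‖h z‖ ≤ C * (cv * cPhi hr) := by
    intro i
    refine weyl (A.e i).open_target fun p hp => ?_
    obtain ⟨r, hr, C, h1, h2⟩ := hb i p hp
    exact ⟨r, hr, C, h1, fnl_of_lbd hg hd h1 h2⟩
  choose h hh hr hbd using hw
  refine ⟨fun i x => if x ∈ (A.e i).source then h i (A.e i x) else 0, ?_, ?_, ?_, ?_, ?_⟩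
  · intro i x hx
    have hcr : (fun y => if y ∈ (A.e i).source then h i (A.e i y) else 0) =ᶠ[𝓝 x]
        fun y => h i (A.e i y) := by
      filter_upwards [src_nhds hx] with y hy using if_pos hy
    refine HolP.congr ?_ hx hcr
    filter_upwards [(A.e i).open_target.mem_nhds ((A.e i).map_source hx)] with z hz
    have h1 : (fun z => h i (A.e i ((A.e i).symm z))) =ᶠ[𝓝 z] h i := by
      filter_upwards [(A.e i).open_target.mem_nhds hz] with y hy
      rw [(A.e i).right_inv hy]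
    exact ((hh i).differentiableAt ((A.e i).open_target.mem_nhds hz)).congr_of_eventuallyEq h1
  · intro i x hx
    exact if_neg hx
  · intro i j x hx
    have h1 := density_tr hg hh hr hx
    have h2 : g j i x = (g i j x)⁻¹ := by
      have h3 := hg.mul i j i x ⟨hx, hx.1⟩
      rw [hg.self i x hx.1] at h3
      exact eq_inv_of_mul_eq_one_right h3
    simp only [hx.1, hx.2, if_true]
    rw [h1, h2]
  · intro i f hf
    rw [← chL_apply, hr i f hf]
    refine integral_congr_ae (Eventually.of_forall fun z => ?_)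
    by_cases hz : z ∈ (A.e i).target
    · simp only [(A.e i).map_target hz, if_true, (A.e i).right_inv hz]
    · have : f z = 0 := image_eq_zero_of_notMem_tsupport fun h => hz (hf.sub h)
      simp only [this, zero_mul]
  · intro i x hx r hr' C h1 h2
    simp only [hx, if_true]
    exact hbd i (A.e i x) r hr' C h1 (fnl_of_lbd hg hd h1 h2) _ (mem_PD_self hr')

end

end Crest.Agent.R275.SerY940
end

-- ▼ part R275/SerYe_940
section

/-!
# R275, block C6 on `Y` (helper940): Serre duality in the top degree, abstract form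

`Top A P g S d j2 om` : `V2` (with the scale `S`) is a space of `(0,2)`-forms with values in `L` on
`M` (not necessarily compact) containing the compactly supported ones; local comparison of
`S.nrm 0` with the sup norm.
`serre_top` : if `d K = 1 - N` on `V2` with `N` negligible and no nonzero holomorphic section `w`
of `K ⊗ L⁻¹` satisfies `‖w i x‖ ≤ C om i` on the cores, then `d : V1 → V2` is onto.
-/

set_option autoImplicit false
set_option linter.unusedSectionVars false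

open Set Filter Topology Complex MeasureTheory
open scoped ContDiff NNReal ComplexConjugate

namespace Crest.Agent.R275.SerY940

open Crest.Agent.R275.Geo Crest.Agent.R275.Dol967 Crest.Agent.R275.Fm96 Crest.Agent.R275.FmExt861
  Crest.Agent.R275.Fred685 Crest.Agent.R275.Lau635

noncomputable section

variable {M : Type} [TopologicalSpace M] {A : Atl 2 M}

/-- holomorphic sections of `K ⊗ L⁻¹` over `M`, raw form -/
structure IsKHol (A : Atl 2 M) (g : A.ι → A.ι → M → ℂ) (w : A.ι → M → ℂ) : Prop where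
  hol : ∀ i, ∀ x ∈ (A.e i).source, HolP A i (w i) x
  off : ∀ i, ∀ x ∉ (A.e i).source, w i x = 0
  tr : ∀ i j, ∀ x ∈ (A.e i).source ∩ (A.e j).source, w i x = dj A i j x * (g i j x)⁻¹ * w j x

variable {V1 V2 : Type*} [AddCommGroup V1] [Module ℂ V1] [AddCommGroup V2] [Module ℂ V2]

/-- spaces of `(0,2)`-forms with values in `L`, with the comparison of norms -/
structure Top (P : Part A) (g : A.ι → A.ι → M → ℂ) (S : Scale ℂ V2) (d : V1 →ₗ[ℂ] V2)
    (j2 : V2 →ₗ[ℂ] (A.ι → M → ℂ)) (om : A.ι → ℝ) : Prop where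
  inj : Function.Injective j2
  c2 : ∀ F, IsZ2 A g univ F → CSupp F → ∃ v, j2 v = F
  c1 : ∀ i (c : Fin 2 → Cn 2 → ℂ), (∀ a, Cs A i (c a)) → ∃ u, j2 (d u) = d1 A (ext1 A g i c)
  dense : ∀ v : V2, ∀ ε > 0, ∃ v', IsZ2 A g univ (j2 v') ∧ CSupp (j2 v') ∧ S.nrm 0 (v - v') ≤ ε
  bnd : ∀ i, ∀ p ∈ (A.e i).target, ∃ r > 0, ∃ C, PD p (2 * r) ⊆ (A.e i).target ∧
    ∀ f, Tst (PD p (2 * r)) f → ∀ m : ℝ, (∀ z, ‖f z‖ ≤ m) →
      ∀ v, j2 v = ext2 A g i f → S.nrm 0 v ≤ C * m
  ubnd : ∃ r > 0, ∃ C : ℝ, 0 ≤ C ∧ ∀ i, ∀ x ∈ tsupport (P.ψ i),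
    PD (A.e i x) (2 * r) ⊆ (A.e i).target ∧
    ∀ f, Tst (PD (A.e i x) (2 * r)) f → ∀ m : ℝ, (∀ z, ‖f z‖ ≤ m) →
      ∀ v, j2 v = ext2 A g i f → S.nrm 0 v ≤ C * om i * m

variable {P : Part A} {g : A.ι → A.ι → M → ℂ} {S : Scale ℂ V2} {d : V1 →ₗ[ℂ] V2}
  {j2 : V2 →ₗ[ℂ] (A.ι → M → ℂ)} {om : A.ι → ℝ}

theorem CSupp.ext2 {i : A.ι} {f : Cn 2 → ℂ} (h : Cs A i f) : CSupp (FmExt861.ext2 A g i f) :=
  ⟨KK A i f, h.compact, fun _ _ hx => ext2_off hx⟩

theorem tsupport_ψ_source (P : Part A) {i : A.ι} {x : M} (hx : x ∈ tsupport (P.ψ i)) :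
    x ∈ (A.e i).source := P.χ_sub i (tsupport_ψ_sub P i hx)

/-- a compactly supported `(0,2)`-form is a finite sum of extensions of test functions -/
theorem sum_ext2 [T2Space M] (P : Part A) (hg : IsLC A g) {F : A.ι → M → ℂ}
    (hF : IsZ2 A g univ F) (hK : CSupp F) :
    ∃ (T : Finset A.ι) (c : A.ι → Cn 2 → ℂ), (∀ j, Cs A j (c j)) ∧
      F = ∑ j ∈ T, FmExt861.ext2 A g j (c j) := by
  classical
  obtain ⟨K, hKc, hK⟩ := hK
  have hfin := P.lf K hKc
  have hc : ∀ j, ∃ c : Cn 2 → ℂ, Cs A j c ∧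
      ∀ x ∈ (A.e j).source, c (A.e j x) = P.ψ j x * F j x := fun j =>
    exists_cs (P.ψ_sm j) (P.χ_cpt j) (P.χ_sub j) (tsupport_ψ_sub P j)
      (f := F j) (fun x hx => hF.sm j x hx (mem_univ x))
  choose c hc hcv using hc
  refine ⟨hfin.toFinset, c, hc, ?_⟩
  set T := hfin.toFinset with hT
  have hsum : F = ∑ j ∈ T, fun i x => (P.ψ j x : ℂ) * F i x := by
    funext i x
    rw [Finset.sum_apply, Finset.sum_apply, ← Finset.sum_mul]
    by_cases hx : x ∈ K
    · have h1 := P.sum_one x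
      have h2 : ∑ᶠ j, P.ψ j x = ∑ j ∈ T, P.ψ j x := by
        apply finsum_eq_sum_of_support_subset
        intro j hj
        rw [hT, Finite.coe_toFinset]
        exact ⟨x, tsupport_ψ_sub P j (subset_tsupport _ hj), hx⟩
      rw [h2] at h1
      have h3 : (∑ j ∈ T, (P.ψ j x : ℂ)) = 1 := by exact_mod_cast h1
      rw [h3, one_mul]
    · rw [hK i x hx, mul_zero]
  conv_lhs => rw [hsum]
  refine Finset.sum_congr rfl fun j _ => ?_
  have h3 : IsZ2 A g univ (fun i x => (P.ψ j x : ℂ) * F i x) := by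
    refine ⟨fun i x hx hG => ?_, fun i x hx => ?_, fun i k x hx hG => ?_⟩
    · have h4 : SmP A i (fun y => (P.ψ j y : ℂ)) x := by
        filter_upwards [(A.e i).open_target.mem_nhds ((A.e i).map_source hx)] with z hz
        have := (P.ψ_sm j i).contDiffAt ((A.e i).open_target.mem_nhds hz)
        exact Complex.ofRealCLM.contDiff.contDiffAt.comp z this
      exact h4.mul (hF.sm i x hx hG)
    · rw [hF.off i x hx, mul_zero]
    · rw [hF.tr i k x hx hG]; ring
  funext i x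
  by_cases hx : x ∈ (A.e j).source
  · refine IsZ2.eq_of h3 (ext2_mem hg (hc j) univ) hx (mem_univ x) ?_ i
    show (P.ψ j x : ℂ) * F j x = _
    rw [ext2_self hg hx, pull_of_mem hx, hcv j x hx]
  · have h4 : P.ψ j x = 0 := by
      by_contra h5
      exact hx (tsupport_ψ_source P (subset_tsupport _ h5))
    rw [ext2_off (fun h => hx ((hc j).sub_source h))]
    show (P.ψ j x : ℂ) * F i x = 0
    rw [h4]
    simp

theorem PD_sub_PD {p z : Cn 2} {r s : ℝ} (hz : z ∈ PD p r) : PD z s ⊆ PD p (r + s) := by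
  intro y hy a
  calc ‖y a - p a‖ = ‖(y a - z a) + (z a - p a)‖ := by ring_nf
    _ ≤ ‖y a - z a‖ + ‖z a - p a‖ := norm_add_le _ _
    _ < r + s := by have := hy a; have := hz a; linarith

/-- **Serre duality in the top degree, vanishing form**; the bounds of the sections hold on
polydiscs around the points of the cores -/
theorem serre_top' [T2Space M] (hg : IsLC A g) (H : Top P g S d j2 om) {K : V2 →ₗ[ℂ] V1}
    {N : Module.End ℂ V2} (hN : Neg S S N) (hK : ∀ v, d (K v) = v - N v)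
    (van : ∀ w, IsKHol A g w → (∃ r > 0, ∃ C : ℝ, 0 ≤ C ∧ ∀ i, ∀ x ∈ tsupport (P.ψ i),
        PD (A.e i x) (2 * r) ⊆ (A.e i).target ∧
        ∀ z ∈ PD (A.e i x) r, ‖w i ((A.e i).symm z)‖ ≤ C * om i) →
      ∀ i, ∀ x ∈ (A.e i).source, w i x = 0) (v : V2) : ∃ u, d u = v := by
  classical
  by_contra hv
  have hlt : LinearMap.range d < ⊤ := by
    rw [lt_top_iff_ne_top]
    intro h
    exact hv ((LinearMap.range_eq_top.1 h) v)
  obtain ⟨φ, hφ0, hφ⟩ := Submodule.exists_le_ker_of_lt_top _ hlt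
  have hφd : ∀ u, φ (d u) = 0 := fun u => hφ ⟨u, rfl⟩
  -- the Riesz projection
  obtain ⟨p, π, hπ, -, hπk, hπi, -, -, -, -, hπs⟩ := exists_riesz_projection hN
  have hφπ : ∀ v, φ v = φ (π v) := by
    intro v
    have h1 : π (v - π v) = 0 := by rw [map_sub, hπi _ (hπk v), sub_self]
    obtain ⟨w, -, hw⟩ := hπs _ h1
    have h2 : φ (v - π v) = 0 := by rw [← hw, ← hK, hφd]
    rw [map_sub, sub_eq_zero] at h2
    exact h2
  -- `φ` is bounded by `nrm 0`
  obtain ⟨D, hD0, hD⟩ : ∃ C : ℝ, 0 ≤ C ∧ ∀ v, ‖φ v‖ ≤ C * S.nrm 0 v := by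
    have hfin := hπ.1
    obtain ⟨C, hC0, hC⟩ := exists_bound_finite S
      ((normSeminorm ℂ ℂ).comp φ) (LinearMap.range π)
    obtain ⟨D, hD0, hD⟩ := exists_nonneg_const (hπ.2 0)
    refine ⟨C * D, mul_nonneg hC0 hD0, fun v => ?_⟩
    rw [hφπ]
    calc ‖φ (π v)‖ ≤ C * S.nrm 0 (π v) := hC (π v) ⟨v, rfl⟩
      _ ≤ C * (D * S.nrm 0 v) := mul_le_mul_of_nonneg_left (hD v) hC0
      _ = C * D * S.nrm 0 v := by ring
  -- extension to raw families
  obtain ⟨ex, hex⟩ := LinearMap.exists_leftInverse_of_injective j2 (LinearMap.ker_eq_bot.2 H.inj)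
  set lam : (A.ι → M → ℂ) →ₗ[ℂ] ℂ := φ ∘ₗ ex with hlam
  have hlamj : ∀ v, lam (j2 v) = φ v := by
    intro v
    have : ex (j2 v) = v := by
      have := LinearMap.congr_fun hex v
      simpa using this
    rw [hlam, LinearMap.comp_apply, this]
  have hd : ∀ i (c : Fin 2 → Cn 2 → ℂ), (∀ a, Cs A i (c a)) →
      lam (d1 A (ext1 A g i c)) = 0 := by
    intro i c hc
    obtain ⟨u, hu⟩ := H.c1 i c hc
    rw [← hu, hlamj, hφd]
  have hlb : ∀ i (U : Set (Cn 2)) (C : ℝ), U ⊆ (A.e i).target →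
      (∀ f, Tst U f → ∀ m : ℝ, (∀ z, ‖f z‖ ≤ m) → ∀ v, j2 v = ext2 A g i f →
        S.nrm 0 v ≤ C * m) → LBd A g lam i U (D * C) := by
    intro i U C hU hC f hf m hm
    have hcs := (hf.mono hU).cs
    obtain ⟨v, hv⟩ := H.c2 _ (ext2_mem hg hcs univ) (CSupp.ext2 hcs)
    rw [← hv, hlamj]
    calc ‖φ v‖ ≤ D * S.nrm 0 v := hD v
      _ ≤ D * (C * m) := mul_le_mul_of_nonneg_left (hC f hf m hm v hv) hD0
      _ = D * C * m := by ring
  obtain ⟨w, w1, w2, w3, w4, w5⟩ := exists_section hg hd (fun i p hp => by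
    obtain ⟨r, hr, C, h1, h2⟩ := H.bnd i p hp
    exact ⟨r, hr, D * C, h1, hlb i _ C h1 h2⟩)
  have hw0 : ∀ i, ∀ x ∈ (A.e i).source, w i x = 0 := by
    refine van w ⟨w1, w2, w3⟩ ?_
    obtain ⟨r, hr, C, hC0, hC⟩ := H.ubnd
    have hr2 : 0 < r / 2 := by positivity
    have hcp := cPhi_nonneg hr2
    refine ⟨r, hr, D * C * (cv * cPhi hr2), by positivity, fun i x hx =>
      ⟨(hC i x hx).1, fun z hz => ?_⟩⟩
    obtain ⟨h1, h2⟩ := hC i x hx
    have hsub : PD z (2 * (r / 2)) ⊆ PD (A.e i x) (2 * r) := by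
      have := PD_sub_PD (s := r) hz
      rw [show r + r = 2 * r by ring] at this
      rw [show 2 * (r / 2) = r by ring]
      exact this
    have hzt : z ∈ (A.e i).target := h1 (hsub (mem_PD_self (by positivity)))
    have hlz := hlb i _ (C * om i) h1 h2
    have h3 := w5 i ((A.e i).symm z) ((A.e i).map_target hzt) (r / 2) hr2 (D * (C * om i))
    rw [(A.e i).right_inv hzt] at h3
    refine (h3 (hsub.trans h1) (hlz.mono hsub)).trans (le_of_eq ?_)
    ring
  have hlam0 : ∀ i f, Cs A i f → lam (ext2 A g i f) = 0 := by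
    intro i f hf
    rw [w4 i f ⟨hf.smooth, hf.cpt, hf.sub⟩]
    rw [integral_eq_zero_of_ae]
    refine Eventually.of_forall fun z => ?_
    show f z * w i ((A.e i).symm z) = 0
    by_cases hz : z ∈ (A.e i).target
    · rw [hw0 i _ ((A.e i).map_target hz), mul_zero]
    · rw [image_eq_zero_of_notMem_tsupport (fun h => hz (hf.sub h)), zero_mul]
  have hφc : ∀ v, IsZ2 A g univ (j2 v) → CSupp (j2 v) → φ v = 0 := by
    intro v h1 h2
    obtain ⟨T, c, hc, hs⟩ := sum_ext2 P hg h1 h2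
    rw [← hlamj, hs, map_sum]
    exact Finset.sum_eq_zero fun j _ => hlam0 j (c j) (hc j)
  apply hφ0
  ext v
  rw [LinearMap.zero_apply]
  by_contra hne
  have hpos : 0 < ‖φ v‖ := norm_pos_iff.2 hne
  obtain ⟨v', h1, h2, h3⟩ := H.dense v (‖φ v‖ / (2 * (D + 1))) (by positivity)
  have h4 : φ (v - v') = φ v := by rw [map_sub, hφc v' h1 h2, sub_zero]
  have h5 := hD (v - v')
  rw [h4] at h5
  have h6 : D * S.nrm 0 (v - v') ≤ D * (‖φ v‖ / (2 * (D + 1))) :=
    mul_le_mul_of_nonneg_left h3 hD0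
  have h7 : D * (‖φ v‖ / (2 * (D + 1))) < ‖φ v‖ := by
    rw [mul_div_assoc', div_lt_iff₀ (by positivity)]
    nlinarith
  linarith


end

end Crest.Agent.R275.SerY940
end

-- ▼ part R275/SerYf_940
section

/-!
# R275, block C6 on `Y` (helper940): comparison of the norms of helper681's weighted spaces with
# the sup norm of test functions

`Room P`      : a uniform polydisc around every point of the cores `tsupport (ψ i)` on which
                `χ i = 1`; `Room.of_homog`.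
`mem_of_csupp`: compactly supported sections are in every weighted space.
`nrm_ext2_le` : bounds of `nrm 0 (ext2 i f)`, locally and uniformly.
`dense_csupp` : compactly supported sections are dense for `nrm 0`.
-/

set_option autoImplicit false
set_option linter.unusedSectionVars false
set_option linter.unusedVariables false

open Set Filter Topology Complex MeasureTheory
open scoped ContDiff NNReal ComplexConjugate Matrix Kronecker

namespace Crest.Agent.R275.SerY940

open Crest.Agent.R275.Geo Crest.Agent.R275.Dol967 Crest.Agent.R275.Fm96 Crest.Agent.R275.FmExt861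
  Crest.Agent.R275.Fred685 Crest.Agent.R275.Lam2130 Crest.Agent.R275.Tor812
  Crest.Agent.R275.TorS666 Crest.Agent.R275.WY681 Crest.Agent.R275.Ret666

noncomputable section

variable {M : Type} [TopologicalSpace M] {A : Atl 2 M} {P : Part A}

/-! ### room around the cores -/

theorem dist_lt_of_PD {p z : Cn 2} {δ : ℝ} (hδ : 0 < δ) (h : z ∈ PD p (δ / 2)) : dist z p < δ := by
  rw [EuclideanSpace.dist_eq, Fin.sum_univ_two]
  have h0 : dist (z 0) (p 0) < δ / 2 := by simpa [dist_eq_norm] using h 0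
  have h1 : dist (z 1) (p 1) < δ / 2 := by simpa [dist_eq_norm] using h 1
  rw [Real.sqrt_lt' hδ]
  have h0' : 0 ≤ dist (z 0) (p 0) := dist_nonneg
  have h1' : 0 ≤ dist (z 1) (p 1) := dist_nonneg
  nlinarith

/-- a uniform polydisc around every point of the cores on which `χ i = 1` -/
def Room (P : Part A) : Prop := ∃ r : ℝ, 0 < r ∧ ∀ i, ∀ x ∈ tsupport (P.ψ i),
  ∀ z ∈ PD (A.e i x) r, z ∈ (A.e i).target ∧ P.χ i ((A.e i).symm z) = 1

theorem room_one (P : Part A) (i : A.ι) : ∃ r : ℝ, 0 < r ∧ ∀ x ∈ tsupport (P.ψ i),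
    ∀ z ∈ PD (A.e i x) r, z ∈ (A.e i).target ∧ P.χ i ((A.e i).symm z) = 1 := by
  set V : Set (Cn 2) := {z | z ∈ (A.e i).target ∧ ∀ᶠ y in 𝓝 ((A.e i).symm z), P.χ i y = 1} with hVd
  have hV : IsOpen V := by
    rw [isOpen_iff_mem_nhds]
    rintro z ⟨h1, h2⟩
    have h3 : ∀ᶠ w in 𝓝 z, ∀ᶠ y in 𝓝 ((A.e i).symm w), P.χ i y = 1 :=
      ((A.e i).symm.continuousAt h1).eventually (eventually_eventually_nhds.2 h2)
    filter_upwards [(A.e i).open_target.mem_nhds h1, h3] with y hy1 hy2 using ⟨hy1, hy2⟩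
  set K : Set (Cn 2) := A.e i '' tsupport (P.ψ i) with hKd
  have hK : IsCompact K := (P.ψ_cpt i).image_of_continuousOn
    ((A.e i).continuousOn.mono ((P.ψ_sub i).trans (P.χ_sub i)))
  have hKV : K ⊆ V := by
    rintro _ ⟨x, hx, rfl⟩
    have hs := P.χ_sub i (P.ψ_sub i hx)
    refine ⟨(A.e i).map_source hs, ?_⟩
    rw [(A.e i).left_inv hs]
    exact P.χ_one i x hx
  obtain ⟨δ, hδ, h⟩ := hK.exists_thickening_subset_open hV hKV
  refine ⟨δ / 2, by positivity, fun x hx z hz => ?_⟩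
  have hzV : z ∈ V := h (Metric.mem_thickening_iff.2 ⟨A.e i x, ⟨x, hx, rfl⟩, dist_lt_of_PD hδ hz⟩)
  exact ⟨hzV.1, hzV.2.self_of_nhds⟩

theorem Room.of_homog {G : Set (C10195.Auto A)} (h : C10195.Homog P G) : Room P := by
  classical
  obtain ⟨F, hF⟩ := h.orb
  choose r hr hrr using room_one P
  obtain ⟨δ, hδ, hδ'⟩ : ∃ δ : ℝ, 0 < δ ∧ ∀ i ∈ F, δ ≤ r i := by
    rcases F.eq_empty_or_nonempty with rfl | hne
    · exact ⟨1, one_pos, by simp⟩
    · obtain ⟨i, hi, hmin⟩ := F.exists_min_image r hne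
      exact ⟨r i, hr i, fun j hj => hmin j hj⟩
  refine ⟨δ, hδ, fun i x hx z hz => ?_⟩
  obtain ⟨φ, hφ, hφF⟩ := hF i ⟨x, P.ψ_sub i hx⟩
  have hxs := P.χ_sub i (P.ψ_sub i hx)
  have h1 : φ.p x ∈ tsupport (P.ψ (φ.r i)) := ((h.inv φ hφ).tsupp_ψ i x).2 hx
  have h2 : A.e (φ.r i) (φ.p x) = A.e i x := φ.app i x hxs
  have h3 : z ∈ PD (A.e (φ.r i) (φ.p x)) (r (φ.r i)) := by
    rw [h2]; exact PD_mono (hδ' _ hφF) hz
  obtain ⟨h4, h5⟩ := hrr _ _ h1 z h3
  have h6 : z ∈ (A.e i).target := by rwa [← φ.target]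
  refine ⟨h6, ?_⟩
  rw [φ.symm_app h6, (h.inv φ hφ).χ] at h5
  exact h5


/-! ### test functions as functions on the torus -/

variable {g : A.ι → A.ι → M → ℂ}

theorem isCF_pull {i : A.ι} {f : Cn 2 → ℂ} (h : Cs A i f) : IsCF A i (pull A i f) := by
  refine ⟨?_, KK A i f, h.compact, h.sub_source, fun x _ hx => pull_off hx⟩
  exact h.smooth.contDiffOn.congr fun z hz => pull_symm hz

/-- a test function as a function on the torus -/
def tf {i : A.ι} {f : Cn 2 → ℂ} (h : Cs A i f) : SPer (RI 2) := pz (isCF_pull h)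

theorem tf_rc {i : A.ι} {f : Cn 2 → ℂ} (h : Cs A i f) {x : M} (hx : x ∈ (A.e i).source) :
    tf h (rc (A.e i x)) = f (A.e i x) := by
  rw [tf, pz_rc _ hx, pull_of_mem hx]

theorem nrm_tf_le {i : A.ι} {f : Cn 2 → ℂ} (h : Cs A i f) {m : ℝ} (hm : ∀ z, ‖f z‖ ≤ m) :
    nrm 0 (tf h) ≤ m := by
  have hm0 : 0 ≤ m := (norm_nonneg _).trans (hm 0)
  refine Sup912.nrm_zero_le_sup hm0 fun x => ?_
  by_cases hx : cc (fr x) ∈ (A.e i).target
  · rw [tf, pz_apply_mem _ hx, pull_symm hx]; exact hm _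
  · rw [tf, pz_apply_notMem _ hx, norm_zero]; exact hm0

/-- the bundle of the forms with values in `L` -/
abbrev BL (hg : IsLC A g) : FBun A := tw (lam2 A) (LV hg)

/-- the vector of components with the test function in degree `2` -/
def tv (hg : IsLC A g) {i : A.ι} {f : Cn 2 → ℂ} (h : Cs A i f) : (BL hg).κ → SPer (RI 2) :=
  fun l : Fin 4 × Unit => if l.1 = 3 then tf h else 0

/-- scalar amplitude -/
def sAmp (hg : IsLC A g) (c : M → ℂ) : M → Matrix (BL hg).κ (BL hg).κ ℂ := fun x =>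
  c x • (1 : Matrix (BL hg).κ (BL hg).κ ℂ)

theorem mk3_zero_apply {u2 : A.ι → M → ℂ} {j : A.ι} {x : M} (h : u2 j x = 0) :
    mk3 0 0 u2 j x = 0 := by
  funext p
  obtain ⟨k, r⟩ := p
  revert k
  rw [all_ix]
  refine ⟨rfl, fun b => ?_, h⟩
  fin_cases b <;> rfl

theorem tv_rc (hg : IsLC A g) {i : A.ι} {f : Cn 2 → ℂ} (h : Cs A i f) {x : M}
    (hi : x ∈ (A.e i).source) (l : Fin 4 × Unit) :
    tv hg h l (rc (A.e i x)) = if l.1 = 3 then f (A.e i x) else 0 := by
  show (if l.1 = 3 then tf h else 0 : SPer (RI 2)) (rc (A.e i x)) = _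
  split_ifs
  · exact tf_rc h hi
  · rfl

theorem ext_tv (hg : IsLC A g) {i : A.ι} {f : Cn 2 → ℂ} (h : Cs A i f) {c : M → ℂ}
    (hc : ∀ x ∈ KK A i f, c x = 1) :
    ext (BL hg) i (sAmp hg c) (tv hg h) = mk3 0 0 (ext2 A g i f) := by
  funext j x
  by_cases hj : x ∈ (A.e j).source
  · by_cases hi : x ∈ (A.e i).source
    · refine (C1d194.ext_of_mem (BL hg) i hj hi _ _).trans ?_
      have h1 : sAmp hg c x *ᵥ (fun l => tv hg h l (rc (A.e i x))) =
          (fun l : Fin 4 × Unit => if l.1 = 3 then f (A.e i x) else 0) := by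
        unfold sAmp
        rw [Matrix.smul_mulVec, Matrix.one_mulVec]
        funext l
        show c x * (tv hg h l (rc (A.e i x))) = _
        rw [tv_rc hg h hi l]
        by_cases hx : x ∈ KK A i f
        · rw [hc x hx, one_mul]
        · have h2 : f (A.e i x) = 0 := by
            have := pull_off hx
            rwa [pull_of_mem hi] at this
          rw [h2]
          split_ifs <;> simp
      refine (congrArg (fun v => (BL hg).τ j i x *ᵥ v) h1).trans ?_
      have key : ∀ k (r : Unit), ((tauM (Jm A j i x) ⊗ₖ (LV hg).g j i x) *ᵥ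
          (fun l : Fin 4 × Unit => if l.1 = 3 then f (A.e i x) else 0)) (k, r) =
          mk3 0 0 (ext2 A g i f) j x (k, r) := by
        intro k r
        revert k
        rw [all_ix]
        refine ⟨?_, fun b => ?_, ?_⟩
        · refine (tr0 _ _ _ _).trans ?_
          exact Finset.sum_eq_zero fun s _ => mul_zero _
        · refine (tr1 _ _ _ _ _).trans ?_
          refine (Finset.sum_eq_zero fun s _ => ?_).trans ?_
          · have : ∀ c : Fin 2, ((ix1 c : Fin 4) = 3) = False := by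
              intro c; fin_cases c <;> simp
            simp [this]
          · fin_cases b <;> rfl
        · refine (tr2 _ _ _ _).trans ?_
          rw [conj_det_Jm]
          have hs : ∀ f : Unit → ℂ, ∑ s : (LV hg).ρ, f s = f () := fun f => by
            show ∑ s : Unit, f s = f ()
            simp
          refine (hs _).trans ?_
          show g j i x * (dJ A j i x * (if (3 : Fin 4) = 3 then f (A.e i x) else 0)) = ext2 A g i f j x
          simp [ext2, hj, pull_of_mem hi]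
      exact funext fun p => key p.1 p.2
    · refine (C1d194.ext_off' (BL hg) i hi _ _).trans ?_
      exact (mk3_zero_apply (ext2_off fun hx => hi (h.sub_source hx))).symm
  · refine (C1d194.ext_off (BL hg) i hj _ _).trans ?_
    exact (mk3_zero_apply (if_neg hj)).symm

/-! ### families with finite support -/

theorem nT_le_sum {d : Type} [Fintype d] {J : Type} {W : Ret666.WS J} (s : ℕ) (x : FT d W)
    (F : Finset J) (h0 : ∀ j ∉ F, x.fn j = 0) :
    nT s x ≤ ∑ j ∈ F, W.om j * nrm (s + W.sh j) (x.fn j) := by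
  have h1 := hasSum_nT s x
  have h2 : HasSum (fun j => (W.om j * nrm (s + W.sh j) (x.fn j)) ^ 2)
      (∑ j ∈ F, (W.om j * nrm (s + W.sh j) (x.fn j)) ^ 2) :=
    hasSum_sum_of_ne_finset_zero fun j hj => by rw [h0 j hj, nrm_zero_fun, mul_zero]; simp
  have h3 := h1.unique h2
  have hnn : ∀ j ∈ F, 0 ≤ W.om j * nrm (s + W.sh j) (x.fn j) := fun j _ =>
    mul_nonneg (W.pos j).le (nrm_nonneg _ _)
  have h4 := Finset.sum_sq_le_sq_sum_of_nonneg hnn
  rw [← h3] at h4
  exact (pow_le_pow_iff_left₀ (nT_nonneg _ _) (Finset.sum_nonneg hnn) two_ne_zero).1 h4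

theorem nT_cut_compl {d : Type} [Fintype d] {J : Type} {W : Ret666.WS J} (s : ℕ) (x : FT d W)
    {ε : ℝ} (hε : 0 < ε) : ∃ F : Finset J, nT s (x - Ret666.cut W (F : Set J) x) ≤ ε := by
  classical
  have h1 := hasSum_nT s x
  obtain ⟨F, hF⟩ := (h1.eventually (Metric.ball_mem_nhds _ (show (0 : ℝ) < ε ^ 2 by positivity))).exists
  refine ⟨F, ?_⟩
  rw [dist_comm, Real.dist_eq] at hF
  have h2 := hasSum_nT s (x - Ret666.cut W (F : Set J) x)
  have h4 : HasSum (fun j => if j ∈ F then (W.om j * nrm (s + W.sh j) (x.fn j)) ^ 2 else 0)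
      (∑ j ∈ F, (W.om j * nrm (s + W.sh j) (x.fn j)) ^ 2) := by
    have h5 : HasSum (fun j => if j ∈ F then (W.om j * nrm (s + W.sh j) (x.fn j)) ^ 2 else 0)
        (∑ j ∈ F, if j ∈ F then (W.om j * nrm (s + W.sh j) (x.fn j)) ^ 2 else 0) :=
      hasSum_sum_of_ne_finset_zero fun j hj => if_neg hj
    rwa [Finset.sum_congr rfl fun j hj => if_pos hj] at h5
  have h3 : HasSum (fun j => (W.om j * nrm (s + W.sh j) ((x - Ret666.cut W (F : Set J) x).fn j)) ^ 2)
      (nT s x ^ 2 - ∑ j ∈ F, (W.om j * nrm (s + W.sh j) (x.fn j)) ^ 2) := by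
    refine (funext fun j => ?_ :
      (fun j => (W.om j * nrm (s + W.sh j) (x.fn j)) ^ 2 -
        (if j ∈ F then (W.om j * nrm (s + W.sh j) (x.fn j)) ^ 2 else 0)) =
      fun j => (W.om j * nrm (s + W.sh j) ((x - Ret666.cut W (F : Set J) x).fn j)) ^ 2) ▸ h1.sub h4
    rw [FT.sub_fn, Ret666.cut_apply]
    by_cases hj : j ∈ F
    · rw [if_pos hj, if_pos (Finset.mem_coe.2 hj), sub_self, sub_self, nrm_zero_fun, mul_zero]
      norm_num
    · rw [if_neg hj, if_neg (fun h => hj (Finset.mem_coe.1 h)), sub_zero, sub_zero]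
  have h6 := h2.unique h3
  have h7 : nT s (x - Ret666.cut W (F : Set J) x) ^ 2 ≤ ε ^ 2 := by
    rw [h6]
    exact (le_abs_self _).trans hF.le
  exact (pow_le_pow_iff_left₀ (nT_nonneg _ _) hε.le two_ne_zero).1 h7

/-! ### localisations -/

theorem loc_eq_zero_of {i : A.ι} {κ κ' : Type} [Fintype κ'] {a : M → Matrix κ κ' ℂ}
    (ha : IsAmp A i a) {v : M → κ' → ℂ} (hv : ∀ l, A.SmAt i (fun x => v x l)) (k : κ)
    (h : ∀ x ∈ (A.e i).source, (a x *ᵥ v x) k = 0) : loc A i a v k = 0 := by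
  rw [C1d194.loc_eq ha hv]
  apply SPer.ext
  intro x
  rw [perz_apply]
  by_cases hx : fr x ∈ C1d194.Ui A i
  · rw [C1d194.rd_of_mem hx]
    exact h _ ((A.e i).map_target hx)
  · rw [C1d194.rd_off hx]
    rfl

theorem locJ_eq_zero {B : FBun A} (u : Sec B) {i : A.ι} {k : B.κ}
    (h : ∀ x ∈ (A.e i).source, P.ψ i x ≠ 0 → u.1 i x k = 0) : locJ P B u (i, k) = 0 := by
  rw [locJ_apply]
  refine loc_eq_zero_of ((P.amp_psi B.κ).amp i) (u.2.1 i) k fun x hx => ?_
  show (((P.ψ i x : ℂ) • (1 : Matrix B.κ B.κ ℂ)) *ᵥ u.1 i x) k = 0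
  rw [Matrix.smul_mulVec, Matrix.one_mulVec]
  show (P.ψ i x : ℂ) * u.1 i x k = 0
  by_cases h0 : P.ψ i x = 0
  · rw [h0]; simp
  · rw [h x hx h0, mul_zero]

/-- compactly supported sections are in every weighted space -/
theorem mem_of_csupp {B : FBun A} {Q : PNb P} (w : Wt Q) {u : Sec B} {K : Set M}
    (hK : IsCompact K) (h : ∀ i, ∀ x ∉ K, u.1 i x = 0) : u ∈ WSm B w := by
  rw [mem_WSm_iff]
  intro s
  have hfin := (P.lf K hK).prod (Set.finite_univ (α := B.κ))
  refine summable_of_ne_finset_zero (s := hfin.toFinset) fun p hp => ?_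
  have h1 : locJ P B u p = 0 := by
    obtain ⟨i, k⟩ := p
    refine locJ_eq_zero u fun x hx hψ => ?_
    have hxK : x ∉ K := by
      intro hxK
      apply hp
      rw [Finite.mem_toFinset]
      exact ⟨⟨x, P.ψ_sub i (subset_tsupport _ hψ), hxK⟩, mem_univ _⟩
    rw [h i x hxK]; rfl
  rw [h1, nrm_zero_fun, mul_zero]
  norm_num

/-! ### forms of type `(0,2)` -/

section top

variable (hg : IsLC A g)

/-- the index of the top component -/
def kt : (BL hg).κ := ((3 : Fin 4), ())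



theorem eq_kt {k : (BL hg).κ} (h : (BL hg).deg k = 2) : k = kt hg := by
  obtain ⟨k, r⟩ := (k : Fin 4 × Unit)
  have h' : dg k = 2 := h
  revert h'
  fin_cases k
  · intro h'; exact absurd h' (by simp [dg])
  · intro h'; exact absurd h' (by simp [dg])
  · intro h'; exact absurd h' (by simp [dg])
  · intro _; rfl

variable {hg}

theorem coe_of_pq {v : Sec (BL hg)} (h : pqL (BL hg) 2 v = v) :
    (v.1 : A.ι → M → Fin 4 × Unit → ℂ) = mk3 0 0 (p2 v.1) := by
  have h1 := WCxY89.pq_two_eq hg v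
  have h2 : v = (eqv hg).symm (0, 0, (eqv hg v).2.2) := h.symm.trans h1
  exact congrArg Subtype.val h2

theorem locJ_low {v : Sec (BL hg)} (h : pqL (BL hg) 2 v = v) {j : A.ι} {k : (BL hg).κ}
    (hk : k ≠ kt hg) : locJ P (BL hg) v (j, k) = 0 := by
  rw [← h, locJ_pqL, if_neg]
  exact fun h2 => hk (eq_kt hg h2)

theorem nT_LocW_le {Q : PNb P} {w : Wt Q} (v : WSm (BL hg) w) (hp : pqL (BL hg) 2 v.1 = v.1)
    (T : Finset A.ι) (h0 : ∀ j ∉ T, locJ P (BL hg) v.1 (j, kt hg) = 0) (β : A.ι → ℝ)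
    (hβ : ∀ j ∈ T, nrm 0 (locJ P (BL hg) v.1 (j, kt hg)) ≤ β j) :
    nT 0 (LocW (BL hg) w v) ≤ ∑ j ∈ T, w.w j * β j := by
  classical
  refine (nT_le_sum 0 (LocW (BL hg) w v) (T.image fun j => (j, kt hg)) fun p hp' => ?_).trans ?_
  · obtain ⟨j, k⟩ := p
    show locJ P (BL hg) v.1 (j, k) = 0
    by_cases hk : k = kt hg
    · subst hk
      refine h0 j fun hj => hp' ?_
      exact Finset.mem_image_of_mem _ hj
    · exact locJ_low hp hk
  · rw [Finset.sum_image fun a _ b _ hab => (Prod.mk.inj hab).1]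
    refine Finset.sum_le_sum fun j hj => ?_
    exact mul_le_mul_of_nonneg_left (hβ j hj) (w.pos j).le

/-- the form of a test function, with a cut-off -/
theorem locJ_test {i : A.ι} {f : Cn 2 → ℂ} (h : Cs A i f) {c : M → ℂ}
    (hc : ∀ x ∈ KK A i f, c x = 1) (hb : IsAmp A i (sAmp hg c)) {v : Sec (BL hg)}
    (hp : pqL (BL hg) 2 v = v) (hv : p2 v.1 = ext2 A g i f) (j : A.ι) (k : (BL hg).κ) :
    locJ P (BL hg) v (j, k) =
      C2812.Tkl (BL hg) ((P.amp_psi (BL hg).κ).amp j) hb k (kt hg) (tf h) := by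
  have h1 : v.1 = ext (BL hg) i (sAmp hg c) (tv hg h) := by
    refine (coe_of_pq hp).trans ?_
    rw [hv]
    exact (ext_tv hg h hc).symm
  have h2 : locJ P (BL hg) v (j, k) =
      loc A j (P.psi (BL hg).κ j) (ext (BL hg) i (sAmp hg c) (tv hg h) j) k := by
    rw [locJ_apply, h1]; rfl
  rw [h2, C2812.loc_ext_eq (BL hg) ((P.amp_psi (BL hg).κ).amp j) hb (tv hg h) k]
  rw [Finset.sum_eq_single (kt hg)]
  · rfl
  · intro l _ hl
    have key : ∀ l : Fin 4 × Unit, l ≠ (3, ()) →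
        (if l.1 = 3 then tf h else 0 : SPer (RI 2)) = 0 := fun l hl =>
      if_neg fun h3 => hl (Prod.ext h3 rfl)
    have h3 : tv hg h l = 0 := key l hl
    rw [h3, map_zero]
  · intro h'
    exact absurd (Finset.mem_univ _) h'

theorem locJ_test_zero {i : A.ι} {f : Cn 2 → ℂ} (h : Cs A i f) {v : Sec (BL hg)}
    (hv : p2 v.1 = ext2 A g i f) {j : A.ι} (hj : ¬ (tsupport (P.χ j) ∩ KK A i f).Nonempty) :
    locJ P (BL hg) v (j, kt hg) = 0 := by
  refine locJ_eq_zero v fun x hx hψ => ?_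
  have h1 : v.1 j x (kt hg) = p2 v.1 j x := rfl
  rw [h1, hv]
  exact ext2_off fun hxK => hj ⟨x, P.ψ_sub j (subset_tsupport _ hψ), hxK⟩

/-- local comparison with the sup norm -/
theorem nrm_ext2_le_local {Q : PNb P} (w : Wt Q) {i : A.ι} {c : M → ℂ} {K : Set M}
    (hb : IsAmp A i (sAmp hg c)) (hK : IsCompact K) : ∃ C : ℝ, 0 ≤ C ∧ ∀ f (h : Cs A i f),
      (∀ x ∈ KK A i f, c x = 1) → KK A i f ⊆ K → ∀ m : ℝ, (∀ z, ‖f z‖ ≤ m) →
      ∀ v : WSm (BL hg) w, pqL (BL hg) 2 v.1 = v.1 → p2 v.1.1 = ext2 A g i f →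
      nT 0 (LocW (BL hg) w v) ≤ C * m := by
  classical
  have hfin := P.lf K hK
  choose C hC0 hC using fun j : A.ι => C2812.nrm_Tkl_le (BL hg) 0
    ((P.amp_psi (BL hg).κ).amp j) hb (kt hg) (kt hg)
  refine ⟨∑ j ∈ hfin.toFinset, w.w j * C j,
    Finset.sum_nonneg fun j _ => mul_nonneg (w.pos j).le (hC0 j), ?_⟩
  intro f h hc hKf m hm v hp hv
  refine (nT_LocW_le v hp hfin.toFinset (fun j hj => ?_) (fun j => C j * m) fun j hj => ?_).trans
    (le_of_eq ?_)
  · refine locJ_test_zero h hv fun hne => hj ?_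
    rw [Finite.mem_toFinset]
    exact hne.mono (inter_subset_inter_right _ hKf)
  · rw [locJ_test h hc hb hp hv]
    exact (hC j _).trans (mul_le_mul_of_nonneg_left (nrm_tf_le h hm) (hC0 j))
  · rw [Finset.sum_mul]
    exact Finset.sum_congr rfl fun j _ => by ring

/-- uniform comparison with the sup norm -/
theorem nrm_ext2_le_unif {Q : PNb P} (hB : BGeo P (BL hg)) (w : Wt Q) : ∃ C : ℝ, 0 ≤ C ∧
    ∀ i f (h : Cs A i f), (∀ x ∈ KK A i f, P.χ i x = 1) → ∀ m : ℝ, (∀ z, ‖f z‖ ≤ m) →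
      ∀ v : WSm (BL hg) w, pqL (BL hg) 2 v.1 = v.1 → p2 v.1.1 = ext2 A g i f →
      nT 0 (LocW (BL hg) w v) ≤ C * w.w i * m := by
  classical
  obtain ⟨C, hC0, hC⟩ := hB.pc 0
  obtain ⟨D, hD⟩ := hB.card
  obtain ⟨L, hL, hw⟩ := w.slow
  refine ⟨D * (L * C), by positivity, ?_⟩
  intro i f h hc m hm v hp hv
  have hm0 : 0 ≤ m := (norm_nonneg _).trans (hm 0)
  have hwi := (w.pos i).le
  have hKχ : KK A i f ⊆ tsupport (P.χ i) := fun x hx => subset_tsupport _ (by
    rw [Function.mem_support, hc x hx]; exact one_ne_zero)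
  have hc' : ∀ x ∈ KK A i f, ((P.χ i x : ℝ) : ℂ) = 1 := fun x hx => by rw [hc x hx]; simp
  refine (nT_LocW_le v hp (RetC666.nb P i) (fun j hj => ?_) (fun j => C * m)
    fun j hj => ?_).trans ?_
  · refine locJ_test_zero h hv fun hne => hj ?_
    rw [RetC666.mem_nb]
    exact hne.mono (inter_subset_inter_right _ hKχ)
  · rw [locJ_test h hc' ((P.amp_chi (BL hg).κ).amp i) hp hv]
    exact (hC j i (RetC666.nb_symm hj) _ _ _).trans
      (mul_le_mul_of_nonneg_left (nrm_tf_le h hm) hC0)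
  · have h1 : ∀ j ∈ RetC666.nb P i, w.w j * (C * m) ≤ L * w.w i * (C * m) := fun j hj =>
      mul_le_mul_of_nonneg_right (hw i j (Q.nb_sub i hj)) (mul_nonneg hC0 hm0)
    refine (Finset.sum_le_sum h1).trans ?_
    rw [Finset.sum_const, nsmul_eq_mul]
    have h2 : ((RetC666.nb P i).card : ℝ) ≤ D := by exact_mod_cast hD i
    calc ((RetC666.nb P i).card : ℝ) * (L * w.w i * (C * m)) ≤ D * (L * w.w i * (C * m)) :=
          mul_le_mul_of_nonneg_right h2 (by positivity)
      _ = D * (L * C) * w.w i * m := by ring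

end top

end

end Crest.Agent.R275.SerY940
end

-- ▼ part R275/SerYg_940
section

/-!
# R275, block C6 on `Y` (helper940): Serre duality in the top degree on helper681's weighted spaces

`TopV P hg S inc p D om` : weighted spaces of sections of `tw (lam2 A) (LV hg)`, abstract form;
`TopV.of_WSm` : the instance `(WSm (tw (lam2 A) (LV hg)) w, sc hB w)`.
`TopV.ex2` : if `∇` has a homotopy modulo negligible operators and no nonzero holomorphic section
of `K ⊗ L⁻¹` is bounded by `om`, then `∇` is onto in degree two.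
-/

set_option autoImplicit false
set_option linter.unusedSectionVars false
set_option linter.unusedVariables false

open Set Filter Topology Complex MeasureTheory
open scoped ContDiff NNReal ComplexConjugate Matrix Kronecker

namespace Crest.Agent.R275.SerY940

open Crest.Agent.R275.Geo Crest.Agent.R275.Dol967 Crest.Agent.R275.Fm96 Crest.Agent.R275.FmExt861
  Crest.Agent.R275.Fred685 Crest.Agent.R275.Lam2130 Crest.Agent.R275.Tor812
  Crest.Agent.R275.TorS666 Crest.Agent.R275.WY681 Crest.Agent.R275.Ret666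
  Crest.Agent.R275.LauB681

noncomputable section

variable {M : Type} [TopologicalSpace M] {A : Atl 2 M} {P : Part A}
  {g : A.ι → A.ι → M → ℂ} {hg : IsLC A g}

/-! ### abstract weighted spaces -/

/-- weighted spaces of sections of `tw (lam2 A) (LV hg)` -/
structure TopV {V : Type*} [AddCommGroup V] [Module ℂ V] (P : Part A) (hg : IsLC A g)
    (S : Scale ℂ V) (inc : V →ₗ[ℂ] SecL (LV hg)) (p D : V →ₗ[ℂ] V) (om : A.ι → ℝ) : Prop where
  inj : Function.Injective inc
  p_inc : ∀ v, inc (p v) = pqL (BL hg) 2 (inc v)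
  D_inc : ∀ v, inc (D v) = nabL (BL hg) (inc v)
  p_op : Op0 S S p
  cs : ∀ u : SecL (LV hg), (∃ K : Set M, IsCompact K ∧ ∀ i, ∀ x ∉ K, u.1 i x = 0) → ∃ v, inc v = u
  dense : ∀ v, ∀ ε > 0, ∃ v', (∃ K : Set M, IsCompact K ∧ ∀ i, ∀ x ∉ K, (inc v').1 i x = 0) ∧
    S.nrm 0 (v - v') ≤ ε
  bnd : ∀ (i : A.ι) (c : M → ℂ) (K : Set M), IsAmp A i (sAmp hg c) → IsCompact K → ∃ C : ℝ, 0 ≤ C ∧
    ∀ f (h : Cs A i f), (∀ x ∈ KK A i f, c x = 1) → KK A i f ⊆ K → ∀ m : ℝ, (∀ z, ‖f z‖ ≤ m) →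
      ∀ v, pqL (BL hg) 2 (inc v) = inc v → p2 (inc v).1 = ext2 A g i f → S.nrm 0 v ≤ C * m
  ubnd : ∃ C : ℝ, 0 ≤ C ∧ ∀ i f (h : Cs A i f), (∀ x ∈ KK A i f, P.χ i x = 1) → ∀ m : ℝ,
    (∀ z, ‖f z‖ ≤ m) → ∀ v, pqL (BL hg) 2 (inc v) = inc v → p2 (inc v).1 = ext2 A g i f →
      S.nrm 0 v ≤ C * om i * m

theorem mk3_eq_zero {u1 : A.ι → M → Fin 2 → ℂ} {u2 : A.ι → M → ℂ} {j : A.ι} {x : M}
    (h1 : u1 j x = 0) (h2 : u2 j x = 0) : mk3 0 u1 u2 j x = 0 := by
  funext p
  obtain ⟨k, r⟩ := p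
  revert k
  rw [all_ix]
  refine ⟨rfl, fun b => ?_, h2⟩
  have h3 := congrFun h1 b
  fin_cases b
  · exact h3
  · exact h3

theorem amp_pull [T2Space M] {i : A.ι} {c : Cn 2 → ℂ} (hc : Cs A i c) :
    IsAmp A i (sAmp hg (pull A i c)) := by
  have h1 : tsupport (pull A i c) ⊆ KK A i c :=
    closure_minimal (fun x hx => by_contra fun h => hx (pull_off h)) hc.compact.isClosed
  refine C1d194.isAmp_bump (isCF_pull hc).sm
    (hc.compact.of_isClosed_subset (isClosed_tsupport _) h1) (h1.trans hc.sub_source)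
    fun k l => ?_
  exact contDiffOn_const

theorem cs_cut {i : A.ι} {p : Cn 2} {r : ℝ} (hr : 0 < r) (h : PD p (3 * r) ⊆ (A.e i).target) :
    Cs A i (cut p r hr) := by
  have h1 : tsupport (cut p r hr) ⊆ CPD p (fun _ => 2 * r) := tsupport_cut_subset
  refine ⟨contDiff_cut p r hr, (isCompact_CPD _ _).of_isClosed_subset (isClosed_tsupport _) h1,
    fun z hz => h fun a => ?_⟩
  have : ‖z a - p a‖ ≤ 2 * r := h1 hz a
  linarith

theorem tst_sub {U : Set (Cn 2)} {i : A.ι} (hU : U ⊆ (A.e i).target) {f : Cn 2 → ℂ}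
    (hf : Tst U f) : Cs A i f := ⟨hf.sm, hf.cpt, hf.sub.trans hU⟩

theorem p2_pq (u : SecL (LV hg)) : p2 (pqL (BL hg) 2 u).1 = p2 u.1 := by
  funext i x
  exact (pq_apply (B := BL hg) 2 u.1 i x (kt hg)).trans (if_pos rfl)

namespace TopV

variable {V : Type*} [AddCommGroup V] [Module ℂ V] {S : Scale ℂ V}
  {inc : V →ₗ[ℂ] SecL (LV hg)} {p D : V →ₗ[ℂ] V} {om : A.ι → ℝ}

theorem idem (T : TopV P hg S inc p D om) : p ∘ₗ p = p := by
  refine LinearMap.ext fun v => T.inj ?_
  show inc (p (p v)) = inc (p v)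
  rw [T.p_inc, T.p_inc]
  exact LinearMap.congr_fun (pqL_idem (B := BL hg) 2) (inc v)

/-- the raw `(0,2)`-form of an element of degree `2` -/
def j2 (inc : V →ₗ[ℂ] SecL (LV hg)) (p : V →ₗ[ℂ] V) : LinearMap.range p →ₗ[ℂ] (A.ι → M → ℂ) where
  toFun v := p2 (inc v.1).1
  map_add' v v' := by
    have : inc (v + v' : LinearMap.range p).1 = inc v.1 + inc v'.1 := map_add inc _ _
    rw [this]; rfl
  map_smul' c v := by
    have : inc (c • v : LinearMap.range p).1 = c • inc v.1 := map_smul inc _ _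
    rw [this]; rfl


theorem j2_range (T : TopV P hg S inc p D om) (v : V) :
    j2 inc p (p.rangeRestrict v) = p2 (inc v).1 := by
  show p2 (inc (p v)).1 = _
  rw [T.p_inc]
  exact p2_pq _

theorem pq_of_range (T : TopV P hg S inc p D om) (v : LinearMap.range p) :
    pqL (BL hg) 2 (inc v.1) = inc v.1 := by
  rw [← T.p_inc, (mem_range_iff_of_idem T.idem v.1).1 v.2]

/-- **the instance of `Top`** -/
theorem top [T2Space M] (T : TopV P hg S inc p D om) (hr : Room P) :
    Top P g (S.ran T.p_op T.idem) (p.rangeRestrict ∘ₗ D) (j2 inc p) om where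
  inj := by
    intro v v' h
    apply Subtype.ext
    apply T.inj
    apply Subtype.ext
    have h1 := coe_of_pq (T.pq_of_range v)
    have h2 := coe_of_pq (T.pq_of_range v')
    have h3 : p2 (inc v.1).1 = p2 (inc v'.1).1 := h
    exact h1.trans ((congrArg (mk3 0 0) h3).trans h2.symm)
  c2 := by
    rintro F hF ⟨K, hK, hK'⟩
    obtain ⟨v, hv⟩ := T.cs ((eqv hg).symm (0, 0, ⟨F, hF⟩)) ⟨K, hK, fun i x hx => by
      exact mk3_zero_apply (hK' i x hx)⟩
    refine ⟨p.rangeRestrict v, ?_⟩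
    rw [T.j2_range, hv]
    rfl
  c1 := by
    intro i c hc
    have hK : IsCompact (⋃ a, KK A i (c a)) := isCompact_iUnion fun a => (hc a).compact
    obtain ⟨v, hv⟩ := T.cs ((eqv hg).symm (0, ⟨ext1 A g i c, ext1_mem hg hc univ⟩, 0))
      ⟨_, hK, fun j x hx => by
        exact mk3_eq_zero (ext1_off fun a hx' => hx (mem_iUnion.2 ⟨a, hx'⟩)) rfl⟩
    refine ⟨v, ?_⟩
    refine (T.j2_range (D v)).trans ?_
    rw [T.D_inc, hv]
    show p2 (nabE (LV hg) _) = _
    rw [nab_eq hg (Subtype.mem _), p2_mk3]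
    rfl
  dense := by
    intro v ε hε
    obtain ⟨C, hC0, hC⟩ := exists_nonneg_const (T.p_op 0)
    obtain ⟨v', ⟨K, hK, hK'⟩, h⟩ := T.dense v.1 (ε / (C + 1)) (by positivity)
    have hj : j2 inc p (p.rangeRestrict v') = p2 (inc v').1 := T.j2_range v'
    refine ⟨p.rangeRestrict v', ?_, ?_, ?_⟩
    · rw [hj]
      exact ((mem_iff hg _).1 (inc v').2).2.2
    · rw [hj]
      exact ⟨K, hK, fun i x hx => congrFun (hK' i x hx) _⟩
    · have h1 : (v - p.rangeRestrict v' : LinearMap.range p).1 = p (v.1 - v') := by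
        rw [map_sub, (mem_range_iff_of_idem T.idem v.1).1 v.2]
        rfl
      rw [Scale.ran_nrm, h1]
      refine (hC _).trans ?_
      calc C * S.nrm 0 (v.1 - v') ≤ C * (ε / (C + 1)) := mul_le_mul_of_nonneg_left h hC0
        _ ≤ ε := by
          rw [mul_div_assoc', div_le_iff₀ (by positivity)]
          nlinarith
  bnd := by
    intro i z hz
    obtain ⟨R, hR, hRs⟩ := exists_PD_subset ((A.e i).open_target.mem_nhds hz)
    have hr3 : 0 < R / 3 := by positivity
    have hcs : Cs A i (cut z (R / 3) hr3) := cs_cut hr3 (by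
      rw [show 3 * (R / 3) = R by ring]; exact hRs)
    obtain ⟨C, hC0, hC⟩ := T.bnd i _ (KK A i (cut z (R / 3) hr3)) (amp_pull hcs) hcs.compact
    have hsub : PD z (2 * (R / 6)) ⊆ (A.e i).target := (PD_mono (by linarith)).trans hRs
    have h1 : ∀ f, Tst (PD z (2 * (R / 6))) f → ∀ y ∈ tsupport f,
        cut z (R / 3) hr3 y = 1 := fun f hf y hy =>
      cut_eq_one fun a => by
        have : ‖y a - z a‖ < 2 * (R / 6) := hf.sub hy a
        linarith
    refine ⟨R / 6, by positivity, C, hsub, fun f hf m hm v hv => ?_⟩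
    have hcf := tst_sub hsub hf
    refine hC f hcf ?_ ?_ m hm v.1 (T.pq_of_range v) hv
    · rintro _ ⟨y, hy, rfl⟩
      rw [pull_symm (hcf.sub hy)]
      exact h1 f hf y hy
    · rintro _ ⟨y, hy, rfl⟩
      refine ⟨y, subset_tsupport _ ?_, rfl⟩
      rw [Function.mem_support, h1 f hf y hy]
      exact one_ne_zero
  ubnd := by
    obtain ⟨r, hr0, hrr⟩ := hr
    obtain ⟨C, hC0, hC⟩ := T.ubnd
    refine ⟨r / 2, by positivity, C, hC0, fun i x hx => ?_⟩
    rw [show 2 * (r / 2) = r by ring]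
    have hsub : PD (A.e i x) r ⊆ (A.e i).target := fun z hz => (hrr i x hx z hz).1
    refine ⟨hsub, fun f hf m hm v hv => ?_⟩
    refine hC i f (tst_sub hsub hf) ?_ m hm v.1 (T.pq_of_range v) hv
    rintro _ ⟨y, hy, rfl⟩
    exact (hrr i x hx y (hf.sub hy)).2

/-- **Serre duality in the top degree**, abstract weighted spaces -/
theorem ex2 [T2Space M] (T : TopV P hg S inc p D om) (hr : Room P) {K : V →ₗ[ℂ] V}
    (hK : QHtp S D K)
    (van : ∀ w, IsKHol A g w → (∃ r > 0, ∃ C : ℝ, 0 ≤ C ∧ ∀ i, ∀ x ∈ tsupport (P.ψ i),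
        PD (A.e i x) (2 * r) ⊆ (A.e i).target ∧
        ∀ z ∈ PD (A.e i x) r, ‖w i ((A.e i).symm z)‖ ≤ C * om i) →
      ∀ i, ∀ x ∈ (A.e i).source, w i x = 0)
    (v : V) (hv : p v = v) : ∃ u, p (D u) = v := by
  have hdeg : ∀ v : V, p v = v → D v = 0 := by
    intro v hv
    apply T.inj
    rw [T.D_inc, map_zero]
    have h1 : pqL (BL hg) 2 (inc v) = inc v := by rw [← T.p_inc, hv]
    rw [← h1]
    have h2 : nabL (BL hg) (pqL (BL hg) 2 (inc v)) = pqL (BL hg) 3 (nabL (BL hg) (inc v)) :=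
      LinearMap.congr_fun (nabL_pqL (B := BL hg) 2) (inc v)
    rw [h2]
    have h3 : pqL (BL hg) 3 = 0 := by
      apply pqL_top
      have key : ∀ k : Fin 4 × Unit, dg k.1 < 3 := by
        rintro ⟨k, r⟩
        fin_cases k <;> simp [dg]
      exact (Finset.sup_lt_iff (by norm_num)).2 fun k _ => key k
    rw [h3]
    rfl
  have hKN : ∀ v : LinearMap.range p, (p.rangeRestrict ∘ₗ D) ((K ∘ₗ (LinearMap.range p).subtype) v) =
      v - (-(corner p p (D ∘ₗ K + K ∘ₗ D - LinearMap.id))) v := by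
    intro v
    apply Subtype.ext
    have h0 : p v.1 = v.1 := (mem_range_iff_of_idem T.idem v.1).1 v.2
    show p (D (K v.1)) = v.1 - (-(p ((D ∘ₗ K + K ∘ₗ D - (LinearMap.id : V →ₗ[ℂ] V)) v.1)))
    rw [LinearMap.sub_apply, LinearMap.add_apply, LinearMap.comp_apply, LinearMap.comp_apply,
      hdeg v.1 h0, map_zero, add_zero, LinearMap.id_apply, map_sub, h0]
    abel
  obtain ⟨u, hu⟩ := serre_top' hg (T.top hr)
    ((hK.2.corner T.p_op T.idem T.p_op T.idem).neg) hKN van ⟨v, ⟨v, hv⟩⟩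
  exact ⟨u, congrArg Subtype.val hu⟩

end TopV

/-! ### the instance on the weighted spaces of helper681 -/

section inst

variable {Q : PNb P}

theorem dom_self (w : Wt Q) : Dom (fun _ => 1) w w := ⟨1, zero_le_one, fun i => by simp⟩

/-- the projection to the top degree -/
def pW (hg : IsLC A g) (w : Wt Q) : WSm (BL hg) w →ₗ[ℂ] WSm (BL hg) w :=
  (pqL (BL hg) 2).restrict (LE.mem (LE.pqL Q 2) (dom_self w))

/-- `∇` on the weighted space -/
def nW (hB : BGeo P (BL hg)) (w : Wt Q) : WSm (BL hg) w →ₗ[ℂ] WSm (BL hg) w :=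
  (nabL (BL hg)).restrict (LE.mem (LE.nabL Q hB) (dom_self w))

theorem csupp_ExtW (hB : BGeo P (BL hg)) (w : Wt Q) (x : FT (RI 2) (wsW (BL hg) w))
    (F : Finset (A.ι × (BL hg).κ)) :
    ∃ K : Set M, IsCompact K ∧ ∀ i, ∀ y ∉ K,
      (ExtW hB w (Ret666.cut _ (F : Set (A.ι × (BL hg).κ)) x)).1.1 i y = 0 := by
  classical
  refine ⟨⋃ j ∈ F.image Prod.fst, tsupport (P.χ j), ?_, fun i y hy => ?_⟩
  · exact (F.image Prod.fst).isCompact_biUnion fun j _ => P.χ_cpt j
  · show ExtF (BL hg) (P.chi (BL hg).κ) _ i y = 0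
    unfold ExtF
    refine finsum_eq_zero_of_forall_eq_zero fun j => ?_
    by_cases hj : j ∈ F.image Prod.fst
    · refine C1d194.ext_zero_off (BL hg) j (fun h => hy ?_) _
      exact mem_biUnion hj ((P.amp_chi (BL hg).κ).sub j h)
    · have h1 : (fun k : (BL hg).κ =>
          (Ret666.cut (wsW (BL hg) w) (F : Set (A.ι × (BL hg).κ)) x).fn (j, k)) = 0 := by
        funext k
        rw [Ret666.cut_apply, if_neg]
        · rfl
        · intro h
          exact hj (Finset.mem_image.2 ⟨(j, k), Finset.mem_coe.1 h, rfl⟩)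
      have h2 := C1d194.ext_zero (BL hg) j (κ' := (BL hg).κ) (P.chi (BL hg).κ j)
      rw [← h1] at h2
      exact congrFun (congrFun h2 i) y

theorem dense_WSm (hB : BGeo P (BL hg)) (w : Wt Q) (v : WSm (BL hg) w) {ε : ℝ} (hε : 0 < ε) :
    ∃ v' : WSm (BL hg) w, (∃ K : Set M, IsCompact K ∧ ∀ i, ∀ x ∉ K, v'.1.1 i x = 0) ∧
      (sc hB w).nrm 0 (v - v') ≤ ε := by
  obtain ⟨C, hC⟩ := (ret hB w).bdd 0
  obtain ⟨F, hF⟩ := nT_cut_compl 0 (LocW (BL hg) w v) (ε := ε / (|C| + 1)) (by positivity)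
  refine ⟨ExtW hB w (Ret666.cut _ (F : Set (A.ι × (BL hg).κ)) (LocW (BL hg) w v)),
    csupp_ExtW hB w _ F, ?_⟩
  have h1 : v - ExtW hB w (Ret666.cut _ (F : Set (A.ι × (BL hg).κ)) (LocW (BL hg) w v)) =
      ExtW hB w (LocW (BL hg) w v - Ret666.cut _ (F : Set (A.ι × (BL hg).κ)) (LocW (BL hg) w v)) := by
    rw [map_sub, ExtW_LocW]
  rw [h1]
  refine (hC _).trans ?_
  have h0 := nT_nonneg 0 (LocW (BL hg) w v - Ret666.cut _ (F : Set (A.ι × (BL hg).κ))
    (LocW (BL hg) w v))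
  calc C * nT 0 (LocW (BL hg) w v - Ret666.cut _ (F : Set (A.ι × (BL hg).κ)) (LocW (BL hg) w v))
      ≤ |C| * nT 0 (LocW (BL hg) w v - Ret666.cut _ (F : Set (A.ι × (BL hg).κ))
        (LocW (BL hg) w v)) := mul_le_mul_of_nonneg_right (le_abs_self C) h0
    _ ≤ |C| * (ε / (|C| + 1)) := mul_le_mul_of_nonneg_left hF (abs_nonneg _)
    _ ≤ ε := by
      rw [mul_div_assoc', div_le_iff₀ (by positivity)]
      nlinarith [abs_nonneg C]

theorem TopV.of_WSm (hB : BGeo P (BL hg)) (w : Wt Q) :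
    TopV P hg (sc hB w) (WSm (BL hg) w).subtype (pW hg w) (nW hB w) w.w where
  inj := Subtype.val_injective
  p_inc _ := rfl
  D_inc _ := rfl
  p_op := LE.op0 (LE.pqL Q 2) hB hB (dom_self w) _
  cs := by
    rintro u ⟨K, hK, hK'⟩
    exact ⟨⟨u, mem_of_csupp w hK hK'⟩, rfl⟩
  dense v ε hε := dense_WSm hB w v hε
  bnd := by
    intro i c K hb hK
    exact nrm_ext2_le_local w hb hK
  ubnd := nrm_ext2_le_unif hB w

end inst

end

end Crest.Agent.R275.SerY940
end

-- ▼ part R275/SerYh_940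

/-!
# R275, block C6 on `Y` (helper940): `H²_{a,b}(L) = 0` from `H⁰(K ⊗ L⁻¹) = 0`

`wb_of_bounds`  : the sections produced by the duality are in helper96's classes on the cores
                  `tsupport (ψ i)` (Cauchy estimates).
`TopV.ex2_bd`   : `[QHtp] → [∀ w, IsHS (KB A * L⁻¹) univ w → BD .. w → w = 0] → ∇` onto in degree 2.
`TopV.ex2_ex0`  : the same from `Ex₀` of a weighted complex of `K ⊗ L⁻¹`.
`TopV.ex2_WCxY` : `(WCxY H c).Ex₂ a b`.
-/

set_option autoImplicit false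
set_option linter.unusedSectionVars false
set_option linter.unusedVariables false

open Set Filter Topology Complex MeasureTheory
open scoped ContDiff NNReal ComplexConjugate Matrix Kronecker

namespace Crest.Agent.R275.SerY940

open Crest.Agent.R275.Geo Crest.Agent.R275.Dol967 Crest.Agent.R275.Fm96 Crest.Agent.R275.FmExt861
  Crest.Agent.R275.Fred685 Crest.Agent.R275.Lam2130 Crest.Agent.R275.Tor812
  Crest.Agent.R275.TorS666 Crest.Agent.R275.WY681 Crest.Agent.R275.Ret666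
  Crest.Agent.R275.LauB681 Crest.Agent.R275.Core144 Crest.Agent.R275.JB658
  Crest.Agent.R275.Q74 Crest.Agent.R275.GG89 Crest.Agent.R275.WCxY89 Crest.Agent.R275.Sol352

noncomputable section

variable {M : Type} [TopologicalSpace M] {A : Atl 2 M} {P : Part A}
  {g : A.ι → A.ι → M → ℂ} {hg : IsLC A g}

/-! ### Cauchy estimates -/

theorem ball_sub_PD {p : Cn 2} {r : ℝ} : Metric.ball p r ⊆ PD p r := by
  intro y hy a
  rw [Metric.mem_ball, dist_eq_norm] at hy
  have h1 : ‖(y - p) a‖ ≤ ‖y - p‖ := PiLp.norm_apply_le (y - p) a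
  exact lt_of_le_of_lt h1 hy

theorem wb_of_bounds {w : A.ι → M → ℂ} (h : IsKHol A g w) {om : A.ι → ℝ} {W : M → ℝ}
    (hom : ∃ C : ℝ, 0 ≤ C ∧ ∀ i, ∀ x ∈ tsupport (P.ψ i), om i ≤ C * W x)
    (hb : ∃ r > 0, ∃ C : ℝ, 0 ≤ C ∧ ∀ i, ∀ x ∈ tsupport (P.ψ i),
      PD (A.e i x) (2 * r) ⊆ (A.e i).target ∧
      ∀ z ∈ PD (A.e i x) r, ‖w i ((A.e i).symm z)‖ ≤ C * om i) :
    WB A (fun i => tsupport (P.ψ i)) W w := by
  obtain ⟨C', hC'0, hC'⟩ := hom
  obtain ⟨r, hr, C, hC0, hC⟩ := hb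
  refine WB.mk' (fun i x hx => ?_) fun k => ⟨(k / r) ^ k * (C * C'), by positivity,
    fun i x hx => ?_⟩
  · exact ((h.hol i x (tsupport_ψ_source P hx)).smP).self
  · obtain ⟨h1, h2⟩ := hC i x hx
    have hsub : Metric.ball (A.e i x) r ⊆ (A.e i).target :=
      (ball_sub_PD.trans (PD_mono (by linarith))).trans h1
    have hd : DifferentiableOn ℂ (fun z => w i ((A.e i).symm z)) (Metric.ball (A.e i x) r) := by
      intro z hz
      have h3 := (h.hol i _ ((A.e i).map_target (hsub hz))).self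
      rw [(A.e i).right_inv (hsub hz)] at h3
      exact h3.differentiableWithinAt
    refine (Cau658.norm_iteratedFDeriv_real_le hr hd (fun z hz => h2 z (ball_sub_PD hz)) k).trans ?_
    have h4 : C * om i ≤ C * (C' * W x) := mul_le_mul_of_nonneg_left (hC' i x hx) hC0
    calc (k / r) ^ k * (C * om i) ≤ (k / r) ^ k * (C * (C' * W x)) :=
          mul_le_mul_of_nonneg_left h4 (by positivity)
      _ = (k / r) ^ k * (C * C') * W x := by ring

/-! ### holomorphic sections of `K ⊗ L⁻¹` -/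

theorem IsKHol.isHS {L : LB A} {w : A.ι → M → ℂ} (h : IsKHol A L.g w) :
    IsHS (KB A * L⁻¹) univ w where
  hol i := by
    intro z hz
    have h1 := (h.hol i _ ((A.e i).map_target hz.1)).self
    rw [(A.e i).right_inv hz.1] at h1
    exact h1.differentiableWithinAt
  off := h.off
  tr i j x hx _ := by
    rw [h.tr i j x hx, LB.mul_g, LB.inv_g]
    have h1 : (KB A).g i j x = dj A i j x := if_pos hx
    rw [h1]

theorem IsKHol.isZ0 {L : LB A} {w : A.ι → M → ℂ} (h : IsKHol A L.g w) :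
    IsZ0 A (KB A * L⁻¹).g univ w where
  sm i x hx _ := (h.hol i x hx).smP
  off := h.off
  tr i j x hx hG := h.isHS.tr i j x hx hG

theorem IsKHol.d0_eq {w : A.ι → M → ℂ} (h : IsKHol A g w) : d0 A w = 0 := by
  funext i x b
  by_cases hx : x ∈ (A.e i).source
  · rw [d0_of_mem hx]
    exact (h.hol i x hx).db_eq b
  · rw [d0_of_not_mem hx]
    rfl

namespace TopV

variable {V : Type*} [AddCommGroup V] [Module ℂ V] {S : Scale ℂ V}


/-- **`H² = 0`** from `Ex₀` of a weighted complex of `K ⊗ L⁻¹` -/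
theorem ex2_ex0 [T2Space M] {L : LB A} {hg : IsLC A L.g} {inc : V →ₗ[ℂ] SecL (LV hg)}
    {p D : V →ₗ[ℂ] V} {om : A.ι → ℝ} (T : TopV P hg S inc p D om) (hr : Room P) {K : V →ₗ[ℂ] V}
    (hK : QHtp S D K) {h : M → ℝ} {a b a' b' : ℝ}
    (hom : ∃ C : ℝ, 0 ≤ C ∧ ∀ i, ∀ x ∈ tsupport (P.ψ i), om i ≤ C * wgt a b (h x))
    (F : WFam A (fun i => tsupport (P.ψ i)) h (KB A * L⁻¹)) (ha : a < a') (hb : b < b')
    (e : F.W.Ex₀ (-a') b') (v : V) (hv : p v = v) : ∃ u, p (D u) = v := by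
  refine T.ex2 hr hK (fun w hw hbd i x hx => ?_) v hv
  have h1 : BD A (fun i => tsupport (P.ψ i)) h a b w := wb_of_bounds hw hom hbd
  have h2 : (⟨w, hw.isZ0⟩ : ZZ0 A (KB A * L⁻¹).g) ∈ F.W.W₀ (-a') b' := F.s20 h1 ha hb
  have h3 : F.W.d₀ ⟨w, hw.isZ0⟩ = 0 := by
    rw [F.d₀_eq]
    exact Subtype.ext hw.d0_eq
  have h4 := congrArg Subtype.val (e _ h2 h3)
  exact congrFun (congrFun h4 i) x

end TopV

/-! ### the weighted complexes of helper89 -/

section WCxY

variable {F : WF ℂ (SecL (LV hg))} {C : Cx F}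

theorem ex2_WCxY_of (H : DolF hg C) (c : Cut C) {a b : ℝ}
    (h : ∀ v : F.V a b, F.πR a b 2 v = v → ∃ u : F.V a b, F.πR a b 2 (C.R a b u) = v) :
    (WCxY H c).Ex₂ a b := by
  intro x hx
  have Sp := H.split
  have hx' : (eqv hg).symm (0, 0, x) ∈ F.V a b := hx
  obtain ⟨u, hu⟩ := h ⟨_, hx'⟩ (by
    apply Subtype.ext
    show F.π 2 ((eqv hg).symm (0, 0, x)) = (eqv hg).symm (0, 0, x)
    rw [Sp.π₂, LinearEquiv.apply_symm_apply])
  have hu' : F.π 2 (C.D u.1) = (eqv hg).symm (0, 0, x) := congrArg Subtype.val hu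
  rw [Sp.π₂, Sp.D] at hu'
  have hx2 : D1 hg (eqv hg u.1).2.1 = x := by
    have := (eqv hg).symm.injective hu'
    exact congrArg (fun t => t.2.2) this
  refine ⟨(eqv hg u.1).2.1, ?_, hx2⟩
  show (eqv hg).symm (0, (eqv hg u.1).2.1, 0) ∈ F.V a b
  rw [← Sp.π₁]
  exact F.π_mem 1 u.2


/-- **(D6)** the same from `Ex₀` of a weighted complex of `K ⊗ L⁻¹` -/
theorem ex2_WCxY' [T2Space M] {L : LB A} {hg : IsLC A L.g} {F : WF ℂ (SecL (LV hg))} {C : Cx F}
    (H : DolF hg C) (c : Cut C) {a b : ℝ} {om : A.ι → ℝ}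
    (T : TopV P hg (F.S a b) (F.V a b).subtype (F.πR a b 2) (C.R a b) om) (hr : Room P)
    {K : F.V a b →ₗ[ℂ] F.V a b} (hK : QHtp (F.S a b) (C.R a b) K) {h : M → ℝ} {x y x' y' : ℝ}
    (hom : ∃ C : ℝ, 0 ≤ C ∧ ∀ i, ∀ z ∈ tsupport (P.ψ i), om i ≤ C * wgt x y (h z))
    (G : WFam A (fun i => tsupport (P.ψ i)) h (KB A * L⁻¹)) (hx : x < x') (hy : y < y')
    (e : G.W.Ex₀ (-x') y') : (WCxY H c).Ex₂ a b :=
  ex2_WCxY_of H c (T.ex2_ex0 hr hK hom G hx hy e)

end WCxY

end

end Crest.Agent.R275.SerY940
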