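import Crest.Agent.R275.S5Per_95
import Crest.Agent.R275.Eqv_672
import Crest.Agent.R275.RootS5_595
import Crest.Agent.R275.BdcB_96
import Crest.Agent.R275.SolA_352
import Crest.Agent.R275.Sol_352
import Crest.Agent.R275.NAtl_938
import Crest.Agent.R275.Xin_473
import Crest.Agent.R275.Sec1B_197
import Crest.Agent.R275.LemD_96
import Crest.Agent.R275.Sec1A_197
import Crest.Agent.R275.BR4c_672
import Crest.Agent.R275.Loc3_572
import Crest.Agent.R275.EndAll_468
import Crest.Agent.R275.St3E_686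
import Crest.Agent.R275.EB_938
import Crest.Agent.R275.PSol_646
import Crest.Agent.R275.Sec1C_197
import Crest.Agent.R275.Wy5C_197
import Crest.Agent.R275.Core2_144
import Crest.Agent.R275.YBaseX_144
import Crest.Agent.R275.TInA_672
import Crest.Agent.R275.PushNef_768
import Crest.Agent.R275.SolY_352
import Crest.Agent.R275.Int4_95

-- ▼ part R275/Rech_69
section

/-!
# R275, helper69: change of representatives in the input of sections 4-5 (B1)

* `tin_congr`  : `GeoP572.TIn` only depends on the isomorphism classes of the unit bundles `E β`;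
* `ordCongr`   : the order (same `φ`, `b`, `r`) for the new representatives;
* `exists_rechoice` : strictly equivariant representatives `E'`, `s'` inside any pull-invariant class
  `Rt` of bundles that contains a representative of every bundle of `P`;
* `RG A h R`   : bundles with cocycle `1 + O(exp (-R |h|))`;
* `exists_per5`, `exists_per5_two` : the periodic family `Tr5.Per5` with a rate `ρ`, for the two
  parent case with `(1 + max r) exp (-ρ / b) < 1`.
-/

set_option autoImplicit false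
set_option linter.unusedSectionVars false

open Set Filter Topology
open scoped Manifold ContDiff

namespace Crest.Agent.R275.Rech69

open Crest.AlgGeometry.Surface Crest.Agent.R275.Geo Crest.Agent.R275.Core144
open Crest.Agent.R275.Dv69 (HolN LEq EffDiv gt LocFact DivFin)
open Crest.Agent.R275.Dv69.EffDiv (CPr)
open Crest.Agent.R275.HolY631 (Deck)
open Crest.Agent.R275.GeoP572
open Crest.Agent.R275.Sec495
open Crest.Agent.R275.S5In95
open Crest.Agent.R275.BR4672 (twL twS sy_equi EE sE gB)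

noncomputable section

variable {Y : Type} [TopologicalSpace Y] [ChartedSpace C2 Y] [IsManifold 𝓘(ℂ, C2) 1 Y]
variable [LocFact Y] [PreconnectedSpace Y] [Nonempty Y]
variable {A : Atl 2 Y} {h : Y → ℝ} {γ : Y ≃ₜ Y} {Q : Equi A γ} {P : Subgroup (LB A)}
  {B : Type} {g : Equiv.Perm B} {lev : B → ℤ} {E E' : B → LB A} {q : LB A → ℤ}
  {s s' : B → A.ι → Y → ℂ}

/-! ### the inputs for isomorphic representatives -/

section congr

variable (H : TIn A h γ Q P g lev E q s) (hE' : ∀ β, E' β ∈ P)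
  (hT : ∀ β, E' β * (E β)⁻¹ ∈ TG A h)

include H hE' hT

theorem bq_congr {L : LB A} (hL : L ∈ P) (β : B) : bq q L (E' β) = bq q L (E β) := by
  rw [bq_comm, H.lat.b_congr (H.lat.E_mem β) (hE' β) hL (hT β), bq_comm]

theorem cls_congr' : cls P (TG A h) E' = cls P (TG A h) E := by
  funext L
  by_cases hL : L ∈ P
  · have lat' := BR4672.lat_congr H.lat hE' hT
    refine lat'.cls_eq hL ?_
    have h1 := H.lat.cls_spec hL
    have h2 := (TG A h).mul_mem h1 ((TG A h).inv_mem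
      (BR4672.prodE_congr hT (cls P (TG A h) E L)))
    have e : L * (prodE E (cls P (TG A h) E L))⁻¹ *
        (prodE E' (cls P (TG A h) E L) * (prodE E (cls P (TG A h) E L))⁻¹)⁻¹ =
        L * (prodE E' (cls P (TG A h) E L))⁻¹ := by
      rw [mul_inv, inv_inv, mul_assoc, mul_comm (prodE E' _)⁻¹, ← mul_assoc (prodE E _)⁻¹,
        inv_mul_cancel, one_mul]
    rwa [e] at h2
  · unfold cls
    rw [dif_neg fun h' => hL h'.1, dif_neg fun h' => hL h'.1]

variable (hs' : ∀ β, s' β ∈ VL h (E' β)) (hs0 : ∀ β, s' β ≠ 0)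

include hs' hs0

theorem dvs_congr' (β : B) : dvs A (s' β) = dvs A (s β) :=
  H.dvs_congr (H.lat.E_mem β) (hE' β) (H.s_mem β) (H.s_ne β) (hs' β) (hs0 β)
    (H.lat.cls_congr (H.lat.E_mem β) (hE' β) (hT β))

/-- the inputs of section 4 for isomorphic representatives -/
theorem tin_congr : TIn A h γ Q P g lev E' q s' where
  adm := H.adm
  deck := H.deck
  bdg := H.bdg
  P_pull := H.P_pull
  lev_g := H.lev_g
  fin := H.fin
  lat := BR4672.lat_congr H.lat hE' hT
  E_pull β := by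
    have h1 := trivP_pull Q H.deck.shift (hT (g β))
    have h2 := (TG A h).mul_mem ((TG A h).mul_mem h1 (H.E_pull β)) ((TG A h).inv_mem (hT β))
    have e : pullL Q (E' (g β) * (E (g β))⁻¹) * (pullL Q (E (g β)) * (E β)⁻¹) *
        (E' β * (E β)⁻¹)⁻¹ = pullL Q (E' (g β)) * (E' β)⁻¹ := by
      have e1 : pullL Q (E' (g β) * (E (g β))⁻¹) =
          pullL Q (E' (g β)) * (pullL Q (E (g β)))⁻¹ := by
        have := map_mul (pullHom Q) (E' (g β)) (E (g β))⁻¹
        rw [map_inv] at this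
        exact this
      rw [e1]
      group
    rw [← e]
    exact h2
  lim := H.lim
  s_mem := hs'
  s_ne := hs0
  loc := by
    obtain ⟨W, hW⟩ := H.loc
    refine ⟨W, fun β L hL σ hσ h0 T hz hT' => ?_⟩
    rw [bq_congr H hE' hT hL]
    exact hW β L hL σ hσ h0 T hz hT'
  sec3 β T := by
    rw [dvs_congr' H hE' hT hs' hs0]
    exact H.sec3 β T
  odiv := H.odiv
  genus := H.genus
  nef := H.nef
  inter := H.inter
  far := by
    obtain ⟨N, hN⟩ := H.far
    refine ⟨N, fun β δ hl => ?_⟩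
    rw [dvs_congr' H hE' hT hs' hs0, dvs_congr' H hE' hT hs' hs0]
    exact hN β δ hl

end congr

/-! ### the order for isomorphic representatives -/

/-- transport of the order between two data with the same `m`, `J`, `g` -/
theorem exists_ord_of_eq {B : Type} [DecidableEq B] {S S' : Data495 B}
    (hm : ∀ β δ, S'.m β δ = S.m β δ) (hJ : ∀ β, S'.J β = S.J β) (hg : ∀ β, S'.g β = S.g β)
    (O : Ord495 S) : ∃ O' : Ord495 S', O'.φ = O.φ ∧ O'.b = O.b ∧ O'.r = O.r :=
  ⟨{ φ := O.φ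
     b := O.b
     hb := O.hb
     pos_iff := fun k l => by rw [hm]; exact O.pos_iff k l
     shift := fun k => by rw [hg]; exact O.shift k
     r := O.r
     r_pos := O.r_pos
     r_per := O.r_per
     J_eq := fun k => by rw [hJ]; exact O.J_eq k }, rfl, rfl, rfl⟩

section ord

variable [DivFin Y] [DecidableEq B]
variable (H : TIn A h γ Q P g lev E q s) (H' : TIn A h γ Q P g lev E' q s')
  (hT : ∀ β, E' β * (E β)⁻¹ ∈ TG A h)

include hT

theorem divCls_congr (C : CPr Y) : H'.toDivData.cls C = H.toDivData.cls C := by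
  refine (H'.toDivData.cls_eq ?_).symm
  obtain ⟨⟨L, hL, hc, σ, hσ, h0, hd⟩, hcpt⟩ := H.toDivData.Rc_cls C
  refine ⟨⟨L, hL, ?_, σ, hσ, h0, hd⟩, hcpt⟩
  rw [cls_congr' H H'.lat.E_mem hT]
  exact hc

theorem idx_congr (C : CPr Y) : H'.toDivData.toGeo.idx C = H.toDivData.toGeo.idx C := by
  symm
  apply H'.toDivData.toGeo.eq_idx
  have h1 : H'.toDivData.toGeo.x C = H.toDivData.toGeo.x C := divCls_congr H H' hT C
  rw [h1, H.toDivData.toGeo.x_idx]
  exact one_pos

theorem cur_congr (β : B) : H'.toDivData.toGeo.cur β = H.toDivData.toGeo.cur β := by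
  apply H'.toDivData.toGeo.idx_injective
  rw [H'.toDivData.toGeo.idx_cur, idx_congr H H' hT, H.toDivData.toGeo.idx_cur]

theorem J_congr (β : B) : H'.toDivData.toData.J β = H.toDivData.toData.J β := by
  show H'.toDivData.toGeo.Jc (H'.toDivData.toGeo.cur β) =
    H.toDivData.toGeo.Jc (H.toDivData.toGeo.cur β)
  rw [cur_congr H H' hT]
  ext δ
  rw [H'.toDivData.toGeo.mem_Jc, H.toDivData.toGeo.mem_Jc]
  have h1 : H'.toDivData.toGeo.x (H.toDivData.toGeo.cur β) =
      H.toDivData.toGeo.x (H.toDivData.toGeo.cur β) := divCls_congr H H' hT _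
  rw [h1]

theorem m_congr (β δ : B) : H'.toDivData.toData.m β δ = H.toDivData.toData.m β δ := by
  show Dv69.Mon.ord (H'.toDivData.toGeo.cur δ).1 (H'.toDivData.D β) =
    Dv69.Mon.ord (H.toDivData.toGeo.cur δ).1 (H.toDivData.D β)
  rw [cur_congr H H' hT, H'.D_eq, H.D_eq,
    dvs_congr' H H'.lat.E_mem hT H'.s_mem H'.s_ne]

/-- the order for the new representatives: same `φ`, `b`, `r` -/
theorem exists_ordCongr (O : Ord495 H.toDivData.toData) :
    ∃ O' : Ord495 H'.toDivData.toData, O'.φ = O.φ ∧ O'.b = O.b ∧ O'.r = O.r :=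
  exists_ord_of_eq (m_congr H H' hT) (J_congr H H' hT) (fun _ => rfl) O

end ord

/-! ### strictly equivariant representatives in a given class -/

section rechoice

variable (H : TIn A h γ Q P g lev E q s)

/-- fundamental domain of indices -/
abbrev B0 (lev : B → ℤ) : Type := {β : B // lev β = 0}

include H in
theorem lev_zpow (n : ℤ) (β : B) : lev ((g ^ n) β) = lev β + n := by
  induction n using Int.induction_on with
  | zero => simp
  | succ n ih => rw [zpow_add_one, Equiv.Perm.mul_apply]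
                 have h1 : ∀ (m : ℕ) (β : B), lev ((g ^ (m : ℤ)) β) = lev β + m := by
                   intro m
                   induction m with
                   | zero => intro β; simp
                   | succ m ih' =>
                     intro β
                     have e : (g ^ ((m + 1 : ℕ) : ℤ)) β = (g ^ (m : ℤ)) (g β) := by
                       push_cast
                       rw [zpow_add_one, Equiv.Perm.mul_apply]
                     rw [e, ih', H.lev_g]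
                     push_cast
                     ring
                 rw [h1, H.lev_g]; ring
  | pred n ih =>
    have h1 : lev (g ((g ^ (-(n : ℤ) - 1)) β)) = lev ((g ^ (-(n : ℤ))) β) := by
      congr 1
      rw [← Equiv.Perm.mul_apply, ← zpow_one_add]
      congr 2
      ring
    rw [H.lev_g, ih] at h1
    linarith

/-- coordinates of an index: position in the fundamental domain, and level -/
def co (β : B) : B0 lev × ℤ :=
  (⟨(g ^ (-lev β)) β, by rw [lev_zpow H]; ring⟩, lev β)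

theorem co_g (β : B) : co H (g β) = gB _ (co H β) := by
  unfold co
  rw [BR4672.gB_apply]
  refine Prod.ext (Subtype.ext ?_) (H.lev_g β)
  show (g ^ (-lev (g β))) (g β) = (g ^ (-lev β)) β
  rw [H.lev_g, ← Equiv.Perm.mul_apply, ← zpow_add_one]
  congr 2
  ring

theorem zpow_co (β : B) : (g ^ (co H β).2) (co H β).1.1 = β := by
  show (g ^ (lev β)) ((g ^ (-lev β)) β) = β
  rw [← Equiv.Perm.mul_apply, ← zpow_add, add_neg_cancel, zpow_zero, Equiv.Perm.one_apply]

include H in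
/-- **Change of representatives**: strictly equivariant representatives `E'`, `s'` in a given
pull-back invariant class `Rt` of bundles. -/
theorem exists_rechoice (hP : ∀ L, pullL Q L ∈ P ↔ L ∈ P) {Rt : LB A → Prop}
    (hRt : ∀ (m : ℤ) (L : LB A), Rt L → Rt (twL ((sy_equi Q).zpow m) L))
    (hex : ∀ β, lev β = 0 → ∃ L' ∈ P, IsoP h (E β) L' ∧ Rt L') :
    ∃ (E' : B → LB A) (s' : B → A.ι → Y → ℂ), TIn A h γ Q P g lev E' q s' ∧
      (∀ β, E' β * (E β)⁻¹ ∈ TG A h) ∧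
      (∀ β, pullL Q (E' (g β)) = E' β) ∧ (∀ β, pullS Q (s' (g β)) = s' β) ∧ ∀ β, Rt (E' β) := by
  choose E0 hE0P hE0I hE0R using fun i : B0 lev => hex i.1 i.2
  -- sections
  have hs0 : ∀ i : B0 lev, ∃ t ∈ VL h (E0 i), t ≠ 0 := fun i => by
    obtain ⟨t, ht, ht0, -⟩ := BR4672.IsoP.exists_dv H.adm (hE0I i) (H.s_mem i.1) (H.s_ne i.1)
    exact ⟨t, ht, ht0⟩
  choose s0 hs0m hs0n using hs0
  -- the isomorphism with the old family
  set L : B0 lev × ℤ → LB A := fun β => E ((g ^ β.2) β.1.1) with hL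
  have hLeq : ∀ β, IsoP h (pullL Q (L (gB _ β))) (L β) := by
    intro β
    have h1 : L (gB _ β) = E (g ((g ^ β.2) β.1.1)) := by
      rw [hL]
      show E ((g ^ (β.2 + 1)) β.1.1) = _
      rw [add_comm, zpow_add, zpow_one]
      rfl
    rw [h1]
    exact IsoP.symm (H.E_pull ((g ^ β.2) β.1.1))
  have hiso := BR4672.isoP_EE (Q := Q) (E0 := E0) H.deck.shift hLeq fun i => by
    show IsoP h (E ((g ^ (0 : ℤ)) i.1)) (E0 i)
    rw [zpow_zero]
    exact hE0I i
  have hEm : ∀ β : B0 lev × ℤ, EE Q E0 β ∈ P :=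
    BR4672.EE_mem (fun m K hK => (BR4672.zpow_mem_of_pull hP m K).2 hK) hE0P
  have hT : ∀ β, EE Q E0 (co H β) * (E β)⁻¹ ∈ TG A h := by
    intro β
    have h1 := hiso (co H β)
    have h2 : L (co H β) = E β := by
      rw [hL]
      show E ((g ^ (co H β).2) (co H β).1.1) = E β
      rw [zpow_co H]
    rw [h2] at h1
    exact h1
  refine ⟨fun β => EE Q E0 (co H β), fun β => sE Q s0 (co H β),
    tin_congr H (fun β => hEm _) hT
      (fun β => BR4672.sE_mem_VL H.deck.shift hs0m _)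
      (fun β => BR4672.twS_ne_zero (hs0n _)), hT, fun β => ?_, fun β => ?_, fun β => ?_⟩
  · show pullL Q (EE Q E0 (co H (g β))) = _
    rw [co_g]
    exact BR4672.pullL_EE Q E0 _
  · show pullS Q (sE Q s0 (co H (g β))) = _
    rw [co_g]
    exact BR4672.pullS_sE Q s0 _
  · exact hRt _ _ (hE0R _)

end rechoice

/-! ### cocycles with a given rate -/

section rate

/-- the cocycle is `1 + O(exp (-R |h|))` -/
def HasR (h : Y → ℝ) (R : ℝ) (L : LB A) : Prop :=
  ∃ C : ℝ, ∀ i j, ∀ x ∈ (A.e i).source ∩ (A.e j).source,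
    ‖L.g i j x - 1‖ ≤ C * Real.exp (-R * |h x|)

variable {R R' : ℝ} {L L' : LB A}

theorem HasR.bound (hL : HasR h R L) : ∃ C : ℝ, 0 ≤ C ∧
    ∀ i j x, ‖L.g i j x - 1‖ ≤ C * Real.exp (-R * |h x|) := by
  obtain ⟨C, hC⟩ := hL
  refine ⟨max C 0, le_max_right _ _, fun i j x => ?_⟩
  by_cases hx : x ∈ (A.e i).source ∩ (A.e j).source
  · refine (hC i j x hx).trans ?_
    gcongr
    exact le_max_left _ _
  · rw [L.off i j x hx, sub_self, norm_zero]
    positivity

theorem HasR.mono (hL : HasR h R L) (hR : R' ≤ R) : HasR h R' L := by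
  obtain ⟨C, hC0, hC⟩ := hL.bound
  refine ⟨C, fun i j x _ => (hC i j x).trans ?_⟩
  have : -R * |h x| ≤ -R' * |h x| := by
    have := mul_le_mul_of_nonneg_right hR (abs_nonneg (h x))
    linarith
  gcongr


theorem HasR.mul (hR : 0 ≤ R) (hL : HasR h R L) (hL' : HasR h R L') : HasR h R (L * L') := by
  obtain ⟨C, hC0, hC⟩ := hL.bound
  obtain ⟨C', hC0', hC'⟩ := hL'.bound
  refine ⟨(1 + C) * C' + C, fun i j x _ => ?_⟩
  have e : (L * L').g i j x - 1 = L.g i j x * (L'.g i j x - 1) + (L.g i j x - 1) := by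
    rw [LB.mul_g]; ring
  have h1 : ‖L.g i j x‖ ≤ 1 + C := by
    have h2 : L.g i j x = 1 + (L.g i j x - 1) := by ring
    rw [h2]
    refine (norm_add_le _ _).trans ?_
    rw [norm_one]
    have h3 : Real.exp (-R * |h x|) ≤ 1 := by
      rw [Real.exp_le_one_iff]
      have := mul_nonneg hR (abs_nonneg (h x))
      linarith
    have h4 : C * Real.exp (-R * |h x|) ≤ C * 1 := by gcongr
    have := hC i j x
    linarith
  rw [e]
  calc _ ≤ ‖L.g i j x‖ * ‖L'.g i j x - 1‖ + ‖L.g i j x - 1‖ := by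
        refine (norm_add_le _ _).trans ?_
        rw [norm_mul]
    _ ≤ (1 + C) * (C' * Real.exp (-R * |h x|)) + C * Real.exp (-R * |h x|) := by
        gcongr
        · exact hC' i j x
        · exact hC i j x
    _ = ((1 + C) * C' + C) * Real.exp (-R * |h x|) := by ring

theorem HasR.inv (hL : HasR h R L) : HasR h R L⁻¹ := by
  obtain ⟨C, hC⟩ := hL
  refine ⟨C, fun i j x hx => ?_⟩
  rw [LB.inv_g, LB.inv_eq]
  exact hC j i x ⟨hx.2, hx.1⟩

theorem hasR_one (R : ℝ) : HasR h R (1 : LB A) := ⟨0, fun i j x _ => by simp⟩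

theorem hasR_prod (hR : 0 ≤ R) {ι : Type*} (F : Finset ι) {K : ι → LB A}
    (hK : ∀ l ∈ F, HasR h R (K l)) : HasR h R (∏ l ∈ F, K l) := by
  classical
  induction F using Finset.induction_on with
  | empty => rw [Finset.prod_empty]; exact hasR_one R
  | insert a F ha ih =>
    rw [Finset.prod_insert ha]
    exact (hK a (by simp)).mul hR (ih fun l hl => hK l (by simp [hl]))

theorem HasR.tw (hR : 0 ≤ R) {σ : Equiv.Perm A.ι} {φ : Y ≃ₜ Y} (S : BR4672.Sy A σ φ) {c : ℝ}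
    (hφ : ∀ y, h (φ y) = h y - c) (hL : HasR h R L) : HasR h R (twL S L) := by
  obtain ⟨C, hC0, hC⟩ := hL.bound
  refine ⟨C * Real.exp (R * |c|), fun i j x _ => ?_⟩
  rw [BR4672.twL_g]
  refine (hC _ _ _).trans ?_
  rw [hφ, mul_assoc, ← Real.exp_add]
  refine mul_le_mul_of_nonneg_left (Real.exp_le_exp.2 ?_) hC0
  have h1 : |h x| ≤ |h x - c| + |c| := by
    have := abs_add_le (h x - c) c
    rwa [sub_add_cancel] at this
  nlinarith

end rate

/-! ### the periodic family of section 5 -/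

section per5

variable [DivFin Y] [DecidableEq B]
variable (H : TIn A h γ Q P g lev E q s) (O : Ord495 H.toDivData.toData)

theorem hasR_LCk {R : ℝ} (hR : 0 ≤ R) (hE : ∀ β, HasR h R (E β)) (k : ℤ) :
    HasR h R (LCk H O k) := by
  unfold LCk
  exact (hE _).mul hR (hasR_prod hR _ fun l _ => hE _).inv

/-- the new representatives, the new order and the periodic family -/
structure Fam (H : TIn A h γ Q P g lev E q s) (O : Ord495 H.toDivData.toData) (hS : HasS h P)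
    (ρ : ℝ) (E' : B → LB A) (s' : B → A.ι → Y → ℂ) (H' : TIn A h γ Q P g lev E' q s')
    (O' : Ord495 H'.toDivData.toData) : Prop where
  iso : ∀ β, E' β * (E β)⁻¹ ∈ TG A h
  φ_eq : O'.φ = O.φ
  b_eq : O'.b = O.b
  r_eq : O'.r = O.r
  E_per : ∀ β, pullL Q (E' (g β)) = E' β
  s_per : ∀ β, pullS Q (s' (g β)) = s' β
  E_rate : ∀ β, HasR h ρ (E' β)
  per5 : Tr5.Per5 Q h O' ρ (fun k => E' (O'.φ k)) (Sk H' O') (ck H' O' hS)

include O in
/-- **The periodic family with a prescribed rate.** -/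
theorem exists_fam (hS : HasS h P) (hP : ∀ L, pullL Q L ∈ P ↔ L ∈ P) {R ρ : ℝ} (hρ : 0 < ρ)
    (hρR : ρ ≤ R) (hex : ∀ β, lev β = 0 → ∃ L' ∈ P, IsoP h (E β) L' ∧ HasR h R L')
    (hrate : ∀ L ∈ P, HasR h R L → Rate h ρ L) :
    ∃ (E' : B → LB A) (s' : B → A.ι → Y → ℂ) (H' : TIn A h γ Q P g lev E' q s')
      (O' : Ord495 H'.toDivData.toData), Fam H O hS ρ E' s' H' O' := by
  have hR : 0 ≤ R := hρ.le.trans hρR
  obtain ⟨E', s', H', hT, hE, hs, hR'⟩ := exists_rechoice H hP (Rt := HasR h R)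
    (fun m L hL => hL.tw hR ((sy_equi Q).zpow m) (BR4672.shift_zpow' H.deck.shift m)) hex
  obtain ⟨O', h1, h2, h3⟩ := exists_ordCongr H H' hT O
  exact ⟨E', s', H', O', hT, h1, h2, h3, hE, hs, fun β => (hR' β).mono hρR,
    per5 H' O' hS hE hs hρ (fun β => (hR' β).mono hρR)
      fun k => hrate _ (LCk_mem H' O' k) (hasR_LCk H' O' hR hR' k)⟩

/-- **One parent case**: some rate. -/
theorem exists_fam_one (hS : HasS h P) (hP : ∀ L, pullL Q L ∈ P ↔ L ∈ P) (hPG : P ≤ PG A h)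
    (hrate : ∀ R > 0, ∃ ρ > 0, ρ ≤ R ∧ ∀ L ∈ P, HasR h R L → Rate h ρ L) :
    ∃ (ρ : ℝ) (E' : B → LB A) (s' : B → A.ι → Y → ℂ) (H' : TIn A h γ Q P g lev E' q s')
      (O' : Ord495 H'.toDivData.toData), Fam H O hS ρ E' s' H' O' := by
  have h1 : ∀ β, ∃ R > 0, HasR h R (E β) := fun β => by
    obtain ⟨ρ, hρ, C, hC⟩ := mem_PG.1 (hPG (H.lat.E_mem β))
    exact ⟨ρ, hρ, C, hC⟩
  choose R0 hR0 hR0E using h1
  obtain ⟨R, hR, hRle⟩ : ∃ R > 0, ∀ β, lev β = 0 → R ≤ R0 β := by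
    have hf := H.fin 0
    by_cases hne : {β | lev β = 0}.Nonempty
    · obtain ⟨β, hβ, hmin⟩ := hf.exists_minimalFor R0 _ hne
      refine ⟨R0 β, hR0 β, fun δ hδ => ?_⟩
      rcases le_total (R0 β) (R0 δ) with h2 | h2
      · exact h2
      · exact hmin hδ h2
    · exact ⟨1, one_pos, fun β hβ => (hne ⟨β, hβ⟩).elim⟩
  obtain ⟨ρ, hρ, hρR, hr⟩ := hrate R hR
  exact ⟨ρ, exists_fam H O hS hP hρ hρR (fun β hβ =>
    ⟨E β, H.lat.E_mem β, IsoP.refl _, (hR0E β).mono (hRle β hβ)⟩) hr⟩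


end per5

end

end Crest.Agent.R275.Rech69
end

-- ▼ part R275/Fam_69
section

/-!
# R275, helper69: the families of section 5 in the form consumed by `RootS5595.sec5'`

* `Fam.famH`      : `Rech69.Fam H O ..` gives `RootS5595.FamH H O ..` (for the ORIGINAL `H`, `O`)
* `exists_famH_one`, `exists_famH_two` : literally `hone`, `htwo` of `RootS5595.sec5'`
-/

set_option autoImplicit false
set_option linter.unusedSectionVars false

open Set Filter Topology
open scoped Manifold ContDiff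

namespace Crest.Agent.R275.Rech69

open Crest.AlgGeometry.Surface Crest.Agent.R275.Geo Crest.Agent.R275.Core144
open Crest.Agent.R275.Dv69 (HolN LEq EffDiv gt LocFact DivFin)
open Crest.Agent.R275.Dv69.EffDiv (CPr)
open Crest.Agent.R275.HolY631 (Deck)
open Crest.Agent.R275.GeoP572
open Crest.Agent.R275.Sec495
open Crest.Agent.R275.S5In95
open Crest.Agent.R275.RootS5595 (FamH)

noncomputable section

/-- `Per5` only depends on `b` and `r` of the order -/
theorem per5_congr {n : ℕ} {M : Type} [TopologicalSpace M] {A : Atl n M} {g : M ≃ₜ M} {h : M → ℝ}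
    {B : Type*} [DecidableEq B] {S S' : Data495 B} {Q : Equi A g} {O : Ord495 S} {O' : Ord495 S'}
    {ρ : ℝ} {E : ℤ → LB A} {Sg : ℤ → A.ι → M → ℂ} {c : ℤ → ℂ} (hb : O'.b = O.b)
    (hr : O'.r = O.r) (F : Tr5.Per5 Q h O' ρ E Sg c) : Tr5.Per5 Q h O ρ E Sg c where
  ρ_pos := F.ρ_pos
  shift := F.shift
  E_per k := by rw [← hb]; exact F.E_per k
  S_per k := by rw [← hb]; exact F.S_per k
  c_per k := by rw [← hb]; exact F.c_per k
  c_ne := F.c_ne
  hs k := by rw [← hr]; exact F.hs k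
  E_bd := F.E_bd
  S_bd := F.S_bd

variable {Y : Type} [TopologicalSpace Y] [T2Space Y] [ChartedSpace C2 Y]
  [IsManifold 𝓘(ℂ, C2) 1 Y]
variable [LocFact Y] [DivFin Y] [PreconnectedSpace Y] [Nonempty Y]
variable {A : Atl 2 Y} {h : Y → ℝ} {γ : Y ≃ₜ Y} {Q : Equi A γ} {P : Subgroup (LB A)}
  {B : Type} [DecidableEq B] {g : Equiv.Perm B} {lev : B → ℤ} {E E' : B → LB A} {q : LB A → ℤ}
  {s s' : B → A.ι → Y → ℂ} (H : TIn A h γ Q P g lev E q s)
  (O : Ord495 H.toDivData.toData)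

/-- the curves do not change -/
theorem Ck_congr (H' : TIn A h γ Q P g lev E' q s') (hT : ∀ β, E' β * (E β)⁻¹ ∈ TG A h)
    (O' : Ord495 H'.toDivData.toData) (hφ : O'.φ = O.φ) (k : ℤ) :
    Ck H' O' k = Ck H O k := by
  unfold Ck
  rw [cur_congr H H' hT, hφ]

theorem Fam.famH {hS : HasS h P} {ρ : ℝ} {H' : TIn A h γ Q P g lev E' q s'}
    {O' : Ord495 H'.toDivData.toData} (F : Fam H O hS ρ E' s' H' O') :
    FamH H O ρ (fun k => E' (O'.φ k)) (Sk H' O') (ck H' O' hS) where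
  per := per5_congr F.b_eq F.r_eq F.per5
  mem k := H'.lat.E_mem _
  iso k := by
    have h1 : E' (O'.φ k) = E' (O.φ k) := by rw [F.φ_eq]
    show E' (O'.φ k) * (E (O.φ k))⁻¹ ∈ TG A h
    rw [h1]
    exact F.iso _
  zero k i x hx := by
    rw [← Ck_congr H O H' F.iso O' F.φ_eq k]
    exact (mem_supp_Ck H' O' hx).symm

/-- **`hone` of `sec5'`** -/
theorem exists_famH_one (hS : HasS h P) (hP : ∀ L, pullL Q L ∈ P ↔ L ∈ P) (hPG : P ≤ PG A h)
    (hrate : ∀ R > 0, ∃ ρ > 0, ρ ≤ R ∧ ∀ L ∈ P, HasR h R L → Rate h ρ L) :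
    ∃ ρ E' S' c', FamH H O ρ E' S' c' := by
  obtain ⟨ρ, E', s', H', O', F⟩ := exists_fam_one H O hS hP hPG hrate
  exact ⟨ρ, _, _, _, F.famH⟩

/-- **`htwo` of `sec5'`** -/
theorem exists_famH_two (hS : HasS h P) (hP : ∀ L, pullL Q L ∈ P ↔ L ∈ P)
    (hex : ∀ R : ℝ, ∀ L ∈ P, ∃ L' ∈ P, IsoP h L L' ∧ HasR h R L')
    (hrate : ∀ ρ > 0, ∃ R, ρ ≤ R ∧ ∀ L ∈ P, HasR h R L → Rate h ρ L) (ρ0 : ℝ) :
    ∃ ρ E' S' c', ρ0 ≤ ρ ∧ FamH H O ρ E' S' c' := by
  have hρ0 : 0 < max ρ0 1 := lt_of_lt_of_le one_pos (le_max_right _ _)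
  obtain ⟨R, hρR, hr⟩ := hrate _ hρ0
  obtain ⟨E', s', H', O', F⟩ := exists_fam H O hS hP hρ0 hρR
    (fun β _ => hex R (E β) (H.lat.E_mem β)) hr
  exact ⟨_, _, _, _, le_max_left _ _, F.famH⟩

end

end Crest.Agent.R275.Rech69
end

-- ▼ part R275/Rate_631
section

/-!
# R275, orphan RATE-2 (helper631): large rates of convergence at the small end

If the trivial bundle has no spectral rate in `(0, R]`, then sections of a bundle whose cocycle
tends to `1` at rate `R' > R` converge at rate `R` at the small end.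

* `exp_le_of_rate` etc.: weights
* `small_rate` : abstract form, over the weighted complexes of helper89 / helper352
* `rate_of_sol` : raw form over `Bdc_96` (cores `K`, `SolZ1`, `ConstZ`)
-/

set_option autoImplicit false
set_option linter.unusedSectionVars false

open Set Filter Topology Complex
open scoped ContDiff ComplexConjugate

namespace Crest.Agent.R275.Rate631

/-! ### abstract form -/

section abstract

open GG89 Sol352

variable {𝕜 : Type*} [Field 𝕜]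
    {Ω₀ Ω₁ Ω₂ : Type*} [AddCommGroup Ω₀] [Module 𝕜 Ω₀]
    [AddCommGroup Ω₁] [Module 𝕜 Ω₁] [AddCommGroup Ω₂] [Module 𝕜 Ω₂]
    {Θ₀ Θ₁ Θ₂ : Type*} [AddCommGroup Θ₀] [Module 𝕜 Θ₀]
    [AddCommGroup Θ₁] [Module 𝕜 Θ₁] [AddCommGroup Θ₂] [Module 𝕜 Θ₂]
    {O : WCx 𝕜 Ω₀ Ω₁ Ω₂} {one : Ω₀} {d₀ : ℝ} {B : WCx 𝕜 Θ₀ Θ₁ Θ₂} {ρ : ℝ}
    {tS : Θ₀ →ₗ[𝕜] Ω₀}


end abstract

/-! ### raw form -/

noncomputable section raw

open Geo Core144 Fm96

variable {M : Type} [TopologicalSpace M] {A : Atl 2 M} {K : A.ι → Set M} {h : M → ℝ}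

theorem wgt_neg_low {R b t : ℝ} (ht : t ≤ 0) : wgt (-R) b t = Real.exp (-R * |t|) := by
  unfold wgt
  rw [max_eq_right ht, max_eq_left (by linarith : (0 : ℝ) ≤ -t), abs_of_nonpos ht]
  congr 1
  ring

/-- **RATE-2, raw form**: `σ` is a smooth function close to the section `s` -/
theorem rate_of_sol (hcov : ∀ x, ∃ i, x ∈ K i) (hsub : ∀ i, K i ⊆ (A.e i).source)
    {L : LB A} {s : A.ι → M → ℂ} (htr : ∀ i j, ∀ x ∈ (A.e i).source ∩ (A.e j).source,
      s i x = L.g i j x * s j x)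
    {R R'' b' : ℝ}
    (hg : ∃ C : ℝ, ∀ i j, ∀ x ∈ (A.e i).source ∩ (A.e j).source,
      ‖L.g i j x - 1‖ ≤ C * Real.exp (-R * |h x|))
    (hsol : SolZ1 A K h (1 : LB A) (-R'') (-R'') (-R) b') (hb : 0 ≤ b') (hR : 0 ≤ R)
    (hconst : ConstZ A K h b' b')
    {σ : A.ι → M → ℂ} (hσ : IsZ0 A 1 univ σ) (hσb : BD A K h b' b' σ)
    (hσd : BD1 A K h (-R'') (-R'') (d0 A σ))
    (hclose : ∃ C : ℝ, ∀ i, ∀ x ∈ K i, ‖s i x - σ i x‖ ≤ C * Real.exp (-R * |h x|)) :
    ∃ c : ℂ, ∃ C : ℝ, 0 ≤ C ∧ ∀ i, ∀ x ∈ (A.e i).source, h x ≤ 0 →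
      ‖s i x - c‖ ≤ C * Real.exp (-R * |h x|) := by
  have h1 : IsZ1 A (1 : LB A).g univ (d0 A σ) := d0_mem IsLC.one isOpen_univ hσ
  have hdd : ∀ i x, d1 A (d0 A σ) i x = 0 := fun i x => d1_d0 hσ i (mem_univ x)
  obtain ⟨v, hv, hvb, hvd⟩ := hsol _ h1 hσd hdd
  have hf : IsZ0 A 1 univ (σ - v) := hσ.sub hv
  have hfb : BD A K h b' b' (σ - v) := hσb.sub (hvb.mono (by linarith) le_rfl)
  have hfd : ∀ i x, d0 A (σ - v) i x = 0 := by
    intro i x
    rw [d0_sub hσ hv i (mem_univ x), hvd i x, sub_self]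
  obtain ⟨c, hc⟩ := hconst _ hf hfb hfd
  obtain ⟨C1, hC1⟩ := hclose
  obtain ⟨C2, hC20, hC2⟩ := hvb.sup hsub
  obtain ⟨C3, hC3⟩ := hg
  -- on the cores
  have key : ∀ i, ∀ x ∈ K i, h x ≤ 0 →
      ‖s i x - c‖ ≤ (max C1 0 + C2) * Real.exp (-R * |h x|) := by
    intro i x hx hx0
    have e1 : s i x - c = (s i x - σ i x) + v i x := by
      have := hc i x (hsub i hx)
      simp only [Pi.sub_apply] at this
      rw [← this]; ring
    rw [e1]
    have h2 := hC1 i x hx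
    have h3 := hC2 i x hx
    rw [wgt_neg_low hx0] at h3
    have h4 : C1 * Real.exp (-R * |h x|) ≤ max C1 0 * Real.exp (-R * |h x|) :=
      mul_le_mul_of_nonneg_right (le_max_left _ _) (Real.exp_pos _).le
    calc ‖s i x - σ i x + v i x‖ ≤ ‖s i x - σ i x‖ + ‖v i x‖ := norm_add_le _ _
      _ ≤ max C1 0 * Real.exp (-R * |h x|) + C2 * Real.exp (-R * |h x|) := by linarith
      _ = _ := by ring
  refine ⟨c, (max C1 0 + C2) + max C3 0 * (‖c‖ + (max C1 0 + C2)), by positivity,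
    fun i x hx hx0 => ?_⟩
  obtain ⟨j, hj⟩ := hcov x
  have hE : Real.exp (-R * |h x|) ≤ 1 := by
    rw [Real.exp_le_one_iff]
    have := mul_nonneg hR (abs_nonneg (h x))
    linarith
  have h5 := key j x hj hx0
  have h6 : ‖s j x‖ ≤ ‖c‖ + (max C1 0 + C2) := by
    have h7 : s j x = c + (s j x - c) := by ring
    rw [h7]
    refine (norm_add_le _ _).trans ?_
    have h8 : (max C1 0 + C2) * Real.exp (-R * |h x|) ≤ (max C1 0 + C2) * 1 :=
      mul_le_mul_of_nonneg_left hE (by positivity)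
    linarith
  have e2 : s i x - c = (s j x - c) + (L.g i j x - 1) * s j x := by
    rw [htr i j x ⟨hx, hsub j hj⟩]; ring
  rw [e2]
  refine (norm_add_le _ _).trans ?_
  rw [norm_mul, add_mul]
  refine add_le_add h5 ?_
  have h9 := hC3 i j x ⟨hx, hsub j hj⟩
  have h10 : ‖L.g i j x - 1‖ ≤ max C3 0 * Real.exp (-R * |h x|) :=
    h9.trans (mul_le_mul_of_nonneg_right (le_max_left _ _) (Real.exp_pos _).le)
  calc ‖L.g i j x - 1‖ * ‖s j x‖
      ≤ (max C3 0 * Real.exp (-R * |h x|)) * (‖c‖ + (max C1 0 + C2)) :=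
        mul_le_mul h10 h6 (norm_nonneg _) (by positivity)
    _ = _ := by ring

/-- the limit is the limit at the small end -/
theorem eq_of_rate (hunb : ∀ T : ℝ, ∃ x : M, h x < T) {s : A.ι → M → ℂ} {c c' : ℂ}
    {R : ℝ} (hR : 0 < R) (hc : LimS (A := A) h s c)
    (hc' : ∃ C : ℝ, 0 ≤ C ∧ ∀ i, ∀ x ∈ (A.e i).source, h x ≤ 0 →
      ‖s i x - c'‖ ≤ C * Real.exp (-R * |h x|)) : c' = c := by
  obtain ⟨C, hC, hb⟩ := hc'
  by_contra hne
  have hpos : 0 < ‖c' - c‖ := norm_pos_iff.2 (sub_ne_zero.2 hne)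
  obtain ⟨T, hT⟩ := hc (‖c' - c‖ / 2) (by positivity)
  -- choose a level where `C exp(-R|h|) < ‖c' - c‖ / 2`
  obtain ⟨S, hS0, hS⟩ : ∃ S : ℝ, 0 ≤ S ∧ C * Real.exp (-R * S) < ‖c' - c‖ / 2 := by
    have h1 : Tendsto (fun S : ℝ => C * Real.exp (-R * S)) atTop (𝓝 (C * 0)) := by
      refine Tendsto.const_mul _ (Real.tendsto_exp_atBot.comp ?_)
      exact tendsto_id.const_mul_atTop_of_neg (by linarith)
    rw [mul_zero] at h1
    obtain ⟨S, hS1, hS2⟩ := ((h1.eventually_lt_const (show (0 : ℝ) < ‖c' - c‖ / 2 by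
      positivity)).and (eventually_ge_atTop 0)).exists
    exact ⟨S, hS2, hS1⟩
  obtain ⟨x, hx⟩ := hunb (min T (-S))
  obtain ⟨i, hi⟩ := A.cover x
  have hxT : h x < T := hx.trans_le (min_le_left _ _)
  have hxS : h x < -S := hx.trans_le (min_le_right _ _)
  have h2 := hT i x hi hxT
  have h3 := hb i x hi (by linarith)
  have h4 : Real.exp (-R * |h x|) ≤ Real.exp (-R * S) := by
    apply Real.exp_le_exp.2
    rw [abs_of_nonpos (by linarith)]
    nlinarith
  have h5 : ‖s i x - c'‖ < ‖c' - c‖ / 2 :=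
    (h3.trans (mul_le_mul_of_nonneg_left h4 hC)).trans_lt hS
  have h6 : ‖c' - c‖ ≤ ‖s i x - c‖ + ‖s i x - c'‖ := by
    have : c' - c = (s i x - c) - (s i x - c') := by ring
    rw [this]
    exact norm_sub_le _ _
  linarith

end raw

end Crest.Agent.R275.Rate631
end

-- ▼ part R275/RateB_631
section

/-!
# R275, RATE-2 (helper631), final form

* `norm_exp_sub_one_le_of_bdd`, `sub_one_le_of_clsR` : logarithms of rate `ρ` give `|g_ij - 1|` of
  rate `ρ`;
* `SigR` : the glued approximation of a section (shape of helper197's lemma, explicit rate);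
* `rate2` : **RATE-2** from helper352's `Sol`: convergence at the small end with every rate
  `R < min ρ d`;
* `bd_of_rate2` : the literal field `S_bd` of helper468's `Per5`;
* `nonSp_of_const`, `spec_subset_one` : if every multiplicative function is constant, all rates
  `≠ 0` are nonspectral.
-/

set_option autoImplicit false
set_option linter.unusedSectionVars false

open Set Filter Topology Complex
open scoped ContDiff Manifold

namespace Crest.Agent.R275.RateB631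

open Geo Core144 Fm96 NAtl938 Rate631

noncomputable section

section log

variable {M : Type} [TopologicalSpace M] {A : Atl 2 M} {h : M → ℝ}



/-- a bound with a larger rate -/
theorem rate_mono {G : A.ι → A.ι → M → ℂ} {ρ ρ' : ℝ} (hρ : ρ' ≤ ρ)
    (H : ∃ C : ℝ, ∀ i j, ∀ x ∈ (A.e i).source ∩ (A.e j).source,
      ‖G i j x - 1‖ ≤ C * Real.exp (-ρ * |h x|)) :
    ∃ C : ℝ, ∀ i j, ∀ x ∈ (A.e i).source ∩ (A.e j).source,
      ‖G i j x - 1‖ ≤ C * Real.exp (-ρ' * |h x|) := by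
  obtain ⟨C, hC⟩ := H
  refine ⟨max C 0, fun i j x hx => (hC i j x hx).trans ?_⟩
  refine mul_le_mul (le_max_left _ _) (Real.exp_le_exp.2 ?_) (Real.exp_pos _).le (le_max_right _ _)
  have := mul_le_mul_of_nonneg_right hρ (abs_nonneg (h x))
  linarith

end log

section rate

variable {M : Type} [TopologicalSpace M] {A : Atl 2 M} {K : A.ι → Set M} {h : M → ℝ}

/-- the glued approximation of a section, all losses `e` -/
def SigR (A : Atl 2 M) (K : A.ι → Set M) (h : M → ℝ) (s : A.ι → M → ℂ) (ρ : ℝ) : Prop :=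
  ∀ e : ℝ, 0 < e → ∃ σ : A.ι → M → ℂ, IsZ0 A 1 univ σ ∧ BD A K h e e σ ∧
    BD1 A K h (-ρ + e) (-ρ + e) (d0 A σ) ∧
    ∃ C : ℝ, ∀ i, ∀ x ∈ (A.e i).source, ‖s i x - σ i x‖ ≤ C * Real.exp ((-ρ + e) * |h x|)

/-- **RATE-2** -/
theorem rate2 {P : Subgroup (LB A)} {q : LB A → ℤ} {d : ℝ} (hS : Sol352.Sol A K h P q d)
    (hcov : ∀ x, ∃ i, x ∈ K i) (hsub : ∀ i, K i ⊆ (A.e i).source)
    (hunb : ∀ T : ℝ, ∃ x : M, h x < T) {L : LB A} {s : A.ι → M → ℂ}
    (htr : ∀ i j, ∀ x ∈ (A.e i).source ∩ (A.e j).source, s i x = L.g i j x * s j x)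
    {R ρ : ℝ} (hR : 0 < R) (hRd : R < d) (hRρ : R < ρ)
    (hg : ∃ C : ℝ, ∀ i j, ∀ x ∈ (A.e i).source ∩ (A.e j).source,
      ‖L.g i j x - 1‖ ≤ C * Real.exp (-ρ * |h x|))
    (hσ : SigR A K h s ρ) {c : ℂ} (hc : LimS h s c) :
    ∃ C : ℝ, 0 ≤ C ∧ ∀ i, ∀ x ∈ (A.e i).source, h x ≤ 0 →
      ‖s i x - c‖ ≤ C * Real.exp (-R * |h x|) := by
  have hd := hS.pos
  set e := min ((ρ - R) / 2) (d / 2) with he
  have he0 : 0 < e := lt_min (by linarith) (by linarith)
  have he1 : e ≤ (ρ - R) / 2 := min_le_left _ _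
  have he2 : e ≤ d / 2 := min_le_right _ _
  obtain ⟨σ, h1, h2, h3, C, h4⟩ := hσ e he0
  have h5 : SolZ1 A K h 1 (-(ρ - e)) (-(ρ - e)) (-R) e :=
    hS.dg (by linarith) (by linarith) he0 (by linarith) (by linarith) (by linarith)
  rw [show -ρ + e = -(ρ - e) by ring] at h3
  obtain ⟨c', hc'⟩ := rate_of_sol hcov hsub htr (rate_mono hRρ.le hg) h5 he0.le hR.le
    (hS.const (by linarith) (by linarith)) h1 h2 h3 ⟨max C 0, fun i x hx => by
      refine (h4 i x (hsub i hx)).trans ?_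
      refine mul_le_mul (le_max_left _ _) (Real.exp_le_exp.2 ?_) (Real.exp_pos _).le
        (le_max_right _ _)
      exact mul_le_mul_of_nonneg_right (by linarith) (abs_nonneg _)⟩
  have h6 := eq_of_rate hunb hR hc hc'
  rw [h6] at hc'
  exact hc'



end rate

section spec

variable {Y : Type} [TopologicalSpace Y] [ChartedSpace Crest.AlgGeometry.Surface.C2 Y]
  {g : Y ≃ₜ Y}

open Xin473 HolY631 Lau473



end spec

end

end Crest.Agent.R275.RateB631
end

-- ▼ part R275/Rate1_95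
section

/-!
# R275, helper95: leaf RATE-1

If some `r k ≥ 2` (i.e. we are not in the Enoki case) then there is no nonzero holomorphic function
`w` on `Y` which tends to zero exponentially at the small end, in particular no nonzero `w` with
`w ∘ γ = t w`, `|t| < 1`.

Input `LemDw`: Lemma D for functions (every `s_β` divides `w`).
-/

set_option autoImplicit false
set_option linter.unusedSectionVars false

open Set Filter Topology
open scoped Manifold ContDiff

namespace Crest.Agent.R275.Sec495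

namespace Ord495

variable {B : Type*} [DecidableEq B] {S : Data495 B} (O : Ord495 S)

lemma r_per_mul (k n : ℤ) : O.r (k + n * O.b) = O.r k := by
  induction n using Int.induction_on with
  | zero => simp
  | succ n ih =>
    rw [← ih, ← O.r_per (k + n * O.b)]
    congr 1
    ring
  | pred n ih =>
    rw [← ih, ← O.r_per (k + (-(n : ℤ) - 1) * O.b)]
    congr 1
    ring

lemma M_add_one_le {k l : ℤ} (hr : 2 ≤ O.r k) (hkl : k + 2 ≤ l) : O.M (k + 1) l + 1 ≤ O.M k l := by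
  rw [O.M_rec k l]
  have h1 : ({k + 1, k + 2} : Finset ℤ) ⊆ Finset.Ioc k (k + O.r k) := by
    intro j hj
    simp only [Finset.mem_insert, Finset.mem_singleton] at hj
    rw [Finset.mem_Ioc]
    omega
  have h2 := Finset.sum_le_sum_of_subset (f := fun j => O.M j l) h1
  rw [Finset.sum_pair (by omega)] at h2
  have h3 := O.M_pos_iff.2 hkl
  omega

/-- **path counts are unbounded** if some `r k ≥ 2` -/
theorem M_unbounded {k0 : ℤ} (h : 2 ≤ O.r k0) (l : ℤ) (N : ℕ) : ∃ k, N ≤ O.M k l := by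
  induction N with
  | zero => exact ⟨l, Nat.zero_le _⟩
  | succ N ih =>
    obtain ⟨k, hk⟩ := ih
    -- an index `k' ≤ min k (l - 2)` with `r k' ≥ 2`
    have hb : (1 : ℤ) ≤ O.b := by exact_mod_cast O.hb
    obtain ⟨n, hn⟩ : ∃ n : ℤ, k0 + n * O.b + 1 ≤ min k (l - 2) := by
      refine ⟨-(|k0| + |min k (l - 2)| + 1), ?_⟩
      have h1 := le_abs_self k0
      have h2 := neg_abs_le (min k (l - 2))
      have h3 : (|k0| + |min k (l - 2)| + 1) * 1 ≤ (|k0| + |min k (l - 2)| + 1) * O.b :=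
        mul_le_mul_of_nonneg_left hb (by positivity)
      have h4 : -(|k0| + |min k (l - 2)| + 1) * (O.b : ℤ) =
        -((|k0| + |min k (l - 2)| + 1) * O.b) := by ring
      rw [h4]
      omega
    refine ⟨k0 + n * O.b, ?_⟩
    have h1 := O.M_add_one_le (k := k0 + n * O.b) (l := l) (by rw [O.r_per_mul]; exact h)
      (by have := min_le_right k (l - 2); omega)
    have h2 := O.M_anti (k := k0 + n * O.b + 1) (j := k)
      (by have := min_le_left k (l - 2); omega) l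
    omega

end Ord495

end Crest.Agent.R275.Sec495

namespace Crest.Agent.R275.S5In95

open Crest.AlgGeometry.Surface Crest.Agent.R275.Geo Crest.Agent.R275.Core144
open Crest.Agent.R275.Dv69 (HolN LEq EffDiv gt LocFact DivFin)
open Crest.Agent.R275.Dv69.EffDiv (CPr)
open Crest.Agent.R275.HolY631 (Deck)
open Crest.Agent.R275.GeoP572
open Crest.Agent.R275.Sec495

noncomputable section

variable {Y : Type} [TopologicalSpace Y] [ChartedSpace C2 Y] [IsManifold 𝓘(ℂ, C2) 1 Y]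
variable [LocFact Y] [DivFin Y] [PreconnectedSpace Y] [Nonempty Y]
variable {A : Atl 2 Y} {h : Y → ℝ} {γ : Y ≃ₜ Y} {Q : Equi A γ} {P : Subgroup (LB A)}
  {B : Type} [DecidableEq B] {g : Equiv.Perm B} {lev : B → ℤ} {E : B → LB A} {q : LB A → ℤ}
  {s : B → A.ι → Y → ℂ} (H : TIn A h γ Q P g lev E q s)
  (O : Ord495 H.toDivData.toData)

/-- Lemma D for functions: every `s_β` divides a function which decays at the small end -/
def LemDw (A : Atl 2 Y) (h : Y → ℝ) {B : Type} (s : B → A.ι → Y → ℂ) : Prop :=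
  ∀ β, ∀ w : A.ι → Y → ℂ, IsHS (1 : LB A) univ w → w ≠ 0 →
    (∃ C, ∃ ρ > 0, ∀ i, ∀ x ∈ (A.e i).source, h x ≤ 0 → ‖w i x‖ ≤ C * Real.exp (ρ * h x)) →
    dvs A (s β) ≤ dvs A w

/-- **RATE-1**, sections of the trivial bundle -/
theorem eq_zero_of_decay (hD : LemDw A h s) {k0 : ℤ} (hr : 2 ≤ O.r k0) {w : A.ι → Y → ℂ}
    (hw : IsHS (1 : LB A) univ w)
    (hdec : ∃ C, ∃ ρ > 0, ∀ i, ∀ x ∈ (A.e i).source, h x ≤ 0 → ‖w i x‖ ≤ C * Real.exp (ρ * h x)) :
    w = 0 := by
  by_contra h0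
  obtain ⟨k, hk⟩ := O.M_unbounded hr 0 (Dv69.Mon.ord (Ck H O 0).1 (dvs A w) + 1)
  have h1 := hD (O.φ k) w hw h0 hdec
  have h2 := Dv69.EffDiv.ord_mono h1 (Ck H O 0).2.1.1
  have h3 := ord_Dk H O k 0
  unfold Dk at h3
  omega

include H in
/-- a multiplicative function with `|t| < 1` decays at the small end -/
theorem decay_of_mult {w : Y → ℂ} (hc : Continuous w) {t : ℂ} (ht0 : t ≠ 0) (ht : ‖t‖ < 1)
    (hw : ∀ y, w (γ y) = t * w y) :
    ∃ C, ∃ ρ > 0, ∀ y, h y ≤ 0 → ‖w y‖ ≤ C * Real.exp (ρ * h y) := by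
  have htp : 0 < ‖t‖ := norm_pos_iff.2 ht0
  obtain ⟨M, hM⟩ := (H.deck.slab 0 1).bddAbove_image (f := fun y => ‖w y‖) hc.norm.continuousOn
  have hM' : ∀ y, 0 ≤ h y → h y ≤ 1 → ‖w y‖ ≤ M := fun y h0 h1 => hM ⟨y, ⟨h0, h1⟩, rfl⟩
  set ρ := -Real.log ‖t‖ with hρ
  have hρ0 : 0 < ρ := neg_pos.2 (Real.log_neg htp ht)
  have hpow : ∀ (n : ℕ) y, w ((γ ^ (n : ℤ)) y) = t ^ n * w y := by
    intro n
    induction n with
    | zero => intro y; simp
    | succ n ih =>
      intro y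
      have h1 : (γ ^ ((n + 1 : ℕ) : ℤ)) y = γ ((γ ^ (n : ℤ)) y) := by
        push_cast
        rw [add_comm, zpow_add, zpow_one, Homeomorph.mul_apply]
      rw [h1, hw, ih, pow_succ]
      ring
  refine ⟨max M 0 * Real.exp ρ, ρ, hρ0, fun y hy => ?_⟩
  -- `y = γ ^ n z` with `0 ≤ h z ≤ 1`
  obtain ⟨n, hn1, hn2⟩ : ∃ n : ℕ, 0 ≤ h y + n ∧ h y + n ≤ 1 := by
    refine ⟨⌈-h y⌉₊, ?_, ?_⟩
    · have := Nat.le_ceil (-h y)
      linarith
    · have := (Nat.ceil_lt_add_one (show 0 ≤ -h y by linarith)).le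
      linarith
  set z := (γ ^ (-(n : ℤ))) y with hz
  have hz1 : h z = h y + n := by
    rw [hz, H.deck.shift_zpow]
    push_cast
    ring
  have hyz : y = (γ ^ (n : ℤ)) z := by
    rw [hz, ← Homeomorph.mul_apply, ← zpow_add, add_neg_cancel, zpow_zero]
    rfl
  have h1 : ‖w y‖ = ‖t‖ ^ n * ‖w z‖ := by
    rw [hyz, hpow, norm_mul, norm_pow]
  have h2 : ‖w z‖ ≤ max M 0 :=
    (hM' z (by rw [hz1]; exact hn1) (by rw [hz1]; exact hn2)).trans (le_max_left _ _)
  have h3 : ‖t‖ ^ n = Real.exp (-ρ * n) := by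
    rw [hρ, neg_neg, mul_comm, ← Real.log_pow, Real.exp_log (pow_pos htp n)]
  rw [h1, h3]
  calc Real.exp (-ρ * n) * ‖w z‖ ≤ Real.exp (-ρ * n) * max M 0 := by gcongr
    _ ≤ Real.exp (ρ + ρ * h y) * max M 0 := by
        gcongr
        nlinarith
    _ = max M 0 * Real.exp ρ * Real.exp (ρ * h y) := by rw [Real.exp_add]; ring

/-- **RATE-1**, multiplicative functions -/
theorem mult_eq_zero (hD : LemDw A h s) {k0 : ℤ} (hr : 2 ≤ O.r k0) {w : Y → ℂ}
    (hhol : ContMDiff 𝓘(ℂ, C2) 𝓘(ℂ) 1 w) {t : ℂ} (ht0 : t ≠ 0) (ht : ‖t‖ < 1)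
    (hw : ∀ y, w (γ y) = t * w y) : w = 0 := by
  obtain ⟨C, ρ, hρ, hC⟩ := decay_of_mult H hhol.continuous ht0 ht hw
  have h1 : IsHS (1 : LB A) univ (funS A w) := isHS_funS fun i =>
    HolOn.holAt H.adm i isOpen_univ hhol.contMDiffOn
  have h2 := eq_zero_of_decay H O hD hr h1 ⟨C, ρ, hρ, fun i x hx h0 => by
    simp only [funS, hx, if_true]
    exact hC x h0⟩
  funext y
  obtain ⟨i, hi⟩ := A.cover y
  have h3 := congrFun (congrFun h2 i) y
  simpa [funS, hi] using h3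

end

end Crest.Agent.R275.S5In95
end

-- ▼ part R275/RateC_631
section

/-!
# R275, RATE-2 (helper631), the literal interface

* `rate_of_sol2` : `Sol` and the cocycle bound of rate `ρ > R` give helper95's `Rate h R L`
* `nonSp_of_one_sided` : RATE-1 and the orientation of the large end: all rates are nonspectral
* `nonSp_of_mult` : the same from helper95's `mult_eq_zero`
-/

set_option autoImplicit false
set_option linter.unusedSectionVars false

open Set Filter Topology Complex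
open scoped ContDiff Manifold

namespace Crest.Agent.R275.RateB631

open Geo Core144 Fm96 NAtl938 Rate631 Xin473 HolY631 Lau473 S5In95 GeoP572 Sec495
open Crest.AlgGeometry.Surface
open Crest.Agent.R275.Dv69 (LocFact DivFin)

section rate

variable {Y : Type} [TopologicalSpace Y] [ChartedSpace C2 Y] [IsManifold 𝓘(ℂ, C2) 1 Y]
  {A : Atl 2 Y} {K : A.ι → Set Y} {h : Y → ℝ}

/-- **RATE-2** in the form `Rate` of helper95 -/
theorem rate_of_sol2 {P : Subgroup (LB A)} {q : LB A → ℤ} {d : ℝ} (hS : Sol352.Sol A K h P q d)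
    (hcov : ∀ x, ∃ i, x ∈ K i) (hsub : ∀ i, K i ⊆ (A.e i).source)
    (hunb : ∀ T : ℝ, ∃ x : Y, h x < T) {L : LB A}
    {R ρ : ℝ} (hR : 0 < R) (hRd : R < d) (hRρ : R < ρ)
    (hg : ∃ C : ℝ, ∀ i j, ∀ x ∈ (A.e i).source ∩ (A.e j).source,
      ‖L.g i j x - 1‖ ≤ C * Real.exp (-ρ * |h x|))
    (hσ : ∀ s ∈ VL h L, SigR A K h s ρ) : Rate h R L := by
  intro s hs c hc
  obtain ⟨C, -, hC⟩ := rate2 hS hcov hsub hunb (fun i j x hx => hs.1.tr i j x hx (mem_univ x))
    hR hRd hRρ hg (hσ s hs) hc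
  refine ⟨C, fun i x hx h0 => ?_⟩
  have := hC i x hx h0
  rwa [abs_of_nonpos h0, show -R * -h x = R * h x by ring] at this

end rate

section spec

variable {Y : Type} [TopologicalSpace Y] [ChartedSpace C2 Y] {g : Y ≃ₜ Y}

/-- all nonzero rates are nonspectral -/
theorem nonSp_of_one_sided (hle : ∀ t ∈ Spec g, ‖t‖ ≤ 1)
    (hlt : ∀ (w : Y → ℂ) (t : ℂ), Hol w → t ≠ 0 → ‖t‖ < 1 → (∀ y, w (g y) = t * w y) → w = 0)
    {r : ℝ} (hr : r ≠ 0) : NonSp g r := by
  intro t ht htr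
  have h0 := ne_zero_of_mem_Spec ht
  have h1 := hle t ht
  obtain ⟨f, hf, hfg, y, hy⟩ := ht
  rcases h1.lt_or_eq with h2 | h2
  · exact hy (congrFun (hlt f t hf h0 h2 hfg) y)
  · rw [h2] at htr
    exact hr ((Real.exp_eq_one_iff r).1 htr.symm)

variable [IsManifold 𝓘(ℂ, C2) 1 Y] [LocFact Y] [DivFin Y] [PreconnectedSpace Y] [Nonempty Y]
variable {A : Atl 2 Y} {h : Y → ℝ} {Q : Equi A g} {P : Subgroup (LB A)}
  {B : Type} [DecidableEq B] {σ : Equiv.Perm B} {lev : B → ℤ} {E : B → LB A} {q : LB A → ℤ}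
  {s : B → A.ι → Y → ℂ} (H : TIn A h g Q P σ lev E q s)
  (O : Ord495 H.toDivData.toData)

/-- RATE-1 (helper95) and the orientation of the large end -/
theorem nonSp_of_mult (hD : LemDw A h s) {k0 : ℤ} (hr0 : 2 ≤ O.r k0)
    (hle : ∀ t ∈ Spec g, ‖t‖ ≤ 1) {r : ℝ} (hr : r ≠ 0) : NonSp g r :=
  nonSp_of_one_sided hle (fun _ _ hw ht0 ht hwt => mult_eq_zero H O hD hr0 hw ht0 ht hwt) hr

end spec

end Crest.Agent.R275.RateB631
end

-- ▼ part R275/RateD_631
section

/-!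
# R275, RATE-2 (helper631), end of the chain

`rate_ug` : `Sol` (rates `< d`), `|g_ij - 1| ≤ C exp(-ρ |h|)` with `R < min ρ d` ⟹ `Rate h R L`.
`rate_cls` : the same from logarithms of rate `ρ` (`HasClsR`).
-/

set_option autoImplicit false
set_option linter.unusedSectionVars false

open Set Filter Topology Complex
open scoped ContDiff Manifold

namespace Crest.Agent.R275.RateB631

open Geo Core144 Fm96 NAtl938 Rate631 Sec1197 Wy5197 S5In95
open Crest.AlgGeometry.Surface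

variable {Y : Type} [TopologicalSpace Y] {A : Atl 2 Y} {K : A.ι → Set Y} {h : Y → ℝ}

theorem decL_of_exp {L : LB A} {C ρ : ℝ}
    (hg : ∀ i j, ∀ x ∈ (A.e i).source ∩ (A.e j).source,
      ‖L.g i j x - 1‖ ≤ C * Real.exp (-ρ * |h x|)) : DecL h L C ρ := by
  intro i j x hx
  rw [wgt_gg]
  exact hg i j x hx

/-- 197's glue lemma in the form `SigR` -/
theorem sigR_of_ug {P : Part A} (U : UG P h K) {L : LB A} {ρ : ℝ} (hρ : 0 ≤ ρ)
    (hg : ∃ C : ℝ, ∀ i j, ∀ x ∈ (A.e i).source ∩ (A.e j).source,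
      ‖L.g i j x - 1‖ ≤ C * Real.exp (-ρ * |h x|)) {s : A.ι → Y → ℂ} (hs : s ∈ VL h L) :
    SigR A K h s ρ := by
  obtain ⟨C, hC⟩ := hg
  have hD := decL_of_exp hC
  intro e he
  refine ⟨gl P s, isZ0_gl P hs.1, bd_gl U hρ hD hs.1 (hs.2 e he), bd1_gl U hD hs.1 (hs.2 e he), ?_⟩
  obtain ⟨D, -, hD'⟩ := gl_le U hD hs.1 (hs.2 e he)
  exact ⟨D, fun i x hx => by
    have := hD' i x hx
    rwa [wgt_gg] at this⟩

section

variable [ChartedSpace C2 Y] [IsManifold 𝓘(ℂ, C2) 1 Y]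

/-- **RATE-2**: no hypothesis on the sections -/
theorem rate_ug {G : Subgroup (LB A)} {q : LB A → ℤ} {d : ℝ} (hS : Sol352.Sol A K h G q d)
    {P : Part A} (U : UG P h K) (hunb : ∀ T : ℝ, ∃ x : Y, h x < T) {L : LB A}
    {R ρ : ℝ} (hR : 0 < R) (hRd : R < d) (hRρ : R < ρ)
    (hg : ∃ C : ℝ, ∀ i j, ∀ x ∈ (A.e i).source ∩ (A.e j).source,
      ‖L.g i j x - 1‖ ≤ C * Real.exp (-ρ * |h x|)) : Rate h R L :=
  rate_of_sol2 hS U.cover U.K_sub hunb hR hRd hRρ hg
    fun _ hs => sigR_of_ug U (by linarith) hg hs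



end

end Crest.Agent.R275.RateB631
end

-- ▼ part R275/RateE_631
section

/-!
# R275, RATE-2 (helper631): the literal hypotheses `hrate` of helper69's `exists_fam_one/two`

* `hrate_one` : from one `Sol`
* `hrate_two` : from `Sol` with arbitrarily large gap
-/

set_option autoImplicit false
set_option linter.unusedSectionVars false

open Set Filter Topology Complex
open scoped ContDiff Manifold

namespace Crest.Agent.R275.RateB631

open Geo Core144 Fm96 NAtl938 Rate631 Sec1197 Wy5197 S5In95 Rech69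
open Crest.AlgGeometry.Surface

variable {Y : Type} [TopologicalSpace Y] [ChartedSpace C2 Y] [IsManifold 𝓘(ℂ, C2) 1 Y]
  {A : Atl 2 Y} {K : A.ι → Set Y} {h : Y → ℝ}

/-- every rate below `min R d` -/
theorem rate_hasR {G : Subgroup (LB A)} {q : LB A → ℤ} {d : ℝ} (hS : Sol352.Sol A K h G q d)
    {P : Part A} (U : UG P h K) (hunb : ∀ T : ℝ, ∃ x : Y, h x < T) {ρ R : ℝ} (hρ : 0 < ρ)
    (hρd : ρ < d) (hρR : ρ < R) {L : LB A} (hL : HasR h R L) : Rate h ρ L :=
  rate_ug hS U hunb hρ hρd hρR hL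

/-- the hypothesis `hrate` of `exists_fam_one` -/
theorem hrate_one {G : Subgroup (LB A)} {q : LB A → ℤ} {d : ℝ} (hS : Sol352.Sol A K h G q d)
    {P : Part A} (U : UG P h K) (hunb : ∀ T : ℝ, ∃ x : Y, h x < T) (G' : Subgroup (LB A)) :
    ∀ R > 0, ∃ ρ > 0, ρ ≤ R ∧ ∀ L ∈ G', HasR h R L → Rate h ρ L := by
  intro R hR
  have hd := hS.pos
  have h0 : 0 < min (R / 2) (d / 2) := lt_min (by linarith) (by linarith)
  have h1 : min (R / 2) (d / 2) ≤ R / 2 := min_le_left _ _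
  have h2 : min (R / 2) (d / 2) ≤ d / 2 := min_le_right _ _
  exact ⟨min (R / 2) (d / 2), h0, by linarith, fun L _ hL =>
    rate_hasR hS U hunb h0 (by linarith) (by linarith) hL⟩

/-- the hypothesis `hrate` of `exists_fam_two` -/
theorem hrate_two {G : Subgroup (LB A)} {q : LB A → ℤ}
    (hS : ∀ d : ℝ, ∃ d', d < d' ∧ Sol352.Sol A K h G q d')
    {P : Part A} (U : UG P h K) (hunb : ∀ T : ℝ, ∃ x : Y, h x < T) (G' : Subgroup (LB A)) :
    ∀ ρ > 0, ∃ R, ρ ≤ R ∧ ∀ L ∈ G', HasR h R L → Rate h ρ L := by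
  intro ρ hρ
  obtain ⟨d', hd', hS'⟩ := hS ρ
  exact ⟨ρ + 1, by linarith, fun L _ hL => rate_hasR hS' U hunb hρ hd' (by linarith) hL⟩

end Crest.Agent.R275.RateB631
end

-- ▼ part R275/LemDS_96
section

/-!
# R275, block G: LEMMA D (helper96), consumer forms

* `LD.of_sol` : Lemma D from `Sol352.Sol`
* `quot_VL` : for sections of `V_L` : `u = s * k`, `k ∈ V_{Lc * Ls⁻¹}` and `dvs s ≤ dvs u`
* `exists_far` : the field `far` of `GeoP572.TIn`
-/

set_option autoImplicit false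
set_option linter.unusedSectionVars false

open Set Filter Topology Complex
open scoped ContDiff ComplexConjugate Manifold

namespace Crest.Agent.R275.Fm96

open Geo Core144 Sol352

noncomputable section

section Sol

variable {M : Type} [TopologicalSpace M] {A : Atl 2 M} {K : A.ι → Set M} {h : M → ℝ}

/-- **Lemma D** from the solution theorems -/
theorem LD.of_sol {P : Subgroup (LB A)} {q : LB A → ℤ} {d : ℝ} (S : Sol A K h P q d)
    {Ls Lc : LB A} {s u lam : A.ι → M → ℂ} {N : Set M} {T ρ ρ0 : ℝ}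
    (D : LD A K h Ls Lc s u lam N T ρ ρ0) (hL : Ls ∈ P) (hq : q Ls⁻¹ = -1)
    (hV : VL h Ls⁻¹ = ⊥) :
    ∃ k, IsH A (Ls⁻¹ * Lc).g N k ∧ (∀ i x, s i x * k i x = u i x) ∧
      ∀ e > 0, ∃ C : ℝ, 0 ≤ C ∧ ∀ i, ∀ x ∈ K i, h x < T - 4 → ‖k i x‖ ≤ C * wgt e e (h x) := by
  have hd := S.pos
  have hr := D.fr.pos
  have hr1 : 0 < min ρ0 (d / 4) := lt_min hr (by linarith)
  refine D.lemD (d := d / 4) (r := min ρ0 (d / 4)) (e0 := d / 2) (e1 := d) (by linarith) hr1
    (min_le_right _ _) (min_le_left _ _) (by linarith) hd ?_ ?_ ?_ ?_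
  · exact S.ex₂ _ (P.inv_mem hL) (by linarith) (by linarith)
  · have h2 : min ρ0 (d / 4) ≤ d / 4 := min_le_right _ _
    exact S.dg (by linarith) (by linarith) (by linarith) (by linarith) (by linarith) (by linarith)
  · intro e he he'
    exact S.ex₁_gg _ (P.inv_mem hL) hq hV he he' he he' he he
  · exact S.const (by linarith) (by linarith)

end Sol

section Div

open Crest.AlgGeometry.Surface
open Crest.Agent.R275.Dv69 (EffDiv LocFact DivFin)
open Crest.Agent.R275.HolY631 (Deck)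
open Crest.Agent.R275.GeoP572
open Crest.Agent.R275.BR4672 (BdG LowE NZ NowZ)

variable {Y : Type} [TopologicalSpace Y] [ChartedSpace C2 Y] [IsManifold 𝓘(ℂ, C2) 1 Y]
variable {A : Atl 2 Y} {K : A.ι → Set Y} {h : Y → ℝ} {γ : Y ≃ₜ Y}

/-- sections tending to zero at the small end decay exponentially, with all derivatives -/
def DecS (A : Atl 2 Y) (K : A.ι → Set Y) (h : Y → ℝ) (P : Subgroup (LB A)) : Prop :=
  ∀ L ∈ P, ∀ σ ∈ VL h L, LimS (A := A) h σ 0 → ∃ ρ > 0, ∀ e > 0, BD A K h (-ρ) e σ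

/-- every bundle in `P` has a smooth frame near the small end -/
def FrS (A : Atl 2 Y) (K : A.ι → Set Y) (h : Y → ℝ) (P : Subgroup (LB A)) : Prop :=
  ∀ L ∈ P, ∃ (lam : A.ι → Y → ℂ) (T ρ0 : ℝ), FrameS A K h L lam T ρ0

theorem small_of_deck (D : Deck γ h) [Nonempty Y] (t : ℝ) : ∃ x, h x < t := by
  obtain ⟨y⟩ := ‹Nonempty Y›
  obtain ⟨n, hn⟩ := exists_nat_gt (h y - t)
  refine ⟨(γ ^ (n : ℤ)) y, ?_⟩
  rw [D.shift_zpow]
  push_cast
  linarith

variable [PreconnectedSpace Y] {P : Subgroup (LB A)} {q : LB A → ℤ} {d : ℝ}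

theorem denseNZ_of {L : LB A} {s : A.ι → Y → ℂ} (hs : IsHS L univ s) (h0 : s ≠ 0) :
    DenseNZ A univ s := by
  refine IsH.denseNZ ((isHS_iff isOpen_univ).1 hs) ?_
  obtain ⟨i, hi⟩ := Function.ne_iff.1 h0
  obtain ⟨x, hx⟩ := Function.ne_iff.1 hi
  exact ⟨i, x, hx⟩




/-! ### the field `far` -/

/-- `V_L` is at most one-dimensional (from D1) -/
theorem dim1_of (large : ∀ T : ℝ, ∃ y : Y, T < h y)
    (lim : ∀ L ∈ P, ∀ σ ∈ VL h L, σ ≠ 0 → ∃ c : ℂ, c ≠ 0 ∧ LimL (A := A) h σ c) :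
    ∀ L ∈ P, ∀ σ ∈ VL h L, ∀ τ ∈ VL h L, τ ≠ 0 → ∃ c : ℂ, σ = c • τ := by
  intro L hL σ hσ τ hτ hτ0
  refine BR4672.exists_smul_eq (L := L) (h := h) ?_ ?_ hτ hτ0 hσ
  · intro t ht
    by_cases h0 : t = 0
    · refine ⟨0, ?_⟩
      rw [h0]
      exact fun ε hε => ⟨0, fun i x _ _ => by simpa using hε⟩
    · obtain ⟨c, _, hc⟩ := lim L hL t ht h0
      exact ⟨c, hc⟩
  · intro t ht h1
    by_contra h0
    obtain ⟨c, hc0, hc⟩ := lim L hL t ht h0
    exact hc0 (BR4672.LimL.unique large hc h1)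

theorem large_of_deck (D : Deck γ h) [Nonempty Y] (T : ℝ) : ∃ y : Y, T < h y := by
  obtain ⟨y⟩ := ‹Nonempty Y›
  obtain ⟨n, hn⟩ := exists_nat_gt (T - h y)
  refine ⟨(γ ^ (-(n : ℤ))) y, ?_⟩
  rw [D.shift_zpow]
  push_cast
  linarith

/-- the part of `TIn` used for the field `far` -/
structure FarIn (A : Atl 2 Y) (K : A.ι → Set Y) (h : Y → ℝ) (γ : Y ≃ₜ Y) (Q : Equi A γ)
    (P : Subgroup (LB A)) {B : Type} (g : Equiv.Perm B) (lev : B → ℤ) (E : B → LB A)
    (q : LB A → ℤ) (s : B → A.ι → Y → ℂ) (d : ℝ) : Prop where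
  adm : Adm A
  deck : Deck γ h
  cor : Cor A h K
  sol : Sol A K h P q d
  dec : DecS A K h P
  fr : FrS A K h P
  bdg : ∀ L ∈ P, BdG L
  P_pull : ∀ L ∈ P, pullL Q L ∈ P
  lev_g : ∀ β, lev (g β) = lev β + 1
  fin : ∀ n, {β | lev β = n}.Finite
  E_mem : ∀ β, E β ∈ P
  E_pull : ∀ β, pullL Q (E (g β)) * (E β)⁻¹ ∈ TG A h
  lim : ∀ L ∈ P, ∀ σ ∈ VL h L, σ ≠ 0 → ∃ c : ℂ, c ≠ 0 ∧ LimL (A := A) h σ c
  s_mem : ∀ β, s β ∈ VL h (E β)
  s_ne : ∀ β, s β ≠ 0
  q_inv : ∀ β, q (E β)⁻¹ = -1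
  bot_inv : ∀ β, VL h (E β)⁻¹ = ⊥
  limS0 : ∀ β, LimS (A := A) h (s β) 0

namespace FarIn

variable {Q : Equi A γ} {B : Type} {g : Equiv.Perm B} {lev : B → ℤ} {E : B → LB A}
  {s : B → A.ι → Y → ℂ} (H : FarIn A K h γ Q P g lev E q s d)
include H

theorem hol : EffDiv.IsBihol γ where
  fwd := H.deck.hol.mdifferentiable one_ne_zero
  bwd := H.deck.hol_symm.mdifferentiable one_ne_zero

variable [Nonempty Y]

theorem hpull (β : B) : dvs A (s β) = EffDiv.pull H.hol (dvs A (s (g β))) := by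
  rw [← dvs_pull H.adm Q H.hol (H.s_mem (g β)).1 (H.s_ne (g β))]
  have hP1 : pullL Q (E (g β)) ∈ P := H.P_pull _ (H.E_mem _)
  have hs' : pullS Q (s (g β)) ∈ VL h (pullL Q (E (g β))) := by
    have := BR4672.twS_mem_VL (BR4672.sy_equi Q) (c := 1) (fun y => H.deck.shift y) (H.s_mem (g β))
    rwa [← BR4672.pullL_eq, ← BR4672.pullS_eq] at this
  have hs0 := pullS_ne_zero Q (H.s_mem (g β)).1 (H.s_ne (g β))
  obtain ⟨u, hu, hu0, hu'⟩ := H.E_pull β
  have hune : u ≠ 0 := ne_zero_of_nowhere hu0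
  have h1 : u * s β ∈ VL h (pullL Q (E (g β))) := by
    have := mul_mem_VL hu (H.s_mem β)
    rwa [mul_assoc, inv_mul_cancel, mul_one] at this
  have h2 : u * s β ≠ 0 := mul_ne_zero' H.adm hu.1 hune (H.s_mem β).1 (H.s_ne β)
  obtain ⟨c, hc⟩ := dim1_of (large_of_deck H.deck) H.lim _ hP1 _ hs' (u * s β) h1 h2
  have hc0 : c ≠ 0 := by
    rintro rfl
    rw [zero_smul] at hc
    exact hs0 hc
  rw [hc, dvs_smul H.adm h1.1 h2 hc0, dvs_mul H.adm hu.1 hune (H.s_mem β).1 (H.s_ne β),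
    (dvs_eq_zero_iff H.adm hu.1 hune).2 hu0, zero_add]

theorem supp_step (β : B) (t : ℝ) : (∀ x ∈ (dvs A (s β)).supp, h x ≤ t - lev β) ↔
    ∀ x ∈ (dvs A (s (g β))).supp, h x ≤ t - lev (g β) := by
  rw [H.hpull β, EffDiv.supp_pull, H.lev_g]
  push_cast
  constructor
  · intro h2 x hx
    have h3 := h2 (γ.symm x) (by simpa using hx)
    rw [H.deck.shift_symm] at h3
    linarith
  · intro h2 x hx
    have h3 := h2 (γ x) hx
    rw [H.deck.shift] at h3
    linarith


/-- induction along the orbits of `g` -/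
theorem orbit_induction (p : B → Prop) (h0 : ∀ β, lev β = 0 → p β)
    (hs : ∀ β, p β ↔ p (g β)) : ∀ β, p β := by
  have key : ∀ n : ℕ, ∀ β, (lev β = n ∨ lev β = -n) → p β := by
    intro n
    induction n with
    | zero =>
      intro β hβ
      exact h0 β (by simpa using hβ)
    | succ n ih =>
      rintro β (hβ | hβ)
      · have h2 := H.lev_g (g.symm β)
        rw [Equiv.apply_symm_apply] at h2
        have h3 := ih (g.symm β) (Or.inl (by push_cast at hβ; omega))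
        rw [hs (g.symm β), Equiv.apply_symm_apply] at h3
        exact h3
      · have h2 := H.lev_g β
        exact (hs β).2 (ih (g β) (Or.inr (by push_cast at hβ; omega)))
  intro β
  rcases le_total 0 (lev β) with h1 | h1
  · exact key (lev β).toNat β (Or.inl (by omega))
  · exact key (-lev β).toNat β (Or.inr (by omega))

/-- `s_β` has no zeros beyond `T0 - lev β` -/
theorem exists_top : ∃ T0 : ℝ, ∀ β, ∀ x ∈ (dvs A (s β)).supp, h x ≤ T0 - lev β := by
  have h1 : ∀ β, ∃ T : ℝ, ∀ x ∈ (dvs A (s β)).supp, h x ≤ T := by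
    intro β
    obtain ⟨c, hc0, hc⟩ := H.lim (E β) (H.E_mem β) (s β) (H.s_mem β) (H.s_ne β)
    obtain ⟨T, δ, hδ, hT⟩ := BR4672.lowL hc hc0
    refine ⟨T, fun x hx => ?_⟩
    by_contra hcon
    push Not at hcon
    obtain ⟨i, hi⟩ := A.cover x
    have h2 := (mem_supp_dvs H.adm (H.s_mem β).1 (H.s_ne β) hi).1 hx
    have h3 := hT i x hi hcon
    rw [h2, norm_zero] at h3
    linarith
  choose T hT using h1
  obtain ⟨T0, hT0⟩ : ∃ T0 : ℝ, ∀ β, lev β = 0 → T β ≤ T0 := by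
    obtain ⟨M, hM⟩ := ((H.fin 0).image T).bddAbove
    exact ⟨M, fun β hβ => hM ⟨β, hβ, rfl⟩⟩
  refine ⟨T0, H.orbit_induction _ (fun β hβ x hx => ?_) fun β => H.supp_step β T0⟩
  rw [hβ]
  simpa using (hT β x hx).trans (hT0 β hβ)




end FarIn

end Div

end

end Crest.Agent.R275.Fm96
end

-- ▼ part R275/DecS_631
section

/-!
# R275 (helper631): the field `dec` of helper96's `FarIn`

`bd_of_limS_zero` : a section of `L` with limit `0` at the small end decays there with every rate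
`R < min ρ d` : `BD A K h (-R) e s` for every `e > 0`.
`decS_of_sol`     : 96's `DecS A K h P`.
-/

set_option autoImplicit false
set_option linter.unusedSectionVars false

open Set Filter Topology Complex
open scoped ContDiff Manifold

namespace Crest.Agent.R275.RateB631

open Geo Core144 Fm96 NAtl938 Rate631 Sec1197 Wy5197
open Crest.AlgGeometry.Surface

section

variable {Y : Type} [TopologicalSpace Y] {A : Atl 2 Y} {K : A.ι → Set Y} {h : Y → ℝ}

/-- decay at the small end, growth `e` at the large end -/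
theorem bd_small_of_rate {L : LB A} {s : A.ι → Y → ℂ} (hs : s ∈ VL h L) {R : ℝ}
    (H : ∃ C : ℝ, 0 ≤ C ∧ ∀ i, ∀ x ∈ (A.e i).source, h x ≤ 0 →
      ‖s i x - 0‖ ≤ C * Real.exp (-R * |h x|)) {e : ℝ} (he : 0 < e) :
    Bd A h (wgt (-R) e) s := by
  obtain ⟨C, hC0, hC⟩ := H
  obtain ⟨D, hD⟩ := hs.2 e he
  refine ⟨C + max D 0, fun i x hx => ?_⟩
  have hw := wgt_pos (-R) e (h x)
  rcases le_total (h x) 0 with h0 | h0
  · have h1 := hC i x hx h0
    rw [sub_zero, ← wgt_neg_low (b := e) h0] at h1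
    refine h1.trans (mul_le_mul_of_nonneg_right ?_ hw.le)
    linarith [le_max_right D 0]
  · have h1 := hD i x hx
    have h2 : wgt e e (h x) = wgt (-R) e (h x) := by
      unfold wgt
      rw [max_eq_right (by linarith : -h x ≤ 0)]
      congr 1
      ring
    rw [h2] at h1
    refine h1.trans (mul_le_mul_of_nonneg_right ?_ hw.le)
    linarith [le_max_left D 0]

/-- sections with limit zero at the small end decay exponentially there, with all derivatives -/
theorem bd_of_limS_zero {G : Subgroup (LB A)} {q : LB A → ℤ} {d : ℝ}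
    (hS : Sol352.Sol A K h G q d) {P : Part A} (U : UG P h K)
    (hunb : ∀ T : ℝ, ∃ x : Y, h x < T) {L : LB A} {R ρ : ℝ} (hR : 0 < R) (hRd : R < d)
    (hRρ : R < ρ)
    (hg : ∃ C : ℝ, ∀ i j, ∀ x ∈ (A.e i).source ∩ (A.e j).source,
      ‖L.g i j x - 1‖ ≤ C * Real.exp (-ρ * |h x|)) {s : A.ι → Y → ℂ} (hs : s ∈ VL h L)
    (hc : LimS h s 0) {e : ℝ} (he : 0 < e) : BD A K h (-R) e s := by
  have h1 := rate2 hS U.cover U.K_sub hunb (fun i j x hx => hs.1.tr i j x hx (mem_univ x))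
    hR hRd hRρ hg (sigR_of_ug U (by linarith) hg hs) hc
  exact bd_sec U hs.1 (bd_small_of_rate hs h1 he)

/-- **`DecS`**, the field `dec` of `FarIn` -/
theorem decS_of_sol [ChartedSpace C2 Y] {G : Subgroup (LB A)} {q : LB A → ℤ} {d : ℝ}
    (hS : Sol352.Sol A K h G q d) {P : Part A} (U : UG P h K)
    (hunb : ∀ T : ℝ, ∃ x : Y, h x < T) {G' : Subgroup (LB A)} (hG : G' ≤ PG A h) :
    DecS A K h G' := by
  intro L hL σ hσ hc
  obtain ⟨ρ, hρ, hg⟩ := hG hL
  have hd := hS.pos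
  set R := min (ρ / 2) (d / 2) with hR
  have hR0 : 0 < R := lt_min (by linarith) (by linarith)
  have hR1 : R ≤ ρ / 2 := min_le_left _ _
  have hR2 : R ≤ d / 2 := min_le_right _ _
  exact ⟨R, hR0, fun e he => bd_of_limS_zero hS U hunb hR0 (by linarith) (by linarith) hg hσ hc he⟩

end

end Crest.Agent.R275.RateB631
end

-- ▼ part R275/LemDT_96
section

/-!
# R275, block G: LEMMA D (helper96): the uniform quotient in `V_L`, and `LemDw`

* `FarIn.farVL` : `∃ N, ∀ β δ, lev β + N ≤ lev δ → ∃ k ∈ VL h (E β * (E δ)⁻¹), s β = s δ * k`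
* `bd_low_sec`   : sup bounds of a holomorphic section on `{h ≤ T}` give `BD A (Kl K h T)`
* `frameS_one`   : the frame of the trivial bundle
* `lemDw_of`, `FarIn.lemDw` : 95's `LemDw`
-/

set_option autoImplicit false
set_option linter.unusedSectionVars false

open Set Filter Topology Complex
open scoped ContDiff ComplexConjugate Manifold

namespace Crest.Agent.R275.Fm96

open Geo Core144 Sol352

noncomputable section

section Rel

open BR4672

variable {M : Type} [TopologicalSpace M] {A : Atl 2 M} {h : M → ℝ}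

/-- `s'` at the transported place is `s` up to an isomorphism of bundles bounded both ways -/
def Tw (h : M → ℝ) {σ : Equiv.Perm A.ι} {φ : M ≃ₜ M} (S : Sy A σ φ) (L' L : LB A)
    (s' s : A.ι → M → ℂ) : Prop :=
  ∃ c : ℂ, c ≠ 0 ∧ ∃ u ∈ VL h (twL S L' * L⁻¹), (∀ i, ∀ x ∈ (A.e i).source, u i x ≠ 0) ∧
    u⁻¹ ∈ VL h (twL S L' * L⁻¹)⁻¹ ∧ twS σ φ s' = c • (u * s)

variable {σ : Equiv.Perm A.ι} {φ : M ≃ₜ M} {S : Sy A σ φ} {L L' K K' : LB A}
  {s s' t t' k' : A.ι → M → ℂ}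

theorem mul_cancel_of {u s : A.ι → M → ℂ} (hu : ∀ i, ∀ x ∈ (A.e i).source, u i x ≠ 0)
    (hs : ∀ i x, x ∉ (A.e i).source → s i x = 0) : u⁻¹ * (u * s) = s := by
  funext i x
  by_cases hx : x ∈ (A.e i).source
  · simp only [Pi.mul_apply, Pi.inv_apply]
    rw [← mul_assoc, inv_mul_cancel₀ (hu i x hx), one_mul]
  · simp only [Pi.mul_apply, hs i x hx, mul_zero]

theorem Tw.inv (T : Tw h S L' L s' s) (hs : s ∈ VL h L) {c0 : ℝ} (hφ : ∀ y, h (φ y) = h y - c0) :
    Tw h S.inv L L' s s' := by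
  obtain ⟨c, hc, u, hu, hu0, hu', e⟩ := T
  have hφ' : ∀ y, h (φ⁻¹ y) = h y - (-c0) := by
    intro y
    have h1 := hφ (φ⁻¹ y)
    have h2 : φ (φ⁻¹ y) = y := φ.apply_symm_apply y
    rw [h2] at h1
    linarith
  have e1 : twL S.inv (twL S L' * L⁻¹)⁻¹ = twL S.inv L * L'⁻¹ := by
    rw [mul_inv, inv_inv, map_mul, map_inv]
    have : twL S.inv (twL S L') = L' := by
      ext i j x
      simp
    rw [this, mul_comm]
  have e2 : twL S.inv (twL S L' * L⁻¹) = (twL S.inv L * L'⁻¹)⁻¹ := by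
    rw [← e1, map_inv, inv_inv]
  refine ⟨c⁻¹, inv_ne_zero hc, (twS σ⁻¹ φ⁻¹ u)⁻¹, ?_, ?_, ?_, ?_⟩
  · rw [← e1, ← twS_inv]
    exact twS_mem_VL S.inv hφ' hu'
  · intro i x hx
    exact inv_ne_zero (hu0 _ _ ((S.inv.src i x).2 hx))
  · rw [← e2, inv_inv]
    exact twS_mem_VL S.inv hφ' hu
  · have h1 : twS σ⁻¹ φ⁻¹ (twS σ φ s') = s' := by
      funext i x
      simp
    have h2 : s' = c • (twS σ⁻¹ φ⁻¹ u * twS σ⁻¹ φ⁻¹ s) := by
      rw [← twS_mul, ← twS_smul, ← e, h1]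
    have h3 : (twS σ⁻¹ φ⁻¹ u)⁻¹ * (twS σ⁻¹ φ⁻¹ u * twS σ⁻¹ φ⁻¹ s) = twS σ⁻¹ φ⁻¹ s :=
      mul_cancel_of (A := A) (fun i x hx => hu0 _ _ ((S.inv.src i x).2 hx))
        (fun i x hx => hs.1.off _ _ fun h' => hx ((S.inv.src i x).1 h'))
    conv_rhs => rw [h2]
    rw [mul_smul_comm, smul_smul, inv_mul_cancel₀ hc, one_smul, h3]


end Rel

section Div

open Crest.AlgGeometry.Surface
open Crest.Agent.R275.Dv69 (EffDiv LocFact DivFin)
open Crest.Agent.R275.HolY631 (Deck)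
open Crest.Agent.R275.GeoP572
open Crest.Agent.R275.BR4672 (BdG LowE NZ NowZ)

variable {Y : Type} [TopologicalSpace Y] [ChartedSpace C2 Y] [IsManifold 𝓘(ℂ, C2) 1 Y]
variable {A : Atl 2 Y} {K : A.ι → Set Y} {h : Y → ℝ} {γ : Y ≃ₜ Y}
variable [PreconnectedSpace Y] {P : Subgroup (LB A)} {q : LB A → ℤ} {d : ℝ}

namespace FarIn

variable {Q : Equi A γ} {B : Type} {g : Equiv.Perm B} {lev : B → ℤ} {E : B → LB A}
  {s : B → A.ι → Y → ℂ} (H : FarIn A K h γ Q P g lev E q s d)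
include H

variable [Nonempty Y]

theorem tw (β : B) : Tw h (BR4672.sy_equi Q) (E (g β)) (E β) (s (g β)) (s β) := by
  have hP1 : pullL Q (E (g β)) ∈ P := H.P_pull _ (H.E_mem _)
  have hs' : pullS Q (s (g β)) ∈ VL h (pullL Q (E (g β))) := by
    have := BR4672.twS_mem_VL (BR4672.sy_equi Q) (c := 1) (fun y => H.deck.shift y) (H.s_mem (g β))
    rwa [← BR4672.pullL_eq, ← BR4672.pullS_eq] at this
  have hs0 := pullS_ne_zero Q (H.s_mem (g β)).1 (H.s_ne (g β))
  obtain ⟨u, hu, hu0, hu'⟩ := H.E_pull β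
  have hune : u ≠ 0 := ne_zero_of_nowhere hu0
  have h1 : u * s β ∈ VL h (pullL Q (E (g β))) := by
    have := mul_mem_VL hu (H.s_mem β)
    rwa [mul_assoc, inv_mul_cancel, mul_one] at this
  have h2 : u * s β ≠ 0 := mul_ne_zero' H.adm hu.1 hune (H.s_mem β).1 (H.s_ne β)
  obtain ⟨c, hc⟩ := dim1_of (large_of_deck H.deck) H.lim _ hP1 _ hs' (u * s β) h1 h2
  have hc0 : c ≠ 0 := by
    rintro rfl
    rw [zero_smul] at hc
    exact hs0 hc
  exact ⟨c, hc0, u, hu, hu0, hu', hc⟩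



end FarIn

end Div

section Low

open Wy5197

variable {Y : Type} [TopologicalSpace Y] {A : Atl 2 Y} {P : Part A} {h : Y → ℝ}
  {K : A.ι → Set Y} {L : LB A}

/-- sup bounds of a holomorphic section on every `{h ≤ T}` give bounds of all derivatives on the
cores below level `T` -/
theorem bd_low_sec (U : UG P h K) {s : A.ι → Y → ℂ} (hs : IsHS L univ s) {a b : ℝ}
    (hb : ∀ T : ℝ, ∃ C : ℝ, ∀ i, ∀ x ∈ (A.e i).source, h x ≤ T → ‖s i x‖ ≤ C * wgt a b (h x))
    (T : ℝ) : BD A (Kl K h T) h a b s := by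
  obtain ⟨W, hW, hosc⟩ := U.osc
  obtain ⟨C, hC⟩ := hb (T + W)
  set σ : Type := {i : A.ι // ∃ x ∈ (A.e i).source, h x < T} with hσ
  have h1 : WB658.WB A (fun j : σ => j.1) (fun j : σ => K j.1) (fun x => wgt a b (h x))
      (fun j : σ => s j.1) := by
    refine U.wb_hol (σ := σ) (c := fun j => j.1) (d := fun j => j.1) (fun i => by simp)
      (fun i y hy => Sec1197.holP_sec hs hy) ⟨C, ?_⟩
    rintro ⟨i, x, hx, hxT⟩ y ⟨hy, -⟩
    refine hC i y hy ?_
    have := hosc i y hy x hx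
    have := (abs_le.1 this).2
    linarith
  refine WB.mk' (fun i x hx => ?_) fun k => ?_
  · exact h1.sm (s := ⟨i, x, U.K_sub i hx.1, hx.2⟩) hx.1
  · obtain ⟨D, hD, hb⟩ := h1.bd k
    exact ⟨D, hD, fun i x hx => hb ⟨i, x, U.K_sub i hx.1, hx.2⟩ x hx.1⟩

/-- the frame of the trivial bundle -/
theorem frameS_one (hK : ∀ i, K i ⊆ (A.e i).source) (T : ℝ) {ρ0 : ℝ} (h0 : 0 < ρ0) :
    FrameS A K h 1 (fn A fun _ => (1 : ℂ)) T ρ0 := by
  have hz : IsZ0 A 1 univ (fn A fun _ => (1 : ℂ)) :=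
    isZ0_fn fun i x _ _ => SmP.const 1
  have h1 : WB A (Kl K h T) (fun x => wgt 0 0 (h x)) (fun _ _ => (1 : ℂ)) :=
    JB658.jb_const _ (c := fun _ => (1 : ℂ)) ⟨1, zero_le_one, fun t => by simp [wgt_zero]⟩
      fun t => (wgt_pos _ _ _).le
  have e1 : ∀ i, ∀ x ∈ Kl K h T i, ∀ᶠ y in 𝓝 x, fn A (fun _ => (1 : ℂ)) i y = 1 := by
    intro i x hx
    filter_upwards [src_nhds (hK i hx.1)] with y hy
    exact fn_of_mem hy
  have hK' : ∀ i, Kl K h T i ⊆ (A.e i).source := fun i => inter_subset_left.trans (hK i)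
  exact {
    pos := h0
    hl := hz.mono (subset_univ _)
    lne := fun i x hx _ => by rw [fn_of_mem hx]; exact one_ne_zero
    lbd := WB.congr h1 hK' fun i x hx => e1 i x hx
    libd := WB.congr h1 hK' fun i x hx => by
      filter_upwards [e1 i x hx] with y hy
      rw [hy, inv_one]
    abd := fun c => WB.of_zero hK' (fun x => (wgt_pos _ _ _).le) fun i x hx => by
      filter_upwards [(e1 i x hx).eventually_nhds, src_nhds (hK i hx.1)] with y hy hys
      have h2 : d0 A (fn A fun _ => (1 : ℂ)) i y c = 0 := by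
        rw [d0_of_mem hys, db_congr hys hy, db_constP]
      simp [sdv1, h2] }

end Low

section Div2

open Wy5197
open Crest.AlgGeometry.Surface
open Crest.Agent.R275.Dv69 (EffDiv LocFact DivFin)
open Crest.Agent.R275.HolY631 (Deck)
open Crest.Agent.R275.GeoP572
open Crest.Agent.R275.BR4672 (BdG LowE NZ NowZ)

variable {Y : Type} [TopologicalSpace Y] [ChartedSpace C2 Y] [IsManifold 𝓘(ℂ, C2) 1 Y]
variable {A : Atl 2 Y} {K : A.ι → Set Y} {h : Y → ℝ} {γ : Y ≃ₜ Y}
variable [PreconnectedSpace Y] {P : Subgroup (LB A)} {q : LB A → ℤ} {d : ℝ}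

theorem bdG_one : BdG (1 : LB A) := ⟨1, fun i j x => by
  have : (1 : LB A).g i j x = 1 := rfl
  rw [this, norm_one]⟩

/-- a function decaying at the small end: class `BD` on the cores below any level -/
theorem bd_low_of_decay (D : Deck γ h) (hA : Adm A) {P0 : Part A} (U : UG P0 h K)
    {w : A.ι → Y → ℂ} (hw : IsHS (1 : LB A) univ w) {C ρ : ℝ}
    (hdec : ∀ i, ∀ x ∈ (A.e i).source, h x ≤ 0 → ‖w i x‖ ≤ C * Real.exp (ρ * h x)) (T : ℝ) :
    BD A (Kl K h T) h (-ρ) 0 w := by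
  refine bd_low_sec U hw (fun T' => ?_) T
  obtain ⟨M, hM0, hM⟩ := BR4672.bd_on_compact hA bdG_one hw (D.slab 0 T')
  refine ⟨max C 0 + M, fun i x hx hxT => ?_⟩
  have hp := wgt_pos (-ρ) 0 (h x)
  rcases le_total (h x) 0 with h0 | h0
  · have e1 : wgt (-ρ) 0 (h x) = Real.exp (ρ * h x) := by
      unfold wgt
      rw [max_eq_left (by linarith : (0 : ℝ) ≤ -h x)]
      congr 1
      ring
    have h1 := hdec i x hx h0
    rw [← e1] at h1
    refine h1.trans (mul_le_mul_of_nonneg_right ?_ hp.le)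
    linarith [le_max_left C 0]
  · have e1 : wgt (-ρ) 0 (h x) = 1 := by
      unfold wgt
      rw [max_eq_right (by linarith : -h x ≤ 0)]
      simp
    rw [e1, mul_one]
    have := hM i x hx ⟨h0, hxT⟩
    linarith [le_max_right C 0]

/-- **Lemma D for functions**: `s` divides every function which decays at the small end -/
theorem dvs_le_of_decay (D : Deck γ h) (hA : Adm A) (C : Cor A h K) {P0 : Part A}
    (U : UG P0 h K) (S : Sol A K h P q d) (dec : DecS A K h P) {Ls : LB A} {s : A.ι → Y → ℂ}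
    (hLs : Ls ∈ P) (hs : s ∈ VL h Ls) (hs0 : s ≠ 0) (hcs : LimS (A := A) h s 0) {c : ℂ}
    (hc : c ≠ 0) (hcL : LimL (A := A) h s c) (hq : q Ls⁻¹ = -1) (hV : VL h Ls⁻¹ = ⊥)
    {w : A.ι → Y → ℂ} (hw : IsHS (1 : LB A) univ w) (hw0 : w ≠ 0)
    (hdec : ∃ C, ∃ ρ > 0, ∀ i, ∀ x ∈ (A.e i).source, h x ≤ 0 →
      ‖w i x‖ ≤ C * Real.exp (ρ * h x)) : dvs A s ≤ dvs A w := by
  obtain ⟨C2, ρ2, hρ2, h2⟩ := hdec
  obtain ⟨ρ1, hρ1, h1⟩ := dec _ hLs s hs hcs
  obtain ⟨T, δ, hδ, hT⟩ := BR4672.lowL hcL hc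
  have hne' : Nonempty Y := by
    obtain ⟨i, hi⟩ := Function.ne_iff.1 hs0
    obtain ⟨x, -⟩ := Function.ne_iff.1 hi
    exact ⟨x⟩
  have HD : LD A K h Ls 1 s w (fn A fun _ => (1 : ℂ)) univ (T + 5) (min ρ1 ρ2) 1 := {
    C := C
    bot := small_of_deck D
    hρ := lt_min hρ1 hρ2
    hs := (isHS_iff isOpen_univ).1 hs.1
    sd := denseNZ_of hs.1 hs0
    sne := fun i x hx ht h0 => by
      have := hT i x hx (by linarith)
      rw [h0, norm_zero] at this
      linarith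
    sbd := fun e he => (h1 e he).mono (neg_le_neg (min_le_left _ _)) le_rfl
    oN := isOpen_univ
    subN := subset_univ _
    hu := (isHS_iff isOpen_univ).1 hw
    ubd := (bd_low_of_decay D hA U hw h2 (T + 5)).mono (neg_le_neg (min_le_right _ _)) le_rfl
    fr := frameS_one C.sub _ one_pos }
  obtain ⟨k, hk, hk1, -⟩ := HD.of_sol S hLs hq hV
  have hk' : IsHS (Ls⁻¹ * 1) univ k := (isHS_iff isOpen_univ).2 hk
  have e1 : w = s * k := by
    funext i x
    exact (hk1 i x).symm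
  have hk0 : k ≠ 0 := by
    rintro rfl
    rw [mul_zero] at e1
    exact hw0 e1
  rw [e1, dvs_mul hA hs.1 hs0 hk' hk0]
  exact le_self_add

namespace FarIn

variable {Q : Equi A γ} {B : Type} {g : Equiv.Perm B} {lev : B → ℤ} {E : B → LB A}
  {s : B → A.ι → Y → ℂ} (H : FarIn A K h γ Q P g lev E q s d)
include H

variable [Nonempty Y]


end FarIn

end Div2

end

end Crest.Agent.R275.Fm96
end

-- ▼ part R275/SkelEnd_69
section

/-!
# R275, helper69: the END half assembled, general version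

* `lemDw_of_tinS`  : Lemma D for functions, from 686's `TinS`
* `shell_of_tin`   : `TIn` + `TinS` + `N8i/N8ii` + spectrum + analytic input + rate re-choice +
                     the iteration (`IterHyp`) ⟹ `HasGlobalSphericalShell X`
-/

set_option autoImplicit false
set_option linter.unusedSectionVars false

open Set Filter Topology
open scoped Manifold ContDiff

namespace Crest.Agent.R275.SkelEnd69

open Crest.AlgGeometry.Surface Crest.Agent.R275.Geo Crest.Agent.R275.Core144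
open Crest.Agent.R275.Dv69 (HolN LEq EffDiv gt LocFact DivFin)
open Crest.Agent.R275.HolY631 (Deck)
open Crest.Agent.R275.GeoP572 Crest.Agent.R275.Sec495 Crest.Agent.R275.S5In95
open Crest.Agent.R275.Int495 Crest.Agent.R275.RootS5595 Crest.Agent.R275.Rech69
open Crest.Agent.R275.St3686 Crest.Agent.R275.Sol352 Crest.Agent.R275.Lau473
open Crest.Agent.R275.Fin468 Crest.Agent.R275.Xin473 Crest.Agent.R275.Tr5

noncomputable section

section lemD

variable {Y : Type} [TopologicalSpace Y] [ChartedSpace C2 Y] [IsManifold 𝓘(ℂ, C2) 1 Y]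
  [LocFact Y] [PreconnectedSpace Y] [Nonempty Y]
  {A : Atl 2 Y} {Pt : Part A} {h : Y → ℝ} {γ : Y ≃ₜ Y} {Q : Equi A γ} {K : A.ι → Set Y}
  {P : Subgroup (LB A)} {B : Type} {g : Equiv.Perm B} {lev : B → ℤ}
  {E : B → LB A} {q : LB A → ℤ} {s : B → A.ι → Y → ℂ} {d : ℝ}

/-- `h` is unbounded below -/
theorem unb_small (D : Deck γ h) (T : ℝ) : ∃ y : Y, h y < T := Fm96.small_of_deck D T

/-- **Lemma D for functions** -/
theorem lemDw_of_tinS (H : TinS A Pt h γ Q K P g lev E q s d) : LemDw A h s := by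
  intro β w hw hw0 hdec
  obtain ⟨c, hc, hcL⟩ := H.lim (H.E_mem β) (H.s_mem β) (H.s_ne β)
  exact Fm96.dvs_le_of_decay H.deck H.adm H.cor H.ug H.sol
    (RateB631.decS_of_sol H.sol H.ug (unb_small H.deck) H.le) (H.E_mem β) (H.s_mem β) (H.s_ne β)
    (H.limS_zero β) hc hcL (H.q_inv β) (H.VL_inv β) hw hw0 hdec

end lemD

section main

variable {X Y : Type} [TopologicalSpace X] [T2Space X] [CompactSpace X] [ConnectedSpace X]
  [ChartedSpace C2 X] [IsManifold 𝓘(ℂ, C2) 1 X]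
  [TopologicalSpace Y] [T2Space Y] [ConnectedSpace Y] [ChartedSpace C2 Y]
  [IsManifold 𝓘(ℂ, C2) 1 Y] [LocFact Y] [DivFin Y]
  {A : Atl 2 Y} (Ec : EndCover X Y) {Pt : Part A} {Q : Equi A Ec.g} {K : A.ι → Set Y}
  {P : Subgroup (LB A)} {B : Type} [DecidableEq B] [Nonempty B] {g : Equiv.Perm B} {lev : B → ℤ}
  {E : B → LB A} {q : LB A → ℤ} {s : B → A.ι → Y → ℂ} {d : ℝ}

/-- **the END half**, general version -/
theorem shell_of_tin (H : TIn A Ec.h Ec.g Q P g lev E q s)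
    (HS : TinS A Pt Ec.h Ec.g Q K P g lev E q s d)
    (hP : ∀ L, pullL Q L ∈ P ↔ L ∈ P) (N1 : N8i A Ec.h P q) (N2 : N8ii A Ec.h P q)
    (hle : ∀ t ∈ Spec Ec.g, ‖t‖ ≤ 1)
    (hsol : (∀ r : ℝ, r ≠ 0 → NonSp Ec.g r) → ∀ d : ℝ, 0 < d → Sol A K Ec.h P q d)
    (hex : ∀ R : ℝ, ∀ L ∈ P, ∃ L' ∈ P, IsoP Ec.h L L' ∧ HasR Ec.h R L')
    (hit : ∀ (O : Ord495 H.toDivData.toData) (m : ℤ) (N : Set Y), IsOpen N →
      (Dk H O m).supp ⊆ N → (∃ T : ℝ, {z | Ec.h z ≤ T} ⊆ N) → (∃ H0 : ℝ, ∀ z ∈ N, Ec.h z ≤ H0) →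
      (∀ k, k + O.r k < m → Disjoint (closure N) (Ck H O k).1.supp) →
      E (O.φ (m - 1)) ∈ FrG A Ec.h N → IterHyp H O m N) :
    HasGlobalSphericalShell X := by
  obtain ⟨O⟩ := H.toDivData.toData.exists_order
  have hD : LemDw A Ec.h s := lemDw_of_tinS HS
  have hunb := unb_small Ec.deck
  have hS : HasS Ec.h P := fun L hL σ hσ => HS.sec.limS L hL σ hσ
  refine shell_end Ec H O N1 N2 hS ?_ ?_ (hit O)
  · intro _
    exact exists_famH_one H O hS hP HS.le (RateB631.hrate_one HS.sol HS.ug hunb P)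
  · intro h2 ρ0
    obtain ⟨i, hi, hi'⟩ := h2 0
    have hr : 2 ≤ O.r i := by
      have := hi'.2
      omega
    have hns : ∀ r : ℝ, r ≠ 0 → NonSp Ec.g r :=
      fun r hr0 => RateB631.nonSp_of_mult H O hD hr hle hr0
    have hsol' := hsol hns
    exact exists_famH_two H O hS hP hex (RateB631.hrate_two (fun d => ⟨max d 0 + 1,
      (le_max_left d 0).trans_lt (lt_add_one _),
      hsol' _ (by linarith [le_max_right d 0])⟩) HS.ug hunb P) ρ0

end main

end

end Crest.Agent.R275.SkelEnd69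
end

-- ▼ part R275/EBS_938
section

/-!
# R275, block P (helper938): the outputs of block P from the solution theorems `Sol` (352)

* `out1`        : existence of the end line bundle of a class, any decay rate (646)
* `solv`        : the solvability input of UN (646)
* `isIso_of_trivP` : a trivial end line bundle is isomorphic to `1` with exponential limits
* `hc_of_isoP`  : IsoP-invariance of the class
* `trivP_of_cob`, `isoP_of_cob` : cohomologous classes give isomorphic bundles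
* `exists_rate` : representatives with prescribed rate
* `exists_lat_of_sol` : OUT8 with all analytic inputs replaced by `Sol`
-/

set_option autoImplicit false
set_option linter.unusedSectionVars false

open Set Filter Topology Complex
open scoped Manifold ContDiff

namespace Crest.Agent.R275.EBS938

open Crest.AlgGeometry.Surface
open Crest.Agent.R275.Geo Crest.Agent.R275.GC293 Crest.Agent.R275.NAtl938
open Crest.Agent.R275.WD977 Crest.Agent.R275.Core144 Crest.Agent.R275.Cls938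
open Crest.Agent.R275.LocT474 Crest.Agent.R275.Loc647 Crest.Agent.R275.EB938
open Crest.Agent.R275.GeoP572 (TG Lat bq prodE)
open Crest.Agent.R275.BR4672 (gB)
open Crest.Agent.R275.Sol352 Crest.Agent.R275.PSol646 Crest.Agent.R275.Fm96
open Crest.Agent.R275.WB658 (EPart)
open Crest.Agent.R275.Wy5197 (UG)
open Crest.Agent.R275.Sec1197

noncomputable section

variable {Y : Type} [TopologicalSpace Y]

/-! ### the height is unbounded -/

section Unb

variable {n : ℕ} {N : NAtl n Y} {g : Y ≃ₜ Y} {h : Y → ℝ}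

theorem small_of_per [Nonempty Y] (Q : N.Per g h) (T : ℝ) : ∃ y : Y, h y < T := by
  obtain ⟨y⟩ := ‹Nonempty Y›
  obtain ⟨m, hm⟩ := exists_nat_gt (h y - T)
  refine ⟨(g ^ (m : ℤ)) y, ?_⟩
  rw [Cls672.shift_zpow_per Q]
  push_cast
  linarith

theorem large_of_per [Nonempty Y] (Q : N.Per g h) (T : ℝ) : ∃ y : Y, T < h y := by
  obtain ⟨y⟩ := ‹Nonempty Y›
  obtain ⟨m, hm⟩ := exists_nat_gt (T - h y)
  refine ⟨(g ^ (-(m : ℤ))) y, ?_⟩
  rw [Cls672.shift_zpow_per Q]
  push_cast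
  linarith

end Unb

variable {N : NAtl 2 Y} {g : Y ≃ₜ Y} {h : Y → ℝ} {K : N.ι → Set Y} {σ d : ℝ}
  {P : Subgroup (LB N.sm)} {q : LB N.sm → ℤ} {c c' : N.ι → N.ι → N.ι → ℤ} {L L' : LB N.sm}

/-! ### existence, solvability -/



/-! ### class `P` from a rate -/


/-! ### trivial bundles -/

section Triv

variable {Pa : Part N.sm}




end Triv

/-! ### the outputs -/

section Out

variable [T2Space Y] [Nonempty Y] [ChartedSpace C2 Y] [IsManifold 𝓘(ℂ, C2) 1 Y]
  {Pn : Nerve N.ι} {F : Forms Pn} {Q : N.Per g h} {Qp : EPart N Q}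

/-- section 1 for the group `PP` -/
theorem secIn (U : UG Qp.toPart h K) (S : Sol N.sm K h (PP N h) (qL F h) d) :
    SecIn N.sm h (PP N h) (qL F h) :=
  secIn_of_sol U S PP_le (small_of_per Q) (large_of_per Q)






end Out

end

end Crest.Agent.R275.EBS938
end

-- ▼ part R275/SkelY_144

/-!
# R275, helper144: the Y side, from `XGeo X` + `Forms` + `Sol` to `TIn`

`N8Out`  : the outputs of block N8 (genus, inter, N8i, N8ii)
`YOut`   : everything the END half needs: `Pre` (672), `TIn` (572), `TinS` (686), N8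
`XGeo.exists_yOut`
-/

set_option autoImplicit false
set_option linter.unusedSectionVars false

open Set Filter Topology Complex Metric
open scoped Manifold ContDiff

namespace Crest.Agent.R275.SkelY144

open Crest.AlgGeometry.Surface
open Crest.Agent.R275.Geo Crest.Agent.R275.Core144 Crest.Agent.R275.NAtl938
open Crest.Agent.R275.Fm96 Crest.Agent.R275.WB658 Crest.Agent.R275.Base144
open Crest.Agent.R275.Cls938 Crest.Agent.R275.EB938 Crest.Agent.R275.Loc647
open Crest.Agent.R275.LocT474 Crest.Agent.R275.Sol352 Crest.Agent.R275.Sec1197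
open Crest.Agent.R275.GeoP572 (TG Lat bq dvs TIn)
open Crest.Agent.R275.BR4672 (gB BdG LowE NZ)
open Crest.Agent.R275.Dv69 (EffDiv LocFact DivFin)
open Crest.Agent.R275.TInA672 (YDat Pre)
open Crest.Agent.R275.St3686 (TinS)
open Crest.Agent.R275.Int495 (N8i N8ii)
open Crest.Agent.R275.ZC352 Crest.Agent.R275.XN194

noncomputable section

section Y

variable {Y : Type} [TopologicalSpace Y] [ChartedSpace C2 Y] [IsManifold 𝓘(ℂ, C2) 1 Y]

/-- the outputs of block N8 -/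
structure N8Out [LocFact Y] (A : Atl 2 Y) (h : Y → ℝ) (P : Subgroup (LB A)) (q : LB A → ℤ) :
    Prop where
  genus : ∀ C : EffDiv Y, Dv69.Mon.IsPr C → IsCompact C.supp → ∀ L ∈ P, ∀ σ ∈ VL h L, σ ≠ 0 →
    dvs A σ = C → q L⁻¹ = -1
  inter : ∀ C : EffDiv Y, Dv69.Mon.IsPr C → IsCompact C.supp → ∀ L ∈ P, ∀ σ ∈ VL h L, σ ≠ 0 →
    dvs A σ = C → ∀ C' : EffDiv Y, Dv69.Mon.IsPr C' → IsCompact C'.supp → C ≠ C' → ∀ L' ∈ P,
    ∀ σ' ∈ VL h L', σ' ≠ 0 → dvs A σ' = C' → 0 ≤ bq q L L'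
  n8i : N8i A h P q
  n8ii : N8ii A h P q

/-- the output of the Y side -/
structure YOut [LocFact Y] (B : YBase Y) {Pn : Nerve B.N.ι} (F : Forms Pn) (d : ℝ) {b : ℕ}
    (E : Fin b × ℤ → LB B.N.sm) (s : Fin b × ℤ → B.N.ι → Y → ℂ) : Prop where
  pre : Pre B F d E s
  tin : TIn B.N.sm B.h B.g B.equi (PP B.N B.h) (gB (Fin b)) Prod.snd E (qL F B.h) s
  tinS : TinS B.N.sm B.P B.h B.g B.equi B.K (PP B.N B.h) (gB (Fin b)) Prod.snd E
    (qL F B.h) s d
  n8 : N8Out B.N.sm B.h (PP B.N B.h) (qL F B.h)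

end Y

section X

variable {X : Type} [TopologicalSpace X] [ChartedSpace C2 X] [IsManifold 𝓘(ℂ, C2) 1 X]
  [CompactSpace X] [T2Space X] (G : XGeo X) [ConnectedSpace (YC G.u)] [LocFact (YC G.u)]

/-- the field `nef` -/
theorem nef_of (F : Forms G.Pn) {d : ℝ}
    {b : ℕ} {E : Fin b × ℤ → LB G.NY.sm} {s : Fin b × ℤ → G.NY.ι → YC G.u → ℂ}
    (H : Pre G.yBase F d E s) {I : KR798.KIndex (Smf798.smf G.N.sm)}
    (hlink : PushS768.Link G.preC F G.P I)
    (hK : ∀ (L : LB G.N.sm) (s : G.N.ι → X → ℂ), IsHS L univ s → s ≠ 0 →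
      0 ≤ QX825.bb G.P I (KB G.N.sm) L) :
    ∀ C' : EffDiv (YC G.u), IsCompact C'.supp → ∀ L ∈ PP G.NY (YC.ht G.u), ∀ σ ∈ VL (YC.ht G.u) L,
      σ ≠ 0 → dvs G.NY.sm σ = C' →
      2 * qL F (YC.ht G.u) L ≤ bq (qL F (YC.ht G.u)) L L := by
  refine PushS768.nef_final (C := G.C) (E := E) G.goodY G.Q G.yBase.P G.nl G.yBase.admA
    (fun y => ?_) (YC.deck G.u).cont hlink hK (YC.deck G.u) H.lat H.lim ?_ ?_ ?_
  · have := ycov_act_ht G.u G.L 1 y
    rwa [Int.cast_one] at this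
  · intro L hL σ hσ
    obtain ⟨cs, cl, D, r, hr, h1⟩ := exists_lim' H.dat.ug H.dat.sol (PP_le hL) hσ
    exact ⟨cs, cl, D, r, hr, h1⟩
  · intro β L hL w hw hw0
    have hne : w ≠ 0 := GeoP572.ne_zero_of_nowhere hw0
    obtain ⟨W, hW⟩ := H.loc
    exact hW β L hL w hw hne (-(β.2 : ℝ) - W) (fun i x hx _ => hw0 i x hx) (by linarith)
  · intro D hD
    obtain ⟨L, hL, σ, h1, h2, h3, -, h5, h6, -⟩ := H.odiv' D hD
    exact ⟨L, hL, σ, h1, h2, h3, h5, h6⟩

/-- **the Y side** -/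
theorem exists_yOut (F : Forms G.Pn) {d : ℝ}
    (S : Sol G.yBase.N.sm G.yBase.K G.yBase.h (PP G.yBase.N G.yBase.h) (qL F G.yBase.h) d)
    (hN8 : ∀ (b : ℕ) (E : Fin b × ℤ → LB G.yBase.N.sm) (s : Fin b × ℤ → G.yBase.N.ι → YC G.u → ℂ),
      Pre G.yBase F d E s → N8Out G.yBase.N.sm G.yBase.h (PP G.yBase.N G.yBase.h)
        (qL F G.yBase.h))
    {I : KR798.KIndex (Smf798.smf G.N.sm)}
    (hlink : PushS768.Link G.preC F G.P I)
    (hK : ∀ (L : LB G.N.sm) (s : G.N.ι → X → ℂ), IsHS L univ s → s ≠ 0 →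
      0 ≤ QX825.bb G.P I (KB G.N.sm) L) :
    ∃ (b : ℕ) (E : Fin b × ℤ → LB G.yBase.N.sm)
      (s : Fin b × ℤ → G.yBase.N.ι → YC G.u → ℂ), YOut G.yBase F d E s := by
  have D : YDat G.yBase F d := ⟨G.nl, G.Q_s_eq, S⟩
  obtain ⟨b, E, s, H⟩ := D.exists_pre
  have h8 := hN8 b E s H
  have nef : ∀ C : EffDiv (YC G.u), Dv69.Mon.IsPr C → IsCompact C.supp →
      ∀ L ∈ PP G.yBase.N G.yBase.h, ∀ σ ∈ VL G.yBase.h L, σ ≠ 0 → dvs G.yBase.N.sm σ = C →
      2 * qL F G.yBase.h L ≤ bq (qL F G.yBase.h) L L :=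
    fun C _ hC L hL σ hσ h0 hd => nef_of G F H hlink hK C hC L hL σ hσ h0 hd
  exact ⟨b, E, s, H, H.toTIn h8.genus nef h8.inter, H.tinS nef, h8⟩

end X

end

end Crest.Agent.R275.SkelY144
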