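import Crest.Agent.R275.SqH_617
import Crest.Agent.R275.LauH_635
import Crest.Agent.R275.QPa_635
import Crest.Agent.R275.LauB_681

-- ▼ part R275/SqI_617
section

/-!
# R275, block D (helper617): exact homotopies on weighted sequence scales

`LData.exists_homotopy`: if the Laurent complex `L` is exact (on smooth elements) at every point of
the circle `|t| = r`, then there is `η > 0` such that on the weighted sequences with any weight `w`
satisfying `w n ≤ exp (η |m|) * r ^ m * w (n + m)` there is an exact homotopy of order zero and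
degree `-1`.
-/

set_option autoImplicit false

namespace Crest.Agent.R275.Sq617

open Module LinearMap Submodule Fred685

noncomputable section

variable {V : Type*} [AddCommGroup V] [Module ℂ V]

/-! ### rescaling -/

section scaling

variable {A : Type*} [Ring A] [Algebra ℂ A]

/-- `f(r T)` -/
def sc (r : ℂˣ) : Lau A →+* Lau A :=
  AddMonoidAlgebra.liftNCRingHom (AddMonoidAlgebra.singleZeroRingHom : A →+* Lau A)
    { toFun := fun m => AddMonoidAlgebra.single m.toAdd (algebraMap ℂ A ((r : ℂ) ^ m.toAdd))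
      map_one' := by
        show AddMonoidAlgebra.single 0 (algebraMap ℂ A ((r : ℂ) ^ (0 : ℤ))) = 1
        rw [zpow_zero, map_one, AddMonoidAlgebra.one_def]
      map_mul' := fun a b => by
        rw [AddMonoidAlgebra.single_mul_single, ← map_mul, ← zpow_add₀ r.ne_zero]
        rfl }
    (fun a b => by
      show AddMonoidAlgebra.single 0 a * AddMonoidAlgebra.single _ _ =
        AddMonoidAlgebra.single _ _ * AddMonoidAlgebra.single 0 a
      rw [AddMonoidAlgebra.single_mul_single, AddMonoidAlgebra.single_mul_single, zero_add,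
        add_zero, Algebra.commutes])

theorem sc_single (r : ℂˣ) (m : ℤ) (a : A) :
    sc r (AddMonoidAlgebra.single m a) = AddMonoidAlgebra.single m ((r : ℂ) ^ m • a) := by
  refine (AddMonoidAlgebra.liftNC_single _ _ _ _).trans ?_
  show AddMonoidAlgebra.single 0 a * AddMonoidAlgebra.single m (algebraMap ℂ A ((r : ℂ) ^ m)) = _
  rw [AddMonoidAlgebra.single_mul_single, zero_add, ← Algebra.commutes, Algebra.smul_def]

theorem sc_eq (r : ℂˣ) (f : Lau A) : sc r f =
    ∑ m ∈ f.coeff.support, AddMonoidAlgebra.single m ((r : ℂ) ^ m • f.coeff m) := by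
  conv_lhs => rw [← AddMonoidAlgebra.sum_coeff_single f]
  unfold Finsupp.sum
  rw [map_sum]
  exact Finset.sum_congr rfl fun m _ => sc_single r m _

theorem sc_coeff (r : ℂˣ) (f : Lau A) (m : ℤ) : (sc r f).coeff m = (r : ℂ) ^ m • f.coeff m := by
  classical
  rw [sc_eq, AddMonoidAlgebra.coeff_sum, Finsupp.finsetSum_apply]
  simp only [AddMonoidAlgebra.coeff_single, Finsupp.single_apply]
  rw [Finset.sum_ite_eq']
  split_ifs with h
  · rfl
  · rw [Finsupp.notMem_support_iff.mp h, smul_zero]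

theorem ev_sc (t r : ℂˣ) (f : Lau A) : ev t (sc r f) = ev (t * r) f := by
  have h : ((ev t : Lau A →+* A).comp (sc r : Lau A →+* Lau A)) = (ev (t * r) : Lau A →+* A) := by
    apply AddMonoidAlgebra.ringHom_ext
    · intro a
      show ev t (sc r (AddMonoidAlgebra.single 0 a)) = ev (t * r) (AddMonoidAlgebra.single 0 a)
      rw [sc_single, ev_single, ev_single, smul_smul, zpow_zero, zpow_zero, zpow_zero, one_mul]
    · intro m
      show ev t (sc r (AddMonoidAlgebra.single m 1)) = ev (t * r) (AddMonoidAlgebra.single m 1)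
      rw [sc_single, ev_single, ev_single, smul_smul, Units.val_mul, mul_zpow]
  exact RingHom.congr_fun h f

theorem sc_sc (r : ℂˣ) (f : Lau A) : sc r⁻¹ (sc r f) = f := by
  ext m : 2
  rw [sc_coeff, sc_coeff, smul_smul, ← mul_zpow, Units.inv_mul, one_zpow, one_smul]

theorem sc_sc' (r : ℂˣ) (f : Lau A) : sc r (sc r⁻¹ f) = f := by
  ext m : 2
  rw [sc_coeff, sc_coeff, smul_smul, ← mul_zpow, Units.mul_inv, one_zpow, one_smul]

end scaling

variable {S : Scale ℂ V} {G : Gr ℂ V}

/-- rescaled Laurent data -/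
def LData.scale (L : LData S G) (r : ℂˣ) : LData S G where
  πop := L.πop
  P := sc r L.P
  D := sc r L.D
  K := sc r L.K
  opP m := by rw [sc_coeff]; exact (L.opP m).smul _
  opD m := by rw [sc_coeff]; exact (L.opD m).smul _
  opK m := by rw [sc_coeff]; exact (L.opK m).smul _
  dP m := by rw [sc_coeff]; exact (L.dP m).smul _
  dD m := by rw [sc_coeff]; exact (L.dD m).smul _
  dK m := by rw [sc_coeff]; exact (L.dK m).smul _
  PP := by rw [← map_mul, L.PP]
  DP := by rw [← map_mul, L.DP]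
  PD := by rw [← map_mul, L.PD]
  PK := by rw [← map_mul, L.PK]
  KP := by rw [← map_mul, L.KP]
  DD := by rw [← map_mul, L.DD, map_zero]
  neg m := by
    rw [← map_mul, ← map_mul, ← map_sub, ← map_sub, sc_coeff]
    exact (L.neg m).smul _

/-- exactness on smooth elements on the circle `|t| = r` -/
def LData.ExactOn (L : LData S G) (r : ℝ) : Prop :=
  ∀ t : ℂˣ, ‖(t : ℂ)‖ = r → ∀ v, ev t L.P v = v → ev t L.D v = 0 → ∃ u, ev t L.D u = v

/-- PATCH THEOREM on the circle of radius `r` -/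
theorem LData.patchR (L : LData S G) {r : ℝ} (hr : 0 < r) (hex : L.ExactOn r) {δ : ℝ}
    (hδ : 0 < δ) :
    ∃ T : Lau (Module.End ℂ V), (∀ m, Opm S S (T.coeff m)) ∧ (∀ m, Deg G G (-1) (T.coeff m)) ∧
      L.P * T = T ∧ T * L.P = T ∧
      (∀ m, Opm S S ((err L.P L.D (L.K + T)).coeff m)) ∧
      ∃ c : ℤ → ℝ, (∀ m, 0 ≤ c m) ∧
        (∀ m v, S.nrm 0 ((err L.P L.D (L.K + T)).coeff m v) ≤ c m * S.nrm 0 v) ∧
        ∑ m ∈ (err L.P L.D (L.K + T)).coeff.support, r ^ m * c m < δ := by
  have hr0 : (r : ℂ) ≠ 0 := by exact_mod_cast hr.ne'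
  let ρ : ℂˣ := Units.mk0 (r : ℂ) hr0
  have hρ : ((ρ : ℂˣ) : ℂ) = (r : ℂ) := rfl
  obtain ⟨T, h1, h2, h3, h4, h5, c, hc0, hc1, hc2, hc3⟩ := (L.scale ρ).patch (fun z v hv hdv => by
    have hv' : ev (Circle.toUnits z * ρ) L.P v = v := by rw [← ev_sc]; exact hv
    have hdv' : ev (Circle.toUnits z * ρ) L.D v = 0 := by rw [← ev_sc]; exact hdv
    obtain ⟨u, hu⟩ := hex (Circle.toUnits z * ρ) (by
      rw [Units.val_mul, norm_mul, hρ, Complex.norm_real, Real.norm_of_nonneg hr.le]
      have : ‖((Circle.toUnits z : ℂˣ) : ℂ)‖ = 1 := Circle.norm_coe z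
      rw [this, one_mul]) v hv' hdv'
    refine ⟨u, ?_⟩
    show ev (Circle.toUnits z) (sc ρ L.D) u = v
    rw [ev_sc]; exact hu) hδ
  have hE : sc ρ (err L.P L.D (L.K + sc ρ⁻¹ T)) = err (L.scale ρ).P (L.scale ρ).D ((L.scale ρ).K + T) := by
    unfold err
    rw [map_sub, map_sub, map_mul, map_mul, map_add, sc_sc']
    rfl
  have hE' : ∀ m, (err L.P L.D (L.K + sc ρ⁻¹ T)).coeff m =
      ((r : ℂ) ^ (-m)) • (err (L.scale ρ).P (L.scale ρ).D ((L.scale ρ).K + T)).coeff m := by
    intro m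
    rw [← hE, sc_coeff, smul_smul, hρ, ← zpow_add₀ hr0, neg_add_cancel, zpow_zero, one_smul]
  refine ⟨sc ρ⁻¹ T, fun m => ?_, fun m => ?_, ?_, ?_, fun m => ?_, fun m => r ^ (-m) * c m,
    fun m => mul_nonneg (zpow_nonneg hr.le _) (hc0 m), fun m v => ?_, ?_⟩
  · rw [sc_coeff]; exact Opm.smul' _ (h1 m)
  · rw [sc_coeff]; exact (h2 m).smul _
  · have h6 := congrArg (sc ρ⁻¹) h3
    rw [map_mul] at h6
    have h7 : sc ρ⁻¹ (L.scale ρ).P = L.P := sc_sc ρ _
    rwa [h7] at h6
  · have h6 := congrArg (sc ρ⁻¹) h4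
    rw [map_mul] at h6
    have h7 : sc ρ⁻¹ (L.scale ρ).P = L.P := sc_sc ρ _
    rwa [h7] at h6
  · rw [hE']; exact Opm.smul' _ (h5 m)
  · rw [hE', LinearMap.smul_apply, map_smul_eq_mul, norm_zpow, Complex.norm_real,
      Real.norm_of_nonneg hr.le, mul_assoc]
    exact mul_le_mul_of_nonneg_left (hc2 m v) (zpow_nonneg hr.le _)
  · have h8 : (err L.P L.D (L.K + sc ρ⁻¹ T)).coeff.support =
        (err (L.scale ρ).P (L.scale ρ).D ((L.scale ρ).K + T)).coeff.support := by
      ext m
      rw [Finsupp.mem_support_iff, Finsupp.mem_support_iff, hE', Ne, Ne, smul_eq_zero]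
      have : ((r : ℂ) ^ (-m)) ≠ 0 := zpow_ne_zero _ hr0
      tauto
    rw [h8]
    refine lt_of_le_of_lt (le_of_eq (Finset.sum_congr rfl fun m _ => ?_)) hc3
    rw [← mul_assoc, ← zpow_add₀ hr.ne', add_neg_cancel, zpow_zero, one_mul]

/-! ### the exact homotopy -/

/-- an exact homotopy on the range of `P` -/
structure IsHt (L : LData S G) {w : Wt ℤ} (hw : w.Tame) (H : Module.End ℂ (SqV S w)) : Prop where
  op : Op0 (sqS S w) (sqS S w) H
  deg : Deg (sqG S G L.πop w) (sqG S G L.πop w) (-1) H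
  PH : actS hw L.P L.opP * H = H
  HP : H * actS hw L.P L.opP = H
  htp : actS hw L.D L.opD * H + H * actS hw L.D L.opD = actS hw L.P L.opP

theorem actS_mul' {w : Wt ℤ} (hw : w.Tame) {f g h : Lau (Module.End ℂ V)}
    (hf : ∀ m, Op0 S S (f.coeff m)) (hg : ∀ m, Op0 S S (g.coeff m))
    (hh : ∀ m, Op0 S S (h.coeff m)) (e : f * g = h) : actS hw f hf * actS hw g hg = actS hw h hh := by
  subst e
  apply LinearMap.ext
  intro u
  apply Subtype.ext
  show actL V f (actL V g u) = actL V (f * g) u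
  rw [map_mul]
  rfl

/-- EXACT HOMOTOPIES ON WEIGHTED SEQUENCES. -/
theorem LData.exists_homotopy (L : LData S G) {r : ℝ} (hr : 0 < r) (hex : L.ExactOn r) :
    ∃ η > 0, ∀ (w : Wt ℤ) (hw : w.Tame),
      (∀ n m : ℤ, w.w n ≤ Real.exp (η * |(m : ℝ)|) * r ^ m * w.w (n + m)) →
      ∃ H : Module.End ℂ (SqV S w), IsHt L hw H := by
  obtain ⟨T, h1, h2, h3, h4, h5, c, hc0, hc2, hc3⟩ := L.patchR hr hex (δ := 1 / 4) (by norm_num)
  set E := err L.P L.D (L.K + T) with hE
  -- choice of `η`
  obtain ⟨M, hM⟩ : ∃ M : ℝ, 0 < M ∧ ∀ m ∈ E.coeff.support, |(m : ℝ)| ≤ M := by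
    refine ⟨1 + ∑ m ∈ E.coeff.support, |(m : ℝ)|, by positivity, fun m hm => ?_⟩
    have := Finset.single_le_sum (f := fun m : ℤ => |(m : ℝ)|) (fun _ _ => abs_nonneg _) hm
    linarith
  refine ⟨Real.log 2 / M, div_pos (Real.log_pos (by norm_num)) hM.1, fun w hw hwr => ?_⟩
  set η := Real.log 2 / M with hη
  have hη0 : 0 < η := div_pos (Real.log_pos (by norm_num)) hM.1
  have hopT : ∀ m, Op0 S S (T.coeff m) := fun m => (h1 m).op0
  have hopL : ∀ m, Op0 S S ((L.K + T).coeff m) := op0_add' L.opK hopT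
  have hopE : ∀ m, Op0 S S (E.coeff m) := fun m => (h5 m).op0
  set 𝔓 := actS hw L.P L.opP with h𝔓
  set 𝔇 := actS hw L.D L.opD with h𝔇
  set 𝔎 := actS hw (L.K + T) hopL with h𝔎
  set 𝔈 := actS hw E hopE with h𝔈
  have hEeq : 𝔈 = 𝔓 - (𝔇 * 𝔎 + 𝔎 * 𝔇) := by
    apply LinearMap.ext
    intro u
    apply Subtype.ext
    show actL V E u = actL V L.P u - (actL V L.D (actL V (L.K + T) u) +
      actL V (L.K + T) (actL V L.D u))
    rw [hE]
    unfold err
    rw [map_sub, map_sub, map_mul, map_mul]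
    show actL V L.P u - actL V L.D (actL V (L.K + T) u) - actL V (L.K + T) (actL V L.D u) = _
    abel
  have hsmall : ∀ u, (sqS S w).nrm 0 (𝔈 u) ≤ (1 / 2) * (sqS S w).nrm 0 u := by
    intro u
    have hb := (act_bound E (s := 0) (t := 0) hc0 hc2
      (B := fun m => Real.exp (η * |(m : ℝ)|) * r ^ m)
      (fun m => mul_nonneg (Real.exp_nonneg _) (zpow_nonneg hr.le _))
      (fun m n => hwr n m) (u.2 0)).2
    refine hb.trans (mul_le_mul_of_nonneg_right ?_ (N2_nonneg _))
    have h6 : ∀ m ∈ E.coeff.support,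
        Real.exp (η * |(m : ℝ)|) * r ^ m * c m ≤ 2 * (r ^ m * c m) := by
      intro m hm
      rw [mul_assoc]
      refine mul_le_mul_of_nonneg_right ?_ (mul_nonneg (zpow_nonneg hr.le _) (hc0 m))
      have h7 : η * |(m : ℝ)| ≤ Real.log 2 := by
        calc η * |(m : ℝ)| ≤ η * M := mul_le_mul_of_nonneg_left (hM.2 m hm) hη0.le
          _ = Real.log 2 := by rw [hη]; exact div_mul_cancel₀ _ hM.1.ne'
      calc Real.exp (η * |(m : ℝ)|) ≤ Real.exp (Real.log 2) := Real.exp_le_exp.mpr h7
        _ = 2 := Real.exp_log (by norm_num)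
    refine (Finset.sum_le_sum h6).trans ?_
    rw [← Finset.mul_sum]
    linarith
  obtain ⟨e, he, heop⟩ := exists_inverse (S := sqS S w) (M := 𝔈) (actS_opm hw E hopE h5) hsmall
  set Wi : Module.End ℂ (SqV S w) := (e.symm : SqV S w →ₗ[ℂ] SqV S w) with hWi
  have hW1 : (1 - (𝔓 - (𝔇 * 𝔎 + 𝔎 * 𝔇))) * Wi = 1 := by
    rw [← hEeq]
    apply LinearMap.ext
    intro v
    show e.symm v - 𝔈 (e.symm v) = v
    rw [← he, e.apply_symm_apply]
  have hW2 : Wi * (1 - (𝔓 - (𝔇 * 𝔎 + 𝔎 * 𝔇))) = 1 := by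
    rw [← hEeq]
    apply LinearMap.ext
    intro v
    show e.symm (v - 𝔈 v) = v
    rw [← he, e.symm_apply_apply]
  have hPL : L.P * (L.K + T) = L.K + T := by rw [mul_add, L.PK, h3]
  have hLP : (L.K + T) * L.P = L.K + T := by rw [add_mul, L.KP, h4]
  have hDD : 𝔇 * 𝔇 = 0 := by
    apply LinearMap.ext
    intro u
    apply Subtype.ext
    show actL V L.D (actL V L.D u) = 0
    have := congrArg (fun f => actL V f (u : ℤ → V)) L.DD
    simp only [map_mul, map_zero] at this
    exact this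
  obtain ⟨k1, k2, k3⟩ := Lau635.correct_homotopy_ring (P := 𝔓) (D := 𝔇) (Kt := 𝔎) (W := Wi)
    (actS_mul' hw _ _ _ L.PP) (actS_mul' hw _ _ _ L.DP) (actS_mul' hw _ _ _ L.PD) hDD
    (actS_mul' hw _ _ _ hPL) (actS_mul' hw _ _ _ hLP) hW1 hW2
  refine ⟨Wi * 𝔎, ?_, ?_, k2, k3, k1⟩
  · exact heop.comp (actS_op0 hw _ _)
  · have hdE : ∀ m, Deg G G 0 (E.coeff m) := by
      intro m
      have hd : Deg G G 0 ((err L.P L.D (L.K + T)).coeff m) := by
        have e1 : ∀ m, Deg G G 0 ((L.D * (L.K + T)).coeff m) := fun m => by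
          have h := mul_mem_LS (J₁ := GD S G 1) (J₂ := GD S G (-1)) (J₃ := GD S G 0)
            (fun a ha b hb => Deg.comp' ha hb (by norm_num))
            (f := lf S L.D L.opD) (g := lf S (L.K + T) hopL)
            (fun m => by
              show Deg G G 1 ((lf S L.D L.opD).coeff m : Module.End ℂ V)
              rw [lf_coeff]; exact L.dD m)
            (fun m => by
              show Deg G G (-1) ((lf S (L.K + T) hopL).coeff m : Module.End ℂ V)
              rw [lf_coeff]; exact (L.dK m).add (h2 m)) m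
          have h' : Deg G G 0 ((mp S (lf S L.D L.opD * lf S (L.K + T) hopL)).coeff m) := by
            rw [mp_coeff]; exact h
          rwa [map_mul, mp_lf, mp_lf] at h'
        have e2 : ∀ m, Deg G G 0 (((L.K + T) * L.D).coeff m) := fun m => by
          have h := mul_mem_LS (J₁ := GD S G (-1)) (J₂ := GD S G 1) (J₃ := GD S G 0)
            (fun a ha b hb => Deg.comp' ha hb (by norm_num))
            (f := lf S (L.K + T) hopL) (g := lf S L.D L.opD)
            (fun m => by
              show Deg G G (-1) ((lf S (L.K + T) hopL).coeff m : Module.End ℂ V)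
              rw [lf_coeff]; exact (L.dK m).add (h2 m))
            (fun m => by
              show Deg G G 1 ((lf S L.D L.opD).coeff m : Module.End ℂ V)
              rw [lf_coeff]; exact L.dD m) m
          have h' : Deg G G 0 ((mp S (lf S (L.K + T) hopL * lf S L.D L.opD)).coeff m) := by
            rw [mp_coeff]; exact h
          rwa [map_mul, mp_lf, mp_lf] at h'
        exact ((L.dP m).sub (e1 m)).sub (e2 m)
      exact hd
    have hdW : Deg (sqG S G L.πop w) (sqG S G L.πop w) 0 Wi := by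
      apply deg_of_comm
      intro q v
      apply e.injective
      show e (e.symm _) = e _
      rw [e.apply_symm_apply, he]
      have h8 := (actS_deg L.πop hw E hopE hdE).comm q (e.symm v)
      show _ = (sqG S G L.πop w).π q (e.symm v) - 𝔈 ((sqG S G L.πop w).π q (e.symm v))
      rw [h8, ← map_sub, ← he, e.apply_symm_apply]
    exact Deg.comp' hdW (actS_deg L.πop hw (L.K + T) hopL fun m => (L.dK m).add (h2 m))
      (by norm_num)

end

end Crest.Agent.R275.Sq617
end

-- ▼ part R275/SqJ_617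

/-!
# R275, block D (helper617): transfer to weighted spaces of sections

`R : PerRet ℂ V U` (helper635), `PerCx R D L`: the Laurent data `L` describe the periodic complex
`(U, D)`. `WU R S w`: the elements of `U` whose localisation is a weighted square summable sequence.

* `PerCx.exists_homotopy` : exactness on the circle `|t| = r` gives exact homotopies on `WU R S w`.
* `eh_of` : the same in the form `EH` of `LauB_681`.
* `PerCx.eint` : `EInt (ρ - η) (ρ + η)` from exactness on the circle `|t| = exp (-ρ)`.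
-/

set_option autoImplicit false

namespace Crest.Agent.R275.Sq617

open Module LinearMap Submodule Fred685 QP635 LauB681

noncomputable section

variable {V U : Type*} [AddCommGroup V] [Module ℂ V] [AddCommGroup U] [Module ℂ U]
  {S : Scale ℂ V} {G : Gr ℂ V} {w : Wt ℤ}

/-- the Laurent polynomial `∑ c m T^m` -/
def lau (c : ℤ → Module.End ℂ V) (M : ℕ) : Lau (Module.End ℂ V) :=
  ∑ m ∈ PerRet.win M, AddMonoidAlgebra.single m (c m)

theorem lau_coeff (c : ℤ → Module.End ℂ V) {M : ℕ} (h : ∀ m, m ∉ PerRet.win M → c m = 0) (m : ℤ) :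
    (lau c M).coeff m = c m := by
  classical
  unfold lau
  rw [AddMonoidAlgebra.coeff_sum, Finsupp.finsetSum_apply]
  simp only [AddMonoidAlgebra.coeff_single, Finsupp.single_apply]
  rw [Finset.sum_ite_eq']
  split_ifs with hm
  · rfl
  · exact (h m hm).symm


/-- a Laurent polynomial with the right coefficients acts like the operator -/
theorem actL_co (R : PerRet ℂ V U) {T : Module.End ℂ U} {M : ℕ} (hi : R.Inv T) (hT : R.FP T M)
    {F : Lau (Module.End ℂ V)} (hF : ∀ m, F.coeff m = R.co T m) (f : ℤ → V) :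
    R.Loc (T (R.Ext f)) = actL V F f := by
  funext n
  rw [PerRet.Loc_T_Ext hi hT, actL_apply]
  have h1 : F.coeff.support ⊆ PerRet.win M := by
    intro m hm
    by_contra h
    exact (Finsupp.mem_support_iff.mp hm) (by rw [hF, PerRet.co_eq_zero hT h])
  symm
  refine (Finset.sum_subset h1 fun m _ hm => ?_).trans
    (Finset.sum_congr rfl fun m _ => by rw [hF])
  rw [Finsupp.notMem_support_iff.mp hm, LinearMap.zero_apply]

/-- `L` describes the periodic complex `(U, D)` -/
structure PerCx (R : PerRet ℂ V U) (D : Module.End ℂ U) (L : LData S G) : Prop where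
  P : ∀ f, R.Loc (R.Ext f) = actL V L.P f
  D : ∀ f, R.Loc (D (R.Ext f)) = actL V L.D f

theorem PerCx.of_co {R : PerRet ℂ V U} {D : Module.End ℂ U} {L : LData S G} {M M' : ℕ}
    (h1 : R.FP 1 M) (hP : ∀ m, L.P.coeff m = R.co 1 m) (hi : R.Inv D) (hD : R.FP D M')
    (hDc : ∀ m, L.D.coeff m = R.co D m) : PerCx R D L :=
  ⟨fun f => actL_co R R.inv_one h1 hP f, fun f => actL_co R hi hD hDc f⟩

/-- weighted elements -/
def WU (R : PerRet ℂ V U) (S : Scale ℂ V) (w : Wt ℤ) : Submodule ℂ U := (SqV S w).comap R.Loc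

theorem mem_WU {R : PerRet ℂ V U} {u : U} : u ∈ WU R S w ↔ R.Loc u ∈ SqV S w := Iff.rfl

theorem Loc_inj (R : PerRet ℂ V U) {u v : U} (h : R.Loc u = R.Loc v) : u = v := by
  rw [← R.Ext_Loc u, h, R.Ext_Loc]

/-- localisation of weighted elements -/
def locW (R : PerRet ℂ V U) (S : Scale ℂ V) (w : Wt ℤ) : WU R S w →ₗ[ℂ] SqV S w :=
  R.Loc.restrict fun _ hu => hu

@[simp] theorem locW_coe (R : PerRet ℂ V U) (u : WU R S w) :
    ((locW R S w u : SqV S w) : ℤ → V) = R.Loc u := rfl

namespace PerCx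

variable {R : PerRet ℂ V U} {D : Module.End ℂ U} {L : LData S G}

theorem ext_mem (h : PerCx R D L) (hw : w.Tame) {f : ℤ → V} (hf : f ∈ SqV S w) :
    R.Ext f ∈ WU R S w := by
  rw [mem_WU, h.P]
  exact act_mem hw L.opP hf

/-- extension of weighted sequences -/
def extW (h : PerCx R D L) (hw : w.Tame) : SqV S w →ₗ[ℂ] WU R S w :=
  R.Ext.restrict fun _ hf => h.ext_mem hw hf

@[simp] theorem extW_coe (h : PerCx R D L) (hw : w.Tame) (f : SqV S w) :
    ((h.extW hw f : WU R S w) : U) = R.Ext f := rfl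


theorem locW_extW (h : PerCx R D L) (hw : w.Tame) (f : SqV S w) :
    locW R S w (h.extW hw f) = actS hw L.P L.opP f := Subtype.ext (h.P f)

theorem loc_D (h : PerCx R D L) (u : U) : R.Loc (D u) = actL V L.D (R.Loc u) := by
  conv_lhs => rw [← R.Ext_Loc u]
  exact h.D _

theorem D_ext (h : PerCx R D L) (f : ℤ → V) : D (R.Ext f) = R.Ext (actL V L.D f) := by
  rw [← h.D, R.Ext_Loc]

theorem D_mem (h : PerCx R D L) (hw : w.Tame) {u : U} (hu : u ∈ WU R S w) : D u ∈ WU R S w := by
  rw [mem_WU, h.loc_D]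
  exact act_mem hw L.opD hu

theorem DD (h : PerCx R D L) (u : U) : D (D u) = 0 := by
  apply Loc_inj R
  rw [h.loc_D, h.loc_D, map_zero, ← Module.End.mul_apply, ← map_mul, L.DD, map_zero,
    LinearMap.zero_apply]

/-- `H` on sequences gives a homotopy on `WU` -/
def ht (h : PerCx R D L) (hw : w.Tame) (H : Module.End ℂ (SqV S w)) : Module.End ℂ (WU R S w) :=
  h.extW hw ∘ₗ H ∘ₗ locW R S w

theorem ht_htp (h : PerCx R D L) (hw : w.Tame) {H : Module.End ℂ (SqV S w)} (hH : IsHt L hw H)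
    (u : WU R S w) :
    D (h.ht hw H u) + h.ht hw H ⟨D u, h.D_mem hw u.2⟩ = (u : U) := by
  have e1 : locW R S w ⟨D u, h.D_mem hw u.2⟩ = actS hw L.D L.opD (locW R S w u) :=
    Subtype.ext (h.loc_D u)
  have e2 := LinearMap.congr_fun hH.htp (locW R S w u)
  have e3 := congrArg (fun f : SqV S w => R.Ext (f : ℤ → V)) e2
  have e4 : R.Ext (actL V L.P (R.Loc u)) = (u : U) := by
    rw [← h.P, R.Ext_Loc, R.Ext_Loc]
  have e5 : D (h.ht hw H u) = R.Ext (actL V L.D (H (locW R S w u) : ℤ → V)) := h.D_ext _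
  have e6 : (h.ht hw H ⟨D u, h.D_mem hw u.2⟩ : U) =
      R.Ext (H (actS hw L.D L.opD (locW R S w u)) : ℤ → V) := by
    rw [← e1]; rfl
  rw [e5, e6, ← map_add]
  rw [← e4]
  exact e3

theorem loc_ht (h : PerCx R D L) (hw : w.Tame) {H : Module.End ℂ (SqV S w)} (hH : IsHt L hw H)
    (u : WU R S w) : locW R S w (h.ht hw H u) = H (locW R S w u) := by
  show locW R S w (h.extW hw (H (locW R S w u))) = _
  rw [h.locW_extW]
  exact LinearMap.congr_fun hH.PH (locW R S w u)

end PerCx

/-! ### integer degrees -/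

/-- the degree projections indexed by the integers -/
def gz (G : Gr ℂ V) (q : ℤ) : Module.End ℂ V := if 0 ≤ q then G.π q.toNat else 0

theorem gz_comm {G : Gr ℂ V} {k : ℤ} {T : Module.End ℂ V} (hT : Deg G G k T) (q : ℤ) (v : V) :
    T (gz G q v) = gz G (q + k) (T v) := by
  unfold gz
  by_cases hq : 0 ≤ q
  · obtain ⟨a, rfl⟩ := Int.eq_ofNat_of_zero_le hq
    rw [if_pos hq]
    by_cases hk : 0 ≤ (a : ℤ) + k
    · obtain ⟨b, hb⟩ := Int.eq_ofNat_of_zero_le hk
      rw [hb, if_pos (Int.natCast_nonneg b)]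
      simp only [Int.toNat_natCast]
      -- `T (π a v) = π b (T v)`
      have h1 : T v = ∑ q ∈ Finset.range (G.m + 1), T (G.π q v) := by
        rw [← map_sum, G.sum]
      have h2 : ∀ c : ℕ, c ≠ a → G.π b (T (G.π c v)) = 0 := fun c hc => hT c b (by
        intro h; apply hc; have : (c : ℤ) + k = a + k := by rw [hb, ← h]
        exact_mod_cast (add_right_cancel this)) v
      have h3 : G.π b (T (G.π a v)) = T (G.π a v) := by
        have h4 : T (G.π a v) = ∑ r ∈ Finset.range (G.m + 1), G.π r (T (G.π a v)) :=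
          (G.sum _).symm
        have h5 : ∀ r : ℕ, r ≠ b → G.π r (T (G.π a v)) = 0 := fun r hr => hT a r (by
          intro h; apply hr; have : (r : ℤ) = b := by rw [h, hb]
          exact_mod_cast this) v
        by_cases hbm : b ∈ Finset.range (G.m + 1)
        · conv_rhs => rw [h4]
          rw [Finset.sum_eq_single b (fun r _ hr => h5 r hr) (fun h => absurd hbm h)]
        · have h6 : T (G.π a v) = 0 := by
            rw [h4]
            exact Finset.sum_eq_zero fun r hr => h5 r (fun hh => hbm (hh ▸ hr))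
          rw [h6, map_zero]
      rw [← h3]
      conv_rhs => rw [h1, map_sum]
      by_cases ham : a ∈ Finset.range (G.m + 1)
      · rw [Finset.sum_eq_single a (fun c _ hc => h2 c hc) (fun h => absurd ham h)]
      · have h6 : G.π a v = 0 := G.top a v (by
          rw [Finset.mem_range] at ham; omega)
        rw [h6, map_zero, map_zero]
        exact (Finset.sum_eq_zero fun c hc => h2 c (fun hh => ham (hh ▸ hc))).symm
    · rw [if_neg hk, LinearMap.zero_apply]
      have h4 : T (G.π a v) = ∑ r ∈ Finset.range (G.m + 1), G.π r (T (G.π a v)) := (G.sum _).symm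
      simp only [Int.toNat_natCast]
      rw [h4]
      exact Finset.sum_eq_zero fun r _ => hT a r (by intro h; omega) v
  · rw [if_neg hq, LinearMap.zero_apply, map_zero]
    by_cases hk : 0 ≤ q + k
    · obtain ⟨b, hb⟩ := Int.eq_ofNat_of_zero_le hk
      rw [hb, if_pos (Int.natCast_nonneg b)]
      simp only [Int.toNat_natCast]
      have h1 : T v = ∑ q ∈ Finset.range (G.m + 1), T (G.π q v) := by
        rw [← map_sum, G.sum]
      rw [h1, map_sum]
      exact (Finset.sum_eq_zero fun c _ => hT c b (by intro h; omega) v).symm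
    · rw [if_neg hk, LinearMap.zero_apply]

theorem gz_sq (πop : ∀ q, Op0 S S (G.π q)) (q : ℤ) (f : SqV S w) (n : ℤ) :
    ((gz (sqG S G πop w) q f : SqV S w) : ℤ → V) n = gz G q (f.1 n) := by
  unfold gz
  split_ifs with h
  · rfl
  · rfl

/-- **exact homotopies in the form of `LauB_681`** -/
theorem PerCx.eh_of {R : PerRet ℂ V U} {D : Module.End ℂ U} {L : LData S G} (h : PerCx R D L)
    {F : WF ℂ U} (C : Cx F) (hC : ∀ u, C.D u = D u) {x y : ℝ}
    (hmem : ∀ u, u ∈ F.V x y ↔ R.Loc u ∈ SqV S w)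
    (h2 : ∀ s, ∃ c : ℝ, ∀ u : F.V x y, N2 (sf S w s (R.Loc (u : U))) ≤ c * (F.S x y).nrm s u)
    (h3 : ∀ s, ∃ c : ℝ, ∀ u : F.V x y, (F.S x y).nrm s u ≤ c * N2 (sf S w s (R.Loc (u : U))))
    (hπ : ∀ (q : ℤ) u n, R.Loc (F.π q u) n = gz G q (R.Loc u n))
    (hw : w.Tame) {H : Module.End ℂ (SqV S w)} (hH : IsHt L hw H) : EH C x y := by
  have le1 : F.V x y ≤ WU R S w := fun u hu => (hmem u).1 hu
  have le2 : WU R S w ≤ F.V x y := fun u hu => (hmem u).2 hu
  let K : F.V x y →ₗ[ℂ] F.V x y :=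
    Submodule.inclusion le2 ∘ₗ h.ht hw H ∘ₗ Submodule.inclusion le1
  have hK : ∀ u : F.V x y, (K u : U) = h.ht hw H (Submodule.inclusion le1 u) := fun _ => rfl
  have hl : ∀ u : F.V x y, R.Loc (K u : U) = H (locW R S w (Submodule.inclusion le1 u)) :=
    fun u => congrArg Subtype.val (h.loc_ht hw hH (Submodule.inclusion le1 u))
  refine ⟨K, ?_, ?_, ?_⟩
  · intro s
    obtain ⟨c2, hc2⟩ := h2 s
    obtain ⟨c3, hc3⟩ := h3 s
    obtain ⟨c4, h40, hc4⟩ := exists_nonneg_const (hH.op s)
    refine ⟨max c3 0 * (c4 * c2), fun u => ?_⟩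
    have e1 := hc3 (K u)
    rw [hl] at e1
    have e2 := hc4 (locW R S w (Submodule.inclusion le1 u))
    have e3 := hc2 u
    rw [sqS_nrm, sqS_nrm] at e2
    have e4 : c3 * N2 (sf S w s (H (locW R S w (Submodule.inclusion le1 u)) : ℤ → V)) ≤
        max c3 0 * N2 (sf S w s (H (locW R S w (Submodule.inclusion le1 u)) : ℤ → V)) :=
      mul_le_mul_of_nonneg_right (le_max_left _ _) (N2_nonneg _)
    refine (e1.trans e4).trans ?_
    rw [mul_assoc]
    refine mul_le_mul_of_nonneg_left (e2.trans ?_) (le_max_right _ _)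
    rw [mul_assoc]
    exact mul_le_mul_of_nonneg_left e3 h40
  · intro q v
    apply Subtype.ext
    apply Loc_inj R
    rw [hl]
    have e1 : locW R S w (Submodule.inclusion le1 (F.πR x y q v)) =
        gz (sqG S G L.πop w) q (locW R S w (Submodule.inclusion le1 v)) := by
      apply Subtype.ext
      funext n
      rw [gz_sq]
      exact hπ q v n
    rw [e1, gz_comm hH.deg]
    funext n
    rw [gz_sq, WF.coe_πR, hπ, hl]
  · intro v
    have e2 : (K (C.R x y v) : U) = h.ht hw H ⟨D v, h.D_mem hw (le1 v.2)⟩ := by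
      rw [hK]
      congr 2
      apply Subtype.ext
      exact hC v
    rw [hC, e2]
    exact h.ht_htp hw hH (Submodule.inclusion le1 v)

/-! ### two-sided exponential weights -/

/-- rate `a` for `n ≥ 0` (small end), `b` for `n ≤ 0` (large end) -/
def wrate (a b : ℝ) : Wt ℤ where
  w n := Real.exp (a * max (n : ℝ) 0 - b * max (-(n : ℝ)) 0)
  pos _ := Real.exp_pos _

theorem exp_zpow (x : ℝ) (m : ℤ) : Real.exp x ^ m = Real.exp (m * x) := by
  rw [← Real.rpow_intCast, ← Real.exp_mul, mul_comm]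

theorem wrate_lip {a b ρ η : ℝ} (ha : |a - ρ| ≤ η) (hb : |b - ρ| ≤ η) (n m : ℤ) :
    (wrate a b).w n ≤ Real.exp (η * |(m : ℝ)|) * Real.exp (-ρ) ^ m * (wrate a b).w (n + m) := by
  show Real.exp _ ≤ _ * Real.exp _
  rw [exp_zpow, ← Real.exp_add, ← Real.exp_add]
  apply Real.exp_le_exp.mpr
  push_cast
  set x : ℝ := (n : ℝ) with hx
  set y : ℝ := (m : ℝ) with hy
  -- positive and negative parts
  have hη : 0 ≤ η := (abs_nonneg _).trans ha
  have e1 : ∀ t : ℝ, t = max t 0 - max (-t) 0 := fun t => by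
    rcases le_total 0 t with h | h
    · rw [max_eq_left h, max_eq_right (by linarith)]; ring
    · rw [max_eq_right h, max_eq_left (by linarith)]; ring
  have e2 : |x - (x + y)| = |y| := by rw [sub_add_cancel_left, abs_neg]
  -- monotone Lipschitz functions
  have e3 : |max x 0 - max (x + y) 0| + |max (-x) 0 - max (-(x + y)) 0| ≤ |y| := by
    rcases le_total 0 x with h | h <;> rcases le_total 0 (x + y) with h' | h'
    · rw [max_eq_left h, max_eq_left h', max_eq_right (by linarith), max_eq_right (by linarith)]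
      rw [e2]; simp
    · rw [max_eq_left h, max_eq_right h', max_eq_right (by linarith), max_eq_left (by linarith)]
      rw [sub_zero, zero_sub, neg_neg, abs_of_nonneg h, abs_of_nonpos h', abs_of_nonpos (by linarith)]
      linarith
    · rw [max_eq_right h, max_eq_left h', max_eq_left (by linarith), max_eq_right (by linarith)]
      rw [sub_zero, zero_sub, abs_neg, abs_neg, abs_of_nonneg h', abs_of_nonpos h,
        abs_of_nonneg (by linarith)]
      linarith
    · rw [max_eq_right h, max_eq_right h', max_eq_left (by linarith), max_eq_left (by linarith)]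
      rw [sub_self, abs_zero, zero_add]
      have : -x - -(x + y) = y := by ring
      rw [this]
  have e4 : (a - ρ) * (max x 0 - max (x + y) 0) - (b - ρ) * (max (-x) 0 - max (-(x + y)) 0) ≤
      η * |y| := by
    have f1 : (a - ρ) * (max x 0 - max (x + y) 0) ≤ η * |max x 0 - max (x + y) 0| :=
      (le_abs_self _).trans (by rw [abs_mul]; exact mul_le_mul_of_nonneg_right ha (abs_nonneg _))
    have f2 : -((b - ρ) * (max (-x) 0 - max (-(x + y)) 0)) ≤
        η * |max (-x) 0 - max (-(x + y)) 0| :=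
      (neg_le_abs _).trans (by rw [abs_mul]; exact mul_le_mul_of_nonneg_right hb (abs_nonneg _))
    have f3 := mul_le_mul_of_nonneg_left e3 hη
    linarith
  have e5 := e1 x
  have e6 := e1 (x + y)
  linear_combination e4 + ρ * e6 - ρ * e5

theorem wrate_tame (a b : ℝ) : (wrate a b).Tame := by
  intro m
  refine ⟨Real.exp (max (|a|) (|b|) * |(m : ℝ)|), (Real.exp_pos _).le, fun n => ?_⟩
  have h := wrate_lip (a := a) (b := b) (ρ := 0) (η := max (|a|) (|b|))
    (by rw [sub_zero]; exact le_max_left _ _) (by rw [sub_zero]; exact le_max_right _ _) n m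
  rwa [neg_zero, Real.exp_zero, one_zpow, mul_one] at h

/-! ### exactness from quasi-periodic elements -/

theorem actL_quasi (F : Lau (Module.End ℂ V)) (t : ℂˣ) (v : V) :
    actL V F (fun n => (t : ℂ) ^ n • v) 0 = ev t F v := by
  rw [actL_apply, ev_eq]
  unfold Finsupp.sum
  rw [LinearMap.sum_apply]
  exact Finset.sum_congr rfl fun m _ => by rw [zero_add, map_smul, LinearMap.smul_apply]

/-- exactness of the Laurent complex on the circle `|t| = r` from exactness of `D` on the
quasi-periodic elements -/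
theorem PerCx.exactOn {R : PerRet ℂ V U} {D : Module.End ℂ U} {L : LData S G} (h : PerCx R D L)
    (hi : R.Inv D) {r : ℝ} (hq : ∀ t : ℂ, ‖t‖ = r → t ≠ 0 → ∀ u, R.γ u = t • u → D u = 0 →
      ∃ w, R.γ w = t • w ∧ D w = u) : L.ExactOn r := by
  intro t ht v hP hD
  have e1 : ∀ g : V, R.ev 1 (t : ℂ) g = ev t L.P g := by
    intro g
    rw [← actL_quasi, ← h.P, PerRet.Loc_zero]
    rfl
  have e2 : ∀ g : V, R.ev D (t : ℂ) g = ev t L.D g := by
    intro g
    rw [← actL_quasi, ← h.D, PerRet.Loc_zero]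
    rfl
  obtain ⟨u, -, hu⟩ := PerRet.exact_of_quasi hi t.ne_zero (hq t ht t.ne_zero) v
    (by rw [e1]; exact hP) (by rw [e2]; exact hD)
  exact ⟨u, by rw [← e2]; exact hu⟩

/-- the family `F` of weighted spaces is described by the retract -/
structure WFDesc (R : PerRet ℂ V U) (S : Scale ℂ V) (G : Gr ℂ V) (F : WF ℂ U) : Prop where
  mem : ∀ x y u, u ∈ F.V x y ↔ R.Loc u ∈ SqV S (wrate x y)
  le : ∀ x y s, ∃ c : ℝ, ∀ u : F.V x y,
    N2 (sf S (wrate x y) s (R.Loc (u : U))) ≤ c * (F.S x y).nrm s u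
  ge : ∀ x y s, ∃ c : ℝ, ∀ u : F.V x y,
    (F.S x y).nrm s u ≤ c * N2 (sf S (wrate x y) s (R.Loc (u : U)))
  deg : ∀ (q : ℤ) u n, R.Loc (F.π q u) n = gz G q (R.Loc u n)

/-- **`EInt` near an acyclic circle** -/
theorem PerCx.eint {R : PerRet ℂ V U} {D : Module.End ℂ U} {L : LData S G} (h : PerCx R D L)
    {F : WF ℂ U} (hF : WFDesc R S G F) (C : Cx F) (hC : ∀ u, C.D u = D u) {ρ : ℝ}
    (hex : L.ExactOn (Real.exp (-ρ))) : ∃ η > 0, EInt C (ρ - η) (ρ + η) := by
  obtain ⟨η, hη, hH⟩ := L.exists_homotopy (Real.exp_pos _) hex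
  refine ⟨η, hη, fun x hx y hy => ?_⟩
  obtain ⟨H, hH'⟩ := hH (wrate x y) (wrate_tame x y) (wrate_lip
    (abs_sub_le_iff.mpr ⟨by linarith [hx.2], by linarith [hx.1]⟩)
    (abs_sub_le_iff.mpr ⟨by linarith [hy.2], by linarith [hy.1]⟩))
  exact h.eh_of C hC (hF.mem x y) (hF.le x y) (hF.ge x y) hF.deg (wrate_tame x y) hH'


end

end Crest.Agent.R275.Sq617
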